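import Vale.Agent.Lib.P154.Chain.D5.L

set_option linter.all false

namespace Vale.Agent.Lib.P154.Chain.D5.S0

noncomputable def pc0 : PT := (PT.nd (nat_lit 838574) (PT.nd (nat_lit 542286) (PT.nd (nat_lit 423658) (PT.nd (nat_lit 305218) (PT.nd (nat_lit 245904) (PT.nd (nat_lit 186684) PT.nil (PT.lf (nat_lit 84) (nat_lit 3) (nat_lit 1) (nat_lit 1) (nat_lit 93) (nat_lit 3) (nat_lit 93))) (PT.nd (nat_lit 94) (PT.lf (nat_lit 168) (nat_lit 6) (nat_lit 2) (nat_lit 3) (nat_lit 92) (nat_lit 4) (nat_lit 93)) (PT.lf (nat_lit 168) (nat_lit 6) (nat_lit 2) (nat_lit 1) (nat_lit 93) (nat_lit 4) (nat_lit 92)))) (PT.nd (nat_lit 59220) (PT.lf (nat_lit 252) (nat_lit 3) (nat_lit 3) (nat_lit 1) (nat_lit 92) (nat_lit 5) (nat_lit 92)) (PT.nd (nat_lit 94) (PT.lf (nat_lit 336) (nat_lit 6) (nat_lit 4) (nat_lit 3) (nat_lit 91) (nat_lit 6) (nat_lit 92)) (PT.lf (nat_lit 336) (nat_lit 6) (nat_lit 4) (nat_lit 1) (nat_lit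 92) (nat_lit 6) (nat_lit 91))))) (PT.nd (nat_lit 59314) (PT.nd (nat_lit 94) (PT.lf (nat_lit 420) (nat_lit 6) (nat_lit 5) (nat_lit 3) (nat_lit 90) (nat_lit 7) (nat_lit 92)) (PT.nd (nat_lit 94) (PT.lf (nat_lit 504) (nat_lit 3) (nat_lit 6) (nat_lit 1) (nat_lit 91) (nat_lit 7) (nat_lit 91)) (PT.lf (nat_lit 420) (nat_lit 6) (nat_lit 5) (nat_lit 1) (nat_lit 92) (nat_lit 7) (nat_lit 90)))) (PT.nd (nat_lit 94) (PT.lf (nat_lit 588) (nat_lit 6) (nat_lit 7) (nat_lit 3) (nat_lit 90) (nat_lit 8) (nat_lit 91)) (PT.nd (nat_lit 59126) (PT.lf (nat_lit 588) (nat_lit 6) (nat_lit 7) (nat_lit 1) (nat_lit 91) (nat_lit 8) (nat_lit 90)) (PT.lf (nat_lit 672) (nat_lit 6) (nat_lit 8) (nat_lit 3) (nat_lit 89) (nat_lit 9) (nat_lit 91)))))) (PT.nd (nat_lit 118628) (PT.nd (nat_lit 59314) (PT.nd (nat_lit 94) (PT.lf (nat_lit 756) (nat_lit 3) (nat_lit 9) (nat_lit 1) (nat_lit 90) (nat_lit 9) (nat_lit 90)) (PT.nd (nat_lit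 59126) (PT.lf (nat_lit 672) (nat_lit 6) (nat_lit 8) (nat_lit 1) (nat_lit 91) (nat_lit 9) (nat_lit 89)) (PT.lf (nat_lit 840) (nat_lit 6) (nat_lit 10) (nat_lit 3) (nat_lit 89) (nat_lit 10) (nat_lit 90)))) (PT.nd (nat_lit 59126) (PT.lf (nat_lit 840) (nat_lit 6) (nat_lit 10) (nat_lit 1) (nat_lit 90) (nat_lit 10) (nat_lit 89)) (PT.nd (nat_lit 94) (PT.lf (nat_lit 924) (nat_lit 6) (nat_lit 11) (nat_lit 3) (nat_lit 88) (nat_lit 11) (nat_lit 90)) (PT.lf (nat_lit 1008) (nat_lit 3) (nat_lit 12) (nat_lit 1) (nat_lit 89) (nat_lit 11) (nat_lit 89))))) (PT.nd (nat_lit 118346) (PT.nd (nat_lit 59126) (PT.lf (nat_lit 924) (nat_lit 6) (nat_lit 11) (nat_lit 1) (nat_lit 90) (nat_lit 11) (nat_lit 88)) (PT.nd (nat_lit 94) (PT.lf (nat_lit 1092) (nat_lit 6) (nat_lit 13) (nat_lit 3) (nat_lit 88) (nat_lit 12) (nat_lit 89)) (PT.lf (nat_lit 1092) (nat_lit 6) (nat_lit 13) (nat_lit 1) (nat_lit 89) (nat_lit 12) (nat_lit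 88)))) (PT.nd (nat_lit 188) (PT.nd (nat_lit 94) (PT.lf (nat_lit 1176) (nat_lit 6) (nat_lit 14) (nat_lit 3) (nat_lit 87) (nat_lit 13) (nat_lit 89)) (PT.lf (nat_lit 1260) (nat_lit 3) (nat_lit 15) (nat_lit 1) (nat_lit 88) (nat_lit 13) (nat_lit 88))) (PT.nd (nat_lit 59032) (PT.lf (nat_lit 1176) (nat_lit 6) (nat_lit 14) (nat_lit 1) (nat_lit 89) (nat_lit 13) (nat_lit 87)) (PT.lf (nat_lit 1344) (nat_lit 6) (nat_lit 16) (nat_lit 3) (nat_lit 86) (nat_lit 14) (nat_lit 89))))))) (PT.nd (nat_lit 177942) (PT.nd (nat_lit 118440) (PT.nd (nat_lit 59220) (PT.nd (nat_lit 94) (PT.lf (nat_lit 1428) (nat_lit 6) (nat_lit 17) (nat_lit 3) (nat_lit 87) (nat_lit 14) (nat_lit 88)) (PT.nd (nat_lit 94) (PT.lf (nat_lit 1428) (nat_lit 6) (nat_lit 17) (nat_lit 1) (nat_lit 88) (nat_lit 14) (nat_lit 87)) (PT.lf (nat_lit 1344) (nat_lit 6) (nat_lit 16) (nat_lit 1) (nat_lit 89) (nat_lit 14) (nat_lit 86)))) (PT.nd (nat_lit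 94) (PT.lf (nat_lit 1512) (nat_lit 6) (nat_lit 18) (nat_lit 3) (nat_lit 86) (nat_lit 15) (nat_lit 88)) (PT.nd (nat_lit 94) (PT.lf (nat_lit 1596) (nat_lit 3) (nat_lit 19) (nat_lit 1) (nat_lit 87) (nat_lit 15) (nat_lit 87)) (PT.lf (nat_lit 1512) (nat_lit 6) (nat_lit 18) (nat_lit 1) (nat_lit 88) (nat_lit 15) (nat_lit 86))))) (PT.nd (nat_lit 282) (PT.nd (nat_lit 94) (PT.lf (nat_lit 1680) (nat_lit 6) (nat_lit 20) (nat_lit 3) (nat_lit 85) (nat_lit 16) (nat_lit 88)) (PT.nd (nat_lit 94) (PT.lf (nat_lit 1764) (nat_lit 6) (nat_lit 21) (nat_lit 3) (nat_lit 86) (nat_lit 16) (nat_lit 87)) (PT.lf (nat_lit 1764) (nat_lit 6) (nat_lit 21) (nat_lit 1) (nat_lit 87) (nat_lit 16) (nat_lit 86)))) (PT.nd (nat_lit 59032) (PT.lf (nat_lit 1680) (nat_lit 6) (nat_lit 20) (nat_lit 1) (nat_lit 88) (nat_lit 16) (nat_lit 85)) (PT.nd (nat_lit 94) (PT.lf (nat_lit 1848) (nat_lit 6) (nat_lit 22) (nat_lit 3) (nat_lit 85)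 (nat_lit 17) (nat_lit 87)) (PT.lf (nat_lit 1932) (nat_lit 3) (nat_lit 23) (nat_lit 1) (nat_lit 86) (nat_lit 17) (nat_lit 86)))))) (PT.nd (nat_lit 118346) (PT.nd (nat_lit 59220) (PT.nd (nat_lit 59032) (PT.lf (nat_lit 1848) (nat_lit 6) (nat_lit 22) (nat_lit 1) (nat_lit 87) (nat_lit 17) (nat_lit 85)) (PT.nd (nat_lit 94) (PT.lf (nat_lit 2016) (nat_lit 6) (nat_lit 24) (nat_lit 3) (nat_lit 84) (nat_lit 18) (nat_lit 87)) (PT.lf (nat_lit 2100) (nat_lit 6) (nat_lit 25) (nat_lit 3) (nat_lit 85) (nat_lit 18) (nat_lit 86)))) (PT.nd (nat_lit 94) (PT.lf (nat_lit 2100) (nat_lit 6) (nat_lit 25) (nat_lit 1) (nat_lit 86) (nat_lit 18) (nat_lit 85)) (PT.nd (nat_lit 58938) (PT.lf (nat_lit 2016) (nat_lit 6) (nat_lit 24) (nat_lit 1) (nat_lit 87) (nat_lit 18) (nat_lit 84)) (PT.lf (nat_lit 2184) (nat_lit 6) (nat_lit 26) (nat_lit 3) (nat_lit 83) (nat_lit 19) (nat_lit 87))))) (PT.nd (nat_lit 282) (PT.nd (nat_lit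 94) (PT.lf (nat_lit 2268) (nat_lit 6) (nat_lit 27) (nat_lit 3) (nat_lit 84) (nat_lit 19) (nat_lit 86)) (PT.nd (nat_lit 94) (PT.lf (nat_lit 2352) (nat_lit 3) (nat_lit 28) (nat_lit 1) (nat_lit 85) (nat_lit 19) (nat_lit 85)) (PT.lf (nat_lit 2268) (nat_lit 6) (nat_lit 27) (nat_lit 1) (nat_lit 86) (nat_lit 19) (nat_lit 84)))) (PT.nd (nat_lit 59032) (PT.nd (nat_lit 58938) (PT.lf (nat_lit 2184) (nat_lit 6) (nat_lit 26) (nat_lit 1) (nat_lit 87) (nat_lit 19) (nat_lit 83)) (PT.lf (nat_lit 2436) (nat_lit 6) (nat_lit 29) (nat_lit 3) (nat_lit 83) (nat_lit 20) (nat_lit 86))) (PT.nd (nat_lit 94) (PT.lf (nat_lit 2520) (nat_lit 6) (nat_lit 30) (nat_lit 3) (nat_lit 84) (nat_lit 20) (nat_lit 85)) (PT.lf (nat_lit 2520) (nat_lit 6) (nat_lit 30) (nat_lit 1) (nat_lit 85) (nat_lit 20) (nat_lit 84))))))))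
noncomputable def pc1 : PT := (PT.nd (nat_lit 296382) (PT.nd (nat_lit 177660) (PT.nd (nat_lit 118252) (PT.nd (nat_lit 59126) (PT.nd (nat_lit 58938) (PT.lf (nat_lit 2436) (nat_lit 6) (nat_lit 29) (nat_lit 1) (nat_lit 86) (nat_lit 20) (nat_lit 83)) (PT.nd (nat_lit 94) (PT.lf (nat_lit 2604) (nat_lit 6) (nat_lit 31) (nat_lit 3) (nat_lit 82) (nat_lit 21) (nat_lit 86)) (PT.lf (nat_lit 2688) (nat_lit 6) (nat_lit 32) (nat_lit 3) (nat_lit 83) (nat_lit 21) (nat_lit 85)))) (PT.nd (nat_lit 94) (PT.lf (nat_lit 2772) (nat_lit 3) (nat_lit 33) (nat_lit 1) (nat_lit 84) (nat_lit 21) (nat_lit 84)) (PT.nd (nat_lit 94) (PT.lf (nat_lit 2688) (nat_lit 6) (nat_lit 32) (nat_lit 1) (nat_lit 85) (nat_lit 21) (nat_lit 83)) (PT.lf (nat_lit 2604) (nat_lit 6) (nat_lit 31) (nat_lit 1) (nat_lit 86) (nat_lit 21) (nat_lit 82))))) (PT.nd (nat_lit 282) (PT.nd (nat_lit 94) (PT.lf (nat_lit 2856) (nat_lit 6) (nat_lit 34) (nat_lit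 3) (nat_lit 82) (nat_lit 22) (nat_lit 85)) (PT.nd (nat_lit 94) (PT.lf (nat_lit 2940) (nat_lit 6) (nat_lit 35) (nat_lit 3) (nat_lit 83) (nat_lit 22) (nat_lit 84)) (PT.lf (nat_lit 2940) (nat_lit 6) (nat_lit 35) (nat_lit 1) (nat_lit 84) (nat_lit 22) (nat_lit 83)))) (PT.nd (nat_lit 58938) (PT.lf (nat_lit 2856) (nat_lit 6) (nat_lit 34) (nat_lit 1) (nat_lit 85) (nat_lit 22) (nat_lit 82)) (PT.nd (nat_lit 94) (PT.lf (nat_lit 3024) (nat_lit 6) (nat_lit 36) (nat_lit 3) (nat_lit 81) (nat_lit 23) (nat_lit 85)) (PT.lf (nat_lit 3108) (nat_lit 6) (nat_lit 37) (nat_lit 3) (nat_lit 82) (nat_lit 23) (nat_lit 84)))))) (PT.nd (nat_lit 59314) (PT.nd (nat_lit 59032) (PT.nd (nat_lit 94) (PT.lf (nat_lit 3192) (nat_lit 3) (nat_lit 38) (nat_lit 1) (nat_lit 83) (nat_lit 23) (nat_lit 83)) (PT.nd (nat_lit 94) (PT.lf (nat_lit 3108) (nat_lit 6) (nat_lit 37) (nat_lit 1) (nat_lit 84) (nat_lit 23) (nat_lit 82)) (PT.lf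 (nat_lit 3024) (nat_lit 6) (nat_lit 36) (nat_lit 1) (nat_lit 85) (nat_lit 23) (nat_lit 81)))) (PT.nd (nat_lit 94) (PT.lf (nat_lit 3276) (nat_lit 6) (nat_lit 39) (nat_lit 3) (nat_lit 80) (nat_lit 24) (nat_lit 85)) (PT.nd (nat_lit 94) (PT.lf (nat_lit 3360) (nat_lit 6) (nat_lit 40) (nat_lit 3) (nat_lit 81) (nat_lit 24) (nat_lit 84)) (PT.lf (nat_lit 3444) (nat_lit 6) (nat_lit 41) (nat_lit 3) (nat_lit 82) (nat_lit 24) (nat_lit 83))))) (PT.nd (nat_lit 59032) (PT.nd (nat_lit 94) (PT.lf (nat_lit 3444) (nat_lit 6) (nat_lit 41) (nat_lit 1) (nat_lit 83) (nat_lit 24) (nat_lit 82)) (PT.nd (nat_lit 94) (PT.lf (nat_lit 3360) (nat_lit 6) (nat_lit 40) (nat_lit 1) (nat_lit 84) (nat_lit 24) (nat_lit 81)) (PT.lf (nat_lit 3276) (nat_lit 6) (nat_lit 39) (nat_lit 1) (nat_lit 85) (nat_lit 24) (nat_lit 80)))) (PT.nd (nat_lit 188) (PT.nd (nat_lit 94) (PT.lf (nat_lit 3528) (nat_lit 6) (nat_lit 42) (nat_lit 3) (nat_lit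 80) (nat_lit 25) (nat_lit 84)) (PT.lf (nat_lit 3612) (nat_lit 6) (nat_lit 43) (nat_lit 3) (nat_lit 81) (nat_lit 25) (nat_lit 83))) (PT.nd (nat_lit 94) (PT.lf (nat_lit 3696) (nat_lit 3) (nat_lit 44) (nat_lit 1) (nat_lit 82) (nat_lit 25) (nat_lit 82)) (PT.lf (nat_lit 3612) (nat_lit 6) (nat_lit 43) (nat_lit 1) (nat_lit 83) (nat_lit 25) (nat_lit 81))))))) (PT.nd (nat_lit 118534) (PT.nd (nat_lit 59314) (PT.nd (nat_lit 59032) (PT.nd (nat_lit 58844) (PT.lf (nat_lit 3528) (nat_lit 6) (nat_lit 42) (nat_lit 1) (nat_lit 84) (nat_lit 25) (nat_lit 80)) (PT.nd (nat_lit 94) (PT.lf (nat_lit 3780) (nat_lit 6) (nat_lit 45) (nat_lit 3) (nat_lit 79) (nat_lit 26) (nat_lit 84)) (PT.lf (nat_lit 3864) (nat_lit 6) (nat_lit 46) (nat_lit 3) (nat_lit 80) (nat_lit 26) (nat_lit 83)))) (PT.nd (nat_lit 94) (PT.lf (nat_lit 3948) (nat_lit 6) (nat_lit 47) (nat_lit 3) (nat_lit 81) (nat_lit 26) (nat_lit 82)) (PT.nd (nat_lit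 94) (PT.lf (nat_lit 3948) (nat_lit 6) (nat_lit 47) (nat_lit 1) (nat_lit 82) (nat_lit 26) (nat_lit 81)) (PT.lf (nat_lit 3864) (nat_lit 6) (nat_lit 46) (nat_lit 1) (nat_lit 83) (nat_lit 26) (nat_lit 80))))) (PT.nd (nat_lit 58938) (PT.nd (nat_lit 58750) (PT.lf (nat_lit 3780) (nat_lit 6) (nat_lit 45) (nat_lit 1) (nat_lit 84) (nat_lit 26) (nat_lit 79)) (PT.nd (nat_lit 94) (PT.lf (nat_lit 4032) (nat_lit 6) (nat_lit 48) (nat_lit 3) (nat_lit 78) (nat_lit 27) (nat_lit 84)) (PT.lf (nat_lit 4116) (nat_lit 6) (nat_lit 49) (nat_lit 3) (nat_lit 79) (nat_lit 27) (nat_lit 83)))) (PT.nd (nat_lit 94) (PT.lf (nat_lit 4200) (nat_lit 6) (nat_lit 50) (nat_lit 3) (nat_lit 80) (nat_lit 27) (nat_lit 82)) (PT.nd (nat_lit 94) (PT.lf (nat_lit 4284) (nat_lit 3) (nat_lit 51) (nat_lit 1) (nat_lit 81) (nat_lit 27) (nat_lit 81)) (PT.lf (nat_lit 4200) (nat_lit 6) (nat_lit 50) (nat_lit 1) (nat_lit 82) (nat_lit 27) (nat_lit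 80)))))) (PT.nd (nat_lit 59220) (PT.nd (nat_lit 58938) (PT.nd (nat_lit 94) (PT.lf (nat_lit 4116) (nat_lit 6) (nat_lit 49) (nat_lit 1) (nat_lit 83) (nat_lit 27) (nat_lit 79)) (PT.nd (nat_lit 58750) (PT.lf (nat_lit 4032) (nat_lit 6) (nat_lit 48) (nat_lit 1) (nat_lit 84) (nat_lit 27) (nat_lit 78)) (PT.lf (nat_lit 4368) (nat_lit 6) (nat_lit 52) (nat_lit 3) (nat_lit 78) (nat_lit 28) (nat_lit 83)))) (PT.nd (nat_lit 94) (PT.lf (nat_lit 4452) (nat_lit 6) (nat_lit 53) (nat_lit 3) (nat_lit 79) (nat_lit 28) (nat_lit 82)) (PT.nd (nat_lit 94) (PT.lf (nat_lit 4536) (nat_lit 6) (nat_lit 54) (nat_lit 3) (nat_lit 80) (nat_lit 28) (nat_lit 81)) (PT.lf (nat_lit 4536) (nat_lit 6) (nat_lit 54) (nat_lit 1) (nat_lit 81) (nat_lit 28) (nat_lit 80))))) (PT.nd (nat_lit 58938) (PT.nd (nat_lit 94) (PT.lf (nat_lit 4452) (nat_lit 6) (nat_lit 53) (nat_lit 1) (nat_lit 82) (nat_lit 28) (nat_lit 79)) (PT.nd (nat_lit 58750)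 (PT.lf (nat_lit 4368) (nat_lit 6) (nat_lit 52) (nat_lit 1) (nat_lit 83) (nat_lit 28) (nat_lit 78)) (PT.lf (nat_lit 4620) (nat_lit 6) (nat_lit 55) (nat_lit 3) (nat_lit 77) (nat_lit 29) (nat_lit 83)))) (PT.nd (nat_lit 188) (PT.nd (nat_lit 94) (PT.lf (nat_lit 4704) (nat_lit 6) (nat_lit 56) (nat_lit 3) (nat_lit 78) (nat_lit 29) (nat_lit 82)) (PT.lf (nat_lit 4788) (nat_lit 6) (nat_lit 57) (nat_lit 3) (nat_lit 79) (nat_lit 29) (nat_lit 81))) (PT.nd (nat_lit 94) (PT.lf (nat_lit 4872) (nat_lit 3) (nat_lit 58) (nat_lit 1) (nat_lit 80) (nat_lit 29) (nat_lit 80)) (PT.lf (nat_lit 4788) (nat_lit 6) (nat_lit 57) (nat_lit 1) (nat_lit 81) (nat_lit 29) (nat_lit 79))))))))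
noncomputable def pc2 : PT := (PT.nd (nat_lit 236504) (PT.nd (nat_lit 118252) (PT.nd (nat_lit 59126) (PT.nd (nat_lit 58844) (PT.nd (nat_lit 94) (PT.lf (nat_lit 4704) (nat_lit 6) (nat_lit 56) (nat_lit 1) (nat_lit 82) (nat_lit 29) (nat_lit 78)) (PT.nd (nat_lit 58656) (PT.lf (nat_lit 4620) (nat_lit 6) (nat_lit 55) (nat_lit 1) (nat_lit 83) (nat_lit 29) (nat_lit 77)) (PT.lf (nat_lit 4956) (nat_lit 6) (nat_lit 59) (nat_lit 3) (nat_lit 76) (nat_lit 30) (nat_lit 83)))) (PT.nd (nat_lit 94) (PT.lf (nat_lit 5040) (nat_lit 6) (nat_lit 60) (nat_lit 3) (nat_lit 77) (nat_lit 30) (nat_lit 82)) (PT.nd (nat_lit 94) (PT.lf (nat_lit 5124) (nat_lit 6) (nat_lit 61) (nat_lit 3) (nat_lit 78) (nat_lit 30) (nat_lit 81)) (PT.lf (nat_lit 5208) (nat_lit 6) (nat_lit 62) (nat_lit 3) (nat_lit 79) (nat_lit 30) (nat_lit 80))))) (PT.nd (nat_lit 282) (PT.nd (nat_lit 94) (PT.lf (nat_lit 5208) (nat_lit 6) (nat_lit 62) (nat_lit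 1) (nat_lit 80) (nat_lit 30) (nat_lit 79)) (PT.nd (nat_lit 94) (PT.lf (nat_lit 5124) (nat_lit 6) (nat_lit 61) (nat_lit 1) (nat_lit 81) (nat_lit 30) (nat_lit 78)) (PT.lf (nat_lit 5040) (nat_lit 6) (nat_lit 60) (nat_lit 1) (nat_lit 82) (nat_lit 30) (nat_lit 77)))) (PT.nd (nat_lit 58656) (PT.lf (nat_lit 4956) (nat_lit 6) (nat_lit 59) (nat_lit 1) (nat_lit 83) (nat_lit 30) (nat_lit 76)) (PT.nd (nat_lit 94) (PT.lf (nat_lit 5292) (nat_lit 6) (nat_lit 63) (nat_lit 3) (nat_lit 76) (nat_lit 31) (nat_lit 82)) (PT.lf (nat_lit 5376) (nat_lit 6) (nat_lit 64) (nat_lit 3) (nat_lit 77) (nat_lit 31) (nat_lit 81)))))) (PT.nd (nat_lit 59126) (PT.nd (nat_lit 282) (PT.nd (nat_lit 94) (PT.lf (nat_lit 5460) (nat_lit 6) (nat_lit 65) (nat_lit 3) (nat_lit 78) (nat_lit 31) (nat_lit 80)) (PT.nd (nat_lit 94) (PT.lf (nat_lit 5544) (nat_lit 3) (nat_lit 66) (nat_lit 1) (nat_lit 79) (nat_lit 31) (nat_lit 79)) (PT.lf (nat_lit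 5460) (nat_lit 6) (nat_lit 65) (nat_lit 1) (nat_lit 80) (nat_lit 31) (nat_lit 78)))) (PT.nd (nat_lit 94) (PT.lf (nat_lit 5376) (nat_lit 6) (nat_lit 64) (nat_lit 1) (nat_lit 81) (nat_lit 31) (nat_lit 77)) (PT.nd (nat_lit 58656) (PT.lf (nat_lit 5292) (nat_lit 6) (nat_lit 63) (nat_lit 1) (nat_lit 82) (nat_lit 31) (nat_lit 76)) (PT.lf (nat_lit 5628) (nat_lit 6) (nat_lit 67) (nat_lit 3) (nat_lit 75) (nat_lit 32) (nat_lit 82))))) (PT.nd (nat_lit 282) (PT.nd (nat_lit 94) (PT.lf (nat_lit 5712) (nat_lit 6) (nat_lit 68) (nat_lit 3) (nat_lit 76) (nat_lit 32) (nat_lit 81)) (PT.nd (nat_lit 94) (PT.lf (nat_lit 5796) (nat_lit 6) (nat_lit 69) (nat_lit 3) (nat_lit 77) (nat_lit 32) (nat_lit 80)) (PT.lf (nat_lit 5880) (nat_lit 6) (nat_lit 70) (nat_lit 3) (nat_lit 78) (nat_lit 32) (nat_lit 79)))) (PT.nd (nat_lit 188) (PT.nd (nat_lit 94) (PT.lf (nat_lit 5880) (nat_lit 6) (nat_lit 70) (nat_lit 1) (nat_lit 79)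 (nat_lit 32) (nat_lit 78)) (PT.lf (nat_lit 5796) (nat_lit 6) (nat_lit 69) (nat_lit 1) (nat_lit 80) (nat_lit 32) (nat_lit 77))) (PT.nd (nat_lit 94) (PT.lf (nat_lit 5712) (nat_lit 6) (nat_lit 68) (nat_lit 1) (nat_lit 81) (nat_lit 32) (nat_lit 76)) (PT.lf (nat_lit 5628) (nat_lit 6) (nat_lit 67) (nat_lit 1) (nat_lit 82) (nat_lit 32) (nat_lit 75))))))) (PT.nd (nat_lit 59596) (PT.nd (nat_lit 564) (PT.nd (nat_lit 282) (PT.nd (nat_lit 94) (PT.lf (nat_lit 5964) (nat_lit 6) (nat_lit 71) (nat_lit 3) (nat_lit 74) (nat_lit 33) (nat_lit 82)) (PT.nd (nat_lit 94) (PT.lf (nat_lit 6048) (nat_lit 6) (nat_lit 72) (nat_lit 3) (nat_lit 75) (nat_lit 33) (nat_lit 81)) (PT.lf (nat_lit 6132) (nat_lit 6) (nat_lit 73) (nat_lit 3) (nat_lit 76) (nat_lit 33) (nat_lit 80)))) (PT.nd (nat_lit 94) (PT.lf (nat_lit 6216) (nat_lit 6) (nat_lit 74) (nat_lit 3) (nat_lit 77) (nat_lit 33) (nat_lit 79)) (PT.nd (nat_lit 94) (PT.lf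 (nat_lit 6300) (nat_lit 3) (nat_lit 75) (nat_lit 1) (nat_lit 78) (nat_lit 33) (nat_lit 78)) (PT.lf (nat_lit 6216) (nat_lit 6) (nat_lit 74) (nat_lit 1) (nat_lit 79) (nat_lit 33) (nat_lit 77))))) (PT.nd (nat_lit 58750) (PT.nd (nat_lit 94) (PT.lf (nat_lit 6132) (nat_lit 6) (nat_lit 73) (nat_lit 1) (nat_lit 80) (nat_lit 33) (nat_lit 76)) (PT.nd (nat_lit 94) (PT.lf (nat_lit 6048) (nat_lit 6) (nat_lit 72) (nat_lit 1) (nat_lit 81) (nat_lit 33) (nat_lit 75)) (PT.lf (nat_lit 5964) (nat_lit 6) (nat_lit 71) (nat_lit 1) (nat_lit 82) (nat_lit 33) (nat_lit 74)))) (PT.nd (nat_lit 94) (PT.lf (nat_lit 6384) (nat_lit 6) (nat_lit 76) (nat_lit 3) (nat_lit 74) (nat_lit 34) (nat_lit 81)) (PT.nd (nat_lit 94) (PT.lf (nat_lit 6468) (nat_lit 6) (nat_lit 77) (nat_lit 3) (nat_lit 75) (nat_lit 34) (nat_lit 80)) (PT.lf (nat_lit 6552) (nat_lit 6) (nat_lit 78) (nat_lit 3) (nat_lit 76) (nat_lit 34) (nat_lit 79)))))) (PT.nd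 (nat_lit 59032) (PT.nd (nat_lit 282) (PT.nd (nat_lit 94) (PT.lf (nat_lit 6636) (nat_lit 6) (nat_lit 79) (nat_lit 3) (nat_lit 77) (nat_lit 34) (nat_lit 78)) (PT.nd (nat_lit 94) (PT.lf (nat_lit 6636) (nat_lit 6) (nat_lit 79) (nat_lit 1) (nat_lit 78) (nat_lit 34) (nat_lit 77)) (PT.lf (nat_lit 6552) (nat_lit 6) (nat_lit 78) (nat_lit 1) (nat_lit 79) (nat_lit 34) (nat_lit 76)))) (PT.nd (nat_lit 94) (PT.lf (nat_lit 6468) (nat_lit 6) (nat_lit 77) (nat_lit 1) (nat_lit 80) (nat_lit 34) (nat_lit 75)) (PT.nd (nat_lit 58562) (PT.lf (nat_lit 6384) (nat_lit 6) (nat_lit 76) (nat_lit 1) (nat_lit 81) (nat_lit 34) (nat_lit 74)) (PT.lf (nat_lit 6720) (nat_lit 6) (nat_lit 80) (nat_lit 3) (nat_lit 73) (nat_lit 35) (nat_lit 81))))) (PT.nd (nat_lit 282) (PT.nd (nat_lit 94) (PT.lf (nat_lit 6804) (nat_lit 6) (nat_lit 81) (nat_lit 3) (nat_lit 74) (nat_lit 35) (nat_lit 80)) (PT.nd (nat_lit 94) (PT.lf (nat_lit 6888)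 (nat_lit 6) (nat_lit 82) (nat_lit 3) (nat_lit 75) (nat_lit 35) (nat_lit 79)) (PT.lf (nat_lit 6972) (nat_lit 6) (nat_lit 83) (nat_lit 3) (nat_lit 76) (nat_lit 35) (nat_lit 78)))) (PT.nd (nat_lit 188) (PT.nd (nat_lit 94) (PT.lf (nat_lit 7056) (nat_lit 3) (nat_lit 84) (nat_lit 1) (nat_lit 77) (nat_lit 35) (nat_lit 77)) (PT.lf (nat_lit 6972) (nat_lit 6) (nat_lit 83) (nat_lit 1) (nat_lit 78) (nat_lit 35) (nat_lit 76))) (PT.nd (nat_lit 94) (PT.lf (nat_lit 6888) (nat_lit 6) (nat_lit 82) (nat_lit 1) (nat_lit 79) (nat_lit 35) (nat_lit 75)) (PT.lf (nat_lit 6804) (nat_lit 6) (nat_lit 81) (nat_lit 1) (nat_lit 80) (nat_lit 35) (nat_lit 74))))))))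
noncomputable def pc3 : PT := (PT.nd (nat_lit 177472) (PT.nd (nat_lit 117876) (PT.nd (nat_lit 58938) (PT.nd (nat_lit 58656) (PT.nd (nat_lit 58468) (PT.lf (nat_lit 6720) (nat_lit 6) (nat_lit 80) (nat_lit 1) (nat_lit 81) (nat_lit 35) (nat_lit 73)) (PT.nd (nat_lit 94) (PT.lf (nat_lit 7140) (nat_lit 6) (nat_lit 85) (nat_lit 3) (nat_lit 72) (nat_lit 36) (nat_lit 81)) (PT.lf (nat_lit 7224) (nat_lit 6) (nat_lit 86) (nat_lit 3) (nat_lit 73) (nat_lit 36) (nat_lit 80)))) (PT.nd (nat_lit 94) (PT.lf (nat_lit 7308) (nat_lit 6) (nat_lit 87) (nat_lit 3) (nat_lit 74) (nat_lit 36) (nat_lit 79)) (PT.nd (nat_lit 94) (PT.lf (nat_lit 7392) (nat_lit 6) (nat_lit 88) (nat_lit 3) (nat_lit 75) (nat_lit 36) (nat_lit 78)) (PT.lf (nat_lit 7476) (nat_lit 6) (nat_lit 89) (nat_lit 3) (nat_lit 76) (nat_lit 36) (nat_lit 77))))) (PT.nd (nat_lit 282) (PT.nd (nat_lit 94) (PT.lf (nat_lit 7476) (nat_lit 6) (nat_lit 89) (nat_lit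 1) (nat_lit 77) (nat_lit 36) (nat_lit 76)) (PT.nd (nat_lit 94) (PT.lf (nat_lit 7392) (nat_lit 6) (nat_lit 88) (nat_lit 1) (nat_lit 78) (nat_lit 36) (nat_lit 75)) (PT.lf (nat_lit 7308) (nat_lit 6) (nat_lit 87) (nat_lit 1) (nat_lit 79) (nat_lit 36) (nat_lit 74)))) (PT.nd (nat_lit 94) (PT.lf (nat_lit 7224) (nat_lit 6) (nat_lit 86) (nat_lit 1) (nat_lit 80) (nat_lit 36) (nat_lit 73)) (PT.nd (nat_lit 58468) (PT.lf (nat_lit 7140) (nat_lit 6) (nat_lit 85) (nat_lit 1) (nat_lit 81) (nat_lit 36) (nat_lit 72)) (PT.lf (nat_lit 7560) (nat_lit 6) (nat_lit 90) (nat_lit 3) (nat_lit 72) (nat_lit 37) (nat_lit 80)))))) (PT.nd (nat_lit 564) (PT.nd (nat_lit 282) (PT.nd (nat_lit 94) (PT.lf (nat_lit 7644) (nat_lit 6) (nat_lit 91) (nat_lit 3) (nat_lit 73) (nat_lit 37) (nat_lit 79)) (PT.nd (nat_lit 94) (PT.lf (nat_lit 7728) (nat_lit 6) (nat_lit 92) (nat_lit 3) (nat_lit 74) (nat_lit 37) (nat_lit 78)) (PT.lf (nat_lit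 7812) (nat_lit 6) (nat_lit 93) (nat_lit 3) (nat_lit 75) (nat_lit 37) (nat_lit 77)))) (PT.nd (nat_lit 94) (PT.lf (nat_lit 7896) (nat_lit 3) (nat_lit 94) (nat_lit 1) (nat_lit 76) (nat_lit 37) (nat_lit 76)) (PT.nd (nat_lit 94) (PT.lf (nat_lit 7812) (nat_lit 6) (nat_lit 93) (nat_lit 1) (nat_lit 77) (nat_lit 37) (nat_lit 75)) (PT.lf (nat_lit 7728) (nat_lit 6) (nat_lit 92) (nat_lit 1) (nat_lit 78) (nat_lit 37) (nat_lit 74))))) (PT.nd (nat_lit 58656) (PT.nd (nat_lit 94) (PT.lf (nat_lit 7644) (nat_lit 6) (nat_lit 91) (nat_lit 1) (nat_lit 79) (nat_lit 37) (nat_lit 73)) (PT.nd (nat_lit 58468) (PT.lf (nat_lit 7560) (nat_lit 6) (nat_lit 90) (nat_lit 1) (nat_lit 80) (nat_lit 37) (nat_lit 72)) (PT.lf (nat_lit 7980) (nat_lit 6) (nat_lit 95) (nat_lit 3) (nat_lit 71) (nat_lit 38) (nat_lit 80)))) (PT.nd (nat_lit 188) (PT.nd (nat_lit 94) (PT.lf (nat_lit 8064) (nat_lit 6) (nat_lit 96) (nat_lit 3) (nat_lit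 72) (nat_lit 38) (nat_lit 79)) (PT.lf (nat_lit 8148) (nat_lit 6) (nat_lit 97) (nat_lit 3) (nat_lit 73) (nat_lit 38) (nat_lit 78))) (PT.nd (nat_lit 94) (PT.lf (nat_lit 8232) (nat_lit 6) (nat_lit 98) (nat_lit 3) (nat_lit 74) (nat_lit 38) (nat_lit 77)) (PT.lf (nat_lit 8316) (nat_lit 6) (nat_lit 99) (nat_lit 3) (nat_lit 75) (nat_lit 38) (nat_lit 76))))))) (PT.nd (nat_lit 59502) (PT.nd (nat_lit 58844) (PT.nd (nat_lit 282) (PT.nd (nat_lit 94) (PT.lf (nat_lit 8316) (nat_lit 6) (nat_lit 99) (nat_lit 1) (nat_lit 76) (nat_lit 38) (nat_lit 75)) (PT.nd (nat_lit 94) (PT.lf (nat_lit 8232) (nat_lit 6) (nat_lit 98) (nat_lit 1) (nat_lit 77) (nat_lit 38) (nat_lit 74)) (PT.lf (nat_lit 8148) (nat_lit 6) (nat_lit 97) (nat_lit 1) (nat_lit 78) (nat_lit 38) (nat_lit 73)))) (PT.nd (nat_lit 94) (PT.lf (nat_lit 8064) (nat_lit 6) (nat_lit 96) (nat_lit 1) (nat_lit 79) (nat_lit 38) (nat_lit 72)) (PT.nd (nat_lit 58374)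 (PT.lf (nat_lit 7980) (nat_lit 6) (nat_lit 95) (nat_lit 1) (nat_lit 80) (nat_lit 38) (nat_lit 71)) (PT.lf (nat_lit 8400) (nat_lit 6) (nat_lit 100) (nat_lit 3) (nat_lit 70) (nat_lit 39) (nat_lit 80))))) (PT.nd (nat_lit 282) (PT.nd (nat_lit 94) (PT.lf (nat_lit 8484) (nat_lit 6) (nat_lit 101) (nat_lit 3) (nat_lit 71) (nat_lit 39) (nat_lit 79)) (PT.nd (nat_lit 94) (PT.lf (nat_lit 8568) (nat_lit 6) (nat_lit 102) (nat_lit 3) (nat_lit 72) (nat_lit 39) (nat_lit 78)) (PT.lf (nat_lit 8652) (nat_lit 6) (nat_lit 103) (nat_lit 3) (nat_lit 73) (nat_lit 39) (nat_lit 77)))) (PT.nd (nat_lit 188) (PT.nd (nat_lit 94) (PT.lf (nat_lit 8736) (nat_lit 6) (nat_lit 104) (nat_lit 3) (nat_lit 74) (nat_lit 39) (nat_lit 76)) (PT.lf (nat_lit 8820) (nat_lit 3) (nat_lit 105) (nat_lit 1) (nat_lit 75) (nat_lit 39) (nat_lit 75))) (PT.nd (nat_lit 94) (PT.lf (nat_lit 8736) (nat_lit 6) (nat_lit 104) (nat_lit 1) (nat_lit 76)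 (nat_lit 39) (nat_lit 74)) (PT.lf (nat_lit 8652) (nat_lit 6) (nat_lit 103) (nat_lit 1) (nat_lit 77) (nat_lit 39) (nat_lit 73)))))) (PT.nd (nat_lit 58750) (PT.nd (nat_lit 58468) (PT.nd (nat_lit 94) (PT.lf (nat_lit 8568) (nat_lit 6) (nat_lit 102) (nat_lit 1) (nat_lit 78) (nat_lit 39) (nat_lit 72)) (PT.nd (nat_lit 94) (PT.lf (nat_lit 8484) (nat_lit 6) (nat_lit 101) (nat_lit 1) (nat_lit 79) (nat_lit 39) (nat_lit 71)) (PT.lf (nat_lit 8400) (nat_lit 6) (nat_lit 100) (nat_lit 1) (nat_lit 80) (nat_lit 39) (nat_lit 70)))) (PT.nd (nat_lit 94) (PT.lf (nat_lit 8904) (nat_lit 6) (nat_lit 106) (nat_lit 3) (nat_lit 69) (nat_lit 40) (nat_lit 80)) (PT.nd (nat_lit 94) (PT.lf (nat_lit 8988) (nat_lit 6) (nat_lit 107) (nat_lit 3) (nat_lit 70) (nat_lit 40) (nat_lit 79)) (PT.lf (nat_lit 9072) (nat_lit 6) (nat_lit 108) (nat_lit 3) (nat_lit 71) (nat_lit 40) (nat_lit 78))))) (PT.nd (nat_lit 282) (PT.nd (nat_lit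 94) (PT.lf (nat_lit 9156) (nat_lit 6) (nat_lit 109) (nat_lit 3) (nat_lit 72) (nat_lit 40) (nat_lit 77)) (PT.nd (nat_lit 94) (PT.lf (nat_lit 9240) (nat_lit 6) (nat_lit 110) (nat_lit 3) (nat_lit 73) (nat_lit 40) (nat_lit 76)) (PT.lf (nat_lit 9324) (nat_lit 6) (nat_lit 111) (nat_lit 3) (nat_lit 74) (nat_lit 40) (nat_lit 75)))) (PT.nd (nat_lit 188) (PT.nd (nat_lit 94) (PT.lf (nat_lit 9324) (nat_lit 6) (nat_lit 111) (nat_lit 1) (nat_lit 75) (nat_lit 40) (nat_lit 74)) (PT.lf (nat_lit 9240) (nat_lit 6) (nat_lit 110) (nat_lit 1) (nat_lit 76) (nat_lit 40) (nat_lit 73))) (PT.nd (nat_lit 94) (PT.lf (nat_lit 9156) (nat_lit 6) (nat_lit 109) (nat_lit 1) (nat_lit 77) (nat_lit 40) (nat_lit 72)) (PT.lf (nat_lit 9072) (nat_lit 6) (nat_lit 108) (nat_lit 1) (nat_lit 78) (nat_lit 40) (nat_lit 71))))))))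
noncomputable def pc4 : PT := (PT.nd (nat_lit 176814) (PT.nd (nat_lit 59314) (PT.nd (nat_lit 58750) (PT.nd (nat_lit 58468) (PT.nd (nat_lit 94) (PT.lf (nat_lit 8988) (nat_lit 6) (nat_lit 107) (nat_lit 1) (nat_lit 79) (nat_lit 40) (nat_lit 70)) (PT.nd (nat_lit 58280) (PT.lf (nat_lit 8904) (nat_lit 6) (nat_lit 106) (nat_lit 1) (nat_lit 80) (nat_lit 40) (nat_lit 69)) (PT.lf (nat_lit 9408) (nat_lit 6) (nat_lit 112) (nat_lit 3) (nat_lit 69) (nat_lit 41) (nat_lit 79)))) (PT.nd (nat_lit 94) (PT.lf (nat_lit 9492) (nat_lit 6) (nat_lit 113) (nat_lit 3) (nat_lit 70) (nat_lit 41) (nat_lit 78)) (PT.nd (nat_lit 94) (PT.lf (nat_lit 9576) (nat_lit 6) (nat_lit 114) (nat_lit 3) (nat_lit 71) (nat_lit 41) (nat_lit 77)) (PT.lf (nat_lit 9660) (nat_lit 6) (nat_lit 115) (nat_lit 3) (nat_lit 72) (nat_lit 41) (nat_lit 76))))) (PT.nd (nat_lit 282) (PT.nd (nat_lit 94) (PT.lf (nat_lit 9744) (nat_lit 6) (nat_lit 116)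 (nat_lit 3) (nat_lit 73) (nat_lit 41) (nat_lit 75)) (PT.nd (nat_lit 94) (PT.lf (nat_lit 9828) (nat_lit 3) (nat_lit 117) (nat_lit 1) (nat_lit 74) (nat_lit 41) (nat_lit 74)) (PT.lf (nat_lit 9744) (nat_lit 6) (nat_lit 116) (nat_lit 1) (nat_lit 75) (nat_lit 41) (nat_lit 73)))) (PT.nd (nat_lit 94) (PT.lf (nat_lit 9660) (nat_lit 6) (nat_lit 115) (nat_lit 1) (nat_lit 76) (nat_lit 41) (nat_lit 72)) (PT.nd (nat_lit 94) (PT.lf (nat_lit 9576) (nat_lit 6) (nat_lit 114) (nat_lit 1) (nat_lit 77) (nat_lit 41) (nat_lit 71)) (PT.lf (nat_lit 9492) (nat_lit 6) (nat_lit 113) (nat_lit 1) (nat_lit 78) (nat_lit 41) (nat_lit 70)))))) (PT.nd (nat_lit 58750) (PT.nd (nat_lit 58468) (PT.nd (nat_lit 58280) (PT.lf (nat_lit 9408) (nat_lit 6) (nat_lit 112) (nat_lit 1) (nat_lit 79) (nat_lit 41) (nat_lit 69)) (PT.nd (nat_lit 94) (PT.lf (nat_lit 9912) (nat_lit 6) (nat_lit 118) (nat_lit 3) (nat_lit 68) (nat_lit 42) (nat_lit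 79)) (PT.lf (nat_lit 9996) (nat_lit 6) (nat_lit 119) (nat_lit 3) (nat_lit 69) (nat_lit 42) (nat_lit 78)))) (PT.nd (nat_lit 94) (PT.lf (nat_lit 10080) (nat_lit 6) (nat_lit 120) (nat_lit 3) (nat_lit 70) (nat_lit 42) (nat_lit 77)) (PT.nd (nat_lit 94) (PT.lf (nat_lit 10164) (nat_lit 6) (nat_lit 121) (nat_lit 3) (nat_lit 71) (nat_lit 42) (nat_lit 76)) (PT.lf (nat_lit 10248) (nat_lit 6) (nat_lit 122) (nat_lit 3) (nat_lit 72) (nat_lit 42) (nat_lit 75))))) (PT.nd (nat_lit 282) (PT.nd (nat_lit 94) (PT.lf (nat_lit 10332) (nat_lit 6) (nat_lit 123) (nat_lit 3) (nat_lit 73) (nat_lit 42) (nat_lit 74)) (PT.nd (nat_lit 94) (PT.lf (nat_lit 10332) (nat_lit 6) (nat_lit 123) (nat_lit 1) (nat_lit 74) (nat_lit 42) (nat_lit 73)) (PT.lf (nat_lit 10248) (nat_lit 6) (nat_lit 122) (nat_lit 1) (nat_lit 75) (nat_lit 42) (nat_lit 72)))) (PT.nd (nat_lit 188) (PT.nd (nat_lit 94) (PT.lf (nat_lit 10164) (nat_lit 6) (nat_lit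 121) (nat_lit 1) (nat_lit 76) (nat_lit 42) (nat_lit 71)) (PT.lf (nat_lit 10080) (nat_lit 6) (nat_lit 120) (nat_lit 1) (nat_lit 77) (nat_lit 42) (nat_lit 70))) (PT.nd (nat_lit 94) (PT.lf (nat_lit 9996) (nat_lit 6) (nat_lit 119) (nat_lit 1) (nat_lit 78) (nat_lit 42) (nat_lit 69)) (PT.lf (nat_lit 9912) (nat_lit 6) (nat_lit 118) (nat_lit 1) (nat_lit 79) (nat_lit 42) (nat_lit 68))))))) (PT.nd (nat_lit 1128) (PT.nd (nat_lit 564) (PT.nd (nat_lit 282) (PT.nd (nat_lit 94) (PT.lf (nat_lit 10416) (nat_lit 6) (nat_lit 124) (nat_lit 3) (nat_lit 67) (nat_lit 43) (nat_lit 79)) (PT.nd (nat_lit 94) (PT.lf (nat_lit 10500) (nat_lit 6) (nat_lit 125) (nat_lit 3) (nat_lit 68) (nat_lit 43) (nat_lit 78)) (PT.lf (nat_lit 10584) (nat_lit 6) (nat_lit 126) (nat_lit 3) (nat_lit 69) (nat_lit 43) (nat_lit 77)))) (PT.nd (nat_lit 94) (PT.lf (nat_lit 10668) (nat_lit 6) (nat_lit 127) (nat_lit 3) (nat_lit 70) (nat_lit 43)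 (nat_lit 76)) (PT.nd (nat_lit 94) (PT.lf (nat_lit 10752) (nat_lit 6) (nat_lit 128) (nat_lit 3) (nat_lit 71) (nat_lit 43) (nat_lit 75)) (PT.lf (nat_lit 10836) (nat_lit 6) (nat_lit 129) (nat_lit 3) (nat_lit 72) (nat_lit 43) (nat_lit 74))))) (PT.nd (nat_lit 282) (PT.nd (nat_lit 94) (PT.lf (nat_lit 10920) (nat_lit 3) (nat_lit 130) (nat_lit 1) (nat_lit 73) (nat_lit 43) (nat_lit 73)) (PT.nd (nat_lit 94) (PT.lf (nat_lit 10836) (nat_lit 6) (nat_lit 129) (nat_lit 1) (nat_lit 74) (nat_lit 43) (nat_lit 72)) (PT.lf (nat_lit 10752) (nat_lit 6) (nat_lit 128) (nat_lit 1) (nat_lit 75) (nat_lit 43) (nat_lit 71)))) (PT.nd (nat_lit 94) (PT.lf (nat_lit 10668) (nat_lit 6) (nat_lit 127) (nat_lit 1) (nat_lit 76) (nat_lit 43) (nat_lit 70)) (PT.nd (nat_lit 94) (PT.lf (nat_lit 10584) (nat_lit 6) (nat_lit 126) (nat_lit 1) (nat_lit 77) (nat_lit 43) (nat_lit 69)) (PT.lf (nat_lit 10500) (nat_lit 6) (nat_lit 125) (nat_lit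 1) (nat_lit 78) (nat_lit 43) (nat_lit 68)))))) (PT.nd (nat_lit 58562) (PT.nd (nat_lit 58280) (PT.nd (nat_lit 58092) (PT.lf (nat_lit 10416) (nat_lit 6) (nat_lit 124) (nat_lit 1) (nat_lit 79) (nat_lit 43) (nat_lit 67)) (PT.nd (nat_lit 94) (PT.lf (nat_lit 11004) (nat_lit 6) (nat_lit 131) (nat_lit 3) (nat_lit 66) (nat_lit 44) (nat_lit 79)) (PT.lf (nat_lit 11088) (nat_lit 6) (nat_lit 132) (nat_lit 3) (nat_lit 67) (nat_lit 44) (nat_lit 78)))) (PT.nd (nat_lit 94) (PT.lf (nat_lit 11172) (nat_lit 6) (nat_lit 133) (nat_lit 3) (nat_lit 68) (nat_lit 44) (nat_lit 77)) (PT.nd (nat_lit 94) (PT.lf (nat_lit 11256) (nat_lit 6) (nat_lit 134) (nat_lit 3) (nat_lit 69) (nat_lit 44) (nat_lit 76)) (PT.lf (nat_lit 11340) (nat_lit 6) (nat_lit 135) (nat_lit 3) (nat_lit 70) (nat_lit 44) (nat_lit 75))))) (PT.nd (nat_lit 282) (PT.nd (nat_lit 94) (PT.lf (nat_lit 11424) (nat_lit 6) (nat_lit 136) (nat_lit 3) (nat_lit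 71) (nat_lit 44) (nat_lit 74)) (PT.nd (nat_lit 94) (PT.lf (nat_lit 11508) (nat_lit 6) (nat_lit 137) (nat_lit 3) (nat_lit 72) (nat_lit 44) (nat_lit 73)) (PT.lf (nat_lit 11508) (nat_lit 6) (nat_lit 137) (nat_lit 1) (nat_lit 73) (nat_lit 44) (nat_lit 72)))) (PT.nd (nat_lit 188) (PT.nd (nat_lit 94) (PT.lf (nat_lit 11424) (nat_lit 6) (nat_lit 136) (nat_lit 1) (nat_lit 74) (nat_lit 44) (nat_lit 71)) (PT.lf (nat_lit 11340) (nat_lit 6) (nat_lit 135) (nat_lit 1) (nat_lit 75) (nat_lit 44) (nat_lit 70))) (PT.nd (nat_lit 94) (PT.lf (nat_lit 11256) (nat_lit 6) (nat_lit 134) (nat_lit 1) (nat_lit 76) (nat_lit 44) (nat_lit 69)) (PT.lf (nat_lit 11172) (nat_lit 6) (nat_lit 133) (nat_lit 1) (nat_lit 77) (nat_lit 44) (nat_lit 68))))))))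
noncomputable def pc5 : PT := (PT.nd (nat_lit 118158) (PT.nd (nat_lit 59032) (PT.nd (nat_lit 58468) (PT.nd (nat_lit 58186) (PT.nd (nat_lit 94) (PT.lf (nat_lit 11088) (nat_lit 6) (nat_lit 132) (nat_lit 1) (nat_lit 78) (nat_lit 44) (nat_lit 67)) (PT.nd (nat_lit 57998) (PT.lf (nat_lit 11004) (nat_lit 6) (nat_lit 131) (nat_lit 1) (nat_lit 79) (nat_lit 44) (nat_lit 66)) (PT.lf (nat_lit 11592) (nat_lit 6) (nat_lit 138) (nat_lit 3) (nat_lit 65) (nat_lit 45) (nat_lit 79)))) (PT.nd (nat_lit 94) (PT.lf (nat_lit 11676) (nat_lit 6) (nat_lit 139) (nat_lit 3) (nat_lit 66) (nat_lit 45) (nat_lit 78)) (PT.nd (nat_lit 94) (PT.lf (nat_lit 11760) (nat_lit 6) (nat_lit 140) (nat_lit 3) (nat_lit 67) (nat_lit 45) (nat_lit 77)) (PT.lf (nat_lit 11844) (nat_lit 6) (nat_lit 141) (nat_lit 3) (nat_lit 68) (nat_lit 45) (nat_lit 76))))) (PT.nd (nat_lit 282) (PT.nd (nat_lit 94) (PT.lf (nat_lit 11928) (nat_lit 6) (nat_lit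 142) (nat_lit 3) (nat_lit 69) (nat_lit 45) (nat_lit 75)) (PT.nd (nat_lit 94) (PT.lf (nat_lit 12012) (nat_lit 6) (nat_lit 143) (nat_lit 3) (nat_lit 70) (nat_lit 45) (nat_lit 74)) (PT.lf (nat_lit 12096) (nat_lit 6) (nat_lit 144) (nat_lit 3) (nat_lit 71) (nat_lit 45) (nat_lit 73)))) (PT.nd (nat_lit 94) (PT.lf (nat_lit 12180) (nat_lit 3) (nat_lit 145) (nat_lit 1) (nat_lit 72) (nat_lit 45) (nat_lit 72)) (PT.nd (nat_lit 94) (PT.lf (nat_lit 12096) (nat_lit 6) (nat_lit 144) (nat_lit 1) (nat_lit 73) (nat_lit 45) (nat_lit 71)) (PT.lf (nat_lit 12012) (nat_lit 6) (nat_lit 143) (nat_lit 1) (nat_lit 74) (nat_lit 45) (nat_lit 70)))))) (PT.nd (nat_lit 58468) (PT.nd (nat_lit 282) (PT.nd (nat_lit 94) (PT.lf (nat_lit 11928) (nat_lit 6) (nat_lit 142) (nat_lit 1) (nat_lit 75) (nat_lit 45) (nat_lit 69)) (PT.nd (nat_lit 94) (PT.lf (nat_lit 11844) (nat_lit 6) (nat_lit 141) (nat_lit 1) (nat_lit 76) (nat_lit 45)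 (nat_lit 68)) (PT.lf (nat_lit 11760) (nat_lit 6) (nat_lit 140) (nat_lit 1) (nat_lit 77) (nat_lit 45) (nat_lit 67)))) (PT.nd (nat_lit 94) (PT.lf (nat_lit 11676) (nat_lit 6) (nat_lit 139) (nat_lit 1) (nat_lit 78) (nat_lit 45) (nat_lit 66)) (PT.nd (nat_lit 57998) (PT.lf (nat_lit 11592) (nat_lit 6) (nat_lit 138) (nat_lit 1) (nat_lit 79) (nat_lit 45) (nat_lit 65)) (PT.lf (nat_lit 12264) (nat_lit 6) (nat_lit 146) (nat_lit 3) (nat_lit 65) (nat_lit 46) (nat_lit 78))))) (PT.nd (nat_lit 282) (PT.nd (nat_lit 94) (PT.lf (nat_lit 12348) (nat_lit 6) (nat_lit 147) (nat_lit 3) (nat_lit 66) (nat_lit 46) (nat_lit 77)) (PT.nd (nat_lit 94) (PT.lf (nat_lit 12432) (nat_lit 6) (nat_lit 148) (nat_lit 3) (nat_lit 67) (nat_lit 46) (nat_lit 76)) (PT.lf (nat_lit 12516) (nat_lit 6) (nat_lit 149) (nat_lit 3) (nat_lit 68) (nat_lit 46) (nat_lit 75)))) (PT.nd (nat_lit 188) (PT.nd (nat_lit 94) (PT.lf (nat_lit 12600) (nat_lit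 6) (nat_lit 150) (nat_lit 3) (nat_lit 69) (nat_lit 46) (nat_lit 74)) (PT.lf (nat_lit 12684) (nat_lit 6) (nat_lit 151) (nat_lit 3) (nat_lit 70) (nat_lit 46) (nat_lit 73))) (PT.nd (nat_lit 94) (PT.lf (nat_lit 12768) (nat_lit 6) (nat_lit 152) (nat_lit 3) (nat_lit 71) (nat_lit 46) (nat_lit 72)) (PT.lf (nat_lit 12768) (nat_lit 6) (nat_lit 152) (nat_lit 1) (nat_lit 72) (nat_lit 46) (nat_lit 71))))))) (PT.nd (nat_lit 59126) (PT.nd (nat_lit 58468) (PT.nd (nat_lit 282) (PT.nd (nat_lit 94) (PT.lf (nat_lit 12684) (nat_lit 6) (nat_lit 151) (nat_lit 1) (nat_lit 73) (nat_lit 46) (nat_lit 70)) (PT.nd (nat_lit 94) (PT.lf (nat_lit 12600) (nat_lit 6) (nat_lit 150) (nat_lit 1) (nat_lit 74) (nat_lit 46) (nat_lit 69)) (PT.lf (nat_lit 12516) (nat_lit 6) (nat_lit 149) (nat_lit 1) (nat_lit 75) (nat_lit 46) (nat_lit 68)))) (PT.nd (nat_lit 94) (PT.lf (nat_lit 12432) (nat_lit 6) (nat_lit 148) (nat_lit 1) (nat_lit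 76) (nat_lit 46) (nat_lit 67)) (PT.nd (nat_lit 94) (PT.lf (nat_lit 12348) (nat_lit 6) (nat_lit 147) (nat_lit 1) (nat_lit 77) (nat_lit 46) (nat_lit 66)) (PT.lf (nat_lit 12264) (nat_lit 6) (nat_lit 146) (nat_lit 1) (nat_lit 78) (nat_lit 46) (nat_lit 65))))) (PT.nd (nat_lit 282) (PT.nd (nat_lit 94) (PT.lf (nat_lit 12852) (nat_lit 6) (nat_lit 153) (nat_lit 3) (nat_lit 64) (nat_lit 47) (nat_lit 78)) (PT.nd (nat_lit 94) (PT.lf (nat_lit 12936) (nat_lit 6) (nat_lit 154) (nat_lit 3) (nat_lit 65) (nat_lit 47) (nat_lit 77)) (PT.lf (nat_lit 13020) (nat_lit 6) (nat_lit 155) (nat_lit 3) (nat_lit 66) (nat_lit 47) (nat_lit 76)))) (PT.nd (nat_lit 188) (PT.nd (nat_lit 94) (PT.lf (nat_lit 13104) (nat_lit 6) (nat_lit 156) (nat_lit 3) (nat_lit 67) (nat_lit 47) (nat_lit 75)) (PT.lf (nat_lit 13188) (nat_lit 6) (nat_lit 157) (nat_lit 3) (nat_lit 68) (nat_lit 47) (nat_lit 74))) (PT.nd (nat_lit 94) (PT.lf (nat_lit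 13272) (nat_lit 6) (nat_lit 158) (nat_lit 3) (nat_lit 69) (nat_lit 47) (nat_lit 73)) (PT.lf (nat_lit 13356) (nat_lit 6) (nat_lit 159) (nat_lit 3) (nat_lit 70) (nat_lit 47) (nat_lit 72)))))) (PT.nd (nat_lit 564) (PT.nd (nat_lit 282) (PT.nd (nat_lit 94) (PT.lf (nat_lit 13440) (nat_lit 3) (nat_lit 160) (nat_lit 1) (nat_lit 71) (nat_lit 47) (nat_lit 71)) (PT.nd (nat_lit 94) (PT.lf (nat_lit 13356) (nat_lit 6) (nat_lit 159) (nat_lit 1) (nat_lit 72) (nat_lit 47) (nat_lit 70)) (PT.lf (nat_lit 13272) (nat_lit 6) (nat_lit 158) (nat_lit 1) (nat_lit 73) (nat_lit 47) (nat_lit 69)))) (PT.nd (nat_lit 94) (PT.lf (nat_lit 13188) (nat_lit 6) (nat_lit 157) (nat_lit 1) (nat_lit 74) (nat_lit 47) (nat_lit 68)) (PT.nd (nat_lit 94) (PT.lf (nat_lit 13104) (nat_lit 6) (nat_lit 156) (nat_lit 1) (nat_lit 75) (nat_lit 47) (nat_lit 67)) (PT.lf (nat_lit 13020) (nat_lit 6) (nat_lit 155) (nat_lit 1) (nat_lit 76) (nat_lit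 47) (nat_lit 66))))) (PT.nd (nat_lit 58092) (PT.nd (nat_lit 94) (PT.lf (nat_lit 12936) (nat_lit 6) (nat_lit 154) (nat_lit 1) (nat_lit 77) (nat_lit 47) (nat_lit 65)) (PT.nd (nat_lit 57904) (PT.lf (nat_lit 12852) (nat_lit 6) (nat_lit 153) (nat_lit 1) (nat_lit 78) (nat_lit 47) (nat_lit 64)) (PT.lf (nat_lit 14112) (nat_lit 6) (nat_lit 168) (nat_lit 3) (nat_lit 63) (nat_lit 48) (nat_lit 78)))) (PT.nd (nat_lit 188) (PT.nd (nat_lit 94) (PT.lf (nat_lit 14196) (nat_lit 6) (nat_lit 169) (nat_lit 3) (nat_lit 64) (nat_lit 48) (nat_lit 77)) (PT.lf (nat_lit 14280) (nat_lit 6) (nat_lit 170) (nat_lit 3) (nat_lit 65) (nat_lit 48) (nat_lit 76))) (PT.nd (nat_lit 94) (PT.lf (nat_lit 14364) (nat_lit 6) (nat_lit 171) (nat_lit 3) (nat_lit 66) (nat_lit 48) (nat_lit 75)) (PT.lf (nat_lit 14448) (nat_lit 6) (nat_lit 172) (nat_lit 3) (nat_lit 67) (nat_lit 48) (nat_lit 74))))))))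
noncomputable def pc6 : PT := (PT.nd (nat_lit 60066) (PT.nd (nat_lit 58844) (PT.nd (nat_lit 564) (PT.nd (nat_lit 282) (PT.nd (nat_lit 94) (PT.lf (nat_lit 14532) (nat_lit 6) (nat_lit 173) (nat_lit 3) (nat_lit 68) (nat_lit 48) (nat_lit 73)) (PT.nd (nat_lit 94) (PT.lf (nat_lit 14616) (nat_lit 6) (nat_lit 174) (nat_lit 3) (nat_lit 69) (nat_lit 48) (nat_lit 72)) (PT.lf (nat_lit 14700) (nat_lit 6) (nat_lit 175) (nat_lit 3) (nat_lit 70) (nat_lit 48) (nat_lit 71)))) (PT.nd (nat_lit 94) (PT.lf (nat_lit 14700) (nat_lit 6) (nat_lit 175) (nat_lit 1) (nat_lit 71) (nat_lit 48) (nat_lit 70)) (PT.nd (nat_lit 94) (PT.lf (nat_lit 14616) (nat_lit 6) (nat_lit 174) (nat_lit 1) (nat_lit 72) (nat_lit 48) (nat_lit 69)) (PT.lf (nat_lit 14532) (nat_lit 6) (nat_lit 173) (nat_lit 1) (nat_lit 73) (nat_lit 48) (nat_lit 68))))) (PT.nd (nat_lit 282) (PT.nd (nat_lit 94) (PT.lf (nat_lit 14448) (nat_lit 6) (nat_lit 172)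 (nat_lit 1) (nat_lit 74) (nat_lit 48) (nat_lit 67)) (PT.nd (nat_lit 94) (PT.lf (nat_lit 14364) (nat_lit 6) (nat_lit 171) (nat_lit 1) (nat_lit 75) (nat_lit 48) (nat_lit 66)) (PT.lf (nat_lit 14280) (nat_lit 6) (nat_lit 170) (nat_lit 1) (nat_lit 76) (nat_lit 48) (nat_lit 65)))) (PT.nd (nat_lit 94) (PT.lf (nat_lit 14196) (nat_lit 6) (nat_lit 169) (nat_lit 1) (nat_lit 77) (nat_lit 48) (nat_lit 64)) (PT.nd (nat_lit 57810) (PT.lf (nat_lit 14112) (nat_lit 6) (nat_lit 168) (nat_lit 1) (nat_lit 78) (nat_lit 48) (nat_lit 63)) (PT.lf (nat_lit 14028) (nat_lit 6) (nat_lit 167) (nat_lit 3) (nat_lit 62) (nat_lit 49) (nat_lit 78)))))) (PT.nd (nat_lit 564) (PT.nd (nat_lit 282) (PT.nd (nat_lit 94) (PT.lf (nat_lit 15372) (nat_lit 6) (nat_lit 183) (nat_lit 3) (nat_lit 63) (nat_lit 49) (nat_lit 77)) (PT.nd (nat_lit 94) (PT.lf (nat_lit 15456) (nat_lit 6) (nat_lit 184) (nat_lit 3) (nat_lit 64) (nat_lit 49) (nat_lit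 76)) (PT.lf (nat_lit 15540) (nat_lit 6) (nat_lit 185) (nat_lit 3) (nat_lit 65) (nat_lit 49) (nat_lit 75)))) (PT.nd (nat_lit 94) (PT.lf (nat_lit 15624) (nat_lit 6) (nat_lit 186) (nat_lit 3) (nat_lit 66) (nat_lit 49) (nat_lit 74)) (PT.nd (nat_lit 94) (PT.lf (nat_lit 15708) (nat_lit 6) (nat_lit 187) (nat_lit 3) (nat_lit 67) (nat_lit 49) (nat_lit 73)) (PT.lf (nat_lit 15792) (nat_lit 6) (nat_lit 188) (nat_lit 3) (nat_lit 68) (nat_lit 49) (nat_lit 72))))) (PT.nd (nat_lit 282) (PT.nd (nat_lit 94) (PT.lf (nat_lit 15876) (nat_lit 6) (nat_lit 189) (nat_lit 3) (nat_lit 69) (nat_lit 49) (nat_lit 71)) (PT.nd (nat_lit 94) (PT.lf (nat_lit 15960) (nat_lit 3) (nat_lit 190) (nat_lit 1) (nat_lit 70) (nat_lit 49) (nat_lit 70)) (PT.lf (nat_lit 15876) (nat_lit 6) (nat_lit 189) (nat_lit 1) (nat_lit 71) (nat_lit 49) (nat_lit 69)))) (PT.nd (nat_lit 188) (PT.nd (nat_lit 94) (PT.lf (nat_lit 15792) (nat_lit 6) (nat_lit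 188) (nat_lit 1) (nat_lit 72) (nat_lit 49) (nat_lit 68)) (PT.lf (nat_lit 15708) (nat_lit 6) (nat_lit 187) (nat_lit 1) (nat_lit 73) (nat_lit 49) (nat_lit 67))) (PT.nd (nat_lit 94) (PT.lf (nat_lit 15624) (nat_lit 6) (nat_lit 186) (nat_lit 1) (nat_lit 74) (nat_lit 49) (nat_lit 66)) (PT.lf (nat_lit 15540) (nat_lit 6) (nat_lit 185) (nat_lit 1) (nat_lit 75) (nat_lit 49) (nat_lit 65))))))) (PT.nd (nat_lit 58750) (PT.nd (nat_lit 58186) (PT.nd (nat_lit 57904) (PT.nd (nat_lit 94) (PT.lf (nat_lit 15456) (nat_lit 6) (nat_lit 184) (nat_lit 1) (nat_lit 76) (nat_lit 49) (nat_lit 64)) (PT.nd (nat_lit 94) (PT.lf (nat_lit 15372) (nat_lit 6) (nat_lit 183) (nat_lit 1) (nat_lit 77) (nat_lit 49) (nat_lit 63)) (PT.lf (nat_lit 14028) (nat_lit 6) (nat_lit 167) (nat_lit 1) (nat_lit 78) (nat_lit 49) (nat_lit 62)))) (PT.nd (nat_lit 94) (PT.lf (nat_lit 13944) (nat_lit 6) (nat_lit 166) (nat_lit 3) (nat_lit 61) (nat_lit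 50) (nat_lit 78)) (PT.nd (nat_lit 94) (PT.lf (nat_lit 15288) (nat_lit 6) (nat_lit 182) (nat_lit 3) (nat_lit 62) (nat_lit 50) (nat_lit 77)) (PT.lf (nat_lit 16548) (nat_lit 6) (nat_lit 197) (nat_lit 3) (nat_lit 63) (nat_lit 50) (nat_lit 76))))) (PT.nd (nat_lit 282) (PT.nd (nat_lit 94) (PT.lf (nat_lit 16632) (nat_lit 6) (nat_lit 198) (nat_lit 3) (nat_lit 64) (nat_lit 50) (nat_lit 75)) (PT.nd (nat_lit 94) (PT.lf (nat_lit 16716) (nat_lit 6) (nat_lit 199) (nat_lit 3) (nat_lit 65) (nat_lit 50) (nat_lit 74)) (PT.lf (nat_lit 16800) (nat_lit 6) (nat_lit 200) (nat_lit 3) (nat_lit 66) (nat_lit 50) (nat_lit 73)))) (PT.nd (nat_lit 94) (PT.lf (nat_lit 16884) (nat_lit 6) (nat_lit 201) (nat_lit 3) (nat_lit 67) (nat_lit 50) (nat_lit 72)) (PT.nd (nat_lit 94) (PT.lf (nat_lit 16968) (nat_lit 6) (nat_lit 202) (nat_lit 3) (nat_lit 68) (nat_lit 50) (nat_lit 71)) (PT.lf (nat_lit 17052) (nat_lit 6) (nat_lit 203)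 (nat_lit 3) (nat_lit 69) (nat_lit 50) (nat_lit 70)))))) (PT.nd (nat_lit 564) (PT.nd (nat_lit 282) (PT.nd (nat_lit 94) (PT.lf (nat_lit 17052) (nat_lit 6) (nat_lit 203) (nat_lit 1) (nat_lit 70) (nat_lit 50) (nat_lit 69)) (PT.nd (nat_lit 94) (PT.lf (nat_lit 16968) (nat_lit 6) (nat_lit 202) (nat_lit 1) (nat_lit 71) (nat_lit 50) (nat_lit 68)) (PT.lf (nat_lit 16884) (nat_lit 6) (nat_lit 201) (nat_lit 1) (nat_lit 72) (nat_lit 50) (nat_lit 67)))) (PT.nd (nat_lit 94) (PT.lf (nat_lit 16800) (nat_lit 6) (nat_lit 200) (nat_lit 1) (nat_lit 73) (nat_lit 50) (nat_lit 66)) (PT.nd (nat_lit 94) (PT.lf (nat_lit 16716) (nat_lit 6) (nat_lit 199) (nat_lit 1) (nat_lit 74) (nat_lit 50) (nat_lit 65)) (PT.lf (nat_lit 16632) (nat_lit 6) (nat_lit 198) (nat_lit 1) (nat_lit 75) (nat_lit 50) (nat_lit 64))))) (PT.nd (nat_lit 57810) (PT.nd (nat_lit 94) (PT.lf (nat_lit 16548) (nat_lit 6) (nat_lit 197) (nat_lit 1) (nat_lit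 76) (nat_lit 50) (nat_lit 63)) (PT.nd (nat_lit 94) (PT.lf (nat_lit 15288) (nat_lit 6) (nat_lit 182) (nat_lit 1) (nat_lit 77) (nat_lit 50) (nat_lit 62)) (PT.lf (nat_lit 13944) (nat_lit 6) (nat_lit 166) (nat_lit 1) (nat_lit 78) (nat_lit 50) (nat_lit 61)))) (PT.nd (nat_lit 188) (PT.nd (nat_lit 94) (PT.lf (nat_lit 13860) (nat_lit 6) (nat_lit 165) (nat_lit 3) (nat_lit 60) (nat_lit 51) (nat_lit 78)) (PT.lf (nat_lit 15204) (nat_lit 6) (nat_lit 181) (nat_lit 3) (nat_lit 61) (nat_lit 51) (nat_lit 77))) (PT.nd (nat_lit 94) (PT.lf (nat_lit 16464) (nat_lit 6) (nat_lit 196) (nat_lit 3) (nat_lit 62) (nat_lit 51) (nat_lit 76)) (PT.lf (nat_lit 17640) (nat_lit 6) (nat_lit 210) (nat_lit 3) (nat_lit 63) (nat_lit 51) (nat_lit 75))))))))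
noncomputable def pc7 : PT := (PT.nd (nat_lit 59784) (PT.nd (nat_lit 1128) (PT.nd (nat_lit 564) (PT.nd (nat_lit 282) (PT.nd (nat_lit 94) (PT.lf (nat_lit 17724) (nat_lit 6) (nat_lit 211) (nat_lit 3) (nat_lit 64) (nat_lit 51) (nat_lit 74)) (PT.nd (nat_lit 94) (PT.lf (nat_lit 17808) (nat_lit 6) (nat_lit 212) (nat_lit 3) (nat_lit 65) (nat_lit 51) (nat_lit 73)) (PT.lf (nat_lit 17892) (nat_lit 6) (nat_lit 213) (nat_lit 3) (nat_lit 66) (nat_lit 51) (nat_lit 72)))) (PT.nd (nat_lit 94) (PT.lf (nat_lit 17976) (nat_lit 6) (nat_lit 214) (nat_lit 3) (nat_lit 67) (nat_lit 51) (nat_lit 71)) (PT.nd (nat_lit 94) (PT.lf (nat_lit 18060) (nat_lit 6) (nat_lit 215) (nat_lit 3) (nat_lit 68) (nat_lit 51) (nat_lit 70)) (PT.lf (nat_lit 18144) (nat_lit 3) (nat_lit 216) (nat_lit 1) (nat_lit 69) (nat_lit 51) (nat_lit 69))))) (PT.nd (nat_lit 282) (PT.nd (nat_lit 94) (PT.lf (nat_lit 18060) (nat_lit 6) (nat_lit 215)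 (nat_lit 1) (nat_lit 70) (nat_lit 51) (nat_lit 68)) (PT.nd (nat_lit 94) (PT.lf (nat_lit 17976) (nat_lit 6) (nat_lit 214) (nat_lit 1) (nat_lit 71) (nat_lit 51) (nat_lit 67)) (PT.lf (nat_lit 17892) (nat_lit 6) (nat_lit 213) (nat_lit 1) (nat_lit 72) (nat_lit 51) (nat_lit 66)))) (PT.nd (nat_lit 94) (PT.lf (nat_lit 17808) (nat_lit 6) (nat_lit 212) (nat_lit 1) (nat_lit 73) (nat_lit 51) (nat_lit 65)) (PT.nd (nat_lit 94) (PT.lf (nat_lit 17724) (nat_lit 6) (nat_lit 211) (nat_lit 1) (nat_lit 74) (nat_lit 51) (nat_lit 64)) (PT.lf (nat_lit 17640) (nat_lit 6) (nat_lit 210) (nat_lit 1) (nat_lit 75) (nat_lit 51) (nat_lit 63)))))) (PT.nd (nat_lit 57998) (PT.nd (nat_lit 57716) (PT.nd (nat_lit 94) (PT.lf (nat_lit 16464) (nat_lit 6) (nat_lit 196) (nat_lit 1) (nat_lit 76) (nat_lit 51) (nat_lit 62)) (PT.nd (nat_lit 94) (PT.lf (nat_lit 15204) (nat_lit 6) (nat_lit 181) (nat_lit 1) (nat_lit 77) (nat_lit 51) (nat_lit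 61)) (PT.lf (nat_lit 13860) (nat_lit 6) (nat_lit 165) (nat_lit 1) (nat_lit 78) (nat_lit 51) (nat_lit 60)))) (PT.nd (nat_lit 94) (PT.lf (nat_lit 13776) (nat_lit 6) (nat_lit 164) (nat_lit 3) (nat_lit 59) (nat_lit 52) (nat_lit 78)) (PT.nd (nat_lit 94) (PT.lf (nat_lit 15120) (nat_lit 6) (nat_lit 180) (nat_lit 3) (nat_lit 60) (nat_lit 52) (nat_lit 77)) (PT.lf (nat_lit 16380) (nat_lit 6) (nat_lit 195) (nat_lit 3) (nat_lit 61) (nat_lit 52) (nat_lit 76))))) (PT.nd (nat_lit 282) (PT.nd (nat_lit 94) (PT.lf (nat_lit 17556) (nat_lit 6) (nat_lit 209) (nat_lit 3) (nat_lit 62) (nat_lit 52) (nat_lit 75)) (PT.nd (nat_lit 94) (PT.lf (nat_lit 18648) (nat_lit 6) (nat_lit 222) (nat_lit 3) (nat_lit 63) (nat_lit 52) (nat_lit 74)) (PT.lf (nat_lit 18732) (nat_lit 6) (nat_lit 223) (nat_lit 3) (nat_lit 64) (nat_lit 52) (nat_lit 73)))) (PT.nd (nat_lit 188) (PT.nd (nat_lit 94) (PT.lf (nat_lit 18816) (nat_lit 6) (nat_lit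 224) (nat_lit 3) (nat_lit 65) (nat_lit 52) (nat_lit 72)) (PT.lf (nat_lit 18900) (nat_lit 6) (nat_lit 225) (nat_lit 3) (nat_lit 66) (nat_lit 52) (nat_lit 71))) (PT.nd (nat_lit 94) (PT.lf (nat_lit 18984) (nat_lit 6) (nat_lit 226) (nat_lit 3) (nat_lit 67) (nat_lit 52) (nat_lit 70)) (PT.lf (nat_lit 19068) (nat_lit 6) (nat_lit 227) (nat_lit 3) (nat_lit 68) (nat_lit 52) (nat_lit 69))))))) (PT.nd (nat_lit 58562) (PT.nd (nat_lit 564) (PT.nd (nat_lit 282) (PT.nd (nat_lit 94) (PT.lf (nat_lit 19068) (nat_lit 6) (nat_lit 227) (nat_lit 1) (nat_lit 69) (nat_lit 52) (nat_lit 68)) (PT.nd (nat_lit 94) (PT.lf (nat_lit 18984) (nat_lit 6) (nat_lit 226) (nat_lit 1) (nat_lit 70) (nat_lit 52) (nat_lit 67)) (PT.lf (nat_lit 18900) (nat_lit 6) (nat_lit 225) (nat_lit 1) (nat_lit 71) (nat_lit 52) (nat_lit 66)))) (PT.nd (nat_lit 94) (PT.lf (nat_lit 18816) (nat_lit 6) (nat_lit 224) (nat_lit 1) (nat_lit 72) (nat_lit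 52) (nat_lit 65)) (PT.nd (nat_lit 94) (PT.lf (nat_lit 18732) (nat_lit 6) (nat_lit 223) (nat_lit 1) (nat_lit 73) (nat_lit 52) (nat_lit 64)) (PT.lf (nat_lit 18648) (nat_lit 6) (nat_lit 222) (nat_lit 1) (nat_lit 74) (nat_lit 52) (nat_lit 63))))) (PT.nd (nat_lit 282) (PT.nd (nat_lit 94) (PT.lf (nat_lit 17556) (nat_lit 6) (nat_lit 209) (nat_lit 1) (nat_lit 75) (nat_lit 52) (nat_lit 62)) (PT.nd (nat_lit 94) (PT.lf (nat_lit 16380) (nat_lit 6) (nat_lit 195) (nat_lit 1) (nat_lit 76) (nat_lit 52) (nat_lit 61)) (PT.lf (nat_lit 15120) (nat_lit 6) (nat_lit 180) (nat_lit 1) (nat_lit 77) (nat_lit 52) (nat_lit 60)))) (PT.nd (nat_lit 57528) (PT.nd (nat_lit 57434) (PT.lf (nat_lit 13776) (nat_lit 6) (nat_lit 164) (nat_lit 1) (nat_lit 78) (nat_lit 52) (nat_lit 59)) (PT.lf (nat_lit 13692) (nat_lit 6) (nat_lit 163) (nat_lit 3) (nat_lit 58) (nat_lit 53) (nat_lit 78))) (PT.nd (nat_lit 94) (PT.lf (nat_lit 15036)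 (nat_lit 6) (nat_lit 179) (nat_lit 3) (nat_lit 59) (nat_lit 53) (nat_lit 77)) (PT.lf (nat_lit 16296) (nat_lit 6) (nat_lit 194) (nat_lit 3) (nat_lit 60) (nat_lit 53) (nat_lit 76)))))) (PT.nd (nat_lit 564) (PT.nd (nat_lit 282) (PT.nd (nat_lit 94) (PT.lf (nat_lit 17472) (nat_lit 6) (nat_lit 208) (nat_lit 3) (nat_lit 61) (nat_lit 53) (nat_lit 75)) (PT.nd (nat_lit 94) (PT.lf (nat_lit 18564) (nat_lit 6) (nat_lit 221) (nat_lit 3) (nat_lit 62) (nat_lit 53) (nat_lit 74)) (PT.lf (nat_lit 19572) (nat_lit 6) (nat_lit 233) (nat_lit 3) (nat_lit 63) (nat_lit 53) (nat_lit 73)))) (PT.nd (nat_lit 94) (PT.lf (nat_lit 19656) (nat_lit 6) (nat_lit 234) (nat_lit 3) (nat_lit 64) (nat_lit 53) (nat_lit 72)) (PT.nd (nat_lit 94) (PT.lf (nat_lit 19740) (nat_lit 6) (nat_lit 235) (nat_lit 3) (nat_lit 65) (nat_lit 53) (nat_lit 71)) (PT.lf (nat_lit 19824) (nat_lit 6) (nat_lit 236) (nat_lit 3) (nat_lit 66) (nat_lit 53)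 (nat_lit 70))))) (PT.nd (nat_lit 282) (PT.nd (nat_lit 94) (PT.lf (nat_lit 19908) (nat_lit 6) (nat_lit 237) (nat_lit 3) (nat_lit 67) (nat_lit 53) (nat_lit 69)) (PT.nd (nat_lit 94) (PT.lf (nat_lit 19992) (nat_lit 3) (nat_lit 238) (nat_lit 1) (nat_lit 68) (nat_lit 53) (nat_lit 68)) (PT.lf (nat_lit 19908) (nat_lit 6) (nat_lit 237) (nat_lit 1) (nat_lit 69) (nat_lit 53) (nat_lit 67)))) (PT.nd (nat_lit 188) (PT.nd (nat_lit 94) (PT.lf (nat_lit 19824) (nat_lit 6) (nat_lit 236) (nat_lit 1) (nat_lit 70) (nat_lit 53) (nat_lit 66)) (PT.lf (nat_lit 19740) (nat_lit 6) (nat_lit 235) (nat_lit 1) (nat_lit 71) (nat_lit 53) (nat_lit 65))) (PT.nd (nat_lit 94) (PT.lf (nat_lit 19656) (nat_lit 6) (nat_lit 234) (nat_lit 1) (nat_lit 72) (nat_lit 53) (nat_lit 64)) (PT.lf (nat_lit 19572) (nat_lit 6) (nat_lit 233) (nat_lit 1) (nat_lit 73) (nat_lit 53) (nat_lit 63))))))))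
noncomputable def pc8 : PT := (PT.nd (nat_lit 59596) (PT.nd (nat_lit 58374) (PT.nd (nat_lit 57810) (PT.nd (nat_lit 282) (PT.nd (nat_lit 94) (PT.lf (nat_lit 18564) (nat_lit 6) (nat_lit 221) (nat_lit 1) (nat_lit 74) (nat_lit 53) (nat_lit 62)) (PT.nd (nat_lit 94) (PT.lf (nat_lit 17472) (nat_lit 6) (nat_lit 208) (nat_lit 1) (nat_lit 75) (nat_lit 53) (nat_lit 61)) (PT.lf (nat_lit 16296) (nat_lit 6) (nat_lit 194) (nat_lit 1) (nat_lit 76) (nat_lit 53) (nat_lit 60)))) (PT.nd (nat_lit 94) (PT.lf (nat_lit 15036) (nat_lit 6) (nat_lit 179) (nat_lit 1) (nat_lit 77) (nat_lit 53) (nat_lit 59)) (PT.nd (nat_lit 57340) (PT.lf (nat_lit 13692) (nat_lit 6) (nat_lit 163) (nat_lit 1) (nat_lit 78) (nat_lit 53) (nat_lit 58)) (PT.lf (nat_lit 13608) (nat_lit 6) (nat_lit 162) (nat_lit 3) (nat_lit 57) (nat_lit 54) (nat_lit 78))))) (PT.nd (nat_lit 282) (PT.nd (nat_lit 94) (PT.lf (nat_lit 14952) (nat_lit 6) (nat_lit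 178) (nat_lit 3) (nat_lit 58) (nat_lit 54) (nat_lit 77)) (PT.nd (nat_lit 94) (PT.lf (nat_lit 16212) (nat_lit 6) (nat_lit 193) (nat_lit 3) (nat_lit 59) (nat_lit 54) (nat_lit 76)) (PT.lf (nat_lit 17388) (nat_lit 6) (nat_lit 207) (nat_lit 3) (nat_lit 60) (nat_lit 54) (nat_lit 75)))) (PT.nd (nat_lit 94) (PT.lf (nat_lit 18480) (nat_lit 6) (nat_lit 220) (nat_lit 3) (nat_lit 61) (nat_lit 54) (nat_lit 74)) (PT.nd (nat_lit 94) (PT.lf (nat_lit 19488) (nat_lit 6) (nat_lit 232) (nat_lit 3) (nat_lit 62) (nat_lit 54) (nat_lit 73)) (PT.lf (nat_lit 20412) (nat_lit 6) (nat_lit 243) (nat_lit 3) (nat_lit 63) (nat_lit 54) (nat_lit 72)))))) (PT.nd (nat_lit 564) (PT.nd (nat_lit 282) (PT.nd (nat_lit 94) (PT.lf (nat_lit 20496) (nat_lit 6) (nat_lit 244) (nat_lit 3) (nat_lit 64) (nat_lit 54) (nat_lit 71)) (PT.nd (nat_lit 94) (PT.lf (nat_lit 20580) (nat_lit 6) (nat_lit 245) (nat_lit 3) (nat_lit 65) (nat_lit 54)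 (nat_lit 70)) (PT.lf (nat_lit 20664) (nat_lit 6) (nat_lit 246) (nat_lit 3) (nat_lit 66) (nat_lit 54) (nat_lit 69)))) (PT.nd (nat_lit 94) (PT.lf (nat_lit 20748) (nat_lit 6) (nat_lit 247) (nat_lit 3) (nat_lit 67) (nat_lit 54) (nat_lit 68)) (PT.nd (nat_lit 94) (PT.lf (nat_lit 20748) (nat_lit 6) (nat_lit 247) (nat_lit 1) (nat_lit 68) (nat_lit 54) (nat_lit 67)) (PT.lf (nat_lit 20664) (nat_lit 6) (nat_lit 246) (nat_lit 1) (nat_lit 69) (nat_lit 54) (nat_lit 66))))) (PT.nd (nat_lit 282) (PT.nd (nat_lit 94) (PT.lf (nat_lit 20580) (nat_lit 6) (nat_lit 245) (nat_lit 1) (nat_lit 70) (nat_lit 54) (nat_lit 65)) (PT.nd (nat_lit 94) (PT.lf (nat_lit 20496) (nat_lit 6) (nat_lit 244) (nat_lit 1) (nat_lit 71) (nat_lit 54) (nat_lit 64)) (PT.lf (nat_lit 20412) (nat_lit 6) (nat_lit 243) (nat_lit 1) (nat_lit 72) (nat_lit 54) (nat_lit 63)))) (PT.nd (nat_lit 188) (PT.nd (nat_lit 94) (PT.lf (nat_lit 19488) (nat_lit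 6) (nat_lit 232) (nat_lit 1) (nat_lit 73) (nat_lit 54) (nat_lit 62)) (PT.lf (nat_lit 18480) (nat_lit 6) (nat_lit 220) (nat_lit 1) (nat_lit 74) (nat_lit 54) (nat_lit 61))) (PT.nd (nat_lit 94) (PT.lf (nat_lit 17388) (nat_lit 6) (nat_lit 207) (nat_lit 1) (nat_lit 75) (nat_lit 54) (nat_lit 60)) (PT.lf (nat_lit 16212) (nat_lit 6) (nat_lit 193) (nat_lit 1) (nat_lit 76) (nat_lit 54) (nat_lit 59))))))) (PT.nd (nat_lit 58280) (PT.nd (nat_lit 57716) (PT.nd (nat_lit 57434) (PT.nd (nat_lit 94) (PT.lf (nat_lit 14952) (nat_lit 6) (nat_lit 178) (nat_lit 1) (nat_lit 77) (nat_lit 54) (nat_lit 58)) (PT.nd (nat_lit 57246) (PT.lf (nat_lit 13608) (nat_lit 6) (nat_lit 162) (nat_lit 1) (nat_lit 78) (nat_lit 54) (nat_lit 57)) (PT.lf (nat_lit 13524) (nat_lit 6) (nat_lit 161) (nat_lit 3) (nat_lit 56) (nat_lit 55) (nat_lit 78)))) (PT.nd (nat_lit 94) (PT.lf (nat_lit 14868) (nat_lit 6) (nat_lit 177) (nat_lit 3) (nat_lit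 57) (nat_lit 55) (nat_lit 77)) (PT.nd (nat_lit 94) (PT.lf (nat_lit 16128) (nat_lit 6) (nat_lit 192) (nat_lit 3) (nat_lit 58) (nat_lit 55) (nat_lit 76)) (PT.lf (nat_lit 17304) (nat_lit 6) (nat_lit 206) (nat_lit 3) (nat_lit 59) (nat_lit 55) (nat_lit 75))))) (PT.nd (nat_lit 282) (PT.nd (nat_lit 94) (PT.lf (nat_lit 18396) (nat_lit 6) (nat_lit 219) (nat_lit 3) (nat_lit 60) (nat_lit 55) (nat_lit 74)) (PT.nd (nat_lit 94) (PT.lf (nat_lit 19404) (nat_lit 6) (nat_lit 231) (nat_lit 3) (nat_lit 61) (nat_lit 55) (nat_lit 73)) (PT.lf (nat_lit 20328) (nat_lit 6) (nat_lit 242) (nat_lit 3) (nat_lit 62) (nat_lit 55) (nat_lit 72)))) (PT.nd (nat_lit 94) (PT.lf (nat_lit 21168) (nat_lit 6) (nat_lit 252) (nat_lit 3) (nat_lit 63) (nat_lit 55) (nat_lit 71)) (PT.nd (nat_lit 94) (PT.lf (nat_lit 21252) (nat_lit 6) (nat_lit 253) (nat_lit 3) (nat_lit 64) (nat_lit 55) (nat_lit 70)) (PT.lf (nat_lit 21336) (nat_lit 6)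 (nat_lit 254) (nat_lit 3) (nat_lit 65) (nat_lit 55) (nat_lit 69)))))) (PT.nd (nat_lit 564) (PT.nd (nat_lit 282) (PT.nd (nat_lit 94) (PT.lf (nat_lit 21420) (nat_lit 6) (nat_lit 255) (nat_lit 3) (nat_lit 66) (nat_lit 55) (nat_lit 68)) (PT.nd (nat_lit 94) (PT.lf (nat_lit 21504) (nat_lit 3) (nat_lit 256) (nat_lit 1) (nat_lit 67) (nat_lit 55) (nat_lit 67)) (PT.lf (nat_lit 21420) (nat_lit 6) (nat_lit 255) (nat_lit 1) (nat_lit 68) (nat_lit 55) (nat_lit 66)))) (PT.nd (nat_lit 94) (PT.lf (nat_lit 21336) (nat_lit 6) (nat_lit 254) (nat_lit 1) (nat_lit 69) (nat_lit 55) (nat_lit 65)) (PT.nd (nat_lit 94) (PT.lf (nat_lit 21252) (nat_lit 6) (nat_lit 253) (nat_lit 1) (nat_lit 70) (nat_lit 55) (nat_lit 64)) (PT.lf (nat_lit 21168) (nat_lit 6) (nat_lit 252) (nat_lit 1) (nat_lit 71) (nat_lit 55) (nat_lit 63))))) (PT.nd (nat_lit 282) (PT.nd (nat_lit 94) (PT.lf (nat_lit 20328) (nat_lit 6) (nat_lit 242) (nat_lit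 1) (nat_lit 72) (nat_lit 55) (nat_lit 62)) (PT.nd (nat_lit 94) (PT.lf (nat_lit 19404) (nat_lit 6) (nat_lit 231) (nat_lit 1) (nat_lit 73) (nat_lit 55) (nat_lit 61)) (PT.lf (nat_lit 18396) (nat_lit 6) (nat_lit 219) (nat_lit 1) (nat_lit 74) (nat_lit 55) (nat_lit 60)))) (PT.nd (nat_lit 188) (PT.nd (nat_lit 94) (PT.lf (nat_lit 17304) (nat_lit 6) (nat_lit 206) (nat_lit 1) (nat_lit 75) (nat_lit 55) (nat_lit 59)) (PT.lf (nat_lit 16128) (nat_lit 6) (nat_lit 192) (nat_lit 1) (nat_lit 76) (nat_lit 55) (nat_lit 58))) (PT.nd (nat_lit 94) (PT.lf (nat_lit 14868) (nat_lit 6) (nat_lit 177) (nat_lit 1) (nat_lit 77) (nat_lit 55) (nat_lit 57)) (PT.lf (nat_lit 13524) (nat_lit 6) (nat_lit 161) (nat_lit 1) (nat_lit 78) (nat_lit 55) (nat_lit 56))))))))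
noncomputable def pc9 : PT := (PT.nd (nat_lit 59314) (PT.nd (nat_lit 1128) (PT.nd (nat_lit 564) (PT.nd (nat_lit 282) (PT.nd (nat_lit 94) (PT.lf (nat_lit 13524) (nat_lit 6) (nat_lit 161) (nat_lit 5) (nat_lit 55) (nat_lit 56) (nat_lit 78)) (PT.nd (nat_lit 94) (PT.lf (nat_lit 14784) (nat_lit 3) (nat_lit 176) (nat_lit 3) (nat_lit 56) (nat_lit 56) (nat_lit 77)) (PT.lf (nat_lit 16044) (nat_lit 6) (nat_lit 191) (nat_lit 3) (nat_lit 57) (nat_lit 56) (nat_lit 76)))) (PT.nd (nat_lit 94) (PT.lf (nat_lit 17220) (nat_lit 6) (nat_lit 205) (nat_lit 3) (nat_lit 58) (nat_lit 56) (nat_lit 75)) (PT.nd (nat_lit 94) (PT.lf (nat_lit 18312) (nat_lit 6) (nat_lit 218) (nat_lit 3) (nat_lit 59) (nat_lit 56) (nat_lit 74)) (PT.lf (nat_lit 19320) (nat_lit 6) (nat_lit 230) (nat_lit 3) (nat_lit 60) (nat_lit 56) (nat_lit 73))))) (PT.nd (nat_lit 282) (PT.nd (nat_lit 94) (PT.lf (nat_lit 20244) (nat_lit 6) (nat_lit 241)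 (nat_lit 3) (nat_lit 61) (nat_lit 56) (nat_lit 72)) (PT.nd (nat_lit 94) (PT.lf (nat_lit 21084) (nat_lit 6) (nat_lit 251) (nat_lit 3) (nat_lit 62) (nat_lit 56) (nat_lit 71)) (PT.lf (nat_lit 21840) (nat_lit 6) (nat_lit 260) (nat_lit 3) (nat_lit 63) (nat_lit 56) (nat_lit 70)))) (PT.nd (nat_lit 94) (PT.lf (nat_lit 21924) (nat_lit 6) (nat_lit 261) (nat_lit 3) (nat_lit 64) (nat_lit 56) (nat_lit 69)) (PT.nd (nat_lit 94) (PT.lf (nat_lit 22008) (nat_lit 6) (nat_lit 262) (nat_lit 3) (nat_lit 65) (nat_lit 56) (nat_lit 68)) (PT.lf (nat_lit 22092) (nat_lit 6) (nat_lit 263) (nat_lit 3) (nat_lit 66) (nat_lit 56) (nat_lit 67)))))) (PT.nd (nat_lit 564) (PT.nd (nat_lit 282) (PT.nd (nat_lit 94) (PT.lf (nat_lit 22092) (nat_lit 6) (nat_lit 263) (nat_lit 1) (nat_lit 67) (nat_lit 56) (nat_lit 66)) (PT.nd (nat_lit 94) (PT.lf (nat_lit 22008) (nat_lit 6) (nat_lit 262) (nat_lit 1) (nat_lit 68) (nat_lit 56) (nat_lit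 65)) (PT.lf (nat_lit 21924) (nat_lit 6) (nat_lit 261) (nat_lit 1) (nat_lit 69) (nat_lit 56) (nat_lit 64)))) (PT.nd (nat_lit 94) (PT.lf (nat_lit 21840) (nat_lit 6) (nat_lit 260) (nat_lit 1) (nat_lit 70) (nat_lit 56) (nat_lit 63)) (PT.nd (nat_lit 94) (PT.lf (nat_lit 21084) (nat_lit 6) (nat_lit 251) (nat_lit 1) (nat_lit 71) (nat_lit 56) (nat_lit 62)) (PT.lf (nat_lit 20244) (nat_lit 6) (nat_lit 241) (nat_lit 1) (nat_lit 72) (nat_lit 56) (nat_lit 61))))) (PT.nd (nat_lit 282) (PT.nd (nat_lit 94) (PT.lf (nat_lit 19320) (nat_lit 6) (nat_lit 230) (nat_lit 1) (nat_lit 73) (nat_lit 56) (nat_lit 60)) (PT.nd (nat_lit 94) (PT.lf (nat_lit 18312) (nat_lit 6) (nat_lit 218) (nat_lit 1) (nat_lit 74) (nat_lit 56) (nat_lit 59)) (PT.lf (nat_lit 17220) (nat_lit 6) (nat_lit 205) (nat_lit 1) (nat_lit 75) (nat_lit 56) (nat_lit 58)))) (PT.nd (nat_lit 188) (PT.nd (nat_lit 94) (PT.lf (nat_lit 16044) (nat_lit 6) (nat_lit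 191) (nat_lit 1) (nat_lit 76) (nat_lit 56) (nat_lit 57)) (PT.lf (nat_lit 14784) (nat_lit 3) (nat_lit 176) (nat_lit 0) (nat_lit 77) (nat_lit 56) (nat_lit 56))) (PT.nd (nat_lit 57058) (PT.lf (nat_lit 13524) (nat_lit 6) (nat_lit 161) (nat_lit 0) (nat_lit 78) (nat_lit 56) (nat_lit 55)) (PT.lf (nat_lit 13608) (nat_lit 6) (nat_lit 162) (nat_lit 5) (nat_lit 54) (nat_lit 57) (nat_lit 78))))))) (PT.nd (nat_lit 1128) (PT.nd (nat_lit 564) (PT.nd (nat_lit 282) (PT.nd (nat_lit 94) (PT.lf (nat_lit 14868) (nat_lit 6) (nat_lit 177) (nat_lit 5) (nat_lit 55) (nat_lit 57) (nat_lit 77)) (PT.nd (nat_lit 94) (PT.lf (nat_lit 16044) (nat_lit 6) (nat_lit 191) (nat_lit 5) (nat_lit 56) (nat_lit 57) (nat_lit 76)) (PT.lf (nat_lit 17136) (nat_lit 3) (nat_lit 204) (nat_lit 3) (nat_lit 57) (nat_lit 57) (nat_lit 75)))) (PT.nd (nat_lit 94) (PT.lf (nat_lit 18228) (nat_lit 6) (nat_lit 217) (nat_lit 3) (nat_lit 58) (nat_lit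 57) (nat_lit 74)) (PT.nd (nat_lit 94) (PT.lf (nat_lit 19236) (nat_lit 6) (nat_lit 229) (nat_lit 3) (nat_lit 59) (nat_lit 57) (nat_lit 73)) (PT.lf (nat_lit 20160) (nat_lit 6) (nat_lit 240) (nat_lit 3) (nat_lit 60) (nat_lit 57) (nat_lit 72))))) (PT.nd (nat_lit 282) (PT.nd (nat_lit 94) (PT.lf (nat_lit 21000) (nat_lit 6) (nat_lit 250) (nat_lit 3) (nat_lit 61) (nat_lit 57) (nat_lit 71)) (PT.nd (nat_lit 94) (PT.lf (nat_lit 21756) (nat_lit 6) (nat_lit 259) (nat_lit 3) (nat_lit 62) (nat_lit 57) (nat_lit 70)) (PT.lf (nat_lit 22428) (nat_lit 6) (nat_lit 267) (nat_lit 3) (nat_lit 63) (nat_lit 57) (nat_lit 69)))) (PT.nd (nat_lit 94) (PT.lf (nat_lit 22512) (nat_lit 6) (nat_lit 268) (nat_lit 3) (nat_lit 64) (nat_lit 57) (nat_lit 68)) (PT.nd (nat_lit 94) (PT.lf (nat_lit 22596) (nat_lit 6) (nat_lit 269) (nat_lit 3) (nat_lit 65) (nat_lit 57) (nat_lit 67)) (PT.lf (nat_lit 22680) (nat_lit 3) (nat_lit 270)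 (nat_lit 1) (nat_lit 66) (nat_lit 57) (nat_lit 66)))))) (PT.nd (nat_lit 564) (PT.nd (nat_lit 282) (PT.nd (nat_lit 94) (PT.lf (nat_lit 22596) (nat_lit 6) (nat_lit 269) (nat_lit 1) (nat_lit 67) (nat_lit 57) (nat_lit 65)) (PT.nd (nat_lit 94) (PT.lf (nat_lit 22512) (nat_lit 6) (nat_lit 268) (nat_lit 1) (nat_lit 68) (nat_lit 57) (nat_lit 64)) (PT.lf (nat_lit 22428) (nat_lit 6) (nat_lit 267) (nat_lit 1) (nat_lit 69) (nat_lit 57) (nat_lit 63)))) (PT.nd (nat_lit 94) (PT.lf (nat_lit 21756) (nat_lit 6) (nat_lit 259) (nat_lit 1) (nat_lit 70) (nat_lit 57) (nat_lit 62)) (PT.nd (nat_lit 94) (PT.lf (nat_lit 21000) (nat_lit 6) (nat_lit 250) (nat_lit 1) (nat_lit 71) (nat_lit 57) (nat_lit 61)) (PT.lf (nat_lit 20160) (nat_lit 6) (nat_lit 240) (nat_lit 1) (nat_lit 72) (nat_lit 57) (nat_lit 60))))) (PT.nd (nat_lit 282) (PT.nd (nat_lit 94) (PT.lf (nat_lit 19236) (nat_lit 6) (nat_lit 229) (nat_lit 1) (nat_lit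 73) (nat_lit 57) (nat_lit 59)) (PT.nd (nat_lit 94) (PT.lf (nat_lit 18228) (nat_lit 6) (nat_lit 217) (nat_lit 1) (nat_lit 74) (nat_lit 57) (nat_lit 58)) (PT.lf (nat_lit 17136) (nat_lit 3) (nat_lit 204) (nat_lit 0) (nat_lit 75) (nat_lit 57) (nat_lit 57)))) (PT.nd (nat_lit 188) (PT.nd (nat_lit 94) (PT.lf (nat_lit 16044) (nat_lit 6) (nat_lit 191) (nat_lit 0) (nat_lit 76) (nat_lit 57) (nat_lit 56)) (PT.lf (nat_lit 14868) (nat_lit 6) (nat_lit 177) (nat_lit 0) (nat_lit 77) (nat_lit 57) (nat_lit 55))) (PT.nd (nat_lit 56964) (PT.lf (nat_lit 13608) (nat_lit 6) (nat_lit 162) (nat_lit 0) (nat_lit 78) (nat_lit 57) (nat_lit 54)) (PT.lf (nat_lit 13692) (nat_lit 6) (nat_lit 163) (nat_lit 5) (nat_lit 53) (nat_lit 58) (nat_lit 78))))))))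
noncomputable def pc10 : PT := (PT.nd (nat_lit 59126) (PT.nd (nat_lit 1128) (PT.nd (nat_lit 564) (PT.nd (nat_lit 282) (PT.nd (nat_lit 94) (PT.lf (nat_lit 14952) (nat_lit 6) (nat_lit 178) (nat_lit 5) (nat_lit 54) (nat_lit 58) (nat_lit 77)) (PT.nd (nat_lit 94) (PT.lf (nat_lit 16128) (nat_lit 6) (nat_lit 192) (nat_lit 5) (nat_lit 55) (nat_lit 58) (nat_lit 76)) (PT.lf (nat_lit 17220) (nat_lit 6) (nat_lit 205) (nat_lit 5) (nat_lit 56) (nat_lit 58) (nat_lit 75)))) (PT.nd (nat_lit 94) (PT.lf (nat_lit 18228) (nat_lit 6) (nat_lit 217) (nat_lit 5) (nat_lit 57) (nat_lit 58) (nat_lit 74)) (PT.nd (nat_lit 94) (PT.lf (nat_lit 19152) (nat_lit 3) (nat_lit 228) (nat_lit 3) (nat_lit 58) (nat_lit 58) (nat_lit 73)) (PT.lf (nat_lit 20076) (nat_lit 6) (nat_lit 239) (nat_lit 3) (nat_lit 59) (nat_lit 58) (nat_lit 72))))) (PT.nd (nat_lit 282) (PT.nd (nat_lit 94) (PT.lf (nat_lit 20916) (nat_lit 6) (nat_lit 249)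 (nat_lit 3) (nat_lit 60) (nat_lit 58) (nat_lit 71)) (PT.nd (nat_lit 94) (PT.lf (nat_lit 21672) (nat_lit 6) (nat_lit 258) (nat_lit 3) (nat_lit 61) (nat_lit 58) (nat_lit 70)) (PT.lf (nat_lit 22344) (nat_lit 6) (nat_lit 266) (nat_lit 3) (nat_lit 62) (nat_lit 58) (nat_lit 69)))) (PT.nd (nat_lit 94) (PT.lf (nat_lit 22932) (nat_lit 6) (nat_lit 273) (nat_lit 3) (nat_lit 63) (nat_lit 58) (nat_lit 68)) (PT.nd (nat_lit 94) (PT.lf (nat_lit 23016) (nat_lit 6) (nat_lit 274) (nat_lit 3) (nat_lit 64) (nat_lit 58) (nat_lit 67)) (PT.lf (nat_lit 23100) (nat_lit 6) (nat_lit 275) (nat_lit 3) (nat_lit 65) (nat_lit 58) (nat_lit 66)))))) (PT.nd (nat_lit 564) (PT.nd (nat_lit 282) (PT.nd (nat_lit 94) (PT.lf (nat_lit 23100) (nat_lit 6) (nat_lit 275) (nat_lit 1) (nat_lit 66) (nat_lit 58) (nat_lit 65)) (PT.nd (nat_lit 94) (PT.lf (nat_lit 23016) (nat_lit 6) (nat_lit 274) (nat_lit 1) (nat_lit 67) (nat_lit 58) (nat_lit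 64)) (PT.lf (nat_lit 22932) (nat_lit 6) (nat_lit 273) (nat_lit 1) (nat_lit 68) (nat_lit 58) (nat_lit 63)))) (PT.nd (nat_lit 94) (PT.lf (nat_lit 22344) (nat_lit 6) (nat_lit 266) (nat_lit 1) (nat_lit 69) (nat_lit 58) (nat_lit 62)) (PT.nd (nat_lit 94) (PT.lf (nat_lit 21672) (nat_lit 6) (nat_lit 258) (nat_lit 1) (nat_lit 70) (nat_lit 58) (nat_lit 61)) (PT.lf (nat_lit 20916) (nat_lit 6) (nat_lit 249) (nat_lit 1) (nat_lit 71) (nat_lit 58) (nat_lit 60))))) (PT.nd (nat_lit 282) (PT.nd (nat_lit 94) (PT.lf (nat_lit 20076) (nat_lit 6) (nat_lit 239) (nat_lit 1) (nat_lit 72) (nat_lit 58) (nat_lit 59)) (PT.nd (nat_lit 94) (PT.lf (nat_lit 19152) (nat_lit 3) (nat_lit 228) (nat_lit 0) (nat_lit 73) (nat_lit 58) (nat_lit 58)) (PT.lf (nat_lit 18228) (nat_lit 6) (nat_lit 217) (nat_lit 0) (nat_lit 74) (nat_lit 58) (nat_lit 57)))) (PT.nd (nat_lit 188) (PT.nd (nat_lit 94) (PT.lf (nat_lit 17220) (nat_lit 6) (nat_lit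 205) (nat_lit 0) (nat_lit 75) (nat_lit 58) (nat_lit 56)) (PT.lf (nat_lit 16128) (nat_lit 6) (nat_lit 192) (nat_lit 0) (nat_lit 76) (nat_lit 58) (nat_lit 55))) (PT.nd (nat_lit 94) (PT.lf (nat_lit 14952) (nat_lit 6) (nat_lit 178) (nat_lit 0) (nat_lit 77) (nat_lit 58) (nat_lit 54)) (PT.lf (nat_lit 13692) (nat_lit 6) (nat_lit 163) (nat_lit 0) (nat_lit 78) (nat_lit 58) (nat_lit 53))))))) (PT.nd (nat_lit 1128) (PT.nd (nat_lit 564) (PT.nd (nat_lit 282) (PT.nd (nat_lit 94) (PT.lf (nat_lit 13776) (nat_lit 6) (nat_lit 164) (nat_lit 5) (nat_lit 52) (nat_lit 59) (nat_lit 78)) (PT.nd (nat_lit 94) (PT.lf (nat_lit 15036) (nat_lit 6) (nat_lit 179) (nat_lit 5) (nat_lit 53) (nat_lit 59) (nat_lit 77)) (PT.lf (nat_lit 16212) (nat_lit 6) (nat_lit 193) (nat_lit 5) (nat_lit 54) (nat_lit 59) (nat_lit 76)))) (PT.nd (nat_lit 94) (PT.lf (nat_lit 17304) (nat_lit 6) (nat_lit 206) (nat_lit 5) (nat_lit 55) (nat_lit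 59) (nat_lit 75)) (PT.nd (nat_lit 94) (PT.lf (nat_lit 18312) (nat_lit 6) (nat_lit 218) (nat_lit 5) (nat_lit 56) (nat_lit 59) (nat_lit 74)) (PT.lf (nat_lit 19236) (nat_lit 6) (nat_lit 229) (nat_lit 5) (nat_lit 57) (nat_lit 59) (nat_lit 73))))) (PT.nd (nat_lit 282) (PT.nd (nat_lit 94) (PT.lf (nat_lit 20076) (nat_lit 6) (nat_lit 239) (nat_lit 5) (nat_lit 58) (nat_lit 59) (nat_lit 72)) (PT.nd (nat_lit 94) (PT.lf (nat_lit 20832) (nat_lit 3) (nat_lit 248) (nat_lit 3) (nat_lit 59) (nat_lit 59) (nat_lit 71)) (PT.lf (nat_lit 21588) (nat_lit 6) (nat_lit 257) (nat_lit 3) (nat_lit 60) (nat_lit 59) (nat_lit 70)))) (PT.nd (nat_lit 94) (PT.lf (nat_lit 22260) (nat_lit 6) (nat_lit 265) (nat_lit 3) (nat_lit 61) (nat_lit 59) (nat_lit 69)) (PT.nd (nat_lit 94) (PT.lf (nat_lit 22848) (nat_lit 6) (nat_lit 272) (nat_lit 3) (nat_lit 62) (nat_lit 59) (nat_lit 68)) (PT.lf (nat_lit 23352) (nat_lit 6) (nat_lit 278)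 (nat_lit 3) (nat_lit 63) (nat_lit 59) (nat_lit 67)))))) (PT.nd (nat_lit 564) (PT.nd (nat_lit 282) (PT.nd (nat_lit 94) (PT.lf (nat_lit 23436) (nat_lit 6) (nat_lit 279) (nat_lit 3) (nat_lit 64) (nat_lit 59) (nat_lit 66)) (PT.nd (nat_lit 94) (PT.lf (nat_lit 23520) (nat_lit 3) (nat_lit 280) (nat_lit 1) (nat_lit 65) (nat_lit 59) (nat_lit 65)) (PT.lf (nat_lit 23436) (nat_lit 6) (nat_lit 279) (nat_lit 1) (nat_lit 66) (nat_lit 59) (nat_lit 64)))) (PT.nd (nat_lit 94) (PT.lf (nat_lit 23352) (nat_lit 6) (nat_lit 278) (nat_lit 1) (nat_lit 67) (nat_lit 59) (nat_lit 63)) (PT.nd (nat_lit 94) (PT.lf (nat_lit 22848) (nat_lit 6) (nat_lit 272) (nat_lit 1) (nat_lit 68) (nat_lit 59) (nat_lit 62)) (PT.lf (nat_lit 22260) (nat_lit 6) (nat_lit 265) (nat_lit 1) (nat_lit 69) (nat_lit 59) (nat_lit 61))))) (PT.nd (nat_lit 282) (PT.nd (nat_lit 94) (PT.lf (nat_lit 21588) (nat_lit 6) (nat_lit 257) (nat_lit 1) (nat_lit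 70) (nat_lit 59) (nat_lit 60)) (PT.nd (nat_lit 94) (PT.lf (nat_lit 20832) (nat_lit 3) (nat_lit 248) (nat_lit 0) (nat_lit 71) (nat_lit 59) (nat_lit 59)) (PT.lf (nat_lit 20076) (nat_lit 6) (nat_lit 239) (nat_lit 0) (nat_lit 72) (nat_lit 59) (nat_lit 58)))) (PT.nd (nat_lit 188) (PT.nd (nat_lit 94) (PT.lf (nat_lit 19236) (nat_lit 6) (nat_lit 229) (nat_lit 0) (nat_lit 73) (nat_lit 59) (nat_lit 57)) (PT.lf (nat_lit 18312) (nat_lit 6) (nat_lit 218) (nat_lit 0) (nat_lit 74) (nat_lit 59) (nat_lit 56))) (PT.nd (nat_lit 94) (PT.lf (nat_lit 17304) (nat_lit 6) (nat_lit 206) (nat_lit 0) (nat_lit 75) (nat_lit 59) (nat_lit 55)) (PT.lf (nat_lit 16212) (nat_lit 6) (nat_lit 193) (nat_lit 0) (nat_lit 76) (nat_lit 59) (nat_lit 54))))))))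
noncomputable def pc11 : PT := (PT.nd (nat_lit 59032) (PT.nd (nat_lit 57810) (PT.nd (nat_lit 57246) (PT.nd (nat_lit 56964) (PT.nd (nat_lit 94) (PT.lf (nat_lit 15036) (nat_lit 6) (nat_lit 179) (nat_lit 0) (nat_lit 77) (nat_lit 59) (nat_lit 53)) (PT.nd (nat_lit 56776) (PT.lf (nat_lit 13776) (nat_lit 6) (nat_lit 164) (nat_lit 0) (nat_lit 78) (nat_lit 59) (nat_lit 52)) (PT.lf (nat_lit 13860) (nat_lit 6) (nat_lit 165) (nat_lit 5) (nat_lit 51) (nat_lit 60) (nat_lit 78)))) (PT.nd (nat_lit 94) (PT.lf (nat_lit 15120) (nat_lit 6) (nat_lit 180) (nat_lit 5) (nat_lit 52) (nat_lit 60) (nat_lit 77)) (PT.nd (nat_lit 94) (PT.lf (nat_lit 16296) (nat_lit 6) (nat_lit 194) (nat_lit 5) (nat_lit 53) (nat_lit 60) (nat_lit 76)) (PT.lf (nat_lit 17388) (nat_lit 6) (nat_lit 207) (nat_lit 5) (nat_lit 54) (nat_lit 60) (nat_lit 75))))) (PT.nd (nat_lit 282) (PT.nd (nat_lit 94) (PT.lf (nat_lit 18396) (nat_lit 6) (nat_lit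 219) (nat_lit 5) (nat_lit 55) (nat_lit 60) (nat_lit 74)) (PT.nd (nat_lit 94) (PT.lf (nat_lit 19320) (nat_lit 6) (nat_lit 230) (nat_lit 5) (nat_lit 56) (nat_lit 60) (nat_lit 73)) (PT.lf (nat_lit 20160) (nat_lit 6) (nat_lit 240) (nat_lit 5) (nat_lit 57) (nat_lit 60) (nat_lit 72)))) (PT.nd (nat_lit 94) (PT.lf (nat_lit 20916) (nat_lit 6) (nat_lit 249) (nat_lit 5) (nat_lit 58) (nat_lit 60) (nat_lit 71)) (PT.nd (nat_lit 94) (PT.lf (nat_lit 21588) (nat_lit 6) (nat_lit 257) (nat_lit 5) (nat_lit 59) (nat_lit 60) (nat_lit 70)) (PT.lf (nat_lit 22176) (nat_lit 3) (nat_lit 264) (nat_lit 3) (nat_lit 60) (nat_lit 60) (nat_lit 69)))))) (PT.nd (nat_lit 564) (PT.nd (nat_lit 282) (PT.nd (nat_lit 94) (PT.lf (nat_lit 22764) (nat_lit 6) (nat_lit 271) (nat_lit 3) (nat_lit 61) (nat_lit 60) (nat_lit 68)) (PT.nd (nat_lit 94) (PT.lf (nat_lit 23268) (nat_lit 6) (nat_lit 277) (nat_lit 3) (nat_lit 62) (nat_lit 60)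 (nat_lit 67)) (PT.lf (nat_lit 23688) (nat_lit 6) (nat_lit 282) (nat_lit 3) (nat_lit 63) (nat_lit 60) (nat_lit 66)))) (PT.nd (nat_lit 94) (PT.lf (nat_lit 23772) (nat_lit 6) (nat_lit 283) (nat_lit 3) (nat_lit 64) (nat_lit 60) (nat_lit 65)) (PT.nd (nat_lit 94) (PT.lf (nat_lit 23772) (nat_lit 6) (nat_lit 283) (nat_lit 1) (nat_lit 65) (nat_lit 60) (nat_lit 64)) (PT.lf (nat_lit 23688) (nat_lit 6) (nat_lit 282) (nat_lit 1) (nat_lit 66) (nat_lit 60) (nat_lit 63))))) (PT.nd (nat_lit 282) (PT.nd (nat_lit 94) (PT.lf (nat_lit 23268) (nat_lit 6) (nat_lit 277) (nat_lit 1) (nat_lit 67) (nat_lit 60) (nat_lit 62)) (PT.nd (nat_lit 94) (PT.lf (nat_lit 22764) (nat_lit 6) (nat_lit 271) (nat_lit 1) (nat_lit 68) (nat_lit 60) (nat_lit 61)) (PT.lf (nat_lit 22176) (nat_lit 3) (nat_lit 264) (nat_lit 0) (nat_lit 69) (nat_lit 60) (nat_lit 60)))) (PT.nd (nat_lit 188) (PT.nd (nat_lit 94) (PT.lf (nat_lit 21588) (nat_lit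 6) (nat_lit 257) (nat_lit 0) (nat_lit 70) (nat_lit 60) (nat_lit 59)) (PT.lf (nat_lit 20916) (nat_lit 6) (nat_lit 249) (nat_lit 0) (nat_lit 71) (nat_lit 60) (nat_lit 58))) (PT.nd (nat_lit 94) (PT.lf (nat_lit 20160) (nat_lit 6) (nat_lit 240) (nat_lit 0) (nat_lit 72) (nat_lit 60) (nat_lit 57)) (PT.lf (nat_lit 19320) (nat_lit 6) (nat_lit 230) (nat_lit 0) (nat_lit 73) (nat_lit 60) (nat_lit 56))))))) (PT.nd (nat_lit 57810) (PT.nd (nat_lit 57152) (PT.nd (nat_lit 282) (PT.nd (nat_lit 94) (PT.lf (nat_lit 18396) (nat_lit 6) (nat_lit 219) (nat_lit 0) (nat_lit 74) (nat_lit 60) (nat_lit 55)) (PT.nd (nat_lit 94) (PT.lf (nat_lit 17388) (nat_lit 6) (nat_lit 207) (nat_lit 0) (nat_lit 75) (nat_lit 60) (nat_lit 54)) (PT.lf (nat_lit 16296) (nat_lit 6) (nat_lit 194) (nat_lit 0) (nat_lit 76) (nat_lit 60) (nat_lit 53)))) (PT.nd (nat_lit 94) (PT.lf (nat_lit 15120) (nat_lit 6) (nat_lit 180) (nat_lit 0) (nat_lit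 77) (nat_lit 60) (nat_lit 52)) (PT.nd (nat_lit 56682) (PT.lf (nat_lit 13860) (nat_lit 6) (nat_lit 165) (nat_lit 0) (nat_lit 78) (nat_lit 60) (nat_lit 51)) (PT.lf (nat_lit 13944) (nat_lit 6) (nat_lit 166) (nat_lit 5) (nat_lit 50) (nat_lit 61) (nat_lit 78))))) (PT.nd (nat_lit 282) (PT.nd (nat_lit 94) (PT.lf (nat_lit 15204) (nat_lit 6) (nat_lit 181) (nat_lit 5) (nat_lit 51) (nat_lit 61) (nat_lit 77)) (PT.nd (nat_lit 94) (PT.lf (nat_lit 16380) (nat_lit 6) (nat_lit 195) (nat_lit 5) (nat_lit 52) (nat_lit 61) (nat_lit 76)) (PT.lf (nat_lit 17472) (nat_lit 6) (nat_lit 208) (nat_lit 5) (nat_lit 53) (nat_lit 61) (nat_lit 75)))) (PT.nd (nat_lit 188) (PT.nd (nat_lit 94) (PT.lf (nat_lit 18480) (nat_lit 6) (nat_lit 220) (nat_lit 5) (nat_lit 54) (nat_lit 61) (nat_lit 74)) (PT.lf (nat_lit 19404) (nat_lit 6) (nat_lit 231) (nat_lit 5) (nat_lit 55) (nat_lit 61) (nat_lit 73))) (PT.nd (nat_lit 94) (PT.lf (nat_lit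 20244) (nat_lit 6) (nat_lit 241) (nat_lit 5) (nat_lit 56) (nat_lit 61) (nat_lit 72)) (PT.lf (nat_lit 21000) (nat_lit 6) (nat_lit 250) (nat_lit 5) (nat_lit 57) (nat_lit 61) (nat_lit 71)))))) (PT.nd (nat_lit 564) (PT.nd (nat_lit 282) (PT.nd (nat_lit 94) (PT.lf (nat_lit 21672) (nat_lit 6) (nat_lit 258) (nat_lit 5) (nat_lit 58) (nat_lit 61) (nat_lit 70)) (PT.nd (nat_lit 94) (PT.lf (nat_lit 22260) (nat_lit 6) (nat_lit 265) (nat_lit 5) (nat_lit 59) (nat_lit 61) (nat_lit 69)) (PT.lf (nat_lit 22764) (nat_lit 6) (nat_lit 271) (nat_lit 5) (nat_lit 60) (nat_lit 61) (nat_lit 68)))) (PT.nd (nat_lit 94) (PT.lf (nat_lit 23184) (nat_lit 3) (nat_lit 276) (nat_lit 3) (nat_lit 61) (nat_lit 61) (nat_lit 67)) (PT.nd (nat_lit 94) (PT.lf (nat_lit 23604) (nat_lit 6) (nat_lit 281) (nat_lit 3) (nat_lit 62) (nat_lit 61) (nat_lit 66)) (PT.lf (nat_lit 23940) (nat_lit 6) (nat_lit 285) (nat_lit 3) (nat_lit 63) (nat_lit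 61) (nat_lit 65))))) (PT.nd (nat_lit 282) (PT.nd (nat_lit 94) (PT.lf (nat_lit 24024) (nat_lit 3) (nat_lit 286) (nat_lit 1) (nat_lit 64) (nat_lit 61) (nat_lit 64)) (PT.nd (nat_lit 94) (PT.lf (nat_lit 23940) (nat_lit 6) (nat_lit 285) (nat_lit 1) (nat_lit 65) (nat_lit 61) (nat_lit 63)) (PT.lf (nat_lit 23604) (nat_lit 6) (nat_lit 281) (nat_lit 1) (nat_lit 66) (nat_lit 61) (nat_lit 62)))) (PT.nd (nat_lit 188) (PT.nd (nat_lit 94) (PT.lf (nat_lit 23184) (nat_lit 3) (nat_lit 276) (nat_lit 0) (nat_lit 67) (nat_lit 61) (nat_lit 61)) (PT.lf (nat_lit 22764) (nat_lit 6) (nat_lit 271) (nat_lit 0) (nat_lit 68) (nat_lit 61) (nat_lit 60))) (PT.nd (nat_lit 94) (PT.lf (nat_lit 22260) (nat_lit 6) (nat_lit 265) (nat_lit 0) (nat_lit 69) (nat_lit 61) (nat_lit 59)) (PT.lf (nat_lit 21672) (nat_lit 6) (nat_lit 258) (nat_lit 0) (nat_lit 70) (nat_lit 61) (nat_lit 58))))))))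
noncomputable def pc12 : PT := (PT.nd (nat_lit 58844) (PT.nd (nat_lit 57622) (PT.nd (nat_lit 564) (PT.nd (nat_lit 282) (PT.nd (nat_lit 94) (PT.lf (nat_lit 21000) (nat_lit 6) (nat_lit 250) (nat_lit 0) (nat_lit 71) (nat_lit 61) (nat_lit 57)) (PT.nd (nat_lit 94) (PT.lf (nat_lit 20244) (nat_lit 6) (nat_lit 241) (nat_lit 0) (nat_lit 72) (nat_lit 61) (nat_lit 56)) (PT.lf (nat_lit 19404) (nat_lit 6) (nat_lit 231) (nat_lit 0) (nat_lit 73) (nat_lit 61) (nat_lit 55)))) (PT.nd (nat_lit 94) (PT.lf (nat_lit 18480) (nat_lit 6) (nat_lit 220) (nat_lit 0) (nat_lit 74) (nat_lit 61) (nat_lit 54)) (PT.nd (nat_lit 94) (PT.lf (nat_lit 17472) (nat_lit 6) (nat_lit 208) (nat_lit 0) (nat_lit 75) (nat_lit 61) (nat_lit 53)) (PT.lf (nat_lit 16380) (nat_lit 6) (nat_lit 195) (nat_lit 0) (nat_lit 76) (nat_lit 61) (nat_lit 52))))) (PT.nd (nat_lit 56776) (PT.nd (nat_lit 94) (PT.lf (nat_lit 15204) (nat_lit 6) (nat_lit 181)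 (nat_lit 0) (nat_lit 77) (nat_lit 61) (nat_lit 51)) (PT.nd (nat_lit 56588) (PT.lf (nat_lit 13944) (nat_lit 6) (nat_lit 166) (nat_lit 0) (nat_lit 78) (nat_lit 61) (nat_lit 50)) (PT.lf (nat_lit 14028) (nat_lit 6) (nat_lit 167) (nat_lit 5) (nat_lit 49) (nat_lit 62) (nat_lit 78)))) (PT.nd (nat_lit 94) (PT.lf (nat_lit 15288) (nat_lit 6) (nat_lit 182) (nat_lit 5) (nat_lit 50) (nat_lit 62) (nat_lit 77)) (PT.nd (nat_lit 94) (PT.lf (nat_lit 16464) (nat_lit 6) (nat_lit 196) (nat_lit 5) (nat_lit 51) (nat_lit 62) (nat_lit 76)) (PT.lf (nat_lit 17556) (nat_lit 6) (nat_lit 209) (nat_lit 5) (nat_lit 52) (nat_lit 62) (nat_lit 75)))))) (PT.nd (nat_lit 564) (PT.nd (nat_lit 282) (PT.nd (nat_lit 94) (PT.lf (nat_lit 18564) (nat_lit 6) (nat_lit 221) (nat_lit 5) (nat_lit 53) (nat_lit 62) (nat_lit 74)) (PT.nd (nat_lit 94) (PT.lf (nat_lit 19488) (nat_lit 6) (nat_lit 232) (nat_lit 5) (nat_lit 54) (nat_lit 62) (nat_lit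 73)) (PT.lf (nat_lit 20328) (nat_lit 6) (nat_lit 242) (nat_lit 5) (nat_lit 55) (nat_lit 62) (nat_lit 72)))) (PT.nd (nat_lit 94) (PT.lf (nat_lit 21084) (nat_lit 6) (nat_lit 251) (nat_lit 5) (nat_lit 56) (nat_lit 62) (nat_lit 71)) (PT.nd (nat_lit 94) (PT.lf (nat_lit 21756) (nat_lit 6) (nat_lit 259) (nat_lit 5) (nat_lit 57) (nat_lit 62) (nat_lit 70)) (PT.lf (nat_lit 22344) (nat_lit 6) (nat_lit 266) (nat_lit 5) (nat_lit 58) (nat_lit 62) (nat_lit 69))))) (PT.nd (nat_lit 282) (PT.nd (nat_lit 94) (PT.lf (nat_lit 22848) (nat_lit 6) (nat_lit 272) (nat_lit 5) (nat_lit 59) (nat_lit 62) (nat_lit 68)) (PT.nd (nat_lit 94) (PT.lf (nat_lit 23268) (nat_lit 6) (nat_lit 277) (nat_lit 5) (nat_lit 60) (nat_lit 62) (nat_lit 67)) (PT.lf (nat_lit 23604) (nat_lit 6) (nat_lit 281) (nat_lit 5) (nat_lit 61) (nat_lit 62) (nat_lit 66)))) (PT.nd (nat_lit 188) (PT.nd (nat_lit 94) (PT.lf (nat_lit 23856) (nat_lit 3) (nat_lit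 284) (nat_lit 3) (nat_lit 62) (nat_lit 62) (nat_lit 65)) (PT.lf (nat_lit 24108) (nat_lit 6) (nat_lit 287) (nat_lit 3) (nat_lit 63) (nat_lit 62) (nat_lit 64))) (PT.nd (nat_lit 94) (PT.lf (nat_lit 24108) (nat_lit 6) (nat_lit 287) (nat_lit 1) (nat_lit 64) (nat_lit 62) (nat_lit 63)) (PT.lf (nat_lit 23856) (nat_lit 3) (nat_lit 284) (nat_lit 0) (nat_lit 65) (nat_lit 62) (nat_lit 62))))))) (PT.nd (nat_lit 1128) (PT.nd (nat_lit 564) (PT.nd (nat_lit 282) (PT.nd (nat_lit 94) (PT.lf (nat_lit 23604) (nat_lit 6) (nat_lit 281) (nat_lit 0) (nat_lit 66) (nat_lit 62) (nat_lit 61)) (PT.nd (nat_lit 94) (PT.lf (nat_lit 23268) (nat_lit 6) (nat_lit 277) (nat_lit 0) (nat_lit 67) (nat_lit 62) (nat_lit 60)) (PT.lf (nat_lit 22848) (nat_lit 6) (nat_lit 272) (nat_lit 0) (nat_lit 68) (nat_lit 62) (nat_lit 59)))) (PT.nd (nat_lit 94) (PT.lf (nat_lit 22344) (nat_lit 6) (nat_lit 266) (nat_lit 0) (nat_lit 69) (nat_lit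 62) (nat_lit 58)) (PT.nd (nat_lit 94) (PT.lf (nat_lit 21756) (nat_lit 6) (nat_lit 259) (nat_lit 0) (nat_lit 70) (nat_lit 62) (nat_lit 57)) (PT.lf (nat_lit 21084) (nat_lit 6) (nat_lit 251) (nat_lit 0) (nat_lit 71) (nat_lit 62) (nat_lit 56))))) (PT.nd (nat_lit 282) (PT.nd (nat_lit 94) (PT.lf (nat_lit 20328) (nat_lit 6) (nat_lit 242) (nat_lit 0) (nat_lit 72) (nat_lit 62) (nat_lit 55)) (PT.nd (nat_lit 94) (PT.lf (nat_lit 19488) (nat_lit 6) (nat_lit 232) (nat_lit 0) (nat_lit 73) (nat_lit 62) (nat_lit 54)) (PT.lf (nat_lit 18564) (nat_lit 6) (nat_lit 221) (nat_lit 0) (nat_lit 74) (nat_lit 62) (nat_lit 53)))) (PT.nd (nat_lit 94) (PT.lf (nat_lit 17556) (nat_lit 6) (nat_lit 209) (nat_lit 0) (nat_lit 75) (nat_lit 62) (nat_lit 52)) (PT.nd (nat_lit 94) (PT.lf (nat_lit 16464) (nat_lit 6) (nat_lit 196) (nat_lit 0) (nat_lit 76) (nat_lit 62) (nat_lit 51)) (PT.lf (nat_lit 15288) (nat_lit 6) (nat_lit 182)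 (nat_lit 0) (nat_lit 77) (nat_lit 62) (nat_lit 50)))))) (PT.nd (nat_lit 56964) (PT.nd (nat_lit 56682) (PT.nd (nat_lit 56494) (PT.lf (nat_lit 14028) (nat_lit 6) (nat_lit 167) (nat_lit 0) (nat_lit 78) (nat_lit 62) (nat_lit 49)) (PT.nd (nat_lit 94) (PT.lf (nat_lit 14112) (nat_lit 6) (nat_lit 168) (nat_lit 5) (nat_lit 48) (nat_lit 63) (nat_lit 78)) (PT.lf (nat_lit 15372) (nat_lit 6) (nat_lit 183) (nat_lit 5) (nat_lit 49) (nat_lit 63) (nat_lit 77)))) (PT.nd (nat_lit 94) (PT.lf (nat_lit 16548) (nat_lit 6) (nat_lit 197) (nat_lit 5) (nat_lit 50) (nat_lit 63) (nat_lit 76)) (PT.nd (nat_lit 94) (PT.lf (nat_lit 17640) (nat_lit 6) (nat_lit 210) (nat_lit 5) (nat_lit 51) (nat_lit 63) (nat_lit 75)) (PT.lf (nat_lit 18648) (nat_lit 6) (nat_lit 222) (nat_lit 5) (nat_lit 52) (nat_lit 63) (nat_lit 74))))) (PT.nd (nat_lit 282) (PT.nd (nat_lit 94) (PT.lf (nat_lit 19572) (nat_lit 6) (nat_lit 233) (nat_lit 5)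 (nat_lit 53) (nat_lit 63) (nat_lit 73)) (PT.nd (nat_lit 94) (PT.lf (nat_lit 20412) (nat_lit 6) (nat_lit 243) (nat_lit 5) (nat_lit 54) (nat_lit 63) (nat_lit 72)) (PT.lf (nat_lit 21168) (nat_lit 6) (nat_lit 252) (nat_lit 5) (nat_lit 55) (nat_lit 63) (nat_lit 71)))) (PT.nd (nat_lit 188) (PT.nd (nat_lit 94) (PT.lf (nat_lit 21840) (nat_lit 6) (nat_lit 260) (nat_lit 5) (nat_lit 56) (nat_lit 63) (nat_lit 70)) (PT.lf (nat_lit 22428) (nat_lit 6) (nat_lit 267) (nat_lit 5) (nat_lit 57) (nat_lit 63) (nat_lit 69))) (PT.nd (nat_lit 94) (PT.lf (nat_lit 22932) (nat_lit 6) (nat_lit 273) (nat_lit 5) (nat_lit 58) (nat_lit 63) (nat_lit 68)) (PT.lf (nat_lit 23352) (nat_lit 6) (nat_lit 278) (nat_lit 5) (nat_lit 59) (nat_lit 63) (nat_lit 67))))))))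
noncomputable def pc13 : PT := (PT.nd (nat_lit 58656) (PT.nd (nat_lit 1128) (PT.nd (nat_lit 564) (PT.nd (nat_lit 282) (PT.nd (nat_lit 94) (PT.lf (nat_lit 23688) (nat_lit 6) (nat_lit 282) (nat_lit 5) (nat_lit 60) (nat_lit 63) (nat_lit 66)) (PT.nd (nat_lit 94) (PT.lf (nat_lit 23940) (nat_lit 6) (nat_lit 285) (nat_lit 5) (nat_lit 61) (nat_lit 63) (nat_lit 65)) (PT.lf (nat_lit 24108) (nat_lit 6) (nat_lit 287) (nat_lit 5) (nat_lit 62) (nat_lit 63) (nat_lit 64)))) (PT.nd (nat_lit 94) (PT.lf (nat_lit 24192) (nat_lit 1) (nat_lit 288) (nat_lit 0) (nat_lit 63) (nat_lit 63) (nat_lit 63)) (PT.nd (nat_lit 94) (PT.lf (nat_lit 24108) (nat_lit 6) (nat_lit 287) (nat_lit 0) (nat_lit 64) (nat_lit 63) (nat_lit 62)) (PT.lf (nat_lit 23940) (nat_lit 6) (nat_lit 285) (nat_lit 0) (nat_lit 65) (nat_lit 63) (nat_lit 61))))) (PT.nd (nat_lit 282) (PT.nd (nat_lit 94) (PT.lf (nat_lit 23688) (nat_lit 6) (nat_lit 282)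 (nat_lit 0) (nat_lit 66) (nat_lit 63) (nat_lit 60)) (PT.nd (nat_lit 94) (PT.lf (nat_lit 23352) (nat_lit 6) (nat_lit 278) (nat_lit 0) (nat_lit 67) (nat_lit 63) (nat_lit 59)) (PT.lf (nat_lit 22932) (nat_lit 6) (nat_lit 273) (nat_lit 0) (nat_lit 68) (nat_lit 63) (nat_lit 58)))) (PT.nd (nat_lit 94) (PT.lf (nat_lit 22428) (nat_lit 6) (nat_lit 267) (nat_lit 0) (nat_lit 69) (nat_lit 63) (nat_lit 57)) (PT.nd (nat_lit 94) (PT.lf (nat_lit 21840) (nat_lit 6) (nat_lit 260) (nat_lit 0) (nat_lit 70) (nat_lit 63) (nat_lit 56)) (PT.lf (nat_lit 21168) (nat_lit 6) (nat_lit 252) (nat_lit 0) (nat_lit 71) (nat_lit 63) (nat_lit 55)))))) (PT.nd (nat_lit 564) (PT.nd (nat_lit 282) (PT.nd (nat_lit 94) (PT.lf (nat_lit 20412) (nat_lit 6) (nat_lit 243) (nat_lit 0) (nat_lit 72) (nat_lit 63) (nat_lit 54)) (PT.nd (nat_lit 94) (PT.lf (nat_lit 19572) (nat_lit 6) (nat_lit 233) (nat_lit 0) (nat_lit 73) (nat_lit 63) (nat_lit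 53)) (PT.lf (nat_lit 18648) (nat_lit 6) (nat_lit 222) (nat_lit 0) (nat_lit 74) (nat_lit 63) (nat_lit 52)))) (PT.nd (nat_lit 94) (PT.lf (nat_lit 17640) (nat_lit 6) (nat_lit 210) (nat_lit 0) (nat_lit 75) (nat_lit 63) (nat_lit 51)) (PT.nd (nat_lit 94) (PT.lf (nat_lit 16548) (nat_lit 6) (nat_lit 197) (nat_lit 0) (nat_lit 76) (nat_lit 63) (nat_lit 50)) (PT.lf (nat_lit 15372) (nat_lit 6) (nat_lit 183) (nat_lit 0) (nat_lit 77) (nat_lit 63) (nat_lit 49))))) (PT.nd (nat_lit 56588) (PT.nd (nat_lit 56400) (PT.lf (nat_lit 14112) (nat_lit 6) (nat_lit 168) (nat_lit 0) (nat_lit 78) (nat_lit 63) (nat_lit 48)) (PT.nd (nat_lit 94) (PT.lf (nat_lit 12852) (nat_lit 6) (nat_lit 153) (nat_lit 5) (nat_lit 47) (nat_lit 64) (nat_lit 78)) (PT.lf (nat_lit 14196) (nat_lit 6) (nat_lit 169) (nat_lit 5) (nat_lit 48) (nat_lit 64) (nat_lit 77)))) (PT.nd (nat_lit 188) (PT.nd (nat_lit 94) (PT.lf (nat_lit 15456) (nat_lit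 6) (nat_lit 184) (nat_lit 5) (nat_lit 49) (nat_lit 64) (nat_lit 76)) (PT.lf (nat_lit 16632) (nat_lit 6) (nat_lit 198) (nat_lit 5) (nat_lit 50) (nat_lit 64) (nat_lit 75))) (PT.nd (nat_lit 94) (PT.lf (nat_lit 17724) (nat_lit 6) (nat_lit 211) (nat_lit 5) (nat_lit 51) (nat_lit 64) (nat_lit 74)) (PT.lf (nat_lit 18732) (nat_lit 6) (nat_lit 223) (nat_lit 5) (nat_lit 52) (nat_lit 64) (nat_lit 73))))))) (PT.nd (nat_lit 1222) (PT.nd (nat_lit 564) (PT.nd (nat_lit 282) (PT.nd (nat_lit 94) (PT.lf (nat_lit 19656) (nat_lit 6) (nat_lit 234) (nat_lit 5) (nat_lit 53) (nat_lit 64) (nat_lit 72)) (PT.nd (nat_lit 94) (PT.lf (nat_lit 20496) (nat_lit 6) (nat_lit 244) (nat_lit 5) (nat_lit 54) (nat_lit 64) (nat_lit 71)) (PT.lf (nat_lit 21252) (nat_lit 6) (nat_lit 253) (nat_lit 5) (nat_lit 55) (nat_lit 64) (nat_lit 70)))) (PT.nd (nat_lit 94) (PT.lf (nat_lit 21924) (nat_lit 6) (nat_lit 261) (nat_lit 5) (nat_lit 56)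 (nat_lit 64) (nat_lit 69)) (PT.nd (nat_lit 94) (PT.lf (nat_lit 22512) (nat_lit 6) (nat_lit 268) (nat_lit 5) (nat_lit 57) (nat_lit 64) (nat_lit 68)) (PT.lf (nat_lit 23016) (nat_lit 6) (nat_lit 274) (nat_lit 5) (nat_lit 58) (nat_lit 64) (nat_lit 67))))) (PT.nd (nat_lit 282) (PT.nd (nat_lit 94) (PT.lf (nat_lit 23436) (nat_lit 6) (nat_lit 279) (nat_lit 5) (nat_lit 59) (nat_lit 64) (nat_lit 66)) (PT.nd (nat_lit 94) (PT.lf (nat_lit 23772) (nat_lit 6) (nat_lit 283) (nat_lit 5) (nat_lit 60) (nat_lit 64) (nat_lit 65)) (PT.lf (nat_lit 24024) (nat_lit 3) (nat_lit 286) (nat_lit 4) (nat_lit 61) (nat_lit 64) (nat_lit 64)))) (PT.nd (nat_lit 188) (PT.nd (nat_lit 94) (PT.lf (nat_lit 24108) (nat_lit 6) (nat_lit 287) (nat_lit 4) (nat_lit 62) (nat_lit 64) (nat_lit 63)) (PT.lf (nat_lit 24108) (nat_lit 6) (nat_lit 287) (nat_lit 2) (nat_lit 63) (nat_lit 64) (nat_lit 62))) (PT.nd (nat_lit 94) (PT.lf (nat_lit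 24024) (nat_lit 3) (nat_lit 286) (nat_lit 0) (nat_lit 64) (nat_lit 64) (nat_lit 61)) (PT.lf (nat_lit 23772) (nat_lit 6) (nat_lit 283) (nat_lit 0) (nat_lit 65) (nat_lit 64) (nat_lit 60)))))) (PT.nd (nat_lit 564) (PT.nd (nat_lit 282) (PT.nd (nat_lit 94) (PT.lf (nat_lit 23436) (nat_lit 6) (nat_lit 279) (nat_lit 0) (nat_lit 66) (nat_lit 64) (nat_lit 59)) (PT.nd (nat_lit 94) (PT.lf (nat_lit 23016) (nat_lit 6) (nat_lit 274) (nat_lit 0) (nat_lit 67) (nat_lit 64) (nat_lit 58)) (PT.lf (nat_lit 22512) (nat_lit 6) (nat_lit 268) (nat_lit 0) (nat_lit 68) (nat_lit 64) (nat_lit 57)))) (PT.nd (nat_lit 94) (PT.lf (nat_lit 21924) (nat_lit 6) (nat_lit 261) (nat_lit 0) (nat_lit 69) (nat_lit 64) (nat_lit 56)) (PT.nd (nat_lit 94) (PT.lf (nat_lit 21252) (nat_lit 6) (nat_lit 253) (nat_lit 0) (nat_lit 70) (nat_lit 64) (nat_lit 55)) (PT.lf (nat_lit 20496) (nat_lit 6) (nat_lit 244) (nat_lit 0) (nat_lit 71) (nat_lit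 64) (nat_lit 54))))) (PT.nd (nat_lit 282) (PT.nd (nat_lit 94) (PT.lf (nat_lit 19656) (nat_lit 6) (nat_lit 234) (nat_lit 0) (nat_lit 72) (nat_lit 64) (nat_lit 53)) (PT.nd (nat_lit 94) (PT.lf (nat_lit 18732) (nat_lit 6) (nat_lit 223) (nat_lit 0) (nat_lit 73) (nat_lit 64) (nat_lit 52)) (PT.lf (nat_lit 17724) (nat_lit 6) (nat_lit 211) (nat_lit 0) (nat_lit 74) (nat_lit 64) (nat_lit 51)))) (PT.nd (nat_lit 188) (PT.nd (nat_lit 94) (PT.lf (nat_lit 16632) (nat_lit 6) (nat_lit 198) (nat_lit 0) (nat_lit 75) (nat_lit 64) (nat_lit 50)) (PT.lf (nat_lit 15456) (nat_lit 6) (nat_lit 184) (nat_lit 0) (nat_lit 76) (nat_lit 64) (nat_lit 49))) (PT.nd (nat_lit 94) (PT.lf (nat_lit 14196) (nat_lit 6) (nat_lit 169) (nat_lit 0) (nat_lit 77) (nat_lit 64) (nat_lit 48)) (PT.lf (nat_lit 12852) (nat_lit 6) (nat_lit 153) (nat_lit 0) (nat_lit 78) (nat_lit 64) (nat_lit 47))))))))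
noncomputable def pc14 : PT := (PT.nd (nat_lit 2350) (PT.nd (nat_lit 1128) (PT.nd (nat_lit 564) (PT.nd (nat_lit 282) (PT.nd (nat_lit 94) (PT.lf (nat_lit 11592) (nat_lit 6) (nat_lit 138) (nat_lit 5) (nat_lit 45) (nat_lit 65) (nat_lit 79)) (PT.nd (nat_lit 94) (PT.lf (nat_lit 12264) (nat_lit 6) (nat_lit 146) (nat_lit 5) (nat_lit 46) (nat_lit 65) (nat_lit 78)) (PT.lf (nat_lit 12936) (nat_lit 6) (nat_lit 154) (nat_lit 5) (nat_lit 47) (nat_lit 65) (nat_lit 77)))) (PT.nd (nat_lit 94) (PT.lf (nat_lit 14280) (nat_lit 6) (nat_lit 170) (nat_lit 5) (nat_lit 48) (nat_lit 65) (nat_lit 76)) (PT.nd (nat_lit 94) (PT.lf (nat_lit 15540) (nat_lit 6) (nat_lit 185) (nat_lit 5) (nat_lit 49) (nat_lit 65) (nat_lit 75)) (PT.lf (nat_lit 16716) (nat_lit 6) (nat_lit 199) (nat_lit 5) (nat_lit 50) (nat_lit 65) (nat_lit 74))))) (PT.nd (nat_lit 282) (PT.nd (nat_lit 94) (PT.lf (nat_lit 17808) (nat_lit 6) (nat_lit 212)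 (nat_lit 5) (nat_lit 51) (nat_lit 65) (nat_lit 73)) (PT.nd (nat_lit 94) (PT.lf (nat_lit 18816) (nat_lit 6) (nat_lit 224) (nat_lit 5) (nat_lit 52) (nat_lit 65) (nat_lit 72)) (PT.lf (nat_lit 19740) (nat_lit 6) (nat_lit 235) (nat_lit 5) (nat_lit 53) (nat_lit 65) (nat_lit 71)))) (PT.nd (nat_lit 94) (PT.lf (nat_lit 20580) (nat_lit 6) (nat_lit 245) (nat_lit 5) (nat_lit 54) (nat_lit 65) (nat_lit 70)) (PT.nd (nat_lit 94) (PT.lf (nat_lit 21336) (nat_lit 6) (nat_lit 254) (nat_lit 5) (nat_lit 55) (nat_lit 65) (nat_lit 69)) (PT.lf (nat_lit 22008) (nat_lit 6) (nat_lit 262) (nat_lit 5) (nat_lit 56) (nat_lit 65) (nat_lit 68)))))) (PT.nd (nat_lit 564) (PT.nd (nat_lit 282) (PT.nd (nat_lit 94) (PT.lf (nat_lit 22596) (nat_lit 6) (nat_lit 269) (nat_lit 5) (nat_lit 57) (nat_lit 65) (nat_lit 67)) (PT.nd (nat_lit 94) (PT.lf (nat_lit 23100) (nat_lit 6) (nat_lit 275) (nat_lit 5) (nat_lit 58) (nat_lit 65) (nat_lit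 66)) (PT.lf (nat_lit 23520) (nat_lit 3) (nat_lit 280) (nat_lit 4) (nat_lit 59) (nat_lit 65) (nat_lit 65)))) (PT.nd (nat_lit 94) (PT.lf (nat_lit 23772) (nat_lit 6) (nat_lit 283) (nat_lit 4) (nat_lit 60) (nat_lit 65) (nat_lit 64)) (PT.nd (nat_lit 94) (PT.lf (nat_lit 23940) (nat_lit 6) (nat_lit 285) (nat_lit 4) (nat_lit 61) (nat_lit 65) (nat_lit 63)) (PT.lf (nat_lit 23856) (nat_lit 3) (nat_lit 284) (nat_lit 2) (nat_lit 62) (nat_lit 65) (nat_lit 62))))) (PT.nd (nat_lit 282) (PT.nd (nat_lit 94) (PT.lf (nat_lit 23940) (nat_lit 6) (nat_lit 285) (nat_lit 2) (nat_lit 63) (nat_lit 65) (nat_lit 61)) (PT.nd (nat_lit 94) (PT.lf (nat_lit 23772) (nat_lit 6) (nat_lit 283) (nat_lit 2) (nat_lit 64) (nat_lit 65) (nat_lit 60)) (PT.lf (nat_lit 23520) (nat_lit 3) (nat_lit 280) (nat_lit 0) (nat_lit 65) (nat_lit 65) (nat_lit 59)))) (PT.nd (nat_lit 188) (PT.nd (nat_lit 94) (PT.lf (nat_lit 23100) (nat_lit 6) (nat_lit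 275) (nat_lit 0) (nat_lit 66) (nat_lit 65) (nat_lit 58)) (PT.lf (nat_lit 22596) (nat_lit 6) (nat_lit 269) (nat_lit 0) (nat_lit 67) (nat_lit 65) (nat_lit 57))) (PT.nd (nat_lit 94) (PT.lf (nat_lit 22008) (nat_lit 6) (nat_lit 262) (nat_lit 0) (nat_lit 68) (nat_lit 65) (nat_lit 56)) (PT.lf (nat_lit 21336) (nat_lit 6) (nat_lit 254) (nat_lit 0) (nat_lit 69) (nat_lit 65) (nat_lit 55))))))) (PT.nd (nat_lit 57058) (PT.nd (nat_lit 564) (PT.nd (nat_lit 282) (PT.nd (nat_lit 94) (PT.lf (nat_lit 20580) (nat_lit 6) (nat_lit 245) (nat_lit 0) (nat_lit 70) (nat_lit 65) (nat_lit 54)) (PT.nd (nat_lit 94) (PT.lf (nat_lit 19740) (nat_lit 6) (nat_lit 235) (nat_lit 0) (nat_lit 71) (nat_lit 65) (nat_lit 53)) (PT.lf (nat_lit 18816) (nat_lit 6) (nat_lit 224) (nat_lit 0) (nat_lit 72) (nat_lit 65) (nat_lit 52)))) (PT.nd (nat_lit 94) (PT.lf (nat_lit 17808) (nat_lit 6) (nat_lit 212) (nat_lit 0) (nat_lit 73) (nat_lit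 65) (nat_lit 51)) (PT.nd (nat_lit 94) (PT.lf (nat_lit 16716) (nat_lit 6) (nat_lit 199) (nat_lit 0) (nat_lit 74) (nat_lit 65) (nat_lit 50)) (PT.lf (nat_lit 15540) (nat_lit 6) (nat_lit 185) (nat_lit 0) (nat_lit 75) (nat_lit 65) (nat_lit 49))))) (PT.nd (nat_lit 282) (PT.nd (nat_lit 94) (PT.lf (nat_lit 14280) (nat_lit 6) (nat_lit 170) (nat_lit 0) (nat_lit 76) (nat_lit 65) (nat_lit 48)) (PT.nd (nat_lit 94) (PT.lf (nat_lit 12936) (nat_lit 6) (nat_lit 154) (nat_lit 0) (nat_lit 77) (nat_lit 65) (nat_lit 47)) (PT.lf (nat_lit 12264) (nat_lit 6) (nat_lit 146) (nat_lit 0) (nat_lit 78) (nat_lit 65) (nat_lit 46)))) (PT.nd (nat_lit 56024) (PT.lf (nat_lit 11592) (nat_lit 6) (nat_lit 138) (nat_lit 0) (nat_lit 79) (nat_lit 65) (nat_lit 45)) (PT.nd (nat_lit 94) (PT.lf (nat_lit 11004) (nat_lit 6) (nat_lit 131) (nat_lit 5) (nat_lit 44) (nat_lit 66) (nat_lit 79)) (PT.lf (nat_lit 11676) (nat_lit 6) (nat_lit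 139) (nat_lit 5) (nat_lit 45) (nat_lit 66) (nat_lit 78)))))) (PT.nd (nat_lit 564) (PT.nd (nat_lit 282) (PT.nd (nat_lit 94) (PT.lf (nat_lit 12348) (nat_lit 6) (nat_lit 147) (nat_lit 5) (nat_lit 46) (nat_lit 66) (nat_lit 77)) (PT.nd (nat_lit 94) (PT.lf (nat_lit 13020) (nat_lit 6) (nat_lit 155) (nat_lit 5) (nat_lit 47) (nat_lit 66) (nat_lit 76)) (PT.lf (nat_lit 14364) (nat_lit 6) (nat_lit 171) (nat_lit 5) (nat_lit 48) (nat_lit 66) (nat_lit 75)))) (PT.nd (nat_lit 94) (PT.lf (nat_lit 15624) (nat_lit 6) (nat_lit 186) (nat_lit 5) (nat_lit 49) (nat_lit 66) (nat_lit 74)) (PT.nd (nat_lit 94) (PT.lf (nat_lit 16800) (nat_lit 6) (nat_lit 200) (nat_lit 5) (nat_lit 50) (nat_lit 66) (nat_lit 73)) (PT.lf (nat_lit 17892) (nat_lit 6) (nat_lit 213) (nat_lit 5) (nat_lit 51) (nat_lit 66) (nat_lit 72))))) (PT.nd (nat_lit 282) (PT.nd (nat_lit 94) (PT.lf (nat_lit 18900) (nat_lit 6) (nat_lit 225) (nat_lit 5) (nat_lit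 52) (nat_lit 66) (nat_lit 71)) (PT.nd (nat_lit 94) (PT.lf (nat_lit 19824) (nat_lit 6) (nat_lit 236) (nat_lit 5) (nat_lit 53) (nat_lit 66) (nat_lit 70)) (PT.lf (nat_lit 20664) (nat_lit 6) (nat_lit 246) (nat_lit 5) (nat_lit 54) (nat_lit 66) (nat_lit 69)))) (PT.nd (nat_lit 188) (PT.nd (nat_lit 94) (PT.lf (nat_lit 21420) (nat_lit 6) (nat_lit 255) (nat_lit 5) (nat_lit 55) (nat_lit 66) (nat_lit 68)) (PT.lf (nat_lit 22092) (nat_lit 6) (nat_lit 263) (nat_lit 5) (nat_lit 56) (nat_lit 66) (nat_lit 67))) (PT.nd (nat_lit 94) (PT.lf (nat_lit 22680) (nat_lit 3) (nat_lit 270) (nat_lit 4) (nat_lit 57) (nat_lit 66) (nat_lit 66)) (PT.lf (nat_lit 23100) (nat_lit 6) (nat_lit 275) (nat_lit 4) (nat_lit 58) (nat_lit 66) (nat_lit 65))))))))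
noncomputable def pc15 : PT := (PT.nd (nat_lit 58186) (PT.nd (nat_lit 1128) (PT.nd (nat_lit 564) (PT.nd (nat_lit 282) (PT.nd (nat_lit 94) (PT.lf (nat_lit 23436) (nat_lit 6) (nat_lit 279) (nat_lit 4) (nat_lit 59) (nat_lit 66) (nat_lit 64)) (PT.nd (nat_lit 94) (PT.lf (nat_lit 23688) (nat_lit 6) (nat_lit 282) (nat_lit 4) (nat_lit 60) (nat_lit 66) (nat_lit 63)) (PT.lf (nat_lit 23604) (nat_lit 6) (nat_lit 281) (nat_lit 4) (nat_lit 61) (nat_lit 66) (nat_lit 62)))) (PT.nd (nat_lit 94) (PT.lf (nat_lit 23604) (nat_lit 6) (nat_lit 281) (nat_lit 2) (nat_lit 62) (nat_lit 66) (nat_lit 61)) (PT.nd (nat_lit 94) (PT.lf (nat_lit 23688) (nat_lit 6) (nat_lit 282) (nat_lit 2) (nat_lit 63) (nat_lit 66) (nat_lit 60)) (PT.lf (nat_lit 23436) (nat_lit 6) (nat_lit 279) (nat_lit 2) (nat_lit 64) (nat_lit 66) (nat_lit 59))))) (PT.nd (nat_lit 282) (PT.nd (nat_lit 94) (PT.lf (nat_lit 23100) (nat_lit 6) (nat_lit 275)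 (nat_lit 2) (nat_lit 65) (nat_lit 66) (nat_lit 58)) (PT.nd (nat_lit 94) (PT.lf (nat_lit 22680) (nat_lit 3) (nat_lit 270) (nat_lit 0) (nat_lit 66) (nat_lit 66) (nat_lit 57)) (PT.lf (nat_lit 22092) (nat_lit 6) (nat_lit 263) (nat_lit 0) (nat_lit 67) (nat_lit 66) (nat_lit 56)))) (PT.nd (nat_lit 94) (PT.lf (nat_lit 21420) (nat_lit 6) (nat_lit 255) (nat_lit 0) (nat_lit 68) (nat_lit 66) (nat_lit 55)) (PT.nd (nat_lit 94) (PT.lf (nat_lit 20664) (nat_lit 6) (nat_lit 246) (nat_lit 0) (nat_lit 69) (nat_lit 66) (nat_lit 54)) (PT.lf (nat_lit 19824) (nat_lit 6) (nat_lit 236) (nat_lit 0) (nat_lit 70) (nat_lit 66) (nat_lit 53)))))) (PT.nd (nat_lit 564) (PT.nd (nat_lit 282) (PT.nd (nat_lit 94) (PT.lf (nat_lit 18900) (nat_lit 6) (nat_lit 225) (nat_lit 0) (nat_lit 71) (nat_lit 66) (nat_lit 52)) (PT.nd (nat_lit 94) (PT.lf (nat_lit 17892) (nat_lit 6) (nat_lit 213) (nat_lit 0) (nat_lit 72) (nat_lit 66) (nat_lit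 51)) (PT.lf (nat_lit 16800) (nat_lit 6) (nat_lit 200) (nat_lit 0) (nat_lit 73) (nat_lit 66) (nat_lit 50)))) (PT.nd (nat_lit 94) (PT.lf (nat_lit 15624) (nat_lit 6) (nat_lit 186) (nat_lit 0) (nat_lit 74) (nat_lit 66) (nat_lit 49)) (PT.nd (nat_lit 94) (PT.lf (nat_lit 14364) (nat_lit 6) (nat_lit 171) (nat_lit 0) (nat_lit 75) (nat_lit 66) (nat_lit 48)) (PT.lf (nat_lit 13020) (nat_lit 6) (nat_lit 155) (nat_lit 0) (nat_lit 76) (nat_lit 66) (nat_lit 47))))) (PT.nd (nat_lit 56118) (PT.nd (nat_lit 94) (PT.lf (nat_lit 12348) (nat_lit 6) (nat_lit 147) (nat_lit 0) (nat_lit 77) (nat_lit 66) (nat_lit 46)) (PT.nd (nat_lit 94) (PT.lf (nat_lit 11676) (nat_lit 6) (nat_lit 139) (nat_lit 0) (nat_lit 78) (nat_lit 66) (nat_lit 45)) (PT.lf (nat_lit 11004) (nat_lit 6) (nat_lit 131) (nat_lit 0) (nat_lit 79) (nat_lit 66) (nat_lit 44)))) (PT.nd (nat_lit 188) (PT.nd (nat_lit 94) (PT.lf (nat_lit 10416) (nat_lit 6)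 (nat_lit 124) (nat_lit 5) (nat_lit 43) (nat_lit 67) (nat_lit 79)) (PT.lf (nat_lit 11088) (nat_lit 6) (nat_lit 132) (nat_lit 5) (nat_lit 44) (nat_lit 67) (nat_lit 78))) (PT.nd (nat_lit 94) (PT.lf (nat_lit 11760) (nat_lit 6) (nat_lit 140) (nat_lit 5) (nat_lit 45) (nat_lit 67) (nat_lit 77)) (PT.lf (nat_lit 12432) (nat_lit 6) (nat_lit 148) (nat_lit 5) (nat_lit 46) (nat_lit 67) (nat_lit 76))))))) (PT.nd (nat_lit 1222) (PT.nd (nat_lit 564) (PT.nd (nat_lit 282) (PT.nd (nat_lit 94) (PT.lf (nat_lit 13104) (nat_lit 6) (nat_lit 156) (nat_lit 5) (nat_lit 47) (nat_lit 67) (nat_lit 75)) (PT.nd (nat_lit 94) (PT.lf (nat_lit 14448) (nat_lit 6) (nat_lit 172) (nat_lit 5) (nat_lit 48) (nat_lit 67) (nat_lit 74)) (PT.lf (nat_lit 15708) (nat_lit 6) (nat_lit 187) (nat_lit 5) (nat_lit 49) (nat_lit 67) (nat_lit 73)))) (PT.nd (nat_lit 94) (PT.lf (nat_lit 16884) (nat_lit 6) (nat_lit 201) (nat_lit 5) (nat_lit 50)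 (nat_lit 67) (nat_lit 72)) (PT.nd (nat_lit 94) (PT.lf (nat_lit 17976) (nat_lit 6) (nat_lit 214) (nat_lit 5) (nat_lit 51) (nat_lit 67) (nat_lit 71)) (PT.lf (nat_lit 18984) (nat_lit 6) (nat_lit 226) (nat_lit 5) (nat_lit 52) (nat_lit 67) (nat_lit 70))))) (PT.nd (nat_lit 282) (PT.nd (nat_lit 94) (PT.lf (nat_lit 19908) (nat_lit 6) (nat_lit 237) (nat_lit 5) (nat_lit 53) (nat_lit 67) (nat_lit 69)) (PT.nd (nat_lit 94) (PT.lf (nat_lit 20748) (nat_lit 6) (nat_lit 247) (nat_lit 5) (nat_lit 54) (nat_lit 67) (nat_lit 68)) (PT.lf (nat_lit 21504) (nat_lit 3) (nat_lit 256) (nat_lit 4) (nat_lit 55) (nat_lit 67) (nat_lit 67)))) (PT.nd (nat_lit 188) (PT.nd (nat_lit 94) (PT.lf (nat_lit 22092) (nat_lit 6) (nat_lit 263) (nat_lit 4) (nat_lit 56) (nat_lit 67) (nat_lit 66)) (PT.lf (nat_lit 22596) (nat_lit 6) (nat_lit 269) (nat_lit 4) (nat_lit 57) (nat_lit 67) (nat_lit 65))) (PT.nd (nat_lit 94) (PT.lf (nat_lit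 23016) (nat_lit 6) (nat_lit 274) (nat_lit 4) (nat_lit 58) (nat_lit 67) (nat_lit 64)) (PT.lf (nat_lit 23352) (nat_lit 6) (nat_lit 278) (nat_lit 4) (nat_lit 59) (nat_lit 67) (nat_lit 63)))))) (PT.nd (nat_lit 564) (PT.nd (nat_lit 282) (PT.nd (nat_lit 94) (PT.lf (nat_lit 23268) (nat_lit 6) (nat_lit 277) (nat_lit 4) (nat_lit 60) (nat_lit 67) (nat_lit 62)) (PT.nd (nat_lit 94) (PT.lf (nat_lit 23184) (nat_lit 3) (nat_lit 276) (nat_lit 2) (nat_lit 61) (nat_lit 67) (nat_lit 61)) (PT.lf (nat_lit 23268) (nat_lit 6) (nat_lit 277) (nat_lit 2) (nat_lit 62) (nat_lit 67) (nat_lit 60)))) (PT.nd (nat_lit 94) (PT.lf (nat_lit 23352) (nat_lit 6) (nat_lit 278) (nat_lit 2) (nat_lit 63) (nat_lit 67) (nat_lit 59)) (PT.nd (nat_lit 94) (PT.lf (nat_lit 23016) (nat_lit 6) (nat_lit 274) (nat_lit 2) (nat_lit 64) (nat_lit 67) (nat_lit 58)) (PT.lf (nat_lit 22596) (nat_lit 6) (nat_lit 269) (nat_lit 2) (nat_lit 65) (nat_lit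 67) (nat_lit 57))))) (PT.nd (nat_lit 282) (PT.nd (nat_lit 94) (PT.lf (nat_lit 22092) (nat_lit 6) (nat_lit 263) (nat_lit 2) (nat_lit 66) (nat_lit 67) (nat_lit 56)) (PT.nd (nat_lit 94) (PT.lf (nat_lit 21504) (nat_lit 3) (nat_lit 256) (nat_lit 0) (nat_lit 67) (nat_lit 67) (nat_lit 55)) (PT.lf (nat_lit 20748) (nat_lit 6) (nat_lit 247) (nat_lit 0) (nat_lit 68) (nat_lit 67) (nat_lit 54)))) (PT.nd (nat_lit 188) (PT.nd (nat_lit 94) (PT.lf (nat_lit 19908) (nat_lit 6) (nat_lit 237) (nat_lit 0) (nat_lit 69) (nat_lit 67) (nat_lit 53)) (PT.lf (nat_lit 18984) (nat_lit 6) (nat_lit 226) (nat_lit 0) (nat_lit 70) (nat_lit 67) (nat_lit 52))) (PT.nd (nat_lit 94) (PT.lf (nat_lit 17976) (nat_lit 6) (nat_lit 214) (nat_lit 0) (nat_lit 71) (nat_lit 67) (nat_lit 51)) (PT.lf (nat_lit 16884) (nat_lit 6) (nat_lit 201) (nat_lit 0) (nat_lit 72) (nat_lit 67) (nat_lit 50))))))))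
noncomputable def pc16 : PT := (PT.nd (nat_lit 58092) (PT.nd (nat_lit 56870) (PT.nd (nat_lit 564) (PT.nd (nat_lit 282) (PT.nd (nat_lit 94) (PT.lf (nat_lit 15708) (nat_lit 6) (nat_lit 187) (nat_lit 0) (nat_lit 73) (nat_lit 67) (nat_lit 49)) (PT.nd (nat_lit 94) (PT.lf (nat_lit 14448) (nat_lit 6) (nat_lit 172) (nat_lit 0) (nat_lit 74) (nat_lit 67) (nat_lit 48)) (PT.lf (nat_lit 13104) (nat_lit 6) (nat_lit 156) (nat_lit 0) (nat_lit 75) (nat_lit 67) (nat_lit 47)))) (PT.nd (nat_lit 94) (PT.lf (nat_lit 12432) (nat_lit 6) (nat_lit 148) (nat_lit 0) (nat_lit 76) (nat_lit 67) (nat_lit 46)) (PT.nd (nat_lit 94) (PT.lf (nat_lit 11760) (nat_lit 6) (nat_lit 140) (nat_lit 0) (nat_lit 77) (nat_lit 67) (nat_lit 45)) (PT.lf (nat_lit 11088) (nat_lit 6) (nat_lit 132) (nat_lit 0) (nat_lit 78) (nat_lit 67) (nat_lit 44))))) (PT.nd (nat_lit 56024) (PT.nd (nat_lit 55836) (PT.lf (nat_lit 10416) (nat_lit 6) (nat_lit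 124) (nat_lit 0) (nat_lit 79) (nat_lit 67) (nat_lit 43)) (PT.nd (nat_lit 94) (PT.lf (nat_lit 9912) (nat_lit 6) (nat_lit 118) (nat_lit 5) (nat_lit 42) (nat_lit 68) (nat_lit 79)) (PT.lf (nat_lit 10500) (nat_lit 6) (nat_lit 125) (nat_lit 5) (nat_lit 43) (nat_lit 68) (nat_lit 78)))) (PT.nd (nat_lit 94) (PT.lf (nat_lit 11172) (nat_lit 6) (nat_lit 133) (nat_lit 5) (nat_lit 44) (nat_lit 68) (nat_lit 77)) (PT.nd (nat_lit 94) (PT.lf (nat_lit 11844) (nat_lit 6) (nat_lit 141) (nat_lit 5) (nat_lit 45) (nat_lit 68) (nat_lit 76)) (PT.lf (nat_lit 12516) (nat_lit 6) (nat_lit 149) (nat_lit 5) (nat_lit 46) (nat_lit 68) (nat_lit 75)))))) (PT.nd (nat_lit 564) (PT.nd (nat_lit 282) (PT.nd (nat_lit 94) (PT.lf (nat_lit 13188) (nat_lit 6) (nat_lit 157) (nat_lit 5) (nat_lit 47) (nat_lit 68) (nat_lit 74)) (PT.nd (nat_lit 94) (PT.lf (nat_lit 14532) (nat_lit 6) (nat_lit 173) (nat_lit 5) (nat_lit 48) (nat_lit 68) (nat_lit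 73)) (PT.lf (nat_lit 15792) (nat_lit 6) (nat_lit 188) (nat_lit 5) (nat_lit 49) (nat_lit 68) (nat_lit 72)))) (PT.nd (nat_lit 94) (PT.lf (nat_lit 16968) (nat_lit 6) (nat_lit 202) (nat_lit 5) (nat_lit 50) (nat_lit 68) (nat_lit 71)) (PT.nd (nat_lit 94) (PT.lf (nat_lit 18060) (nat_lit 6) (nat_lit 215) (nat_lit 5) (nat_lit 51) (nat_lit 68) (nat_lit 70)) (PT.lf (nat_lit 19068) (nat_lit 6) (nat_lit 227) (nat_lit 5) (nat_lit 52) (nat_lit 68) (nat_lit 69))))) (PT.nd (nat_lit 282) (PT.nd (nat_lit 94) (PT.lf (nat_lit 19992) (nat_lit 3) (nat_lit 238) (nat_lit 4) (nat_lit 53) (nat_lit 68) (nat_lit 68)) (PT.nd (nat_lit 94) (PT.lf (nat_lit 20748) (nat_lit 6) (nat_lit 247) (nat_lit 4) (nat_lit 54) (nat_lit 68) (nat_lit 67)) (PT.lf (nat_lit 21420) (nat_lit 6) (nat_lit 255) (nat_lit 4) (nat_lit 55) (nat_lit 68) (nat_lit 66)))) (PT.nd (nat_lit 188) (PT.nd (nat_lit 94) (PT.lf (nat_lit 22008) (nat_lit 6) (nat_lit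 262) (nat_lit 4) (nat_lit 56) (nat_lit 68) (nat_lit 65)) (PT.lf (nat_lit 22512) (nat_lit 6) (nat_lit 268) (nat_lit 4) (nat_lit 57) (nat_lit 68) (nat_lit 64))) (PT.nd (nat_lit 94) (PT.lf (nat_lit 22932) (nat_lit 6) (nat_lit 273) (nat_lit 4) (nat_lit 58) (nat_lit 68) (nat_lit 63)) (PT.lf (nat_lit 22848) (nat_lit 6) (nat_lit 272) (nat_lit 4) (nat_lit 59) (nat_lit 68) (nat_lit 62))))))) (PT.nd (nat_lit 1128) (PT.nd (nat_lit 564) (PT.nd (nat_lit 282) (PT.nd (nat_lit 94) (PT.lf (nat_lit 22764) (nat_lit 6) (nat_lit 271) (nat_lit 4) (nat_lit 60) (nat_lit 68) (nat_lit 61)) (PT.nd (nat_lit 94) (PT.lf (nat_lit 22764) (nat_lit 6) (nat_lit 271) (nat_lit 2) (nat_lit 61) (nat_lit 68) (nat_lit 60)) (PT.lf (nat_lit 22848) (nat_lit 6) (nat_lit 272) (nat_lit 2) (nat_lit 62) (nat_lit 68) (nat_lit 59)))) (PT.nd (nat_lit 94) (PT.lf (nat_lit 22932) (nat_lit 6) (nat_lit 273) (nat_lit 2) (nat_lit 63) (nat_lit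 68) (nat_lit 58)) (PT.nd (nat_lit 94) (PT.lf (nat_lit 22512) (nat_lit 6) (nat_lit 268) (nat_lit 2) (nat_lit 64) (nat_lit 68) (nat_lit 57)) (PT.lf (nat_lit 22008) (nat_lit 6) (nat_lit 262) (nat_lit 2) (nat_lit 65) (nat_lit 68) (nat_lit 56))))) (PT.nd (nat_lit 282) (PT.nd (nat_lit 94) (PT.lf (nat_lit 21420) (nat_lit 6) (nat_lit 255) (nat_lit 2) (nat_lit 66) (nat_lit 68) (nat_lit 55)) (PT.nd (nat_lit 94) (PT.lf (nat_lit 20748) (nat_lit 6) (nat_lit 247) (nat_lit 2) (nat_lit 67) (nat_lit 68) (nat_lit 54)) (PT.lf (nat_lit 19992) (nat_lit 3) (nat_lit 238) (nat_lit 0) (nat_lit 68) (nat_lit 68) (nat_lit 53)))) (PT.nd (nat_lit 94) (PT.lf (nat_lit 19068) (nat_lit 6) (nat_lit 227) (nat_lit 0) (nat_lit 69) (nat_lit 68) (nat_lit 52)) (PT.nd (nat_lit 94) (PT.lf (nat_lit 18060) (nat_lit 6) (nat_lit 215) (nat_lit 0) (nat_lit 70) (nat_lit 68) (nat_lit 51)) (PT.lf (nat_lit 16968) (nat_lit 6) (nat_lit 202)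 (nat_lit 0) (nat_lit 71) (nat_lit 68) (nat_lit 50)))))) (PT.nd (nat_lit 564) (PT.nd (nat_lit 282) (PT.nd (nat_lit 94) (PT.lf (nat_lit 15792) (nat_lit 6) (nat_lit 188) (nat_lit 0) (nat_lit 72) (nat_lit 68) (nat_lit 49)) (PT.nd (nat_lit 94) (PT.lf (nat_lit 14532) (nat_lit 6) (nat_lit 173) (nat_lit 0) (nat_lit 73) (nat_lit 68) (nat_lit 48)) (PT.lf (nat_lit 13188) (nat_lit 6) (nat_lit 157) (nat_lit 0) (nat_lit 74) (nat_lit 68) (nat_lit 47)))) (PT.nd (nat_lit 94) (PT.lf (nat_lit 12516) (nat_lit 6) (nat_lit 149) (nat_lit 0) (nat_lit 75) (nat_lit 68) (nat_lit 46)) (PT.nd (nat_lit 94) (PT.lf (nat_lit 11844) (nat_lit 6) (nat_lit 141) (nat_lit 0) (nat_lit 76) (nat_lit 68) (nat_lit 45)) (PT.lf (nat_lit 11172) (nat_lit 6) (nat_lit 133) (nat_lit 0) (nat_lit 77) (nat_lit 68) (nat_lit 44))))) (PT.nd (nat_lit 55836) (PT.nd (nat_lit 94) (PT.lf (nat_lit 10500) (nat_lit 6) (nat_lit 125) (nat_lit 0) (nat_lit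 78) (nat_lit 68) (nat_lit 43)) (PT.nd (nat_lit 55648) (PT.lf (nat_lit 9912) (nat_lit 6) (nat_lit 118) (nat_lit 0) (nat_lit 79) (nat_lit 68) (nat_lit 42)) (PT.lf (nat_lit 8904) (nat_lit 6) (nat_lit 106) (nat_lit 5) (nat_lit 40) (nat_lit 69) (nat_lit 80)))) (PT.nd (nat_lit 188) (PT.nd (nat_lit 94) (PT.lf (nat_lit 9408) (nat_lit 6) (nat_lit 112) (nat_lit 5) (nat_lit 41) (nat_lit 69) (nat_lit 79)) (PT.lf (nat_lit 9996) (nat_lit 6) (nat_lit 119) (nat_lit 5) (nat_lit 42) (nat_lit 69) (nat_lit 78))) (PT.nd (nat_lit 94) (PT.lf (nat_lit 10584) (nat_lit 6) (nat_lit 126) (nat_lit 5) (nat_lit 43) (nat_lit 69) (nat_lit 77)) (PT.lf (nat_lit 11256) (nat_lit 6) (nat_lit 134) (nat_lit 5) (nat_lit 44) (nat_lit 69) (nat_lit 76))))))))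
noncomputable def pc17 : PT := (PT.nd (nat_lit 2350) (PT.nd (nat_lit 1128) (PT.nd (nat_lit 564) (PT.nd (nat_lit 282) (PT.nd (nat_lit 94) (PT.lf (nat_lit 11928) (nat_lit 6) (nat_lit 142) (nat_lit 5) (nat_lit 45) (nat_lit 69) (nat_lit 75)) (PT.nd (nat_lit 94) (PT.lf (nat_lit 12600) (nat_lit 6) (nat_lit 150) (nat_lit 5) (nat_lit 46) (nat_lit 69) (nat_lit 74)) (PT.lf (nat_lit 13272) (nat_lit 6) (nat_lit 158) (nat_lit 5) (nat_lit 47) (nat_lit 69) (nat_lit 73)))) (PT.nd (nat_lit 94) (PT.lf (nat_lit 14616) (nat_lit 6) (nat_lit 174) (nat_lit 5) (nat_lit 48) (nat_lit 69) (nat_lit 72)) (PT.nd (nat_lit 94) (PT.lf (nat_lit 15876) (nat_lit 6) (nat_lit 189) (nat_lit 5) (nat_lit 49) (nat_lit 69) (nat_lit 71)) (PT.lf (nat_lit 17052) (nat_lit 6) (nat_lit 203) (nat_lit 5) (nat_lit 50) (nat_lit 69) (nat_lit 70))))) (PT.nd (nat_lit 282) (PT.nd (nat_lit 94) (PT.lf (nat_lit 18144) (nat_lit 3) (nat_lit 216)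 (nat_lit 4) (nat_lit 51) (nat_lit 69) (nat_lit 69)) (PT.nd (nat_lit 94) (PT.lf (nat_lit 19068) (nat_lit 6) (nat_lit 227) (nat_lit 4) (nat_lit 52) (nat_lit 69) (nat_lit 68)) (PT.lf (nat_lit 19908) (nat_lit 6) (nat_lit 237) (nat_lit 4) (nat_lit 53) (nat_lit 69) (nat_lit 67)))) (PT.nd (nat_lit 94) (PT.lf (nat_lit 20664) (nat_lit 6) (nat_lit 246) (nat_lit 4) (nat_lit 54) (nat_lit 69) (nat_lit 66)) (PT.nd (nat_lit 94) (PT.lf (nat_lit 21336) (nat_lit 6) (nat_lit 254) (nat_lit 4) (nat_lit 55) (nat_lit 69) (nat_lit 65)) (PT.lf (nat_lit 21924) (nat_lit 6) (nat_lit 261) (nat_lit 4) (nat_lit 56) (nat_lit 69) (nat_lit 64)))))) (PT.nd (nat_lit 564) (PT.nd (nat_lit 282) (PT.nd (nat_lit 94) (PT.lf (nat_lit 22428) (nat_lit 6) (nat_lit 267) (nat_lit 4) (nat_lit 57) (nat_lit 69) (nat_lit 63)) (PT.nd (nat_lit 94) (PT.lf (nat_lit 22344) (nat_lit 6) (nat_lit 266) (nat_lit 4) (nat_lit 58) (nat_lit 69) (nat_lit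 62)) (PT.lf (nat_lit 22260) (nat_lit 6) (nat_lit 265) (nat_lit 4) (nat_lit 59) (nat_lit 69) (nat_lit 61)))) (PT.nd (nat_lit 94) (PT.lf (nat_lit 22176) (nat_lit 3) (nat_lit 264) (nat_lit 2) (nat_lit 60) (nat_lit 69) (nat_lit 60)) (PT.nd (nat_lit 94) (PT.lf (nat_lit 22260) (nat_lit 6) (nat_lit 265) (nat_lit 2) (nat_lit 61) (nat_lit 69) (nat_lit 59)) (PT.lf (nat_lit 22344) (nat_lit 6) (nat_lit 266) (nat_lit 2) (nat_lit 62) (nat_lit 69) (nat_lit 58))))) (PT.nd (nat_lit 282) (PT.nd (nat_lit 94) (PT.lf (nat_lit 22428) (nat_lit 6) (nat_lit 267) (nat_lit 2) (nat_lit 63) (nat_lit 69) (nat_lit 57)) (PT.nd (nat_lit 94) (PT.lf (nat_lit 21924) (nat_lit 6) (nat_lit 261) (nat_lit 2) (nat_lit 64) (nat_lit 69) (nat_lit 56)) (PT.lf (nat_lit 21336) (nat_lit 6) (nat_lit 254) (nat_lit 2) (nat_lit 65) (nat_lit 69) (nat_lit 55)))) (PT.nd (nat_lit 188) (PT.nd (nat_lit 94) (PT.lf (nat_lit 20664) (nat_lit 6) (nat_lit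 246) (nat_lit 2) (nat_lit 66) (nat_lit 69) (nat_lit 54)) (PT.lf (nat_lit 19908) (nat_lit 6) (nat_lit 237) (nat_lit 2) (nat_lit 67) (nat_lit 69) (nat_lit 53))) (PT.nd (nat_lit 94) (PT.lf (nat_lit 19068) (nat_lit 6) (nat_lit 227) (nat_lit 2) (nat_lit 68) (nat_lit 69) (nat_lit 52)) (PT.lf (nat_lit 18144) (nat_lit 3) (nat_lit 216) (nat_lit 0) (nat_lit 69) (nat_lit 69) (nat_lit 51))))))) (PT.nd (nat_lit 56494) (PT.nd (nat_lit 564) (PT.nd (nat_lit 282) (PT.nd (nat_lit 94) (PT.lf (nat_lit 17052) (nat_lit 6) (nat_lit 203) (nat_lit 0) (nat_lit 70) (nat_lit 69) (nat_lit 50)) (PT.nd (nat_lit 94) (PT.lf (nat_lit 15876) (nat_lit 6) (nat_lit 189) (nat_lit 0) (nat_lit 71) (nat_lit 69) (nat_lit 49)) (PT.lf (nat_lit 14616) (nat_lit 6) (nat_lit 174) (nat_lit 0) (nat_lit 72) (nat_lit 69) (nat_lit 48)))) (PT.nd (nat_lit 94) (PT.lf (nat_lit 13272) (nat_lit 6) (nat_lit 158) (nat_lit 0) (nat_lit 73) (nat_lit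 69) (nat_lit 47)) (PT.nd (nat_lit 94) (PT.lf (nat_lit 12600) (nat_lit 6) (nat_lit 150) (nat_lit 0) (nat_lit 74) (nat_lit 69) (nat_lit 46)) (PT.lf (nat_lit 11928) (nat_lit 6) (nat_lit 142) (nat_lit 0) (nat_lit 75) (nat_lit 69) (nat_lit 45))))) (PT.nd (nat_lit 282) (PT.nd (nat_lit 94) (PT.lf (nat_lit 11256) (nat_lit 6) (nat_lit 134) (nat_lit 0) (nat_lit 76) (nat_lit 69) (nat_lit 44)) (PT.nd (nat_lit 94) (PT.lf (nat_lit 10584) (nat_lit 6) (nat_lit 126) (nat_lit 0) (nat_lit 77) (nat_lit 69) (nat_lit 43)) (PT.lf (nat_lit 9996) (nat_lit 6) (nat_lit 119) (nat_lit 0) (nat_lit 78) (nat_lit 69) (nat_lit 42)))) (PT.nd (nat_lit 94) (PT.lf (nat_lit 9408) (nat_lit 6) (nat_lit 112) (nat_lit 0) (nat_lit 79) (nat_lit 69) (nat_lit 41)) (PT.nd (nat_lit 55460) (PT.lf (nat_lit 8904) (nat_lit 6) (nat_lit 106) (nat_lit 0) (nat_lit 80) (nat_lit 69) (nat_lit 40)) (PT.lf (nat_lit 8400) (nat_lit 6) (nat_lit 100)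 (nat_lit 5) (nat_lit 39) (nat_lit 70) (nat_lit 80)))))) (PT.nd (nat_lit 564) (PT.nd (nat_lit 282) (PT.nd (nat_lit 94) (PT.lf (nat_lit 8988) (nat_lit 6) (nat_lit 107) (nat_lit 5) (nat_lit 40) (nat_lit 70) (nat_lit 79)) (PT.nd (nat_lit 94) (PT.lf (nat_lit 9492) (nat_lit 6) (nat_lit 113) (nat_lit 5) (nat_lit 41) (nat_lit 70) (nat_lit 78)) (PT.lf (nat_lit 10080) (nat_lit 6) (nat_lit 120) (nat_lit 5) (nat_lit 42) (nat_lit 70) (nat_lit 77)))) (PT.nd (nat_lit 94) (PT.lf (nat_lit 10668) (nat_lit 6) (nat_lit 127) (nat_lit 5) (nat_lit 43) (nat_lit 70) (nat_lit 76)) (PT.nd (nat_lit 94) (PT.lf (nat_lit 11340) (nat_lit 6) (nat_lit 135) (nat_lit 5) (nat_lit 44) (nat_lit 70) (nat_lit 75)) (PT.lf (nat_lit 12012) (nat_lit 6) (nat_lit 143) (nat_lit 5) (nat_lit 45) (nat_lit 70) (nat_lit 74))))) (PT.nd (nat_lit 282) (PT.nd (nat_lit 94) (PT.lf (nat_lit 12684) (nat_lit 6) (nat_lit 151) (nat_lit 5) (nat_lit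 46) (nat_lit 70) (nat_lit 73)) (PT.nd (nat_lit 94) (PT.lf (nat_lit 13356) (nat_lit 6) (nat_lit 159) (nat_lit 5) (nat_lit 47) (nat_lit 70) (nat_lit 72)) (PT.lf (nat_lit 14700) (nat_lit 6) (nat_lit 175) (nat_lit 5) (nat_lit 48) (nat_lit 70) (nat_lit 71)))) (PT.nd (nat_lit 188) (PT.nd (nat_lit 94) (PT.lf (nat_lit 15960) (nat_lit 3) (nat_lit 190) (nat_lit 4) (nat_lit 49) (nat_lit 70) (nat_lit 70)) (PT.lf (nat_lit 17052) (nat_lit 6) (nat_lit 203) (nat_lit 4) (nat_lit 50) (nat_lit 70) (nat_lit 69))) (PT.nd (nat_lit 94) (PT.lf (nat_lit 18060) (nat_lit 6) (nat_lit 215) (nat_lit 4) (nat_lit 51) (nat_lit 70) (nat_lit 68)) (PT.lf (nat_lit 18984) (nat_lit 6) (nat_lit 226) (nat_lit 4) (nat_lit 52) (nat_lit 70) (nat_lit 67))))))))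
noncomputable def pc18 : PT := (PT.nd (nat_lit 2350) (PT.nd (nat_lit 1128) (PT.nd (nat_lit 564) (PT.nd (nat_lit 282) (PT.nd (nat_lit 94) (PT.lf (nat_lit 19824) (nat_lit 6) (nat_lit 236) (nat_lit 4) (nat_lit 53) (nat_lit 70) (nat_lit 66)) (PT.nd (nat_lit 94) (PT.lf (nat_lit 20580) (nat_lit 6) (nat_lit 245) (nat_lit 4) (nat_lit 54) (nat_lit 70) (nat_lit 65)) (PT.lf (nat_lit 21252) (nat_lit 6) (nat_lit 253) (nat_lit 4) (nat_lit 55) (nat_lit 70) (nat_lit 64)))) (PT.nd (nat_lit 94) (PT.lf (nat_lit 21840) (nat_lit 6) (nat_lit 260) (nat_lit 4) (nat_lit 56) (nat_lit 70) (nat_lit 63)) (PT.nd (nat_lit 94) (PT.lf (nat_lit 21756) (nat_lit 6) (nat_lit 259) (nat_lit 4) (nat_lit 57) (nat_lit 70) (nat_lit 62)) (PT.lf (nat_lit 21672) (nat_lit 6) (nat_lit 258) (nat_lit 4) (nat_lit 58) (nat_lit 70) (nat_lit 61))))) (PT.nd (nat_lit 282) (PT.nd (nat_lit 94) (PT.lf (nat_lit 21588) (nat_lit 6) (nat_lit 257)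 (nat_lit 4) (nat_lit 59) (nat_lit 70) (nat_lit 60)) (PT.nd (nat_lit 94) (PT.lf (nat_lit 21588) (nat_lit 6) (nat_lit 257) (nat_lit 2) (nat_lit 60) (nat_lit 70) (nat_lit 59)) (PT.lf (nat_lit 21672) (nat_lit 6) (nat_lit 258) (nat_lit 2) (nat_lit 61) (nat_lit 70) (nat_lit 58)))) (PT.nd (nat_lit 94) (PT.lf (nat_lit 21756) (nat_lit 6) (nat_lit 259) (nat_lit 2) (nat_lit 62) (nat_lit 70) (nat_lit 57)) (PT.nd (nat_lit 94) (PT.lf (nat_lit 21840) (nat_lit 6) (nat_lit 260) (nat_lit 2) (nat_lit 63) (nat_lit 70) (nat_lit 56)) (PT.lf (nat_lit 21252) (nat_lit 6) (nat_lit 253) (nat_lit 2) (nat_lit 64) (nat_lit 70) (nat_lit 55)))))) (PT.nd (nat_lit 564) (PT.nd (nat_lit 282) (PT.nd (nat_lit 94) (PT.lf (nat_lit 20580) (nat_lit 6) (nat_lit 245) (nat_lit 2) (nat_lit 65) (nat_lit 70) (nat_lit 54)) (PT.nd (nat_lit 94) (PT.lf (nat_lit 19824) (nat_lit 6) (nat_lit 236) (nat_lit 2) (nat_lit 66) (nat_lit 70) (nat_lit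 53)) (PT.lf (nat_lit 18984) (nat_lit 6) (nat_lit 226) (nat_lit 2) (nat_lit 67) (nat_lit 70) (nat_lit 52)))) (PT.nd (nat_lit 94) (PT.lf (nat_lit 18060) (nat_lit 6) (nat_lit 215) (nat_lit 2) (nat_lit 68) (nat_lit 70) (nat_lit 51)) (PT.nd (nat_lit 94) (PT.lf (nat_lit 17052) (nat_lit 6) (nat_lit 203) (nat_lit 2) (nat_lit 69) (nat_lit 70) (nat_lit 50)) (PT.lf (nat_lit 15960) (nat_lit 3) (nat_lit 190) (nat_lit 0) (nat_lit 70) (nat_lit 70) (nat_lit 49))))) (PT.nd (nat_lit 282) (PT.nd (nat_lit 94) (PT.lf (nat_lit 14700) (nat_lit 6) (nat_lit 175) (nat_lit 0) (nat_lit 71) (nat_lit 70) (nat_lit 48)) (PT.nd (nat_lit 94) (PT.lf (nat_lit 13356) (nat_lit 6) (nat_lit 159) (nat_lit 0) (nat_lit 72) (nat_lit 70) (nat_lit 47)) (PT.lf (nat_lit 12684) (nat_lit 6) (nat_lit 151) (nat_lit 0) (nat_lit 73) (nat_lit 70) (nat_lit 46)))) (PT.nd (nat_lit 188) (PT.nd (nat_lit 94) (PT.lf (nat_lit 12012) (nat_lit 6) (nat_lit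 143) (nat_lit 0) (nat_lit 74) (nat_lit 70) (nat_lit 45)) (PT.lf (nat_lit 11340) (nat_lit 6) (nat_lit 135) (nat_lit 0) (nat_lit 75) (nat_lit 70) (nat_lit 44))) (PT.nd (nat_lit 94) (PT.lf (nat_lit 10668) (nat_lit 6) (nat_lit 127) (nat_lit 0) (nat_lit 76) (nat_lit 70) (nat_lit 43)) (PT.lf (nat_lit 10080) (nat_lit 6) (nat_lit 120) (nat_lit 0) (nat_lit 77) (nat_lit 70) (nat_lit 42))))))) (PT.nd (nat_lit 56400) (PT.nd (nat_lit 55836) (PT.nd (nat_lit 55554) (PT.nd (nat_lit 94) (PT.lf (nat_lit 9492) (nat_lit 6) (nat_lit 113) (nat_lit 0) (nat_lit 78) (nat_lit 70) (nat_lit 41)) (PT.nd (nat_lit 94) (PT.lf (nat_lit 8988) (nat_lit 6) (nat_lit 107) (nat_lit 0) (nat_lit 79) (nat_lit 70) (nat_lit 40)) (PT.lf (nat_lit 8400) (nat_lit 6) (nat_lit 100) (nat_lit 0) (nat_lit 80) (nat_lit 70) (nat_lit 39)))) (PT.nd (nat_lit 94) (PT.lf (nat_lit 7980) (nat_lit 6) (nat_lit 95) (nat_lit 5) (nat_lit 38) (nat_lit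 71) (nat_lit 80)) (PT.nd (nat_lit 94) (PT.lf (nat_lit 8484) (nat_lit 6) (nat_lit 101) (nat_lit 5) (nat_lit 39) (nat_lit 71) (nat_lit 79)) (PT.lf (nat_lit 9072) (nat_lit 6) (nat_lit 108) (nat_lit 5) (nat_lit 40) (nat_lit 71) (nat_lit 78))))) (PT.nd (nat_lit 282) (PT.nd (nat_lit 94) (PT.lf (nat_lit 9576) (nat_lit 6) (nat_lit 114) (nat_lit 5) (nat_lit 41) (nat_lit 71) (nat_lit 77)) (PT.nd (nat_lit 94) (PT.lf (nat_lit 10164) (nat_lit 6) (nat_lit 121) (nat_lit 5) (nat_lit 42) (nat_lit 71) (nat_lit 76)) (PT.lf (nat_lit 10752) (nat_lit 6) (nat_lit 128) (nat_lit 5) (nat_lit 43) (nat_lit 71) (nat_lit 75)))) (PT.nd (nat_lit 94) (PT.lf (nat_lit 11424) (nat_lit 6) (nat_lit 136) (nat_lit 5) (nat_lit 44) (nat_lit 71) (nat_lit 74)) (PT.nd (nat_lit 94) (PT.lf (nat_lit 12096) (nat_lit 6) (nat_lit 144) (nat_lit 5) (nat_lit 45) (nat_lit 71) (nat_lit 73)) (PT.lf (nat_lit 12768) (nat_lit 6) (nat_lit 152) (nat_lit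 5) (nat_lit 46) (nat_lit 71) (nat_lit 72)))))) (PT.nd (nat_lit 564) (PT.nd (nat_lit 282) (PT.nd (nat_lit 94) (PT.lf (nat_lit 13440) (nat_lit 3) (nat_lit 160) (nat_lit 4) (nat_lit 47) (nat_lit 71) (nat_lit 71)) (PT.nd (nat_lit 94) (PT.lf (nat_lit 14700) (nat_lit 6) (nat_lit 175) (nat_lit 4) (nat_lit 48) (nat_lit 71) (nat_lit 70)) (PT.lf (nat_lit 15876) (nat_lit 6) (nat_lit 189) (nat_lit 4) (nat_lit 49) (nat_lit 71) (nat_lit 69)))) (PT.nd (nat_lit 94) (PT.lf (nat_lit 16968) (nat_lit 6) (nat_lit 202) (nat_lit 4) (nat_lit 50) (nat_lit 71) (nat_lit 68)) (PT.nd (nat_lit 94) (PT.lf (nat_lit 17976) (nat_lit 6) (nat_lit 214) (nat_lit 4) (nat_lit 51) (nat_lit 71) (nat_lit 67)) (PT.lf (nat_lit 18900) (nat_lit 6) (nat_lit 225) (nat_lit 4) (nat_lit 52) (nat_lit 71) (nat_lit 66))))) (PT.nd (nat_lit 282) (PT.nd (nat_lit 94) (PT.lf (nat_lit 19740) (nat_lit 6) (nat_lit 235) (nat_lit 4) (nat_lit 53) (nat_lit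 71) (nat_lit 65)) (PT.nd (nat_lit 94) (PT.lf (nat_lit 20496) (nat_lit 6) (nat_lit 244) (nat_lit 4) (nat_lit 54) (nat_lit 71) (nat_lit 64)) (PT.lf (nat_lit 21168) (nat_lit 6) (nat_lit 252) (nat_lit 4) (nat_lit 55) (nat_lit 71) (nat_lit 63)))) (PT.nd (nat_lit 188) (PT.nd (nat_lit 94) (PT.lf (nat_lit 21084) (nat_lit 6) (nat_lit 251) (nat_lit 4) (nat_lit 56) (nat_lit 71) (nat_lit 62)) (PT.lf (nat_lit 21000) (nat_lit 6) (nat_lit 250) (nat_lit 4) (nat_lit 57) (nat_lit 71) (nat_lit 61))) (PT.nd (nat_lit 94) (PT.lf (nat_lit 20916) (nat_lit 6) (nat_lit 249) (nat_lit 4) (nat_lit 58) (nat_lit 71) (nat_lit 60)) (PT.lf (nat_lit 20832) (nat_lit 3) (nat_lit 248) (nat_lit 2) (nat_lit 59) (nat_lit 71) (nat_lit 59))))))))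
noncomputable def pc19 : PT := (PT.nd (nat_lit 57434) (PT.nd (nat_lit 1128) (PT.nd (nat_lit 564) (PT.nd (nat_lit 282) (PT.nd (nat_lit 94) (PT.lf (nat_lit 20916) (nat_lit 6) (nat_lit 249) (nat_lit 2) (nat_lit 60) (nat_lit 71) (nat_lit 58)) (PT.nd (nat_lit 94) (PT.lf (nat_lit 21000) (nat_lit 6) (nat_lit 250) (nat_lit 2) (nat_lit 61) (nat_lit 71) (nat_lit 57)) (PT.lf (nat_lit 21084) (nat_lit 6) (nat_lit 251) (nat_lit 2) (nat_lit 62) (nat_lit 71) (nat_lit 56)))) (PT.nd (nat_lit 94) (PT.lf (nat_lit 21168) (nat_lit 6) (nat_lit 252) (nat_lit 2) (nat_lit 63) (nat_lit 71) (nat_lit 55)) (PT.nd (nat_lit 94) (PT.lf (nat_lit 20496) (nat_lit 6) (nat_lit 244) (nat_lit 2) (nat_lit 64) (nat_lit 71) (nat_lit 54)) (PT.lf (nat_lit 19740) (nat_lit 6) (nat_lit 235) (nat_lit 2) (nat_lit 65) (nat_lit 71) (nat_lit 53))))) (PT.nd (nat_lit 282) (PT.nd (nat_lit 94) (PT.lf (nat_lit 18900) (nat_lit 6) (nat_lit 225)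 (nat_lit 2) (nat_lit 66) (nat_lit 71) (nat_lit 52)) (PT.nd (nat_lit 94) (PT.lf (nat_lit 17976) (nat_lit 6) (nat_lit 214) (nat_lit 2) (nat_lit 67) (nat_lit 71) (nat_lit 51)) (PT.lf (nat_lit 16968) (nat_lit 6) (nat_lit 202) (nat_lit 2) (nat_lit 68) (nat_lit 71) (nat_lit 50)))) (PT.nd (nat_lit 94) (PT.lf (nat_lit 15876) (nat_lit 6) (nat_lit 189) (nat_lit 2) (nat_lit 69) (nat_lit 71) (nat_lit 49)) (PT.nd (nat_lit 94) (PT.lf (nat_lit 14700) (nat_lit 6) (nat_lit 175) (nat_lit 2) (nat_lit 70) (nat_lit 71) (nat_lit 48)) (PT.lf (nat_lit 13440) (nat_lit 3) (nat_lit 160) (nat_lit 0) (nat_lit 71) (nat_lit 71) (nat_lit 47)))))) (PT.nd (nat_lit 564) (PT.nd (nat_lit 282) (PT.nd (nat_lit 94) (PT.lf (nat_lit 12768) (nat_lit 6) (nat_lit 152) (nat_lit 0) (nat_lit 72) (nat_lit 71) (nat_lit 46)) (PT.nd (nat_lit 94) (PT.lf (nat_lit 12096) (nat_lit 6) (nat_lit 144) (nat_lit 0) (nat_lit 73) (nat_lit 71) (nat_lit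 45)) (PT.lf (nat_lit 11424) (nat_lit 6) (nat_lit 136) (nat_lit 0) (nat_lit 74) (nat_lit 71) (nat_lit 44)))) (PT.nd (nat_lit 94) (PT.lf (nat_lit 10752) (nat_lit 6) (nat_lit 128) (nat_lit 0) (nat_lit 75) (nat_lit 71) (nat_lit 43)) (PT.nd (nat_lit 94) (PT.lf (nat_lit 10164) (nat_lit 6) (nat_lit 121) (nat_lit 0) (nat_lit 76) (nat_lit 71) (nat_lit 42)) (PT.lf (nat_lit 9576) (nat_lit 6) (nat_lit 114) (nat_lit 0) (nat_lit 77) (nat_lit 71) (nat_lit 41))))) (PT.nd (nat_lit 55366) (PT.nd (nat_lit 94) (PT.lf (nat_lit 9072) (nat_lit 6) (nat_lit 108) (nat_lit 0) (nat_lit 78) (nat_lit 71) (nat_lit 40)) (PT.nd (nat_lit 94) (PT.lf (nat_lit 8484) (nat_lit 6) (nat_lit 101) (nat_lit 0) (nat_lit 79) (nat_lit 71) (nat_lit 39)) (PT.lf (nat_lit 7980) (nat_lit 6) (nat_lit 95) (nat_lit 0) (nat_lit 80) (nat_lit 71) (nat_lit 38)))) (PT.nd (nat_lit 188) (PT.nd (nat_lit 94) (PT.lf (nat_lit 7140) (nat_lit 6) (nat_lit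 85) (nat_lit 5) (nat_lit 36) (nat_lit 72) (nat_lit 81)) (PT.lf (nat_lit 7560) (nat_lit 6) (nat_lit 90) (nat_lit 5) (nat_lit 37) (nat_lit 72) (nat_lit 80))) (PT.nd (nat_lit 94) (PT.lf (nat_lit 8064) (nat_lit 6) (nat_lit 96) (nat_lit 5) (nat_lit 38) (nat_lit 72) (nat_lit 79)) (PT.lf (nat_lit 8568) (nat_lit 6) (nat_lit 102) (nat_lit 5) (nat_lit 39) (nat_lit 72) (nat_lit 78))))))) (PT.nd (nat_lit 1222) (PT.nd (nat_lit 564) (PT.nd (nat_lit 282) (PT.nd (nat_lit 94) (PT.lf (nat_lit 9156) (nat_lit 6) (nat_lit 109) (nat_lit 5) (nat_lit 40) (nat_lit 72) (nat_lit 77)) (PT.nd (nat_lit 94) (PT.lf (nat_lit 9660) (nat_lit 6) (nat_lit 115) (nat_lit 5) (nat_lit 41) (nat_lit 72) (nat_lit 76)) (PT.lf (nat_lit 10248) (nat_lit 6) (nat_lit 122) (nat_lit 5) (nat_lit 42) (nat_lit 72) (nat_lit 75)))) (PT.nd (nat_lit 94) (PT.lf (nat_lit 10836) (nat_lit 6) (nat_lit 129) (nat_lit 5) (nat_lit 43) (nat_lit 72) (nat_lit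 74)) (PT.nd (nat_lit 94) (PT.lf (nat_lit 11508) (nat_lit 6) (nat_lit 137) (nat_lit 5) (nat_lit 44) (nat_lit 72) (nat_lit 73)) (PT.lf (nat_lit 12180) (nat_lit 3) (nat_lit 145) (nat_lit 4) (nat_lit 45) (nat_lit 72) (nat_lit 72))))) (PT.nd (nat_lit 282) (PT.nd (nat_lit 94) (PT.lf (nat_lit 12768) (nat_lit 6) (nat_lit 152) (nat_lit 4) (nat_lit 46) (nat_lit 72) (nat_lit 71)) (PT.nd (nat_lit 94) (PT.lf (nat_lit 13356) (nat_lit 6) (nat_lit 159) (nat_lit 4) (nat_lit 47) (nat_lit 72) (nat_lit 70)) (PT.lf (nat_lit 14616) (nat_lit 6) (nat_lit 174) (nat_lit 4) (nat_lit 48) (nat_lit 72) (nat_lit 69)))) (PT.nd (nat_lit 188) (PT.nd (nat_lit 94) (PT.lf (nat_lit 15792) (nat_lit 6) (nat_lit 188) (nat_lit 4) (nat_lit 49) (nat_lit 72) (nat_lit 68)) (PT.lf (nat_lit 16884) (nat_lit 6) (nat_lit 201) (nat_lit 4) (nat_lit 50) (nat_lit 72) (nat_lit 67))) (PT.nd (nat_lit 94) (PT.lf (nat_lit 17892) (nat_lit 6) (nat_lit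 213) (nat_lit 4) (nat_lit 51) (nat_lit 72) (nat_lit 66)) (PT.lf (nat_lit 18816) (nat_lit 6) (nat_lit 224) (nat_lit 4) (nat_lit 52) (nat_lit 72) (nat_lit 65)))))) (PT.nd (nat_lit 564) (PT.nd (nat_lit 282) (PT.nd (nat_lit 94) (PT.lf (nat_lit 19656) (nat_lit 6) (nat_lit 234) (nat_lit 4) (nat_lit 53) (nat_lit 72) (nat_lit 64)) (PT.nd (nat_lit 94) (PT.lf (nat_lit 20412) (nat_lit 6) (nat_lit 243) (nat_lit 4) (nat_lit 54) (nat_lit 72) (nat_lit 63)) (PT.lf (nat_lit 20328) (nat_lit 6) (nat_lit 242) (nat_lit 4) (nat_lit 55) (nat_lit 72) (nat_lit 62)))) (PT.nd (nat_lit 94) (PT.lf (nat_lit 20244) (nat_lit 6) (nat_lit 241) (nat_lit 4) (nat_lit 56) (nat_lit 72) (nat_lit 61)) (PT.nd (nat_lit 94) (PT.lf (nat_lit 20160) (nat_lit 6) (nat_lit 240) (nat_lit 4) (nat_lit 57) (nat_lit 72) (nat_lit 60)) (PT.lf (nat_lit 20076) (nat_lit 6) (nat_lit 239) (nat_lit 4) (nat_lit 58) (nat_lit 72) (nat_lit 59))))) (PT.nd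 (nat_lit 282) (PT.nd (nat_lit 94) (PT.lf (nat_lit 20076) (nat_lit 6) (nat_lit 239) (nat_lit 2) (nat_lit 59) (nat_lit 72) (nat_lit 58)) (PT.nd (nat_lit 94) (PT.lf (nat_lit 20160) (nat_lit 6) (nat_lit 240) (nat_lit 2) (nat_lit 60) (nat_lit 72) (nat_lit 57)) (PT.lf (nat_lit 20244) (nat_lit 6) (nat_lit 241) (nat_lit 2) (nat_lit 61) (nat_lit 72) (nat_lit 56)))) (PT.nd (nat_lit 188) (PT.nd (nat_lit 94) (PT.lf (nat_lit 20328) (nat_lit 6) (nat_lit 242) (nat_lit 2) (nat_lit 62) (nat_lit 72) (nat_lit 55)) (PT.lf (nat_lit 20412) (nat_lit 6) (nat_lit 243) (nat_lit 2) (nat_lit 63) (nat_lit 72) (nat_lit 54))) (PT.nd (nat_lit 94) (PT.lf (nat_lit 19656) (nat_lit 6) (nat_lit 234) (nat_lit 2) (nat_lit 64) (nat_lit 72) (nat_lit 53)) (PT.lf (nat_lit 18816) (nat_lit 6) (nat_lit 224) (nat_lit 2) (nat_lit 65) (nat_lit 72) (nat_lit 52))))))))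
noncomputable def pc20 : PT := (PT.nd (nat_lit 57246) (PT.nd (nat_lit 1128) (PT.nd (nat_lit 564) (PT.nd (nat_lit 282) (PT.nd (nat_lit 94) (PT.lf (nat_lit 17892) (nat_lit 6) (nat_lit 213) (nat_lit 2) (nat_lit 66) (nat_lit 72) (nat_lit 51)) (PT.nd (nat_lit 94) (PT.lf (nat_lit 16884) (nat_lit 6) (nat_lit 201) (nat_lit 2) (nat_lit 67) (nat_lit 72) (nat_lit 50)) (PT.lf (nat_lit 15792) (nat_lit 6) (nat_lit 188) (nat_lit 2) (nat_lit 68) (nat_lit 72) (nat_lit 49)))) (PT.nd (nat_lit 94) (PT.lf (nat_lit 14616) (nat_lit 6) (nat_lit 174) (nat_lit 2) (nat_lit 69) (nat_lit 72) (nat_lit 48)) (PT.nd (nat_lit 94) (PT.lf (nat_lit 13356) (nat_lit 6) (nat_lit 159) (nat_lit 2) (nat_lit 70) (nat_lit 72) (nat_lit 47)) (PT.lf (nat_lit 12768) (nat_lit 6) (nat_lit 152) (nat_lit 2) (nat_lit 71) (nat_lit 72) (nat_lit 46))))) (PT.nd (nat_lit 282) (PT.nd (nat_lit 94) (PT.lf (nat_lit 12180) (nat_lit 3) (nat_lit 145)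 (nat_lit 0) (nat_lit 72) (nat_lit 72) (nat_lit 45)) (PT.nd (nat_lit 94) (PT.lf (nat_lit 11508) (nat_lit 6) (nat_lit 137) (nat_lit 0) (nat_lit 73) (nat_lit 72) (nat_lit 44)) (PT.lf (nat_lit 10836) (nat_lit 6) (nat_lit 129) (nat_lit 0) (nat_lit 74) (nat_lit 72) (nat_lit 43)))) (PT.nd (nat_lit 94) (PT.lf (nat_lit 10248) (nat_lit 6) (nat_lit 122) (nat_lit 0) (nat_lit 75) (nat_lit 72) (nat_lit 42)) (PT.nd (nat_lit 94) (PT.lf (nat_lit 9660) (nat_lit 6) (nat_lit 115) (nat_lit 0) (nat_lit 76) (nat_lit 72) (nat_lit 41)) (PT.lf (nat_lit 9156) (nat_lit 6) (nat_lit 109) (nat_lit 0) (nat_lit 77) (nat_lit 72) (nat_lit 40)))))) (PT.nd (nat_lit 55460) (PT.nd (nat_lit 282) (PT.nd (nat_lit 94) (PT.lf (nat_lit 8568) (nat_lit 6) (nat_lit 102) (nat_lit 0) (nat_lit 78) (nat_lit 72) (nat_lit 39)) (PT.nd (nat_lit 94) (PT.lf (nat_lit 8064) (nat_lit 6) (nat_lit 96) (nat_lit 0) (nat_lit 79) (nat_lit 72) (nat_lit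 38)) (PT.lf (nat_lit 7560) (nat_lit 6) (nat_lit 90) (nat_lit 0) (nat_lit 80) (nat_lit 72) (nat_lit 37)))) (PT.nd (nat_lit 54990) (PT.lf (nat_lit 7140) (nat_lit 6) (nat_lit 85) (nat_lit 0) (nat_lit 81) (nat_lit 72) (nat_lit 36)) (PT.nd (nat_lit 94) (PT.lf (nat_lit 6720) (nat_lit 6) (nat_lit 80) (nat_lit 5) (nat_lit 35) (nat_lit 73) (nat_lit 81)) (PT.lf (nat_lit 7224) (nat_lit 6) (nat_lit 86) (nat_lit 5) (nat_lit 36) (nat_lit 73) (nat_lit 80))))) (PT.nd (nat_lit 282) (PT.nd (nat_lit 94) (PT.lf (nat_lit 7644) (nat_lit 6) (nat_lit 91) (nat_lit 5) (nat_lit 37) (nat_lit 73) (nat_lit 79)) (PT.nd (nat_lit 94) (PT.lf (nat_lit 8148) (nat_lit 6) (nat_lit 97) (nat_lit 5) (nat_lit 38) (nat_lit 73) (nat_lit 78)) (PT.lf (nat_lit 8652) (nat_lit 6) (nat_lit 103) (nat_lit 5) (nat_lit 39) (nat_lit 73) (nat_lit 77)))) (PT.nd (nat_lit 188) (PT.nd (nat_lit 94) (PT.lf (nat_lit 9240) (nat_lit 6) (nat_lit 110)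 (nat_lit 5) (nat_lit 40) (nat_lit 73) (nat_lit 76)) (PT.lf (nat_lit 9744) (nat_lit 6) (nat_lit 116) (nat_lit 5) (nat_lit 41) (nat_lit 73) (nat_lit 75))) (PT.nd (nat_lit 94) (PT.lf (nat_lit 10332) (nat_lit 6) (nat_lit 123) (nat_lit 5) (nat_lit 42) (nat_lit 73) (nat_lit 74)) (PT.lf (nat_lit 10920) (nat_lit 3) (nat_lit 130) (nat_lit 4) (nat_lit 43) (nat_lit 73) (nat_lit 73))))))) (PT.nd (nat_lit 1128) (PT.nd (nat_lit 564) (PT.nd (nat_lit 282) (PT.nd (nat_lit 94) (PT.lf (nat_lit 11508) (nat_lit 6) (nat_lit 137) (nat_lit 4) (nat_lit 44) (nat_lit 73) (nat_lit 72)) (PT.nd (nat_lit 94) (PT.lf (nat_lit 12096) (nat_lit 6) (nat_lit 144) (nat_lit 4) (nat_lit 45) (nat_lit 73) (nat_lit 71)) (PT.lf (nat_lit 12684) (nat_lit 6) (nat_lit 151) (nat_lit 4) (nat_lit 46) (nat_lit 73) (nat_lit 70)))) (PT.nd (nat_lit 94) (PT.lf (nat_lit 13272) (nat_lit 6) (nat_lit 158) (nat_lit 4) (nat_lit 47) (nat_lit 73) (nat_lit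 69)) (PT.nd (nat_lit 94) (PT.lf (nat_lit 14532) (nat_lit 6) (nat_lit 173) (nat_lit 4) (nat_lit 48) (nat_lit 73) (nat_lit 68)) (PT.lf (nat_lit 15708) (nat_lit 6) (nat_lit 187) (nat_lit 4) (nat_lit 49) (nat_lit 73) (nat_lit 67))))) (PT.nd (nat_lit 282) (PT.nd (nat_lit 94) (PT.lf (nat_lit 16800) (nat_lit 6) (nat_lit 200) (nat_lit 4) (nat_lit 50) (nat_lit 73) (nat_lit 66)) (PT.nd (nat_lit 94) (PT.lf (nat_lit 17808) (nat_lit 6) (nat_lit 212) (nat_lit 4) (nat_lit 51) (nat_lit 73) (nat_lit 65)) (PT.lf (nat_lit 18732) (nat_lit 6) (nat_lit 223) (nat_lit 4) (nat_lit 52) (nat_lit 73) (nat_lit 64)))) (PT.nd (nat_lit 94) (PT.lf (nat_lit 19572) (nat_lit 6) (nat_lit 233) (nat_lit 4) (nat_lit 53) (nat_lit 73) (nat_lit 63)) (PT.nd (nat_lit 94) (PT.lf (nat_lit 19488) (nat_lit 6) (nat_lit 232) (nat_lit 4) (nat_lit 54) (nat_lit 73) (nat_lit 62)) (PT.lf (nat_lit 19404) (nat_lit 6) (nat_lit 231) (nat_lit 4)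 (nat_lit 55) (nat_lit 73) (nat_lit 61)))))) (PT.nd (nat_lit 564) (PT.nd (nat_lit 282) (PT.nd (nat_lit 94) (PT.lf (nat_lit 19320) (nat_lit 6) (nat_lit 230) (nat_lit 4) (nat_lit 56) (nat_lit 73) (nat_lit 60)) (PT.nd (nat_lit 94) (PT.lf (nat_lit 19236) (nat_lit 6) (nat_lit 229) (nat_lit 4) (nat_lit 57) (nat_lit 73) (nat_lit 59)) (PT.lf (nat_lit 19152) (nat_lit 3) (nat_lit 228) (nat_lit 2) (nat_lit 58) (nat_lit 73) (nat_lit 58)))) (PT.nd (nat_lit 94) (PT.lf (nat_lit 19236) (nat_lit 6) (nat_lit 229) (nat_lit 2) (nat_lit 59) (nat_lit 73) (nat_lit 57)) (PT.nd (nat_lit 94) (PT.lf (nat_lit 19320) (nat_lit 6) (nat_lit 230) (nat_lit 2) (nat_lit 60) (nat_lit 73) (nat_lit 56)) (PT.lf (nat_lit 19404) (nat_lit 6) (nat_lit 231) (nat_lit 2) (nat_lit 61) (nat_lit 73) (nat_lit 55))))) (PT.nd (nat_lit 282) (PT.nd (nat_lit 94) (PT.lf (nat_lit 19488) (nat_lit 6) (nat_lit 232) (nat_lit 2) (nat_lit 62) (nat_lit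 73) (nat_lit 54)) (PT.nd (nat_lit 94) (PT.lf (nat_lit 19572) (nat_lit 6) (nat_lit 233) (nat_lit 2) (nat_lit 63) (nat_lit 73) (nat_lit 53)) (PT.lf (nat_lit 18732) (nat_lit 6) (nat_lit 223) (nat_lit 2) (nat_lit 64) (nat_lit 73) (nat_lit 52)))) (PT.nd (nat_lit 188) (PT.nd (nat_lit 94) (PT.lf (nat_lit 17808) (nat_lit 6) (nat_lit 212) (nat_lit 2) (nat_lit 65) (nat_lit 73) (nat_lit 51)) (PT.lf (nat_lit 16800) (nat_lit 6) (nat_lit 200) (nat_lit 2) (nat_lit 66) (nat_lit 73) (nat_lit 50))) (PT.nd (nat_lit 94) (PT.lf (nat_lit 15708) (nat_lit 6) (nat_lit 187) (nat_lit 2) (nat_lit 67) (nat_lit 73) (nat_lit 49)) (PT.lf (nat_lit 14532) (nat_lit 6) (nat_lit 173) (nat_lit 2) (nat_lit 68) (nat_lit 73) (nat_lit 48))))))))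
noncomputable def pc21 : PT := (PT.nd (nat_lit 57058) (PT.nd (nat_lit 1128) (PT.nd (nat_lit 564) (PT.nd (nat_lit 282) (PT.nd (nat_lit 94) (PT.lf (nat_lit 13272) (nat_lit 6) (nat_lit 158) (nat_lit 2) (nat_lit 69) (nat_lit 73) (nat_lit 47)) (PT.nd (nat_lit 94) (PT.lf (nat_lit 12684) (nat_lit 6) (nat_lit 151) (nat_lit 2) (nat_lit 70) (nat_lit 73) (nat_lit 46)) (PT.lf (nat_lit 12096) (nat_lit 6) (nat_lit 144) (nat_lit 2) (nat_lit 71) (nat_lit 73) (nat_lit 45)))) (PT.nd (nat_lit 94) (PT.lf (nat_lit 11508) (nat_lit 6) (nat_lit 137) (nat_lit 2) (nat_lit 72) (nat_lit 73) (nat_lit 44)) (PT.nd (nat_lit 94) (PT.lf (nat_lit 10920) (nat_lit 3) (nat_lit 130) (nat_lit 0) (nat_lit 73) (nat_lit 73) (nat_lit 43)) (PT.lf (nat_lit 10332) (nat_lit 6) (nat_lit 123) (nat_lit 0) (nat_lit 74) (nat_lit 73) (nat_lit 42))))) (PT.nd (nat_lit 282) (PT.nd (nat_lit 94) (PT.lf (nat_lit 9744) (nat_lit 6) (nat_lit 116)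 (nat_lit 0) (nat_lit 75) (nat_lit 73) (nat_lit 41)) (PT.nd (nat_lit 94) (PT.lf (nat_lit 9240) (nat_lit 6) (nat_lit 110) (nat_lit 0) (nat_lit 76) (nat_lit 73) (nat_lit 40)) (PT.lf (nat_lit 8652) (nat_lit 6) (nat_lit 103) (nat_lit 0) (nat_lit 77) (nat_lit 73) (nat_lit 39)))) (PT.nd (nat_lit 94) (PT.lf (nat_lit 8148) (nat_lit 6) (nat_lit 97) (nat_lit 0) (nat_lit 78) (nat_lit 73) (nat_lit 38)) (PT.nd (nat_lit 94) (PT.lf (nat_lit 7644) (nat_lit 6) (nat_lit 91) (nat_lit 0) (nat_lit 79) (nat_lit 73) (nat_lit 37)) (PT.lf (nat_lit 7224) (nat_lit 6) (nat_lit 86) (nat_lit 0) (nat_lit 80) (nat_lit 73) (nat_lit 36)))))) (PT.nd (nat_lit 55272) (PT.nd (nat_lit 54990) (PT.nd (nat_lit 54802) (PT.lf (nat_lit 6720) (nat_lit 6) (nat_lit 80) (nat_lit 0) (nat_lit 81) (nat_lit 73) (nat_lit 35)) (PT.nd (nat_lit 94) (PT.lf (nat_lit 5964) (nat_lit 6) (nat_lit 71) (nat_lit 5) (nat_lit 33) (nat_lit 74) (nat_lit 82))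 (PT.lf (nat_lit 6384) (nat_lit 6) (nat_lit 76) (nat_lit 5) (nat_lit 34) (nat_lit 74) (nat_lit 81)))) (PT.nd (nat_lit 94) (PT.lf (nat_lit 6804) (nat_lit 6) (nat_lit 81) (nat_lit 5) (nat_lit 35) (nat_lit 74) (nat_lit 80)) (PT.nd (nat_lit 94) (PT.lf (nat_lit 7308) (nat_lit 6) (nat_lit 87) (nat_lit 5) (nat_lit 36) (nat_lit 74) (nat_lit 79)) (PT.lf (nat_lit 7728) (nat_lit 6) (nat_lit 92) (nat_lit 5) (nat_lit 37) (nat_lit 74) (nat_lit 78))))) (PT.nd (nat_lit 282) (PT.nd (nat_lit 94) (PT.lf (nat_lit 8232) (nat_lit 6) (nat_lit 98) (nat_lit 5) (nat_lit 38) (nat_lit 74) (nat_lit 77)) (PT.nd (nat_lit 94) (PT.lf (nat_lit 8736) (nat_lit 6) (nat_lit 104) (nat_lit 5) (nat_lit 39) (nat_lit 74) (nat_lit 76)) (PT.lf (nat_lit 9324) (nat_lit 6) (nat_lit 111) (nat_lit 5) (nat_lit 40) (nat_lit 74) (nat_lit 75)))) (PT.nd (nat_lit 188) (PT.nd (nat_lit 94) (PT.lf (nat_lit 9828) (nat_lit 3) (nat_lit 117) (nat_lit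 4) (nat_lit 41) (nat_lit 74) (nat_lit 74)) (PT.lf (nat_lit 10332) (nat_lit 6) (nat_lit 123) (nat_lit 4) (nat_lit 42) (nat_lit 74) (nat_lit 73))) (PT.nd (nat_lit 94) (PT.lf (nat_lit 10836) (nat_lit 6) (nat_lit 129) (nat_lit 4) (nat_lit 43) (nat_lit 74) (nat_lit 72)) (PT.lf (nat_lit 11424) (nat_lit 6) (nat_lit 136) (nat_lit 4) (nat_lit 44) (nat_lit 74) (nat_lit 71))))))) (PT.nd (nat_lit 1222) (PT.nd (nat_lit 564) (PT.nd (nat_lit 282) (PT.nd (nat_lit 94) (PT.lf (nat_lit 12012) (nat_lit 6) (nat_lit 143) (nat_lit 4) (nat_lit 45) (nat_lit 74) (nat_lit 70)) (PT.nd (nat_lit 94) (PT.lf (nat_lit 12600) (nat_lit 6) (nat_lit 150) (nat_lit 4) (nat_lit 46) (nat_lit 74) (nat_lit 69)) (PT.lf (nat_lit 13188) (nat_lit 6) (nat_lit 157) (nat_lit 4) (nat_lit 47) (nat_lit 74) (nat_lit 68)))) (PT.nd (nat_lit 94) (PT.lf (nat_lit 14448) (nat_lit 6) (nat_lit 172) (nat_lit 4) (nat_lit 48) (nat_lit 74) (nat_lit 67))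 (PT.nd (nat_lit 94) (PT.lf (nat_lit 15624) (nat_lit 6) (nat_lit 186) (nat_lit 4) (nat_lit 49) (nat_lit 74) (nat_lit 66)) (PT.lf (nat_lit 16716) (nat_lit 6) (nat_lit 199) (nat_lit 4) (nat_lit 50) (nat_lit 74) (nat_lit 65))))) (PT.nd (nat_lit 282) (PT.nd (nat_lit 94) (PT.lf (nat_lit 17724) (nat_lit 6) (nat_lit 211) (nat_lit 4) (nat_lit 51) (nat_lit 74) (nat_lit 64)) (PT.nd (nat_lit 94) (PT.lf (nat_lit 18648) (nat_lit 6) (nat_lit 222) (nat_lit 4) (nat_lit 52) (nat_lit 74) (nat_lit 63)) (PT.lf (nat_lit 18564) (nat_lit 6) (nat_lit 221) (nat_lit 4) (nat_lit 53) (nat_lit 74) (nat_lit 62)))) (PT.nd (nat_lit 188) (PT.nd (nat_lit 94) (PT.lf (nat_lit 18480) (nat_lit 6) (nat_lit 220) (nat_lit 4) (nat_lit 54) (nat_lit 74) (nat_lit 61)) (PT.lf (nat_lit 18396) (nat_lit 6) (nat_lit 219) (nat_lit 4) (nat_lit 55) (nat_lit 74) (nat_lit 60))) (PT.nd (nat_lit 94) (PT.lf (nat_lit 18312) (nat_lit 6) (nat_lit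 218) (nat_lit 4) (nat_lit 56) (nat_lit 74) (nat_lit 59)) (PT.lf (nat_lit 18228) (nat_lit 6) (nat_lit 217) (nat_lit 4) (nat_lit 57) (nat_lit 74) (nat_lit 58)))))) (PT.nd (nat_lit 564) (PT.nd (nat_lit 282) (PT.nd (nat_lit 94) (PT.lf (nat_lit 18228) (nat_lit 6) (nat_lit 217) (nat_lit 2) (nat_lit 58) (nat_lit 74) (nat_lit 57)) (PT.nd (nat_lit 94) (PT.lf (nat_lit 18312) (nat_lit 6) (nat_lit 218) (nat_lit 2) (nat_lit 59) (nat_lit 74) (nat_lit 56)) (PT.lf (nat_lit 18396) (nat_lit 6) (nat_lit 219) (nat_lit 2) (nat_lit 60) (nat_lit 74) (nat_lit 55)))) (PT.nd (nat_lit 94) (PT.lf (nat_lit 18480) (nat_lit 6) (nat_lit 220) (nat_lit 2) (nat_lit 61) (nat_lit 74) (nat_lit 54)) (PT.nd (nat_lit 94) (PT.lf (nat_lit 18564) (nat_lit 6) (nat_lit 221) (nat_lit 2) (nat_lit 62) (nat_lit 74) (nat_lit 53)) (PT.lf (nat_lit 18648) (nat_lit 6) (nat_lit 222) (nat_lit 2) (nat_lit 63) (nat_lit 74) (nat_lit 52))))) (PT.nd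 (nat_lit 282) (PT.nd (nat_lit 94) (PT.lf (nat_lit 17724) (nat_lit 6) (nat_lit 211) (nat_lit 2) (nat_lit 64) (nat_lit 74) (nat_lit 51)) (PT.nd (nat_lit 94) (PT.lf (nat_lit 16716) (nat_lit 6) (nat_lit 199) (nat_lit 2) (nat_lit 65) (nat_lit 74) (nat_lit 50)) (PT.lf (nat_lit 15624) (nat_lit 6) (nat_lit 186) (nat_lit 2) (nat_lit 66) (nat_lit 74) (nat_lit 49)))) (PT.nd (nat_lit 188) (PT.nd (nat_lit 94) (PT.lf (nat_lit 14448) (nat_lit 6) (nat_lit 172) (nat_lit 2) (nat_lit 67) (nat_lit 74) (nat_lit 48)) (PT.lf (nat_lit 13188) (nat_lit 6) (nat_lit 157) (nat_lit 2) (nat_lit 68) (nat_lit 74) (nat_lit 47))) (PT.nd (nat_lit 94) (PT.lf (nat_lit 12600) (nat_lit 6) (nat_lit 150) (nat_lit 2) (nat_lit 69) (nat_lit 74) (nat_lit 46)) (PT.lf (nat_lit 12012) (nat_lit 6) (nat_lit 143) (nat_lit 2) (nat_lit 70) (nat_lit 74) (nat_lit 45))))))))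
noncomputable def pc22 : PT := (PT.nd (nat_lit 56870) (PT.nd (nat_lit 55648) (PT.nd (nat_lit 564) (PT.nd (nat_lit 282) (PT.nd (nat_lit 94) (PT.lf (nat_lit 11424) (nat_lit 6) (nat_lit 136) (nat_lit 2) (nat_lit 71) (nat_lit 74) (nat_lit 44)) (PT.nd (nat_lit 94) (PT.lf (nat_lit 10836) (nat_lit 6) (nat_lit 129) (nat_lit 2) (nat_lit 72) (nat_lit 74) (nat_lit 43)) (PT.lf (nat_lit 10332) (nat_lit 6) (nat_lit 123) (nat_lit 2) (nat_lit 73) (nat_lit 74) (nat_lit 42)))) (PT.nd (nat_lit 94) (PT.lf (nat_lit 9828) (nat_lit 3) (nat_lit 117) (nat_lit 0) (nat_lit 74) (nat_lit 74) (nat_lit 41)) (PT.nd (nat_lit 94) (PT.lf (nat_lit 9324) (nat_lit 6) (nat_lit 111) (nat_lit 0) (nat_lit 75) (nat_lit 74) (nat_lit 40)) (PT.lf (nat_lit 8736) (nat_lit 6) (nat_lit 104) (nat_lit 0) (nat_lit 76) (nat_lit 74) (nat_lit 39))))) (PT.nd (nat_lit 282) (PT.nd (nat_lit 94) (PT.lf (nat_lit 8232) (nat_lit 6) (nat_lit 98) (nat_lit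 0) (nat_lit 77) (nat_lit 74) (nat_lit 38)) (PT.nd (nat_lit 94) (PT.lf (nat_lit 7728) (nat_lit 6) (nat_lit 92) (nat_lit 0) (nat_lit 78) (nat_lit 74) (nat_lit 37)) (PT.lf (nat_lit 7308) (nat_lit 6) (nat_lit 87) (nat_lit 0) (nat_lit 79) (nat_lit 74) (nat_lit 36)))) (PT.nd (nat_lit 94) (PT.lf (nat_lit 6804) (nat_lit 6) (nat_lit 81) (nat_lit 0) (nat_lit 80) (nat_lit 74) (nat_lit 35)) (PT.nd (nat_lit 94) (PT.lf (nat_lit 6384) (nat_lit 6) (nat_lit 76) (nat_lit 0) (nat_lit 81) (nat_lit 74) (nat_lit 34)) (PT.lf (nat_lit 5964) (nat_lit 6) (nat_lit 71) (nat_lit 0) (nat_lit 82) (nat_lit 74) (nat_lit 33)))))) (PT.nd (nat_lit 564) (PT.nd (nat_lit 282) (PT.nd (nat_lit 94) (PT.lf (nat_lit 5628) (nat_lit 6) (nat_lit 67) (nat_lit 5) (nat_lit 32) (nat_lit 75) (nat_lit 82)) (PT.nd (nat_lit 94) (PT.lf (nat_lit 6048) (nat_lit 6) (nat_lit 72) (nat_lit 5) (nat_lit 33) (nat_lit 75) (nat_lit 81)) (PT.lf (nat_lit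 6468) (nat_lit 6) (nat_lit 77) (nat_lit 5) (nat_lit 34) (nat_lit 75) (nat_lit 80)))) (PT.nd (nat_lit 94) (PT.lf (nat_lit 6888) (nat_lit 6) (nat_lit 82) (nat_lit 5) (nat_lit 35) (nat_lit 75) (nat_lit 79)) (PT.nd (nat_lit 94) (PT.lf (nat_lit 7392) (nat_lit 6) (nat_lit 88) (nat_lit 5) (nat_lit 36) (nat_lit 75) (nat_lit 78)) (PT.lf (nat_lit 7812) (nat_lit 6) (nat_lit 93) (nat_lit 5) (nat_lit 37) (nat_lit 75) (nat_lit 77))))) (PT.nd (nat_lit 282) (PT.nd (nat_lit 94) (PT.lf (nat_lit 8316) (nat_lit 6) (nat_lit 99) (nat_lit 5) (nat_lit 38) (nat_lit 75) (nat_lit 76)) (PT.nd (nat_lit 94) (PT.lf (nat_lit 8820) (nat_lit 3) (nat_lit 105) (nat_lit 4) (nat_lit 39) (nat_lit 75) (nat_lit 75)) (PT.lf (nat_lit 9324) (nat_lit 6) (nat_lit 111) (nat_lit 4) (nat_lit 40) (nat_lit 75) (nat_lit 74)))) (PT.nd (nat_lit 188) (PT.nd (nat_lit 94) (PT.lf (nat_lit 9744) (nat_lit 6) (nat_lit 116) (nat_lit 4) (nat_lit 41)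 (nat_lit 75) (nat_lit 73)) (PT.lf (nat_lit 10248) (nat_lit 6) (nat_lit 122) (nat_lit 4) (nat_lit 42) (nat_lit 75) (nat_lit 72))) (PT.nd (nat_lit 94) (PT.lf (nat_lit 10752) (nat_lit 6) (nat_lit 128) (nat_lit 4) (nat_lit 43) (nat_lit 75) (nat_lit 71)) (PT.lf (nat_lit 11340) (nat_lit 6) (nat_lit 135) (nat_lit 4) (nat_lit 44) (nat_lit 75) (nat_lit 70))))))) (PT.nd (nat_lit 1128) (PT.nd (nat_lit 564) (PT.nd (nat_lit 282) (PT.nd (nat_lit 94) (PT.lf (nat_lit 11928) (nat_lit 6) (nat_lit 142) (nat_lit 4) (nat_lit 45) (nat_lit 75) (nat_lit 69)) (PT.nd (nat_lit 94) (PT.lf (nat_lit 12516) (nat_lit 6) (nat_lit 149) (nat_lit 4) (nat_lit 46) (nat_lit 75) (nat_lit 68)) (PT.lf (nat_lit 13104) (nat_lit 6) (nat_lit 156) (nat_lit 4) (nat_lit 47) (nat_lit 75) (nat_lit 67)))) (PT.nd (nat_lit 94) (PT.lf (nat_lit 14364) (nat_lit 6) (nat_lit 171) (nat_lit 4) (nat_lit 48) (nat_lit 75) (nat_lit 66)) (PT.nd (nat_lit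 94) (PT.lf (nat_lit 15540) (nat_lit 6) (nat_lit 185) (nat_lit 4) (nat_lit 49) (nat_lit 75) (nat_lit 65)) (PT.lf (nat_lit 16632) (nat_lit 6) (nat_lit 198) (nat_lit 4) (nat_lit 50) (nat_lit 75) (nat_lit 64))))) (PT.nd (nat_lit 282) (PT.nd (nat_lit 94) (PT.lf (nat_lit 17640) (nat_lit 6) (nat_lit 210) (nat_lit 4) (nat_lit 51) (nat_lit 75) (nat_lit 63)) (PT.nd (nat_lit 94) (PT.lf (nat_lit 17556) (nat_lit 6) (nat_lit 209) (nat_lit 4) (nat_lit 52) (nat_lit 75) (nat_lit 62)) (PT.lf (nat_lit 17472) (nat_lit 6) (nat_lit 208) (nat_lit 4) (nat_lit 53) (nat_lit 75) (nat_lit 61)))) (PT.nd (nat_lit 94) (PT.lf (nat_lit 17388) (nat_lit 6) (nat_lit 207) (nat_lit 4) (nat_lit 54) (nat_lit 75) (nat_lit 60)) (PT.nd (nat_lit 94) (PT.lf (nat_lit 17304) (nat_lit 6) (nat_lit 206) (nat_lit 4) (nat_lit 55) (nat_lit 75) (nat_lit 59)) (PT.lf (nat_lit 17220) (nat_lit 6) (nat_lit 205) (nat_lit 4) (nat_lit 56) (nat_lit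 75) (nat_lit 58)))))) (PT.nd (nat_lit 564) (PT.nd (nat_lit 282) (PT.nd (nat_lit 94) (PT.lf (nat_lit 17136) (nat_lit 3) (nat_lit 204) (nat_lit 2) (nat_lit 57) (nat_lit 75) (nat_lit 57)) (PT.nd (nat_lit 94) (PT.lf (nat_lit 17220) (nat_lit 6) (nat_lit 205) (nat_lit 2) (nat_lit 58) (nat_lit 75) (nat_lit 56)) (PT.lf (nat_lit 17304) (nat_lit 6) (nat_lit 206) (nat_lit 2) (nat_lit 59) (nat_lit 75) (nat_lit 55)))) (PT.nd (nat_lit 94) (PT.lf (nat_lit 17388) (nat_lit 6) (nat_lit 207) (nat_lit 2) (nat_lit 60) (nat_lit 75) (nat_lit 54)) (PT.nd (nat_lit 94) (PT.lf (nat_lit 17472) (nat_lit 6) (nat_lit 208) (nat_lit 2) (nat_lit 61) (nat_lit 75) (nat_lit 53)) (PT.lf (nat_lit 17556) (nat_lit 6) (nat_lit 209) (nat_lit 2) (nat_lit 62) (nat_lit 75) (nat_lit 52))))) (PT.nd (nat_lit 282) (PT.nd (nat_lit 94) (PT.lf (nat_lit 17640) (nat_lit 6) (nat_lit 210) (nat_lit 2) (nat_lit 63) (nat_lit 75) (nat_lit 51)) (PT.nd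 (nat_lit 94) (PT.lf (nat_lit 16632) (nat_lit 6) (nat_lit 198) (nat_lit 2) (nat_lit 64) (nat_lit 75) (nat_lit 50)) (PT.lf (nat_lit 15540) (nat_lit 6) (nat_lit 185) (nat_lit 2) (nat_lit 65) (nat_lit 75) (nat_lit 49)))) (PT.nd (nat_lit 188) (PT.nd (nat_lit 94) (PT.lf (nat_lit 14364) (nat_lit 6) (nat_lit 171) (nat_lit 2) (nat_lit 66) (nat_lit 75) (nat_lit 48)) (PT.lf (nat_lit 13104) (nat_lit 6) (nat_lit 156) (nat_lit 2) (nat_lit 67) (nat_lit 75) (nat_lit 47))) (PT.nd (nat_lit 94) (PT.lf (nat_lit 12516) (nat_lit 6) (nat_lit 149) (nat_lit 2) (nat_lit 68) (nat_lit 75) (nat_lit 46)) (PT.lf (nat_lit 11928) (nat_lit 6) (nat_lit 142) (nat_lit 2) (nat_lit 69) (nat_lit 75) (nat_lit 45))))))))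
noncomputable def pc23 : PT := (PT.nd (nat_lit 56682) (PT.nd (nat_lit 1128) (PT.nd (nat_lit 564) (PT.nd (nat_lit 282) (PT.nd (nat_lit 94) (PT.lf (nat_lit 11340) (nat_lit 6) (nat_lit 135) (nat_lit 2) (nat_lit 70) (nat_lit 75) (nat_lit 44)) (PT.nd (nat_lit 94) (PT.lf (nat_lit 10752) (nat_lit 6) (nat_lit 128) (nat_lit 2) (nat_lit 71) (nat_lit 75) (nat_lit 43)) (PT.lf (nat_lit 10248) (nat_lit 6) (nat_lit 122) (nat_lit 2) (nat_lit 72) (nat_lit 75) (nat_lit 42)))) (PT.nd (nat_lit 94) (PT.lf (nat_lit 9744) (nat_lit 6) (nat_lit 116) (nat_lit 2) (nat_lit 73) (nat_lit 75) (nat_lit 41)) (PT.nd (nat_lit 94) (PT.lf (nat_lit 9324) (nat_lit 6) (nat_lit 111) (nat_lit 2) (nat_lit 74) (nat_lit 75) (nat_lit 40)) (PT.lf (nat_lit 8820) (nat_lit 3) (nat_lit 105) (nat_lit 0) (nat_lit 75) (nat_lit 75) (nat_lit 39))))) (PT.nd (nat_lit 282) (PT.nd (nat_lit 94) (PT.lf (nat_lit 8316) (nat_lit 6) (nat_lit 99) (nat_lit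 0) (nat_lit 76) (nat_lit 75) (nat_lit 38)) (PT.nd (nat_lit 94) (PT.lf (nat_lit 7812) (nat_lit 6) (nat_lit 93) (nat_lit 0) (nat_lit 77) (nat_lit 75) (nat_lit 37)) (PT.lf (nat_lit 7392) (nat_lit 6) (nat_lit 88) (nat_lit 0) (nat_lit 78) (nat_lit 75) (nat_lit 36)))) (PT.nd (nat_lit 94) (PT.lf (nat_lit 6888) (nat_lit 6) (nat_lit 82) (nat_lit 0) (nat_lit 79) (nat_lit 75) (nat_lit 35)) (PT.nd (nat_lit 94) (PT.lf (nat_lit 6468) (nat_lit 6) (nat_lit 77) (nat_lit 0) (nat_lit 80) (nat_lit 75) (nat_lit 34)) (PT.lf (nat_lit 6048) (nat_lit 6) (nat_lit 72) (nat_lit 0) (nat_lit 81) (nat_lit 75) (nat_lit 33)))))) (PT.nd (nat_lit 54896) (PT.nd (nat_lit 54614) (PT.nd (nat_lit 54426) (PT.lf (nat_lit 5628) (nat_lit 6) (nat_lit 67) (nat_lit 0) (nat_lit 82) (nat_lit 75) (nat_lit 32)) (PT.nd (nat_lit 94) (PT.lf (nat_lit 4956) (nat_lit 6) (nat_lit 59) (nat_lit 5) (nat_lit 30) (nat_lit 76) (nat_lit 83)) (PT.lf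 (nat_lit 5292) (nat_lit 6) (nat_lit 63) (nat_lit 5) (nat_lit 31) (nat_lit 76) (nat_lit 82)))) (PT.nd (nat_lit 94) (PT.lf (nat_lit 5712) (nat_lit 6) (nat_lit 68) (nat_lit 5) (nat_lit 32) (nat_lit 76) (nat_lit 81)) (PT.nd (nat_lit 94) (PT.lf (nat_lit 6132) (nat_lit 6) (nat_lit 73) (nat_lit 5) (nat_lit 33) (nat_lit 76) (nat_lit 80)) (PT.lf (nat_lit 6552) (nat_lit 6) (nat_lit 78) (nat_lit 5) (nat_lit 34) (nat_lit 76) (nat_lit 79))))) (PT.nd (nat_lit 282) (PT.nd (nat_lit 94) (PT.lf (nat_lit 6972) (nat_lit 6) (nat_lit 83) (nat_lit 5) (nat_lit 35) (nat_lit 76) (nat_lit 78)) (PT.nd (nat_lit 94) (PT.lf (nat_lit 7476) (nat_lit 6) (nat_lit 89) (nat_lit 5) (nat_lit 36) (nat_lit 76) (nat_lit 77)) (PT.lf (nat_lit 7896) (nat_lit 3) (nat_lit 94) (nat_lit 4) (nat_lit 37) (nat_lit 76) (nat_lit 76)))) (PT.nd (nat_lit 188) (PT.nd (nat_lit 94) (PT.lf (nat_lit 8316) (nat_lit 6) (nat_lit 99) (nat_lit 4) (nat_lit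 38) (nat_lit 76) (nat_lit 75)) (PT.lf (nat_lit 8736) (nat_lit 6) (nat_lit 104) (nat_lit 4) (nat_lit 39) (nat_lit 76) (nat_lit 74))) (PT.nd (nat_lit 94) (PT.lf (nat_lit 9240) (nat_lit 6) (nat_lit 110) (nat_lit 4) (nat_lit 40) (nat_lit 76) (nat_lit 73)) (PT.lf (nat_lit 9660) (nat_lit 6) (nat_lit 115) (nat_lit 4) (nat_lit 41) (nat_lit 76) (nat_lit 72))))))) (PT.nd (nat_lit 1222) (PT.nd (nat_lit 564) (PT.nd (nat_lit 282) (PT.nd (nat_lit 94) (PT.lf (nat_lit 10164) (nat_lit 6) (nat_lit 121) (nat_lit 4) (nat_lit 42) (nat_lit 76) (nat_lit 71)) (PT.nd (nat_lit 94) (PT.lf (nat_lit 10668) (nat_lit 6) (nat_lit 127) (nat_lit 4) (nat_lit 43) (nat_lit 76) (nat_lit 70)) (PT.lf (nat_lit 11256) (nat_lit 6) (nat_lit 134) (nat_lit 4) (nat_lit 44) (nat_lit 76) (nat_lit 69)))) (PT.nd (nat_lit 94) (PT.lf (nat_lit 11844) (nat_lit 6) (nat_lit 141) (nat_lit 4) (nat_lit 45) (nat_lit 76) (nat_lit 68)) (PT.nd (nat_lit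 94) (PT.lf (nat_lit 12432) (nat_lit 6) (nat_lit 148) (nat_lit 4) (nat_lit 46) (nat_lit 76) (nat_lit 67)) (PT.lf (nat_lit 13020) (nat_lit 6) (nat_lit 155) (nat_lit 4) (nat_lit 47) (nat_lit 76) (nat_lit 66))))) (PT.nd (nat_lit 282) (PT.nd (nat_lit 94) (PT.lf (nat_lit 14280) (nat_lit 6) (nat_lit 170) (nat_lit 4) (nat_lit 48) (nat_lit 76) (nat_lit 65)) (PT.nd (nat_lit 94) (PT.lf (nat_lit 15456) (nat_lit 6) (nat_lit 184) (nat_lit 4) (nat_lit 49) (nat_lit 76) (nat_lit 64)) (PT.lf (nat_lit 16548) (nat_lit 6) (nat_lit 197) (nat_lit 4) (nat_lit 50) (nat_lit 76) (nat_lit 63)))) (PT.nd (nat_lit 188) (PT.nd (nat_lit 94) (PT.lf (nat_lit 16464) (nat_lit 6) (nat_lit 196) (nat_lit 4) (nat_lit 51) (nat_lit 76) (nat_lit 62)) (PT.lf (nat_lit 16380) (nat_lit 6) (nat_lit 195) (nat_lit 4) (nat_lit 52) (nat_lit 76) (nat_lit 61))) (PT.nd (nat_lit 94) (PT.lf (nat_lit 16296) (nat_lit 6) (nat_lit 194) (nat_lit 4)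 (nat_lit 53) (nat_lit 76) (nat_lit 60)) (PT.lf (nat_lit 16212) (nat_lit 6) (nat_lit 193) (nat_lit 4) (nat_lit 54) (nat_lit 76) (nat_lit 59)))))) (PT.nd (nat_lit 564) (PT.nd (nat_lit 282) (PT.nd (nat_lit 94) (PT.lf (nat_lit 16128) (nat_lit 6) (nat_lit 192) (nat_lit 4) (nat_lit 55) (nat_lit 76) (nat_lit 58)) (PT.nd (nat_lit 94) (PT.lf (nat_lit 16044) (nat_lit 6) (nat_lit 191) (nat_lit 4) (nat_lit 56) (nat_lit 76) (nat_lit 57)) (PT.lf (nat_lit 16044) (nat_lit 6) (nat_lit 191) (nat_lit 2) (nat_lit 57) (nat_lit 76) (nat_lit 56)))) (PT.nd (nat_lit 94) (PT.lf (nat_lit 16128) (nat_lit 6) (nat_lit 192) (nat_lit 2) (nat_lit 58) (nat_lit 76) (nat_lit 55)) (PT.nd (nat_lit 94) (PT.lf (nat_lit 16212) (nat_lit 6) (nat_lit 193) (nat_lit 2) (nat_lit 59) (nat_lit 76) (nat_lit 54)) (PT.lf (nat_lit 16296) (nat_lit 6) (nat_lit 194) (nat_lit 2) (nat_lit 60) (nat_lit 76) (nat_lit 53))))) (PT.nd (nat_lit 282)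 (PT.nd (nat_lit 94) (PT.lf (nat_lit 16380) (nat_lit 6) (nat_lit 195) (nat_lit 2) (nat_lit 61) (nat_lit 76) (nat_lit 52)) (PT.nd (nat_lit 94) (PT.lf (nat_lit 16464) (nat_lit 6) (nat_lit 196) (nat_lit 2) (nat_lit 62) (nat_lit 76) (nat_lit 51)) (PT.lf (nat_lit 16548) (nat_lit 6) (nat_lit 197) (nat_lit 2) (nat_lit 63) (nat_lit 76) (nat_lit 50)))) (PT.nd (nat_lit 188) (PT.nd (nat_lit 94) (PT.lf (nat_lit 15456) (nat_lit 6) (nat_lit 184) (nat_lit 2) (nat_lit 64) (nat_lit 76) (nat_lit 49)) (PT.lf (nat_lit 14280) (nat_lit 6) (nat_lit 170) (nat_lit 2) (nat_lit 65) (nat_lit 76) (nat_lit 48))) (PT.nd (nat_lit 94) (PT.lf (nat_lit 13020) (nat_lit 6) (nat_lit 155) (nat_lit 2) (nat_lit 66) (nat_lit 76) (nat_lit 47)) (PT.lf (nat_lit 12432) (nat_lit 6) (nat_lit 148) (nat_lit 2) (nat_lit 67) (nat_lit 76) (nat_lit 46))))))))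
noncomputable def pc24 : PT := (PT.nd (nat_lit 56494) (PT.nd (nat_lit 1128) (PT.nd (nat_lit 564) (PT.nd (nat_lit 282) (PT.nd (nat_lit 94) (PT.lf (nat_lit 11844) (nat_lit 6) (nat_lit 141) (nat_lit 2) (nat_lit 68) (nat_lit 76) (nat_lit 45)) (PT.nd (nat_lit 94) (PT.lf (nat_lit 11256) (nat_lit 6) (nat_lit 134) (nat_lit 2) (nat_lit 69) (nat_lit 76) (nat_lit 44)) (PT.lf (nat_lit 10668) (nat_lit 6) (nat_lit 127) (nat_lit 2) (nat_lit 70) (nat_lit 76) (nat_lit 43)))) (PT.nd (nat_lit 94) (PT.lf (nat_lit 10164) (nat_lit 6) (nat_lit 121) (nat_lit 2) (nat_lit 71) (nat_lit 76) (nat_lit 42)) (PT.nd (nat_lit 94) (PT.lf (nat_lit 9660) (nat_lit 6) (nat_lit 115) (nat_lit 2) (nat_lit 72) (nat_lit 76) (nat_lit 41)) (PT.lf (nat_lit 9240) (nat_lit 6) (nat_lit 110) (nat_lit 2) (nat_lit 73) (nat_lit 76) (nat_lit 40))))) (PT.nd (nat_lit 282) (PT.nd (nat_lit 94) (PT.lf (nat_lit 8736) (nat_lit 6) (nat_lit 104) (nat_lit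 2) (nat_lit 74) (nat_lit 76) (nat_lit 39)) (PT.nd (nat_lit 94) (PT.lf (nat_lit 8316) (nat_lit 6) (nat_lit 99) (nat_lit 2) (nat_lit 75) (nat_lit 76) (nat_lit 38)) (PT.lf (nat_lit 7896) (nat_lit 3) (nat_lit 94) (nat_lit 0) (nat_lit 76) (nat_lit 76) (nat_lit 37)))) (PT.nd (nat_lit 94) (PT.lf (nat_lit 7476) (nat_lit 6) (nat_lit 89) (nat_lit 0) (nat_lit 77) (nat_lit 76) (nat_lit 36)) (PT.nd (nat_lit 94) (PT.lf (nat_lit 6972) (nat_lit 6) (nat_lit 83) (nat_lit 0) (nat_lit 78) (nat_lit 76) (nat_lit 35)) (PT.lf (nat_lit 6552) (nat_lit 6) (nat_lit 78) (nat_lit 0) (nat_lit 79) (nat_lit 76) (nat_lit 34)))))) (PT.nd (nat_lit 54708) (PT.nd (nat_lit 282) (PT.nd (nat_lit 94) (PT.lf (nat_lit 6132) (nat_lit 6) (nat_lit 73) (nat_lit 0) (nat_lit 80) (nat_lit 76) (nat_lit 33)) (PT.nd (nat_lit 94) (PT.lf (nat_lit 5712) (nat_lit 6) (nat_lit 68) (nat_lit 0) (nat_lit 81) (nat_lit 76) (nat_lit 32)) (PT.lf (nat_lit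 5292) (nat_lit 6) (nat_lit 63) (nat_lit 0) (nat_lit 82) (nat_lit 76) (nat_lit 31)))) (PT.nd (nat_lit 54238) (PT.lf (nat_lit 4956) (nat_lit 6) (nat_lit 59) (nat_lit 0) (nat_lit 83) (nat_lit 76) (nat_lit 30)) (PT.nd (nat_lit 94) (PT.lf (nat_lit 4620) (nat_lit 6) (nat_lit 55) (nat_lit 5) (nat_lit 29) (nat_lit 77) (nat_lit 83)) (PT.lf (nat_lit 5040) (nat_lit 6) (nat_lit 60) (nat_lit 5) (nat_lit 30) (nat_lit 77) (nat_lit 82))))) (PT.nd (nat_lit 282) (PT.nd (nat_lit 94) (PT.lf (nat_lit 5376) (nat_lit 6) (nat_lit 64) (nat_lit 5) (nat_lit 31) (nat_lit 77) (nat_lit 81)) (PT.nd (nat_lit 94) (PT.lf (nat_lit 5796) (nat_lit 6) (nat_lit 69) (nat_lit 5) (nat_lit 32) (nat_lit 77) (nat_lit 80)) (PT.lf (nat_lit 6216) (nat_lit 6) (nat_lit 74) (nat_lit 5) (nat_lit 33) (nat_lit 77) (nat_lit 79)))) (PT.nd (nat_lit 188) (PT.nd (nat_lit 94) (PT.lf (nat_lit 6636) (nat_lit 6) (nat_lit 79) (nat_lit 5) (nat_lit 34)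 (nat_lit 77) (nat_lit 78)) (PT.lf (nat_lit 7056) (nat_lit 3) (nat_lit 84) (nat_lit 4) (nat_lit 35) (nat_lit 77) (nat_lit 77))) (PT.nd (nat_lit 94) (PT.lf (nat_lit 7476) (nat_lit 6) (nat_lit 89) (nat_lit 4) (nat_lit 36) (nat_lit 77) (nat_lit 76)) (PT.lf (nat_lit 7812) (nat_lit 6) (nat_lit 93) (nat_lit 4) (nat_lit 37) (nat_lit 77) (nat_lit 75))))))) (PT.nd (nat_lit 1128) (PT.nd (nat_lit 564) (PT.nd (nat_lit 282) (PT.nd (nat_lit 94) (PT.lf (nat_lit 8232) (nat_lit 6) (nat_lit 98) (nat_lit 4) (nat_lit 38) (nat_lit 77) (nat_lit 74)) (PT.nd (nat_lit 94) (PT.lf (nat_lit 8652) (nat_lit 6) (nat_lit 103) (nat_lit 4) (nat_lit 39) (nat_lit 77) (nat_lit 73)) (PT.lf (nat_lit 9156) (nat_lit 6) (nat_lit 109) (nat_lit 4) (nat_lit 40) (nat_lit 77) (nat_lit 72)))) (PT.nd (nat_lit 94) (PT.lf (nat_lit 9576) (nat_lit 6) (nat_lit 114) (nat_lit 4) (nat_lit 41) (nat_lit 77) (nat_lit 71)) (PT.nd (nat_lit 94) (PT.lf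 (nat_lit 10080) (nat_lit 6) (nat_lit 120) (nat_lit 4) (nat_lit 42) (nat_lit 77) (nat_lit 70)) (PT.lf (nat_lit 10584) (nat_lit 6) (nat_lit 126) (nat_lit 4) (nat_lit 43) (nat_lit 77) (nat_lit 69))))) (PT.nd (nat_lit 282) (PT.nd (nat_lit 94) (PT.lf (nat_lit 11172) (nat_lit 6) (nat_lit 133) (nat_lit 4) (nat_lit 44) (nat_lit 77) (nat_lit 68)) (PT.nd (nat_lit 94) (PT.lf (nat_lit 11760) (nat_lit 6) (nat_lit 140) (nat_lit 4) (nat_lit 45) (nat_lit 77) (nat_lit 67)) (PT.lf (nat_lit 12348) (nat_lit 6) (nat_lit 147) (nat_lit 4) (nat_lit 46) (nat_lit 77) (nat_lit 66)))) (PT.nd (nat_lit 94) (PT.lf (nat_lit 12936) (nat_lit 6) (nat_lit 154) (nat_lit 4) (nat_lit 47) (nat_lit 77) (nat_lit 65)) (PT.nd (nat_lit 94) (PT.lf (nat_lit 14196) (nat_lit 6) (nat_lit 169) (nat_lit 4) (nat_lit 48) (nat_lit 77) (nat_lit 64)) (PT.lf (nat_lit 15372) (nat_lit 6) (nat_lit 183) (nat_lit 4) (nat_lit 49) (nat_lit 77) (nat_lit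 63)))))) (PT.nd (nat_lit 564) (PT.nd (nat_lit 282) (PT.nd (nat_lit 94) (PT.lf (nat_lit 15288) (nat_lit 6) (nat_lit 182) (nat_lit 4) (nat_lit 50) (nat_lit 77) (nat_lit 62)) (PT.nd (nat_lit 94) (PT.lf (nat_lit 15204) (nat_lit 6) (nat_lit 181) (nat_lit 4) (nat_lit 51) (nat_lit 77) (nat_lit 61)) (PT.lf (nat_lit 15120) (nat_lit 6) (nat_lit 180) (nat_lit 4) (nat_lit 52) (nat_lit 77) (nat_lit 60)))) (PT.nd (nat_lit 94) (PT.lf (nat_lit 15036) (nat_lit 6) (nat_lit 179) (nat_lit 4) (nat_lit 53) (nat_lit 77) (nat_lit 59)) (PT.nd (nat_lit 94) (PT.lf (nat_lit 14952) (nat_lit 6) (nat_lit 178) (nat_lit 4) (nat_lit 54) (nat_lit 77) (nat_lit 58)) (PT.lf (nat_lit 14868) (nat_lit 6) (nat_lit 177) (nat_lit 4) (nat_lit 55) (nat_lit 77) (nat_lit 57))))) (PT.nd (nat_lit 282) (PT.nd (nat_lit 94) (PT.lf (nat_lit 14784) (nat_lit 3) (nat_lit 176) (nat_lit 2) (nat_lit 56) (nat_lit 77) (nat_lit 56)) (PT.nd (nat_lit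 94) (PT.lf (nat_lit 14868) (nat_lit 6) (nat_lit 177) (nat_lit 2) (nat_lit 57) (nat_lit 77) (nat_lit 55)) (PT.lf (nat_lit 14952) (nat_lit 6) (nat_lit 178) (nat_lit 2) (nat_lit 58) (nat_lit 77) (nat_lit 54)))) (PT.nd (nat_lit 188) (PT.nd (nat_lit 94) (PT.lf (nat_lit 15036) (nat_lit 6) (nat_lit 179) (nat_lit 2) (nat_lit 59) (nat_lit 77) (nat_lit 53)) (PT.lf (nat_lit 15120) (nat_lit 6) (nat_lit 180) (nat_lit 2) (nat_lit 60) (nat_lit 77) (nat_lit 52))) (PT.nd (nat_lit 94) (PT.lf (nat_lit 15204) (nat_lit 6) (nat_lit 181) (nat_lit 2) (nat_lit 61) (nat_lit 77) (nat_lit 51)) (PT.lf (nat_lit 15288) (nat_lit 6) (nat_lit 182) (nat_lit 2) (nat_lit 62) (nat_lit 77) (nat_lit 50))))))))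
noncomputable def pc25 : PT := (PT.nd (nat_lit 56306) (PT.nd (nat_lit 1128) (PT.nd (nat_lit 564) (PT.nd (nat_lit 282) (PT.nd (nat_lit 94) (PT.lf (nat_lit 15372) (nat_lit 6) (nat_lit 183) (nat_lit 2) (nat_lit 63) (nat_lit 77) (nat_lit 49)) (PT.nd (nat_lit 94) (PT.lf (nat_lit 14196) (nat_lit 6) (nat_lit 169) (nat_lit 2) (nat_lit 64) (nat_lit 77) (nat_lit 48)) (PT.lf (nat_lit 12936) (nat_lit 6) (nat_lit 154) (nat_lit 2) (nat_lit 65) (nat_lit 77) (nat_lit 47)))) (PT.nd (nat_lit 94) (PT.lf (nat_lit 12348) (nat_lit 6) (nat_lit 147) (nat_lit 2) (nat_lit 66) (nat_lit 77) (nat_lit 46)) (PT.nd (nat_lit 94) (PT.lf (nat_lit 11760) (nat_lit 6) (nat_lit 140) (nat_lit 2) (nat_lit 67) (nat_lit 77) (nat_lit 45)) (PT.lf (nat_lit 11172) (nat_lit 6) (nat_lit 133) (nat_lit 2) (nat_lit 68) (nat_lit 77) (nat_lit 44))))) (PT.nd (nat_lit 282) (PT.nd (nat_lit 94) (PT.lf (nat_lit 10584) (nat_lit 6) (nat_lit 126)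 (nat_lit 2) (nat_lit 69) (nat_lit 77) (nat_lit 43)) (PT.nd (nat_lit 94) (PT.lf (nat_lit 10080) (nat_lit 6) (nat_lit 120) (nat_lit 2) (nat_lit 70) (nat_lit 77) (nat_lit 42)) (PT.lf (nat_lit 9576) (nat_lit 6) (nat_lit 114) (nat_lit 2) (nat_lit 71) (nat_lit 77) (nat_lit 41)))) (PT.nd (nat_lit 94) (PT.lf (nat_lit 9156) (nat_lit 6) (nat_lit 109) (nat_lit 2) (nat_lit 72) (nat_lit 77) (nat_lit 40)) (PT.nd (nat_lit 94) (PT.lf (nat_lit 8652) (nat_lit 6) (nat_lit 103) (nat_lit 2) (nat_lit 73) (nat_lit 77) (nat_lit 39)) (PT.lf (nat_lit 8232) (nat_lit 6) (nat_lit 98) (nat_lit 2) (nat_lit 74) (nat_lit 77) (nat_lit 38)))))) (PT.nd (nat_lit 564) (PT.nd (nat_lit 282) (PT.nd (nat_lit 94) (PT.lf (nat_lit 7812) (nat_lit 6) (nat_lit 93) (nat_lit 2) (nat_lit 75) (nat_lit 77) (nat_lit 37)) (PT.nd (nat_lit 94) (PT.lf (nat_lit 7476) (nat_lit 6) (nat_lit 89) (nat_lit 2) (nat_lit 76) (nat_lit 77) (nat_lit 36))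 (PT.lf (nat_lit 7056) (nat_lit 3) (nat_lit 84) (nat_lit 0) (nat_lit 77) (nat_lit 77) (nat_lit 35)))) (PT.nd (nat_lit 94) (PT.lf (nat_lit 6636) (nat_lit 6) (nat_lit 79) (nat_lit 0) (nat_lit 78) (nat_lit 77) (nat_lit 34)) (PT.nd (nat_lit 94) (PT.lf (nat_lit 6216) (nat_lit 6) (nat_lit 74) (nat_lit 0) (nat_lit 79) (nat_lit 77) (nat_lit 33)) (PT.lf (nat_lit 5796) (nat_lit 6) (nat_lit 69) (nat_lit 0) (nat_lit 80) (nat_lit 77) (nat_lit 32))))) (PT.nd (nat_lit 54238) (PT.nd (nat_lit 94) (PT.lf (nat_lit 5376) (nat_lit 6) (nat_lit 64) (nat_lit 0) (nat_lit 81) (nat_lit 77) (nat_lit 31)) (PT.nd (nat_lit 94) (PT.lf (nat_lit 5040) (nat_lit 6) (nat_lit 60) (nat_lit 0) (nat_lit 82) (nat_lit 77) (nat_lit 30)) (PT.lf (nat_lit 4620) (nat_lit 6) (nat_lit 55) (nat_lit 0) (nat_lit 83) (nat_lit 77) (nat_lit 29)))) (PT.nd (nat_lit 188) (PT.nd (nat_lit 94) (PT.lf (nat_lit 4032) (nat_lit 6) (nat_lit 48) (nat_lit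 5) (nat_lit 27) (nat_lit 78) (nat_lit 84)) (PT.lf (nat_lit 4368) (nat_lit 6) (nat_lit 52) (nat_lit 5) (nat_lit 28) (nat_lit 78) (nat_lit 83))) (PT.nd (nat_lit 94) (PT.lf (nat_lit 4704) (nat_lit 6) (nat_lit 56) (nat_lit 5) (nat_lit 29) (nat_lit 78) (nat_lit 82)) (PT.lf (nat_lit 5124) (nat_lit 6) (nat_lit 61) (nat_lit 5) (nat_lit 30) (nat_lit 78) (nat_lit 81))))))) (PT.nd (nat_lit 1128) (PT.nd (nat_lit 564) (PT.nd (nat_lit 282) (PT.nd (nat_lit 94) (PT.lf (nat_lit 5460) (nat_lit 6) (nat_lit 65) (nat_lit 5) (nat_lit 31) (nat_lit 78) (nat_lit 80)) (PT.nd (nat_lit 94) (PT.lf (nat_lit 5880) (nat_lit 6) (nat_lit 70) (nat_lit 5) (nat_lit 32) (nat_lit 78) (nat_lit 79)) (PT.lf (nat_lit 6300) (nat_lit 3) (nat_lit 75) (nat_lit 4) (nat_lit 33) (nat_lit 78) (nat_lit 78)))) (PT.nd (nat_lit 94) (PT.lf (nat_lit 6636) (nat_lit 6) (nat_lit 79) (nat_lit 4) (nat_lit 34) (nat_lit 78) (nat_lit 77)) (PT.nd (nat_lit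 94) (PT.lf (nat_lit 6972) (nat_lit 6) (nat_lit 83) (nat_lit 4) (nat_lit 35) (nat_lit 78) (nat_lit 76)) (PT.lf (nat_lit 7392) (nat_lit 6) (nat_lit 88) (nat_lit 4) (nat_lit 36) (nat_lit 78) (nat_lit 75))))) (PT.nd (nat_lit 282) (PT.nd (nat_lit 94) (PT.lf (nat_lit 7728) (nat_lit 6) (nat_lit 92) (nat_lit 4) (nat_lit 37) (nat_lit 78) (nat_lit 74)) (PT.nd (nat_lit 94) (PT.lf (nat_lit 8148) (nat_lit 6) (nat_lit 97) (nat_lit 4) (nat_lit 38) (nat_lit 78) (nat_lit 73)) (PT.lf (nat_lit 8568) (nat_lit 6) (nat_lit 102) (nat_lit 4) (nat_lit 39) (nat_lit 78) (nat_lit 72)))) (PT.nd (nat_lit 94) (PT.lf (nat_lit 9072) (nat_lit 6) (nat_lit 108) (nat_lit 4) (nat_lit 40) (nat_lit 78) (nat_lit 71)) (PT.nd (nat_lit 94) (PT.lf (nat_lit 9492) (nat_lit 6) (nat_lit 113) (nat_lit 4) (nat_lit 41) (nat_lit 78) (nat_lit 70)) (PT.lf (nat_lit 9996) (nat_lit 6) (nat_lit 119) (nat_lit 4) (nat_lit 42) (nat_lit 78) (nat_lit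 69)))))) (PT.nd (nat_lit 564) (PT.nd (nat_lit 282) (PT.nd (nat_lit 94) (PT.lf (nat_lit 10500) (nat_lit 6) (nat_lit 125) (nat_lit 4) (nat_lit 43) (nat_lit 78) (nat_lit 68)) (PT.nd (nat_lit 94) (PT.lf (nat_lit 11088) (nat_lit 6) (nat_lit 132) (nat_lit 4) (nat_lit 44) (nat_lit 78) (nat_lit 67)) (PT.lf (nat_lit 11676) (nat_lit 6) (nat_lit 139) (nat_lit 4) (nat_lit 45) (nat_lit 78) (nat_lit 66)))) (PT.nd (nat_lit 94) (PT.lf (nat_lit 12264) (nat_lit 6) (nat_lit 146) (nat_lit 4) (nat_lit 46) (nat_lit 78) (nat_lit 65)) (PT.nd (nat_lit 94) (PT.lf (nat_lit 12852) (nat_lit 6) (nat_lit 153) (nat_lit 4) (nat_lit 47) (nat_lit 78) (nat_lit 64)) (PT.lf (nat_lit 14112) (nat_lit 6) (nat_lit 168) (nat_lit 4) (nat_lit 48) (nat_lit 78) (nat_lit 63))))) (PT.nd (nat_lit 282) (PT.nd (nat_lit 94) (PT.lf (nat_lit 14028) (nat_lit 6) (nat_lit 167) (nat_lit 4) (nat_lit 49) (nat_lit 78) (nat_lit 62)) (PT.nd (nat_lit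 94) (PT.lf (nat_lit 13944) (nat_lit 6) (nat_lit 166) (nat_lit 4) (nat_lit 50) (nat_lit 78) (nat_lit 61)) (PT.lf (nat_lit 13860) (nat_lit 6) (nat_lit 165) (nat_lit 4) (nat_lit 51) (nat_lit 78) (nat_lit 60)))) (PT.nd (nat_lit 188) (PT.nd (nat_lit 94) (PT.lf (nat_lit 13776) (nat_lit 6) (nat_lit 164) (nat_lit 4) (nat_lit 52) (nat_lit 78) (nat_lit 59)) (PT.lf (nat_lit 13692) (nat_lit 6) (nat_lit 163) (nat_lit 4) (nat_lit 53) (nat_lit 78) (nat_lit 58))) (PT.nd (nat_lit 94) (PT.lf (nat_lit 13608) (nat_lit 6) (nat_lit 162) (nat_lit 4) (nat_lit 54) (nat_lit 78) (nat_lit 57)) (PT.lf (nat_lit 13524) (nat_lit 6) (nat_lit 161) (nat_lit 4) (nat_lit 55) (nat_lit 78) (nat_lit 56))))))))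
noncomputable def pc26 : PT := (PT.nd (nat_lit 2350) (PT.nd (nat_lit 1128) (PT.nd (nat_lit 564) (PT.nd (nat_lit 282) (PT.nd (nat_lit 94) (PT.lf (nat_lit 13524) (nat_lit 6) (nat_lit 161) (nat_lit 2) (nat_lit 56) (nat_lit 78) (nat_lit 55)) (PT.nd (nat_lit 94) (PT.lf (nat_lit 13608) (nat_lit 6) (nat_lit 162) (nat_lit 2) (nat_lit 57) (nat_lit 78) (nat_lit 54)) (PT.lf (nat_lit 13692) (nat_lit 6) (nat_lit 163) (nat_lit 2) (nat_lit 58) (nat_lit 78) (nat_lit 53)))) (PT.nd (nat_lit 94) (PT.lf (nat_lit 13776) (nat_lit 6) (nat_lit 164) (nat_lit 2) (nat_lit 59) (nat_lit 78) (nat_lit 52)) (PT.nd (nat_lit 94) (PT.lf (nat_lit 13860) (nat_lit 6) (nat_lit 165) (nat_lit 2) (nat_lit 60) (nat_lit 78) (nat_lit 51)) (PT.lf (nat_lit 13944) (nat_lit 6) (nat_lit 166) (nat_lit 2) (nat_lit 61) (nat_lit 78) (nat_lit 50))))) (PT.nd (nat_lit 282) (PT.nd (nat_lit 94) (PT.lf (nat_lit 14028) (nat_lit 6) (nat_lit 167)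 (nat_lit 2) (nat_lit 62) (nat_lit 78) (nat_lit 49)) (PT.nd (nat_lit 94) (PT.lf (nat_lit 14112) (nat_lit 6) (nat_lit 168) (nat_lit 2) (nat_lit 63) (nat_lit 78) (nat_lit 48)) (PT.lf (nat_lit 12852) (nat_lit 6) (nat_lit 153) (nat_lit 2) (nat_lit 64) (nat_lit 78) (nat_lit 47)))) (PT.nd (nat_lit 94) (PT.lf (nat_lit 12264) (nat_lit 6) (nat_lit 146) (nat_lit 2) (nat_lit 65) (nat_lit 78) (nat_lit 46)) (PT.nd (nat_lit 94) (PT.lf (nat_lit 11676) (nat_lit 6) (nat_lit 139) (nat_lit 2) (nat_lit 66) (nat_lit 78) (nat_lit 45)) (PT.lf (nat_lit 11088) (nat_lit 6) (nat_lit 132) (nat_lit 2) (nat_lit 67) (nat_lit 78) (nat_lit 44)))))) (PT.nd (nat_lit 564) (PT.nd (nat_lit 282) (PT.nd (nat_lit 94) (PT.lf (nat_lit 10500) (nat_lit 6) (nat_lit 125) (nat_lit 2) (nat_lit 68) (nat_lit 78) (nat_lit 43)) (PT.nd (nat_lit 94) (PT.lf (nat_lit 9996) (nat_lit 6) (nat_lit 119) (nat_lit 2) (nat_lit 69) (nat_lit 78) (nat_lit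 42)) (PT.lf (nat_lit 9492) (nat_lit 6) (nat_lit 113) (nat_lit 2) (nat_lit 70) (nat_lit 78) (nat_lit 41)))) (PT.nd (nat_lit 94) (PT.lf (nat_lit 9072) (nat_lit 6) (nat_lit 108) (nat_lit 2) (nat_lit 71) (nat_lit 78) (nat_lit 40)) (PT.nd (nat_lit 94) (PT.lf (nat_lit 8568) (nat_lit 6) (nat_lit 102) (nat_lit 2) (nat_lit 72) (nat_lit 78) (nat_lit 39)) (PT.lf (nat_lit 8148) (nat_lit 6) (nat_lit 97) (nat_lit 2) (nat_lit 73) (nat_lit 78) (nat_lit 38))))) (PT.nd (nat_lit 282) (PT.nd (nat_lit 94) (PT.lf (nat_lit 7728) (nat_lit 6) (nat_lit 92) (nat_lit 2) (nat_lit 74) (nat_lit 78) (nat_lit 37)) (PT.nd (nat_lit 94) (PT.lf (nat_lit 7392) (nat_lit 6) (nat_lit 88) (nat_lit 2) (nat_lit 75) (nat_lit 78) (nat_lit 36)) (PT.lf (nat_lit 6972) (nat_lit 6) (nat_lit 83) (nat_lit 2) (nat_lit 76) (nat_lit 78) (nat_lit 35)))) (PT.nd (nat_lit 188) (PT.nd (nat_lit 94) (PT.lf (nat_lit 6636) (nat_lit 6) (nat_lit 79) (nat_lit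 2) (nat_lit 77) (nat_lit 78) (nat_lit 34)) (PT.lf (nat_lit 6300) (nat_lit 3) (nat_lit 75) (nat_lit 0) (nat_lit 78) (nat_lit 78) (nat_lit 33))) (PT.nd (nat_lit 94) (PT.lf (nat_lit 5880) (nat_lit 6) (nat_lit 70) (nat_lit 0) (nat_lit 79) (nat_lit 78) (nat_lit 32)) (PT.lf (nat_lit 5460) (nat_lit 6) (nat_lit 65) (nat_lit 0) (nat_lit 80) (nat_lit 78) (nat_lit 31))))))) (PT.nd (nat_lit 54896) (PT.nd (nat_lit 54332) (PT.nd (nat_lit 282) (PT.nd (nat_lit 94) (PT.lf (nat_lit 5124) (nat_lit 6) (nat_lit 61) (nat_lit 0) (nat_lit 81) (nat_lit 78) (nat_lit 30)) (PT.nd (nat_lit 94) (PT.lf (nat_lit 4704) (nat_lit 6) (nat_lit 56) (nat_lit 0) (nat_lit 82) (nat_lit 78) (nat_lit 29)) (PT.lf (nat_lit 4368) (nat_lit 6) (nat_lit 52) (nat_lit 0) (nat_lit 83) (nat_lit 78) (nat_lit 28)))) (PT.nd (nat_lit 53862) (PT.lf (nat_lit 4032) (nat_lit 6) (nat_lit 48) (nat_lit 0) (nat_lit 84) (nat_lit 78) (nat_lit 27)) (PT.nd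 (nat_lit 94) (PT.lf (nat_lit 3780) (nat_lit 6) (nat_lit 45) (nat_lit 5) (nat_lit 26) (nat_lit 79) (nat_lit 84)) (PT.lf (nat_lit 4116) (nat_lit 6) (nat_lit 49) (nat_lit 5) (nat_lit 27) (nat_lit 79) (nat_lit 83))))) (PT.nd (nat_lit 282) (PT.nd (nat_lit 94) (PT.lf (nat_lit 4452) (nat_lit 6) (nat_lit 53) (nat_lit 5) (nat_lit 28) (nat_lit 79) (nat_lit 82)) (PT.nd (nat_lit 94) (PT.lf (nat_lit 4788) (nat_lit 6) (nat_lit 57) (nat_lit 5) (nat_lit 29) (nat_lit 79) (nat_lit 81)) (PT.lf (nat_lit 5208) (nat_lit 6) (nat_lit 62) (nat_lit 5) (nat_lit 30) (nat_lit 79) (nat_lit 80)))) (PT.nd (nat_lit 94) (PT.lf (nat_lit 5544) (nat_lit 3) (nat_lit 66) (nat_lit 4) (nat_lit 31) (nat_lit 79) (nat_lit 79)) (PT.nd (nat_lit 94) (PT.lf (nat_lit 5880) (nat_lit 6) (nat_lit 70) (nat_lit 4) (nat_lit 32) (nat_lit 79) (nat_lit 78)) (PT.lf (nat_lit 6216) (nat_lit 6) (nat_lit 74) (nat_lit 4) (nat_lit 33) (nat_lit 79) (nat_lit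 77)))))) (PT.nd (nat_lit 564) (PT.nd (nat_lit 282) (PT.nd (nat_lit 94) (PT.lf (nat_lit 6552) (nat_lit 6) (nat_lit 78) (nat_lit 4) (nat_lit 34) (nat_lit 79) (nat_lit 76)) (PT.nd (nat_lit 94) (PT.lf (nat_lit 6888) (nat_lit 6) (nat_lit 82) (nat_lit 4) (nat_lit 35) (nat_lit 79) (nat_lit 75)) (PT.lf (nat_lit 7308) (nat_lit 6) (nat_lit 87) (nat_lit 4) (nat_lit 36) (nat_lit 79) (nat_lit 74)))) (PT.nd (nat_lit 94) (PT.lf (nat_lit 7644) (nat_lit 6) (nat_lit 91) (nat_lit 4) (nat_lit 37) (nat_lit 79) (nat_lit 73)) (PT.nd (nat_lit 94) (PT.lf (nat_lit 8064) (nat_lit 6) (nat_lit 96) (nat_lit 4) (nat_lit 38) (nat_lit 79) (nat_lit 72)) (PT.lf (nat_lit 8484) (nat_lit 6) (nat_lit 101) (nat_lit 4) (nat_lit 39) (nat_lit 79) (nat_lit 71))))) (PT.nd (nat_lit 282) (PT.nd (nat_lit 94) (PT.lf (nat_lit 8988) (nat_lit 6) (nat_lit 107) (nat_lit 4) (nat_lit 40) (nat_lit 79) (nat_lit 70)) (PT.nd (nat_lit 94) (PT.lf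 (nat_lit 9408) (nat_lit 6) (nat_lit 112) (nat_lit 4) (nat_lit 41) (nat_lit 79) (nat_lit 69)) (PT.lf (nat_lit 9912) (nat_lit 6) (nat_lit 118) (nat_lit 4) (nat_lit 42) (nat_lit 79) (nat_lit 68)))) (PT.nd (nat_lit 188) (PT.nd (nat_lit 94) (PT.lf (nat_lit 10416) (nat_lit 6) (nat_lit 124) (nat_lit 4) (nat_lit 43) (nat_lit 79) (nat_lit 67)) (PT.lf (nat_lit 11004) (nat_lit 6) (nat_lit 131) (nat_lit 4) (nat_lit 44) (nat_lit 79) (nat_lit 66))) (PT.nd (nat_lit 1880) (PT.lf (nat_lit 11592) (nat_lit 6) (nat_lit 138) (nat_lit 4) (nat_lit 45) (nat_lit 79) (nat_lit 65)) (PT.lf (nat_lit 11592) (nat_lit 6) (nat_lit 138) (nat_lit 2) (nat_lit 65) (nat_lit 79) (nat_lit 45))))))))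
noncomputable def pc27 : PT := (PT.nd (nat_lit 55930) (PT.nd (nat_lit 1128) (PT.nd (nat_lit 564) (PT.nd (nat_lit 282) (PT.nd (nat_lit 94) (PT.lf (nat_lit 11004) (nat_lit 6) (nat_lit 131) (nat_lit 2) (nat_lit 66) (nat_lit 79) (nat_lit 44)) (PT.nd (nat_lit 94) (PT.lf (nat_lit 10416) (nat_lit 6) (nat_lit 124) (nat_lit 2) (nat_lit 67) (nat_lit 79) (nat_lit 43)) (PT.lf (nat_lit 9912) (nat_lit 6) (nat_lit 118) (nat_lit 2) (nat_lit 68) (nat_lit 79) (nat_lit 42)))) (PT.nd (nat_lit 94) (PT.lf (nat_lit 9408) (nat_lit 6) (nat_lit 112) (nat_lit 2) (nat_lit 69) (nat_lit 79) (nat_lit 41)) (PT.nd (nat_lit 94) (PT.lf (nat_lit 8988) (nat_lit 6) (nat_lit 107) (nat_lit 2) (nat_lit 70) (nat_lit 79) (nat_lit 40)) (PT.lf (nat_lit 8484) (nat_lit 6) (nat_lit 101) (nat_lit 2) (nat_lit 71) (nat_lit 79) (nat_lit 39))))) (PT.nd (nat_lit 282) (PT.nd (nat_lit 94) (PT.lf (nat_lit 8064) (nat_lit 6) (nat_lit 96) (nat_lit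 2) (nat_lit 72) (nat_lit 79) (nat_lit 38)) (PT.nd (nat_lit 94) (PT.lf (nat_lit 7644) (nat_lit 6) (nat_lit 91) (nat_lit 2) (nat_lit 73) (nat_lit 79) (nat_lit 37)) (PT.lf (nat_lit 7308) (nat_lit 6) (nat_lit 87) (nat_lit 2) (nat_lit 74) (nat_lit 79) (nat_lit 36)))) (PT.nd (nat_lit 94) (PT.lf (nat_lit 6888) (nat_lit 6) (nat_lit 82) (nat_lit 2) (nat_lit 75) (nat_lit 79) (nat_lit 35)) (PT.nd (nat_lit 94) (PT.lf (nat_lit 6552) (nat_lit 6) (nat_lit 78) (nat_lit 2) (nat_lit 76) (nat_lit 79) (nat_lit 34)) (PT.lf (nat_lit 6216) (nat_lit 6) (nat_lit 74) (nat_lit 2) (nat_lit 77) (nat_lit 79) (nat_lit 33)))))) (PT.nd (nat_lit 564) (PT.nd (nat_lit 282) (PT.nd (nat_lit 94) (PT.lf (nat_lit 5880) (nat_lit 6) (nat_lit 70) (nat_lit 2) (nat_lit 78) (nat_lit 79) (nat_lit 32)) (PT.nd (nat_lit 94) (PT.lf (nat_lit 5544) (nat_lit 3) (nat_lit 66) (nat_lit 0) (nat_lit 79) (nat_lit 79) (nat_lit 31)) (PT.lf (nat_lit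 5208) (nat_lit 6) (nat_lit 62) (nat_lit 0) (nat_lit 80) (nat_lit 79) (nat_lit 30)))) (PT.nd (nat_lit 94) (PT.lf (nat_lit 4788) (nat_lit 6) (nat_lit 57) (nat_lit 0) (nat_lit 81) (nat_lit 79) (nat_lit 29)) (PT.nd (nat_lit 94) (PT.lf (nat_lit 4452) (nat_lit 6) (nat_lit 53) (nat_lit 0) (nat_lit 82) (nat_lit 79) (nat_lit 28)) (PT.lf (nat_lit 4116) (nat_lit 6) (nat_lit 49) (nat_lit 0) (nat_lit 83) (nat_lit 79) (nat_lit 27))))) (PT.nd (nat_lit 53862) (PT.nd (nat_lit 53674) (PT.lf (nat_lit 3780) (nat_lit 6) (nat_lit 45) (nat_lit 0) (nat_lit 84) (nat_lit 79) (nat_lit 26)) (PT.nd (nat_lit 94) (PT.lf (nat_lit 3276) (nat_lit 6) (nat_lit 39) (nat_lit 5) (nat_lit 24) (nat_lit 80) (nat_lit 85)) (PT.lf (nat_lit 3528) (nat_lit 6) (nat_lit 42) (nat_lit 5) (nat_lit 25) (nat_lit 80) (nat_lit 84)))) (PT.nd (nat_lit 188) (PT.nd (nat_lit 94) (PT.lf (nat_lit 3864) (nat_lit 6) (nat_lit 46) (nat_lit 5) (nat_lit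 26) (nat_lit 80) (nat_lit 83)) (PT.lf (nat_lit 4200) (nat_lit 6) (nat_lit 50) (nat_lit 5) (nat_lit 27) (nat_lit 80) (nat_lit 82))) (PT.nd (nat_lit 94) (PT.lf (nat_lit 4536) (nat_lit 6) (nat_lit 54) (nat_lit 5) (nat_lit 28) (nat_lit 80) (nat_lit 81)) (PT.lf (nat_lit 4872) (nat_lit 3) (nat_lit 58) (nat_lit 4) (nat_lit 29) (nat_lit 80) (nat_lit 80))))))) (PT.nd (nat_lit 3854) (PT.nd (nat_lit 564) (PT.nd (nat_lit 282) (PT.nd (nat_lit 94) (PT.lf (nat_lit 5208) (nat_lit 6) (nat_lit 62) (nat_lit 4) (nat_lit 30) (nat_lit 80) (nat_lit 79)) (PT.nd (nat_lit 94) (PT.lf (nat_lit 5460) (nat_lit 6) (nat_lit 65) (nat_lit 4) (nat_lit 31) (nat_lit 80) (nat_lit 78)) (PT.lf (nat_lit 5796) (nat_lit 6) (nat_lit 69) (nat_lit 4) (nat_lit 32) (nat_lit 80) (nat_lit 77)))) (PT.nd (nat_lit 94) (PT.lf (nat_lit 6132) (nat_lit 6) (nat_lit 73) (nat_lit 4) (nat_lit 33) (nat_lit 80) (nat_lit 76)) (PT.nd (nat_lit 94) (PT.lf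 (nat_lit 6468) (nat_lit 6) (nat_lit 77) (nat_lit 4) (nat_lit 34) (nat_lit 80) (nat_lit 75)) (PT.lf (nat_lit 6804) (nat_lit 6) (nat_lit 81) (nat_lit 4) (nat_lit 35) (nat_lit 80) (nat_lit 74))))) (PT.nd (nat_lit 282) (PT.nd (nat_lit 94) (PT.lf (nat_lit 7224) (nat_lit 6) (nat_lit 86) (nat_lit 4) (nat_lit 36) (nat_lit 80) (nat_lit 73)) (PT.nd (nat_lit 94) (PT.lf (nat_lit 7560) (nat_lit 6) (nat_lit 90) (nat_lit 4) (nat_lit 37) (nat_lit 80) (nat_lit 72)) (PT.lf (nat_lit 7980) (nat_lit 6) (nat_lit 95) (nat_lit 4) (nat_lit 38) (nat_lit 80) (nat_lit 71)))) (PT.nd (nat_lit 2820) (PT.nd (nat_lit 94) (PT.lf (nat_lit 8400) (nat_lit 6) (nat_lit 100) (nat_lit 4) (nat_lit 39) (nat_lit 80) (nat_lit 70)) (PT.lf (nat_lit 8904) (nat_lit 6) (nat_lit 106) (nat_lit 4) (nat_lit 40) (nat_lit 80) (nat_lit 69))) (PT.nd (nat_lit 94) (PT.lf (nat_lit 8904) (nat_lit 6) (nat_lit 106) (nat_lit 2) (nat_lit 69) (nat_lit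 80) (nat_lit 40)) (PT.lf (nat_lit 8400) (nat_lit 6) (nat_lit 100) (nat_lit 2) (nat_lit 70) (nat_lit 80) (nat_lit 39)))))) (PT.nd (nat_lit 564) (PT.nd (nat_lit 282) (PT.nd (nat_lit 94) (PT.lf (nat_lit 7980) (nat_lit 6) (nat_lit 95) (nat_lit 2) (nat_lit 71) (nat_lit 80) (nat_lit 38)) (PT.nd (nat_lit 94) (PT.lf (nat_lit 7560) (nat_lit 6) (nat_lit 90) (nat_lit 2) (nat_lit 72) (nat_lit 80) (nat_lit 37)) (PT.lf (nat_lit 7224) (nat_lit 6) (nat_lit 86) (nat_lit 2) (nat_lit 73) (nat_lit 80) (nat_lit 36)))) (PT.nd (nat_lit 94) (PT.lf (nat_lit 6804) (nat_lit 6) (nat_lit 81) (nat_lit 2) (nat_lit 74) (nat_lit 80) (nat_lit 35)) (PT.nd (nat_lit 94) (PT.lf (nat_lit 6468) (nat_lit 6) (nat_lit 77) (nat_lit 2) (nat_lit 75) (nat_lit 80) (nat_lit 34)) (PT.lf (nat_lit 6132) (nat_lit 6) (nat_lit 73) (nat_lit 2) (nat_lit 76) (nat_lit 80) (nat_lit 33))))) (PT.nd (nat_lit 282) (PT.nd (nat_lit 94) (PT.lf (nat_lit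 5796) (nat_lit 6) (nat_lit 69) (nat_lit 2) (nat_lit 77) (nat_lit 80) (nat_lit 32)) (PT.nd (nat_lit 94) (PT.lf (nat_lit 5460) (nat_lit 6) (nat_lit 65) (nat_lit 2) (nat_lit 78) (nat_lit 80) (nat_lit 31)) (PT.lf (nat_lit 5208) (nat_lit 6) (nat_lit 62) (nat_lit 2) (nat_lit 79) (nat_lit 80) (nat_lit 30)))) (PT.nd (nat_lit 188) (PT.nd (nat_lit 94) (PT.lf (nat_lit 4872) (nat_lit 3) (nat_lit 58) (nat_lit 0) (nat_lit 80) (nat_lit 80) (nat_lit 29)) (PT.lf (nat_lit 4536) (nat_lit 6) (nat_lit 54) (nat_lit 0) (nat_lit 81) (nat_lit 80) (nat_lit 28))) (PT.nd (nat_lit 94) (PT.lf (nat_lit 4200) (nat_lit 6) (nat_lit 50) (nat_lit 0) (nat_lit 82) (nat_lit 80) (nat_lit 27)) (PT.lf (nat_lit 3864) (nat_lit 6) (nat_lit 46) (nat_lit 0) (nat_lit 83) (nat_lit 80) (nat_lit 26))))))))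
noncomputable def pc28 : PT := (PT.nd (nat_lit 59032) (PT.nd (nat_lit 54520) (PT.nd (nat_lit 53956) (PT.nd (nat_lit 53674) (PT.nd (nat_lit 94) (PT.lf (nat_lit 3528) (nat_lit 6) (nat_lit 42) (nat_lit 0) (nat_lit 84) (nat_lit 80) (nat_lit 25)) (PT.nd (nat_lit 53486) (PT.lf (nat_lit 3276) (nat_lit 6) (nat_lit 39) (nat_lit 0) (nat_lit 85) (nat_lit 80) (nat_lit 24)) (PT.lf (nat_lit 3024) (nat_lit 6) (nat_lit 36) (nat_lit 5) (nat_lit 23) (nat_lit 81) (nat_lit 85)))) (PT.nd (nat_lit 94) (PT.lf (nat_lit 3360) (nat_lit 6) (nat_lit 40) (nat_lit 5) (nat_lit 24) (nat_lit 81) (nat_lit 84)) (PT.nd (nat_lit 94) (PT.lf (nat_lit 3612) (nat_lit 6) (nat_lit 43) (nat_lit 5) (nat_lit 25) (nat_lit 81) (nat_lit 83)) (PT.lf (nat_lit 3948) (nat_lit 6) (nat_lit 47) (nat_lit 5) (nat_lit 26) (nat_lit 81) (nat_lit 82))))) (PT.nd (nat_lit 282) (PT.nd (nat_lit 94) (PT.lf (nat_lit 4284) (nat_lit 3) (nat_lit 51) (nat_lit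 4) (nat_lit 27) (nat_lit 81) (nat_lit 81)) (PT.nd (nat_lit 94) (PT.lf (nat_lit 4536) (nat_lit 6) (nat_lit 54) (nat_lit 4) (nat_lit 28) (nat_lit 81) (nat_lit 80)) (PT.lf (nat_lit 4788) (nat_lit 6) (nat_lit 57) (nat_lit 4) (nat_lit 29) (nat_lit 81) (nat_lit 79)))) (PT.nd (nat_lit 94) (PT.lf (nat_lit 5124) (nat_lit 6) (nat_lit 61) (nat_lit 4) (nat_lit 30) (nat_lit 81) (nat_lit 78)) (PT.nd (nat_lit 94) (PT.lf (nat_lit 5376) (nat_lit 6) (nat_lit 64) (nat_lit 4) (nat_lit 31) (nat_lit 81) (nat_lit 77)) (PT.lf (nat_lit 5712) (nat_lit 6) (nat_lit 68) (nat_lit 4) (nat_lit 32) (nat_lit 81) (nat_lit 76)))))) (PT.nd (nat_lit 3854) (PT.nd (nat_lit 282) (PT.nd (nat_lit 94) (PT.lf (nat_lit 6048) (nat_lit 6) (nat_lit 72) (nat_lit 4) (nat_lit 33) (nat_lit 81) (nat_lit 75)) (PT.nd (nat_lit 94) (PT.lf (nat_lit 6384) (nat_lit 6) (nat_lit 76) (nat_lit 4) (nat_lit 34) (nat_lit 81) (nat_lit 74)) (PT.lf (nat_lit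 6720) (nat_lit 6) (nat_lit 80) (nat_lit 4) (nat_lit 35) (nat_lit 81) (nat_lit 73)))) (PT.nd (nat_lit 3384) (PT.lf (nat_lit 7140) (nat_lit 6) (nat_lit 85) (nat_lit 4) (nat_lit 36) (nat_lit 81) (nat_lit 72)) (PT.nd (nat_lit 94) (PT.lf (nat_lit 7140) (nat_lit 6) (nat_lit 85) (nat_lit 2) (nat_lit 72) (nat_lit 81) (nat_lit 36)) (PT.lf (nat_lit 6720) (nat_lit 6) (nat_lit 80) (nat_lit 2) (nat_lit 73) (nat_lit 81) (nat_lit 35))))) (PT.nd (nat_lit 282) (PT.nd (nat_lit 94) (PT.lf (nat_lit 6384) (nat_lit 6) (nat_lit 76) (nat_lit 2) (nat_lit 74) (nat_lit 81) (nat_lit 34)) (PT.nd (nat_lit 94) (PT.lf (nat_lit 6048) (nat_lit 6) (nat_lit 72) (nat_lit 2) (nat_lit 75) (nat_lit 81) (nat_lit 33)) (PT.lf (nat_lit 5712) (nat_lit 6) (nat_lit 68) (nat_lit 2) (nat_lit 76) (nat_lit 81) (nat_lit 32)))) (PT.nd (nat_lit 188) (PT.nd (nat_lit 94) (PT.lf (nat_lit 5376) (nat_lit 6) (nat_lit 64) (nat_lit 2) (nat_lit 77)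 (nat_lit 81) (nat_lit 31)) (PT.lf (nat_lit 5124) (nat_lit 6) (nat_lit 61) (nat_lit 2) (nat_lit 78) (nat_lit 81) (nat_lit 30))) (PT.nd (nat_lit 94) (PT.lf (nat_lit 4788) (nat_lit 6) (nat_lit 57) (nat_lit 2) (nat_lit 79) (nat_lit 81) (nat_lit 29)) (PT.lf (nat_lit 4536) (nat_lit 6) (nat_lit 54) (nat_lit 2) (nat_lit 80) (nat_lit 81) (nat_lit 28))))))) (PT.nd (nat_lit 54332) (PT.nd (nat_lit 53768) (PT.nd (nat_lit 282) (PT.nd (nat_lit 94) (PT.lf (nat_lit 4284) (nat_lit 3) (nat_lit 51) (nat_lit 0) (nat_lit 81) (nat_lit 81) (nat_lit 27)) (PT.nd (nat_lit 94) (PT.lf (nat_lit 3948) (nat_lit 6) (nat_lit 47) (nat_lit 0) (nat_lit 82) (nat_lit 81) (nat_lit 26)) (PT.lf (nat_lit 3612) (nat_lit 6) (nat_lit 43) (nat_lit 0) (nat_lit 83) (nat_lit 81) (nat_lit 25)))) (PT.nd (nat_lit 94) (PT.lf (nat_lit 3360) (nat_lit 6) (nat_lit 40) (nat_lit 0) (nat_lit 84) (nat_lit 81) (nat_lit 24)) (PT.nd (nat_lit 53298)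 (PT.lf (nat_lit 3024) (nat_lit 6) (nat_lit 36) (nat_lit 0) (nat_lit 85) (nat_lit 81) (nat_lit 23)) (PT.lf (nat_lit 2604) (nat_lit 6) (nat_lit 31) (nat_lit 5) (nat_lit 21) (nat_lit 82) (nat_lit 86))))) (PT.nd (nat_lit 282) (PT.nd (nat_lit 94) (PT.lf (nat_lit 2856) (nat_lit 6) (nat_lit 34) (nat_lit 5) (nat_lit 22) (nat_lit 82) (nat_lit 85)) (PT.nd (nat_lit 94) (PT.lf (nat_lit 3108) (nat_lit 6) (nat_lit 37) (nat_lit 5) (nat_lit 23) (nat_lit 82) (nat_lit 84)) (PT.lf (nat_lit 3444) (nat_lit 6) (nat_lit 41) (nat_lit 5) (nat_lit 24) (nat_lit 82) (nat_lit 83)))) (PT.nd (nat_lit 94) (PT.lf (nat_lit 3696) (nat_lit 3) (nat_lit 44) (nat_lit 4) (nat_lit 25) (nat_lit 82) (nat_lit 82)) (PT.nd (nat_lit 94) (PT.lf (nat_lit 3948) (nat_lit 6) (nat_lit 47) (nat_lit 4) (nat_lit 26) (nat_lit 82) (nat_lit 81)) (PT.lf (nat_lit 4200) (nat_lit 6) (nat_lit 50) (nat_lit 4) (nat_lit 27) (nat_lit 82) (nat_lit 80))))))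 (PT.nd (nat_lit 4324) (PT.nd (nat_lit 282) (PT.nd (nat_lit 94) (PT.lf (nat_lit 4452) (nat_lit 6) (nat_lit 53) (nat_lit 4) (nat_lit 28) (nat_lit 82) (nat_lit 79)) (PT.nd (nat_lit 94) (PT.lf (nat_lit 4704) (nat_lit 6) (nat_lit 56) (nat_lit 4) (nat_lit 29) (nat_lit 82) (nat_lit 78)) (PT.lf (nat_lit 5040) (nat_lit 6) (nat_lit 60) (nat_lit 4) (nat_lit 30) (nat_lit 82) (nat_lit 77)))) (PT.nd (nat_lit 94) (PT.lf (nat_lit 5292) (nat_lit 6) (nat_lit 63) (nat_lit 4) (nat_lit 31) (nat_lit 82) (nat_lit 76)) (PT.nd (nat_lit 94) (PT.lf (nat_lit 5628) (nat_lit 6) (nat_lit 67) (nat_lit 4) (nat_lit 32) (nat_lit 82) (nat_lit 75)) (PT.lf (nat_lit 5964) (nat_lit 6) (nat_lit 71) (nat_lit 4) (nat_lit 33) (nat_lit 82) (nat_lit 74))))) (PT.nd (nat_lit 282) (PT.nd (nat_lit 94) (PT.lf (nat_lit 5964) (nat_lit 6) (nat_lit 71) (nat_lit 2) (nat_lit 74) (nat_lit 82) (nat_lit 33)) (PT.nd (nat_lit 94) (PT.lf (nat_lit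 5628) (nat_lit 6) (nat_lit 67) (nat_lit 2) (nat_lit 75) (nat_lit 82) (nat_lit 32)) (PT.lf (nat_lit 5292) (nat_lit 6) (nat_lit 63) (nat_lit 2) (nat_lit 76) (nat_lit 82) (nat_lit 31)))) (PT.nd (nat_lit 188) (PT.nd (nat_lit 94) (PT.lf (nat_lit 5040) (nat_lit 6) (nat_lit 60) (nat_lit 2) (nat_lit 77) (nat_lit 82) (nat_lit 30)) (PT.lf (nat_lit 4704) (nat_lit 6) (nat_lit 56) (nat_lit 2) (nat_lit 78) (nat_lit 82) (nat_lit 29))) (PT.nd (nat_lit 94) (PT.lf (nat_lit 4452) (nat_lit 6) (nat_lit 53) (nat_lit 2) (nat_lit 79) (nat_lit 82) (nat_lit 28)) (PT.lf (nat_lit 4200) (nat_lit 6) (nat_lit 50) (nat_lit 2) (nat_lit 80) (nat_lit 82) (nat_lit 27))))))))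
noncomputable def pc29 : PT := (PT.nd (nat_lit 59502) (PT.nd (nat_lit 54050) (PT.nd (nat_lit 53486) (PT.nd (nat_lit 282) (PT.nd (nat_lit 94) (PT.lf (nat_lit 3948) (nat_lit 6) (nat_lit 47) (nat_lit 2) (nat_lit 81) (nat_lit 82) (nat_lit 26)) (PT.nd (nat_lit 94) (PT.lf (nat_lit 3696) (nat_lit 3) (nat_lit 44) (nat_lit 0) (nat_lit 82) (nat_lit 82) (nat_lit 25)) (PT.lf (nat_lit 3444) (nat_lit 6) (nat_lit 41) (nat_lit 0) (nat_lit 83) (nat_lit 82) (nat_lit 24)))) (PT.nd (nat_lit 94) (PT.lf (nat_lit 3108) (nat_lit 6) (nat_lit 37) (nat_lit 0) (nat_lit 84) (nat_lit 82) (nat_lit 23)) (PT.nd (nat_lit 94) (PT.lf (nat_lit 2856) (nat_lit 6) (nat_lit 34) (nat_lit 0) (nat_lit 85) (nat_lit 82) (nat_lit 22)) (PT.lf (nat_lit 2604) (nat_lit 6) (nat_lit 31) (nat_lit 0) (nat_lit 86) (nat_lit 82) (nat_lit 21))))) (PT.nd (nat_lit 282) (PT.nd (nat_lit 94) (PT.lf (nat_lit 2184) (nat_lit 6) (nat_lit 26) (nat_lit 5)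 (nat_lit 19) (nat_lit 83) (nat_lit 87)) (PT.nd (nat_lit 94) (PT.lf (nat_lit 2436) (nat_lit 6) (nat_lit 29) (nat_lit 5) (nat_lit 20) (nat_lit 83) (nat_lit 86)) (PT.lf (nat_lit 2688) (nat_lit 6) (nat_lit 32) (nat_lit 5) (nat_lit 21) (nat_lit 83) (nat_lit 85)))) (PT.nd (nat_lit 94) (PT.lf (nat_lit 2940) (nat_lit 6) (nat_lit 35) (nat_lit 5) (nat_lit 22) (nat_lit 83) (nat_lit 84)) (PT.nd (nat_lit 94) (PT.lf (nat_lit 3192) (nat_lit 3) (nat_lit 38) (nat_lit 4) (nat_lit 23) (nat_lit 83) (nat_lit 83)) (PT.lf (nat_lit 3444) (nat_lit 6) (nat_lit 41) (nat_lit 4) (nat_lit 24) (nat_lit 83) (nat_lit 82)))))) (PT.nd (nat_lit 4794) (PT.nd (nat_lit 282) (PT.nd (nat_lit 94) (PT.lf (nat_lit 3612) (nat_lit 6) (nat_lit 43) (nat_lit 4) (nat_lit 25) (nat_lit 83) (nat_lit 81)) (PT.nd (nat_lit 94) (PT.lf (nat_lit 3864) (nat_lit 6) (nat_lit 46) (nat_lit 4) (nat_lit 26) (nat_lit 83) (nat_lit 80)) (PT.lf (nat_lit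 4116) (nat_lit 6) (nat_lit 49) (nat_lit 4) (nat_lit 27) (nat_lit 83) (nat_lit 79)))) (PT.nd (nat_lit 94) (PT.lf (nat_lit 4368) (nat_lit 6) (nat_lit 52) (nat_lit 4) (nat_lit 28) (nat_lit 83) (nat_lit 78)) (PT.nd (nat_lit 94) (PT.lf (nat_lit 4620) (nat_lit 6) (nat_lit 55) (nat_lit 4) (nat_lit 29) (nat_lit 83) (nat_lit 77)) (PT.lf (nat_lit 4956) (nat_lit 6) (nat_lit 59) (nat_lit 4) (nat_lit 30) (nat_lit 83) (nat_lit 76))))) (PT.nd (nat_lit 282) (PT.nd (nat_lit 94) (PT.lf (nat_lit 4956) (nat_lit 6) (nat_lit 59) (nat_lit 2) (nat_lit 76) (nat_lit 83) (nat_lit 30)) (PT.nd (nat_lit 94) (PT.lf (nat_lit 4620) (nat_lit 6) (nat_lit 55) (nat_lit 2) (nat_lit 77) (nat_lit 83) (nat_lit 29)) (PT.lf (nat_lit 4368) (nat_lit 6) (nat_lit 52) (nat_lit 2) (nat_lit 78) (nat_lit 83) (nat_lit 28)))) (PT.nd (nat_lit 188) (PT.nd (nat_lit 94) (PT.lf (nat_lit 4116) (nat_lit 6) (nat_lit 49) (nat_lit 2) (nat_lit 79)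 (nat_lit 83) (nat_lit 27)) (PT.lf (nat_lit 3864) (nat_lit 6) (nat_lit 46) (nat_lit 2) (nat_lit 80) (nat_lit 83) (nat_lit 26))) (PT.nd (nat_lit 94) (PT.lf (nat_lit 3612) (nat_lit 6) (nat_lit 43) (nat_lit 2) (nat_lit 81) (nat_lit 83) (nat_lit 25)) (PT.lf (nat_lit 3444) (nat_lit 6) (nat_lit 41) (nat_lit 2) (nat_lit 82) (nat_lit 83) (nat_lit 24))))))) (PT.nd (nat_lit 53956) (PT.nd (nat_lit 53298) (PT.nd (nat_lit 282) (PT.nd (nat_lit 94) (PT.lf (nat_lit 3192) (nat_lit 3) (nat_lit 38) (nat_lit 0) (nat_lit 83) (nat_lit 83) (nat_lit 23)) (PT.nd (nat_lit 94) (PT.lf (nat_lit 2940) (nat_lit 6) (nat_lit 35) (nat_lit 0) (nat_lit 84) (nat_lit 83) (nat_lit 22)) (PT.lf (nat_lit 2688) (nat_lit 6) (nat_lit 32) (nat_lit 0) (nat_lit 85) (nat_lit 83) (nat_lit 21)))) (PT.nd (nat_lit 94) (PT.lf (nat_lit 2436) (nat_lit 6) (nat_lit 29) (nat_lit 0) (nat_lit 86) (nat_lit 83) (nat_lit 20)) (PT.nd (nat_lit 52828)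 (PT.lf (nat_lit 2184) (nat_lit 6) (nat_lit 26) (nat_lit 0) (nat_lit 87) (nat_lit 83) (nat_lit 19)) (PT.lf (nat_lit 2016) (nat_lit 6) (nat_lit 24) (nat_lit 5) (nat_lit 18) (nat_lit 84) (nat_lit 87))))) (PT.nd (nat_lit 282) (PT.nd (nat_lit 94) (PT.lf (nat_lit 2268) (nat_lit 6) (nat_lit 27) (nat_lit 5) (nat_lit 19) (nat_lit 84) (nat_lit 86)) (PT.nd (nat_lit 94) (PT.lf (nat_lit 2520) (nat_lit 6) (nat_lit 30) (nat_lit 5) (nat_lit 20) (nat_lit 84) (nat_lit 85)) (PT.lf (nat_lit 2772) (nat_lit 3) (nat_lit 33) (nat_lit 4) (nat_lit 21) (nat_lit 84) (nat_lit 84)))) (PT.nd (nat_lit 188) (PT.nd (nat_lit 94) (PT.lf (nat_lit 2940) (nat_lit 6) (nat_lit 35) (nat_lit 4) (nat_lit 22) (nat_lit 84) (nat_lit 83)) (PT.lf (nat_lit 3108) (nat_lit 6) (nat_lit 37) (nat_lit 4) (nat_lit 23) (nat_lit 84) (nat_lit 82))) (PT.nd (nat_lit 94) (PT.lf (nat_lit 3360) (nat_lit 6) (nat_lit 40) (nat_lit 4) (nat_lit 24) (nat_lit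 84) (nat_lit 81)) (PT.lf (nat_lit 3528) (nat_lit 6) (nat_lit 42) (nat_lit 4) (nat_lit 25) (nat_lit 84) (nat_lit 80)))))) (PT.nd (nat_lit 5264) (PT.nd (nat_lit 4982) (PT.nd (nat_lit 94) (PT.lf (nat_lit 3780) (nat_lit 6) (nat_lit 45) (nat_lit 4) (nat_lit 26) (nat_lit 84) (nat_lit 79)) (PT.nd (nat_lit 4794) (PT.lf (nat_lit 4032) (nat_lit 6) (nat_lit 48) (nat_lit 4) (nat_lit 27) (nat_lit 84) (nat_lit 78)) (PT.lf (nat_lit 4032) (nat_lit 6) (nat_lit 48) (nat_lit 2) (nat_lit 78) (nat_lit 84) (nat_lit 27)))) (PT.nd (nat_lit 94) (PT.lf (nat_lit 3780) (nat_lit 6) (nat_lit 45) (nat_lit 2) (nat_lit 79) (nat_lit 84) (nat_lit 26)) (PT.nd (nat_lit 94) (PT.lf (nat_lit 3528) (nat_lit 6) (nat_lit 42) (nat_lit 2) (nat_lit 80) (nat_lit 84) (nat_lit 25)) (PT.lf (nat_lit 3360) (nat_lit 6) (nat_lit 40) (nat_lit 2) (nat_lit 81) (nat_lit 84) (nat_lit 24))))) (PT.nd (nat_lit 282) (PT.nd (nat_lit 94) (PT.lf (nat_lit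 3108) (nat_lit 6) (nat_lit 37) (nat_lit 2) (nat_lit 82) (nat_lit 84) (nat_lit 23)) (PT.nd (nat_lit 94) (PT.lf (nat_lit 2940) (nat_lit 6) (nat_lit 35) (nat_lit 2) (nat_lit 83) (nat_lit 84) (nat_lit 22)) (PT.lf (nat_lit 2772) (nat_lit 3) (nat_lit 33) (nat_lit 0) (nat_lit 84) (nat_lit 84) (nat_lit 21)))) (PT.nd (nat_lit 188) (PT.nd (nat_lit 94) (PT.lf (nat_lit 2520) (nat_lit 6) (nat_lit 30) (nat_lit 0) (nat_lit 85) (nat_lit 84) (nat_lit 20)) (PT.lf (nat_lit 2268) (nat_lit 6) (nat_lit 27) (nat_lit 0) (nat_lit 86) (nat_lit 84) (nat_lit 19))) (PT.nd (nat_lit 52640) (PT.lf (nat_lit 2016) (nat_lit 6) (nat_lit 24) (nat_lit 0) (nat_lit 87) (nat_lit 84) (nat_lit 18)) (PT.lf (nat_lit 1680) (nat_lit 6) (nat_lit 20) (nat_lit 5) (nat_lit 16) (nat_lit 85) (nat_lit 88))))))))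
noncomputable def pc30 : PT := (PT.nd (nat_lit 65424) (PT.nd (nat_lit 6298) (PT.nd (nat_lit 564) (PT.nd (nat_lit 282) (PT.nd (nat_lit 94) (PT.lf (nat_lit 1848) (nat_lit 6) (nat_lit 22) (nat_lit 5) (nat_lit 17) (nat_lit 85) (nat_lit 87)) (PT.nd (nat_lit 94) (PT.lf (nat_lit 2100) (nat_lit 6) (nat_lit 25) (nat_lit 5) (nat_lit 18) (nat_lit 85) (nat_lit 86)) (PT.lf (nat_lit 2352) (nat_lit 3) (nat_lit 28) (nat_lit 4) (nat_lit 19) (nat_lit 85) (nat_lit 85)))) (PT.nd (nat_lit 94) (PT.lf (nat_lit 2520) (nat_lit 6) (nat_lit 30) (nat_lit 4) (nat_lit 20) (nat_lit 85) (nat_lit 84)) (PT.nd (nat_lit 94) (PT.lf (nat_lit 2688) (nat_lit 6) (nat_lit 32) (nat_lit 4) (nat_lit 21) (nat_lit 85) (nat_lit 83)) (PT.lf (nat_lit 2856) (nat_lit 6) (nat_lit 34) (nat_lit 4) (nat_lit 22) (nat_lit 85) (nat_lit 82))))) (PT.nd (nat_lit 5452) (PT.nd (nat_lit 94) (PT.lf (nat_lit 3024) (nat_lit 6) (nat_lit 36) (nat_lit 4)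 (nat_lit 23) (nat_lit 85) (nat_lit 81)) (PT.nd (nat_lit 5264) (PT.lf (nat_lit 3276) (nat_lit 6) (nat_lit 39) (nat_lit 4) (nat_lit 24) (nat_lit 85) (nat_lit 80)) (PT.lf (nat_lit 3276) (nat_lit 6) (nat_lit 39) (nat_lit 2) (nat_lit 80) (nat_lit 85) (nat_lit 24)))) (PT.nd (nat_lit 94) (PT.lf (nat_lit 3024) (nat_lit 6) (nat_lit 36) (nat_lit 2) (nat_lit 81) (nat_lit 85) (nat_lit 23)) (PT.nd (nat_lit 94) (PT.lf (nat_lit 2856) (nat_lit 6) (nat_lit 34) (nat_lit 2) (nat_lit 82) (nat_lit 85) (nat_lit 22)) (PT.lf (nat_lit 2688) (nat_lit 6) (nat_lit 32) (nat_lit 2) (nat_lit 83) (nat_lit 85) (nat_lit 21)))))) (PT.nd (nat_lit 52828) (PT.nd (nat_lit 282) (PT.nd (nat_lit 94) (PT.lf (nat_lit 2520) (nat_lit 6) (nat_lit 30) (nat_lit 2) (nat_lit 84) (nat_lit 85) (nat_lit 20)) (PT.nd (nat_lit 94) (PT.lf (nat_lit 2352) (nat_lit 3) (nat_lit 28) (nat_lit 0) (nat_lit 85) (nat_lit 85) (nat_lit 19)) (PT.lf (nat_lit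 2100) (nat_lit 6) (nat_lit 25) (nat_lit 0) (nat_lit 86) (nat_lit 85) (nat_lit 18)))) (PT.nd (nat_lit 94) (PT.lf (nat_lit 1848) (nat_lit 6) (nat_lit 22) (nat_lit 0) (nat_lit 87) (nat_lit 85) (nat_lit 17)) (PT.nd (nat_lit 52358) (PT.lf (nat_lit 1680) (nat_lit 6) (nat_lit 20) (nat_lit 0) (nat_lit 88) (nat_lit 85) (nat_lit 16)) (PT.lf (nat_lit 1344) (nat_lit 6) (nat_lit 16) (nat_lit 5) (nat_lit 14) (nat_lit 86) (nat_lit 89))))) (PT.nd (nat_lit 282) (PT.nd (nat_lit 94) (PT.lf (nat_lit 1512) (nat_lit 6) (nat_lit 18) (nat_lit 5) (nat_lit 15) (nat_lit 86) (nat_lit 88)) (PT.nd (nat_lit 94) (PT.lf (nat_lit 1764) (nat_lit 6) (nat_lit 21) (nat_lit 5) (nat_lit 16) (nat_lit 86) (nat_lit 87)) (PT.lf (nat_lit 1932) (nat_lit 3) (nat_lit 23) (nat_lit 4) (nat_lit 17) (nat_lit 86) (nat_lit 86)))) (PT.nd (nat_lit 188) (PT.nd (nat_lit 94) (PT.lf (nat_lit 2100) (nat_lit 6) (nat_lit 25) (nat_lit 4) (nat_lit 18)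 (nat_lit 86) (nat_lit 85)) (PT.lf (nat_lit 2268) (nat_lit 6) (nat_lit 27) (nat_lit 4) (nat_lit 19) (nat_lit 86) (nat_lit 84))) (PT.nd (nat_lit 94) (PT.lf (nat_lit 2436) (nat_lit 6) (nat_lit 29) (nat_lit 4) (nat_lit 20) (nat_lit 86) (nat_lit 83)) (PT.lf (nat_lit 2604) (nat_lit 6) (nat_lit 31) (nat_lit 4) (nat_lit 21) (nat_lit 86) (nat_lit 82))))))) (PT.nd (nat_lit 53204) (PT.nd (nat_lit 564) (PT.nd (nat_lit 282) (PT.nd (nat_lit 94) (PT.lf (nat_lit 2604) (nat_lit 6) (nat_lit 31) (nat_lit 2) (nat_lit 82) (nat_lit 86) (nat_lit 21)) (PT.nd (nat_lit 94) (PT.lf (nat_lit 2436) (nat_lit 6) (nat_lit 29) (nat_lit 2) (nat_lit 83) (nat_lit 86) (nat_lit 20)) (PT.lf (nat_lit 2268) (nat_lit 6) (nat_lit 27) (nat_lit 2) (nat_lit 84) (nat_lit 86) (nat_lit 19)))) (PT.nd (nat_lit 94) (PT.lf (nat_lit 2100) (nat_lit 6) (nat_lit 25) (nat_lit 2) (nat_lit 85) (nat_lit 86) (nat_lit 18)) (PT.nd (nat_lit 94) (PT.lf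 (nat_lit 1932) (nat_lit 3) (nat_lit 23) (nat_lit 0) (nat_lit 86) (nat_lit 86) (nat_lit 17)) (PT.lf (nat_lit 1764) (nat_lit 6) (nat_lit 21) (nat_lit 0) (nat_lit 87) (nat_lit 86) (nat_lit 16))))) (PT.nd (nat_lit 52358) (PT.nd (nat_lit 94) (PT.lf (nat_lit 1512) (nat_lit 6) (nat_lit 18) (nat_lit 0) (nat_lit 88) (nat_lit 86) (nat_lit 15)) (PT.nd (nat_lit 52170) (PT.lf (nat_lit 1344) (nat_lit 6) (nat_lit 16) (nat_lit 0) (nat_lit 89) (nat_lit 86) (nat_lit 14)) (PT.lf (nat_lit 1176) (nat_lit 6) (nat_lit 14) (nat_lit 5) (nat_lit 13) (nat_lit 87) (nat_lit 89)))) (PT.nd (nat_lit 94) (PT.lf (nat_lit 1428) (nat_lit 6) (nat_lit 17) (nat_lit 5) (nat_lit 14) (nat_lit 87) (nat_lit 88)) (PT.nd (nat_lit 94) (PT.lf (nat_lit 1596) (nat_lit 3) (nat_lit 19) (nat_lit 4) (nat_lit 15) (nat_lit 87) (nat_lit 87)) (PT.lf (nat_lit 1764) (nat_lit 6) (nat_lit 21) (nat_lit 4) (nat_lit 16) (nat_lit 87) (nat_lit 86))))))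 (PT.nd (nat_lit 6486) (PT.nd (nat_lit 6204) (PT.nd (nat_lit 94) (PT.lf (nat_lit 1848) (nat_lit 6) (nat_lit 22) (nat_lit 4) (nat_lit 17) (nat_lit 87) (nat_lit 85)) (PT.nd (nat_lit 94) (PT.lf (nat_lit 2016) (nat_lit 6) (nat_lit 24) (nat_lit 4) (nat_lit 18) (nat_lit 87) (nat_lit 84)) (PT.lf (nat_lit 2184) (nat_lit 6) (nat_lit 26) (nat_lit 4) (nat_lit 19) (nat_lit 87) (nat_lit 83)))) (PT.nd (nat_lit 94) (PT.lf (nat_lit 2184) (nat_lit 6) (nat_lit 26) (nat_lit 2) (nat_lit 83) (nat_lit 87) (nat_lit 19)) (PT.nd (nat_lit 94) (PT.lf (nat_lit 2016) (nat_lit 6) (nat_lit 24) (nat_lit 2) (nat_lit 84) (nat_lit 87) (nat_lit 18)) (PT.lf (nat_lit 1848) (nat_lit 6) (nat_lit 22) (nat_lit 2) (nat_lit 85) (nat_lit 87) (nat_lit 17))))) (PT.nd (nat_lit 282) (PT.nd (nat_lit 94) (PT.lf (nat_lit 1764) (nat_lit 6) (nat_lit 21) (nat_lit 2) (nat_lit 86) (nat_lit 87) (nat_lit 16)) (PT.nd (nat_lit 94) (PT.lf (nat_lit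 1596) (nat_lit 3) (nat_lit 19) (nat_lit 0) (nat_lit 87) (nat_lit 87) (nat_lit 15)) (PT.lf (nat_lit 1428) (nat_lit 6) (nat_lit 17) (nat_lit 0) (nat_lit 88) (nat_lit 87) (nat_lit 14)))) (PT.nd (nat_lit 52076) (PT.nd (nat_lit 51982) (PT.lf (nat_lit 1176) (nat_lit 6) (nat_lit 14) (nat_lit 0) (nat_lit 89) (nat_lit 87) (nat_lit 13)) (PT.lf (nat_lit 924) (nat_lit 6) (nat_lit 11) (nat_lit 5) (nat_lit 11) (nat_lit 88) (nat_lit 90))) (PT.nd (nat_lit 94) (PT.lf (nat_lit 1092) (nat_lit 6) (nat_lit 13) (nat_lit 5) (nat_lit 12) (nat_lit 88) (nat_lit 89)) (PT.lf (nat_lit 1260) (nat_lit 3) (nat_lit 15) (nat_lit 4) (nat_lit 13) (nat_lit 88) (nat_lit 88))))))))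
noncomputable def pc31 : PT := (PT.nd (nat_lit 118346) (PT.nd (nat_lit 59126) (PT.nd (nat_lit 6956) (PT.nd (nat_lit 6674) (PT.nd (nat_lit 94) (PT.lf (nat_lit 1428) (nat_lit 6) (nat_lit 17) (nat_lit 4) (nat_lit 14) (nat_lit 88) (nat_lit 87)) (PT.nd (nat_lit 94) (PT.lf (nat_lit 1512) (nat_lit 6) (nat_lit 18) (nat_lit 4) (nat_lit 15) (nat_lit 88) (nat_lit 86)) (PT.lf (nat_lit 1680) (nat_lit 6) (nat_lit 20) (nat_lit 4) (nat_lit 16) (nat_lit 88) (nat_lit 85)))) (PT.nd (nat_lit 94) (PT.lf (nat_lit 1680) (nat_lit 6) (nat_lit 20) (nat_lit 2) (nat_lit 85) (nat_lit 88) (nat_lit 16)) (PT.nd (nat_lit 94) (PT.lf (nat_lit 1512) (nat_lit 6) (nat_lit 18) (nat_lit 2) (nat_lit 86) (nat_lit 88) (nat_lit 15)) (PT.lf (nat_lit 1428) (nat_lit 6) (nat_lit 17) (nat_lit 2) (nat_lit 87) (nat_lit 88) (nat_lit 14))))) (PT.nd (nat_lit 51888) (PT.nd (nat_lit 94) (PT.lf (nat_lit 1260) (nat_lit 3) (nat_lit 15) (nat_lit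 0) (nat_lit 88) (nat_lit 88) (nat_lit 13)) (PT.nd (nat_lit 94) (PT.lf (nat_lit 1092) (nat_lit 6) (nat_lit 13) (nat_lit 0) (nat_lit 89) (nat_lit 88) (nat_lit 12)) (PT.lf (nat_lit 924) (nat_lit 6) (nat_lit 11) (nat_lit 0) (nat_lit 90) (nat_lit 88) (nat_lit 11)))) (PT.nd (nat_lit 94) (PT.lf (nat_lit 672) (nat_lit 6) (nat_lit 8) (nat_lit 5) (nat_lit 9) (nat_lit 89) (nat_lit 91)) (PT.nd (nat_lit 94) (PT.lf (nat_lit 840) (nat_lit 6) (nat_lit 10) (nat_lit 5) (nat_lit 10) (nat_lit 89) (nat_lit 90)) (PT.lf (nat_lit 1008) (nat_lit 3) (nat_lit 12) (nat_lit 4) (nat_lit 11) (nat_lit 89) (nat_lit 89)))))) (PT.nd (nat_lit 7238) (PT.nd (nat_lit 6956) (PT.nd (nat_lit 94) (PT.lf (nat_lit 1092) (nat_lit 6) (nat_lit 13) (nat_lit 4) (nat_lit 12) (nat_lit 89) (nat_lit 88)) (PT.nd (nat_lit 94) (PT.lf (nat_lit 1176) (nat_lit 6) (nat_lit 14) (nat_lit 4) (nat_lit 13) (nat_lit 89) (nat_lit 87)) (PT.lf (nat_lit 1344)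 (nat_lit 6) (nat_lit 16) (nat_lit 4) (nat_lit 14) (nat_lit 89) (nat_lit 86)))) (PT.nd (nat_lit 94) (PT.lf (nat_lit 1344) (nat_lit 6) (nat_lit 16) (nat_lit 2) (nat_lit 86) (nat_lit 89) (nat_lit 14)) (PT.nd (nat_lit 94) (PT.lf (nat_lit 1176) (nat_lit 6) (nat_lit 14) (nat_lit 2) (nat_lit 87) (nat_lit 89) (nat_lit 13)) (PT.lf (nat_lit 1092) (nat_lit 6) (nat_lit 13) (nat_lit 2) (nat_lit 88) (nat_lit 89) (nat_lit 12))))) (PT.nd (nat_lit 51606) (PT.nd (nat_lit 94) (PT.lf (nat_lit 1008) (nat_lit 3) (nat_lit 12) (nat_lit 0) (nat_lit 89) (nat_lit 89) (nat_lit 11)) (PT.nd (nat_lit 94) (PT.lf (nat_lit 840) (nat_lit 6) (nat_lit 10) (nat_lit 0) (nat_lit 90) (nat_lit 89) (nat_lit 10)) (PT.lf (nat_lit 672) (nat_lit 6) (nat_lit 8) (nat_lit 0) (nat_lit 91) (nat_lit 89) (nat_lit 9)))) (PT.nd (nat_lit 188) (PT.nd (nat_lit 94) (PT.lf (nat_lit 420) (nat_lit 6) (nat_lit 5) (nat_lit 5) (nat_lit 7) (nat_lit 90)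 (nat_lit 92)) (PT.lf (nat_lit 588) (nat_lit 6) (nat_lit 7) (nat_lit 5) (nat_lit 8) (nat_lit 90) (nat_lit 91))) (PT.nd (nat_lit 94) (PT.lf (nat_lit 756) (nat_lit 3) (nat_lit 9) (nat_lit 4) (nat_lit 9) (nat_lit 90) (nat_lit 90)) (PT.lf (nat_lit 840) (nat_lit 6) (nat_lit 10) (nat_lit 4) (nat_lit 10) (nat_lit 90) (nat_lit 89))))))) (PT.nd (nat_lit 66928) (PT.nd (nat_lit 58844) (PT.nd (nat_lit 7426) (PT.nd (nat_lit 7238) (PT.lf (nat_lit 924) (nat_lit 6) (nat_lit 11) (nat_lit 4) (nat_lit 11) (nat_lit 90) (nat_lit 88)) (PT.nd (nat_lit 94) (PT.lf (nat_lit 924) (nat_lit 6) (nat_lit 11) (nat_lit 2) (nat_lit 88) (nat_lit 90) (nat_lit 11)) (PT.lf (nat_lit 840) (nat_lit 6) (nat_lit 10) (nat_lit 2) (nat_lit 89) (nat_lit 90) (nat_lit 10)))) (PT.nd (nat_lit 94) (PT.lf (nat_lit 756) (nat_lit 3) (nat_lit 9) (nat_lit 0) (nat_lit 90) (nat_lit 90) (nat_lit 9)) (PT.nd (nat_lit 94) (PT.lf (nat_lit 588) (nat_lit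 6) (nat_lit 7) (nat_lit 0) (nat_lit 91) (nat_lit 90) (nat_lit 8)) (PT.lf (nat_lit 420) (nat_lit 6) (nat_lit 5) (nat_lit 0) (nat_lit 92) (nat_lit 90) (nat_lit 7))))) (PT.nd (nat_lit 282) (PT.nd (nat_lit 94) (PT.lf (nat_lit 336) (nat_lit 6) (nat_lit 4) (nat_lit 5) (nat_lit 6) (nat_lit 91) (nat_lit 92)) (PT.nd (nat_lit 94) (PT.lf (nat_lit 504) (nat_lit 3) (nat_lit 6) (nat_lit 4) (nat_lit 7) (nat_lit 91) (nat_lit 91)) (PT.lf (nat_lit 588) (nat_lit 6) (nat_lit 7) (nat_lit 4) (nat_lit 8) (nat_lit 91) (nat_lit 90)))) (PT.nd (nat_lit 7614) (PT.nd (nat_lit 7520) (PT.lf (nat_lit 672) (nat_lit 6) (nat_lit 8) (nat_lit 4) (nat_lit 9) (nat_lit 91) (nat_lit 89)) (PT.lf (nat_lit 672) (nat_lit 6) (nat_lit 8) (nat_lit 2) (nat_lit 89) (nat_lit 91) (nat_lit 9))) (PT.nd (nat_lit 94) (PT.lf (nat_lit 588) (nat_lit 6) (nat_lit 7) (nat_lit 2) (nat_lit 90) (nat_lit 91) (nat_lit 8)) (PT.lf (nat_lit 504) (nat_lit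 3) (nat_lit 6) (nat_lit 0) (nat_lit 91) (nat_lit 91) (nat_lit 7)))))) (PT.nd (nat_lit 59220) (PT.nd (nat_lit 51230) (PT.nd (nat_lit 51042) (PT.lf (nat_lit 336) (nat_lit 6) (nat_lit 4) (nat_lit 0) (nat_lit 92) (nat_lit 91) (nat_lit 6)) (PT.nd (nat_lit 94) (PT.lf (nat_lit 168) (nat_lit 6) (nat_lit 2) (nat_lit 5) (nat_lit 4) (nat_lit 92) (nat_lit 93)) (PT.lf (nat_lit 252) (nat_lit 3) (nat_lit 3) (nat_lit 4) (nat_lit 5) (nat_lit 92) (nat_lit 92)))) (PT.nd (nat_lit 94) (PT.lf (nat_lit 336) (nat_lit 6) (nat_lit 4) (nat_lit 4) (nat_lit 6) (nat_lit 92) (nat_lit 91)) (PT.nd (nat_lit 7802) (PT.lf (nat_lit 420) (nat_lit 6) (nat_lit 5) (nat_lit 4) (nat_lit 7) (nat_lit 92) (nat_lit 90)) (PT.lf (nat_lit 420) (nat_lit 6) (nat_lit 5) (nat_lit 2) (nat_lit 90) (nat_lit 92) (nat_lit 7))))) (PT.nd (nat_lit 51042) (PT.nd (nat_lit 94) (PT.lf (nat_lit 336) (nat_lit 6) (nat_lit 4) (nat_lit 2) (nat_lit 91) (nat_lit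 92) (nat_lit 6)) (PT.nd (nat_lit 94) (PT.lf (nat_lit 252) (nat_lit 3) (nat_lit 3) (nat_lit 0) (nat_lit 92) (nat_lit 92) (nat_lit 5)) (PT.lf (nat_lit 168) (nat_lit 6) (nat_lit 2) (nat_lit 0) (nat_lit 93) (nat_lit 92) (nat_lit 4)))) (PT.nd (nat_lit 8366) (PT.nd (nat_lit 94) (PT.lf (nat_lit 84) (nat_lit 3) (nat_lit 1) (nat_lit 4) (nat_lit 3) (nat_lit 93) (nat_lit 93)) (PT.lf (nat_lit 168) (nat_lit 6) (nat_lit 2) (nat_lit 4) (nat_lit 4) (nat_lit 93) (nat_lit 92))) (PT.nd (nat_lit 94) (PT.lf (nat_lit 168) (nat_lit 6) (nat_lit 2) (nat_lit 2) (nat_lit 92) (nat_lit 93) (nat_lit 4)) (PT.lf (nat_lit 84) (nat_lit 3) (nat_lit 1) (nat_lit 0) (nat_lit 93) (nat_lit 93) (nat_lit 3))))))))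
noncomputable def xc0 : XT := (XT.nd (nat_lit 237162) (nat_lit 0) (nat_lit 0) (XT.nd (nat_lit 177472) (nat_lit 0) (nat_lit 0) (XT.nd (nat_lit 118252) (nat_lit 0) (nat_lit 0) (XT.nd (nat_lit 59220) (nat_lit 0) (nat_lit 0) (XT.nd (nat_lit 94) (nat_lit 0) (nat_lit 0) (XT.lf (nat_lit 0) (nat_lit 9203822019) (nat_lit 84) (nat_lit 10991070665) (nat_lit 84) (nat_lit 10991070665) (nat_lit 3) (nat_lit 4) (nat_lit 4) (nat_lit 5) (nat_lit 4) (nat_lit 4) (nat_lit 445) (nat_lit 250) (nat_lit 250)) (XT.nd (nat_lit 59032) (nat_lit 0) (nat_lit 0) (XT.lf (nat_lit 0) (nat_lit 23727149854) (nat_lit 84) (nat_lit 20307577118) (nat_lit 84) (nat_lit 20128536777) (nat_lit 3) (nat_lit 4) (nat_lit 4) (nat_lit 5) (nat_lit 4) (nat_lit 4) (nat_lit 446) (nat_lit 250) (nat_lit 249)) (XT.lf (nat_lit 0) (nat_lit 4000323197) (nat_lit 84) (nat_lit 12736858355) (nat_lit 84) (nat_lit 12736858355) (nat_lit 3) (nat_lit 4) (nat_lit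 4) (nat_lit 5) (nat_lit 4) (nat_lit 4) (nat_lit 443) (nat_lit 251) (nat_lit 251)))) (XT.nd (nat_lit 94) (nat_lit 0) (nat_lit 0) (XT.lf (nat_lit 0) (nat_lit 13150960576) (nat_lit 84) (nat_lit 23833878905) (nat_lit 84) (nat_lit 23649467354) (nat_lit 3) (nat_lit 4) (nat_lit 4) (nat_lit 5) (nat_lit 4) (nat_lit 4) (nat_lit 444) (nat_lit 251) (nat_lit 250)) (XT.nd (nat_lit 94) (nat_lit 0) (nat_lit 0) (XT.lf (nat_lit 0) (nat_lit 18360906033) (nat_lit 84) (nat_lit 22187627557) (nat_lit 84) (nat_lit 21824175665) (nat_lit 3) (nat_lit 4) (nat_lit 4) (nat_lit 5) (nat_lit 4) (nat_lit 4) (nat_lit 445) (nat_lit 251) (nat_lit 249)) (XT.lf (nat_lit 0) (nat_lit 23635035145) (nat_lit 84) (nat_lit 20533524194) (nat_lit 84) (nat_lit 19996246729) (nat_lit 3) (nat_lit 4) (nat_lit 4) (nat_lit 5) (nat_lit 4) (nat_lit 4) (nat_lit 446) (nat_lit 251) (nat_lit 248))))) (XT.nd (nat_lit 282) (nat_lit 0) (nat_lit 0)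 (XT.nd (nat_lit 94) (nat_lit 84) (nat_lit 0) (XT.lf (nat_lit 0) (nat_lit 13419046502) (nat_lit 168) (nat_lit 1024341945) (nat_lit 0) (nat_lit 13419046502) (nat_lit 4) (nat_lit 5) (nat_lit 6) (nat_lit 4) (nat_lit 4) (nat_lit 4) (nat_lit 441) (nat_lit 252) (nat_lit 252)) (XT.nd (nat_lit 94) (nat_lit 0) (nat_lit 0) (XT.lf (nat_lit 0) (nat_lit 2905463214) (nat_lit 84) (nat_lit 27298517738) (nat_lit 84) (nat_lit 27108573840) (nat_lit 3) (nat_lit 4) (nat_lit 4) (nat_lit 5) (nat_lit 4) (nat_lit 4) (nat_lit 442) (nat_lit 252) (nat_lit 251)) (XT.lf (nat_lit 0) (nat_lit 7952506250) (nat_lit 84) (nat_lit 25685367523) (nat_lit 84) (nat_lit 25311012075) (nat_lit 3) (nat_lit 4) (nat_lit 4) (nat_lit 5) (nat_lit 4) (nat_lit 4) (nat_lit 443) (nat_lit 252) (nat_lit 250)))) (XT.nd (nat_lit 188) (nat_lit 0) (nat_lit 0) (XT.nd (nat_lit 94) (nat_lit 0) (nat_lit 0) (XT.lf (nat_lit 0) (nat_lit 13056082426) (nat_lit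 84) (nat_lit 24066604394) (nat_lit 84) (nat_lit 23513208604) (nat_lit 3) (nat_lit 4) (nat_lit 4) (nat_lit 5) (nat_lit 4) (nat_lit 4) (nat_lit 444) (nat_lit 252) (nat_lit 249)) (XT.lf (nat_lit 0) (nat_lit 18220651180) (nat_lit 84) (nat_lit 22440813896) (nat_lit 84) (nat_lit 21713592533) (nat_lit 3) (nat_lit 4) (nat_lit 4) (nat_lit 5) (nat_lit 4) (nat_lit 4) (nat_lit 445) (nat_lit 252) (nat_lit 248))) (XT.nd (nat_lit 58656) (nat_lit 0) (nat_lit 84) (XT.lf (nat_lit 0) (nat_lit 23450725240) (nat_lit 84) (nat_lit 20806575436) (nat_lit 84) (nat_lit 19910591380) (nat_lit 3) (nat_lit 4) (nat_lit 4) (nat_lit 5) (nat_lit 4) (nat_lit 4) (nat_lit 446) (nat_lit 252) (nat_lit 247)) (XT.lf (nat_lit 0) (nat_lit 10257998954) (nat_lit 168) (nat_lit 5828634559) (nat_lit 0) (nat_lit 10257998954) (nat_lit 4) (nat_lit 5) (nat_lit 6) (nat_lit 4) (nat_lit 4) (nat_lit 4) (nat_lit 439) (nat_lit 253) (nat_lit 253))))))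 (XT.nd (nat_lit 59032) (nat_lit 0) (nat_lit 0) (XT.nd (nat_lit 282) (nat_lit 0) (nat_lit 0) (XT.nd (nat_lit 94) (nat_lit 84) (nat_lit 0) (XT.lf (nat_lit 0) (nat_lit 23740278396) (nat_lit 168) (nat_lit 6899308275) (nat_lit 0) (nat_lit 23544636182) (nat_lit 4) (nat_lit 5) (nat_lit 6) (nat_lit 4) (nat_lit 4) (nat_lit 4) (nat_lit 440) (nat_lit 253) (nat_lit 252)) (XT.nd (nat_lit 94) (nat_lit 84) (nat_lit 0) (XT.lf (nat_lit 0) (nat_lit 27006985628) (nat_lit 168) (nat_lit 2097300670) (nat_lit 0) (nat_lit 26621399516) (nat_lit 4) (nat_lit 5) (nat_lit 6) (nat_lit 4) (nat_lit 4) (nat_lit 4) (nat_lit 441) (nat_lit 253) (nat_lit 251)) (XT.lf (nat_lit 0) (nat_lit 2807738720) (nat_lit 84) (nat_lit 27538224991) (nat_lit 84) (nat_lit 26968227328) (nat_lit 3) (nat_lit 4) (nat_lit 4) (nat_lit 5) (nat_lit 4) (nat_lit 4) (nat_lit 442) (nat_lit 253) (nat_lit 250)))) (XT.nd (nat_lit 188) (nat_lit 0) (nat_lit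 0) (XT.nd (nat_lit 94) (nat_lit 0) (nat_lit 0) (XT.lf (nat_lit 0) (nat_lit 7808043750) (nat_lit 84) (nat_lit 25946149453) (nat_lit 84) (nat_lit 25197111448) (nat_lit 3) (nat_lit 4) (nat_lit 4) (nat_lit 5) (nat_lit 4) (nat_lit 4) (nat_lit 443) (nat_lit 253) (nat_lit 249)) (XT.lf (nat_lit 0) (nat_lit 12866243223) (nat_lit 84) (nat_lit 24347847173) (nat_lit 84) (nat_lit 23424983595) (nat_lit 3) (nat_lit 4) (nat_lit 4) (nat_lit 5) (nat_lit 4) (nat_lit 4) (nat_lit 444) (nat_lit 253) (nat_lit 248))) (XT.nd (nat_lit 94) (nat_lit 0) (nat_lit 0) (XT.lf (nat_lit 0) (nat_lit 17986756924) (nat_lit 84) (nat_lit 22741921578) (nat_lit 84) (nat_lit 21650295307) (nat_lit 3) (nat_lit 4) (nat_lit 4) (nat_lit 5) (nat_lit 4) (nat_lit 4) (nat_lit 445) (nat_lit 253) (nat_lit 247)) (XT.lf (nat_lit 0) (nat_lit 23174059089) (nat_lit 84) (nat_lit 21126969432) (nat_lit 84) (nat_lit 19871495886) (nat_lit 3) (nat_lit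 4) (nat_lit 4) (nat_lit 5) (nat_lit 4) (nat_lit 4) (nat_lit 446) (nat_lit 253) (nat_lit 246))))) (XT.nd (nat_lit 282) (nat_lit 84) (nat_lit 0) (XT.nd (nat_lit 94) (nat_lit 0) (nat_lit 0) (XT.lf (nat_lit 0) (nat_lit 7206686286) (nat_lit 168) (nat_lit 10503033944) (nat_lit 0) (nat_lit 7206686286) (nat_lit 4) (nat_lit 5) (nat_lit 6) (nat_lit 4) (nat_lit 4) (nat_lit 4) (nat_lit 437) (nat_lit 254) (nat_lit 254)) (XT.nd (nat_lit 94) (nat_lit 0) (nat_lit 0) (XT.lf (nat_lit 0) (nat_lit 17532838315) (nat_lit 168) (nat_lit 16375340642) (nat_lit 0) (nat_lit 17331326834) (nat_lit 4) (nat_lit 5) (nat_lit 6) (nat_lit 4) (nat_lit 4) (nat_lit 4) (nat_lit 438) (nat_lit 254) (nat_lit 253)) (XT.lf (nat_lit 0) (nat_lit 20689957311) (nat_lit 168) (nat_lit 11707344402) (nat_lit 0) (nat_lit 20292803616) (nat_lit 4) (nat_lit 5) (nat_lit 6) (nat_lit 4) (nat_lit 4) (nat_lit 4) (nat_lit 439) (nat_lit 254) (nat_lit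 252)))) (XT.nd (nat_lit 188) (nat_lit 84) (nat_lit 0) (XT.nd (nat_lit 94) (nat_lit 0) (nat_lit 0) (XT.lf (nat_lit 0) (nat_lit 23887488208) (nat_lit 168) (nat_lit 6998000339) (nat_lit 0) (nat_lit 23300390614) (nat_lit 4) (nat_lit 5) (nat_lit 6) (nat_lit 4) (nat_lit 4) (nat_lit 4) (nat_lit 440) (nat_lit 254) (nat_lit 251)) (XT.lf (nat_lit 0) (nat_lit 27128224963) (nat_lit 168) (nat_lit 2243193491) (nat_lit 0) (nat_lit 26356715818) (nat_lit 4) (nat_lit 5) (nat_lit 6) (nat_lit 4) (nat_lit 4) (nat_lit 4) (nat_lit 441) (nat_lit 254) (nat_lit 250))) (XT.nd (nat_lit 94) (nat_lit 0) (nat_lit 0) (XT.lf (nat_lit 0) (nat_lit 2612204341) (nat_lit 84) (nat_lit 27827905054) (nat_lit 84) (nat_lit 26877355568) (nat_lit 3) (nat_lit 4) (nat_lit 4) (nat_lit 5) (nat_lit 4) (nat_lit 4) (nat_lit 442) (nat_lit 254) (nat_lit 249)) (XT.lf (nat_lit 0) (nat_lit 7567132668) (nat_lit 84) (nat_lit 26256290365) (nat_lit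 84) (nat_lit 25131915306) (nat_lit 3) (nat_lit 4) (nat_lit 4) (nat_lit 5) (nat_lit 4) (nat_lit 4) (nat_lit 443) (nat_lit 254) (nat_lit 248))))))) (XT.nd (nat_lit 59502) (nat_lit 0) (nat_lit 0) (XT.nd (nat_lit 58844) (nat_lit 0) (nat_lit 0) (XT.nd (nat_lit 58468) (nat_lit 0) (nat_lit 84) (XT.nd (nat_lit 94) (nat_lit 0) (nat_lit 0) (XT.lf (nat_lit 0) (nat_lit 12581277088) (nat_lit 84) (nat_lit 24677852989) (nat_lit 84) (nat_lit 23384715236) (nat_lit 3) (nat_lit 4) (nat_lit 4) (nat_lit 5) (nat_lit 4) (nat_lit 4) (nat_lit 444) (nat_lit 254) (nat_lit 247)) (XT.nd (nat_lit 94) (nat_lit 0) (nat_lit 0) (XT.lf (nat_lit 0) (nat_lit 17659018894) (nat_lit 84) (nat_lit 23091213707) (nat_lit 84) (nat_lit 21634228680) (nat_lit 3) (nat_lit 4) (nat_lit 4) (nat_lit 5) (nat_lit 4) (nat_lit 4) (nat_lit 445) (nat_lit 254) (nat_lit 246)) (XT.lf (nat_lit 0) (nat_lit 22804794947) (nat_lit 84) (nat_lit 21494986137)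 (nat_lit 84) (nat_lit 19878926086) (nat_lit 3) (nat_lit 4) (nat_lit 4) (nat_lit 5) (nat_lit 4) (nat_lit 4) (nat_lit 446) (nat_lit 254) (nat_lit 245)))) (XT.nd (nat_lit 188) (nat_lit 0) (nat_lit 0) (XT.nd (nat_lit 94) (nat_lit 0) (nat_lit 0) (XT.lf (nat_lit 0) (nat_lit 4256657600) (nat_lit 168) (nat_lit 15059373288) (nat_lit 0) (nat_lit 4256657600) (nat_lit 4) (nat_lit 5) (nat_lit 6) (nat_lit 4) (nat_lit 4) (nat_lit 4) (nat_lit 435) (nat_lit 255) (nat_lit 255)) (XT.lf (nat_lit 0) (nat_lit 11536391160) (nat_lit 168) (nat_lit 25603572412) (nat_lit 0) (nat_lit 11328834334) (nat_lit 4) (nat_lit 5) (nat_lit 6) (nat_lit 4) (nat_lit 4) (nat_lit 4) (nat_lit 436) (nat_lit 255) (nat_lit 254))) (XT.nd (nat_lit 94) (nat_lit 0) (nat_lit 0) (XT.lf (nat_lit 0) (nat_lit 14592550756) (nat_lit 168) (nat_lit 21057645431) (nat_lit 0) (nat_lit 14183482450) (nat_lit 4) (nat_lit 5) (nat_lit 6) (nat_lit 4) (nat_lit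 4) (nat_lit 4) (nat_lit 437) (nat_lit 255) (nat_lit 253)) (XT.lf (nat_lit 0) (nat_lit 17684464421) (nat_lit 168) (nat_lit 16476993467) (nat_lit 0) (nat_lit 17079753900) (nat_lit 4) (nat_lit 5) (nat_lit 6) (nat_lit 4) (nat_lit 4) (nat_lit 4) (nat_lit 438) (nat_lit 255) (nat_lit 252))))) (XT.nd (nat_lit 282) (nat_lit 84) (nat_lit 0) (XT.nd (nat_lit 94) (nat_lit 0) (nat_lit 0) (XT.lf (nat_lit 0) (nat_lit 20814833826) (nat_lit 168) (nat_lit 11857614008) (nat_lit 0) (nat_lit 20020179407) (nat_lit 4) (nat_lit 5) (nat_lit 6) (nat_lit 4) (nat_lit 4) (nat_lit 4) (nat_lit 439) (nat_lit 255) (nat_lit 251)) (XT.nd (nat_lit 94) (nat_lit 0) (nat_lit 0) (XT.lf (nat_lit 0) (nat_lit 23986394245) (nat_lit 168) (nat_lit 7195470702) (nat_lit 0) (nat_lit 23007328275) (nat_lit 4) (nat_lit 5) (nat_lit 6) (nat_lit 4) (nat_lit 4) (nat_lit 4) (nat_lit 440) (nat_lit 255) (nat_lit 250)) (XT.lf (nat_lit 0) (nat_lit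 27201916946) (nat_lit 168) (nat_lit 2486489832) (nat_lit 0) (nat_lit 26043810635) (nat_lit 4) (nat_lit 5) (nat_lit 6) (nat_lit 4) (nat_lit 4) (nat_lit 4) (nat_lit 441) (nat_lit 255) (nat_lit 249)))) (XT.nd (nat_lit 188) (nat_lit 0) (nat_lit 0) (XT.nd (nat_lit 94) (nat_lit 0) (nat_lit 0) (XT.lf (nat_lit 0) (nat_lit 2318689222) (nat_lit 84) (nat_lit 28167811044) (nat_lit 84) (nat_lit 26835879159) (nat_lit 3) (nat_lit 4) (nat_lit 4) (nat_lit 5) (nat_lit 4) (nat_lit 4) (nat_lit 442) (nat_lit 255) (nat_lit 248)) (XT.lf (nat_lit 0) (nat_lit 7229562496) (nat_lit 84) (nat_lit 26616061258) (nat_lit 84) (nat_lit 25115366680) (nat_lit 3) (nat_lit 4) (nat_lit 4) (nat_lit 5) (nat_lit 4) (nat_lit 4) (nat_lit 443) (nat_lit 255) (nat_lit 247))) (XT.nd (nat_lit 94) (nat_lit 0) (nat_lit 0) (XT.lf (nat_lit 0) (nat_lit 12200935022) (nat_lit 84) (nat_lit 25056910195) (nat_lit 84) (nat_lit 23392368343) (nat_lit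 3) (nat_lit 4) (nat_lit 4) (nat_lit 5) (nat_lit 4) (nat_lit 4) (nat_lit 444) (nat_lit 255) (nat_lit 246)) (XT.lf (nat_lit 0) (nat_lit 17237150716) (nat_lit 84) (nat_lit 23488995490) (nat_lit 84) (nat_lit 21665378613) (nat_lit 3) (nat_lit 4) (nat_lit 4) (nat_lit 5) (nat_lit 4) (nat_lit 4) (nat_lit 445) (nat_lit 255) (nat_lit 245)))))) (XT.nd (nat_lit 58656) (nat_lit 0) (nat_lit 0) (XT.nd (nat_lit 58280) (nat_lit 0) (nat_lit 84) (XT.nd (nat_lit 58092) (nat_lit 0) (nat_lit 84) (XT.lf (nat_lit 0) (nat_lit 22342610155) (nat_lit 84) (nat_lit 21910947120) (nat_lit 84) (nat_lit 19932888473) (nat_lit 3) (nat_lit 4) (nat_lit 4) (nat_lit 5) (nat_lit 4) (nat_lit 4) (nat_lit 446) (nat_lit 255) (nat_lit 244)) (XT.nd (nat_lit 94) (nat_lit 0) (nat_lit 0) (XT.lf (nat_lit 0) (nat_lit 1399882567) (nat_lit 168) (nat_lit 19508937808) (nat_lit 0) (nat_lit 1399882567) (nat_lit 4) (nat_lit 5) (nat_lit 6) (nat_lit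 4) (nat_lit 4) (nat_lit 4) (nat_lit 433) (nat_lit 256) (nat_lit 256)) (XT.lf (nat_lit 0) (nat_lit 5734464886) (nat_lit 168) (nat_lit 34607113226) (nat_lit 0) (nat_lit 5520681356) (nat_lit 4) (nat_lit 5) (nat_lit 6) (nat_lit 4) (nat_lit 4) (nat_lit 4) (nat_lit 434) (nat_lit 256) (nat_lit 255)))) (XT.nd (nat_lit 188) (nat_lit 0) (nat_lit 0) (XT.nd (nat_lit 94) (nat_lit 0) (nat_lit 0) (XT.lf (nat_lit 0) (nat_lit 8697868730) (nat_lit 168) (nat_lit 30171871445) (nat_lit 0) (nat_lit 8276528375) (nat_lit 4) (nat_lit 5) (nat_lit 6) (nat_lit 4) (nat_lit 4) (nat_lit 4) (nat_lit 435) (nat_lit 256) (nat_lit 254)) (XT.lf (nat_lit 0) (nat_lit 11692566049) (nat_lit 168) (nat_lit 25708274822) (nat_lit 0) (nat_lit 11069714212) (nat_lit 4) (nat_lit 5) (nat_lit 6) (nat_lit 4) (nat_lit 4) (nat_lit 4) (nat_lit 436) (nat_lit 256) (nat_lit 253))) (XT.nd (nat_lit 94) (nat_lit 0) (nat_lit 0) (XT.lf (nat_lit 0)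 (nat_lit 14721173567) (nat_lit 168) (nat_lit 21212423125) (nat_lit 0) (nat_lit 13902679515) (nat_lit 4) (nat_lit 5) (nat_lit 6) (nat_lit 4) (nat_lit 4) (nat_lit 4) (nat_lit 437) (nat_lit 256) (nat_lit 252)) (XT.lf (nat_lit 0) (nat_lit 17786337640) (nat_lit 168) (nat_lit 16680387941) (nat_lit 0) (nat_lit 16777899691) (nat_lit 4) (nat_lit 5) (nat_lit 6) (nat_lit 4) (nat_lit 4) (nat_lit 4) (nat_lit 438) (nat_lit 256) (nat_lit 251))))) (XT.nd (nat_lit 282) (nat_lit 84) (nat_lit 0) (XT.nd (nat_lit 94) (nat_lit 0) (nat_lit 0) (XT.lf (nat_lit 0) (nat_lit 20890736568) (nat_lit 168) (nat_lit 12108209239) (nat_lit 0) (nat_lit 19697887068) (nat_lit 4) (nat_lit 5) (nat_lit 6) (nat_lit 4) (nat_lit 4) (nat_lit 4) (nat_lit 439) (nat_lit 256) (nat_lit 250)) (XT.nd (nat_lit 94) (nat_lit 0) (nat_lit 0) (XT.lf (nat_lit 0) (nat_lit 24037082933) (nat_lit 168) (nat_lit 7491891911) (nat_lit 0) (nat_lit 22665193092)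 (nat_lit 4) (nat_lit 5) (nat_lit 6) (nat_lit 4) (nat_lit 4) (nat_lit 4) (nat_lit 440) (nat_lit 256) (nat_lit 249)) (XT.lf (nat_lit 0) (nat_lit 27228125968) (nat_lit 168) (nat_lit 2827402282) (nat_lit 0) (nat_lit 25682410553) (nat_lit 4) (nat_lit 5) (nat_lit 6) (nat_lit 4) (nat_lit 4) (nat_lit 4) (nat_lit 441) (nat_lit 256) (nat_lit 248)))) (XT.nd (nat_lit 188) (nat_lit 0) (nat_lit 0) (XT.nd (nat_lit 94) (nat_lit 0) (nat_lit 0) (XT.lf (nat_lit 0) (nat_lit 1926936893) (nat_lit 84) (nat_lit 28558239966) (nat_lit 84) (nat_lit 26843761858) (nat_lit 3) (nat_lit 4) (nat_lit 4) (nat_lit 5) (nat_lit 4) (nat_lit 4) (nat_lit 442) (nat_lit 256) (nat_lit 247)) (XT.lf (nat_lit 0) (nat_lit 6795038273) (nat_lit 84) (nat_lit 27025776494) (nat_lit 84) (nat_lit 25147451111) (nat_lit 3) (nat_lit 4) (nat_lit 4) (nat_lit 5) (nat_lit 4) (nat_lit 4) (nat_lit 443) (nat_lit 256) (nat_lit 246))) (XT.nd (nat_lit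 94) (nat_lit 0) (nat_lit 0) (XT.lf (nat_lit 0) (nat_lit 11724884686) (nat_lit 84) (nat_lit 25485350007) (nat_lit 84) (nat_lit 23447949601) (nat_lit 3) (nat_lit 4) (nat_lit 4) (nat_lit 5) (nat_lit 4) (nat_lit 4) (nat_lit 444) (nat_lit 256) (nat_lit 245)) (XT.lf (nat_lit 0) (nat_lit 16720783766) (nat_lit 84) (nat_lit 23935614502) (nat_lit 84) (nat_lit 21743772325) (nat_lit 3) (nat_lit 4) (nat_lit 4) (nat_lit 5) (nat_lit 4) (nat_lit 4) (nat_lit 445) (nat_lit 256) (nat_lit 244))))))))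
noncomputable def xc1 : XT := (XT.nd (nat_lit 117970) (nat_lit 0) (nat_lit 0) (XT.nd (nat_lit 59032) (nat_lit 0) (nat_lit 0) (XT.nd (nat_lit 58374) (nat_lit 0) (nat_lit 0) (XT.nd (nat_lit 58092) (nat_lit 0) (nat_lit 84) (XT.nd (nat_lit 57904) (nat_lit 0) (nat_lit 84) (XT.lf (nat_lit 0) (nat_lit 21787100862) (nat_lit 84) (nat_lit 22375215841) (nat_lit 84) (nat_lit 20033430197) (nat_lit 3) (nat_lit 4) (nat_lit 4) (nat_lit 5) (nat_lit 4) (nat_lit 4) (nat_lit 446) (nat_lit 256) (nat_lit 243)) (XT.nd (nat_lit 94) (nat_lit 168) (nat_lit 0) (XT.lf (nat_lit 0) (nat_lit 18402699487) (nat_lit 84) (nat_lit 1357830787) (nat_lit 84) (nat_lit 1357830787) (nat_lit 6) (nat_lit 4) (nat_lit 7) (nat_lit 5) (nat_lit 7) (nat_lit 4) (nat_lit 431) (nat_lit 257) (nat_lit 257)) (XT.lf (nat_lit 0) (nat_lit 1508767) (nat_lit 84) (nat_lit 110960057) (nat_lit 168) (nat_lit 43298119242) (nat_lit 4) (nat_lit 5) (nat_lit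 5) (nat_lit 5) (nat_lit 6) (nat_lit 4) (nat_lit 432) (nat_lit 257) (nat_lit 256)))) (XT.nd (nat_lit 94) (nat_lit 0) (nat_lit 0) (XT.lf (nat_lit 0) (nat_lit 2989855269) (nat_lit 168) (nat_lit 39072594231) (nat_lit 0) (nat_lit 2555874703) (nat_lit 4) (nat_lit 5) (nat_lit 6) (nat_lit 4) (nat_lit 4) (nat_lit 4) (nat_lit 433) (nat_lit 257) (nat_lit 255)) (XT.nd (nat_lit 94) (nat_lit 0) (nat_lit 0) (XT.lf (nat_lit 0) (nat_lit 5895325022) (nat_lit 168) (nat_lit 34714956708) (nat_lit 0) (nat_lit 5253787630) (nat_lit 4) (nat_lit 5) (nat_lit 6) (nat_lit 4) (nat_lit 4) (nat_lit 4) (nat_lit 434) (nat_lit 257) (nat_lit 254)) (XT.lf (nat_lit 0) (nat_lit 8830350225) (nat_lit 168) (nat_lit 30331292470) (nat_lit 0) (nat_lit 7987301352) (nat_lit 4) (nat_lit 5) (nat_lit 6) (nat_lit 4) (nat_lit 4) (nat_lit 4) (nat_lit 435) (nat_lit 257) (nat_lit 253))))) (XT.nd (nat_lit 282) (nat_lit 84) (nat_lit 0) (XT.nd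 (nat_lit 94) (nat_lit 0) (nat_lit 0) (XT.lf (nat_lit 0) (nat_lit 11797495464) (nat_lit 168) (nat_lit 25917771130) (nat_lit 0) (nat_lit 10758804377) (nat_lit 4) (nat_lit 5) (nat_lit 6) (nat_lit 4) (nat_lit 4) (nat_lit 4) (nat_lit 436) (nat_lit 257) (nat_lit 252)) (XT.nd (nat_lit 94) (nat_lit 0) (nat_lit 0) (XT.lf (nat_lit 0) (nat_lit 14799353391) (nat_lit 168) (nat_lit 21470536213) (nat_lit 0) (nat_lit 13570718406) (nat_lit 4) (nat_lit 5) (nat_lit 6) (nat_lit 4) (nat_lit 4) (nat_lit 4) (nat_lit 437) (nat_lit 257) (nat_lit 251)) (XT.lf (nat_lit 0) (nat_lit 17838546988) (nat_lit 168) (nat_lit 16985701787) (nat_lit 0) (nat_lit 16425500452) (nat_lit 4) (nat_lit 5) (nat_lit 6) (nat_lit 4) (nat_lit 4) (nat_lit 4) (nat_lit 438) (nat_lit 257) (nat_lit 250)))) (XT.nd (nat_lit 188) (nat_lit 84) (nat_lit 0) (XT.nd (nat_lit 94) (nat_lit 0) (nat_lit 0) (XT.lf (nat_lit 0) (nat_lit 20917731861) (nat_lit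 168) (nat_lit 12459349062) (nat_lit 0) (nat_lit 19325644984) (nat_lit 4) (nat_lit 5) (nat_lit 6) (nat_lit 4) (nat_lit 4) (nat_lit 4) (nat_lit 439) (nat_lit 257) (nat_lit 249)) (XT.lf (nat_lit 0) (nat_lit 24039598561) (nat_lit 168) (nat_lit 7887522976) (nat_lit 0) (nat_lit 22273686109) (nat_lit 4) (nat_lit 5) (nat_lit 6) (nat_lit 4) (nat_lit 4) (nat_lit 4) (nat_lit 440) (nat_lit 257) (nat_lit 248))) (XT.nd (nat_lit 94) (nat_lit 84) (nat_lit 0) (XT.lf (nat_lit 0) (nat_lit 27206874931) (nat_lit 168) (nat_lit 3266228726) (nat_lit 0) (nat_lit 25272199787) (nat_lit 4) (nat_lit 5) (nat_lit 6) (nat_lit 4) (nat_lit 4) (nat_lit 4) (nat_lit 441) (nat_lit 257) (nat_lit 247)) (XT.lf (nat_lit 0) (nat_lit 1436605047) (nat_lit 84) (nat_lit 28999532973) (nat_lit 84) (nat_lit 26901010554) (nat_lit 3) (nat_lit 4) (nat_lit 4) (nat_lit 5) (nat_lit 4) (nat_lit 4) (nat_lit 442) (nat_lit 257) (nat_lit 246))))))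 (XT.nd (nat_lit 58280) (nat_lit 0) (nat_lit 84) (XT.nd (nat_lit 282) (nat_lit 0) (nat_lit 0) (XT.nd (nat_lit 94) (nat_lit 0) (nat_lit 0) (XT.lf (nat_lit 0) (nat_lit 6263180315) (nat_lit 84) (nat_lit 27485794077) (nat_lit 84) (nat_lit 25228196634) (nat_lit 3) (nat_lit 4) (nat_lit 4) (nat_lit 5) (nat_lit 4) (nat_lit 4) (nat_lit 443) (nat_lit 257) (nat_lit 245)) (XT.nd (nat_lit 94) (nat_lit 0) (nat_lit 0) (XT.lf (nat_lit 0) (nat_lit 11152710115) (nat_lit 84) (nat_lit 25963546790) (nat_lit 84) (nat_lit 23551507577) (nat_lit 3) (nat_lit 4) (nat_lit 4) (nat_lit 5) (nat_lit 4) (nat_lit 4) (nat_lit 444) (nat_lit 257) (nat_lit 244)) (XT.lf (nat_lit 0) (nat_lit 16109466852) (nat_lit 84) (nat_lit 24431460994) (nat_lit 84) (nat_lit 21869478314) (nat_lit 3) (nat_lit 4) (nat_lit 4) (nat_lit 5) (nat_lit 4) (nat_lit 4) (nat_lit 445) (nat_lit 257) (nat_lit 243)))) (XT.nd (nat_lit 57810) (nat_lit 0) (nat_lit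 252) (XT.nd (nat_lit 57716) (nat_lit 0) (nat_lit 252) (XT.lf (nat_lit 0) (nat_lit 21137781673) (nat_lit 84) (nat_lit 22888197973) (nat_lit 84) (nat_lit 20180639111) (nat_lit 3) (nat_lit 4) (nat_lit 4) (nat_lit 5) (nat_lit 4) (nat_lit 4) (nat_lit 446) (nat_lit 257) (nat_lit 242)) (XT.lf (nat_lit 0) (nat_lit 11949009788) (nat_lit 84) (nat_lit 4024236144) (nat_lit 84) (nat_lit 4024236144) (nat_lit 6) (nat_lit 4) (nat_lit 7) (nat_lit 5) (nat_lit 7) (nat_lit 4) (nat_lit 429) (nat_lit 258) (nat_lit 258))) (XT.nd (nat_lit 94) (nat_lit 0) (nat_lit 0) (XT.lf (nat_lit 0) (nat_lit 30283711890) (nat_lit 84) (nat_lit 5524354973) (nat_lit 84) (nat_lit 5290747938) (nat_lit 6) (nat_lit 4) (nat_lit 7) (nat_lit 5) (nat_lit 7) (nat_lit 4) (nat_lit 430) (nat_lit 258) (nat_lit 257)) (XT.lf (nat_lit 0) (nat_lit 36751441696) (nat_lit 84) (nat_lit 2973302080) (nat_lit 84) (nat_lit 2512892097) (nat_lit 6) (nat_lit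 4) (nat_lit 7) (nat_lit 5) (nat_lit 7) (nat_lit 4) (nat_lit 431) (nat_lit 258) (nat_lit 256))))) (XT.nd (nat_lit 282) (nat_lit 0) (nat_lit 0) (XT.nd (nat_lit 94) (nat_lit 84) (nat_lit 0) (XT.lf (nat_lit 0) (nat_lit 281911886) (nat_lit 168) (nat_lit 108325889) (nat_lit 84) (nat_lit 43022101765) (nat_lit 5) (nat_lit 5) (nat_lit 7) (nat_lit 5) (nat_lit 6) (nat_lit 4) (nat_lit 432) (nat_lit 258) (nat_lit 255)) (XT.nd (nat_lit 94) (nat_lit 0) (nat_lit 0) (XT.lf (nat_lit 0) (nat_lit 3126311209) (nat_lit 168) (nat_lit 39236797887) (nat_lit 0) (nat_lit 2257970869) (nat_lit 4) (nat_lit 5) (nat_lit 6) (nat_lit 4) (nat_lit 4) (nat_lit 4) (nat_lit 433) (nat_lit 258) (nat_lit 254)) (XT.lf (nat_lit 0) (nat_lit 6003402320) (nat_lit 168) (nat_lit 34930737906) (nat_lit 0) (nat_lit 4933550499) (nat_lit 4) (nat_lit 5) (nat_lit 6) (nat_lit 4) (nat_lit 4) (nat_lit 4) (nat_lit 434) (nat_lit 258) (nat_lit 253))))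 (XT.nd (nat_lit 188) (nat_lit 0) (nat_lit 0) (XT.nd (nat_lit 94) (nat_lit 0) (nat_lit 0) (XT.lf (nat_lit 0) (nat_lit 8910875444) (nat_lit 168) (nat_lit 30597148951) (nat_lit 0) (nat_lit 7645381409) (nat_lit 4) (nat_lit 5) (nat_lit 6) (nat_lit 4) (nat_lit 4) (nat_lit 4) (nat_lit 435) (nat_lit 258) (nat_lit 252)) (XT.lf (nat_lit 0) (nat_lit 11851271093) (nat_lit 168) (nat_lit 26232244391) (nat_lit 0) (nat_lit 10395833160) (nat_lit 4) (nat_lit 5) (nat_lit 6) (nat_lit 4) (nat_lit 4) (nat_lit 4) (nat_lit 436) (nat_lit 258) (nat_lit 251))) (XT.nd (nat_lit 94) (nat_lit 0) (nat_lit 0) (XT.lf (nat_lit 0) (nat_lit 14827158543) (nat_lit 168) (nat_lit 21832210232) (nat_lit 0) (nat_lit 13187309059) (nat_lit 4) (nat_lit 5) (nat_lit 6) (nat_lit 4) (nat_lit 4) (nat_lit 4) (nat_lit 437) (nat_lit 258) (nat_lit 250)) (XT.lf (nat_lit 0) (nat_lit 17841138085) (nat_lit 168) (nat_lit 17393201783) (nat_lit 0)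 (nat_lit 16022248260) (nat_lit 4) (nat_lit 5) (nat_lit 6) (nat_lit 4) (nat_lit 4) (nat_lit 4) (nat_lit 438) (nat_lit 258) (nat_lit 249))))))) (XT.nd (nat_lit 58750) (nat_lit 0) (nat_lit 0) (XT.nd (nat_lit 658) (nat_lit 0) (nat_lit 0) (XT.nd (nat_lit 282) (nat_lit 84) (nat_lit 0) (XT.nd (nat_lit 94) (nat_lit 0) (nat_lit 0) (XT.lf (nat_lit 0) (nat_lit 20895843293) (nat_lit 168) (nat_lit 12911340300) (nat_lit 0) (nat_lit 18903127895) (nat_lit 4) (nat_lit 5) (nat_lit 6) (nat_lit 4) (nat_lit 4) (nat_lit 4) (nat_lit 439) (nat_lit 258) (nat_lit 248)) (XT.nd (nat_lit 94) (nat_lit 0) (nat_lit 0) (XT.lf (nat_lit 0) (nat_lit 23993943327) (nat_lit 168) (nat_lit 8382709592) (nat_lit 0) (nat_lit 21832465236) (nat_lit 4) (nat_lit 5) (nat_lit 6) (nat_lit 4) (nat_lit 4) (nat_lit 4) (nat_lit 440) (nat_lit 258) (nat_lit 247)) (XT.lf (nat_lit 0) (nat_lit 27138145265) (nat_lit 168) (nat_lit 3803352604) (nat_lit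 0) (nat_lit 24812819899) (nat_lit 4) (nat_lit 5) (nat_lit 6) (nat_lit 4) (nat_lit 4) (nat_lit 4) (nat_lit 441) (nat_lit 258) (nat_lit 246)))) (XT.nd (nat_lit 188) (nat_lit 0) (nat_lit 0) (XT.nd (nat_lit 94) (nat_lit 0) (nat_lit 0) (XT.lf (nat_lit 0) (nat_lit 847265239) (nat_lit 84) (nat_lit 29492075660) (nat_lit 84) (nat_lit 27007675270) (nat_lit 3) (nat_lit 4) (nat_lit 4) (nat_lit 5) (nat_lit 4) (nat_lit 4) (nat_lit 442) (nat_lit 258) (nat_lit 245)) (XT.lf (nat_lit 0) (nat_lit 5633523893) (nat_lit 84) (nat_lit 27996515964) (nat_lit 84) (nat_lit 25357673803) (nat_lit 3) (nat_lit 4) (nat_lit 4) (nat_lit 5) (nat_lit 4) (nat_lit 4) (nat_lit 443) (nat_lit 258) (nat_lit 244))) (XT.nd (nat_lit 94) (nat_lit 0) (nat_lit 0) (XT.lf (nat_lit 0) (nat_lit 10483911350) (nat_lit 84) (nat_lit 26491918386) (nat_lit 84) (nat_lit 23703132758) (nat_lit 3) (nat_lit 4) (nat_lit 4) (nat_lit 5) (nat_lit 4) (nat_lit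 4) (nat_lit 444) (nat_lit 258) (nat_lit 243)) (XT.lf (nat_lit 0) (nat_lit 15402665812) (nat_lit 84) (nat_lit 24976968230) (nat_lit 84) (nat_lit 22042606421) (nat_lit 3) (nat_lit 4) (nat_lit 4) (nat_lit 5) (nat_lit 4) (nat_lit 4) (nat_lit 445) (nat_lit 258) (nat_lit 242))))) (XT.nd (nat_lit 57716) (nat_lit 0) (nat_lit 168) (XT.nd (nat_lit 57528) (nat_lit 0) (nat_lit 252) (XT.lf (nat_lit 0) (nat_lit 20394085220) (nat_lit 84) (nat_lit 23450341752) (nat_lit 84) (nat_lit 20374643844) (nat_lit 3) (nat_lit 4) (nat_lit 4) (nat_lit 5) (nat_lit 4) (nat_lit 4) (nat_lit 446) (nat_lit 258) (nat_lit 241)) (XT.nd (nat_lit 94) (nat_lit 0) (nat_lit 0) (XT.lf (nat_lit 0) (nat_lit 5703869295) (nat_lit 84) (nat_lit 6619909438) (nat_lit 84) (nat_lit 6619909438) (nat_lit 6) (nat_lit 4) (nat_lit 7) (nat_lit 5) (nat_lit 7) (nat_lit 4) (nat_lit 427) (nat_lit 259) (nat_lit 259)) (XT.lf (nat_lit 0) (nat_lit 17588785026)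 (nat_lit 84) (nat_lit 10788474813) (nat_lit 84) (nat_lit 10547859567) (nat_lit 6) (nat_lit 4) (nat_lit 7) (nat_lit 5) (nat_lit 7) (nat_lit 4) (nat_lit 428) (nat_lit 259) (nat_lit 258)))) (XT.nd (nat_lit 188) (nat_lit 84) (nat_lit 0) (XT.nd (nat_lit 94) (nat_lit 0) (nat_lit 0) (XT.lf (nat_lit 0) (nat_lit 23842443580) (nat_lit 84) (nat_lit 8313842009) (nat_lit 84) (nat_lit 7839619726) (nat_lit 6) (nat_lit 4) (nat_lit 7) (nat_lit 5) (nat_lit 7) (nat_lit 4) (nat_lit 429) (nat_lit 259) (nat_lit 257)) (XT.lf (nat_lit 0) (nat_lit 30174178614) (nat_lit 84) (nat_lit 5813758162) (nat_lit 84) (nat_lit 5112732932) (nat_lit 6) (nat_lit 4) (nat_lit 7) (nat_lit 5) (nat_lit 7) (nat_lit 4) (nat_lit 430) (nat_lit 259) (nat_lit 256))) (XT.nd (nat_lit 94) (nat_lit 84) (nat_lit 0) (XT.lf (nat_lit 0) (nat_lit 36589522712) (nat_lit 84) (nat_lit 3286038733) (nat_lit 84) (nat_lit 2364816467) (nat_lit 6) (nat_lit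 4) (nat_lit 7) (nat_lit 5) (nat_lit 7) (nat_lit 4) (nat_lit 431) (nat_lit 259) (nat_lit 255)) (XT.lf (nat_lit 0) (nat_lit 398597880) (nat_lit 168) (nat_lit 325852098) (nat_lit 84) (nat_lit 42691458577) (nat_lit 5) (nat_lit 5) (nat_lit 7) (nat_lit 5) (nat_lit 6) (nat_lit 4) (nat_lit 432) (nat_lit 259) (nat_lit 254)))))) (XT.nd (nat_lit 658) (nat_lit 84) (nat_lit 0) (XT.nd (nat_lit 282) (nat_lit 0) (nat_lit 0) (XT.nd (nat_lit 94) (nat_lit 0) (nat_lit 0) (XT.lf (nat_lit 0) (nat_lit 3209252185) (nat_lit 168) (nat_lit 39510630062) (nat_lit 0) (nat_lit 1905793329) (nat_lit 4) (nat_lit 5) (nat_lit 6) (nat_lit 4) (nat_lit 4) (nat_lit 4) (nat_lit 433) (nat_lit 259) (nat_lit 253)) (XT.nd (nat_lit 94) (nat_lit 0) (nat_lit 0) (XT.lf (nat_lit 0) (nat_lit 6058791217) (nat_lit 168) (nat_lit 35254645364) (nat_lit 0) (nat_lit 4559690146) (nat_lit 4) (nat_lit 5) (nat_lit 6) (nat_lit 4) (nat_lit 4) (nat_lit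 4) (nat_lit 434) (nat_lit 259) (nat_lit 252)) (XT.lf (nat_lit 0) (nat_lit 8939514750) (nat_lit 168) (nat_lit 30969673190) (nat_lit 0) (nat_lit 7250469782) (nat_lit 4) (nat_lit 5) (nat_lit 6) (nat_lit 4) (nat_lit 4) (nat_lit 4) (nat_lit 435) (nat_lit 259) (nat_lit 251)))) (XT.nd (nat_lit 188) (nat_lit 0) (nat_lit 0) (XT.nd (nat_lit 94) (nat_lit 0) (nat_lit 0) (XT.lf (nat_lit 0) (nat_lit 11853939922) (nat_lit 168) (nat_lit 26651969387) (nat_lit 0) (nat_lit 9980483403) (nat_lit 4) (nat_lit 5) (nat_lit 6) (nat_lit 4) (nat_lit 4) (nat_lit 4) (nat_lit 436) (nat_lit 259) (nat_lit 250)) (XT.lf (nat_lit 0) (nat_lit 14804613317) (nat_lit 168) (nat_lit 22297761206) (nat_lit 0) (nat_lit 12752116457) (nat_lit 4) (nat_lit 5) (nat_lit 6) (nat_lit 4) (nat_lit 4) (nat_lit 4) (nat_lit 437) (nat_lit 259) (nat_lit 249))) (XT.nd (nat_lit 94) (nat_lit 0) (nat_lit 0) (XT.lf (nat_lit 0) (nat_lit 17794113194)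 (nat_lit 168) (nat_lit 17903243998) (nat_lit 0) (nat_lit 15567790760) (nat_lit 4) (nat_lit 5) (nat_lit 6) (nat_lit 4) (nat_lit 4) (nat_lit 4) (nat_lit 438) (nat_lit 259) (nat_lit 248)) (XT.lf (nat_lit 0) (nat_lit 20825051737) (nat_lit 168) (nat_lit 13464577894) (nat_lit 0) (nat_lit 18429966610) (nat_lit 4) (nat_lit 5) (nat_lit 6) (nat_lit 4) (nat_lit 4) (nat_lit 4) (nat_lit 439) (nat_lit 259) (nat_lit 247))))) (XT.nd (nat_lit 282) (nat_lit 0) (nat_lit 0) (XT.nd (nat_lit 94) (nat_lit 84) (nat_lit 0) (XT.lf (nat_lit 0) (nat_lit 23900077339) (nat_lit 168) (nat_lit 8977884448) (nat_lit 0) (nat_lit 21341144937) (nat_lit 4) (nat_lit 5) (nat_lit 6) (nat_lit 4) (nat_lit 4) (nat_lit 4) (nat_lit 440) (nat_lit 259) (nat_lit 246)) (XT.nd (nat_lit 94) (nat_lit 84) (nat_lit 0) (XT.lf (nat_lit 0) (nat_lit 27021876916) (nat_lit 168) (nat_lit 4439243248) (nat_lit 0) (nat_lit 24303869490) (nat_lit 4) (nat_lit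 5) (nat_lit 6) (nat_lit 4) (nat_lit 4) (nat_lit 4) (nat_lit 441) (nat_lit 259) (nat_lit 245)) (XT.lf (nat_lit 0) (nat_lit 158402511) (nat_lit 84) (nat_lit 30036298403) (nat_lit 84) (nat_lit 27163849207) (nat_lit 3) (nat_lit 4) (nat_lit 4) (nat_lit 5) (nat_lit 4) (nat_lit 4) (nat_lit 442) (nat_lit 259) (nat_lit 244)))) (XT.nd (nat_lit 188) (nat_lit 0) (nat_lit 0) (XT.nd (nat_lit 94) (nat_lit 0) (nat_lit 0) (XT.lf (nat_lit 0) (nat_lit 4905518821) (nat_lit 84) (nat_lit 28558388416) (nat_lit 84) (nat_lit 25535995753) (nat_lit 3) (nat_lit 4) (nat_lit 4) (nat_lit 5) (nat_lit 4) (nat_lit 4) (nat_lit 443) (nat_lit 259) (nat_lit 243)) (XT.lf (nat_lit 0) (nat_lit 9717904003) (nat_lit 84) (nat_lit 27070926478) (nat_lit 84) (nat_lit 23902957634) (nat_lit 3) (nat_lit 4) (nat_lit 4) (nat_lit 5) (nat_lit 4) (nat_lit 4) (nat_lit 444) (nat_lit 259) (nat_lit 242))) (XT.nd (nat_lit 94) (nat_lit 0) (nat_lit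 0) (XT.lf (nat_lit 0) (nat_lit 14599763053) (nat_lit 84) (nat_lit 25572612866) (nat_lit 84) (nat_lit 22263307922) (nat_lit 3) (nat_lit 4) (nat_lit 4) (nat_lit 5) (nat_lit 4) (nat_lit 4) (nat_lit 445) (nat_lit 259) (nat_lit 241)) (XT.lf (nat_lit 0) (nat_lit 19555361672) (nat_lit 84) (nat_lit 24062138372) (nat_lit 84) (nat_lit 20615613915) (nat_lit 3) (nat_lit 4) (nat_lit 4) (nat_lit 5) (nat_lit 4) (nat_lit 4) (nat_lit 446) (nat_lit 259) (nat_lit 240))))))))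
noncomputable def xc2 : XT := (XT.nd (nat_lit 116654) (nat_lit 0) (nat_lit 0) (XT.nd (nat_lit 58374) (nat_lit 0) (nat_lit 0) (XT.nd (nat_lit 57716) (nat_lit 0) (nat_lit 84) (XT.nd (nat_lit 57434) (nat_lit 0) (nat_lit 252) (XT.nd (nat_lit 57246) (nat_lit 0) (nat_lit 252) (XT.lf (nat_lit 0) (nat_lit 24589029996) (nat_lit 84) (nat_lit 22538183165) (nat_lit 84) (nat_lit 18958435880) (nat_lit 3) (nat_lit 4) (nat_lit 4) (nat_lit 5) (nat_lit 4) (nat_lit 4) (nat_lit 447) (nat_lit 259) (nat_lit 239)) (XT.nd (nat_lit 94) (nat_lit 84) (nat_lit 0) (XT.lf (nat_lit 0) (nat_lit 8805189855) (nat_lit 168) (nat_lit 342730136) (nat_lit 0) (nat_lit 8805189855) (nat_lit 7) (nat_lit 5) (nat_lit 9) (nat_lit 4) (nat_lit 7) (nat_lit 4) (nat_lit 425) (nat_lit 260) (nat_lit 260)) (XT.lf (nat_lit 0) (nat_lit 5293903361) (nat_lit 84) (nat_lit 15917849853) (nat_lit 84) (nat_lit 15670016148) (nat_lit 6) (nat_lit 4)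 (nat_lit 7) (nat_lit 5) (nat_lit 7) (nat_lit 4) (nat_lit 426) (nat_lit 260) (nat_lit 259)))) (XT.nd (nat_lit 94) (nat_lit 0) (nat_lit 0) (XT.lf (nat_lit 0) (nat_lit 11350495314) (nat_lit 84) (nat_lit 13513149688) (nat_lit 84) (nat_lit 13024700737) (nat_lit 6) (nat_lit 4) (nat_lit 7) (nat_lit 5) (nat_lit 7) (nat_lit 4) (nat_lit 427) (nat_lit 260) (nat_lit 258)) (XT.nd (nat_lit 94) (nat_lit 0) (nat_lit 0) (XT.lf (nat_lit 0) (nat_lit 17475965752) (nat_lit 84) (nat_lit 11086560098) (nat_lit 84) (nat_lit 10364504111) (nat_lit 6) (nat_lit 4) (nat_lit 7) (nat_lit 5) (nat_lit 7) (nat_lit 4) (nat_lit 428) (nat_lit 260) (nat_lit 257)) (XT.lf (nat_lit 0) (nat_lit 23675667026) (nat_lit 84) (nat_lit 8635960762) (nat_lit 84) (nat_lit 7687101828) (nat_lit 6) (nat_lit 4) (nat_lit 7) (nat_lit 5) (nat_lit 7) (nat_lit 4) (nat_lit 429) (nat_lit 260) (nat_lit 256))))) (XT.nd (nat_lit 282) (nat_lit 84) (nat_lit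 0) (XT.nd (nat_lit 94) (nat_lit 84) (nat_lit 0) (XT.lf (nat_lit 0) (nat_lit 29955016352) (nat_lit 84) (nat_lit 6159210380) (nat_lit 84) (nat_lit 4990154410) (nat_lit 6) (nat_lit 4) (nat_lit 7) (nat_lit 5) (nat_lit 7) (nat_lit 4) (nat_lit 430) (nat_lit 260) (nat_lit 255)) (XT.nd (nat_lit 94) (nat_lit 84) (nat_lit 0) (XT.lf (nat_lit 0) (nat_lit 36319500540) (nat_lit 84) (nat_lit 3654144800) (nat_lit 84) (nat_lit 2271305300) (nat_lit 6) (nat_lit 4) (nat_lit 7) (nat_lit 5) (nat_lit 7) (nat_lit 4) (nat_lit 431) (nat_lit 260) (nat_lit 254)) (XT.lf (nat_lit 0) (nat_lit 462614262) (nat_lit 168) (nat_lit 651289372) (nat_lit 84) (nat_lit 42307395030) (nat_lit 5) (nat_lit 5) (nat_lit 7) (nat_lit 5) (nat_lit 6) (nat_lit 4) (nat_lit 432) (nat_lit 260) (nat_lit 253)))) (XT.nd (nat_lit 188) (nat_lit 0) (nat_lit 0) (XT.nd (nat_lit 94) (nat_lit 0) (nat_lit 0) (XT.lf (nat_lit 0) (nat_lit 3238750670) (nat_lit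 168) (nat_lit 39894330028) (nat_lit 0) (nat_lit 1499034353) (nat_lit 4) (nat_lit 5) (nat_lit 6) (nat_lit 4) (nat_lit 4) (nat_lit 4) (nat_lit 433) (nat_lit 260) (nat_lit 252)) (XT.lf (nat_lit 0) (nat_lit 6061540111) (nat_lit 168) (nat_lit 35686962110) (nat_lit 0) (nat_lit 4131879896) (nat_lit 4) (nat_lit 5) (nat_lit 6) (nat_lit 4) (nat_lit 4) (nat_lit 4) (nat_lit 434) (nat_lit 260) (nat_lit 251))) (XT.nd (nat_lit 94) (nat_lit 0) (nat_lit 0) (XT.lf (nat_lit 0) (nat_lit 8916293168) (nat_lit 168) (nat_lit 31449190693) (nat_lit 0) (nat_lit 6802221402) (nat_lit 4) (nat_lit 5) (nat_lit 6) (nat_lit 4) (nat_lit 4) (nat_lit 4) (nat_lit 435) (nat_lit 260) (nat_lit 250)) (XT.lf (nat_lit 0) (nat_lit 11805504285) (nat_lit 168) (nat_lit 27177312868) (nat_lit 0) (nat_lit 9512392178) (nat_lit 4) (nat_lit 5) (nat_lit 6) (nat_lit 4) (nat_lit 4) (nat_lit 4) (nat_lit 436) (nat_lit 260) (nat_lit 249)))))) (XT.nd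 (nat_lit 658) (nat_lit 0) (nat_lit 0) (XT.nd (nat_lit 282) (nat_lit 84) (nat_lit 0) (XT.nd (nat_lit 94) (nat_lit 0) (nat_lit 0) (XT.lf (nat_lit 0) (nat_lit 14731698015) (nat_lit 168) (nat_lit 22867595928) (nat_lit 0) (nat_lit 12264760334) (nat_lit 4) (nat_lit 5) (nat_lit 6) (nat_lit 4) (nat_lit 4) (nat_lit 4) (nat_lit 437) (nat_lit 260) (nat_lit 248)) (XT.nd (nat_lit 94) (nat_lit 0) (nat_lit 0) (XT.lf (nat_lit 0) (nat_lit 17697431227) (nat_lit 168) (nat_lit 18516274100) (nat_lit 0) (nat_lit 15061730853) (nat_lit 4) (nat_lit 5) (nat_lit 6) (nat_lit 4) (nat_lit 4) (nat_lit 4) (nat_lit 438) (nat_lit 260) (nat_lit 247)) (XT.lf (nat_lit 0) (nat_lit 20705295337) (nat_lit 168) (nat_lit 14119545257) (nat_lit 0) (nat_lit 17905747689) (nat_lit 4) (nat_lit 5) (nat_lit 6) (nat_lit 4) (nat_lit 4) (nat_lit 4) (nat_lit 439) (nat_lit 260) (nat_lit 246)))) (XT.nd (nat_lit 188) (nat_lit 84) (nat_lit 0)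 (XT.nd (nat_lit 94) (nat_lit 0) (nat_lit 0) (XT.lf (nat_lit 0) (nat_lit 23757918578) (nat_lit 168) (nat_lit 9673567599) (nat_lit 0) (nat_lit 20799295906) (nat_lit 4) (nat_lit 5) (nat_lit 6) (nat_lit 4) (nat_lit 4) (nat_lit 4) (nat_lit 440) (nat_lit 260) (nat_lit 245)) (XT.lf (nat_lit 0) (nat_lit 26857968289) (nat_lit 168) (nat_lit 5174456291) (nat_lit 0) (nat_lit 23744903846) (nat_lit 4) (nat_lit 5) (nat_lit 6) (nat_lit 4) (nat_lit 4) (nat_lit 4) (nat_lit 441) (nat_lit 260) (nat_lit 244))) (XT.nd (nat_lit 94) (nat_lit 84) (nat_lit 0) (XT.lf (nat_lit 0) (nat_lit 30008153252) (nat_lit 168) (nat_lit 618280069) (nat_lit 0) (nat_lit 26745145342) (nat_lit 4) (nat_lit 5) (nat_lit 6) (nat_lit 4) (nat_lit 4) (nat_lit 4) (nat_lit 442) (nat_lit 260) (nat_lit 243)) (XT.lf (nat_lit 0) (nat_lit 4078528980) (nat_lit 84) (nat_lit 29171902391) (nat_lit 84) (nat_lit 25763318299) (nat_lit 3) (nat_lit 4)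 (nat_lit 4) (nat_lit 5) (nat_lit 4) (nat_lit 4) (nat_lit 443) (nat_lit 260) (nat_lit 242))))) (XT.nd (nat_lit 282) (nat_lit 0) (nat_lit 0) (XT.nd (nat_lit 94) (nat_lit 0) (nat_lit 0) (XT.lf (nat_lit 0) (nat_lit 8854018749) (nat_lit 84) (nat_lit 27701076997) (nat_lit 84) (nat_lit 24151156807) (nat_lit 3) (nat_lit 4) (nat_lit 4) (nat_lit 5) (nat_lit 4) (nat_lit 4) (nat_lit 444) (nat_lit 260) (nat_lit 241)) (XT.nd (nat_lit 94) (nat_lit 0) (nat_lit 0) (XT.lf (nat_lit 0) (nat_lit 13700057009) (nat_lit 84) (nat_lit 26218915368) (nat_lit 84) (nat_lit 22531775665) (nat_lit 3) (nat_lit 4) (nat_lit 4) (nat_lit 5) (nat_lit 4) (nat_lit 4) (nat_lit 445) (nat_lit 260) (nat_lit 240)) (XT.lf (nat_lit 0) (nat_lit 18620878164) (nat_lit 84) (nat_lit 24724122412) (nat_lit 84) (nat_lit 20903759881) (nat_lit 3) (nat_lit 4) (nat_lit 4) (nat_lit 5) (nat_lit 4) (nat_lit 4) (nat_lit 446) (nat_lit 260) (nat_lit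 239)))) (XT.nd (nat_lit 57152) (nat_lit 0) (nat_lit 336) (XT.nd (nat_lit 57058) (nat_lit 0) (nat_lit 336) (XT.lf (nat_lit 0) (nat_lit 23620781958) (nat_lit 84) (nat_lit 23215391999) (nat_lit 84) (nat_lit 19265686916) (nat_lit 3) (nat_lit 4) (nat_lit 4) (nat_lit 5) (nat_lit 4) (nat_lit 4) (nat_lit 447) (nat_lit 260) (nat_lit 238)) (XT.lf (nat_lit 0) (nat_lit 5457479882) (nat_lit 168) (nat_lit 6105744046) (nat_lit 0) (nat_lit 5457479882) (nat_lit 7) (nat_lit 5) (nat_lit 9) (nat_lit 4) (nat_lit 7) (nat_lit 4) (nat_lit 423) (nat_lit 261) (nat_lit 261))) (XT.nd (nat_lit 94) (nat_lit 0) (nat_lit 0) (XT.lf (nat_lit 0) (nat_lit 14355247648) (nat_lit 168) (nat_lit 6504309687) (nat_lit 0) (nat_lit 14099978933) (nat_lit 7) (nat_lit 5) (nat_lit 9) (nat_lit 4) (nat_lit 7) (nat_lit 4) (nat_lit 424) (nat_lit 261) (nat_lit 260)) (XT.lf (nat_lit 0) (nat_lit 17833516635) (nat_lit 168) (nat_lit 743270314)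 (nat_lit 0) (nat_lit 17330414215) (nat_lit 7) (nat_lit 5) (nat_lit 9) (nat_lit 4) (nat_lit 7) (nat_lit 4) (nat_lit 425) (nat_lit 261) (nat_lit 259))))))) (XT.nd (nat_lit 1316) (nat_lit 84) (nat_lit 0) (XT.nd (nat_lit 658) (nat_lit 84) (nat_lit 0) (XT.nd (nat_lit 282) (nat_lit 84) (nat_lit 0) (XT.nd (nat_lit 94) (nat_lit 0) (nat_lit 0) (XT.lf (nat_lit 0) (nat_lit 5177699508) (nat_lit 84) (nat_lit 16224877695) (nat_lit 84) (nat_lit 15481160029) (nat_lit 6) (nat_lit 4) (nat_lit 7) (nat_lit 5) (nat_lit 7) (nat_lit 4) (nat_lit 426) (nat_lit 261) (nat_lit 258)) (XT.nd (nat_lit 94) (nat_lit 0) (nat_lit 0) (XT.lf (nat_lit 0) (nat_lit 11178715464) (nat_lit 84) (nat_lit 13844932003) (nat_lit 84) (nat_lit 12867607301) (nat_lit 6) (nat_lit 4) (nat_lit 7) (nat_lit 5) (nat_lit 7) (nat_lit 4) (nat_lit 427) (nat_lit 261) (nat_lit 257)) (XT.lf (nat_lit 0) (nat_lit 17250228623) (nat_lit 84) (nat_lit 11442375882)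 (nat_lit 84) (nat_lit 10238248233) (nat_lit 6) (nat_lit 4) (nat_lit 7) (nat_lit 5) (nat_lit 7) (nat_lit 4) (nat_lit 428) (nat_lit 261) (nat_lit 256)))) (XT.nd (nat_lit 188) (nat_lit 84) (nat_lit 0) (XT.nd (nat_lit 94) (nat_lit 0) (nat_lit 0) (XT.lf (nat_lit 0) (nat_lit 23397544190) (nat_lit 84) (nat_lit 9015110011) (nat_lit 84) (nat_lit 7590785326) (nat_lit 6) (nat_lit 4) (nat_lit 7) (nat_lit 5) (nat_lit 7) (nat_lit 4) (nat_lit 429) (nat_lit 261) (nat_lit 255)) (XT.lf (nat_lit 0) (nat_lit 29626033605) (nat_lit 84) (nat_lit 6561013478) (nat_lit 84) (nat_lit 4922905263) (nat_lit 6) (nat_lit 4) (nat_lit 7) (nat_lit 5) (nat_lit 7) (nat_lit 4) (nat_lit 430) (nat_lit 261) (nat_lit 254))) (XT.nd (nat_lit 94) (nat_lit 84) (nat_lit 0) (XT.lf (nat_lit 0) (nat_lit 35941139239) (nat_lit 84) (nat_lit 4077941928) (nat_lit 84) (nat_lit 2232276887) (nat_lit 6) (nat_lit 4) (nat_lit 7) (nat_lit 5) (nat_lit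 7) (nat_lit 4) (nat_lit 431) (nat_lit 261) (nat_lit 253)) (XT.lf (nat_lit 0) (nat_lit 474016969) (nat_lit 168) (nat_lit 1084922073) (nat_lit 84) (nat_lit 41869575533) (nat_lit 5) (nat_lit 5) (nat_lit 7) (nat_lit 5) (nat_lit 6) (nat_lit 4) (nat_lit 432) (nat_lit 261) (nat_lit 252))))) (XT.nd (nat_lit 282) (nat_lit 0) (nat_lit 0) (XT.nd (nat_lit 94) (nat_lit 0) (nat_lit 0) (XT.lf (nat_lit 0) (nat_lit 3214832440) (nat_lit 168) (nat_lit 40388233056) (nat_lit 0) (nat_lit 1037338521) (nat_lit 4) (nat_lit 5) (nat_lit 6) (nat_lit 4) (nat_lit 4) (nat_lit 4) (nat_lit 433) (nat_lit 261) (nat_lit 251)) (XT.nd (nat_lit 94) (nat_lit 0) (nat_lit 0) (XT.lf (nat_lit 0) (nat_lit 6011651405) (nat_lit 168) (nat_lit 36228065896) (nat_lit 0) (nat_lit 3649745935) (nat_lit 4) (nat_lit 5) (nat_lit 6) (nat_lit 4) (nat_lit 4) (nat_lit 4) (nat_lit 434) (nat_lit 261) (nat_lit 250)) (XT.lf (nat_lit 0) (nat_lit 8841190407)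 (nat_lit 168) (nat_lit 32036120457) (nat_lit 0) (nat_lit 6300244595) (nat_lit 4) (nat_lit 5) (nat_lit 6) (nat_lit 4) (nat_lit 4) (nat_lit 4) (nat_lit 435) (nat_lit 261) (nat_lit 249)))) (XT.nd (nat_lit 188) (nat_lit 0) (nat_lit 0) (XT.nd (nat_lit 94) (nat_lit 0) (nat_lit 0) (XT.lf (nat_lit 0) (nat_lit 11705921858) (nat_lit 168) (nat_lit 27808733873) (nat_lit 0) (nat_lit 8991150473) (nat_lit 4) (nat_lit 5) (nat_lit 6) (nat_lit 4) (nat_lit 4) (nat_lit 4) (nat_lit 436) (nat_lit 261) (nat_lit 248)) (XT.lf (nat_lit 0) (nat_lit 14608348923) (nat_lit 168) (nat_lit 23542212312) (nat_lit 0) (nat_lit 11724814845) (nat_lit 4) (nat_lit 5) (nat_lit 6) (nat_lit 4) (nat_lit 4) (nat_lit 4) (nat_lit 437) (nat_lit 261) (nat_lit 247))) (XT.nd (nat_lit 94) (nat_lit 0) (nat_lit 0) (XT.lf (nat_lit 0) (nat_lit 17551007703) (nat_lit 168) (nat_lit 19232827745) (nat_lit 0) (nat_lit 14503626350) (nat_lit 4) (nat_lit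 5) (nat_lit 6) (nat_lit 4) (nat_lit 4) (nat_lit 4) (nat_lit 438) (nat_lit 261) (nat_lit 246)) (XT.lf (nat_lit 0) (nat_lit 20536469452) (nat_lit 168) (nat_lit 14876814691) (nat_lit 0) (nat_lit 17330013076) (nat_lit 4) (nat_lit 5) (nat_lit 6) (nat_lit 4) (nat_lit 4) (nat_lit 4) (nat_lit 439) (nat_lit 261) (nat_lit 245)))))) (XT.nd (nat_lit 658) (nat_lit 0) (nat_lit 0) (XT.nd (nat_lit 282) (nat_lit 84) (nat_lit 0) (XT.nd (nat_lit 94) (nat_lit 0) (nat_lit 0) (XT.lf (nat_lit 0) (nat_lit 23567342827) (nat_lit 168) (nat_lit 10470366924) (nat_lit 0) (nat_lit 20206444680) (nat_lit 4) (nat_lit 5) (nat_lit 6) (nat_lit 4) (nat_lit 4) (nat_lit 4) (nat_lit 440) (nat_lit 261) (nat_lit 244)) (XT.nd (nat_lit 94) (nat_lit 0) (nat_lit 0) (XT.lf (nat_lit 0) (nat_lit 26646276164) (nat_lit 168) (nat_lit 6009634151) (nat_lit 0) (nat_lit 23135434550) (nat_lit 4) (nat_lit 5) (nat_lit 6) (nat_lit 4) (nat_lit 4)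 (nat_lit 4) (nat_lit 441) (nat_lit 261) (nat_lit 243)) (XT.lf (nat_lit 0) (nat_lit 29775959793) (nat_lit 168) (nat_lit 1490718643) (nat_lit 0) (nat_lit 26119541997) (nat_lit 4) (nat_lit 5) (nat_lit 6) (nat_lit 4) (nat_lit 4) (nat_lit 4) (nat_lit 442) (nat_lit 261) (nat_lit 242)))) (XT.nd (nat_lit 188) (nat_lit 0) (nat_lit 0) (XT.nd (nat_lit 94) (nat_lit 0) (nat_lit 0) (XT.lf (nat_lit 0) (nat_lit 3151831755) (nat_lit 84) (nat_lit 29837593968) (nat_lit 84) (nat_lit 26039840074) (nat_lit 3) (nat_lit 4) (nat_lit 4) (nat_lit 5) (nat_lit 4) (nat_lit 4) (nat_lit 443) (nat_lit 261) (nat_lit 241)) (XT.lf (nat_lit 0) (nat_lit 7891500735) (nat_lit 84) (nat_lit 28382920558) (nat_lit 84) (nat_lit 24447947151) (nat_lit 3) (nat_lit 4) (nat_lit 4) (nat_lit 5) (nat_lit 4) (nat_lit 4) (nat_lit 444) (nat_lit 261) (nat_lit 240))) (XT.nd (nat_lit 94) (nat_lit 0) (nat_lit 0) (XT.lf (nat_lit 0) (nat_lit 12702761530)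 (nat_lit 84) (nat_lit 26916440467) (nat_lit 84) (nat_lit 22848244231) (nat_lit 3) (nat_lit 4) (nat_lit 4) (nat_lit 5) (nat_lit 4) (nat_lit 4) (nat_lit 445) (nat_lit 261) (nat_lit 239)) (XT.lf (nat_lit 0) (nat_lit 17589818156) (nat_lit 84) (nat_lit 25436872305) (nat_lit 84) (nat_lit 21239333518) (nat_lit 3) (nat_lit 4) (nat_lit 4) (nat_lit 5) (nat_lit 4) (nat_lit 4) (nat_lit 446) (nat_lit 261) (nat_lit 238))))) (XT.nd (nat_lit 57058) (nat_lit 0) (nat_lit 252) (XT.nd (nat_lit 56870) (nat_lit 0) (nat_lit 336) (XT.lf (nat_lit 0) (nat_lit 22556940854) (nat_lit 84) (nat_lit 23942923245) (nat_lit 84) (nat_lit 19619809165) (nat_lit 3) (nat_lit 4) (nat_lit 4) (nat_lit 5) (nat_lit 4) (nat_lit 4) (nat_lit 447) (nat_lit 261) (nat_lit 237)) (XT.nd (nat_lit 94) (nat_lit 0) (nat_lit 0) (XT.lf (nat_lit 0) (nat_lit 2216674474) (nat_lit 168) (nat_lit 11711418023) (nat_lit 0) (nat_lit 2216674474) (nat_lit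 7) (nat_lit 5) (nat_lit 9) (nat_lit 4) (nat_lit 7) (nat_lit 4) (nat_lit 421) (nat_lit 262) (nat_lit 262)) (XT.lf (nat_lit 0) (nat_lit 7772573682) (nat_lit 168) (nat_lit 17869792388) (nat_lit 0) (nat_lit 7509646905) (nat_lit 7) (nat_lit 5) (nat_lit 9) (nat_lit 4) (nat_lit 7) (nat_lit 4) (nat_lit 422) (nat_lit 262) (nat_lit 261)))) (XT.nd (nat_lit 188) (nat_lit 84) (nat_lit 0) (XT.nd (nat_lit 94) (nat_lit 0) (nat_lit 0) (XT.lf (nat_lit 0) (nat_lit 11144790797) (nat_lit 168) (nat_lit 12271032437) (nat_lit 0) (nat_lit 10626595305) (nat_lit 7) (nat_lit 5) (nat_lit 9) (nat_lit 4) (nat_lit 7) (nat_lit 4) (nat_lit 423) (nat_lit 262) (nat_lit 260)) (XT.lf (nat_lit 0) (nat_lit 14552946891) (nat_lit 168) (nat_lit 6621664073) (nat_lit 0) (nat_lit 13786917695) (nat_lit 7) (nat_lit 5) (nat_lit 9) (nat_lit 4) (nat_lit 7) (nat_lit 4) (nat_lit 424) (nat_lit 262) (nat_lit 259))) (XT.nd (nat_lit 94) (nat_lit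 84) (nat_lit 0) (XT.lf (nat_lit 0) (nat_lit 18000019965) (nat_lit 168) (nat_lit 916750955) (nat_lit 0) (nat_lit 16993375522) (nat_lit 7) (nat_lit 5) (nat_lit 9) (nat_lit 4) (nat_lit 7) (nat_lit 4) (nat_lit 425) (nat_lit 262) (nat_lit 258)) (XT.lf (nat_lit 0) (nat_lit 4945190265) (nat_lit 84) (nat_lit 16591367953) (nat_lit 84) (nat_lit 15351116475) (nat_lit 6) (nat_lit 4) (nat_lit 7) (nat_lit 5) (nat_lit 7) (nat_lit 4) (nat_lit 426) (nat_lit 262) (nat_lit 257))))))))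
noncomputable def xc3 : XT := (XT.nd (nat_lit 59220) (nat_lit 0) (nat_lit 0) (XT.nd (nat_lit 1316) (nat_lit 84) (nat_lit 0) (XT.nd (nat_lit 658) (nat_lit 0) (nat_lit 0) (XT.nd (nat_lit 282) (nat_lit 168) (nat_lit 0) (XT.nd (nat_lit 94) (nat_lit 0) (nat_lit 0) (XT.lf (nat_lit 0) (nat_lit 10892248942) (nat_lit 84) (nat_lit 14235455730) (nat_lit 84) (nat_lit 12768401304) (nat_lit 6) (nat_lit 4) (nat_lit 7) (nat_lit 5) (nat_lit 7) (nat_lit 4) (nat_lit 427) (nat_lit 262) (nat_lit 256)) (XT.nd (nat_lit 94) (nat_lit 0) (nat_lit 0) (XT.lf (nat_lit 0) (nat_lit 16911376393) (nat_lit 84) (nat_lit 11856233074) (nat_lit 84) (nat_lit 10168981612) (nat_lit 6) (nat_lit 4) (nat_lit 7) (nat_lit 5) (nat_lit 7) (nat_lit 4) (nat_lit 428) (nat_lit 262) (nat_lit 255)) (XT.lf (nat_lit 0) (nat_lit 23007832050) (nat_lit 84) (nat_lit 9451621052) (nat_lit 84) (nat_lit 7550586060) (nat_lit 6) (nat_lit 4) (nat_lit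 7) (nat_lit 5) (nat_lit 7) (nat_lit 4) (nat_lit 429) (nat_lit 262) (nat_lit 254)))) (XT.nd (nat_lit 188) (nat_lit 168) (nat_lit 0) (XT.nd (nat_lit 94) (nat_lit 0) (nat_lit 0) (XT.lf (nat_lit 0) (nat_lit 29186942912) (nat_lit 84) (nat_lit 7019518548) (nat_lit 84) (nat_lit 4910926730) (nat_lit 6) (nat_lit 4) (nat_lit 7) (nat_lit 5) (nat_lit 7) (nat_lit 4) (nat_lit 430) (nat_lit 262) (nat_lit 253)) (XT.lf (nat_lit 0) (nat_lit 35454108202) (nat_lit 84) (nat_lit 4557800423) (nat_lit 84) (nat_lit 2247697124) (nat_lit 6) (nat_lit 4) (nat_lit 7) (nat_lit 5) (nat_lit 7) (nat_lit 4) (nat_lit 431) (nat_lit 262) (nat_lit 252))) (XT.nd (nat_lit 94) (nat_lit 84) (nat_lit 0) (XT.lf (nat_lit 0) (nat_lit 432815964) (nat_lit 168) (nat_lit 1627129104) (nat_lit 84) (nat_lit 41377617528) (nat_lit 5) (nat_lit 5) (nat_lit 7) (nat_lit 5) (nat_lit 6) (nat_lit 4) (nat_lit 432) (nat_lit 262) (nat_lit 251)) (XT.lf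 (nat_lit 0) (nat_lit 3137476596) (nat_lit 168) (nat_lit 40992770713) (nat_lit 0) (nat_lit 520302410) (nat_lit 4) (nat_lit 5) (nat_lit 6) (nat_lit 4) (nat_lit 4) (nat_lit 4) (nat_lit 433) (nat_lit 262) (nat_lit 250))))) (XT.nd (nat_lit 282) (nat_lit 0) (nat_lit 0) (XT.nd (nat_lit 94) (nat_lit 0) (nat_lit 0) (XT.lf (nat_lit 0) (nat_lit 5909081506) (nat_lit 168) (nat_lit 36878429531) (nat_lit 0) (nat_lit 3112866979) (nat_lit 4) (nat_lit 5) (nat_lit 6) (nat_lit 4) (nat_lit 4) (nat_lit 4) (nat_lit 434) (nat_lit 262) (nat_lit 249)) (XT.nd (nat_lit 94) (nat_lit 0) (nat_lit 0) (XT.lf (nat_lit 0) (nat_lit 8714140842) (nat_lit 168) (nat_lit 32730975333) (nat_lit 0) (nat_lit 5744100742) (nat_lit 4) (nat_lit 5) (nat_lit 6) (nat_lit 4) (nat_lit 4) (nat_lit 4) (nat_lit 435) (nat_lit 262) (nat_lit 248)) (XT.lf (nat_lit 0) (nat_lit 11555105629) (nat_lit 168) (nat_lit 28546784128) (nat_lit 0) (nat_lit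 8416302835) (nat_lit 4) (nat_lit 5) (nat_lit 6) (nat_lit 4) (nat_lit 4) (nat_lit 4) (nat_lit 436) (nat_lit 262) (nat_lit 247)))) (XT.nd (nat_lit 188) (nat_lit 0) (nat_lit 0) (XT.nd (nat_lit 94) (nat_lit 0) (nat_lit 0) (XT.lf (nat_lit 0) (nat_lit 14434458261) (nat_lit 168) (nat_lit 24322199829) (nat_lit 0) (nat_lit 11131808194) (nat_lit 4) (nat_lit 5) (nat_lit 6) (nat_lit 4) (nat_lit 4) (nat_lit 4) (nat_lit 437) (nat_lit 262) (nat_lit 246)) (XT.lf (nat_lit 0) (nat_lit 17354714680) (nat_lit 168) (nat_lit 20053531050) (nat_lit 0) (nat_lit 13892989588) (nat_lit 4) (nat_lit 5) (nat_lit 6) (nat_lit 4) (nat_lit 4) (nat_lit 4) (nat_lit 438) (nat_lit 262) (nat_lit 245))) (XT.nd (nat_lit 94) (nat_lit 0) (nat_lit 0) (XT.lf (nat_lit 0) (nat_lit 20318426564) (nat_lit 168) (nat_lit 15737047887) (nat_lit 0) (nat_lit 16702259701) (nat_lit 4) (nat_lit 5) (nat_lit 6) (nat_lit 4) (nat_lit 4) (nat_lit 4)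 (nat_lit 439) (nat_lit 262) (nat_lit 244)) (XT.lf (nat_lit 0) (nat_lit 23328183565) (nat_lit 168) (nat_lit 11368978655) (nat_lit 0) (nat_lit 19562073235) (nat_lit 4) (nat_lit 5) (nat_lit 6) (nat_lit 4) (nat_lit 4) (nat_lit 4) (nat_lit 440) (nat_lit 262) (nat_lit 243)))))) (XT.nd (nat_lit 57246) (nat_lit 0) (nat_lit 336) (XT.nd (nat_lit 282) (nat_lit 0) (nat_lit 0) (XT.nd (nat_lit 94) (nat_lit 84) (nat_lit 0) (XT.lf (nat_lit 0) (nat_lit 26386615568) (nat_lit 168) (nat_lit 6945506596) (nat_lit 0) (nat_lit 22474929057) (nat_lit 4) (nat_lit 5) (nat_lit 6) (nat_lit 4) (nat_lit 4) (nat_lit 4) (nat_lit 441) (nat_lit 262) (nat_lit 242)) (XT.nd (nat_lit 94) (nat_lit 84) (nat_lit 0) (XT.lf (nat_lit 0) (nat_lit 29496394988) (nat_lit 168) (nat_lit 2462766538) (nat_lit 0) (nat_lit 25443372379) (nat_lit 4) (nat_lit 5) (nat_lit 6) (nat_lit 4) (nat_lit 4) (nat_lit 4) (nat_lit 442) (nat_lit 262) (nat_lit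 241)) (XT.lf (nat_lit 0) (nat_lit 2124617412) (nat_lit 84) (nat_lit 30556044820) (nat_lit 84) (nat_lit 26365802698) (nat_lit 3) (nat_lit 4) (nat_lit 4) (nat_lit 5) (nat_lit 4) (nat_lit 4) (nat_lit 443) (nat_lit 262) (nat_lit 240)))) (XT.nd (nat_lit 188) (nat_lit 0) (nat_lit 0) (XT.nd (nat_lit 94) (nat_lit 0) (nat_lit 0) (XT.lf (nat_lit 0) (nat_lit 6829508927) (nat_lit 84) (nat_lit 29117052948) (nat_lit 84) (nat_lit 24793587997) (nat_lit 3) (nat_lit 4) (nat_lit 4) (nat_lit 5) (nat_lit 4) (nat_lit 4) (nat_lit 444) (nat_lit 262) (nat_lit 239)) (XT.lf (nat_lit 0) (nat_lit 11607005193) (nat_lit 84) (nat_lit 27665797651) (nat_lit 84) (nat_lit 23212990148) (nat_lit 3) (nat_lit 4) (nat_lit 4) (nat_lit 5) (nat_lit 4) (nat_lit 4) (nat_lit 445) (nat_lit 262) (nat_lit 238))) (XT.nd (nat_lit 94) (nat_lit 0) (nat_lit 0) (XT.lf (nat_lit 0) (nat_lit 16461280722) (nat_lit 84) (nat_lit 26201010842) (nat_lit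 84) (nat_lit 21622628047) (nat_lit 3) (nat_lit 4) (nat_lit 4) (nat_lit 5) (nat_lit 4) (nat_lit 4) (nat_lit 446) (nat_lit 262) (nat_lit 237)) (XT.lf (nat_lit 0) (nat_lit 21396577114) (nat_lit 84) (nat_lit 24721412611) (nat_lit 84) (nat_lit 20021112056) (nat_lit 3) (nat_lit 4) (nat_lit 4) (nat_lit 5) (nat_lit 4) (nat_lit 4) (nat_lit 447) (nat_lit 262) (nat_lit 236))))) (XT.nd (nat_lit 282) (nat_lit 0) (nat_lit 0) (XT.nd (nat_lit 94) (nat_lit 168) (nat_lit 0) (XT.lf (nat_lit 0) (nat_lit 13487385678) (nat_lit 84) (nat_lit 916843497) (nat_lit 84) (nat_lit 916843497) (nat_lit 9) (nat_lit 4) (nat_lit 10) (nat_lit 5) (nat_lit 10) (nat_lit 4) (nat_lit 419) (nat_lit 263) (nat_lit 263)) (XT.nd (nat_lit 94) (nat_lit 0) (nat_lit 0) (XT.lf (nat_lit 0) (nat_lit 1395013410) (nat_lit 168) (nat_lit 28935015588) (nat_lit 0) (nat_lit 1124198829) (nat_lit 7) (nat_lit 5) (nat_lit 9) (nat_lit 4) (nat_lit 7)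 (nat_lit 4) (nat_lit 420) (nat_lit 263) (nat_lit 262)) (XT.lf (nat_lit 0) (nat_lit 4670074913) (nat_lit 168) (nat_lit 23484166721) (nat_lit 0) (nat_lit 4136333556) (nat_lit 7) (nat_lit 5) (nat_lit 9) (nat_lit 4) (nat_lit 7) (nat_lit 4) (nat_lit 421) (nat_lit 263) (nat_lit 261)))) (XT.nd (nat_lit 188) (nat_lit 0) (nat_lit 0) (XT.nd (nat_lit 94) (nat_lit 0) (nat_lit 0) (XT.lf (nat_lit 0) (nat_lit 7976203902) (nat_lit 168) (nat_lit 17990667406) (nat_lit 0) (nat_lit 7187193830) (nat_lit 7) (nat_lit 5) (nat_lit 9) (nat_lit 4) (nat_lit 7) (nat_lit 4) (nat_lit 422) (nat_lit 263) (nat_lit 260)) (XT.lf (nat_lit 0) (nat_lit 11316289227) (nat_lit 168) (nat_lit 12449717497) (nat_lit 0) (nat_lit 10279445450) (nat_lit 7) (nat_lit 5) (nat_lit 9) (nat_lit 4) (nat_lit 7) (nat_lit 4) (nat_lit 423) (nat_lit 263) (nat_lit 259))) (XT.nd (nat_lit 94) (nat_lit 0) (nat_lit 0) (XT.lf (nat_lit 0) (nat_lit 14693249408)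 (nat_lit 168) (nat_lit 6856475387) (nat_lit 0) (nat_lit 13415790385) (nat_lit 7) (nat_lit 5) (nat_lit 9) (nat_lit 4) (nat_lit 7) (nat_lit 4) (nat_lit 424) (nat_lit 263) (nat_lit 258)) (XT.lf (nat_lit 0) (nat_lit 18110035188) (nat_lit 168) (nat_lit 1206053779) (nat_lit 0) (nat_lit 16598969130) (nat_lit 7) (nat_lit 5) (nat_lit 9) (nat_lit 4) (nat_lit 7) (nat_lit 4) (nat_lit 425) (nat_lit 263) (nat_lit 257))))))) (XT.nd (nat_lit 1316) (nat_lit 84) (nat_lit 0) (XT.nd (nat_lit 658) (nat_lit 84) (nat_lit 0) (XT.nd (nat_lit 282) (nat_lit 84) (nat_lit 0) (XT.nd (nat_lit 94) (nat_lit 0) (nat_lit 0) (XT.lf (nat_lit 0) (nat_lit 4596172469) (nat_lit 84) (nat_lit 17017640861) (nat_lit 84) (nat_lit 15279771855) (nat_lit 6) (nat_lit 4) (nat_lit 7) (nat_lit 5) (nat_lit 7) (nat_lit 4) (nat_lit 426) (nat_lit 263) (nat_lit 256)) (XT.nd (nat_lit 94) (nat_lit 0) (nat_lit 0) (XT.lf (nat_lit 0) (nat_lit 10490845438)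 (nat_lit 84) (nat_lit 14685062102) (nat_lit 84) (nat_lit 12726996060) (nat_lit 6) (nat_lit 4) (nat_lit 7) (nat_lit 5) (nat_lit 7) (nat_lit 4) (nat_lit 427) (nat_lit 263) (nat_lit 255)) (XT.lf (nat_lit 0) (nat_lit 16459112979) (nat_lit 84) (nat_lit 12328493296) (nat_lit 84) (nat_lit 10156643723) (nat_lit 6) (nat_lit 4) (nat_lit 7) (nat_lit 5) (nat_lit 7) (nat_lit 4) (nat_lit 428) (nat_lit 263) (nat_lit 254)))) (XT.nd (nat_lit 188) (nat_lit 84) (nat_lit 0) (XT.nd (nat_lit 94) (nat_lit 0) (nat_lit 0) (XT.lf (nat_lit 0) (nat_lit 22506190081) (nat_lit 84) (nat_lit 9945875303) (nat_lit 84) (nat_lit 7566468905) (nat_lit 6) (nat_lit 4) (nat_lit 7) (nat_lit 5) (nat_lit 7) (nat_lit 4) (nat_lit 429) (nat_lit 263) (nat_lit 253)) (XT.lf (nat_lit 0) (nat_lit 28637360600) (nat_lit 84) (nat_lit 7535126224) (nat_lit 84) (nat_lit 4954208346) (nat_lit 6) (nat_lit 4) (nat_lit 7) (nat_lit 5) (nat_lit 7) (nat_lit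 4) (nat_lit 430) (nat_lit 263) (nat_lit 252))) (XT.nd (nat_lit 94) (nat_lit 84) (nat_lit 0) (XT.lf (nat_lit 0) (nat_lit 34857981867) (nat_lit 84) (nat_lit 5094139581) (nat_lit 84) (nat_lit 2317579487) (nat_lit 6) (nat_lit 4) (nat_lit 7) (nat_lit 5) (nat_lit 7) (nat_lit 4) (nat_lit 431) (nat_lit 263) (nat_lit 251)) (XT.lf (nat_lit 0) (nat_lit 338975247) (nat_lit 168) (nat_lit 2278384238) (nat_lit 84) (nat_lit 40831091146) (nat_lit 5) (nat_lit 5) (nat_lit 7) (nat_lit 5) (nat_lit 6) (nat_lit 4) (nat_lit 432) (nat_lit 263) (nat_lit 250))))) (XT.nd (nat_lit 282) (nat_lit 0) (nat_lit 0) (XT.nd (nat_lit 94) (nat_lit 0) (nat_lit 0) (XT.lf (nat_lit 0) (nat_lit 2953559379) (nat_lit 84) (nat_lit 53571123) (nat_lit 168) (nat_lit 41655415070) (nat_lit 4) (nat_lit 5) (nat_lit 5) (nat_lit 5) (nat_lit 6) (nat_lit 4) (nat_lit 433) (nat_lit 263) (nat_lit 249)) (XT.nd (nat_lit 94) (nat_lit 0) (nat_lit 0)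 (XT.lf (nat_lit 0) (nat_lit 5753740789) (nat_lit 168) (nat_lit 37638621294) (nat_lit 0) (nat_lit 2520773912) (nat_lit 4) (nat_lit 5) (nat_lit 6) (nat_lit 4) (nat_lit 4) (nat_lit 4) (nat_lit 434) (nat_lit 263) (nat_lit 248)) (XT.lf (nat_lit 0) (nat_lit 8535033461) (nat_lit 168) (nat_lit 33534362475) (nat_lit 0) (nat_lit 5133303891) (nat_lit 4) (nat_lit 5) (nat_lit 6) (nat_lit 4) (nat_lit 4) (nat_lit 4) (nat_lit 435) (nat_lit 263) (nat_lit 247)))) (XT.nd (nat_lit 188) (nat_lit 0) (nat_lit 0) (XT.nd (nat_lit 94) (nat_lit 0) (nat_lit 0) (XT.lf (nat_lit 0) (nat_lit 11352923815) (nat_lit 168) (nat_lit 29392108532) (nat_lit 0) (nat_lit 7787346970) (nat_lit 4) (nat_lit 5) (nat_lit 6) (nat_lit 4) (nat_lit 4) (nat_lit 4) (nat_lit 436) (nat_lit 263) (nat_lit 246)) (XT.lf (nat_lit 0) (nat_lit 14209874086) (nat_lit 168) (nat_lit 25208240021) (nat_lit 0) (nat_lit 10485222218) (nat_lit 4) (nat_lit 5)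 (nat_lit 6) (nat_lit 4) (nat_lit 4) (nat_lit 4) (nat_lit 437) (nat_lit 263) (nat_lit 245))) (XT.nd (nat_lit 94) (nat_lit 0) (nat_lit 0) (XT.lf (nat_lit 0) (nat_lit 17108380639) (nat_lit 168) (nat_lit 20979101133) (nat_lit 0) (nat_lit 13229287000) (nat_lit 4) (nat_lit 5) (nat_lit 6) (nat_lit 4) (nat_lit 4) (nat_lit 4) (nat_lit 438) (nat_lit 263) (nat_lit 244)) (XT.lf (nat_lit 0) (nat_lit 20050976149) (nat_lit 168) (nat_lit 16700996505) (nat_lit 0) (nat_lit 16021939043) (nat_lit 4) (nat_lit 5) (nat_lit 6) (nat_lit 4) (nat_lit 4) (nat_lit 4) (nat_lit 439) (nat_lit 263) (nat_lit 243)))))) (XT.nd (nat_lit 658) (nat_lit 0) (nat_lit 0) (XT.nd (nat_lit 282) (nat_lit 84) (nat_lit 0) (XT.nd (nat_lit 94) (nat_lit 0) (nat_lit 0) (XT.lf (nat_lit 0) (nat_lit 23040231816) (nat_lit 168) (nat_lit 12370187987) (nat_lit 0) (nat_lit 18865618528) (nat_lit 4) (nat_lit 5) (nat_lit 6) (nat_lit 4) (nat_lit 4)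 (nat_lit 4) (nat_lit 440) (nat_lit 263) (nat_lit 242)) (XT.nd (nat_lit 94) (nat_lit 0) (nat_lit 0) (XT.lf (nat_lit 0) (nat_lit 26078759611) (nat_lit 168) (nat_lit 7982891378) (nat_lit 0) (nat_lit 21762810225) (nat_lit 4) (nat_lit 5) (nat_lit 6) (nat_lit 4) (nat_lit 4) (nat_lit 4) (nat_lit 441) (nat_lit 263) (nat_lit 241)) (XT.lf (nat_lit 0) (nat_lit 29169214558) (nat_lit 168) (nat_lit 3535273117) (nat_lit 0) (nat_lit 24716045659) (nat_lit 4) (nat_lit 5) (nat_lit 6) (nat_lit 4) (nat_lit 4) (nat_lit 4) (nat_lit 442) (nat_lit 263) (nat_lit 240)))) (XT.nd (nat_lit 188) (nat_lit 0) (nat_lit 0) (XT.nd (nat_lit 94) (nat_lit 0) (nat_lit 0) (XT.lf (nat_lit 0) (nat_lit 995988384) (nat_lit 84) (nat_lit 31327882720) (nat_lit 84) (nat_lit 26741490992) (nat_lit 3) (nat_lit 4) (nat_lit 4) (nat_lit 5) (nat_lit 4) (nat_lit 4) (nat_lit 443) (nat_lit 263) (nat_lit 239)) (XT.lf (nat_lit 0) (nat_lit 5667115370)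 (nat_lit 84) (nat_lit 29904115641) (nat_lit 84) (nat_lit 25188381362) (nat_lit 3) (nat_lit 4) (nat_lit 4) (nat_lit 5) (nat_lit 4) (nat_lit 4) (nat_lit 444) (nat_lit 263) (nat_lit 238))) (XT.nd (nat_lit 94) (nat_lit 0) (nat_lit 0) (XT.lf (nat_lit 0) (nat_lit 10411830541) (nat_lit 84) (nat_lit 28467641697) (nat_lit 84) (nat_lit 23626332125) (nat_lit 3) (nat_lit 4) (nat_lit 4) (nat_lit 5) (nat_lit 4) (nat_lit 4) (nat_lit 445) (nat_lit 263) (nat_lit 237)) (XT.lf (nat_lit 0) (nat_lit 15234279763) (nat_lit 84) (nat_lit 27017205717) (nat_lit 84) (nat_lit 22053978385) (nat_lit 3) (nat_lit 4) (nat_lit 4) (nat_lit 5) (nat_lit 4) (nat_lit 4) (nat_lit 446) (nat_lit 263) (nat_lit 236))))) (XT.nd (nat_lit 56588) (nat_lit 0) (nat_lit 336) (XT.nd (nat_lit 94) (nat_lit 0) (nat_lit 0) (XT.lf (nat_lit 0) (nat_lit 20138676827) (nat_lit 84) (nat_lit 25551540329) (nat_lit 84) (nat_lit 20469946240) (nat_lit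 3) (nat_lit 4) (nat_lit 4) (nat_lit 5) (nat_lit 4) (nat_lit 4) (nat_lit 447) (nat_lit 263) (nat_lit 235)) (XT.nd (nat_lit 56400) (nat_lit 0) (nat_lit 504) (XT.lf (nat_lit 0) (nat_lit 25129307129) (nat_lit 84) (nat_lit 24069364856) (nat_lit 84) (nat_lit 18872851584) (nat_lit 3) (nat_lit 4) (nat_lit 4) (nat_lit 5) (nat_lit 4) (nat_lit 4) (nat_lit 448) (nat_lit 263) (nat_lit 234)) (XT.lf (nat_lit 0) (nat_lit 6666111725) (nat_lit 84) (nat_lit 3939573745) (nat_lit 84) (nat_lit 3939573745) (nat_lit 9) (nat_lit 4) (nat_lit 10) (nat_lit 5) (nat_lit 10) (nat_lit 4) (nat_lit 417) (nat_lit 264) (nat_lit 264)))) (XT.nd (nat_lit 188) (nat_lit 168) (nat_lit 0) (XT.nd (nat_lit 94) (nat_lit 0) (nat_lit 0) (XT.lf (nat_lit 0) (nat_lit 20083363506) (nat_lit 84) (nat_lit 5029142223) (nat_lit 84) (nat_lit 4741835035) (nat_lit 9) (nat_lit 4) (nat_lit 10) (nat_lit 5) (nat_lit 10) (nat_lit 4) (nat_lit 418) (nat_lit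 264) (nat_lit 263)) (XT.lf (nat_lit 0) (nat_lit 26914318536) (nat_lit 84) (nat_lit 2147554751) (nat_lit 84) (nat_lit 1581308546) (nat_lit 9) (nat_lit 4) (nat_lit 10) (nat_lit 5) (nat_lit 10) (nat_lit 4) (nat_lit 419) (nat_lit 264) (nat_lit 262))) (XT.nd (nat_lit 94) (nat_lit 0) (nat_lit 0) (XT.lf (nat_lit 0) (nat_lit 1604752536) (nat_lit 168) (nat_lit 29059516856) (nat_lit 0) (nat_lit 792072162) (nat_lit 7) (nat_lit 5) (nat_lit 9) (nat_lit 4) (nat_lit 7) (nat_lit 4) (nat_lit 420) (nat_lit 264) (nat_lit 261)) (XT.lf (nat_lit 0) (nat_lit 4846718296) (nat_lit 168) (nat_lit 23668212333) (nat_lit 0) (nat_lit 3778769207) (nat_lit 7) (nat_lit 5) (nat_lit 9) (nat_lit 4) (nat_lit 7) (nat_lit 4) (nat_lit 421) (nat_lit 264) (nat_lit 260))))))))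
noncomputable def xc4 : XT := (XT.nd (nat_lit 58656) (nat_lit 0) (nat_lit 84) (XT.nd (nat_lit 1222) (nat_lit 84) (nat_lit 0) (XT.nd (nat_lit 564) (nat_lit 168) (nat_lit 0) (XT.nd (nat_lit 282) (nat_lit 84) (nat_lit 0) (XT.nd (nat_lit 94) (nat_lit 0) (nat_lit 0) (XT.lf (nat_lit 0) (nat_lit 8120715495) (nat_lit 168) (nat_lit 18232523060) (nat_lit 0) (nat_lit 6804932701) (nat_lit 7) (nat_lit 5) (nat_lit 9) (nat_lit 4) (nat_lit 7) (nat_lit 4) (nat_lit 422) (nat_lit 264) (nat_lit 259)) (XT.nd (nat_lit 94) (nat_lit 0) (nat_lit 0) (XT.lf (nat_lit 0) (nat_lit 11429604907) (nat_lit 168) (nat_lit 12747699405) (nat_lit 0) (nat_lit 9873206866) (nat_lit 7) (nat_lit 5) (nat_lit 9) (nat_lit 4) (nat_lit 7) (nat_lit 4) (nat_lit 423) (nat_lit 264) (nat_lit 258)) (XT.lf (nat_lit 0) (nat_lit 14776277794) (nat_lit 168) (nat_lit 7208948806) (nat_lit 0) (nat_lit 12986272718) (nat_lit 7) (nat_lit 5) (nat_lit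 9) (nat_lit 4) (nat_lit 7) (nat_lit 4) (nat_lit 424) (nat_lit 264) (nat_lit 257)))) (XT.nd (nat_lit 94) (nat_lit 84) (nat_lit 0) (XT.lf (nat_lit 0) (nat_lit 18163658435) (nat_lit 168) (nat_lit 1611431575) (nat_lit 0) (nat_lit 16146850411) (nat_lit 7) (nat_lit 5) (nat_lit 9) (nat_lit 4) (nat_lit 7) (nat_lit 4) (nat_lit 425) (nat_lit 264) (nat_lit 256)) (XT.nd (nat_lit 94) (nat_lit 0) (nat_lit 0) (XT.lf (nat_lit 0) (nat_lit 4130341152) (nat_lit 84) (nat_lit 17504068889) (nat_lit 84) (nat_lit 15267063830) (nat_lit 6) (nat_lit 4) (nat_lit 7) (nat_lit 5) (nat_lit 7) (nat_lit 4) (nat_lit 426) (nat_lit 264) (nat_lit 255)) (XT.lf (nat_lit 0) (nat_lit 9974154211) (nat_lit 84) (nat_lit 15194143980) (nat_lit 84) (nat_lit 12743355391) (nat_lit 6) (nat_lit 4) (nat_lit 7) (nat_lit 5) (nat_lit 7) (nat_lit 4) (nat_lit 427) (nat_lit 264) (nat_lit 254))))) (XT.nd (nat_lit 282) (nat_lit 168) (nat_lit 0)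 (XT.nd (nat_lit 94) (nat_lit 0) (nat_lit 0) (XT.lf (nat_lit 0) (nat_lit 15893043198) (nat_lit 84) (nat_lit 12859569202) (nat_lit 84) (nat_lit 10201223787) (nat_lit 6) (nat_lit 4) (nat_lit 7) (nat_lit 5) (nat_lit 7) (nat_lit 4) (nat_lit 428) (nat_lit 264) (nat_lit 253)) (XT.nd (nat_lit 94) (nat_lit 0) (nat_lit 0) (XT.lf (nat_lit 0) (nat_lit 21892179957) (nat_lit 84) (nat_lit 10498304635) (nat_lit 84) (nat_lit 7638447739) (nat_lit 6) (nat_lit 4) (nat_lit 7) (nat_lit 5) (nat_lit 7) (nat_lit 4) (nat_lit 429) (nat_lit 264) (nat_lit 252)) (XT.lf (nat_lit 0) (nat_lit 27976806452) (nat_lit 84) (nat_lit 8108287038) (nat_lit 84) (nat_lit 5052787927) (nat_lit 6) (nat_lit 4) (nat_lit 7) (nat_lit 5) (nat_lit 7) (nat_lit 4) (nat_lit 430) (nat_lit 264) (nat_lit 251)))) (XT.nd (nat_lit 188) (nat_lit 84) (nat_lit 0) (XT.nd (nat_lit 94) (nat_lit 84) (nat_lit 0) (XT.lf (nat_lit 0) (nat_lit 34152239348) (nat_lit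 84) (nat_lit 5687428046) (nat_lit 84) (nat_lit 2441985038) (nat_lit 6) (nat_lit 4) (nat_lit 7) (nat_lit 5) (nat_lit 7) (nat_lit 4) (nat_lit 431) (nat_lit 264) (nat_lit 250)) (XT.lf (nat_lit 0) (nat_lit 192412820) (nat_lit 168) (nat_lit 3039256533) (nat_lit 84) (nat_lit 40229518841) (nat_lit 5) (nat_lit 5) (nat_lit 7) (nat_lit 5) (nat_lit 6) (nat_lit 4) (nat_lit 432) (nat_lit 264) (nat_lit 249))) (XT.nd (nat_lit 94) (nat_lit 0) (nat_lit 0) (XT.lf (nat_lit 0) (nat_lit 2133605133) (nat_lit 84) (nat_lit 695212617) (nat_lit 168) (nat_lit 41847430184) (nat_lit 4) (nat_lit 5) (nat_lit 5) (nat_lit 5) (nat_lit 6) (nat_lit 4) (nat_lit 433) (nat_lit 264) (nat_lit 248)) (XT.lf (nat_lit 0) (nat_lit 5545493521) (nat_lit 168) (nat_lit 38509305430) (nat_lit 0) (nat_lit 1872949371) (nat_lit 4) (nat_lit 5) (nat_lit 6) (nat_lit 4) (nat_lit 4) (nat_lit 4) (nat_lit 434) (nat_lit 264) (nat_lit 247)))))) (XT.nd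 (nat_lit 658) (nat_lit 84) (nat_lit 0) (XT.nd (nat_lit 282) (nat_lit 0) (nat_lit 0) (XT.nd (nat_lit 94) (nat_lit 0) (nat_lit 0) (XT.lf (nat_lit 0) (nat_lit 8303711760) (nat_lit 168) (nat_lit 34446983873) (nat_lit 0) (nat_lit 4467320335) (nat_lit 4) (nat_lit 5) (nat_lit 6) (nat_lit 4) (nat_lit 4) (nat_lit 4) (nat_lit 435) (nat_lit 264) (nat_lit 246)) (XT.nd (nat_lit 94) (nat_lit 0) (nat_lit 0) (XT.lf (nat_lit 0) (nat_lit 11099199753) (nat_lit 168) (nat_lit 30345445718) (nat_lit 0) (nat_lit 7103733304) (nat_lit 4) (nat_lit 5) (nat_lit 6) (nat_lit 4) (nat_lit 4) (nat_lit 4) (nat_lit 436) (nat_lit 264) (nat_lit 245)) (XT.lf (nat_lit 0) (nat_lit 13934400159) (nat_lit 168) (nat_lit 26201107097) (nat_lit 0) (nat_lit 9784491940) (nat_lit 4) (nat_lit 5) (nat_lit 6) (nat_lit 4) (nat_lit 4) (nat_lit 4) (nat_lit 437) (nat_lit 264) (nat_lit 244)))) (XT.nd (nat_lit 188) (nat_lit 0) (nat_lit 0) (XT.nd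 (nat_lit 94) (nat_lit 0) (nat_lit 0) (XT.lf (nat_lit 0) (nat_lit 16811790338) (nat_lit 168) (nat_lit 22010346745) (nat_lit 0) (nat_lit 12511938651) (nat_lit 4) (nat_lit 5) (nat_lit 6) (nat_lit 4) (nat_lit 4) (nat_lit 4) (nat_lit 438) (nat_lit 264) (nat_lit 243)) (XT.lf (nat_lit 0) (nat_lit 19733884514) (nat_lit 168) (nat_lit 17769502831) (nat_lit 0) (nat_lit 15288456646) (nat_lit 4) (nat_lit 5) (nat_lit 6) (nat_lit 4) (nat_lit 4) (nat_lit 4) (nat_lit 439) (nat_lit 264) (nat_lit 242))) (XT.nd (nat_lit 94) (nat_lit 0) (nat_lit 0) (XT.lf (nat_lit 0) (nat_lit 22703235973) (nat_lit 168) (nat_lit 13474869763) (nat_lit 0) (nat_lit 18116472006) (nat_lit 4) (nat_lit 5) (nat_lit 6) (nat_lit 4) (nat_lit 4) (nat_lit 4) (nat_lit 440) (nat_lit 264) (nat_lit 241)) (XT.lf (nat_lit 0) (nat_lit 25722439294) (nat_lit 168) (nat_lit 9122694950) (nat_lit 0) (nat_lit 20998455815) (nat_lit 4) (nat_lit 5) (nat_lit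 6) (nat_lit 4) (nat_lit 4) (nat_lit 4) (nat_lit 441) (nat_lit 264) (nat_lit 240))))) (XT.nd (nat_lit 282) (nat_lit 0) (nat_lit 0) (XT.nd (nat_lit 94) (nat_lit 84) (nat_lit 0) (XT.lf (nat_lit 0) (nat_lit 28794132616) (nat_lit 168) (nat_lit 4709175520) (nat_lit 0) (nat_lit 23936926309) (nat_lit 4) (nat_lit 5) (nat_lit 6) (nat_lit 4) (nat_lit 4) (nat_lit 4) (nat_lit 442) (nat_lit 264) (nat_lit 239)) (XT.nd (nat_lit 94) (nat_lit 84) (nat_lit 0) (XT.lf (nat_lit 0) (nat_lit 31920999943) (nat_lit 168) (nat_lit 230455000) (nat_lit 0) (nat_lit 26934451084) (nat_lit 4) (nat_lit 5) (nat_lit 6) (nat_lit 4) (nat_lit 4) (nat_lit 4) (nat_lit 443) (nat_lit 264) (nat_lit 238)) (XT.lf (nat_lit 0) (nat_lit 4403304382) (nat_lit 84) (nat_lit 30744796362) (nat_lit 84) (nat_lit 25632672210) (nat_lit 3) (nat_lit 4) (nat_lit 4) (nat_lit 5) (nat_lit 4) (nat_lit 4) (nat_lit 444) (nat_lit 264) (nat_lit 237)))) (XT.nd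 (nat_lit 188) (nat_lit 0) (nat_lit 0) (XT.nd (nat_lit 94) (nat_lit 0) (nat_lit 0) (XT.lf (nat_lit 0) (nat_lit 9116193245) (nat_lit 84) (nat_lit 29322673247) (nat_lit 84) (nat_lit 24088631335) (nat_lit 3) (nat_lit 4) (nat_lit 4) (nat_lit 5) (nat_lit 4) (nat_lit 4) (nat_lit 445) (nat_lit 264) (nat_lit 236)) (XT.lf (nat_lit 0) (nat_lit 13907743140) (nat_lit 84) (nat_lit 27886170110) (nat_lit 84) (nat_lit 22533761441) (nat_lit 3) (nat_lit 4) (nat_lit 4) (nat_lit 5) (nat_lit 4) (nat_lit 4) (nat_lit 446) (nat_lit 264) (nat_lit 235))) (XT.nd (nat_lit 94) (nat_lit 0) (nat_lit 0) (XT.lf (nat_lit 0) (nat_lit 18782140857) (nat_lit 84) (nat_lit 26434031755) (nat_lit 84) (nat_lit 20966703904) (nat_lit 3) (nat_lit 4) (nat_lit 4) (nat_lit 5) (nat_lit 4) (nat_lit 4) (nat_lit 447) (nat_lit 264) (nat_lit 234)) (XT.lf (nat_lit 0) (nat_lit 23743645580) (nat_lit 84) (nat_lit 24964989322) (nat_lit 84) (nat_lit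 19386089450) (nat_lit 3) (nat_lit 4) (nat_lit 4) (nat_lit 5) (nat_lit 4) (nat_lit 4) (nat_lit 448) (nat_lit 264) (nat_lit 233))))))) (XT.nd (nat_lit 1316) (nat_lit 168) (nat_lit 0) (XT.nd (nat_lit 658) (nat_lit 84) (nat_lit 0) (XT.nd (nat_lit 282) (nat_lit 168) (nat_lit 0) (XT.nd (nat_lit 94) (nat_lit 0) (nat_lit 0) (XT.lf (nat_lit 0) (nat_lit 54995517) (nat_lit 84) (nat_lit 6881047735) (nat_lit 84) (nat_lit 6881047735) (nat_lit 9) (nat_lit 4) (nat_lit 10) (nat_lit 5) (nat_lit 10) (nat_lit 4) (nat_lit 415) (nat_lit 265) (nat_lit 265)) (XT.nd (nat_lit 94) (nat_lit 0) (nat_lit 0) (XT.lf (nat_lit 0) (nat_lit 6654999317) (nat_lit 84) (nat_lit 10995987251) (nat_lit 84) (nat_lit 10700060848) (nat_lit 9) (nat_lit 4) (nat_lit 10) (nat_lit 5) (nat_lit 10) (nat_lit 4) (nat_lit 416) (nat_lit 265) (nat_lit 264)) (XT.lf (nat_lit 0) (nat_lit 13269957046) (nat_lit 84) (nat_lit 8202431279) (nat_lit 84)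 (nat_lit 7619197687) (nat_lit 9) (nat_lit 4) (nat_lit 10) (nat_lit 5) (nat_lit 10) (nat_lit 4) (nat_lit 417) (nat_lit 265) (nat_lit 263)))) (XT.nd (nat_lit 188) (nat_lit 168) (nat_lit 0) (XT.nd (nat_lit 94) (nat_lit 0) (nat_lit 0) (XT.lf (nat_lit 0) (nat_lit 19960644280) (nat_lit 84) (nat_lit 5378986580) (nat_lit 84) (nat_lit 4516813971) (nat_lit 9) (nat_lit 4) (nat_lit 10) (nat_lit 5) (nat_lit 10) (nat_lit 4) (nat_lit 418) (nat_lit 265) (nat_lit 262)) (XT.lf (nat_lit 0) (nat_lit 26732907251) (nat_lit 84) (nat_lit 2523186068) (nat_lit 84) (nat_lit 1390198879) (nat_lit 9) (nat_lit 4) (nat_lit 10) (nat_lit 5) (nat_lit 10) (nat_lit 4) (nat_lit 419) (nat_lit 265) (nat_lit 261))) (XT.nd (nat_lit 94) (nat_lit 0) (nat_lit 0) (XT.lf (nat_lit 0) (nat_lit 1753599477) (nat_lit 168) (nat_lit 29308628180) (nat_lit 0) (nat_lit 398343199) (nat_lit 7) (nat_lit 5) (nat_lit 9) (nat_lit 4) (nat_lit 7) (nat_lit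 4) (nat_lit 420) (nat_lit 265) (nat_lit 260)) (XT.lf (nat_lit 0) (nat_lit 4963433447) (nat_lit 168) (nat_lit 23975133699) (nat_lit 0) (nat_lit 3360343465) (nat_lit 7) (nat_lit 5) (nat_lit 9) (nat_lit 4) (nat_lit 7) (nat_lit 4) (nat_lit 421) (nat_lit 265) (nat_lit 259))))) (XT.nd (nat_lit 282) (nat_lit 84) (nat_lit 0) (XT.nd (nat_lit 94) (nat_lit 0) (nat_lit 0) (XT.lf (nat_lit 0) (nat_lit 8206234733) (nat_lit 168) (nat_lit 18595570680) (nat_lit 0) (nat_lit 6362529504) (nat_lit 7) (nat_lit 5) (nat_lit 9) (nat_lit 4) (nat_lit 7) (nat_lit 4) (nat_lit 422) (nat_lit 265) (nat_lit 258)) (XT.nd (nat_lit 94) (nat_lit 0) (nat_lit 0) (XT.lf (nat_lit 0) (nat_lit 11484836850) (nat_lit 168) (nat_lit 13165238536) (nat_lit 0) (nat_lit 9407524586) (nat_lit 7) (nat_lit 5) (nat_lit 9) (nat_lit 4) (nat_lit 7) (nat_lit 4) (nat_lit 423) (nat_lit 265) (nat_lit 257)) (XT.lf (nat_lit 0) (nat_lit 14802104598) (nat_lit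 168) (nat_lit 7679392314) (nat_lit 0) (nat_lit 12497989387) (nat_lit 7) (nat_lit 5) (nat_lit 9) (nat_lit 4) (nat_lit 7) (nat_lit 4) (nat_lit 424) (nat_lit 265) (nat_lit 256)))) (XT.nd (nat_lit 188) (nat_lit 0) (nat_lit 0) (XT.nd (nat_lit 94) (nat_lit 84) (nat_lit 0) (XT.lf (nat_lit 0) (nat_lit 18160936560) (nat_lit 168) (nat_lit 2133238557) (nat_lit 0) (nat_lit 15636624312) (nat_lit 7) (nat_lit 5) (nat_lit 9) (nat_lit 4) (nat_lit 7) (nat_lit 4) (nat_lit 425) (nat_lit 265) (nat_lit 255)) (XT.lf (nat_lit 0) (nat_lit 3547289277) (nat_lit 84) (nat_lit 18051077073) (nat_lit 84) (nat_lit 15312981295) (nat_lit 6) (nat_lit 4) (nat_lit 7) (nat_lit 5) (nat_lit 7) (nat_lit 4) (nat_lit 426) (nat_lit 265) (nat_lit 254))) (XT.nd (nat_lit 94) (nat_lit 0) (nat_lit 0) (XT.lf (nat_lit 0) (nat_lit 9341723782) (nat_lit 84) (nat_lit 15763146193) (nat_lit 84) (nat_lit 12817493589) (nat_lit 6) (nat_lit 4) (nat_lit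 7) (nat_lit 5) (nat_lit 7) (nat_lit 4) (nat_lit 427) (nat_lit 265) (nat_lit 253)) (XT.lf (nat_lit 0) (nat_lit 15212672426) (nat_lit 84) (nat_lit 13449924840) (nat_lit 84) (nat_lit 10302760756) (nat_lit 6) (nat_lit 4) (nat_lit 7) (nat_lit 5) (nat_lit 7) (nat_lit 4) (nat_lit 428) (nat_lit 265) (nat_lit 252)))))) (XT.nd (nat_lit 658) (nat_lit 0) (nat_lit 0) (XT.nd (nat_lit 282) (nat_lit 168) (nat_lit 0) (XT.nd (nat_lit 94) (nat_lit 0) (nat_lit 0) (XT.lf (nat_lit 0) (nat_lit 21165265162) (nat_lit 84) (nat_lit 11109391755) (nat_lit 84) (nat_lit 7766585456) (nat_lit 6) (nat_lit 4) (nat_lit 7) (nat_lit 5) (nat_lit 7) (nat_lit 4) (nat_lit 429) (nat_lit 265) (nat_lit 251)) (XT.nd (nat_lit 94) (nat_lit 0) (nat_lit 0) (XT.lf (nat_lit 0) (nat_lit 27204703286) (nat_lit 84) (nat_lit 8739501809) (nat_lit 84) (nat_lit 5206751613) (nat_lit 6) (nat_lit 4) (nat_lit 7) (nat_lit 5) (nat_lit 7) (nat_lit 4)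 (nat_lit 430) (nat_lit 265) (nat_lit 250)) (XT.lf (nat_lit 0) (nat_lit 33336263977) (nat_lit 84) (nat_lit 6338184227) (nat_lit 84) (nat_lit 2621022479) (nat_lit 6) (nat_lit 4) (nat_lit 7) (nat_lit 5) (nat_lit 7) (nat_lit 4) (nat_lit 431) (nat_lit 265) (nat_lit 249)))) (XT.nd (nat_lit 188) (nat_lit 0) (nat_lit 0) (XT.nd (nat_lit 94) (nat_lit 168) (nat_lit 0) (XT.lf (nat_lit 0) (nat_lit 39565304908) (nat_lit 84) (nat_lit 3903340769) (nat_lit 84) (nat_lit 7138680) (nat_lit 6) (nat_lit 4) (nat_lit 7) (nat_lit 5) (nat_lit 7) (nat_lit 4) (nat_lit 432) (nat_lit 265) (nat_lit 248)) (XT.lf (nat_lit 0) (nat_lit 1202453838) (nat_lit 84) (nat_lit 1394827688) (nat_lit 168) (nat_lit 42094540279) (nat_lit 4) (nat_lit 5) (nat_lit 5) (nat_lit 5) (nat_lit 6) (nat_lit 4) (nat_lit 433) (nat_lit 265) (nat_lit 247))) (XT.nd (nat_lit 94) (nat_lit 0) (nat_lit 0) (XT.lf (nat_lit 0) (nat_lit 5284157737) (nat_lit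 168) (nat_lit 39491242731) (nat_lit 0) (nat_lit 1168827295) (nat_lit 4) (nat_lit 5) (nat_lit 6) (nat_lit 4) (nat_lit 4) (nat_lit 4) (nat_lit 434) (nat_lit 265) (nat_lit 246)) (XT.lf (nat_lit 0) (nat_lit 8019973615) (nat_lit 168) (nat_lit 35469636961) (nat_lit 0) (nat_lit 3745568149) (nat_lit 4) (nat_lit 5) (nat_lit 6) (nat_lit 4) (nat_lit 4) (nat_lit 4) (nat_lit 435) (nat_lit 265) (nat_lit 245))))) (XT.nd (nat_lit 282) (nat_lit 0) (nat_lit 0) (XT.nd (nat_lit 94) (nat_lit 0) (nat_lit 0) (XT.lf (nat_lit 0) (nat_lit 10793711743) (nat_lit 168) (nat_lit 31407628698) (nat_lit 0) (nat_lit 6364864506) (nat_lit 4) (nat_lit 5) (nat_lit 6) (nat_lit 4) (nat_lit 4) (nat_lit 4) (nat_lit 436) (nat_lit 265) (nat_lit 244)) (XT.nd (nat_lit 94) (nat_lit 0) (nat_lit 0) (XT.lf (nat_lit 0) (nat_lit 13607795775) (nat_lit 168) (nat_lit 27301668613) (nat_lit 0) (nat_lit 9029005071) (nat_lit 4) (nat_lit 5) (nat_lit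 6) (nat_lit 4) (nat_lit 4) (nat_lit 4) (nat_lit 437) (nat_lit 265) (nat_lit 243)) (XT.lf (nat_lit 0) (nat_lit 16464684619) (nat_lit 168) (nat_lit 23148168974) (nat_lit 0) (nat_lit 11740317734) (nat_lit 4) (nat_lit 5) (nat_lit 6) (nat_lit 4) (nat_lit 4) (nat_lit 4) (nat_lit 438) (nat_lit 265) (nat_lit 242)))) (XT.nd (nat_lit 188) (nat_lit 0) (nat_lit 0) (XT.nd (nat_lit 94) (nat_lit 0) (nat_lit 0) (XT.lf (nat_lit 0) (nat_lit 19366874587) (nat_lit 168) (nat_lit 18943500510) (nat_lit 0) (nat_lit 14501171603) (nat_lit 4) (nat_lit 5) (nat_lit 6) (nat_lit 4) (nat_lit 4) (nat_lit 4) (nat_lit 439) (nat_lit 265) (nat_lit 241)) (XT.lf (nat_lit 0) (nat_lit 22316901572) (nat_lit 168) (nat_lit 14683989239) (nat_lit 0) (nat_lit 17313979076) (nat_lit 4) (nat_lit 5) (nat_lit 6) (nat_lit 4) (nat_lit 4) (nat_lit 4) (nat_lit 440) (nat_lit 265) (nat_lit 240))) (XT.nd (nat_lit 94) (nat_lit 0) (nat_lit 0) (XT.lf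 (nat_lit 0) (nat_lit 25317343269) (nat_lit 168) (nat_lit 10365913257) (nat_lit 0) (nat_lit 20181197944) (nat_lit 4) (nat_lit 5) (nat_lit 6) (nat_lit 4) (nat_lit 4) (nat_lit 4) (nat_lit 441) (nat_lit 265) (nat_lit 239)) (XT.lf (nat_lit 0) (nat_lit 28370821421) (nat_lit 168) (nat_lit 5985499489) (nat_lit 0) (nat_lit 23105333545) (nat_lit 4) (nat_lit 5) (nat_lit 6) (nat_lit 4) (nat_lit 4) (nat_lit 4) (nat_lit 442) (nat_lit 265) (nat_lit 238))))))))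
noncomputable def xc5 : XT := (XT.nd (nat_lit 58468) (nat_lit 0) (nat_lit 0) (XT.nd (nat_lit 57152) (nat_lit 0) (nat_lit 84) (XT.nd (nat_lit 56494) (nat_lit 0) (nat_lit 504) (XT.nd (nat_lit 282) (nat_lit 0) (nat_lit 0) (XT.nd (nat_lit 94) (nat_lit 84) (nat_lit 0) (XT.lf (nat_lit 0) (nat_lit 31480004117) (nat_lit 168) (nat_lit 1538920388) (nat_lit 0) (nat_lit 26088940948) (nat_lit 4) (nat_lit 5) (nat_lit 6) (nat_lit 4) (nat_lit 4) (nat_lit 4) (nat_lit 443) (nat_lit 265) (nat_lit 237)) (XT.nd (nat_lit 94) (nat_lit 0) (nat_lit 0) (XT.lf (nat_lit 0) (nat_lit 3036971661) (nat_lit 84) (nat_lit 31639829687) (nat_lit 84) (nat_lit 26126848758) (nat_lit 3) (nat_lit 4) (nat_lit 4) (nat_lit 5) (nat_lit 4) (nat_lit 4) (nat_lit 444) (nat_lit 265) (nat_lit 236)) (XT.lf (nat_lit 0) (nat_lit 7718961196) (nat_lit 84) (nat_lit 30231639416) (nat_lit 84) (nat_lit 24600291729) (nat_lit 3) (nat_lit 4) (nat_lit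 4) (nat_lit 5) (nat_lit 4) (nat_lit 4) (nat_lit 445) (nat_lit 265) (nat_lit 235)))) (XT.nd (nat_lit 94) (nat_lit 0) (nat_lit 0) (XT.lf (nat_lit 0) (nat_lit 12480511744) (nat_lit 84) (nat_lit 28808663311) (nat_lit 84) (nat_lit 23062396442) (nat_lit 3) (nat_lit 4) (nat_lit 4) (nat_lit 5) (nat_lit 4) (nat_lit 4) (nat_lit 446) (nat_lit 265) (nat_lit 234)) (XT.nd (nat_lit 94) (nat_lit 0) (nat_lit 0) (XT.lf (nat_lit 0) (nat_lit 17325783883) (nat_lit 84) (nat_lit 27369657996) (nat_lit 84) (nat_lit 21511819106) (nat_lit 3) (nat_lit 4) (nat_lit 4) (nat_lit 5) (nat_lit 4) (nat_lit 4) (nat_lit 447) (nat_lit 265) (nat_lit 233)) (XT.lf (nat_lit 0) (nat_lit 22259011344) (nat_lit 84) (nat_lit 25913366089) (nat_lit 84) (nat_lit 19947204848) (nat_lit 3) (nat_lit 4) (nat_lit 4) (nat_lit 5) (nat_lit 4) (nat_lit 4) (nat_lit 448) (nat_lit 265) (nat_lit 232))))) (XT.nd (nat_lit 282) (nat_lit 0) (nat_lit 0)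 (XT.nd (nat_lit 94) (nat_lit 84) (nat_lit 0) (XT.lf (nat_lit 0) (nat_lit 3446398093) (nat_lit 168) (nat_lit 6239294994) (nat_lit 0) (nat_lit 3446398093) (nat_lit 10) (nat_lit 5) (nat_lit 12) (nat_lit 4) (nat_lit 10) (nat_lit 4) (nat_lit 413) (nat_lit 266) (nat_lit 266)) (XT.nd (nat_lit 94) (nat_lit 84) (nat_lit 0) (XT.lf (nat_lit 0) (nat_lit 10498430274) (nat_lit 168) (nat_lit 6246469745) (nat_lit 0) (nat_lit 10193626079) (nat_lit 10) (nat_lit 5) (nat_lit 12) (nat_lit 4) (nat_lit 10) (nat_lit 4) (nat_lit 414) (nat_lit 266) (nat_lit 265)) (XT.lf (nat_lit 0) (nat_lit 45856637) (nat_lit 84) (nat_lit 14095077772) (nat_lit 84) (nat_lit 13494347173) (nat_lit 9) (nat_lit 4) (nat_lit 10) (nat_lit 5) (nat_lit 10) (nat_lit 4) (nat_lit 415) (nat_lit 266) (nat_lit 264)))) (XT.nd (nat_lit 188) (nat_lit 0) (nat_lit 0) (XT.nd (nat_lit 94) (nat_lit 0) (nat_lit 0) (XT.lf (nat_lit 0) (nat_lit 6528598514)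 (nat_lit 84) (nat_lit 11356326939) (nat_lit 84) (nat_lit 10468289152) (nat_lit 9) (nat_lit 4) (nat_lit 10) (nat_lit 5) (nat_lit 10) (nat_lit 4) (nat_lit 416) (nat_lit 266) (nat_lit 263)) (XT.lf (nat_lit 0) (nat_lit 13083103422) (nat_lit 84) (nat_lit 8589331534) (nat_lit 84) (nat_lit 7422354730) (nat_lit 9) (nat_lit 4) (nat_lit 10) (nat_lit 5) (nat_lit 10) (nat_lit 4) (nat_lit 417) (nat_lit 266) (nat_lit 262))) (XT.nd (nat_lit 94) (nat_lit 0) (nat_lit 0) (XT.lf (nat_lit 0) (nat_lit 19715098597) (nat_lit 84) (nat_lit 5791673795) (nat_lit 84) (nat_lit 4353882410) (nat_lit 9) (nat_lit 4) (nat_lit 10) (nat_lit 5) (nat_lit 10) (nat_lit 4) (nat_lit 418) (nat_lit 266) (nat_lit 261)) (XT.lf (nat_lit 0) (nat_lit 26430378987) (nat_lit 84) (nat_lit 2960909166) (nat_lit 84) (nat_lit 1260191004) (nat_lit 9) (nat_lit 4) (nat_lit 10) (nat_lit 5) (nat_lit 10) (nat_lit 4) (nat_lit 419) (nat_lit 266) (nat_lit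 260)))))) (XT.nd (nat_lit 658) (nat_lit 168) (nat_lit 0) (XT.nd (nat_lit 282) (nat_lit 84) (nat_lit 0) (XT.nd (nat_lit 94) (nat_lit 0) (nat_lit 0) (XT.lf (nat_lit 0) (nat_lit 1783773257) (nat_lit 84) (nat_lit 58473114) (nat_lit 168) (nat_lit 29624656195) (nat_lit 7) (nat_lit 5) (nat_lit 8) (nat_lit 5) (nat_lit 9) (nat_lit 4) (nat_lit 420) (nat_lit 266) (nat_lit 259)) (XT.nd (nat_lit 94) (nat_lit 0) (nat_lit 0) (XT.lf (nat_lit 0) (nat_lit 5020322349) (nat_lit 168) (nat_lit 24405199003) (nat_lit 0) (nat_lit 2880690717) (nat_lit 7) (nat_lit 5) (nat_lit 9) (nat_lit 4) (nat_lit 7) (nat_lit 4) (nat_lit 421) (nat_lit 266) (nat_lit 258)) (XT.lf (nat_lit 0) (nat_lit 8232836341) (nat_lit 168) (nat_lit 19080127494) (nat_lit 0) (nat_lit 5859597673) (nat_lit 7) (nat_lit 5) (nat_lit 9) (nat_lit 4) (nat_lit 7) (nat_lit 4) (nat_lit 422) (nat_lit 266) (nat_lit 257)))) (XT.nd (nat_lit 188) (nat_lit 84)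 (nat_lit 0) (XT.nd (nat_lit 94) (nat_lit 0) (nat_lit 0) (XT.lf (nat_lit 0) (nat_lit 11482033319) (nat_lit 168) (nat_lit 13702699727) (nat_lit 0) (nat_lit 8881991704) (nat_lit 7) (nat_lit 5) (nat_lit 9) (nat_lit 4) (nat_lit 7) (nat_lit 4) (nat_lit 423) (nat_lit 266) (nat_lit 256)) (XT.lf (nat_lit 0) (nat_lit 14770752388) (nat_lit 168) (nat_lit 8268216979) (nat_lit 0) (nat_lit 11950513737) (nat_lit 7) (nat_lit 5) (nat_lit 9) (nat_lit 4) (nat_lit 7) (nat_lit 4) (nat_lit 424) (nat_lit 266) (nat_lit 255))) (XT.nd (nat_lit 94) (nat_lit 84) (nat_lit 0) (XT.lf (nat_lit 0) (nat_lit 18101867184) (nat_lit 168) (nat_lit 2771930673) (nat_lit 0) (nat_lit 15067845003) (nat_lit 7) (nat_lit 5) (nat_lit 9) (nat_lit 4) (nat_lit 7) (nat_lit 4) (nat_lit 425) (nat_lit 266) (nat_lit 254)) (XT.lf (nat_lit 0) (nat_lit 2846507382) (nat_lit 84) (nat_lit 18659143380) (nat_lit 84) (nat_lit 15417564373) (nat_lit 6)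 (nat_lit 4) (nat_lit 7) (nat_lit 5) (nat_lit 7) (nat_lit 4) (nat_lit 426) (nat_lit 266) (nat_lit 253))))) (XT.nd (nat_lit 282) (nat_lit 168) (nat_lit 0) (XT.nd (nat_lit 94) (nat_lit 0) (nat_lit 0) (XT.lf (nat_lit 0) (nat_lit 8593001544) (nat_lit 84) (nat_lit 16392565926) (nat_lit 84) (nat_lit 12949475438) (nat_lit 6) (nat_lit 4) (nat_lit 7) (nat_lit 5) (nat_lit 7) (nat_lit 4) (nat_lit 427) (nat_lit 266) (nat_lit 252)) (XT.nd (nat_lit 94) (nat_lit 0) (nat_lit 0) (XT.lf (nat_lit 0) (nat_lit 14417406164) (nat_lit 84) (nat_lit 14100076055) (nat_lit 84) (nat_lit 10461343352) (nat_lit 6) (nat_lit 4) (nat_lit 7) (nat_lit 5) (nat_lit 7) (nat_lit 4) (nat_lit 428) (nat_lit 266) (nat_lit 251)) (XT.lf (nat_lit 0) (nat_lit 20324810529) (nat_lit 84) (nat_lit 11779670621) (nat_lit 84) (nat_lit 7950994020) (nat_lit 6) (nat_lit 4) (nat_lit 7) (nat_lit 5) (nat_lit 7) (nat_lit 4) (nat_lit 429) (nat_lit 266)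 (nat_lit 250)))) (XT.nd (nat_lit 188) (nat_lit 168) (nat_lit 0) (XT.nd (nat_lit 94) (nat_lit 0) (nat_lit 0) (XT.lf (nat_lit 0) (nat_lit 26320376448) (nat_lit 84) (nat_lit 9429322085) (nat_lit 84) (nat_lit 5416233934) (nat_lit 6) (nat_lit 4) (nat_lit 7) (nat_lit 5) (nat_lit 7) (nat_lit 4) (nat_lit 430) (nat_lit 266) (nat_lit 249)) (XT.lf (nat_lit 0) (nat_lit 32409342764) (nat_lit 84) (nat_lit 7046976745) (nat_lit 84) (nat_lit 2854848253) (nat_lit 6) (nat_lit 4) (nat_lit 7) (nat_lit 5) (nat_lit 7) (nat_lit 4) (nat_lit 431) (nat_lit 266) (nat_lit 248))) (XT.nd (nat_lit 94) (nat_lit 168) (nat_lit 0) (XT.lf (nat_lit 0) (nat_lit 38597029934) (nat_lit 84) (nat_lit 4630552940) (nat_lit 84) (nat_lit 264598874) (nat_lit 6) (nat_lit 4) (nat_lit 7) (nat_lit 5) (nat_lit 7) (nat_lit 4) (nat_lit 432) (nat_lit 266) (nat_lit 247)) (XT.lf (nat_lit 0) (nat_lit 159291866) (nat_lit 84) (nat_lit 2153027653)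 (nat_lit 168) (nat_lit 42396961279) (nat_lit 4) (nat_lit 5) (nat_lit 5) (nat_lit 5) (nat_lit 6) (nat_lit 4) (nat_lit 433) (nat_lit 266) (nat_lit 246))))))) (XT.nd (nat_lit 1316) (nat_lit 0) (nat_lit 0) (XT.nd (nat_lit 658) (nat_lit 84) (nat_lit 0) (XT.nd (nat_lit 282) (nat_lit 0) (nat_lit 0) (XT.nd (nat_lit 94) (nat_lit 0) (nat_lit 0) (XT.lf (nat_lit 0) (nat_lit 4969505087) (nat_lit 168) (nat_lit 40585291201) (nat_lit 0) (nat_lit 407792432) (nat_lit 4) (nat_lit 5) (nat_lit 6) (nat_lit 4) (nat_lit 4) (nat_lit 4) (nat_lit 434) (nat_lit 266) (nat_lit 245)) (XT.nd (nat_lit 94) (nat_lit 0) (nat_lit 0) (XT.lf (nat_lit 0) (nat_lit 7683571099) (nat_lit 168) (nat_lit 36603215322) (nat_lit 0) (nat_lit 2967416674) (nat_lit 4) (nat_lit 5) (nat_lit 6) (nat_lit 4) (nat_lit 4) (nat_lit 4) (nat_lit 435) (nat_lit 266) (nat_lit 244)) (XT.lf (nat_lit 0) (nat_lit 10436192853) (nat_lit 168) (nat_lit 32579585594)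 (nat_lit 0) (nat_lit 5570094961) (nat_lit 4) (nat_lit 5) (nat_lit 6) (nat_lit 4) (nat_lit 4) (nat_lit 4) (nat_lit 436) (nat_lit 266) (nat_lit 243)))) (XT.nd (nat_lit 188) (nat_lit 0) (nat_lit 0) (XT.nd (nat_lit 94) (nat_lit 0) (nat_lit 0) (XT.lf (nat_lit 0) (nat_lit 13229775550) (nat_lit 168) (nat_lit 28510886222) (nat_lit 0) (nat_lit 8218101477) (nat_lit 4) (nat_lit 5) (nat_lit 6) (nat_lit 4) (nat_lit 4) (nat_lit 4) (nat_lit 437) (nat_lit 266) (nat_lit 242)) (XT.lf (nat_lit 0) (nat_lit 16066760187) (nat_lit 168) (nat_lit 24393562034) (nat_lit 0) (nat_lit 10913750015) (nat_lit 4) (nat_lit 5) (nat_lit 6) (nat_lit 4) (nat_lit 4) (nat_lit 4) (nat_lit 438) (nat_lit 266) (nat_lit 241))) (XT.nd (nat_lit 94) (nat_lit 0) (nat_lit 0) (XT.lf (nat_lit 0) (nat_lit 18949625681) (nat_lit 168) (nat_lit 20224015366) (nat_lit 0) (nat_lit 13659395997) (nat_lit 4) (nat_lit 5) (nat_lit 6) (nat_lit 4) (nat_lit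 4) (nat_lit 4) (nat_lit 439) (nat_lit 266) (nat_lit 240)) (XT.lf (nat_lit 0) (nat_lit 21880891042) (nat_lit 168) (nat_lit 15998602926) (nat_lit 0) (nat_lit 16457438529) (nat_lit 4) (nat_lit 5) (nat_lit 6) (nat_lit 4) (nat_lit 4) (nat_lit 4) (nat_lit 440) (nat_lit 266) (nat_lit 239))))) (XT.nd (nat_lit 282) (nat_lit 84) (nat_lit 0) (XT.nd (nat_lit 94) (nat_lit 0) (nat_lit 0) (XT.lf (nat_lit 0) (nat_lit 24863117568) (nat_lit 168) (nat_lit 11713632606) (nat_lit 0) (nat_lit 19310322504) (nat_lit 4) (nat_lit 5) (nat_lit 6) (nat_lit 4) (nat_lit 4) (nat_lit 4) (nat_lit 441) (nat_lit 266) (nat_lit 238)) (XT.nd (nat_lit 94) (nat_lit 0) (nat_lit 0) (XT.lf (nat_lit 0) (nat_lit 27898911090) (nat_lit 168) (nat_lit 7365360257) (nat_lit 0) (nat_lit 22220540732) (nat_lit 4) (nat_lit 5) (nat_lit 6) (nat_lit 4) (nat_lit 4) (nat_lit 4) (nat_lit 442) (nat_lit 266) (nat_lit 237)) (XT.lf (nat_lit 0) (nat_lit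 30990924241) (nat_lit 168) (nat_lit 2949986417) (nat_lit 0) (nat_lit 25190636124) (nat_lit 4) (nat_lit 5) (nat_lit 6) (nat_lit 4) (nat_lit 4) (nat_lit 4) (nat_lit 443) (nat_lit 266) (nat_lit 236)))) (XT.nd (nat_lit 188) (nat_lit 0) (nat_lit 0) (XT.nd (nat_lit 94) (nat_lit 0) (nat_lit 0) (XT.lf (nat_lit 0) (nat_lit 1566923323) (nat_lit 84) (nat_lit 32589997684) (nat_lit 84) (nat_lit 26671342809) (nat_lit 3) (nat_lit 4) (nat_lit 4) (nat_lit 5) (nat_lit 4) (nat_lit 4) (nat_lit 444) (nat_lit 266) (nat_lit 235)) (XT.lf (nat_lit 0) (nat_lit 6218913512) (nat_lit 84) (nat_lit 31195334444) (nat_lit 84) (nat_lit 25161760388) (nat_lit 3) (nat_lit 4) (nat_lit 4) (nat_lit 5) (nat_lit 4) (nat_lit 4) (nat_lit 445) (nat_lit 266) (nat_lit 234))) (XT.nd (nat_lit 94) (nat_lit 0) (nat_lit 0) (XT.lf (nat_lit 0) (nat_lit 10951338481) (nat_lit 84) (nat_lit 29785491381) (nat_lit 84) (nat_lit 23640345303) (nat_lit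 3) (nat_lit 4) (nat_lit 4) (nat_lit 5) (nat_lit 4) (nat_lit 4) (nat_lit 446) (nat_lit 266) (nat_lit 233)) (XT.lf (nat_lit 0) (nat_lit 15768333357) (nat_lit 84) (nat_lit 28359236592) (nat_lit 84) (nat_lit 22105768163) (nat_lit 3) (nat_lit 4) (nat_lit 4) (nat_lit 5) (nat_lit 4) (nat_lit 4) (nat_lit 447) (nat_lit 266) (nat_lit 232)))))) (XT.nd (nat_lit 56306) (nat_lit 0) (nat_lit 336) (XT.nd (nat_lit 55930) (nat_lit 0) (nat_lit 588) (XT.nd (nat_lit 94) (nat_lit 0) (nat_lit 0) (XT.lf (nat_lit 0) (nat_lit 20674107167) (nat_lit 84) (nat_lit 26915323835) (nat_lit 84) (nat_lit 20556688075) (nat_lit 3) (nat_lit 4) (nat_lit 4) (nat_lit 5) (nat_lit 4) (nat_lit 4) (nat_lit 448) (nat_lit 266) (nat_lit 231)) (XT.nd (nat_lit 55742) (nat_lit 0) (nat_lit 588) (XT.lf (nat_lit 0) (nat_lit 25672946507) (nat_lit 84) (nat_lit 25452491439) (nat_lit 84) (nat_lit 18991751475) (nat_lit 3) (nat_lit 4) (nat_lit 4)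 (nat_lit 5) (nat_lit 4) (nat_lit 4) (nat_lit 449) (nat_lit 266) (nat_lit 230)) (XT.lf (nat_lit 0) (nat_lit 64841458) (nat_lit 168) (nat_lit 12359959585) (nat_lit 0) (nat_lit 64841458) (nat_lit 10) (nat_lit 5) (nat_lit 12) (nat_lit 4) (nat_lit 10) (nat_lit 4) (nat_lit 411) (nat_lit 267) (nat_lit 267)))) (XT.nd (nat_lit 188) (nat_lit 0) (nat_lit 0) (XT.nd (nat_lit 94) (nat_lit 0) (nat_lit 0) (XT.lf (nat_lit 0) (nat_lit 3634389112) (nat_lit 168) (nat_lit 18656844464) (nat_lit 0) (nat_lit 3320440790) (nat_lit 10) (nat_lit 5) (nat_lit 12) (nat_lit 4) (nat_lit 10) (nat_lit 4) (nat_lit 412) (nat_lit 267) (nat_lit 266)) (XT.lf (nat_lit 0) (nat_lit 7170344523) (nat_lit 168) (nat_lit 12543359381) (nat_lit 0) (nat_lit 6551592005) (nat_lit 10) (nat_lit 5) (nat_lit 12) (nat_lit 4) (nat_lit 10) (nat_lit 4) (nat_lit 413) (nat_lit 267) (nat_lit 265))) (XT.nd (nat_lit 94) (nat_lit 0) (nat_lit 0) (XT.lf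 (nat_lit 0) (nat_lit 10740638819) (nat_lit 168) (nat_lit 6374122041) (nat_lit 0) (nat_lit 9825959898) (nat_lit 10) (nat_lit 5) (nat_lit 12) (nat_lit 4) (nat_lit 10) (nat_lit 4) (nat_lit 414) (nat_lit 267) (nat_lit 264)) (XT.lf (nat_lit 0) (nat_lit 14348391674) (nat_lit 168) (nat_lit 143741850) (nat_lit 0) (nat_lit 13146405565) (nat_lit 10) (nat_lit 5) (nat_lit 12) (nat_lit 4) (nat_lit 10) (nat_lit 4) (nat_lit 415) (nat_lit 267) (nat_lit 263))))) (XT.nd (nat_lit 282) (nat_lit 168) (nat_lit 0) (XT.nd (nat_lit 94) (nat_lit 0) (nat_lit 0) (XT.lf (nat_lit 0) (nat_lit 6275686461) (nat_lit 84) (nat_lit 11781394771) (nat_lit 84) (nat_lit 10300469644) (nat_lit 9) (nat_lit 4) (nat_lit 10) (nat_lit 5) (nat_lit 10) (nat_lit 4) (nat_lit 416) (nat_lit 267) (nat_lit 262)) (XT.nd (nat_lit 94) (nat_lit 0) (nat_lit 0) (XT.lf (nat_lit 0) (nat_lit 12771499310) (nat_lit 84) (nat_lit 9040186325) (nat_lit 84)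 (nat_lit 7288446619) (nat_lit 9) (nat_lit 4) (nat_lit 10) (nat_lit 5) (nat_lit 10) (nat_lit 4) (nat_lit 417) (nat_lit 267) (nat_lit 261)) (XT.lf (nat_lit 0) (nat_lit 19346511903) (nat_lit 84) (nat_lit 6267564469) (nat_lit 84) (nat_lit 4252897986) (nat_lit 9) (nat_lit 4) (nat_lit 10) (nat_lit 5) (nat_lit 10) (nat_lit 4) (nat_lit 418) (nat_lit 267) (nat_lit 260)))) (XT.nd (nat_lit 188) (nat_lit 0) (nat_lit 0) (XT.nd (nat_lit 94) (nat_lit 168) (nat_lit 0) (XT.lf (nat_lit 0) (nat_lit 26006469398) (nat_lit 84) (nat_lit 3461106522) (nat_lit 84) (nat_lit 1191171323) (nat_lit 9) (nat_lit 4) (nat_lit 10) (nat_lit 5) (nat_lit 10) (nat_lit 4) (nat_lit 419) (nat_lit 267) (nat_lit 259)) (XT.lf (nat_lit 0) (nat_lit 1287922144) (nat_lit 84) (nat_lit 586802509) (nat_lit 168) (nat_lit 29600498942) (nat_lit 7) (nat_lit 5) (nat_lit 8) (nat_lit 5) (nat_lit 9) (nat_lit 4) (nat_lit 420) (nat_lit 267) (nat_lit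 258))) (XT.nd (nat_lit 94) (nat_lit 0) (nat_lit 0) (XT.lf (nat_lit 0) (nat_lit 5017434711) (nat_lit 168) (nat_lit 24958784030) (nat_lit 0) (nat_lit 2339391848) (nat_lit 7) (nat_lit 5) (nat_lit 9) (nat_lit 4) (nat_lit 7) (nat_lit 4) (nat_lit 421) (nat_lit 267) (nat_lit 257)) (XT.lf (nat_lit 0) (nat_lit 8200543564) (nat_lit 168) (nat_lit 19686616899) (nat_lit 0) (nat_lit 5295697753) (nat_lit 7) (nat_lit 5) (nat_lit 9) (nat_lit 4) (nat_lit 7) (nat_lit 4) (nat_lit 422) (nat_lit 267) (nat_lit 256))))))))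
noncomputable def xc6 : XT := (XT.nd (nat_lit 2538) (nat_lit 0) (nat_lit 0) (XT.nd (nat_lit 1222) (nat_lit 84) (nat_lit 0) (XT.nd (nat_lit 564) (nat_lit 168) (nat_lit 0) (XT.nd (nat_lit 282) (nat_lit 84) (nat_lit 0) (XT.nd (nat_lit 94) (nat_lit 0) (nat_lit 0) (XT.lf (nat_lit 0) (nat_lit 11421191863) (nat_lit 168) (nat_lit 14360552606) (nat_lit 0) (nat_lit 8296149016) (nat_lit 7) (nat_lit 5) (nat_lit 9) (nat_lit 4) (nat_lit 7) (nat_lit 4) (nat_lit 423) (nat_lit 267) (nat_lit 255)) (XT.nd (nat_lit 94) (nat_lit 0) (nat_lit 0) (XT.lf (nat_lit 0) (nat_lit 14682193767) (nat_lit 168) (nat_lit 8975937309) (nat_lit 0) (nat_lit 11343367390) (nat_lit 7) (nat_lit 5) (nat_lit 9) (nat_lit 4) (nat_lit 7) (nat_lit 4) (nat_lit 424) (nat_lit 267) (nat_lit 254)) (XT.lf (nat_lit 0) (nat_lit 17986398695) (nat_lit 168) (nat_lit 3528066003) (nat_lit 0) (nat_lit 14440015493) (nat_lit 7) (nat_lit 5) (nat_lit 9)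 (nat_lit 4) (nat_lit 7) (nat_lit 4) (nat_lit 425) (nat_lit 267) (nat_lit 253)))) (XT.nd (nat_lit 94) (nat_lit 0) (nat_lit 0) (XT.lf (nat_lit 0) (nat_lit 2027383133) (nat_lit 84) (nat_lit 19328799131) (nat_lit 84) (nat_lit 15580904447) (nat_lit 6) (nat_lit 4) (nat_lit 7) (nat_lit 5) (nat_lit 7) (nat_lit 4) (nat_lit 426) (nat_lit 267) (nat_lit 252)) (XT.nd (nat_lit 94) (nat_lit 0) (nat_lit 0) (XT.lf (nat_lit 0) (nat_lit 7727333272) (nat_lit 84) (nat_lit 17082953158) (nat_lit 84) (nat_lit 13139416260) (nat_lit 6) (nat_lit 4) (nat_lit 7) (nat_lit 5) (nat_lit 7) (nat_lit 4) (nat_lit 427) (nat_lit 267) (nat_lit 251)) (XT.lf (nat_lit 0) (nat_lit 13506549521) (nat_lit 84) (nat_lit 14810590939) (nat_lit 84) (nat_lit 10677110143) (nat_lit 6) (nat_lit 4) (nat_lit 7) (nat_lit 5) (nat_lit 7) (nat_lit 4) (nat_lit 428) (nat_lit 267) (nat_lit 250))))) (XT.nd (nat_lit 282) (nat_lit 168) (nat_lit 0) (XT.nd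 (nat_lit 94) (nat_lit 0) (nat_lit 0) (XT.lf (nat_lit 0) (nat_lit 19370081680) (nat_lit 84) (nat_lit 12509726914) (nat_lit 84) (nat_lit 8191834567) (nat_lit 6) (nat_lit 4) (nat_lit 7) (nat_lit 5) (nat_lit 7) (nat_lit 4) (nat_lit 429) (nat_lit 267) (nat_lit 249)) (XT.nd (nat_lit 94) (nat_lit 0) (nat_lit 0) (XT.lf (nat_lit 0) (nat_lit 25323053224) (nat_lit 84) (nat_lit 10178350621) (nat_lit 84) (nat_lit 5681417933) (nat_lit 6) (nat_lit 4) (nat_lit 7) (nat_lit 5) (nat_lit 7) (nat_lit 4) (nat_lit 430) (nat_lit 267) (nat_lit 248)) (XT.lf (nat_lit 0) (nat_lit 31370665779) (nat_lit 84) (nat_lit 7814424933) (nat_lit 84) (nat_lit 3143666672) (nat_lit 6) (nat_lit 4) (nat_lit 7) (nat_lit 5) (nat_lit 7) (nat_lit 4) (nat_lit 431) (nat_lit 267) (nat_lit 247)))) (XT.nd (nat_lit 188) (nat_lit 84) (nat_lit 0) (XT.nd (nat_lit 94) (nat_lit 84) (nat_lit 0) (XT.lf (nat_lit 0) (nat_lit 37518203666) (nat_lit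 84) (nat_lit 5415884286) (nat_lit 84) (nat_lit 576363331) (nat_lit 6) (nat_lit 4) (nat_lit 7) (nat_lit 5) (nat_lit 7) (nat_lit 4) (nat_lit 432) (nat_lit 267) (nat_lit 246)) (XT.lf (nat_lit 0) (nat_lit 1983264509) (nat_lit 168) (nat_lit 977341274) (nat_lit 84) (nat_lit 41767746928) (nat_lit 5) (nat_lit 5) (nat_lit 7) (nat_lit 5) (nat_lit 6) (nat_lit 4) (nat_lit 433) (nat_lit 267) (nat_lit 245))) (XT.nd (nat_lit 94) (nat_lit 0) (nat_lit 0) (XT.lf (nat_lit 0) (nat_lit 4186291953) (nat_lit 84) (nat_lit 418996325) (nat_lit 168) (nat_lit 41377438127) (nat_lit 4) (nat_lit 5) (nat_lit 5) (nat_lit 5) (nat_lit 6) (nat_lit 4) (nat_lit 434) (nat_lit 267) (nat_lit 244)) (XT.lf (nat_lit 0) (nat_lit 7294210268) (nat_lit 168) (nat_lit 37848709460) (nat_lit 0) (nat_lit 2132185973) (nat_lit 4) (nat_lit 5) (nat_lit 6) (nat_lit 4) (nat_lit 4) (nat_lit 4) (nat_lit 435) (nat_lit 267) (nat_lit 243)))))) (XT.nd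 (nat_lit 658) (nat_lit 84) (nat_lit 0) (XT.nd (nat_lit 282) (nat_lit 0) (nat_lit 0) (XT.nd (nat_lit 94) (nat_lit 0) (nat_lit 0) (XT.lf (nat_lit 0) (nat_lit 10026330687) (nat_lit 168) (nat_lit 33862340446) (nat_lit 0) (nat_lit 4718730211) (nat_lit 4) (nat_lit 5) (nat_lit 6) (nat_lit 4) (nat_lit 4) (nat_lit 4) (nat_lit 436) (nat_lit 267) (nat_lit 242)) (XT.nd (nat_lit 94) (nat_lit 0) (nat_lit 0) (XT.lf (nat_lit 0) (nat_lit 12800009177) (nat_lit 168) (nat_lit 29829816524) (nat_lit 0) (nat_lit 7351072602) (nat_lit 4) (nat_lit 5) (nat_lit 6) (nat_lit 4) (nat_lit 4) (nat_lit 4) (nat_lit 437) (nat_lit 267) (nat_lit 241)) (XT.lf (nat_lit 0) (nat_lit 15617669340) (nat_lit 168) (nat_lit 25747614132) (nat_lit 0) (nat_lit 10031513252) (nat_lit 4) (nat_lit 5) (nat_lit 6) (nat_lit 4) (nat_lit 4) (nat_lit 4) (nat_lit 438) (nat_lit 267) (nat_lit 240)))) (XT.nd (nat_lit 188) (nat_lit 0) (nat_lit 0) (XT.nd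 (nat_lit 94) (nat_lit 0) (nat_lit 0) (XT.lf (nat_lit 0) (nat_lit 18481773210) (nat_lit 168) (nat_lit 21612166296) (nat_lit 0) (nat_lit 12762394293) (nat_lit 4) (nat_lit 5) (nat_lit 6) (nat_lit 4) (nat_lit 4) (nat_lit 4) (nat_lit 439) (nat_lit 267) (nat_lit 239)) (XT.lf (nat_lit 0) (nat_lit 21394823400) (nat_lit 168) (nat_lit 17419859518) (nat_lit 0) (nat_lit 15546101932) (nat_lit 4) (nat_lit 5) (nat_lit 6) (nat_lit 4) (nat_lit 4) (nat_lit 4) (nat_lit 440) (nat_lit 267) (nat_lit 238))) (XT.nd (nat_lit 94) (nat_lit 0) (nat_lit 0) (XT.lf (nat_lit 0) (nat_lit 24359365296) (nat_lit 168) (nat_lit 13167030616) (nat_lit 0) (nat_lit 18385068535) (nat_lit 4) (nat_lit 5) (nat_lit 6) (nat_lit 4) (nat_lit 4) (nat_lit 4) (nat_lit 441) (nat_lit 267) (nat_lit 237)) (XT.lf (nat_lit 0) (nat_lit 27377989273) (nat_lit 168) (nat_lit 8849963528) (nat_lit 0) (nat_lit 21281774752) (nat_lit 4) (nat_lit 5) (nat_lit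 6) (nat_lit 4) (nat_lit 4) (nat_lit 4) (nat_lit 442) (nat_lit 267) (nat_lit 236))))) (XT.nd (nat_lit 282) (nat_lit 0) (nat_lit 0) (XT.nd (nat_lit 94) (nat_lit 84) (nat_lit 0) (XT.lf (nat_lit 0) (nat_lit 30453332963) (nat_lit 168) (nat_lit 4464886059) (nat_lit 0) (nat_lit 24238751685) (nat_lit 4) (nat_lit 5) (nat_lit 6) (nat_lit 4) (nat_lit 4) (nat_lit 4) (nat_lit 443) (nat_lit 267) (nat_lit 235)) (XT.nd (nat_lit 94) (nat_lit 84) (nat_lit 0) (XT.lf (nat_lit 0) (nat_lit 33588083562) (nat_lit 168) (nat_lit 7966587) (nat_lit 0) (nat_lit 27258583102) (nat_lit 4) (nat_lit 5) (nat_lit 6) (nat_lit 4) (nat_lit 4) (nat_lit 4) (nat_lit 444) (nat_lit 267) (nat_lit 234)) (XT.lf (nat_lit 0) (nat_lit 4614739471) (nat_lit 84) (nat_lit 32214600397) (nat_lit 84) (nat_lit 25773527916) (nat_lit 3) (nat_lit 4) (nat_lit 4) (nat_lit 5) (nat_lit 4) (nat_lit 4) (nat_lit 445) (nat_lit 267) (nat_lit 233)))) (XT.nd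 (nat_lit 188) (nat_lit 0) (nat_lit 0) (XT.nd (nat_lit 94) (nat_lit 0) (nat_lit 0) (XT.lf (nat_lit 0) (nat_lit 9318887178) (nat_lit 84) (nat_lit 30817507859) (nat_lit 84) (nat_lit 24268113027) (nat_lit 3) (nat_lit 4) (nat_lit 4) (nat_lit 5) (nat_lit 4) (nat_lit 4) (nat_lit 446) (nat_lit 267) (nat_lit 232)) (XT.lf (nat_lit 0) (nat_lit 14108428403) (nat_lit 84) (nat_lit 29403632220) (nat_lit 84) (nat_lit 22749070057) (nat_lit 3) (nat_lit 4) (nat_lit 4) (nat_lit 5) (nat_lit 4) (nat_lit 4) (nat_lit 447) (nat_lit 267) (nat_lit 231))) (XT.nd (nat_lit 94) (nat_lit 0) (nat_lit 0) (XT.lf (nat_lit 0) (nat_lit 18987548181) (nat_lit 84) (nat_lit 27971738057) (nat_lit 84) (nat_lit 21215071689) (nat_lit 3) (nat_lit 4) (nat_lit 4) (nat_lit 5) (nat_lit 4) (nat_lit 4) (nat_lit 448) (nat_lit 267) (nat_lit 230)) (XT.lf (nat_lit 0) (nat_lit 23960509821) (nat_lit 84) (nat_lit 26520574198) (nat_lit 84) (nat_lit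 19664777534) (nat_lit 3) (nat_lit 4) (nat_lit 4) (nat_lit 5) (nat_lit 4) (nat_lit 4) (nat_lit 449) (nat_lit 267) (nat_lit 229))))))) (XT.nd (nat_lit 56682) (nat_lit 0) (nat_lit 84) (XT.nd (nat_lit 56024) (nat_lit 0) (nat_lit 336) (XT.nd (nat_lit 55648) (nat_lit 0) (nat_lit 588) (XT.nd (nat_lit 55460) (nat_lit 0) (nat_lit 756) (XT.lf (nat_lit 0) (nat_lit 29031658630) (nat_lit 84) (nat_lit 25048872636) (nat_lit 84) (nat_lit 18096832967) (nat_lit 3) (nat_lit 4) (nat_lit 4) (nat_lit 5) (nat_lit 4) (nat_lit 4) (nat_lit 450) (nat_lit 267) (nat_lit 228)) (XT.nd (nat_lit 94) (nat_lit 0) (nat_lit 0) (XT.lf (nat_lit 0) (nat_lit 5510560823) (nat_lit 84) (nat_lit 3186561457) (nat_lit 84) (nat_lit 3186561457) (nat_lit 12) (nat_lit 4) (nat_lit 13) (nat_lit 5) (nat_lit 13) (nat_lit 4) (nat_lit 409) (nat_lit 268) (nat_lit 268)) (XT.lf (nat_lit 0) (nat_lit 18056030476) (nat_lit 84) (nat_lit 3320459939)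 (nat_lit 84) (nat_lit 2987392164) (nat_lit 12) (nat_lit 4) (nat_lit 13) (nat_lit 5) (nat_lit 13) (nat_lit 4) (nat_lit 410) (nat_lit 268) (nat_lit 267)))) (XT.nd (nat_lit 188) (nat_lit 0) (nat_lit 0) (XT.nd (nat_lit 94) (nat_lit 0) (nat_lit 0) (XT.lf (nat_lit 0) (nat_lit 191560997) (nat_lit 84) (nat_lit 226170796) (nat_lit 168) (nat_lit 24562634939) (nat_lit 10) (nat_lit 5) (nat_lit 11) (nat_lit 5) (nat_lit 12) (nat_lit 4) (nat_lit 411) (nat_lit 268) (nat_lit 266)) (XT.lf (nat_lit 0) (nat_lit 3883863912) (nat_lit 168) (nat_lit 18788326328) (nat_lit 0) (nat_lit 2941744624) (nat_lit 10) (nat_lit 5) (nat_lit 12) (nat_lit 4) (nat_lit 10) (nat_lit 4) (nat_lit 412) (nat_lit 268) (nat_lit 265))) (XT.nd (nat_lit 94) (nat_lit 0) (nat_lit 0) (XT.lf (nat_lit 0) (nat_lit 7384479532) (nat_lit 168) (nat_lit 12737724150) (nat_lit 0) (nat_lit 6146433839) (nat_lit 10) (nat_lit 5) (nat_lit 12) (nat_lit 4)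 (nat_lit 10) (nat_lit 4) (nat_lit 413) (nat_lit 268) (nat_lit 264)) (XT.lf (nat_lit 0) (nat_lit 10920463350) (nat_lit 168) (nat_lit 6629538174) (nat_lit 0) (nat_lit 9395110470) (nat_lit 10) (nat_lit 5) (nat_lit 12) (nat_lit 4) (nat_lit 10) (nat_lit 4) (nat_lit 414) (nat_lit 268) (nat_lit 263))))) (XT.nd (nat_lit 282) (nat_lit 168) (nat_lit 0) (XT.nd (nat_lit 94) (nat_lit 84) (nat_lit 0) (XT.lf (nat_lit 0) (nat_lit 14494905062) (nat_lit 168) (nat_lit 458431151) (nat_lit 0) (nat_lit 12690613165) (nat_lit 10) (nat_lit 5) (nat_lit 12) (nat_lit 4) (nat_lit 10) (nat_lit 4) (nat_lit 415) (nat_lit 268) (nat_lit 262)) (XT.nd (nat_lit 94) (nat_lit 0) (nat_lit 0) (XT.lf (nat_lit 0) (nat_lit 5896042167) (nat_lit 84) (nat_lit 12271562164) (nat_lit 84) (nat_lit 10196455687) (nat_lit 9) (nat_lit 4) (nat_lit 10) (nat_lit 5) (nat_lit 10) (nat_lit 4) (nat_lit 416) (nat_lit 268) (nat_lit 261)) (XT.lf (nat_lit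 0) (nat_lit 12334872434) (nat_lit 84) (nat_lit 9555389602) (nat_lit 84) (nat_lit 7217356348) (nat_lit 9) (nat_lit 4) (nat_lit 10) (nat_lit 5) (nat_lit 10) (nat_lit 4) (nat_lit 417) (nat_lit 268) (nat_lit 260)))) (XT.nd (nat_lit 188) (nat_lit 168) (nat_lit 0) (XT.nd (nat_lit 94) (nat_lit 0) (nat_lit 0) (XT.lf (nat_lit 0) (nat_lit 18854562132) (nat_lit 84) (nat_lit 6807074428) (nat_lit 84) (nat_lit 4213772458) (nat_lit 9) (nat_lit 4) (nat_lit 10) (nat_lit 5) (nat_lit 10) (nat_lit 4) (nat_lit 418) (nat_lit 268) (nat_lit 259)) (XT.lf (nat_lit 0) (nat_lit 25460808079) (nat_lit 84) (nat_lit 4024215202) (nat_lit 84) (nat_lit 1183079528) (nat_lit 9) (nat_lit 4) (nat_lit 10) (nat_lit 5) (nat_lit 10) (nat_lit 4) (nat_lit 419) (nat_lit 268) (nat_lit 258))) (XT.nd (nat_lit 94) (nat_lit 0) (nat_lit 0) (XT.lf (nat_lit 0) (nat_lit 667978553) (nat_lit 84) (nat_lit 1179178822) (nat_lit 168) (nat_lit 29638501000)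 (nat_lit 7) (nat_lit 5) (nat_lit 8) (nat_lit 5) (nat_lit 9) (nat_lit 4) (nat_lit 420) (nat_lit 268) (nat_lit 257)) (XT.lf (nat_lit 0) (nat_lit 4954768011) (nat_lit 168) (nat_lit 25636372496) (nat_lit 0) (nat_lit 1735973879) (nat_lit 7) (nat_lit 5) (nat_lit 9) (nat_lit 4) (nat_lit 7) (nat_lit 4) (nat_lit 421) (nat_lit 268) (nat_lit 256)))))) (XT.nd (nat_lit 658) (nat_lit 168) (nat_lit 0) (XT.nd (nat_lit 282) (nat_lit 84) (nat_lit 0) (XT.nd (nat_lit 94) (nat_lit 0) (nat_lit 0) (XT.lf (nat_lit 0) (nat_lit 8109328184) (nat_lit 168) (nat_lit 20415568839) (nat_lit 0) (nat_lit 4670337016) (nat_lit 7) (nat_lit 5) (nat_lit 9) (nat_lit 4) (nat_lit 7) (nat_lit 4) (nat_lit 422) (nat_lit 268) (nat_lit 255)) (XT.nd (nat_lit 94) (nat_lit 0) (nat_lit 0) (XT.lf (nat_lit 0) (nat_lit 11302259319) (nat_lit 168) (nat_lit 15139371996) (nat_lit 0) (nat_lit 7649484620) (nat_lit 7) (nat_lit 5) (nat_lit 9) (nat_lit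 4) (nat_lit 7) (nat_lit 4) (nat_lit 423) (nat_lit 268) (nat_lit 254)) (XT.lf (nat_lit 0) (nat_lit 14536351355) (nat_lit 168) (nat_lit 9803171699) (nat_lit 0) (nat_lit 10676019830) (nat_lit 7) (nat_lit 5) (nat_lit 9) (nat_lit 4) (nat_lit 7) (nat_lit 4) (nat_lit 424) (nat_lit 268) (nat_lit 253)))) (XT.nd (nat_lit 188) (nat_lit 0) (nat_lit 0) (XT.nd (nat_lit 94) (nat_lit 84) (nat_lit 0) (XT.lf (nat_lit 0) (nat_lit 17814430197) (nat_lit 168) (nat_lit 4402305248) (nat_lit 0) (nat_lit 13752587192) (nat_lit 7) (nat_lit 5) (nat_lit 9) (nat_lit 4) (nat_lit 7) (nat_lit 4) (nat_lit 425) (nat_lit 268) (nat_lit 252)) (XT.lf (nat_lit 0) (nat_lit 1089200790) (nat_lit 84) (nat_lit 20060629461) (nat_lit 84) (nat_lit 15803144242) (nat_lit 6) (nat_lit 4) (nat_lit 7) (nat_lit 5) (nat_lit 7) (nat_lit 4) (nat_lit 426) (nat_lit 268) (nat_lit 251))) (XT.nd (nat_lit 94) (nat_lit 0) (nat_lit 0) (XT.lf (nat_lit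 0) (nat_lit 6743962558) (nat_lit 84) (nat_lit 17834911140) (nat_lit 84) (nat_lit 13387482023) (nat_lit 6) (nat_lit 4) (nat_lit 7) (nat_lit 5) (nat_lit 7) (nat_lit 4) (nat_lit 427) (nat_lit 268) (nat_lit 250)) (XT.lf (nat_lit 0) (nat_lit 12479306601) (nat_lit 84) (nat_lit 15582090330) (nat_lit 84) (nat_lit 10950249662) (nat_lit 6) (nat_lit 4) (nat_lit 7) (nat_lit 5) (nat_lit 7) (nat_lit 4) (nat_lit 428) (nat_lit 268) (nat_lit 249))))) (XT.nd (nat_lit 282) (nat_lit 168) (nat_lit 0) (XT.nd (nat_lit 94) (nat_lit 0) (nat_lit 0) (XT.lf (nat_lit 0) (nat_lit 18300244386) (nat_lit 84) (nat_lit 13300198548) (nat_lit 84) (nat_lit 8489317539) (nat_lit 6) (nat_lit 4) (nat_lit 7) (nat_lit 5) (nat_lit 7) (nat_lit 4) (nat_lit 429) (nat_lit 268) (nat_lit 248)) (XT.nd (nat_lit 94) (nat_lit 0) (nat_lit 0) (XT.lf (nat_lit 0) (nat_lit 24211862169) (nat_lit 84) (nat_lit 10987241907) (nat_lit 84) (nat_lit 6002535324)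 (nat_lit 6) (nat_lit 4) (nat_lit 7) (nat_lit 5) (nat_lit 7) (nat_lit 4) (nat_lit 430) (nat_lit 268) (nat_lit 247)) (XT.lf (nat_lit 0) (nat_lit 30219325441) (nat_lit 84) (nat_lit 8641199378) (nat_lit 84) (nat_lit 3487730102) (nat_lit 6) (nat_lit 4) (nat_lit 7) (nat_lit 5) (nat_lit 7) (nat_lit 4) (nat_lit 431) (nat_lit 268) (nat_lit 246)))) (XT.nd (nat_lit 188) (nat_lit 84) (nat_lit 0) (XT.nd (nat_lit 94) (nat_lit 84) (nat_lit 0) (XT.lf (nat_lit 0) (nat_lit 36327883442) (nat_lit 84) (nat_lit 6260021020) (nat_lit 84) (nat_lit 942704469) (nat_lit 6) (nat_lit 4) (nat_lit 7) (nat_lit 5) (nat_lit 7) (nat_lit 4) (nat_lit 432) (nat_lit 268) (nat_lit 245)) (XT.lf (nat_lit 0) (nat_lit 1602865221) (nat_lit 168) (nat_lit 2222575174) (nat_lit 84) (nat_lit 40923822729) (nat_lit 5) (nat_lit 5) (nat_lit 7) (nat_lit 5) (nat_lit 6) (nat_lit 4) (nat_lit 433) (nat_lit 268) (nat_lit 244))) (XT.nd (nat_lit 94)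 (nat_lit 0) (nat_lit 0) (XT.lf (nat_lit 0) (nat_lit 2878373202) (nat_lit 84) (nat_lit 1313354161) (nat_lit 168) (nat_lit 41812914903) (nat_lit 4) (nat_lit 5) (nat_lit 5) (nat_lit 5) (nat_lit 6) (nat_lit 4) (nat_lit 434) (nat_lit 268) (nat_lit 243)) (XT.lf (nat_lit 0) (nat_lit 6851550904) (nat_lit 168) (nat_lit 39207207671) (nat_lit 0) (nat_lit 1239146231) (nat_lit 4) (nat_lit 5) (nat_lit 6) (nat_lit 4) (nat_lit 4) (nat_lit 4) (nat_lit 435) (nat_lit 268) (nat_lit 242))))))))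
noncomputable def xc7 : XT := (XT.nd (nat_lit 57810) (nat_lit 0) (nat_lit 0) (XT.nd (nat_lit 1316) (nat_lit 0) (nat_lit 0) (XT.nd (nat_lit 658) (nat_lit 84) (nat_lit 0) (XT.nd (nat_lit 282) (nat_lit 0) (nat_lit 0) (XT.nd (nat_lit 94) (nat_lit 0) (nat_lit 0) (XT.lf (nat_lit 0) (nat_lit 9563767115) (nat_lit 168) (nat_lit 35257014107) (nat_lit 0) (nat_lit 3810026344) (nat_lit 4) (nat_lit 5) (nat_lit 6) (nat_lit 4) (nat_lit 4) (nat_lit 4) (nat_lit 436) (nat_lit 268) (nat_lit 241)) (XT.nd (nat_lit 94) (nat_lit 0) (nat_lit 0) (XT.lf (nat_lit 0) (nat_lit 12318121131) (nat_lit 168) (nat_lit 31259611982) (nat_lit 0) (nat_lit 6427160848) (nat_lit 4) (nat_lit 5) (nat_lit 6) (nat_lit 4) (nat_lit 4) (nat_lit 4) (nat_lit 437) (nat_lit 268) (nat_lit 240)) (XT.lf (nat_lit 0) (nat_lit 15117019669) (nat_lit 168) (nat_lit 27211508421) (nat_lit 0) (nat_lit 9092836557) (nat_lit 4) (nat_lit 5) (nat_lit 6) (nat_lit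 4) (nat_lit 4) (nat_lit 4) (nat_lit 438) (nat_lit 268) (nat_lit 239)))) (XT.nd (nat_lit 188) (nat_lit 0) (nat_lit 0) (XT.nd (nat_lit 94) (nat_lit 0) (nat_lit 0) (XT.lf (nat_lit 0) (nat_lit 17962908369) (nat_lit 168) (nat_lit 23109166246) (nat_lit 0) (nat_lit 11809382705) (nat_lit 4) (nat_lit 5) (nat_lit 6) (nat_lit 4) (nat_lit 4) (nat_lit 4) (nat_lit 439) (nat_lit 268) (nat_lit 238)) (XT.lf (nat_lit 0) (nat_lit 20858273929) (nat_lit 168) (nat_lit 18949000887) (nat_lit 0) (nat_lit 14579172972) (nat_lit 4) (nat_lit 5) (nat_lit 6) (nat_lit 4) (nat_lit 4) (nat_lit 4) (nat_lit 440) (nat_lit 268) (nat_lit 237))) (XT.nd (nat_lit 94) (nat_lit 0) (nat_lit 0) (XT.lf (nat_lit 0) (nat_lit 23805646280) (nat_lit 168) (nat_lit 14727377247) (nat_lit 0) (nat_lit 17404627563) (nat_lit 4) (nat_lit 5) (nat_lit 6) (nat_lit 4) (nat_lit 4) (nat_lit 4) (nat_lit 441) (nat_lit 268) (nat_lit 236)) (XT.lf (nat_lit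 0) (nat_lit 26807600796) (nat_lit 168) (nat_lit 10440606529) (nat_lit 0) (nat_lit 20288215322) (nat_lit 4) (nat_lit 5) (nat_lit 6) (nat_lit 4) (nat_lit 4) (nat_lit 4) (nat_lit 442) (nat_lit 268) (nat_lit 235))))) (XT.nd (nat_lit 282) (nat_lit 0) (nat_lit 0) (XT.nd (nat_lit 94) (nat_lit 84) (nat_lit 0) (XT.lf (nat_lit 0) (nat_lit 29866760544) (nat_lit 168) (nat_lit 6084943011) (nat_lit 0) (nat_lit 23232455888) (nat_lit 4) (nat_lit 5) (nat_lit 6) (nat_lit 4) (nat_lit 4) (nat_lit 4) (nat_lit 443) (nat_lit 268) (nat_lit 234)) (XT.nd (nat_lit 94) (nat_lit 84) (nat_lit 0) (XT.lf (nat_lit 0) (nat_lit 32985798577) (nat_lit 168) (nat_lit 1656580773) (nat_lit 0) (nat_lit 26239921900) (nat_lit 4) (nat_lit 5) (nat_lit 6) (nat_lit 4) (nat_lit 4) (nat_lit 4) (nat_lit 444) (nat_lit 268) (nat_lit 233)) (XT.lf (nat_lit 0) (nat_lit 2905037368) (nat_lit 84) (nat_lit 33290327895) (nat_lit 84) (nat_lit 26436128867)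 (nat_lit 3) (nat_lit 4) (nat_lit 4) (nat_lit 5) (nat_lit 4) (nat_lit 4) (nat_lit 445) (nat_lit 268) (nat_lit 232)))) (XT.nd (nat_lit 188) (nat_lit 0) (nat_lit 0) (XT.nd (nat_lit 94) (nat_lit 0) (nat_lit 0) (XT.lf (nat_lit 0) (nat_lit 7581731423) (nat_lit 84) (nat_lit 31905614507) (nat_lit 84) (nat_lit 24946248149) (nat_lit 3) (nat_lit 4) (nat_lit 4) (nat_lit 5) (nat_lit 4) (nat_lit 4) (nat_lit 446) (nat_lit 268) (nat_lit 231)) (XT.lf (nat_lit 0) (nat_lit 12344618617) (nat_lit 84) (nat_lit 30503757462) (nat_lit 84) (nat_lit 23442286899) (nat_lit 3) (nat_lit 4) (nat_lit 4) (nat_lit 5) (nat_lit 4) (nat_lit 4) (nat_lit 447) (nat_lit 268) (nat_lit 230))) (XT.nd (nat_lit 94) (nat_lit 0) (nat_lit 0) (XT.lf (nat_lit 0) (nat_lit 17197860695) (nat_lit 84) (nat_lit 29083531835) (nat_lit 84) (nat_lit 21922930976) (nat_lit 3) (nat_lit 4) (nat_lit 4) (nat_lit 5) (nat_lit 4) (nat_lit 4) (nat_lit 448)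 (nat_lit 268) (nat_lit 229)) (XT.lf (nat_lit 0) (nat_lit 22145698354) (nat_lit 84) (nat_lit 27643696653) (nat_lit 84) (nat_lit 20386852788) (nat_lit 3) (nat_lit 4) (nat_lit 4) (nat_lit 5) (nat_lit 4) (nat_lit 4) (nat_lit 449) (nat_lit 268) (nat_lit 228)))))) (XT.nd (nat_lit 55836) (nat_lit 0) (nat_lit 504) (XT.nd (nat_lit 55460) (nat_lit 0) (nat_lit 588) (XT.nd (nat_lit 55272) (nat_lit 0) (nat_lit 756) (XT.lf (nat_lit 0) (nat_lit 27192454949) (nat_lit 84) (nat_lit 26182993806) (nat_lit 84) (nat_lit 18832710130) (nat_lit 3) (nat_lit 4) (nat_lit 4) (nat_lit 5) (nat_lit 4) (nat_lit 4) (nat_lit 450) (nat_lit 268) (nat_lit 227)) (XT.nd (nat_lit 94) (nat_lit 84) (nat_lit 0) (XT.lf (nat_lit 0) (nat_lit 4980902877) (nat_lit 168) (nat_lit 1353562577) (nat_lit 0) (nat_lit 4980902877) (nat_lit 13) (nat_lit 5) (nat_lit 15) (nat_lit 4) (nat_lit 13) (nat_lit 4) (nat_lit 407) (nat_lit 269) (nat_lit 269))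 (XT.lf (nat_lit 0) (nat_lit 4061571113) (nat_lit 84) (nat_lit 9735983229) (nat_lit 84) (nat_lit 9392923421) (nat_lit 12) (nat_lit 4) (nat_lit 13) (nat_lit 5) (nat_lit 13) (nat_lit 4) (nat_lit 408) (nat_lit 269) (nat_lit 268)))) (XT.nd (nat_lit 188) (nat_lit 168) (nat_lit 0) (XT.nd (nat_lit 94) (nat_lit 0) (nat_lit 0) (XT.lf (nat_lit 0) (nat_lit 10955393459) (nat_lit 84) (nat_lit 6744621907) (nat_lit 84) (nat_lit 6068494325) (nat_lit 12) (nat_lit 4) (nat_lit 13) (nat_lit 5) (nat_lit 13) (nat_lit 4) (nat_lit 409) (nat_lit 269) (nat_lit 267)) (XT.lf (nat_lit 0) (nat_lit 17926488513) (nat_lit 84) (nat_lit 3719569790) (nat_lit 84) (nat_lit 2720075437) (nat_lit 12) (nat_lit 4) (nat_lit 13) (nat_lit 5) (nat_lit 13) (nat_lit 4) (nat_lit 410) (nat_lit 269) (nat_lit 266))) (XT.nd (nat_lit 94) (nat_lit 84) (nat_lit 0) (XT.lf (nat_lit 0) (nat_lit 642472581) (nat_lit 168) (nat_lit 9223333) (nat_lit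 84) (nat_lit 24331987227) (nat_lit 11) (nat_lit 5) (nat_lit 13) (nat_lit 5) (nat_lit 12) (nat_lit 4) (nat_lit 411) (nat_lit 269) (nat_lit 265)) (XT.lf (nat_lit 0) (nat_lit 4069083180) (nat_lit 168) (nat_lit 19051404945) (nat_lit 0) (nat_lit 2497969713) (nat_lit 10) (nat_lit 5) (nat_lit 12) (nat_lit 4) (nat_lit 10) (nat_lit 4) (nat_lit 412) (nat_lit 269) (nat_lit 264))))) (XT.nd (nat_lit 282) (nat_lit 84) (nat_lit 0) (XT.nd (nat_lit 94) (nat_lit 0) (nat_lit 0) (XT.lf (nat_lit 0) (nat_lit 7535388321) (nat_lit 168) (nat_lit 13061854131) (nat_lit 0) (nat_lit 5676967667) (nat_lit 10) (nat_lit 5) (nat_lit 12) (nat_lit 4) (nat_lit 10) (nat_lit 4) (nat_lit 413) (nat_lit 269) (nat_lit 263)) (XT.nd (nat_lit 94) (nat_lit 0) (nat_lit 0) (XT.lf (nat_lit 0) (nat_lit 11038060997) (nat_lit 168) (nat_lit 7012941323) (nat_lit 0) (nat_lit 8900701325) (nat_lit 10) (nat_lit 5) (nat_lit 12) (nat_lit 4) (nat_lit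 10) (nat_lit 4) (nat_lit 414) (nat_lit 269) (nat_lit 262)) (XT.lf (nat_lit 0) (nat_lit 14580161793) (nat_lit 168) (nat_lit 899381066) (nat_lit 0) (nat_lit 12171987542) (nat_lit 10) (nat_lit 5) (nat_lit 12) (nat_lit 4) (nat_lit 10) (nat_lit 4) (nat_lit 415) (nat_lit 269) (nat_lit 261)))) (XT.nd (nat_lit 188) (nat_lit 0) (nat_lit 0) (XT.nd (nat_lit 94) (nat_lit 0) (nat_lit 0) (XT.lf (nat_lit 0) (nat_lit 5389333903) (nat_lit 84) (nat_lit 12827257422) (nat_lit 84) (nat_lit 10156156394) (nat_lit 9) (nat_lit 4) (nat_lit 10) (nat_lit 5) (nat_lit 10) (nat_lit 4) (nat_lit 416) (nat_lit 269) (nat_lit 260)) (XT.lf (nat_lit 0) (nat_lit 11772841275) (nat_lit 84) (nat_lit 10135391542) (nat_lit 84) (nat_lit 7209021799) (nat_lit 9) (nat_lit 4) (nat_lit 10) (nat_lit 5) (nat_lit 10) (nat_lit 4) (nat_lit 417) (nat_lit 269) (nat_lit 259))) (XT.nd (nat_lit 94) (nat_lit 0) (nat_lit 0) (XT.lf (nat_lit 0) (nat_lit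 18238819425) (nat_lit 84) (nat_lit 7410675089) (nat_lit 84) (nat_lit 4236471641) (nat_lit 9) (nat_lit 4) (nat_lit 10) (nat_lit 5) (nat_lit 10) (nat_lit 4) (nat_lit 418) (nat_lit 269) (nat_lit 258)) (XT.lf (nat_lit 0) (nat_lit 24792918238) (nat_lit 84) (nat_lit 4650727242) (nat_lit 84) (nat_lit 1235908548) (nat_lit 9) (nat_lit 4) (nat_lit 10) (nat_lit 5) (nat_lit 10) (nat_lit 4) (nat_lit 419) (nat_lit 269) (nat_lit 257))))))) (XT.nd (nat_lit 1316) (nat_lit 168) (nat_lit 0) (XT.nd (nat_lit 658) (nat_lit 84) (nat_lit 0) (XT.nd (nat_lit 282) (nat_lit 84) (nat_lit 0) (XT.nd (nat_lit 94) (nat_lit 84) (nat_lit 0) (XT.lf (nat_lit 0) (nat_lit 1760256771) (nat_lit 168) (nat_lit 75104484) (nat_lit 84) (nat_lit 29662832682) (nat_lit 8) (nat_lit 5) (nat_lit 10) (nat_lit 5) (nat_lit 9) (nat_lit 4) (nat_lit 420) (nat_lit 269) (nat_lit 256)) (XT.nd (nat_lit 94) (nat_lit 0) (nat_lit 0) (XT.lf (nat_lit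 0) (nat_lit 4832267491) (nat_lit 168) (nat_lit 26438556467) (nat_lit 0) (nat_lit 1069909552) (nat_lit 7) (nat_lit 5) (nat_lit 9) (nat_lit 4) (nat_lit 7) (nat_lit 4) (nat_lit 421) (nat_lit 269) (nat_lit 255)) (XT.lf (nat_lit 0) (nat_lit 7959110500) (nat_lit 168) (nat_lit 21267620261) (nat_lit 0) (nat_lit 3982969030) (nat_lit 7) (nat_lit 5) (nat_lit 9) (nat_lit 4) (nat_lit 7) (nat_lit 4) (nat_lit 422) (nat_lit 269) (nat_lit 254)))) (XT.nd (nat_lit 188) (nat_lit 84) (nat_lit 0) (XT.nd (nat_lit 94) (nat_lit 0) (nat_lit 0) (XT.lf (nat_lit 0) (nat_lit 11125131766) (nat_lit 168) (nat_lit 16039838418) (nat_lit 0) (nat_lit 6941433471) (nat_lit 7) (nat_lit 5) (nat_lit 9) (nat_lit 4) (nat_lit 7) (nat_lit 4) (nat_lit 423) (nat_lit 269) (nat_lit 253)) (XT.lf (nat_lit 0) (nat_lit 14333097716) (nat_lit 168) (nat_lit 10750642976) (nat_lit 0) (nat_lit 9947887939) (nat_lit 7) (nat_lit 5) (nat_lit 9) (nat_lit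 4) (nat_lit 7) (nat_lit 4) (nat_lit 424) (nat_lit 269) (nat_lit 252))) (XT.nd (nat_lit 94) (nat_lit 84) (nat_lit 0) (XT.lf (nat_lit 0) (nat_lit 17585811427) (nat_lit 168) (nat_lit 5395412306) (nat_lit 0) (nat_lit 13004959436) (nat_lit 7) (nat_lit 5) (nat_lit 9) (nat_lit 4) (nat_lit 7) (nat_lit 4) (nat_lit 425) (nat_lit 269) (nat_lit 251)) (XT.lf (nat_lit 0) (nat_lit 31140583) (nat_lit 84) (nat_lit 20855273835) (nat_lit 84) (nat_lit 16084477946) (nat_lit 6) (nat_lit 4) (nat_lit 7) (nat_lit 5) (nat_lit 7) (nat_lit 4) (nat_lit 426) (nat_lit 269) (nat_lit 250))))) (XT.nd (nat_lit 282) (nat_lit 84) (nat_lit 0) (XT.nd (nat_lit 94) (nat_lit 0) (nat_lit 0) (XT.lf (nat_lit 0) (nat_lit 5642030145) (nat_lit 84) (nat_lit 18649096923) (nat_lit 84) (nat_lit 13693889483) (nat_lit 6) (nat_lit 4) (nat_lit 7) (nat_lit 5) (nat_lit 7) (nat_lit 4) (nat_lit 427) (nat_lit 269) (nat_lit 249)) (XT.nd (nat_lit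 94) (nat_lit 0) (nat_lit 0) (XT.lf (nat_lit 0) (nat_lit 11334779814) (nat_lit 84) (nat_lit 16415248356) (nat_lit 84) (nat_lit 11281000575) (nat_lit 6) (nat_lit 4) (nat_lit 7) (nat_lit 5) (nat_lit 7) (nat_lit 4) (nat_lit 428) (nat_lit 269) (nat_lit 248)) (XT.lf (nat_lit 0) (nat_lit 17114363837) (nat_lit 84) (nat_lit 14151776226) (nat_lit 84) (nat_lit 8843702872) (nat_lit 6) (nat_lit 4) (nat_lit 7) (nat_lit 5) (nat_lit 7) (nat_lit 4) (nat_lit 429) (nat_lit 269) (nat_lit 247)))) (XT.nd (nat_lit 188) (nat_lit 84) (nat_lit 0) (XT.nd (nat_lit 94) (nat_lit 0) (nat_lit 0) (XT.lf (nat_lit 0) (nat_lit 22985832337) (nat_lit 84) (nat_lit 11856702743) (nat_lit 84) (nat_lit 6379866696) (nat_lit 6) (nat_lit 4) (nat_lit 7) (nat_lit 5) (nat_lit 7) (nat_lit 4) (nat_lit 430) (nat_lit 269) (nat_lit 246)) (XT.lf (nat_lit 0) (nat_lit 28954315723) (nat_lit 84) (nat_lit 9528022503) (nat_lit 84) (nat_lit 3887339181)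 (nat_lit 6) (nat_lit 4) (nat_lit 7) (nat_lit 5) (nat_lit 7) (nat_lit 4) (nat_lit 431) (nat_lit 269) (nat_lit 245))) (XT.nd (nat_lit 94) (nat_lit 84) (nat_lit 0) (XT.lf (nat_lit 0) (nat_lit 35025029174) (nat_lit 84) (nat_lit 7163700736) (nat_lit 84) (nat_lit 1363942390) (nat_lit 6) (nat_lit 4) (nat_lit 7) (nat_lit 5) (nat_lit 7) (nat_lit 4) (nat_lit 432) (nat_lit 269) (nat_lit 244)) (XT.lf (nat_lit 0) (nat_lit 1169258057) (nat_lit 168) (nat_lit 3580606260) (nat_lit 84) (nat_lit 40022211926) (nat_lit 5) (nat_lit 5) (nat_lit 7) (nat_lit 5) (nat_lit 6) (nat_lit 4) (nat_lit 433) (nat_lit 269) (nat_lit 243)))))) (XT.nd (nat_lit 658) (nat_lit 84) (nat_lit 0) (XT.nd (nat_lit 282) (nat_lit 0) (nat_lit 0) (XT.nd (nat_lit 94) (nat_lit 0) (nat_lit 0) (XT.lf (nat_lit 0) (nat_lit 1456516329) (nat_lit 84) (nat_lit 2267946681) (nat_lit 168) (nat_lit 42304012381) (nat_lit 4) (nat_lit 5) (nat_lit 5) (nat_lit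 5) (nat_lit 6) (nat_lit 4) (nat_lit 434) (nat_lit 269) (nat_lit 242)) (XT.nd (nat_lit 94) (nat_lit 0) (nat_lit 0) (XT.lf (nat_lit 0) (nat_lit 6355206217) (nat_lit 168) (nat_lit 40679896993) (nat_lit 0) (nat_lit 287517124) (nat_lit 4) (nat_lit 5) (nat_lit 6) (nat_lit 4) (nat_lit 4) (nat_lit 4) (nat_lit 435) (nat_lit 269) (nat_lit 241)) (XT.lf (nat_lit 0) (nat_lit 9048097954) (nat_lit 168) (nat_lit 36764825224) (nat_lit 0) (nat_lit 2843189349) (nat_lit 4) (nat_lit 5) (nat_lit 6) (nat_lit 4) (nat_lit 4) (nat_lit 4) (nat_lit 436) (nat_lit 269) (nat_lit 240)))) (XT.nd (nat_lit 188) (nat_lit 0) (nat_lit 0) (XT.nd (nat_lit 94) (nat_lit 0) (nat_lit 0) (XT.lf (nat_lit 0) (nat_lit 11783690346) (nat_lit 168) (nat_lit 32801521931) (nat_lit 0) (nat_lit 5445558912) (nat_lit 4) (nat_lit 5) (nat_lit 6) (nat_lit 4) (nat_lit 4) (nat_lit 4) (nat_lit 437) (nat_lit 269) (nat_lit 239)) (XT.lf (nat_lit 0) (nat_lit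 14564373714) (nat_lit 168) (nat_lit 28786524032) (nat_lit 0) (nat_lit 8096899728) (nat_lit 4) (nat_lit 5) (nat_lit 6) (nat_lit 4) (nat_lit 4) (nat_lit 4) (nat_lit 438) (nat_lit 269) (nat_lit 238))) (XT.nd (nat_lit 94) (nat_lit 0) (nat_lit 0) (XT.lf (nat_lit 0) (nat_lit 17392577782) (nat_lit 168) (nat_lit 24716323276) (nat_lit 0) (nat_lit 10799528504) (nat_lit 4) (nat_lit 5) (nat_lit 6) (nat_lit 4) (nat_lit 4) (nat_lit 4) (nat_lit 439) (nat_lit 269) (nat_lit 237)) (XT.lf (nat_lit 0) (nat_lit 20270773797) (nat_lit 168) (nat_lit 20587363178) (nat_lit 0) (nat_lit 13555806759) (nat_lit 4) (nat_lit 5) (nat_lit 6) (nat_lit 4) (nat_lit 4) (nat_lit 4) (nat_lit 440) (nat_lit 269) (nat_lit 236))))) (XT.nd (nat_lit 282) (nat_lit 84) (nat_lit 0) (XT.nd (nat_lit 94) (nat_lit 0) (nat_lit 0) (XT.lf (nat_lit 0) (nat_lit 23201476688) (nat_lit 168) (nat_lit 16396035908) (nat_lit 0) (nat_lit 16368142892)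 (nat_lit 4) (nat_lit 5) (nat_lit 6) (nat_lit 4) (nat_lit 4) (nat_lit 4) (nat_lit 441) (nat_lit 269) (nat_lit 235)) (XT.nd (nat_lit 94) (nat_lit 0) (nat_lit 0) (XT.lf (nat_lit 0) (nat_lit 26187247261) (nat_lit 168) (nat_lit 12138679141) (nat_lit 0) (nat_lit 19238994284) (nat_lit 4) (nat_lit 5) (nat_lit 6) (nat_lit 4) (nat_lit 4) (nat_lit 4) (nat_lit 442) (nat_lit 269) (nat_lit 234)) (XT.lf (nat_lit 0) (nat_lit 29230694444) (nat_lit 168) (nat_lit 7811572858) (nat_lit 0) (nat_lit 22170869445) (nat_lit 4) (nat_lit 5) (nat_lit 6) (nat_lit 4) (nat_lit 4) (nat_lit 4) (nat_lit 443) (nat_lit 269) (nat_lit 233)))) (XT.nd (nat_lit 188) (nat_lit 0) (nat_lit 0) (XT.nd (nat_lit 94) (nat_lit 84) (nat_lit 0) (XT.lf (nat_lit 0) (nat_lit 32334477559) (nat_lit 168) (nat_lit 3410936090) (nat_lit 0) (nat_lit 25166330210) (nat_lit 4) (nat_lit 5) (nat_lit 6) (nat_lit 4) (nat_lit 4) (nat_lit 4) (nat_lit 444)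 (nat_lit 269) (nat_lit 232)) (XT.lf (nat_lit 0) (nat_lit 1088313288) (nat_lit 84) (nat_lit 34423456894) (nat_lit 84) (nat_lit 27150142213) (nat_lit 3) (nat_lit 4) (nat_lit 4) (nat_lit 5) (nat_lit 4) (nat_lit 4) (nat_lit 445) (nat_lit 269) (nat_lit 231))) (XT.nd (nat_lit 94) (nat_lit 0) (nat_lit 0) (XT.lf (nat_lit 0) (nat_lit 5738353312) (nat_lit 84) (nat_lit 33050762099) (nat_lit 84) (nat_lit 25675343214) (nat_lit 3) (nat_lit 4) (nat_lit 4) (nat_lit 5) (nat_lit 4) (nat_lit 4) (nat_lit 446) (nat_lit 269) (nat_lit 230)) (XT.lf (nat_lit 0) (nat_lit 10475362806) (nat_lit 84) (nat_lit 31660573591) (nat_lit 84) (nat_lit 24186024410) (nat_lit 3) (nat_lit 4) (nat_lit 4) (nat_lit 5) (nat_lit 4) (nat_lit 4) (nat_lit 447) (nat_lit 269) (nat_lit 229))))))))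
noncomputable def xc8 : XT := (XT.nd (nat_lit 57528) (nat_lit 0) (nat_lit 0) (XT.nd (nat_lit 56212) (nat_lit 0) (nat_lit 252) (XT.nd (nat_lit 55554) (nat_lit 0) (nat_lit 588) (XT.nd (nat_lit 55272) (nat_lit 0) (nat_lit 840) (XT.nd (nat_lit 94) (nat_lit 0) (nat_lit 0) (XT.lf (nat_lit 0) (nat_lit 15303480903) (nat_lit 84) (nat_lit 30251676640) (nat_lit 84) (nat_lit 22680884454) (nat_lit 3) (nat_lit 4) (nat_lit 4) (nat_lit 5) (nat_lit 4) (nat_lit 4) (nat_lit 448) (nat_lit 269) (nat_lit 228)) (XT.nd (nat_lit 94) (nat_lit 0) (nat_lit 0) (XT.lf (nat_lit 0) (nat_lit 20226926349) (nat_lit 84) (nat_lit 28822840173) (nat_lit 84) (nat_lit 21158608175) (nat_lit 3) (nat_lit 4) (nat_lit 4) (nat_lit 5) (nat_lit 4) (nat_lit 4) (nat_lit 449) (nat_lit 269) (nat_lit 227)) (XT.lf (nat_lit 0) (nat_lit 25250001182) (nat_lit 84) (nat_lit 27372815691) (nat_lit 84) (nat_lit 19617865430) (nat_lit 3) (nat_lit 4)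 (nat_lit 4) (nat_lit 5) (nat_lit 4) (nat_lit 4) (nat_lit 450) (nat_lit 269) (nat_lit 226)))) (XT.nd (nat_lit 94) (nat_lit 0) (nat_lit 0) (XT.lf (nat_lit 0) (nat_lit 1432928640) (nat_lit 168) (nat_lit 7915692132) (nat_lit 0) (nat_lit 1432928640) (nat_lit 13) (nat_lit 5) (nat_lit 15) (nat_lit 4) (nat_lit 13) (nat_lit 4) (nat_lit 405) (nat_lit 270) (nat_lit 270)) (XT.nd (nat_lit 94) (nat_lit 0) (nat_lit 0) (XT.lf (nat_lit 0) (nat_lit 6554620671) (nat_lit 168) (nat_lit 9332552027) (nat_lit 0) (nat_lit 6201269069) (nat_lit 13) (nat_lit 5) (nat_lit 15) (nat_lit 4) (nat_lit 13) (nat_lit 4) (nat_lit 406) (nat_lit 270) (nat_lit 269)) (XT.lf (nat_lit 0) (nat_lit 10277400458) (nat_lit 168) (nat_lit 2773504116) (nat_lit 0) (nat_lit 9580989048) (nat_lit 13) (nat_lit 5) (nat_lit 15) (nat_lit 4) (nat_lit 13) (nat_lit 4) (nat_lit 407) (nat_lit 270) (nat_lit 268))))) (XT.nd (nat_lit 282) (nat_lit 168)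 (nat_lit 0) (XT.nd (nat_lit 94) (nat_lit 0) (nat_lit 0) (XT.lf (nat_lit 0) (nat_lit 3928142892) (nat_lit 84) (nat_lit 10147066376) (nat_lit 84) (nat_lit 9117587192) (nat_lit 12) (nat_lit 4) (nat_lit 13) (nat_lit 5) (nat_lit 13) (nat_lit 4) (nat_lit 408) (nat_lit 270) (nat_lit 267)) (XT.nd (nat_lit 94) (nat_lit 0) (nat_lit 0) (XT.lf (nat_lit 0) (nat_lit 10758151463) (nat_lit 84) (nat_lit 7183315913) (nat_lit 84) (nat_lit 5830469959) (nat_lit 12) (nat_lit 4) (nat_lit 13) (nat_lit 5) (nat_lit 13) (nat_lit 4) (nat_lit 409) (nat_lit 270) (nat_lit 266)) (XT.lf (nat_lit 0) (nat_lit 17667291395) (nat_lit 84) (nat_lit 4185070456) (nat_lit 84) (nat_lit 2518276179) (nat_lit 12) (nat_lit 4) (nat_lit 13) (nat_lit 5) (nat_lit 13) (nat_lit 4) (nat_lit 410) (nat_lit 270) (nat_lit 265)))) (XT.nd (nat_lit 188) (nat_lit 0) (nat_lit 0) (XT.nd (nat_lit 94) (nat_lit 84) (nat_lit 0) (XT.lf (nat_lit 0) (nat_lit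 805850294) (nat_lit 168) (nat_lit 335722374) (nat_lit 84) (nat_lit 23847611999) (nat_lit 11) (nat_lit 5) (nat_lit 13) (nat_lit 5) (nat_lit 12) (nat_lit 4) (nat_lit 411) (nat_lit 270) (nat_lit 264)) (XT.lf (nat_lit 0) (nat_lit 4190208756) (nat_lit 168) (nat_lit 19446310189) (nat_lit 0) (nat_lit 1988728294) (nat_lit 10) (nat_lit 5) (nat_lit 12) (nat_lit 4) (nat_lit 10) (nat_lit 4) (nat_lit 412) (nat_lit 270) (nat_lit 263))) (XT.nd (nat_lit 94) (nat_lit 0) (nat_lit 0) (XT.lf (nat_lit 0) (nat_lit 7623202754) (nat_lit 168) (nat_lit 13516032543) (nat_lit 0) (nat_lit 5142783275) (nat_lit 10) (nat_lit 5) (nat_lit 12) (nat_lit 4) (nat_lit 10) (nat_lit 4) (nat_lit 413) (nat_lit 270) (nat_lit 262)) (XT.lf (nat_lit 0) (nat_lit 11093534514) (nat_lit 168) (nat_lit 7524666501) (nat_lit 0) (nat_lit 8342300455) (nat_lit 10) (nat_lit 5) (nat_lit 12) (nat_lit 4) (nat_lit 10) (nat_lit 4) (nat_lit 414) (nat_lit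 270) (nat_lit 261)))))) (XT.nd (nat_lit 658) (nat_lit 84) (nat_lit 0) (XT.nd (nat_lit 282) (nat_lit 168) (nat_lit 0) (XT.nd (nat_lit 94) (nat_lit 84) (nat_lit 0) (XT.lf (nat_lit 0) (nat_lit 14604236363) (nat_lit 168) (nat_lit 1466976890) (nat_lit 0) (nat_lit 11590075527) (nat_lit 10) (nat_lit 5) (nat_lit 12) (nat_lit 4) (nat_lit 10) (nat_lit 4) (nat_lit 415) (nat_lit 270) (nat_lit 260)) (XT.nd (nat_lit 94) (nat_lit 0) (nat_lit 0) (XT.lf (nat_lit 0) (nat_lit 4755118914) (nat_lit 84) (nat_lit 13448966104) (nat_lit 84) (nat_lit 10179536552) (nat_lit 9) (nat_lit 4) (nat_lit 10) (nat_lit 5) (nat_lit 10) (nat_lit 4) (nat_lit 416) (nat_lit 270) (nat_lit 259)) (XT.lf (nat_lit 0) (nat_lit 11084914738) (nat_lit 84) (nat_lit 10780698944) (nat_lit 84) (nat_lit 7263435689) (nat_lit 9) (nat_lit 4) (nat_lit 10) (nat_lit 5) (nat_lit 10) (nat_lit 4) (nat_lit 417) (nat_lit 270) (nat_lit 258)))) (XT.nd (nat_lit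 188) (nat_lit 168) (nat_lit 0) (XT.nd (nat_lit 94) (nat_lit 0) (nat_lit 0) (XT.lf (nat_lit 0) (nat_lit 17498745755) (nat_lit 84) (nat_lit 8078893870) (nat_lit 84) (nat_lit 4321015368) (nat_lit 9) (nat_lit 4) (nat_lit 10) (nat_lit 5) (nat_lit 10) (nat_lit 4) (nat_lit 418) (nat_lit 270) (nat_lit 257)) (XT.lf (nat_lit 0) (nat_lit 24002216281) (nat_lit 84) (nat_lit 5341190081) (nat_lit 84) (nat_lit 1349704543) (nat_lit 9) (nat_lit 4) (nat_lit 10) (nat_lit 5) (nat_lit 10) (nat_lit 4) (nat_lit 419) (nat_lit 270) (nat_lit 256))) (XT.nd (nat_lit 94) (nat_lit 84) (nat_lit 0) (XT.lf (nat_lit 0) (nat_lit 1620835276) (nat_lit 168) (nat_lit 927992874) (nat_lit 84) (nat_lit 28963806429) (nat_lit 8) (nat_lit 5) (nat_lit 10) (nat_lit 5) (nat_lit 9) (nat_lit 4) (nat_lit 420) (nat_lit 270) (nat_lit 255)) (XT.lf (nat_lit 0) (nat_lit 4649826112) (nat_lit 168) (nat_lit 27366036882) (nat_lit 0) (nat_lit 340616867)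 (nat_lit 7) (nat_lit 5) (nat_lit 9) (nat_lit 4) (nat_lit 7) (nat_lit 4) (nat_lit 421) (nat_lit 270) (nat_lit 254))))) (XT.nd (nat_lit 282) (nat_lit 84) (nat_lit 0) (XT.nd (nat_lit 94) (nat_lit 0) (nat_lit 0) (XT.lf (nat_lit 0) (nat_lit 7749759252) (nat_lit 168) (nat_lit 22243515676) (nat_lit 0) (nat_lit 3232993182) (nat_lit 7) (nat_lit 5) (nat_lit 9) (nat_lit 4) (nat_lit 7) (nat_lit 4) (nat_lit 422) (nat_lit 270) (nat_lit 253)) (XT.nd (nat_lit 94) (nat_lit 0) (nat_lit 0) (XT.lf (nat_lit 0) (nat_lit 10889654432) (nat_lit 168) (nat_lit 17062738688) (nat_lit 0) (nat_lit 6171376882) (nat_lit 7) (nat_lit 5) (nat_lit 9) (nat_lit 4) (nat_lit 7) (nat_lit 4) (nat_lit 423) (nat_lit 270) (nat_lit 252)) (XT.lf (nat_lit 0) (nat_lit 14072255250) (nat_lit 168) (nat_lit 11819179027) (nat_lit 0) (nat_lit 9158335485) (nat_lit 7) (nat_lit 5) (nat_lit 9) (nat_lit 4) (nat_lit 7) (nat_lit 4) (nat_lit 424) (nat_lit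 270) (nat_lit 251)))) (XT.nd (nat_lit 188) (nat_lit 84) (nat_lit 0) (XT.nd (nat_lit 94) (nat_lit 0) (nat_lit 0) (XT.lf (nat_lit 0) (nat_lit 17300342620) (nat_lit 168) (nat_lit 6508254941) (nat_lit 0) (nat_lit 12196478957) (nat_lit 7) (nat_lit 5) (nat_lit 9) (nat_lit 4) (nat_lit 7) (nat_lit 4) (nat_lit 425) (nat_lit 270) (nat_lit 250)) (XT.lf (nat_lit 0) (nat_lit 20576737199) (nat_lit 168) (nat_lit 1125325817) (nat_lit 0) (nat_lit 15288461985) (nat_lit 7) (nat_lit 5) (nat_lit 9) (nat_lit 4) (nat_lit 7) (nat_lit 4) (nat_lit 426) (nat_lit 270) (nat_lit 249))) (XT.nd (nat_lit 94) (nat_lit 0) (nat_lit 0) (XT.lf (nat_lit 0) (nat_lit 4420573179) (nat_lit 84) (nat_lit 19526221931) (nat_lit 84) (nat_lit 14058906376) (nat_lit 6) (nat_lit 4) (nat_lit 7) (nat_lit 5) (nat_lit 7) (nat_lit 4) (nat_lit 427) (nat_lit 270) (nat_lit 248)) (XT.lf (nat_lit 0) (nat_lit 10071969087) (nat_lit 84) (nat_lit 17310793017)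 (nat_lit 84) (nat_lit 11669651888) (nat_lit 6) (nat_lit 4) (nat_lit 7) (nat_lit 5) (nat_lit 7) (nat_lit 4) (nat_lit 428) (nat_lit 270) (nat_lit 247))))))) (XT.nd (nat_lit 1316) (nat_lit 84) (nat_lit 0) (XT.nd (nat_lit 658) (nat_lit 0) (nat_lit 0) (XT.nd (nat_lit 282) (nat_lit 168) (nat_lit 0) (XT.nd (nat_lit 94) (nat_lit 0) (nat_lit 0) (XT.lf (nat_lit 0) (nat_lit 15811403828) (nat_lit 84) (nat_lit 15065204045) (nat_lit 84) (nat_lit 9255300223) (nat_lit 6) (nat_lit 4) (nat_lit 7) (nat_lit 5) (nat_lit 7) (nat_lit 4) (nat_lit 429) (nat_lit 270) (nat_lit 246)) (XT.nd (nat_lit 94) (nat_lit 0) (nat_lit 0) (XT.lf (nat_lit 0) (nat_lit 21643892441) (nat_lit 84) (nat_lit 12787492851) (nat_lit 84) (nat_lit 6813741755) (nat_lit 6) (nat_lit 4) (nat_lit 7) (nat_lit 5) (nat_lit 7) (nat_lit 4) (nat_lit 430) (nat_lit 270) (nat_lit 245)) (XT.lf (nat_lit 0) (nat_lit 27574531277) (nat_lit 84) (nat_lit 10475669203)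 (nat_lit 84) (nat_lit 4342843082) (nat_lit 6) (nat_lit 4) (nat_lit 7) (nat_lit 5) (nat_lit 7) (nat_lit 4) (nat_lit 431) (nat_lit 270) (nat_lit 244)))) (XT.nd (nat_lit 188) (nat_lit 84) (nat_lit 0) (XT.nd (nat_lit 94) (nat_lit 84) (nat_lit 0) (XT.lf (nat_lit 0) (nat_lit 33608502447) (nat_lit 84) (nat_lit 8127713059) (nat_lit 84) (nat_lit 1840445168) (nat_lit 6) (nat_lit 4) (nat_lit 7) (nat_lit 5) (nat_lit 7) (nat_lit 4) (nat_lit 432) (nat_lit 270) (nat_lit 243)) (XT.lf (nat_lit 0) (nat_lit 682064136) (nat_lit 168) (nat_lit 5052621161) (nat_lit 84) (nat_lit 39062126706) (nat_lit 5) (nat_lit 5) (nat_lit 7) (nat_lit 5) (nat_lit 6) (nat_lit 4) (nat_lit 433) (nat_lit 270) (nat_lit 242))) (XT.nd (nat_lit 94) (nat_lit 84) (nat_lit 0) (XT.lf (nat_lit 0) (nat_lit 3203860951) (nat_lit 168) (nat_lit 78949807) (nat_lit 84) (nat_lit 42771412628) (nat_lit 5) (nat_lit 5) (nat_lit 7) (nat_lit 5) (nat_lit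 6) (nat_lit 4) (nat_lit 434) (nat_lit 270) (nat_lit 241)) (XT.lf (nat_lit 0) (nat_lit 5073903375) (nat_lit 84) (nat_lit 737932591) (nat_lit 168) (nat_lit 41537225108) (nat_lit 4) (nat_lit 5) (nat_lit 5) (nat_lit 5) (nat_lit 6) (nat_lit 4) (nat_lit 435) (nat_lit 270) (nat_lit 240))))) (XT.nd (nat_lit 282) (nat_lit 0) (nat_lit 0) (XT.nd (nat_lit 94) (nat_lit 0) (nat_lit 0) (XT.lf (nat_lit 0) (nat_lit 8478872620) (nat_lit 168) (nat_lit 38387091303) (nat_lit 0) (nat_lit 1817374415) (nat_lit 4) (nat_lit 5) (nat_lit 6) (nat_lit 4) (nat_lit 4) (nat_lit 4) (nat_lit 436) (nat_lit 270) (nat_lit 239)) (XT.nd (nat_lit 94) (nat_lit 0) (nat_lit 0) (XT.lf (nat_lit 0) (nat_lit 11196249841) (nat_lit 168) (nat_lit 34456893671) (nat_lit 0) (nat_lit 4405409085) (nat_lit 4) (nat_lit 5) (nat_lit 6) (nat_lit 4) (nat_lit 4) (nat_lit 4) (nat_lit 437) (nat_lit 270) (nat_lit 238)) (XT.lf (nat_lit 0) (nat_lit 13959248579)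 (nat_lit 168) (nat_lit 30474037191) (nat_lit 0) (nat_lit 7042832529) (nat_lit 4) (nat_lit 5) (nat_lit 6) (nat_lit 4) (nat_lit 4) (nat_lit 4) (nat_lit 438) (nat_lit 270) (nat_lit 237)))) (XT.nd (nat_lit 188) (nat_lit 0) (nat_lit 0) (XT.nd (nat_lit 94) (nat_lit 0) (nat_lit 0) (XT.lf (nat_lit 0) (nat_lit 16770283103) (nat_lit 168) (nat_lit 26435041697) (nat_lit 0) (nat_lit 9731949293) (nat_lit 4) (nat_lit 5) (nat_lit 6) (nat_lit 4) (nat_lit 4) (nat_lit 4) (nat_lit 439) (nat_lit 270) (nat_lit 236)) (XT.lf (nat_lit 0) (nat_lit 19631809657) (nat_lit 168) (nat_lit 22336377968) (nat_lit 0) (nat_lit 12475109090) (nat_lit 4) (nat_lit 5) (nat_lit 6) (nat_lit 4) (nat_lit 4) (nat_lit 4) (nat_lit 440) (nat_lit 270) (nat_lit 235))) (XT.nd (nat_lit 94) (nat_lit 0) (nat_lit 0) (XT.lf (nat_lit 0) (nat_lit 22546328605) (nat_lit 168) (nat_lit 18174464650) (nat_lit 0) (nat_lit 15274708856) (nat_lit 4) (nat_lit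 5) (nat_lit 6) (nat_lit 4) (nat_lit 4) (nat_lit 4) (nat_lit 441) (nat_lit 270) (nat_lit 234)) (XT.lf (nat_lit 0) (nat_lit 25516386613) (nat_lit 168) (nat_lit 13945665118) (nat_lit 0) (nat_lit 18133194843) (nat_lit 4) (nat_lit 5) (nat_lit 6) (nat_lit 4) (nat_lit 4) (nat_lit 4) (nat_lit 442) (nat_lit 270) (nat_lit 233)))))) (XT.nd (nat_lit 658) (nat_lit 0) (nat_lit 0) (XT.nd (nat_lit 282) (nat_lit 84) (nat_lit 0) (XT.nd (nat_lit 94) (nat_lit 0) (nat_lit 0) (XT.lf (nat_lit 0) (nat_lit 28544578878) (nat_lit 168) (nat_lit 9646284305) (nat_lit 0) (nat_lit 21053064757) (nat_lit 4) (nat_lit 5) (nat_lit 6) (nat_lit 4) (nat_lit 4) (nat_lit 4) (nat_lit 443) (nat_lit 270) (nat_lit 232)) (XT.nd (nat_lit 94) (nat_lit 0) (nat_lit 0) (XT.lf (nat_lit 0) (nat_lit 31633551393) (nat_lit 168) (nat_lit 5272565470) (nat_lit 0) (nat_lit 24036869941) (nat_lit 4) (nat_lit 5) (nat_lit 6) (nat_lit 4) (nat_lit 4)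 (nat_lit 4) (nat_lit 444) (nat_lit 270) (nat_lit 231)) (XT.lf (nat_lit 0) (nat_lit 34786003260) (nat_lit 168) (nat_lit 820686917) (nat_lit 0) (nat_lit 27087217604) (nat_lit 4) (nat_lit 5) (nat_lit 6) (nat_lit 4) (nat_lit 4) (nat_lit 4) (nat_lit 445) (nat_lit 270) (nat_lit 230)))) (XT.nd (nat_lit 188) (nat_lit 0) (nat_lit 0) (XT.nd (nat_lit 94) (nat_lit 0) (nat_lit 0) (XT.lf (nat_lit 0) (nat_lit 3787142127) (nat_lit 84) (nat_lit 34253951249) (nat_lit 84) (nat_lit 26456035296) (nat_lit 3) (nat_lit 4) (nat_lit 4) (nat_lit 5) (nat_lit 4) (nat_lit 4) (nat_lit 446) (nat_lit 270) (nat_lit 229)) (XT.lf (nat_lit 0) (nat_lit 8499027640) (nat_lit 84) (nat_lit 32875091416) (nat_lit 84) (nat_lit 24980932459) (nat_lit 3) (nat_lit 4) (nat_lit 4) (nat_lit 5) (nat_lit 4) (nat_lit 4) (nat_lit 447) (nat_lit 270) (nat_lit 228))) (XT.nd (nat_lit 94) (nat_lit 0) (nat_lit 0) (XT.lf (nat_lit 0) (nat_lit 13302753523)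 (nat_lit 84) (nat_lit 31477193181) (nat_lit 84) (nat_lit 23489594412) (nat_lit 3) (nat_lit 4) (nat_lit 4) (nat_lit 5) (nat_lit 4) (nat_lit 4) (nat_lit 448) (nat_lit 270) (nat_lit 227)) (XT.lf (nat_lit 0) (nat_lit 18202517207) (nat_lit 84) (nat_lit 30059035078) (nat_lit 84) (nat_lit 21980718046) (nat_lit 3) (nat_lit 4) (nat_lit 4) (nat_lit 5) (nat_lit 4) (nat_lit 4) (nat_lit 449) (nat_lit 270) (nat_lit 226))))) (XT.nd (nat_lit 54990) (nat_lit 0) (nat_lit 840) (XT.nd (nat_lit 94) (nat_lit 0) (nat_lit 0) (XT.lf (nat_lit 0) (nat_lit 23202600039) (nat_lit 84) (nat_lit 28619377940) (nat_lit 84) (nat_lit 20452984924) (nat_lit 3) (nat_lit 4) (nat_lit 4) (nat_lit 5) (nat_lit 4) (nat_lit 4) (nat_lit 450) (nat_lit 270) (nat_lit 225)) (XT.nd (nat_lit 54802) (nat_lit 0) (nat_lit 1008) (XT.lf (nat_lit 0) (nat_lit 28307371023) (nat_lit 84) (nat_lit 27156963814) (nat_lit 84) (nat_lit 18905060134) (nat_lit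 3) (nat_lit 4) (nat_lit 4) (nat_lit 5) (nat_lit 4) (nat_lit 4) (nat_lit 451) (nat_lit 270) (nat_lit 224)) (XT.lf (nat_lit 0) (nat_lit 6300435498) (nat_lit 168) (nat_lit 1989540442) (nat_lit 168) (nat_lit 1989540442) (nat_lit 15) (nat_lit 4) (nat_lit 17) (nat_lit 5) (nat_lit 17) (nat_lit 4) (nat_lit 403) (nat_lit 271) (nat_lit 271)))) (XT.nd (nat_lit 188) (nat_lit 0) (nat_lit 0) (XT.nd (nat_lit 94) (nat_lit 168) (nat_lit 0) (XT.lf (nat_lit 0) (nat_lit 19846388214) (nat_lit 168) (nat_lit 791590453) (nat_lit 168) (nat_lit 416719738) (nat_lit 15) (nat_lit 4) (nat_lit 17) (nat_lit 5) (nat_lit 17) (nat_lit 4) (nat_lit 404) (nat_lit 271) (nat_lit 270)) (XT.lf (nat_lit 0) (nat_lit 3190919824) (nat_lit 168) (nat_lit 15899754596) (nat_lit 0) (nat_lit 2473616072) (nat_lit 13) (nat_lit 5) (nat_lit 15) (nat_lit 4) (nat_lit 13) (nat_lit 4) (nat_lit 405) (nat_lit 271) (nat_lit 269))) (XT.nd (nat_lit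 94) (nat_lit 0) (nat_lit 0) (XT.lf (nat_lit 0) (nat_lit 6841926315) (nat_lit 168) (nat_lit 9467301320) (nat_lit 0) (nat_lit 5781562756) (nat_lit 13) (nat_lit 5) (nat_lit 15) (nat_lit 4) (nat_lit 13) (nat_lit 4) (nat_lit 406) (nat_lit 271) (nat_lit 268)) (XT.lf (nat_lit 0) (nat_lit 10528048919) (nat_lit 168) (nat_lit 2972699003) (nat_lit 0) (nat_lit 9134617585) (nat_lit 13) (nat_lit 5) (nat_lit 15) (nat_lit 4) (nat_lit 13) (nat_lit 4) (nat_lit 407) (nat_lit 271) (nat_lit 267))))))))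
noncomputable def xc9 : XT := (XT.nd (nat_lit 2538) (nat_lit 168) (nat_lit 0) (XT.nd (nat_lit 1222) (nat_lit 252) (nat_lit 0) (XT.nd (nat_lit 564) (nat_lit 168) (nat_lit 0) (XT.nd (nat_lit 282) (nat_lit 168) (nat_lit 0) (XT.nd (nat_lit 94) (nat_lit 0) (nat_lit 0) (XT.lf (nat_lit 0) (nat_lit 3661169860) (nat_lit 84) (nat_lit 10626532061) (nat_lit 84) (nat_lit 8909733956) (nat_lit 12) (nat_lit 4) (nat_lit 13) (nat_lit 5) (nat_lit 13) (nat_lit 4) (nat_lit 408) (nat_lit 271) (nat_lit 266)) (XT.nd (nat_lit 94) (nat_lit 0) (nat_lit 0) (XT.lf (nat_lit 0) (nat_lit 10429223310) (nat_lit 84) (nat_lit 7689588258) (nat_lit 84) (nat_lit 5658841832) (nat_lit 12) (nat_lit 4) (nat_lit 13) (nat_lit 5) (nat_lit 13) (nat_lit 4) (nat_lit 409) (nat_lit 271) (nat_lit 265)) (XT.lf (nat_lit 0) (nat_lit 17278212640) (nat_lit 84) (nat_lit 4717368683) (nat_lit 84) (nat_lit 2381818061) (nat_lit 12) (nat_lit 4) (nat_lit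 13) (nat_lit 5) (nat_lit 13) (nat_lit 4) (nat_lit 410) (nat_lit 271) (nat_lit 264)))) (XT.nd (nat_lit 94) (nat_lit 84) (nat_lit 0) (XT.lf (nat_lit 0) (nat_lit 906166287) (nat_lit 168) (nat_lit 791959461) (nat_lit 84) (nat_lit 23298805612) (nat_lit 11) (nat_lit 5) (nat_lit 13) (nat_lit 5) (nat_lit 12) (nat_lit 4) (nat_lit 411) (nat_lit 271) (nat_lit 263)) (XT.nd (nat_lit 94) (nat_lit 0) (nat_lit 0) (XT.lf (nat_lit 0) (nat_lit 4247346479) (nat_lit 168) (nat_lit 19973387122) (nat_lit 0) (nat_lit 1413575397) (nat_lit 10) (nat_lit 5) (nat_lit 12) (nat_lit 4) (nat_lit 10) (nat_lit 4) (nat_lit 412) (nat_lit 271) (nat_lit 262)) (XT.lf (nat_lit 0) (nat_lit 7647999561) (nat_lit 168) (nat_lit 14100656241) (nat_lit 0) (nat_lit 4543413900) (nat_lit 10) (nat_lit 5) (nat_lit 12) (nat_lit 4) (nat_lit 10) (nat_lit 4) (nat_lit 413) (nat_lit 271) (nat_lit 261))))) (XT.nd (nat_lit 282) (nat_lit 84) (nat_lit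 0) (XT.nd (nat_lit 94) (nat_lit 84) (nat_lit 0) (XT.lf (nat_lit 0) (nat_lit 11086932374) (nat_lit 168) (nat_lit 8165160845) (nat_lit 0) (nat_lit 7719419936) (nat_lit 10) (nat_lit 5) (nat_lit 12) (nat_lit 4) (nat_lit 10) (nat_lit 4) (nat_lit 414) (nat_lit 271) (nat_lit 260)) (XT.nd (nat_lit 94) (nat_lit 84) (nat_lit 0) (XT.lf (nat_lit 0) (nat_lit 14567149808) (nat_lit 168) (nat_lit 2161714580) (nat_lit 0) (nat_lit 10944368655) (nat_lit 10) (nat_lit 5) (nat_lit 12) (nat_lit 4) (nat_lit 10) (nat_lit 4) (nat_lit 415) (nat_lit 271) (nat_lit 259)) (XT.lf (nat_lit 0) (nat_lit 3992843033) (nat_lit 84) (nat_lit 14137231448) (nat_lit 84) (nat_lit 10266616591) (nat_lit 9) (nat_lit 4) (nat_lit 10) (nat_lit 5) (nat_lit 10) (nat_lit 4) (nat_lit 416) (nat_lit 271) (nat_lit 258)))) (XT.nd (nat_lit 188) (nat_lit 84) (nat_lit 0) (XT.nd (nat_lit 94) (nat_lit 0) (nat_lit 0) (XT.lf (nat_lit 0) (nat_lit 10270491723)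 (nat_lit 84) (nat_lit 11491875668) (nat_lit 84) (nat_lit 7380645564) (nat_lit 9) (nat_lit 4) (nat_lit 10) (nat_lit 5) (nat_lit 10) (nat_lit 4) (nat_lit 417) (nat_lit 271) (nat_lit 257)) (XT.lf (nat_lit 0) (nat_lit 16633694454) (nat_lit 84) (nat_lit 8812314652) (nat_lit 84) (nat_lit 4467477512) (nat_lit 9) (nat_lit 4) (nat_lit 10) (nat_lit 5) (nat_lit 10) (nat_lit 4) (nat_lit 418) (nat_lit 271) (nat_lit 256))) (XT.nd (nat_lit 94) (nat_lit 84) (nat_lit 0) (XT.lf (nat_lit 0) (nat_lit 23088011305) (nat_lit 84) (nat_lit 6096207035) (nat_lit 84) (nat_lit 1524566948) (nat_lit 9) (nat_lit 4) (nat_lit 10) (nat_lit 5) (nat_lit 10) (nat_lit 4) (nat_lit 419) (nat_lit 271) (nat_lit 255)) (XT.lf (nat_lit 0) (nat_lit 1422350047) (nat_lit 168) (nat_lit 1904466526) (nat_lit 84) (nat_lit 28202368978) (nat_lit 8) (nat_lit 5) (nat_lit 10) (nat_lit 5) (nat_lit 9) (nat_lit 4) (nat_lit 420) (nat_lit 271) (nat_lit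 254)))))) (XT.nd (nat_lit 658) (nat_lit 84) (nat_lit 0) (XT.nd (nat_lit 282) (nat_lit 84) (nat_lit 0) (XT.nd (nat_lit 94) (nat_lit 0) (nat_lit 0) (XT.lf (nat_lit 0) (nat_lit 3950173258) (nat_lit 84) (nat_lit 461547880) (nat_lit 168) (nat_lit 27962512961) (nat_lit 7) (nat_lit 5) (nat_lit 8) (nat_lit 5) (nat_lit 9) (nat_lit 4) (nat_lit 421) (nat_lit 271) (nat_lit 253)) (XT.nd (nat_lit 94) (nat_lit 0) (nat_lit 0) (XT.lf (nat_lit 0) (nat_lit 7481091512) (nat_lit 168) (nat_lit 23344107809) (nat_lit 0) (nat_lit 2419754154) (nat_lit 7) (nat_lit 5) (nat_lit 9) (nat_lit 4) (nat_lit 7) (nat_lit 4) (nat_lit 422) (nat_lit 271) (nat_lit 252)) (XT.lf (nat_lit 0) (nat_lit 10595621561) (nat_lit 168) (nat_lit 18208966602) (nat_lit 0) (nat_lit 5338641988) (nat_lit 7) (nat_lit 5) (nat_lit 9) (nat_lit 4) (nat_lit 7) (nat_lit 4) (nat_lit 423) (nat_lit 271) (nat_lit 251)))) (XT.nd (nat_lit 188) (nat_lit 84)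 (nat_lit 0) (XT.nd (nat_lit 94) (nat_lit 0) (nat_lit 0) (XT.lf (nat_lit 0) (nat_lit 13753596038) (nat_lit 168) (nat_lit 13009713525) (nat_lit 0) (nat_lit 8306672567) (nat_lit 7) (nat_lit 5) (nat_lit 9) (nat_lit 4) (nat_lit 7) (nat_lit 4) (nat_lit 424) (nat_lit 271) (nat_lit 250)) (XT.lf (nat_lit 0) (nat_lit 16957774337) (nat_lit 168) (nat_lit 7741805540) (nat_lit 0) (nat_lit 11326439316) (nat_lit 7) (nat_lit 5) (nat_lit 9) (nat_lit 4) (nat_lit 7) (nat_lit 4) (nat_lit 425) (nat_lit 271) (nat_lit 249))) (XT.nd (nat_lit 94) (nat_lit 84) (nat_lit 0) (XT.lf (nat_lit 0) (nat_lit 20210956228) (nat_lit 168) (nat_lit 2400639620) (nat_lit 0) (nat_lit 14400580865) (nat_lit 7) (nat_lit 5) (nat_lit 9) (nat_lit 4) (nat_lit 7) (nat_lit 4) (nat_lit 426) (nat_lit 271) (nat_lit 248)) (XT.lf (nat_lit 0) (nat_lit 3078524370) (nat_lit 84) (nat_lit 20467052585) (nat_lit 84) (nat_lit 14482851648) (nat_lit 6)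 (nat_lit 4) (nat_lit 7) (nat_lit 5) (nat_lit 7) (nat_lit 4) (nat_lit 427) (nat_lit 271) (nat_lit 247))))) (XT.nd (nat_lit 282) (nat_lit 84) (nat_lit 0) (XT.nd (nat_lit 94) (nat_lit 0) (nat_lit 0) (XT.lf (nat_lit 0) (nat_lit 8689770994) (nat_lit 84) (nat_lit 18269506828) (nat_lit 84) (nat_lit 12116543199) (nat_lit 6) (nat_lit 4) (nat_lit 7) (nat_lit 5) (nat_lit 7) (nat_lit 4) (nat_lit 428) (nat_lit 271) (nat_lit 246)) (XT.nd (nat_lit 94) (nat_lit 0) (nat_lit 0) (XT.lf (nat_lit 0) (nat_lit 14390225849) (nat_lit 84) (nat_lit 16041280146) (nat_lit 84) (nat_lit 9724469241) (nat_lit 6) (nat_lit 4) (nat_lit 7) (nat_lit 5) (nat_lit 7) (nat_lit 4) (nat_lit 429) (nat_lit 271) (nat_lit 245)) (XT.lf (nat_lit 0) (nat_lit 20184869912) (nat_lit 84) (nat_lit 13780425543) (nat_lit 84) (nat_lit 7304539615) (nat_lit 6) (nat_lit 4) (nat_lit 7) (nat_lit 5) (nat_lit 7) (nat_lit 4) (nat_lit 430) (nat_lit 271)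 (nat_lit 244)))) (XT.nd (nat_lit 188) (nat_lit 84) (nat_lit 0) (XT.nd (nat_lit 94) (nat_lit 0) (nat_lit 0) (XT.lf (nat_lit 0) (nat_lit 26078766467) (nat_lit 84) (nat_lit 11484967518) (nat_lit 84) (nat_lit 4854639819) (nat_lit 6) (nat_lit 4) (nat_lit 7) (nat_lit 5) (nat_lit 7) (nat_lit 4) (nat_lit 431) (nat_lit 271) (nat_lit 243)) (XT.lf (nat_lit 0) (nat_lit 32077065519) (nat_lit 84) (nat_lit 9152900328) (nat_lit 84) (nat_lit 2372629162) (nat_lit 6) (nat_lit 4) (nat_lit 7) (nat_lit 5) (nat_lit 7) (nat_lit 4) (nat_lit 432) (nat_lit 271) (nat_lit 242))) (XT.nd (nat_lit 94) (nat_lit 0) (nat_lit 0) (XT.lf (nat_lit 0) (nat_lit 140857755) (nat_lit 168) (nat_lit 6639906104) (nat_lit 84) (nat_lit 38042728158) (nat_lit 5) (nat_lit 5) (nat_lit 7) (nat_lit 5) (nat_lit 6) (nat_lit 4) (nat_lit 433) (nat_lit 271) (nat_lit 241)) (XT.lf (nat_lit 0) (nat_lit 2643812616) (nat_lit 168) (nat_lit 1700243834)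 (nat_lit 84) (nat_lit 41737421909) (nat_lit 5) (nat_lit 5) (nat_lit 7) (nat_lit 5) (nat_lit 6) (nat_lit 4) (nat_lit 434) (nat_lit 271) (nat_lit 240))))))) (XT.nd (nat_lit 1316) (nat_lit 0) (nat_lit 0) (XT.nd (nat_lit 658) (nat_lit 84) (nat_lit 0) (XT.nd (nat_lit 282) (nat_lit 0) (nat_lit 0) (XT.nd (nat_lit 94) (nat_lit 0) (nat_lit 0) (XT.lf (nat_lit 0) (nat_lit 3386666756) (nat_lit 84) (nat_lit 1830608965) (nat_lit 168) (nat_lit 42160085101) (nat_lit 4) (nat_lit 5) (nat_lit 5) (nat_lit 5) (nat_lit 6) (nat_lit 4) (nat_lit 435) (nat_lit 271) (nat_lit 239)) (XT.nd (nat_lit 94) (nat_lit 0) (nat_lit 0) (XT.lf (nat_lit 0) (nat_lit 7855593731) (nat_lit 168) (nat_lit 40125229857) (nat_lit 0) (nat_lit 731685200) (nat_lit 4) (nat_lit 5) (nat_lit 6) (nat_lit 4) (nat_lit 4) (nat_lit 4) (nat_lit 436) (nat_lit 271) (nat_lit 238)) (XT.lf (nat_lit 0) (nat_lit 10555286321) (nat_lit 168) (nat_lit 36227173645)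 (nat_lit 0) (nat_lit 3305802498) (nat_lit 4) (nat_lit 5) (nat_lit 6) (nat_lit 4) (nat_lit 4) (nat_lit 4) (nat_lit 437) (nat_lit 271) (nat_lit 237)))) (XT.nd (nat_lit 188) (nat_lit 0) (nat_lit 0) (XT.nd (nat_lit 94) (nat_lit 0) (nat_lit 0) (XT.lf (nat_lit 0) (nat_lit 13301115514) (nat_lit 168) (nat_lit 32275522425) (nat_lit 0) (nat_lit 5929713930) (nat_lit 4) (nat_lit 5) (nat_lit 6) (nat_lit 4) (nat_lit 4) (nat_lit 4) (nat_lit 438) (nat_lit 271) (nat_lit 236)) (XT.lf (nat_lit 0) (nat_lit 16095480577) (nat_lit 168) (nat_lit 28266823301) (nat_lit 0) (nat_lit 8605712236) (nat_lit 4) (nat_lit 5) (nat_lit 6) (nat_lit 4) (nat_lit 4) (nat_lit 4) (nat_lit 439) (nat_lit 271) (nat_lit 235))) (XT.nd (nat_lit 94) (nat_lit 0) (nat_lit 0) (XT.lf (nat_lit 0) (nat_lit 18940823189) (nat_lit 168) (nat_lit 24197573524) (nat_lit 0) (nat_lit 11336135666) (nat_lit 4) (nat_lit 5) (nat_lit 6) (nat_lit 4) (nat_lit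 4) (nat_lit 4) (nat_lit 440) (nat_lit 271) (nat_lit 234)) (XT.lf (nat_lit 0) (nat_lit 21839629571) (nat_lit 168) (nat_lit 20064217440) (nat_lit 0) (nat_lit 14123370027) (nat_lit 4) (nat_lit 5) (nat_lit 6) (nat_lit 4) (nat_lit 4) (nat_lit 4) (nat_lit 441) (nat_lit 271) (nat_lit 233))))) (XT.nd (nat_lit 282) (nat_lit 84) (nat_lit 0) (XT.nd (nat_lit 94) (nat_lit 0) (nat_lit 0) (XT.lf (nat_lit 0) (nat_lit 24794432662) (nat_lit 168) (nat_lit 15863143378) (nat_lit 0) (nat_lit 16969850767) (nat_lit 4) (nat_lit 5) (nat_lit 6) (nat_lit 4) (nat_lit 4) (nat_lit 4) (nat_lit 442) (nat_lit 271) (nat_lit 232)) (XT.nd (nat_lit 94) (nat_lit 0) (nat_lit 0) (XT.lf (nat_lit 0) (nat_lit 27807814327) (nat_lit 168) (nat_lit 11590680498) (nat_lit 0) (nat_lit 19878065101) (nat_lit 4) (nat_lit 5) (nat_lit 6) (nat_lit 4) (nat_lit 4) (nat_lit 4) (nat_lit 443) (nat_lit 271) (nat_lit 231)) (XT.lf (nat_lit 0) (nat_lit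 30882407618) (nat_lit 168) (nat_lit 7243095578) (nat_lit 0) (nat_lit 22850554188) (nat_lit 4) (nat_lit 5) (nat_lit 6) (nat_lit 4) (nat_lit 4) (nat_lit 4) (nat_lit 444) (nat_lit 271) (nat_lit 230)))) (XT.nd (nat_lit 188) (nat_lit 0) (nat_lit 0) (XT.nd (nat_lit 94) (nat_lit 84) (nat_lit 0) (XT.lf (nat_lit 0) (nat_lit 34020899075) (nat_lit 168) (nat_lit 2816589758) (nat_lit 0) (nat_lit 25889915348) (nat_lit 4) (nat_lit 5) (nat_lit 6) (nat_lit 4) (nat_lit 4) (nat_lit 4) (nat_lit 445) (nat_lit 271) (nat_lit 229)) (XT.lf (nat_lit 0) (nat_lit 1726392925) (nat_lit 84) (nat_lit 35516233286) (nat_lit 84) (nat_lit 27289006554) (nat_lit 3) (nat_lit 4) (nat_lit 4) (nat_lit 5) (nat_lit 4) (nat_lit 4) (nat_lit 446) (nat_lit 271) (nat_lit 228))) (XT.nd (nat_lit 94) (nat_lit 0) (nat_lit 0) (XT.lf (nat_lit 0) (nat_lit 6413886224) (nat_lit 84) (nat_lit 34148372169) (nat_lit 84) (nat_lit 25827705625) (nat_lit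 3) (nat_lit 4) (nat_lit 4) (nat_lit 5) (nat_lit 4) (nat_lit 4) (nat_lit 447) (nat_lit 271) (nat_lit 227)) (XT.lf (nat_lit 0) (nat_lit 11193930345) (nat_lit 84) (nat_lit 32761152298) (nat_lit 84) (nat_lit 24349767491) (nat_lit 3) (nat_lit 4) (nat_lit 4) (nat_lit 5) (nat_lit 4) (nat_lit 4) (nat_lit 448) (nat_lit 271) (nat_lit 226)))))) (XT.nd (nat_lit 55084) (nat_lit 0) (nat_lit 756) (XT.nd (nat_lit 282) (nat_lit 0) (nat_lit 0) (XT.nd (nat_lit 94) (nat_lit 0) (nat_lit 0) (XT.lf (nat_lit 0) (nat_lit 16070702028) (nat_lit 84) (nat_lit 31353361538) (nat_lit 84) (nat_lit 22853900748) (nat_lit 3) (nat_lit 4) (nat_lit 4) (nat_lit 5) (nat_lit 4) (nat_lit 4) (nat_lit 449) (nat_lit 271) (nat_lit 225)) (XT.nd (nat_lit 94) (nat_lit 0) (nat_lit 0) (XT.lf (nat_lit 0) (nat_lit 21048462529) (nat_lit 84) (nat_lit 29923769783) (nat_lit 84) (nat_lit 21338798328) (nat_lit 3) (nat_lit 4) (nat_lit 4) (nat_lit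 5) (nat_lit 4) (nat_lit 4) (nat_lit 450) (nat_lit 271) (nat_lit 224)) (XT.lf (nat_lit 0) (nat_lit 26131561346) (nat_lit 84) (nat_lit 28471127872) (nat_lit 84) (nat_lit 19803136356) (nat_lit 3) (nat_lit 4) (nat_lit 4) (nat_lit 5) (nat_lit 4) (nat_lit 4) (nat_lit 451) (nat_lit 271) (nat_lit 223)))) (XT.nd (nat_lit 54614) (nat_lit 0) (nat_lit 1008) (XT.nd (nat_lit 54520) (nat_lit 0) (nat_lit 1176) (XT.lf (nat_lit 0) (nat_lit 31324440024) (nat_lit 84) (nat_lit 26994166509) (nat_lit 84) (nat_lit 18245572990) (nat_lit 3) (nat_lit 4) (nat_lit 4) (nat_lit 5) (nat_lit 4) (nat_lit 4) (nat_lit 452) (nat_lit 271) (nat_lit 222)) (XT.lf (nat_lit 0) (nat_lit 4513734288) (nat_lit 168) (nat_lit 780497265) (nat_lit 0) (nat_lit 4513734288) (nat_lit 17) (nat_lit 5) (nat_lit 19) (nat_lit 4) (nat_lit 17) (nat_lit 4) (nat_lit 401) (nat_lit 272) (nat_lit 272))) (XT.nd (nat_lit 94) (nat_lit 0) (nat_lit 0) (XT.lf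 (nat_lit 0) (nat_lit 5433692594) (nat_lit 168) (nat_lit 7516284132) (nat_lit 168) (nat_lit 7130167296) (nat_lit 15) (nat_lit 4) (nat_lit 17) (nat_lit 5) (nat_lit 17) (nat_lit 4) (nat_lit 402) (nat_lit 272) (nat_lit 271)) (XT.lf (nat_lit 0) (nat_lit 12533542653) (nat_lit 168) (nat_lit 4393832485) (nat_lit 168) (nat_lit 3632844935) (nat_lit 15) (nat_lit 4) (nat_lit 17) (nat_lit 5) (nat_lit 17) (nat_lit 4) (nat_lit 403) (nat_lit 272) (nat_lit 270))))) (XT.nd (nat_lit 282) (nat_lit 84) (nat_lit 0) (XT.nd (nat_lit 94) (nat_lit 168) (nat_lit 0) (XT.lf (nat_lit 0) (nat_lit 19713692546) (nat_lit 168) (nat_lit 1234142796) (nat_lit 168) (nat_lit 109203096) (nat_lit 15) (nat_lit 4) (nat_lit 17) (nat_lit 5) (nat_lit 17) (nat_lit 4) (nat_lit 404) (nat_lit 272) (nat_lit 269)) (XT.nd (nat_lit 94) (nat_lit 0) (nat_lit 0) (XT.lf (nat_lit 0) (nat_lit 3449087739) (nat_lit 168) (nat_lit 16104925330) (nat_lit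 0) (nat_lit 2013853465) (nat_lit 13) (nat_lit 5) (nat_lit 15) (nat_lit 4) (nat_lit 13) (nat_lit 4) (nat_lit 405) (nat_lit 272) (nat_lit 268)) (XT.lf (nat_lit 0) (nat_lit 7063437047) (nat_lit 168) (nat_lit 9736917649) (nat_lit 0) (nat_lit 5295134999) (nat_lit 13) (nat_lit 5) (nat_lit 15) (nat_lit 4) (nat_lit 13) (nat_lit 4) (nat_lit 406) (nat_lit 272) (nat_lit 267)))) (XT.nd (nat_lit 188) (nat_lit 0) (nat_lit 0) (XT.nd (nat_lit 94) (nat_lit 84) (nat_lit 0) (XT.lf (nat_lit 0) (nat_lit 10713970151) (nat_lit 168) (nat_lit 3304883870) (nat_lit 0) (nat_lit 8622301332) (nat_lit 13) (nat_lit 5) (nat_lit 15) (nat_lit 4) (nat_lit 13) (nat_lit 4) (nat_lit 407) (nat_lit 272) (nat_lit 266)) (XT.lf (nat_lit 0) (nat_lit 3260418742) (nat_lit 84) (nat_lit 11174799236) (nat_lit 84) (nat_lit 8769182095) (nat_lit 12) (nat_lit 4) (nat_lit 13) (nat_lit 5) (nat_lit 13) (nat_lit 4) (nat_lit 408) (nat_lit 272)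 (nat_lit 265))) (XT.nd (nat_lit 94) (nat_lit 0) (nat_lit 0) (XT.lf (nat_lit 0) (nat_lit 9968321589) (nat_lit 84) (nat_lit 8263881315) (nat_lit 84) (nat_lit 5553459979) (nat_lit 12) (nat_lit 4) (nat_lit 13) (nat_lit 5) (nat_lit 13) (nat_lit 4) (nat_lit 409) (nat_lit 272) (nat_lit 264)) (XT.lf (nat_lit 0) (nat_lit 16758912275) (nat_lit 84) (nat_lit 5316929588) (nat_lit 84) (nat_lit 2310581848) (nat_lit 12) (nat_lit 4) (nat_lit 13) (nat_lit 5) (nat_lit 13) (nat_lit 4) (nat_lit 410) (nat_lit 272) (nat_lit 263))))))))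
noncomputable def xc10 : XT := (XT.nd (nat_lit 2538) (nat_lit 84) (nat_lit 0) (XT.nd (nat_lit 1222) (nat_lit 252) (nat_lit 0) (XT.nd (nat_lit 564) (nat_lit 168) (nat_lit 0) (XT.nd (nat_lit 282) (nat_lit 84) (nat_lit 0) (XT.nd (nat_lit 94) (nat_lit 84) (nat_lit 0) (XT.lf (nat_lit 0) (nat_lit 943508217) (nat_lit 168) (nat_lit 1378333247) (nat_lit 84) (nat_lit 22685088525) (nat_lit 11) (nat_lit 5) (nat_lit 13) (nat_lit 5) (nat_lit 12) (nat_lit 4) (nat_lit 411) (nat_lit 272) (nat_lit 262)) (XT.nd (nat_lit 94) (nat_lit 0) (nat_lit 0) (XT.lf (nat_lit 0) (nat_lit 4240546274) (nat_lit 168) (nat_lit 20633096297) (nat_lit 0) (nat_lit 772008463) (nat_lit 10) (nat_lit 5) (nat_lit 12) (nat_lit 4) (nat_lit 10) (nat_lit 4) (nat_lit 412) (nat_lit 272) (nat_lit 261)) (XT.lf (nat_lit 0) (nat_lit 7609800410) (nat_lit 168) (nat_lit 14816236062) (nat_lit 0) (nat_lit 3878335822) (nat_lit 10) (nat_lit 5) (nat_lit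 12) (nat_lit 4) (nat_lit 10) (nat_lit 4) (nat_lit 413) (nat_lit 272) (nat_lit 260)))) (XT.nd (nat_lit 94) (nat_lit 84) (nat_lit 0) (XT.lf (nat_lit 0) (nat_lit 11018248807) (nat_lit 168) (nat_lit 8934984012) (nat_lit 0) (nat_lit 7031515504) (nat_lit 10) (nat_lit 5) (nat_lit 12) (nat_lit 4) (nat_lit 10) (nat_lit 4) (nat_lit 414) (nat_lit 272) (nat_lit 259)) (XT.nd (nat_lit 94) (nat_lit 84) (nat_lit 0) (XT.lf (nat_lit 0) (nat_lit 14468869723) (nat_lit 168) (nat_lit 2984201189) (nat_lit 0) (nat_lit 10234302715) (nat_lit 10) (nat_lit 5) (nat_lit 12) (nat_lit 4) (nat_lit 10) (nat_lit 4) (nat_lit 415) (nat_lit 272) (nat_lit 258)) (XT.lf (nat_lit 0) (nat_lit 3101840194) (nat_lit 84) (nat_lit 14892654853) (nat_lit 84) (nat_lit 10417472599) (nat_lit 9) (nat_lit 4) (nat_lit 10) (nat_lit 5) (nat_lit 10) (nat_lit 4) (nat_lit 416) (nat_lit 272) (nat_lit 257))))) (XT.nd (nat_lit 282) (nat_lit 168) (nat_lit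 0) (XT.nd (nat_lit 94) (nat_lit 0) (nat_lit 0) (XT.lf (nat_lit 0) (nat_lit 9328860598) (nat_lit 84) (nat_lit 12269543131) (nat_lit 84) (nat_lit 7560753841) (nat_lit 9) (nat_lit 4) (nat_lit 10) (nat_lit 5) (nat_lit 10) (nat_lit 4) (nat_lit 417) (nat_lit 272) (nat_lit 256)) (XT.nd (nat_lit 94) (nat_lit 0) (nat_lit 0) (XT.lf (nat_lit 0) (nat_lit 15642909653) (nat_lit 84) (nat_lit 9611578287) (nat_lit 84) (nat_lit 4675986050) (nat_lit 9) (nat_lit 4) (nat_lit 10) (nat_lit 5) (nat_lit 10) (nat_lit 4) (nat_lit 418) (nat_lit 272) (nat_lit 255)) (XT.lf (nat_lit 0) (nat_lit 22049504489) (nat_lit 84) (nat_lit 6916437828) (nat_lit 84) (nat_lit 1760648555) (nat_lit 9) (nat_lit 4) (nat_lit 10) (nat_lit 5) (nat_lit 10) (nat_lit 4) (nat_lit 419) (nat_lit 272) (nat_lit 254)))) (XT.nd (nat_lit 188) (nat_lit 0) (nat_lit 0) (XT.nd (nat_lit 94) (nat_lit 84) (nat_lit 0) (XT.lf (nat_lit 0) (nat_lit 1164627651)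 (nat_lit 168) (nat_lit 3005378670) (nat_lit 84) (nat_lit 27377854995) (nat_lit 8) (nat_lit 5) (nat_lit 10) (nat_lit 5) (nat_lit 9) (nat_lit 4) (nat_lit 420) (nat_lit 272) (nat_lit 253)) (XT.lf (nat_lit 0) (nat_lit 2780941201) (nat_lit 84) (nat_lit 1336335069) (nat_lit 168) (nat_lit 28276749512) (nat_lit 7) (nat_lit 5) (nat_lit 8) (nat_lit 5) (nat_lit 9) (nat_lit 4) (nat_lit 421) (nat_lit 272) (nat_lit 252))) (XT.nd (nat_lit 94) (nat_lit 0) (nat_lit 0) (XT.lf (nat_lit 0) (nat_lit 7152872523) (nat_lit 168) (nat_lit 24570358341) (nat_lit 0) (nat_lit 1542541349) (nat_lit 7) (nat_lit 5) (nat_lit 9) (nat_lit 4) (nat_lit 7) (nat_lit 4) (nat_lit 422) (nat_lit 272) (nat_lit 251)) (XT.lf (nat_lit 0) (nat_lit 10242776230) (nat_lit 168) (nat_lit 19479523719) (nat_lit 0) (nat_lit 4442501158) (nat_lit 7) (nat_lit 5) (nat_lit 9) (nat_lit 4) (nat_lit 7) (nat_lit 4) (nat_lit 423) (nat_lit 272) (nat_lit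 250)))))) (XT.nd (nat_lit 658) (nat_lit 168) (nat_lit 0) (XT.nd (nat_lit 282) (nat_lit 84) (nat_lit 0) (XT.nd (nat_lit 94) (nat_lit 0) (nat_lit 0) (XT.lf (nat_lit 0) (nat_lit 13376841637) (nat_lit 168) (nat_lit 14323286742) (nat_lit 0) (nat_lit 7392155014) (nat_lit 7) (nat_lit 5) (nat_lit 9) (nat_lit 4) (nat_lit 7) (nat_lit 4) (nat_lit 424) (nat_lit 272) (nat_lit 249)) (XT.nd (nat_lit 94) (nat_lit 0) (nat_lit 0) (XT.lf (nat_lit 0) (nat_lit 16557807248) (nat_lit 168) (nat_lit 9097141962) (nat_lit 0) (nat_lit 10394080284) (nat_lit 7) (nat_lit 5) (nat_lit 9) (nat_lit 4) (nat_lit 7) (nat_lit 4) (nat_lit 425) (nat_lit 272) (nat_lit 248)) (XT.lf (nat_lit 0) (nat_lit 19788452548) (nat_lit 168) (nat_lit 3796522843) (nat_lit 0) (nat_lit 13450900010) (nat_lit 7) (nat_lit 5) (nat_lit 9) (nat_lit 4) (nat_lit 7) (nat_lit 4) (nat_lit 426) (nat_lit 272) (nat_lit 247)))) (XT.nd (nat_lit 188) (nat_lit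 0) (nat_lit 0) (XT.nd (nat_lit 94) (nat_lit 0) (nat_lit 0) (XT.lf (nat_lit 0) (nat_lit 1614711051) (nat_lit 84) (nat_lit 21472410968) (nat_lit 84) (nat_lit 14966095737) (nat_lit 6) (nat_lit 4) (nat_lit 7) (nat_lit 5) (nat_lit 7) (nat_lit 4) (nat_lit 427) (nat_lit 272) (nat_lit 246)) (XT.lf (nat_lit 0) (nat_lit 7186977790) (nat_lit 84) (nat_lit 19292227501) (nat_lit 84) (nat_lit 12622064995) (nat_lit 6) (nat_lit 4) (nat_lit 7) (nat_lit 5) (nat_lit 7) (nat_lit 4) (nat_lit 428) (nat_lit 272) (nat_lit 245))) (XT.nd (nat_lit 94) (nat_lit 0) (nat_lit 0) (XT.lf (nat_lit 0) (nat_lit 12849588094) (nat_lit 84) (nat_lit 17080857410) (nat_lit 84) (nat_lit 10251619880) (nat_lit 6) (nat_lit 4) (nat_lit 7) (nat_lit 5) (nat_lit 7) (nat_lit 4) (nat_lit 429) (nat_lit 272) (nat_lit 244)) (XT.lf (nat_lit 0) (nat_lit 18607489876) (nat_lit 84) (nat_lit 14836368431) (nat_lit 84) (nat_lit 7852689130) (nat_lit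 6) (nat_lit 4) (nat_lit 7) (nat_lit 5) (nat_lit 7) (nat_lit 4) (nat_lit 430) (nat_lit 272) (nat_lit 243))))) (XT.nd (nat_lit 282) (nat_lit 168) (nat_lit 0) (XT.nd (nat_lit 94) (nat_lit 0) (nat_lit 0) (XT.lf (nat_lit 0) (nat_lit 24465714313) (nat_lit 84) (nat_lit 12556799359) (nat_lit 84) (nat_lit 5423176591) (nat_lit 6) (nat_lit 4) (nat_lit 7) (nat_lit 5) (nat_lit 7) (nat_lit 4) (nat_lit 431) (nat_lit 272) (nat_lit 242)) (XT.nd (nat_lit 94) (nat_lit 0) (nat_lit 0) (XT.lf (nat_lit 0) (nat_lit 30429380241) (nat_lit 84) (nat_lit 10240158339) (nat_lit 84) (nat_lit 2960959390) (nat_lit 6) (nat_lit 4) (nat_lit 7) (nat_lit 5) (nat_lit 7) (nat_lit 4) (nat_lit 432) (nat_lit 272) (nat_lit 241)) (XT.lf (nat_lit 0) (nat_lit 36503698630) (nat_lit 84) (nat_lit 7884421120) (nat_lit 84) (nat_lit 463886072) (nat_lit 6) (nat_lit 4) (nat_lit 7) (nat_lit 5) (nat_lit 7) (nat_lit 4) (nat_lit 433) (nat_lit 272)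 (nat_lit 240)))) (XT.nd (nat_lit 188) (nat_lit 0) (nat_lit 0) (XT.nd (nat_lit 94) (nat_lit 84) (nat_lit 0) (XT.lf (nat_lit 0) (nat_lit 2029827716) (nat_lit 168) (nat_lit 3437204295) (nat_lit 84) (nat_lit 40643652140) (nat_lit 5) (nat_lit 5) (nat_lit 7) (nat_lit 5) (nat_lit 6) (nat_lit 4) (nat_lit 434) (nat_lit 272) (nat_lit 239)) (XT.lf (nat_lit 0) (nat_lit 1582442559) (nat_lit 84) (nat_lit 2985744607) (nat_lit 168) (nat_lit 42839441702) (nat_lit 4) (nat_lit 5) (nat_lit 5) (nat_lit 5) (nat_lit 6) (nat_lit 4) (nat_lit 435) (nat_lit 272) (nat_lit 238))) (XT.nd (nat_lit 94) (nat_lit 0) (nat_lit 0) (XT.lf (nat_lit 0) (nat_lit 6758700779) (nat_lit 84) (nat_lit 423082826) (nat_lit 168) (nat_lit 41561743753) (nat_lit 4) (nat_lit 5) (nat_lit 5) (nat_lit 5) (nat_lit 6) (nat_lit 4) (nat_lit 436) (nat_lit 272) (nat_lit 237)) (XT.lf (nat_lit 0) (nat_lit 9860239720) (nat_lit 168) (nat_lit 38113908697)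 (nat_lit 0) (nat_lit 2145778329) (nat_lit 4) (nat_lit 5) (nat_lit 6) (nat_lit 4) (nat_lit 4) (nat_lit 4) (nat_lit 437) (nat_lit 272) (nat_lit 236))))))) (XT.nd (nat_lit 1316) (nat_lit 0) (nat_lit 0) (XT.nd (nat_lit 658) (nat_lit 84) (nat_lit 0) (XT.nd (nat_lit 282) (nat_lit 0) (nat_lit 0) (XT.nd (nat_lit 94) (nat_lit 0) (nat_lit 0) (XT.lf (nat_lit 0) (nat_lit 12589399452) (nat_lit 168) (nat_lit 34192553848) (nat_lit 0) (nat_lit 4756571303) (nat_lit 4) (nat_lit 5) (nat_lit 6) (nat_lit 4) (nat_lit 4) (nat_lit 4) (nat_lit 438) (nat_lit 272) (nat_lit 235)) (XT.nd (nat_lit 94) (nat_lit 0) (nat_lit 0) (XT.lf (nat_lit 0) (nat_lit 15367580573) (nat_lit 168) (nat_lit 30213268675) (nat_lit 0) (nat_lit 7419833242) (nat_lit 4) (nat_lit 5) (nat_lit 6) (nat_lit 4) (nat_lit 4) (nat_lit 4) (nat_lit 439) (nat_lit 272) (nat_lit 234)) (XT.lf (nat_lit 0) (nat_lit 18197210619) (nat_lit 168) (nat_lit 26172576133)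 (nat_lit 0) (nat_lit 10137891267) (nat_lit 4) (nat_lit 5) (nat_lit 6) (nat_lit 4) (nat_lit 4) (nat_lit 4) (nat_lit 440) (nat_lit 272) (nat_lit 233)))) (XT.nd (nat_lit 188) (nat_lit 0) (nat_lit 0) (XT.nd (nat_lit 94) (nat_lit 0) (nat_lit 0) (XT.lf (nat_lit 0) (nat_lit 21080762084) (nat_lit 168) (nat_lit 22066945519) (nat_lit 0) (nat_lit 12913120381) (nat_lit 4) (nat_lit 5) (nat_lit 6) (nat_lit 4) (nat_lit 4) (nat_lit 4) (nat_lit 441) (nat_lit 272) (nat_lit 232)) (XT.lf (nat_lit 0) (nat_lit 24020754574) (nat_lit 168) (nat_lit 17892789390) (nat_lit 0) (nat_lit 15747945540) (nat_lit 4) (nat_lit 5) (nat_lit 6) (nat_lit 4) (nat_lit 4) (nat_lit 4) (nat_lit 442) (nat_lit 272) (nat_lit 231))) (XT.nd (nat_lit 94) (nat_lit 0) (nat_lit 0) (XT.lf (nat_lit 0) (nat_lit 27019757016) (nat_lit 168) (nat_lit 13646460424) (nat_lit 0) (nat_lit 18644843777) (nat_lit 4) (nat_lit 5) (nat_lit 6) (nat_lit 4) (nat_lit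 4) (nat_lit 4) (nat_lit 443) (nat_lit 272) (nat_lit 230)) (XT.lf (nat_lit 0) (nat_lit 30080389896) (nat_lit 168) (nat_lit 9324248237) (nat_lit 0) (nat_lit 21606346362) (nat_lit 4) (nat_lit 5) (nat_lit 6) (nat_lit 4) (nat_lit 4) (nat_lit 4) (nat_lit 444) (nat_lit 272) (nat_lit 229))))) (XT.nd (nat_lit 282) (nat_lit 0) (nat_lit 0) (XT.nd (nat_lit 94) (nat_lit 84) (nat_lit 0) (XT.lf (nat_lit 0) (nat_lit 33205327555) (nat_lit 168) (nat_lit 4922376138) (nat_lit 0) (nat_lit 24635041016) (nat_lit 4) (nat_lit 5) (nat_lit 6) (nat_lit 4) (nat_lit 4) (nat_lit 4) (nat_lit 445) (nat_lit 272) (nat_lit 228)) (XT.nd (nat_lit 94) (nat_lit 84) (nat_lit 0) (XT.lf (nat_lit 0) (nat_lit 36397300521) (nat_lit 168) (nat_lit 436997833) (nat_lit 0) (nat_lit 27733574170) (nat_lit 4) (nat_lit 5) (nat_lit 6) (nat_lit 4) (nat_lit 4) (nat_lit 4) (nat_lit 446) (nat_lit 272) (nat_lit 227)) (XT.lf (nat_lit 0) (nat_lit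 4218116590) (nat_lit 84) (nat_lit 35481528423) (nat_lit 84) (nat_lit 26727083809) (nat_lit 3) (nat_lit 4) (nat_lit 4) (nat_lit 5) (nat_lit 4) (nat_lit 4) (nat_lit 447) (nat_lit 272) (nat_lit 226)))) (XT.nd (nat_lit 188) (nat_lit 0) (nat_lit 0) (XT.nd (nat_lit 94) (nat_lit 0) (nat_lit 0) (XT.lf (nat_lit 0) (nat_lit 8975168710) (nat_lit 84) (nat_lit 34104675896) (nat_lit 84) (nat_lit 25262155297) (nat_lit 3) (nat_lit 4) (nat_lit 4) (nat_lit 5) (nat_lit 4) (nat_lit 4) (nat_lit 448) (nat_lit 272) (nat_lit 225)) (XT.lf (nat_lit 0) (nat_lit 13829618061) (nat_lit 84) (nat_lit 32706950519) (nat_lit 84) (nat_lit 23778919257) (nat_lit 3) (nat_lit 4) (nat_lit 4) (nat_lit 5) (nat_lit 4) (nat_lit 4) (nat_lit 449) (nat_lit 272) (nat_lit 224))) (XT.nd (nat_lit 94) (nat_lit 0) (nat_lit 0) (XT.lf (nat_lit 0) (nat_lit 18785706395) (nat_lit 84) (nat_lit 31287130979) (nat_lit 84) (nat_lit 22276079655) (nat_lit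 3) (nat_lit 4) (nat_lit 4) (nat_lit 5) (nat_lit 4) (nat_lit 4) (nat_lit 450) (nat_lit 272) (nat_lit 223)) (XT.lf (nat_lit 0) (nat_lit 23847764275) (nat_lit 84) (nat_lit 29843976657) (nat_lit 84) (nat_lit 20752323331) (nat_lit 3) (nat_lit 4) (nat_lit 4) (nat_lit 5) (nat_lit 4) (nat_lit 4) (nat_lit 451) (nat_lit 272) (nat_lit 222)))))) (XT.nd (nat_lit 54896) (nat_lit 0) (nat_lit 672) (XT.nd (nat_lit 54520) (nat_lit 0) (nat_lit 924) (XT.nd (nat_lit 54332) (nat_lit 0) (nat_lit 1176) (XT.lf (nat_lit 0) (nat_lit 29020214857) (nat_lit 84) (nat_lit 28376226544) (nat_lit 84) (nat_lit 19206318847) (nat_lit 3) (nat_lit 4) (nat_lit 4) (nat_lit 5) (nat_lit 4) (nat_lit 4) (nat_lit 452) (nat_lit 272) (nat_lit 221)) (XT.nd (nat_lit 94) (nat_lit 0) (nat_lit 0) (XT.lf (nat_lit 0) (nat_lit 914053112) (nat_lit 168) (nat_lit 7537170091) (nat_lit 0) (nat_lit 914053112) (nat_lit 17) (nat_lit 5) (nat_lit 19)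 (nat_lit 4) (nat_lit 17) (nat_lit 4) (nat_lit 399) (nat_lit 273) (nat_lit 273)) (XT.lf (nat_lit 0) (nat_lit 5590385089) (nat_lit 168) (nat_lit 8383019758) (nat_lit 0) (nat_lit 5192684748) (nat_lit 17) (nat_lit 5) (nat_lit 19) (nat_lit 4) (nat_lit 17) (nat_lit 4) (nat_lit 400) (nat_lit 273) (nat_lit 272)))) (XT.nd (nat_lit 188) (nat_lit 84) (nat_lit 0) (XT.nd (nat_lit 94) (nat_lit 168) (nat_lit 0) (XT.lf (nat_lit 0) (nat_lit 9385981149) (nat_lit 168) (nat_lit 1628989492) (nat_lit 0) (nat_lit 8602163972) (nat_lit 17) (nat_lit 5) (nat_lit 19) (nat_lit 4) (nat_lit 17) (nat_lit 4) (nat_lit 401) (nat_lit 273) (nat_lit 271)) (XT.lf (nat_lit 0) (nat_lit 5297016056) (nat_lit 168) (nat_lit 7972113045) (nat_lit 168) (nat_lit 6813425154) (nat_lit 15) (nat_lit 4) (nat_lit 17) (nat_lit 5) (nat_lit 17) (nat_lit 4) (nat_lit 402) (nat_lit 273) (nat_lit 270))) (XT.nd (nat_lit 94) (nat_lit 84) (nat_lit 0)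 (XT.lf (nat_lit 0) (nat_lit 12331498791) (nat_lit 168) (nat_lit 4877462141) (nat_lit 168) (nat_lit 3354822100) (nat_lit 15) (nat_lit 4) (nat_lit 17) (nat_lit 5) (nat_lit 17) (nat_lit 4) (nat_lit 403) (nat_lit 273) (nat_lit 269)) (XT.lf (nat_lit 0) (nat_lit 128667443) (nat_lit 252) (nat_lit 1614796732) (nat_lit 84) (nat_lit 19318218529) (nat_lit 14) (nat_lit 5) (nat_lit 17) (nat_lit 5) (nat_lit 15) (nat_lit 4) (nat_lit 404) (nat_lit 273) (nat_lit 268))))) (XT.nd (nat_lit 282) (nat_lit 168) (nat_lit 0) (XT.nd (nat_lit 94) (nat_lit 0) (nat_lit 0) (XT.lf (nat_lit 0) (nat_lit 3640586608) (nat_lit 168) (nat_lit 16447075742) (nat_lit 0) (nat_lit 1486167725) (nat_lit 13) (nat_lit 5) (nat_lit 15) (nat_lit 4) (nat_lit 13) (nat_lit 4) (nat_lit 405) (nat_lit 273) (nat_lit 267)) (XT.nd (nat_lit 94) (nat_lit 0) (nat_lit 0) (XT.lf (nat_lit 0) (nat_lit 7219346417) (nat_lit 168) (nat_lit 10141636600) (nat_lit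 0) (nat_lit 4741560762) (nat_lit 13) (nat_lit 5) (nat_lit 15) (nat_lit 4) (nat_lit 13) (nat_lit 4) (nat_lit 406) (nat_lit 273) (nat_lit 266)) (XT.lf (nat_lit 0) (nat_lit 10835326611) (nat_lit 168) (nat_lit 3770348975) (nat_lit 0) (nat_lit 8043592634) (nat_lit 13) (nat_lit 5) (nat_lit 15) (nat_lit 4) (nat_lit 13) (nat_lit 4) (nat_lit 407) (nat_lit 273) (nat_lit 265)))) (XT.nd (nat_lit 188) (nat_lit 84) (nat_lit 0) (XT.nd (nat_lit 94) (nat_lit 0) (nat_lit 0) (XT.lf (nat_lit 0) (nat_lit 2725539367) (nat_lit 84) (nat_lit 11792346967) (nat_lit 84) (nat_lit 8695808795) (nat_lit 12) (nat_lit 4) (nat_lit 13) (nat_lit 5) (nat_lit 13) (nat_lit 4) (nat_lit 408) (nat_lit 273) (nat_lit 264)) (XT.lf (nat_lit 0) (nat_lit 9375043570) (nat_lit 84) (nat_lit 8906696895) (nat_lit 84) (nat_lit 5514232319) (nat_lit 12) (nat_lit 4) (nat_lit 13) (nat_lit 5) (nat_lit 13) (nat_lit 4) (nat_lit 409) (nat_lit 273)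 (nat_lit 263))) (XT.nd (nat_lit 94) (nat_lit 84) (nat_lit 0) (XT.lf (nat_lit 0) (nat_lit 16108936543) (nat_lit 84) (nat_lit 5984277058) (nat_lit 84) (nat_lit 2304505294) (nat_lit 12) (nat_lit 4) (nat_lit 13) (nat_lit 5) (nat_lit 13) (nat_lit 4) (nat_lit 410) (nat_lit 273) (nat_lit 262)) (XT.lf (nat_lit 0) (nat_lit 917908711) (nat_lit 168) (nat_lit 2095356097) (nat_lit 84) (nat_lit 22005924481) (nat_lit 11) (nat_lit 5) (nat_lit 13) (nat_lit 5) (nat_lit 12) (nat_lit 4) (nat_lit 411) (nat_lit 273) (nat_lit 261))))))))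
noncomputable def xc11 : XT := (XT.nd (nat_lit 2632) (nat_lit 84) (nat_lit 0) (XT.nd (nat_lit 1316) (nat_lit 252) (nat_lit 0) (XT.nd (nat_lit 658) (nat_lit 168) (nat_lit 0) (XT.nd (nat_lit 282) (nat_lit 84) (nat_lit 0) (XT.nd (nat_lit 94) (nat_lit 0) (nat_lit 0) (XT.lf (nat_lit 0) (nat_lit 4169802201) (nat_lit 168) (nat_lit 21426014159) (nat_lit 0) (nat_lit 63466899) (nat_lit 10) (nat_lit 5) (nat_lit 12) (nat_lit 4) (nat_lit 10) (nat_lit 4) (nat_lit 412) (nat_lit 273) (nat_lit 260)) (XT.nd (nat_lit 94) (nat_lit 0) (nat_lit 0) (XT.lf (nat_lit 0) (nat_lit 7508571922) (nat_lit 168) (nat_lit 15663397270) (nat_lit 0) (nat_lit 3146967904) (nat_lit 10) (nat_lit 5) (nat_lit 12) (nat_lit 4) (nat_lit 10) (nat_lit 4) (nat_lit 413) (nat_lit 273) (nat_lit 259)) (XT.lf (nat_lit 0) (nat_lit 10887423800) (nat_lit 168) (nat_lit 9834808662) (nat_lit 0) (nat_lit 6277986078) (nat_lit 10) (nat_lit 5) (nat_lit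 12) (nat_lit 4) (nat_lit 10) (nat_lit 4) (nat_lit 414) (nat_lit 273) (nat_lit 258)))) (XT.nd (nat_lit 188) (nat_lit 0) (nat_lit 0) (XT.nd (nat_lit 94) (nat_lit 84) (nat_lit 0) (XT.lf (nat_lit 0) (nat_lit 14309310231) (nat_lit 168) (nat_lit 3935155395) (nat_lit 0) (nat_lit 9459257262) (nat_lit 10) (nat_lit 5) (nat_lit 12) (nat_lit 4) (nat_lit 10) (nat_lit 4) (nat_lit 415) (nat_lit 273) (nat_lit 257)) (XT.lf (nat_lit 0) (nat_lit 2081331849) (nat_lit 84) (nat_lit 15715896398) (nat_lit 84) (nat_lit 10632236393) (nat_lit 9) (nat_lit 4) (nat_lit 10) (nat_lit 5) (nat_lit 10) (nat_lit 4) (nat_lit 416) (nat_lit 273) (nat_lit 256))) (XT.nd (nat_lit 94) (nat_lit 0) (nat_lit 0) (XT.lf (nat_lit 0) (nat_lit 8259198577) (nat_lit 84) (nat_lit 13114380848) (nat_lit 84) (nat_lit 7803917896) (nat_lit 9) (nat_lit 4) (nat_lit 10) (nat_lit 5) (nat_lit 10) (nat_lit 4) (nat_lit 417) (nat_lit 273) (nat_lit 255))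 (XT.lf (nat_lit 0) (nat_lit 14525525617) (nat_lit 84) (nat_lit 10477383162) (nat_lit 84) (nat_lit 4946723174) (nat_lit 9) (nat_lit 4) (nat_lit 10) (nat_lit 5) (nat_lit 10) (nat_lit 4) (nat_lit 418) (nat_lit 273) (nat_lit 254))))) (XT.nd (nat_lit 282) (nat_lit 0) (nat_lit 0) (XT.nd (nat_lit 94) (nat_lit 168) (nat_lit 0) (XT.lf (nat_lit 0) (nat_lit 20885788401) (nat_lit 84) (nat_lit 7802599167) (nat_lit 84) (nat_lit 2058155649) (nat_lit 9) (nat_lit 4) (nat_lit 10) (nat_lit 5) (nat_lit 10) (nat_lit 4) (nat_lit 419) (nat_lit 273) (nat_lit 253)) (XT.nd (nat_lit 94) (nat_lit 84) (nat_lit 0) (XT.lf (nat_lit 0) (nat_lit 847442894) (nat_lit 168) (nat_lit 4231691266) (nat_lit 84) (nat_lit 26489544031) (nat_lit 8) (nat_lit 5) (nat_lit 10) (nat_lit 5) (nat_lit 9) (nat_lit 4) (nat_lit 420) (nat_lit 273) (nat_lit 252)) (XT.lf (nat_lit 0) (nat_lit 1485164712) (nat_lit 84) (nat_lit 2277730133) (nat_lit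 168) (nat_lit 28653077544) (nat_lit 7) (nat_lit 5) (nat_lit 8) (nat_lit 5) (nat_lit 9) (nat_lit 4) (nat_lit 421) (nat_lit 273) (nat_lit 251)))) (XT.nd (nat_lit 188) (nat_lit 0) (nat_lit 0) (XT.nd (nat_lit 94) (nat_lit 0) (nat_lit 0) (XT.lf (nat_lit 0) (nat_lit 6764815491) (nat_lit 168) (nat_lit 25923338755) (nat_lit 0) (nat_lit 600588269) (nat_lit 7) (nat_lit 5) (nat_lit 9) (nat_lit 4) (nat_lit 7) (nat_lit 4) (nat_lit 422) (nat_lit 273) (nat_lit 250)) (XT.lf (nat_lit 0) (nat_lit 9830810128) (nat_lit 168) (nat_lit 20875520233) (nat_lit 0) (nat_lit 3482171355) (nat_lit 7) (nat_lit 5) (nat_lit 9) (nat_lit 4) (nat_lit 7) (nat_lit 4) (nat_lit 423) (nat_lit 273) (nat_lit 249))) (XT.nd (nat_lit 94) (nat_lit 0) (nat_lit 0) (XT.lf (nat_lit 0) (nat_lit 12941662847) (nat_lit 168) (nat_lit 15761046461) (nat_lit 0) (nat_lit 6413983732) (nat_lit 7) (nat_lit 5) (nat_lit 9) (nat_lit 4) (nat_lit 7) (nat_lit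 4) (nat_lit 424) (nat_lit 273) (nat_lit 248)) (XT.lf (nat_lit 0) (nat_lit 16100091867) (nat_lit 168) (nat_lit 10575448481) (nat_lit 0) (nat_lit 9398587179) (nat_lit 7) (nat_lit 5) (nat_lit 9) (nat_lit 4) (nat_lit 7) (nat_lit 4) (nat_lit 425) (nat_lit 273) (nat_lit 247)))))) (XT.nd (nat_lit 658) (nat_lit 168) (nat_lit 0) (XT.nd (nat_lit 282) (nat_lit 0) (nat_lit 0) (XT.nd (nat_lit 94) (nat_lit 84) (nat_lit 0) (XT.lf (nat_lit 0) (nat_lit 19308856981) (nat_lit 168) (nat_lit 5314195188) (nat_lit 0) (nat_lit 12438589600) (nat_lit 7) (nat_lit 5) (nat_lit 9) (nat_lit 4) (nat_lit 7) (nat_lit 4) (nat_lit 426) (nat_lit 273) (nat_lit 246)) (XT.nd (nat_lit 94) (nat_lit 0) (nat_lit 0) (XT.lf (nat_lit 0) (nat_lit 27854164) (nat_lit 84) (nat_lit 22543175551) (nat_lit 84) (nat_lit 15509060895) (nat_lit 6) (nat_lit 4) (nat_lit 7) (nat_lit 5) (nat_lit 7) (nat_lit 4) (nat_lit 427) (nat_lit 273) (nat_lit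 245)) (XT.lf (nat_lit 0) (nat_lit 5562276352) (nat_lit 84) (nat_lit 20379848675) (nat_lit 84) (nat_lit 13186658995) (nat_lit 6) (nat_lit 4) (nat_lit 7) (nat_lit 5) (nat_lit 7) (nat_lit 4) (nat_lit 428) (nat_lit 273) (nat_lit 244)))) (XT.nd (nat_lit 188) (nat_lit 0) (nat_lit 0) (XT.nd (nat_lit 94) (nat_lit 0) (nat_lit 0) (XT.lf (nat_lit 0) (nat_lit 11188144376) (nat_lit 84) (nat_lit 18184844207) (nat_lit 84) (nat_lit 10837212756) (nat_lit 6) (nat_lit 4) (nat_lit 7) (nat_lit 5) (nat_lit 7) (nat_lit 4) (nat_lit 429) (nat_lit 273) (nat_lit 243)) (XT.lf (nat_lit 0) (nat_lit 16910374040) (nat_lit 84) (nat_lit 15956244182) (nat_lit 84) (nat_lit 8458669264) (nat_lit 6) (nat_lit 4) (nat_lit 7) (nat_lit 5) (nat_lit 7) (nat_lit 4) (nat_lit 430) (nat_lit 273) (nat_lit 242))) (XT.nd (nat_lit 94) (nat_lit 0) (nat_lit 0) (XT.lf (nat_lit 0) (nat_lit 22733965352) (nat_lit 84) (nat_lit 13692101279) (nat_lit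 84) (nat_lit 6048950180) (nat_lit 6) (nat_lit 4) (nat_lit 7) (nat_lit 5) (nat_lit 7) (nat_lit 4) (nat_lit 431) (nat_lit 273) (nat_lit 241)) (XT.lf (nat_lit 0) (nat_lit 28664006888) (nat_lit 84) (nat_lit 11390437122) (nat_lit 84) (nat_lit 3605949924) (nat_lit 6) (nat_lit 4) (nat_lit 7) (nat_lit 5) (nat_lit 7) (nat_lit 4) (nat_lit 432) (nat_lit 273) (nat_lit 240))))) (XT.nd (nat_lit 282) (nat_lit 84) (nat_lit 0) (XT.nd (nat_lit 94) (nat_lit 84) (nat_lit 0) (XT.lf (nat_lit 0) (nat_lit 34705680236) (nat_lit 84) (nat_lit 9049240547) (nat_lit 84) (nat_lit 1127533837) (nat_lit 6) (nat_lit 4) (nat_lit 7) (nat_lit 5) (nat_lit 7) (nat_lit 4) (nat_lit 433) (nat_lit 273) (nat_lit 239)) (XT.nd (nat_lit 94) (nat_lit 0) (nat_lit 0) (XT.lf (nat_lit 0) (nat_lit 1361369761) (nat_lit 168) (nat_lit 5291348922) (nat_lit 84) (nat_lit 39489147601) (nat_lit 5) (nat_lit 5) (nat_lit 7) (nat_lit 5) (nat_lit 6) (nat_lit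 4) (nat_lit 434) (nat_lit 273) (nat_lit 238)) (XT.lf (nat_lit 0) (nat_lit 3867274748) (nat_lit 168) (nat_lit 333704351) (nat_lit 84) (nat_lit 43238814412) (nat_lit 5) (nat_lit 5) (nat_lit 7) (nat_lit 5) (nat_lit 6) (nat_lit 4) (nat_lit 435) (nat_lit 273) (nat_lit 237)))) (XT.nd (nat_lit 188) (nat_lit 0) (nat_lit 0) (XT.nd (nat_lit 94) (nat_lit 0) (nat_lit 0) (XT.lf (nat_lit 0) (nat_lit 4805094496) (nat_lit 84) (nat_lit 1655468005) (nat_lit 168) (nat_lit 42315747380) (nat_lit 4) (nat_lit 5) (nat_lit 5) (nat_lit 5) (nat_lit 6) (nat_lit 4) (nat_lit 436) (nat_lit 273) (nat_lit 236)) (XT.lf (nat_lit 0) (nat_lit 9110502716) (nat_lit 168) (nat_lit 40118747432) (nat_lit 0) (nat_lit 924322965) (nat_lit 4) (nat_lit 5) (nat_lit 6) (nat_lit 4) (nat_lit 4) (nat_lit 4) (nat_lit 437) (nat_lit 273) (nat_lit 235))) (XT.nd (nat_lit 94) (nat_lit 0) (nat_lit 0) (XT.lf (nat_lit 0) (nat_lit 11823478505) (nat_lit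 168) (nat_lit 36226806535) (nat_lit 0) (nat_lit 3522379573) (nat_lit 4) (nat_lit 5) (nat_lit 6) (nat_lit 4) (nat_lit 4) (nat_lit 4) (nat_lit 438) (nat_lit 273) (nat_lit 234)) (XT.lf (nat_lit 0) (nat_lit 14585947061) (nat_lit 168) (nat_lit 32276078596) (nat_lit 0) (nat_lit 6173276107) (nat_lit 4) (nat_lit 5) (nat_lit 6) (nat_lit 4) (nat_lit 4) (nat_lit 4) (nat_lit 439) (nat_lit 273) (nat_lit 233))))))) (XT.nd (nat_lit 55272) (nat_lit 0) (nat_lit 756) (XT.nd (nat_lit 658) (nat_lit 84) (nat_lit 0) (XT.nd (nat_lit 282) (nat_lit 0) (nat_lit 0) (XT.nd (nat_lit 94) (nat_lit 0) (nat_lit 0) (XT.lf (nat_lit 0) (nat_lit 17400322189) (nat_lit 168) (nat_lit 28263111524) (nat_lit 0) (nat_lit 8879328884) (nat_lit 4) (nat_lit 5) (nat_lit 6) (nat_lit 4) (nat_lit 4) (nat_lit 4) (nat_lit 440) (nat_lit 273) (nat_lit 232)) (XT.nd (nat_lit 94) (nat_lit 0) (nat_lit 0) (XT.lf (nat_lit 0) (nat_lit 20269063053)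 (nat_lit 168) (nat_lit 24184398843) (nat_lit 0) (nat_lit 11642902418) (nat_lit 4) (nat_lit 5) (nat_lit 6) (nat_lit 4) (nat_lit 4) (nat_lit 4) (nat_lit 441) (nat_lit 273) (nat_lit 231)) (XT.lf (nat_lit 0) (nat_lit 23194676320) (nat_lit 168) (nat_lit 20036376629) (nat_lit 0) (nat_lit 14466411480) (nat_lit 4) (nat_lit 5) (nat_lit 6) (nat_lit 4) (nat_lit 4) (nat_lit 4) (nat_lit 442) (nat_lit 273) (nat_lit 230)))) (XT.nd (nat_lit 188) (nat_lit 0) (nat_lit 0) (XT.nd (nat_lit 94) (nat_lit 0) (nat_lit 0) (XT.lf (nat_lit 0) (nat_lit 26179718351) (nat_lit 168) (nat_lit 15815420396) (nat_lit 0) (nat_lit 17352323215) (nat_lit 4) (nat_lit 5) (nat_lit 6) (nat_lit 4) (nat_lit 4) (nat_lit 4) (nat_lit 443) (nat_lit 273) (nat_lit 229)) (XT.lf (nat_lit 0) (nat_lit 29226797435) (nat_lit 168) (nat_lit 11517841930) (nat_lit 0) (nat_lit 20303159293) (nat_lit 4) (nat_lit 5) (nat_lit 6) (nat_lit 4) (nat_lit 4)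 (nat_lit 4) (nat_lit 444) (nat_lit 273) (nat_lit 228))) (XT.nd (nat_lit 94) (nat_lit 0) (nat_lit 0) (XT.lf (nat_lit 0) (nat_lit 32338576068) (nat_lit 168) (nat_lit 7139886066) (nat_lit 0) (nat_lit 23321498115) (nat_lit 4) (nat_lit 5) (nat_lit 6) (nat_lit 4) (nat_lit 4) (nat_lit 4) (nat_lit 445) (nat_lit 273) (nat_lit 227)) (XT.lf (nat_lit 0) (nat_lit 35517773280) (nat_lit 168) (nat_lit 2677727405) (nat_lit 0) (nat_lit 26409977063) (nat_lit 4) (nat_lit 5) (nat_lit 6) (nat_lit 4) (nat_lit 4) (nat_lit 4) (nat_lit 446) (nat_lit 273) (nat_lit 226))))) (XT.nd (nat_lit 282) (nat_lit 0) (nat_lit 0) (XT.nd (nat_lit 94) (nat_lit 0) (nat_lit 0) (XT.lf (nat_lit 0) (nat_lit 1909800104) (nat_lit 84) (nat_lit 36875725073) (nat_lit 84) (nat_lit 27679852873) (nat_lit 3) (nat_lit 4) (nat_lit 4) (nat_lit 5) (nat_lit 4) (nat_lit 4) (nat_lit 447) (nat_lit 273) (nat_lit 225)) (XT.nd (nat_lit 94) (nat_lit 0)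 (nat_lit 0) (XT.lf (nat_lit 0) (nat_lit 6644529893) (nat_lit 84) (nat_lit 35508937928) (nat_lit 84) (nat_lit 26227555064) (nat_lit 3) (nat_lit 4) (nat_lit 4) (nat_lit 5) (nat_lit 4) (nat_lit 4) (nat_lit 448) (nat_lit 273) (nat_lit 224)) (XT.lf (nat_lit 0) (nat_lit 11477307078) (nat_lit 84) (nat_lit 34120984767) (nat_lit 84) (nat_lit 24756581841) (nat_lit 3) (nat_lit 4) (nat_lit 4) (nat_lit 5) (nat_lit 4) (nat_lit 4) (nat_lit 449) (nat_lit 273) (nat_lit 223)))) (XT.nd (nat_lit 188) (nat_lit 0) (nat_lit 0) (XT.nd (nat_lit 94) (nat_lit 0) (nat_lit 0) (XT.lf (nat_lit 0) (nat_lit 16412354473) (nat_lit 84) (nat_lit 32710652815) (nat_lit 84) (nat_lit 23265647887) (nat_lit 3) (nat_lit 4) (nat_lit 4) (nat_lit 5) (nat_lit 4) (nat_lit 4) (nat_lit 450) (nat_lit 273) (nat_lit 222)) (XT.lf (nat_lit 0) (nat_lit 21453984257) (nat_lit 84) (nat_lit 31276709744) (nat_lit 84) (nat_lit 21753450445) (nat_lit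 3) (nat_lit 4) (nat_lit 4) (nat_lit 5) (nat_lit 4) (nat_lit 4) (nat_lit 451) (nat_lit 273) (nat_lit 221))) (XT.nd (nat_lit 94) (nat_lit 0) (nat_lit 0) (XT.lf (nat_lit 0) (nat_lit 26606601737) (nat_lit 84) (nat_lit 29817902593) (nat_lit 84) (nat_lit 20218668177) (nat_lit 3) (nat_lit 4) (nat_lit 4) (nat_lit 5) (nat_lit 4) (nat_lit 4) (nat_lit 452) (nat_lit 273) (nat_lit 220)) (XT.lf (nat_lit 0) (nat_lit 31874709199) (nat_lit 84) (nat_lit 28332956677) (nat_lit 84) (nat_lit 18659960011) (nat_lit 3) (nat_lit 4) (nat_lit 4) (nat_lit 5) (nat_lit 4) (nat_lit 4) (nat_lit 453) (nat_lit 273) (nat_lit 219)))))) (XT.nd (nat_lit 658) (nat_lit 252) (nat_lit 0) (XT.nd (nat_lit 282) (nat_lit 168) (nat_lit 0) (XT.nd (nat_lit 94) (nat_lit 168) (nat_lit 0) (XT.lf (nat_lit 0) (nat_lit 3840773624) (nat_lit 168) (nat_lit 2553922507) (nat_lit 168) (nat_lit 2553922507) (nat_lit 19) (nat_lit 4) (nat_lit 21) (nat_lit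 5) (nat_lit 21) (nat_lit 4) (nat_lit 397) (nat_lit 274) (nat_lit 274)) (XT.nd (nat_lit 94) (nat_lit 168) (nat_lit 0) (XT.lf (nat_lit 0) (nat_lit 14942838805) (nat_lit 168) (nat_lit 1893627273) (nat_lit 168) (nat_lit 1471706981) (nat_lit 19) (nat_lit 4) (nat_lit 21) (nat_lit 5) (nat_lit 21) (nat_lit 4) (nat_lit 398) (nat_lit 274) (nat_lit 273)) (XT.lf (nat_lit 0) (nat_lit 2197374173) (nat_lit 168) (nat_lit 15144374992) (nat_lit 0) (nat_lit 1390042481) (nat_lit 17) (nat_lit 5) (nat_lit 19) (nat_lit 4) (nat_lit 17) (nat_lit 4) (nat_lit 399) (nat_lit 274) (nat_lit 272)))) (XT.nd (nat_lit 188) (nat_lit 168) (nat_lit 0) (XT.nd (nat_lit 94) (nat_lit 0) (nat_lit 0) (XT.lf (nat_lit 0) (nat_lit 5920465269) (nat_lit 168) (nat_lit 8521049529) (nat_lit 0) (nat_lit 4727016741) (nat_lit 17) (nat_lit 5) (nat_lit 19) (nat_lit 4) (nat_lit 17) (nat_lit 4) (nat_lit 400) (nat_lit 274) (nat_lit 271)) (XT.lf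 (nat_lit 0) (nat_lit 9678014950) (nat_lit 168) (nat_lit 1833033789) (nat_lit 0) (nat_lit 8109695708) (nat_lit 17) (nat_lit 5) (nat_lit 19) (nat_lit 4) (nat_lit 17) (nat_lit 4) (nat_lit 401) (nat_lit 274) (nat_lit 270))) (XT.nd (nat_lit 94) (nat_lit 0) (nat_lit 0) (XT.lf (nat_lit 0) (nat_lit 5023543553) (nat_lit 168) (nat_lit 8498052334) (nat_lit 168) (nat_lit 6565780942) (nat_lit 15) (nat_lit 4) (nat_lit 17) (nat_lit 5) (nat_lit 17) (nat_lit 4) (nat_lit 402) (nat_lit 274) (nat_lit 269)) (XT.lf (nat_lit 0) (nat_lit 11994562866) (nat_lit 168) (nat_lit 5430392442) (nat_lit 168) (nat_lit 3144769448) (nat_lit 15) (nat_lit 4) (nat_lit 17) (nat_lit 5) (nat_lit 17) (nat_lit 4) (nat_lit 403) (nat_lit 274) (nat_lit 268))))) (XT.nd (nat_lit 282) (nat_lit 84) (nat_lit 0) (XT.nd (nat_lit 94) (nat_lit 84) (nat_lit 0) (XT.lf (nat_lit 0) (nat_lit 298836732) (nat_lit 252) (nat_lit 2022044234) (nat_lit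 84) (nat_lit 18747779968) (nat_lit 14) (nat_lit 5) (nat_lit 17) (nat_lit 5) (nat_lit 15) (nat_lit 4) (nat_lit 404) (nat_lit 274) (nat_lit 267)) (XT.nd (nat_lit 94) (nat_lit 0) (nat_lit 0) (XT.lf (nat_lit 0) (nat_lit 3765583762) (nat_lit 168) (nat_lit 16926504800) (nat_lit 0) (nat_lit 890097766) (nat_lit 13) (nat_lit 5) (nat_lit 15) (nat_lit 4) (nat_lit 13) (nat_lit 4) (nat_lit 405) (nat_lit 274) (nat_lit 266)) (XT.lf (nat_lit 0) (nat_lit 7309790660) (nat_lit 168) (nat_lit 10681811811) (nat_lit 0) (nat_lit 4120356342) (nat_lit 13) (nat_lit 5) (nat_lit 15) (nat_lit 4) (nat_lit 13) (nat_lit 4) (nat_lit 406) (nat_lit 274) (nat_lit 265)))) (XT.nd (nat_lit 188) (nat_lit 0) (nat_lit 0) (XT.nd (nat_lit 94) (nat_lit 84) (nat_lit 0) (XT.lf (nat_lit 0) (nat_lit 10892224337) (nat_lit 168) (nat_lit 4369501034) (nat_lit 0) (nat_lit 7397985824) (nat_lit 13) (nat_lit 5) (nat_lit 15) (nat_lit 4) (nat_lit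 13) (nat_lit 4) (nat_lit 407) (nat_lit 274) (nat_lit 264)) (XT.lf (nat_lit 0) (nat_lit 2056064363) (nat_lit 84) (nat_lit 12479714861) (nat_lit 84) (nat_lit 8689549945) (nat_lit 12) (nat_lit 4) (nat_lit 13) (nat_lit 5) (nat_lit 13) (nat_lit 4) (nat_lit 408) (nat_lit 274) (nat_lit 263))) (XT.nd (nat_lit 94) (nat_lit 0) (nat_lit 0) (XT.lf (nat_lit 0) (nat_lit 8648870854) (nat_lit 84) (nat_lit 9618596679) (nat_lit 84) (nat_lit 5541124575) (nat_lit 12) (nat_lit 4) (nat_lit 13) (nat_lit 5) (nat_lit 13) (nat_lit 4) (nat_lit 409) (nat_lit 274) (nat_lit 262)) (XT.lf (nat_lit 0) (nat_lit 15327717504) (nat_lit 84) (nat_lit 6719994212) (nat_lit 84) (nat_lit 2363583090) (nat_lit 12) (nat_lit 4) (nat_lit 13) (nat_lit 5) (nat_lit 13) (nat_lit 4) (nat_lit 410) (nat_lit 274) (nat_lit 261))))))))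
noncomputable def xc12 : XT := (XT.nd (nat_lit 2538) (nat_lit 84) (nat_lit 0) (XT.nd (nat_lit 1222) (nat_lit 252) (nat_lit 0) (XT.nd (nat_lit 564) (nat_lit 168) (nat_lit 0) (XT.nd (nat_lit 282) (nat_lit 84) (nat_lit 0) (XT.nd (nat_lit 94) (nat_lit 84) (nat_lit 0) (XT.lf (nat_lit 0) (nat_lit 829345401) (nat_lit 168) (nat_lit 2943654536) (nat_lit 84) (nat_lit 21260720036) (nat_lit 11) (nat_lit 5) (nat_lit 13) (nat_lit 5) (nat_lit 12) (nat_lit 4) (nat_lit 411) (nat_lit 274) (nat_lit 260)) (XT.nd (nat_lit 94) (nat_lit 0) (nat_lit 0) (XT.lf (nat_lit 0) (nat_lit 3315187480) (nat_lit 84) (nat_lit 726851908) (nat_lit 168) (nat_lit 21632968585) (nat_lit 10) (nat_lit 5) (nat_lit 11) (nat_lit 5) (nat_lit 12) (nat_lit 4) (nat_lit 412) (nat_lit 274) (nat_lit 259)) (XT.lf (nat_lit 0) (nat_lit 7344225645) (nat_lit 168) (nat_lit 16642880102) (nat_lit 0) (nat_lit 2348671087) (nat_lit 10) (nat_lit 5) (nat_lit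 12) (nat_lit 4) (nat_lit 10) (nat_lit 4) (nat_lit 413) (nat_lit 274) (nat_lit 258)))) (XT.nd (nat_lit 94) (nat_lit 84) (nat_lit 0) (XT.lf (nat_lit 0) (nat_lit 10694343038) (nat_lit 168) (nat_lit 10865421050) (nat_lit 0) (nat_lit 5458173234) (nat_lit 10) (nat_lit 5) (nat_lit 12) (nat_lit 4) (nat_lit 10) (nat_lit 4) (nat_lit 414) (nat_lit 274) (nat_lit 257)) (XT.nd (nat_lit 94) (nat_lit 84) (nat_lit 0) (XT.lf (nat_lit 0) (nat_lit 14088331911) (nat_lit 168) (nat_lit 5015408129) (nat_lit 0) (nat_lit 8618555071) (nat_lit 10) (nat_lit 5) (nat_lit 12) (nat_lit 4) (nat_lit 10) (nat_lit 4) (nat_lit 415) (nat_lit 274) (nat_lit 256)) (XT.lf (nat_lit 0) (nat_lit 930426292) (nat_lit 84) (nat_lit 16607675418) (nat_lit 84) (nat_lit 10911095631) (nat_lit 9) (nat_lit 4) (nat_lit 10) (nat_lit 5) (nat_lit 10) (nat_lit 4) (nat_lit 416) (nat_lit 274) (nat_lit 255))))) (XT.nd (nat_lit 282) (nat_lit 168) (nat_lit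 0) (XT.nd (nat_lit 94) (nat_lit 0) (nat_lit 0) (XT.lf (nat_lit 0) (nat_lit 7060571006) (nat_lit 84) (nat_lit 14027127026) (nat_lit 84) (nat_lit 8110350203) (nat_lit 9) (nat_lit 4) (nat_lit 10) (nat_lit 5) (nat_lit 10) (nat_lit 4) (nat_lit 417) (nat_lit 274) (nat_lit 254)) (XT.nd (nat_lit 94) (nat_lit 0) (nat_lit 0) (XT.lf (nat_lit 0) (nat_lit 13280565993) (nat_lit 84) (nat_lit 11410485804) (nat_lit 84) (nat_lit 5279925450) (nat_lit 9) (nat_lit 4) (nat_lit 10) (nat_lit 5) (nat_lit 10) (nat_lit 4) (nat_lit 418) (nat_lit 274) (nat_lit 253)) (XT.lf (nat_lit 0) (nat_lit 19595846200) (nat_lit 84) (nat_lit 8755465366) (nat_lit 84) (nat_lit 2417348187) (nat_lit 9) (nat_lit 4) (nat_lit 10) (nat_lit 5) (nat_lit 10) (nat_lit 4) (nat_lit 419) (nat_lit 274) (nat_lit 252)))) (XT.nd (nat_lit 188) (nat_lit 0) (nat_lit 0) (XT.nd (nat_lit 94) (nat_lit 84) (nat_lit 0) (XT.lf (nat_lit 0) (nat_lit 470518624)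 (nat_lit 168) (nat_lit 5584475852) (nat_lit 84) (nat_lit 25536659893) (nat_lit 8) (nat_lit 5) (nat_lit 10) (nat_lit 5) (nat_lit 9) (nat_lit 4) (nat_lit 420) (nat_lit 274) (nat_lit 251)) (XT.lf (nat_lit 0) (nat_lit 61711559) (nat_lit 84) (nat_lit 3286555649) (nat_lit 168) (nat_lit 29091825886) (nat_lit 7) (nat_lit 5) (nat_lit 8) (nat_lit 5) (nat_lit 9) (nat_lit 4) (nat_lit 421) (nat_lit 274) (nat_lit 250))) (XT.nd (nat_lit 94) (nat_lit 0) (nat_lit 0) (XT.lf (nat_lit 0) (nat_lit 5905544010) (nat_lit 84) (nat_lit 415026818) (nat_lit 168) (nat_lit 26993193939) (nat_lit 7) (nat_lit 5) (nat_lit 8) (nat_lit 5) (nat_lit 9) (nat_lit 4) (nat_lit 422) (nat_lit 274) (nat_lit 249)) (XT.lf (nat_lit 0) (nat_lit 9359363285) (nat_lit 168) (nat_lit 22398175949) (nat_lit 0) (nat_lit 2456813457) (nat_lit 7) (nat_lit 5) (nat_lit 9) (nat_lit 4) (nat_lit 7) (nat_lit 4) (nat_lit 423) (nat_lit 274) (nat_lit 248))))))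 (XT.nd (nat_lit 658) (nat_lit 168) (nat_lit 0) (XT.nd (nat_lit 282) (nat_lit 84) (nat_lit 0) (XT.nd (nat_lit 94) (nat_lit 0) (nat_lit 0) (XT.lf (nat_lit 0) (nat_lit 12447679413) (nat_lit 168) (nat_lit 17324248977) (nat_lit 0) (nat_lit 5371304010) (nat_lit 7) (nat_lit 5) (nat_lit 9) (nat_lit 4) (nat_lit 7) (nat_lit 4) (nat_lit 424) (nat_lit 274) (nat_lit 247)) (XT.nd (nat_lit 94) (nat_lit 0) (nat_lit 0) (XT.lf (nat_lit 0) (nat_lit 15584228247) (nat_lit 168) (nat_lit 12178016823) (nat_lit 0) (nat_lit 8339090152) (nat_lit 7) (nat_lit 5) (nat_lit 9) (nat_lit 4) (nat_lit 7) (nat_lit 4) (nat_lit 425) (nat_lit 274) (nat_lit 246)) (XT.lf (nat_lit 0) (nat_lit 18771750462) (nat_lit 168) (nat_lit 6954982778) (nat_lit 0) (nat_lit 11362765092) (nat_lit 7) (nat_lit 5) (nat_lit 9) (nat_lit 4) (nat_lit 7) (nat_lit 4) (nat_lit 426) (nat_lit 274) (nat_lit 245)))) (XT.nd (nat_lit 188) (nat_lit 0) (nat_lit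 0) (XT.nd (nat_lit 94) (nat_lit 84) (nat_lit 0) (XT.lf (nat_lit 0) (nat_lit 22013031272) (nat_lit 168) (nat_lit 1650583027) (nat_lit 0) (nat_lit 14444970878) (nat_lit 7) (nat_lit 5) (nat_lit 9) (nat_lit 4) (nat_lit 7) (nat_lit 4) (nat_lit 427) (nat_lit 274) (nat_lit 244)) (XT.lf (nat_lit 0) (nat_lit 3814247041) (nat_lit 84) (nat_lit 21533320698) (nat_lit 84) (nat_lit 13810818533) (nat_lit 6) (nat_lit 4) (nat_lit 7) (nat_lit 5) (nat_lit 7) (nat_lit 4) (nat_lit 428) (nat_lit 274) (nat_lit 243))) (XT.nd (nat_lit 94) (nat_lit 0) (nat_lit 0) (XT.lf (nat_lit 0) (nat_lit 9404442946) (nat_lit 84) (nat_lit 19354205184) (nat_lit 84) (nat_lit 11481759552) (nat_lit 6) (nat_lit 4) (nat_lit 7) (nat_lit 5) (nat_lit 7) (nat_lit 4) (nat_lit 429) (nat_lit 274) (nat_lit 242)) (XT.lf (nat_lit 0) (nat_lit 15092039487) (nat_lit 84) (nat_lit 17141031328) (nat_lit 84) (nat_lit 9123009515) (nat_lit 6) (nat_lit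 4) (nat_lit 7) (nat_lit 5) (nat_lit 7) (nat_lit 4) (nat_lit 430) (nat_lit 274) (nat_lit 241))))) (XT.nd (nat_lit 282) (nat_lit 168) (nat_lit 0) (XT.nd (nat_lit 94) (nat_lit 0) (nat_lit 0) (XT.lf (nat_lit 0) (nat_lit 20882006407) (nat_lit 84) (nat_lit 14891865289) (nat_lit 84) (nat_lit 6732507377) (nat_lit 6) (nat_lit 4) (nat_lit 7) (nat_lit 5) (nat_lit 7) (nat_lit 4) (nat_lit 431) (nat_lit 274) (nat_lit 240)) (XT.nd (nat_lit 94) (nat_lit 0) (nat_lit 0) (XT.lf (nat_lit 0) (nat_lit 26779402901) (nat_lit 84) (nat_lit 12604741776) (nat_lit 84) (nat_lit 4308164351) (nat_lit 6) (nat_lit 4) (nat_lit 7) (nat_lit 5) (nat_lit 7) (nat_lit 4) (nat_lit 432) (nat_lit 274) (nat_lit 239)) (XT.lf (nat_lit 0) (nat_lit 32789382034) (nat_lit 84) (nat_lit 10277662331) (nat_lit 84) (nat_lit 1847862078) (nat_lit 6) (nat_lit 4) (nat_lit 7) (nat_lit 5) (nat_lit 7) (nat_lit 4) (nat_lit 433) (nat_lit 274) (nat_lit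 238)))) (XT.nd (nat_lit 188) (nat_lit 84) (nat_lit 0) (XT.nd (nat_lit 94) (nat_lit 0) (nat_lit 0) (XT.lf (nat_lit 0) (nat_lit 637854661) (nat_lit 168) (nat_lit 7264297841) (nat_lit 84) (nat_lit 38272899501) (nat_lit 5) (nat_lit 5) (nat_lit 7) (nat_lit 5) (nat_lit 6) (nat_lit 4) (nat_lit 434) (nat_lit 274) (nat_lit 237)) (XT.lf (nat_lit 0) (nat_lit 3127018815) (nat_lit 168) (nat_lit 2336869901) (nat_lit 84) (nat_lit 42009601357) (nat_lit 5) (nat_lit 5) (nat_lit 7) (nat_lit 5) (nat_lit 6) (nat_lit 4) (nat_lit 435) (nat_lit 274) (nat_lit 236))) (XT.nd (nat_lit 94) (nat_lit 0) (nat_lit 0) (XT.lf (nat_lit 0) (nat_lit 2732141634) (nat_lit 84) (nat_lit 2951985208) (nat_lit 168) (nat_lit 43126973360) (nat_lit 4) (nat_lit 5) (nat_lit 5) (nat_lit 5) (nat_lit 6) (nat_lit 4) (nat_lit 436) (nat_lit 274) (nat_lit 235)) (XT.lf (nat_lit 0) (nat_lit 7942157747) (nat_lit 84) (nat_lit 366788243) (nat_lit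 168) (nat_lit 41880179201) (nat_lit 4) (nat_lit 5) (nat_lit 5) (nat_lit 5) (nat_lit 6) (nat_lit 4) (nat_lit 437) (nat_lit 274) (nat_lit 234))))))) (XT.nd (nat_lit 1316) (nat_lit 0) (nat_lit 0) (XT.nd (nat_lit 658) (nat_lit 84) (nat_lit 0) (XT.nd (nat_lit 282) (nat_lit 0) (nat_lit 0) (XT.nd (nat_lit 94) (nat_lit 0) (nat_lit 0) (XT.lf (nat_lit 0) (nat_lit 11002683422) (nat_lit 168) (nat_lit 38380057988) (nat_lit 0) (nat_lit 2226060318) (nat_lit 4) (nat_lit 5) (nat_lit 6) (nat_lit 4) (nat_lit 4) (nat_lit 4) (nat_lit 438) (nat_lit 274) (nat_lit 233)) (XT.nd (nat_lit 94) (nat_lit 0) (nat_lit 0) (XT.lf (nat_lit 0) (nat_lit 13749897059) (nat_lit 168) (nat_lit 34457055520) (nat_lit 0) (nat_lit 4864951605) (nat_lit 4) (nat_lit 5) (nat_lit 6) (nat_lit 4) (nat_lit 4) (nat_lit 4) (nat_lit 439) (nat_lit 274) (nat_lit 232)) (XT.lf (nat_lit 0) (nat_lit 16549461588) (nat_lit 168) (nat_lit 30471006381)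 (nat_lit 0) (nat_lit 7559348802) (nat_lit 4) (nat_lit 5) (nat_lit 6) (nat_lit 4) (nat_lit 4) (nat_lit 4) (nat_lit 440) (nat_lit 274) (nat_lit 231)))) (XT.nd (nat_lit 188) (nat_lit 0) (nat_lit 0) (XT.nd (nat_lit 94) (nat_lit 0) (nat_lit 0) (XT.lf (nat_lit 0) (nat_lit 19403823229) (nat_lit 168) (nat_lit 26418427614) (nat_lit 0) (nat_lit 10311606239) (nat_lit 4) (nat_lit 5) (nat_lit 6) (nat_lit 4) (nat_lit 4) (nat_lit 4) (nat_lit 441) (nat_lit 274) (nat_lit 230)) (XT.lf (nat_lit 0) (nat_lit 22315476085) (nat_lit 168) (nat_lit 22295778133) (nat_lit 0) (nat_lit 13124128799) (nat_lit 4) (nat_lit 5) (nat_lit 6) (nat_lit 4) (nat_lit 4) (nat_lit 4) (nat_lit 442) (nat_lit 274) (nat_lit 229))) (XT.nd (nat_lit 94) (nat_lit 0) (nat_lit 0) (XT.lf (nat_lit 0) (nat_lit 25286964318) (nat_lit 168) (nat_lit 18099455621) (nat_lit 0) (nat_lit 15999374027) (nat_lit 4) (nat_lit 5) (nat_lit 6) (nat_lit 4) (nat_lit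 4) (nat_lit 4) (nat_lit 443) (nat_lit 274) (nat_lit 228)) (XT.lf (nat_lit 0) (nat_lit 28320884376) (nat_lit 168) (nat_lit 13825793390) (nat_lit 0) (nat_lit 18939854273) (nat_lit 4) (nat_lit 5) (nat_lit 6) (nat_lit 4) (nat_lit 4) (nat_lit 4) (nat_lit 444) (nat_lit 274) (nat_lit 227))))) (XT.nd (nat_lit 282) (nat_lit 84) (nat_lit 0) (XT.nd (nat_lit 94) (nat_lit 0) (nat_lit 0) (XT.lf (nat_lit 0) (nat_lit 31419887255) (nat_lit 168) (nat_lit 9471057170) (nat_lit 0) (nat_lit 21948138889) (nat_lit 4) (nat_lit 5) (nat_lit 6) (nat_lit 4) (nat_lit 4) (nat_lit 4) (nat_lit 445) (nat_lit 274) (nat_lit 226)) (XT.nd (nat_lit 94) (nat_lit 0) (nat_lit 0) (XT.lf (nat_lit 0) (nat_lit 34586680823) (nat_lit 168) (nat_lit 5031441854) (nat_lit 0) (nat_lit 25026856473) (nat_lit 4) (nat_lit 5) (nat_lit 6) (nat_lit 4) (nat_lit 4) (nat_lit 4) (nat_lit 446) (nat_lit 274) (nat_lit 225)) (XT.lf (nat_lit 0) (nat_lit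 37824032180) (nat_lit 168) (nat_lit 503068166) (nat_lit 0) (nat_lit 28178697166) (nat_lit 4) (nat_lit 5) (nat_lit 6) (nat_lit 4) (nat_lit 4) (nat_lit 4) (nat_lit 447) (nat_lit 274) (nat_lit 224)))) (XT.nd (nat_lit 188) (nat_lit 0) (nat_lit 0) (XT.nd (nat_lit 94) (nat_lit 0) (nat_lit 0) (XT.lf (nat_lit 0) (nat_lit 4199977413) (nat_lit 84) (nat_lit 36975165419) (nat_lit 84) (nat_lit 27246810343) (nat_lit 3) (nat_lit 4) (nat_lit 4) (nat_lit 5) (nat_lit 4) (nat_lit 4) (nat_lit 448) (nat_lit 274) (nat_lit 223)) (XT.lf (nat_lit 0) (nat_lit 9011713660) (nat_lit 84) (nat_lit 35596699847) (nat_lit 84) (nat_lit 25787742769) (nat_lit 3) (nat_lit 4) (nat_lit 4) (nat_lit 5) (nat_lit 4) (nat_lit 4) (nat_lit 449) (nat_lit 274) (nat_lit 222))) (XT.nd (nat_lit 94) (nat_lit 0) (nat_lit 0) (XT.lf (nat_lit 0) (nat_lit 13926332960) (nat_lit 84) (nat_lit 34195579146) (nat_lit 84) (nat_lit 24308367697) (nat_lit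 3) (nat_lit 4) (nat_lit 4) (nat_lit 5) (nat_lit 4) (nat_lit 4) (nat_lit 450) (nat_lit 274) (nat_lit 221)) (XT.lf (nat_lit 0) (nat_lit 18948129642) (nat_lit 84) (nat_lit 32770579036) (nat_lit 84) (nat_lit 22807392470) (nat_lit 3) (nat_lit 4) (nat_lit 4) (nat_lit 5) (nat_lit 4) (nat_lit 4) (nat_lit 451) (nat_lit 274) (nat_lit 220)))))) (XT.nd (nat_lit 54332) (nat_lit 0) (nat_lit 840) (XT.nd (nat_lit 53956) (nat_lit 0) (nat_lit 1344) (XT.nd (nat_lit 94) (nat_lit 0) (nat_lit 0) (XT.lf (nat_lit 0) (nat_lit 24081491682) (nat_lit 84) (nat_lit 31320454373) (nat_lit 84) (nat_lit 21283505557) (nat_lit 3) (nat_lit 4) (nat_lit 4) (nat_lit 5) (nat_lit 4) (nat_lit 4) (nat_lit 452) (nat_lit 274) (nat_lit 219)) (XT.nd (nat_lit 94) (nat_lit 0) (nat_lit 0) (XT.lf (nat_lit 0) (nat_lit 29330904544) (nat_lit 84) (nat_lit 29843938056) (nat_lit 84) (nat_lit 19735375405) (nat_lit 3) (nat_lit 4) (nat_lit 4) (nat_lit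 5) (nat_lit 4) (nat_lit 4) (nat_lit 453) (nat_lit 274) (nat_lit 218)) (XT.lf (nat_lit 0) (nat_lit 34700955092) (nat_lit 84) (nat_lit 28339739926) (nat_lit 84) (nat_lit 18161649280) (nat_lit 3) (nat_lit 4) (nat_lit 4) (nat_lit 5) (nat_lit 4) (nat_lit 4) (nat_lit 454) (nat_lit 274) (nat_lit 217)))) (XT.nd (nat_lit 188) (nat_lit 0) (nat_lit 0) (XT.nd (nat_lit 94) (nat_lit 168) (nat_lit 0) (XT.lf (nat_lit 0) (nat_lit 2673369789) (nat_lit 168) (nat_lit 3210794483) (nat_lit 0) (nat_lit 2673369789) (nat_lit 21) (nat_lit 5) (nat_lit 23) (nat_lit 4) (nat_lit 21) (nat_lit 4) (nat_lit 395) (nat_lit 275) (nat_lit 275)) (XT.lf (nat_lit 0) (nat_lit 495897578) (nat_lit 168) (nat_lit 8719692537) (nat_lit 168) (nat_lit 8285114636) (nat_lit 19) (nat_lit 4) (nat_lit 21) (nat_lit 5) (nat_lit 21) (nat_lit 4) (nat_lit 396) (nat_lit 275) (nat_lit 274))) (XT.nd (nat_lit 94) (nat_lit 0) (nat_lit 0) (XT.lf (nat_lit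 0) (nat_lit 7612617395) (nat_lit 168) (nat_lit 5571176594) (nat_lit 168) (nat_lit 4714678402) (nat_lit 19) (nat_lit 4) (nat_lit 21) (nat_lit 5) (nat_lit 21) (nat_lit 4) (nat_lit 397) (nat_lit 275) (nat_lit 273)) (XT.lf (nat_lit 0) (nat_lit 14806986762) (nat_lit 168) (nat_lit 2384875044) (nat_lit 168) (nat_lit 1118745501) (nat_lit 19) (nat_lit 4) (nat_lit 21) (nat_lit 5) (nat_lit 21) (nat_lit 4) (nat_lit 398) (nat_lit 275) (nat_lit 272))))) (XT.nd (nat_lit 282) (nat_lit 336) (nat_lit 0) (XT.nd (nat_lit 94) (nat_lit 0) (nat_lit 0) (XT.lf (nat_lit 0) (nat_lit 2498168989) (nat_lit 168) (nat_lit 15354540618) (nat_lit 0) (nat_lit 882800170) (nat_lit 17) (nat_lit 5) (nat_lit 19) (nat_lit 4) (nat_lit 17) (nat_lit 4) (nat_lit 399) (nat_lit 275) (nat_lit 271)) (XT.nd (nat_lit 94) (nat_lit 0) (nat_lit 0) (XT.lf (nat_lit 0) (nat_lit 6183213707) (nat_lit 168) (nat_lit 8797229681) (nat_lit 0) (nat_lit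 4192974173) (nat_lit 17) (nat_lit 5) (nat_lit 19) (nat_lit 4) (nat_lit 17) (nat_lit 4) (nat_lit 400) (nat_lit 275) (nat_lit 270)) (XT.lf (nat_lit 0) (nat_lit 9903825158) (nat_lit 168) (nat_lit 2173305713) (nat_lit 0) (nat_lit 7549633474) (nat_lit 17) (nat_lit 5) (nat_lit 19) (nat_lit 4) (nat_lit 17) (nat_lit 4) (nat_lit 401) (nat_lit 275) (nat_lit 269)))) (XT.nd (nat_lit 188) (nat_lit 168) (nat_lit 0) (XT.nd (nat_lit 94) (nat_lit 0) (nat_lit 0) (XT.lf (nat_lit 0) (nat_lit 4613036129) (nat_lit 168) (nat_lit 9094561556) (nat_lit 168) (nat_lit 6387018271) (nat_lit 15) (nat_lit 4) (nat_lit 17) (nat_lit 5) (nat_lit 17) (nat_lit 4) (nat_lit 402) (nat_lit 275) (nat_lit 268)) (XT.lf (nat_lit 0) (nat_lit 11522440470) (nat_lit 168) (nat_lit 6053106530) (nat_lit 168) (nat_lit 3002503437) (nat_lit 15) (nat_lit 4) (nat_lit 17) (nat_lit 5) (nat_lit 17) (nat_lit 4) (nat_lit 403) (nat_lit 275) (nat_lit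 267))) (XT.nd (nat_lit 94) (nat_lit 84) (nat_lit 0) (XT.lf (nat_lit 0) (nat_lit 403584407) (nat_lit 252) (nat_lit 2564394519) (nat_lit 84) (nat_lit 18110031788) (nat_lit 14) (nat_lit 5) (nat_lit 17) (nat_lit 5) (nat_lit 15) (nat_lit 4) (nat_lit 404) (nat_lit 275) (nat_lit 266)) (XT.lf (nat_lit 0) (nat_lit 3824188420) (nat_lit 168) (nat_lit 17543631421) (nat_lit 0) (nat_lit 225122751) (nat_lit 13) (nat_lit 5) (nat_lit 15) (nat_lit 4) (nat_lit 13) (nat_lit 4) (nat_lit 405) (nat_lit 275) (nat_lit 265))))))))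
noncomputable def xc13 : XT := (XT.nd (nat_lit 2538) (nat_lit 252) (nat_lit 0) (XT.nd (nat_lit 1222) (nat_lit 252) (nat_lit 0) (XT.nd (nat_lit 564) (nat_lit 168) (nat_lit 0) (XT.nd (nat_lit 282) (nat_lit 84) (nat_lit 0) (XT.nd (nat_lit 94) (nat_lit 84) (nat_lit 0) (XT.lf (nat_lit 0) (nat_lit 7334848802) (nat_lit 168) (nat_lit 11357915280) (nat_lit 0) (nat_lit 3430978937) (nat_lit 13) (nat_lit 5) (nat_lit 15) (nat_lit 4) (nat_lit 13) (nat_lit 4) (nat_lit 406) (nat_lit 275) (nat_lit 264)) (XT.nd (nat_lit 94) (nat_lit 84) (nat_lit 0) (XT.lf (nat_lit 0) (nat_lit 10884713046) (nat_lit 168) (nat_lit 5102863579) (nat_lit 0) (nat_lit 6684916778) (nat_lit 13) (nat_lit 5) (nat_lit 15) (nat_lit 4) (nat_lit 13) (nat_lit 4) (nat_lit 407) (nat_lit 275) (nat_lit 263)) (XT.lf (nat_lit 0) (nat_lit 1251408753) (nat_lit 84) (nat_lit 13237503530) (nat_lit 84) (nat_lit 8750400074) (nat_lit 12) (nat_lit 4)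 (nat_lit 13) (nat_lit 5) (nat_lit 13) (nat_lit 4) (nat_lit 408) (nat_lit 275) (nat_lit 262)))) (XT.nd (nat_lit 94) (nat_lit 84) (nat_lit 0) (XT.lf (nat_lit 0) (nat_lit 7789168921) (nat_lit 84) (nat_lit 10400202718) (nat_lit 84) (nat_lit 5634160245) (nat_lit 12) (nat_lit 4) (nat_lit 13) (nat_lit 5) (nat_lit 13) (nat_lit 4) (nat_lit 409) (nat_lit 275) (nat_lit 261)) (XT.nd (nat_lit 94) (nat_lit 84) (nat_lit 0) (XT.lf (nat_lit 0) (nat_lit 14414572540) (nat_lit 84) (nat_lit 7524723910) (nat_lit 84) (nat_lit 2487866857) (nat_lit 12) (nat_lit 4) (nat_lit 13) (nat_lit 5) (nat_lit 13) (nat_lit 4) (nat_lit 410) (nat_lit 275) (nat_lit 260)) (XT.lf (nat_lit 0) (nat_lit 677740902) (nat_lit 168) (nat_lit 3923969797) (nat_lit 84) (nat_lit 20448824040) (nat_lit 11) (nat_lit 5) (nat_lit 13) (nat_lit 5) (nat_lit 12) (nat_lit 4) (nat_lit 411) (nat_lit 275) (nat_lit 259))))) (XT.nd (nat_lit 282) (nat_lit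 84) (nat_lit 0) (XT.nd (nat_lit 94) (nat_lit 0) (nat_lit 0) (XT.lf (nat_lit 0) (nat_lit 2263380209) (nat_lit 84) (nat_lit 1588064497) (nat_lit 168) (nat_lit 21841565258) (nat_lit 10) (nat_lit 5) (nat_lit 11) (nat_lit 5) (nat_lit 12) (nat_lit 4) (nat_lit 412) (nat_lit 275) (nat_lit 258)) (XT.nd (nat_lit 94) (nat_lit 0) (nat_lit 0) (XT.lf (nat_lit 0) (nat_lit 7116617975) (nat_lit 168) (nat_lit 17755540417) (nat_lit 0) (nat_lit 1482747830) (nat_lit 10) (nat_lit 5) (nat_lit 12) (nat_lit 4) (nat_lit 10) (nat_lit 4) (nat_lit 413) (nat_lit 275) (nat_lit 257)) (XT.lf (nat_lit 0) (nat_lit 10438837811) (nat_lit 168) (nat_lit 12027721711) (nat_lit 0) (nat_lit 4571360630) (nat_lit 10) (nat_lit 5) (nat_lit 12) (nat_lit 4) (nat_lit 10) (nat_lit 4) (nat_lit 414) (nat_lit 275) (nat_lit 256)))) (XT.nd (nat_lit 188) (nat_lit 84) (nat_lit 0) (XT.nd (nat_lit 94) (nat_lit 0) (nat_lit 0) (XT.lf (nat_lit 0)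 (nat_lit 13805741676) (nat_lit 168) (nat_lit 6225903300) (nat_lit 0) (nat_lit 7711461548) (nat_lit 10) (nat_lit 5) (nat_lit 12) (nat_lit 4) (nat_lit 10) (nat_lit 4) (nat_lit 415) (nat_lit 275) (nat_lit 255)) (XT.lf (nat_lit 0) (nat_lit 17220271525) (nat_lit 168) (nat_lit 345015633) (nat_lit 0) (nat_lit 10905794361) (nat_lit 10) (nat_lit 5) (nat_lit 12) (nat_lit 4) (nat_lit 10) (nat_lit 4) (nat_lit 416) (nat_lit 275) (nat_lit 254))) (XT.nd (nat_lit 94) (nat_lit 0) (nat_lit 0) (XT.lf (nat_lit 0) (nat_lit 5731930539) (nat_lit 84) (nat_lit 15008579212) (nat_lit 84) (nat_lit 8480318517) (nat_lit 9) (nat_lit 4) (nat_lit 10) (nat_lit 5) (nat_lit 10) (nat_lit 4) (nat_lit 417) (nat_lit 275) (nat_lit 253)) (XT.lf (nat_lit 0) (nat_lit 11906942950) (nat_lit 84) (nat_lit 12411701547) (nat_lit 84) (nat_lit 5675884027) (nat_lit 9) (nat_lit 4) (nat_lit 10) (nat_lit 5) (nat_lit 10) (nat_lit 4) (nat_lit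 418) (nat_lit 275) (nat_lit 252)))))) (XT.nd (nat_lit 658) (nat_lit 84) (nat_lit 0) (XT.nd (nat_lit 282) (nat_lit 84) (nat_lit 0) (XT.nd (nat_lit 94) (nat_lit 84) (nat_lit 0) (XT.lf (nat_lit 0) (nat_lit 18178550753) (nat_lit 84) (nat_lit 9775869028) (nat_lit 84) (nat_lit 2838540027) (nat_lit 9) (nat_lit 4) (nat_lit 10) (nat_lit 5) (nat_lit 10) (nat_lit 4) (nat_lit 419) (nat_lit 275) (nat_lit 251)) (XT.nd (nat_lit 94) (nat_lit 0) (nat_lit 0) (XT.lf (nat_lit 0) (nat_lit 33525490) (nat_lit 168) (nat_lit 7064914470) (nat_lit 84) (nat_lit 24518369962) (nat_lit 8) (nat_lit 5) (nat_lit 10) (nat_lit 5) (nat_lit 9) (nat_lit 4) (nat_lit 420) (nat_lit 275) (nat_lit 250)) (XT.lf (nat_lit 0) (nat_lit 2887360220) (nat_lit 168) (nat_lit 1461573865) (nat_lit 84) (nat_lit 28117045013) (nat_lit 8) (nat_lit 5) (nat_lit 10) (nat_lit 5) (nat_lit 9) (nat_lit 4) (nat_lit 421) (nat_lit 275) (nat_lit 249)))) (XT.nd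 (nat_lit 188) (nat_lit 0) (nat_lit 0) (XT.nd (nat_lit 94) (nat_lit 0) (nat_lit 0) (XT.lf (nat_lit 0) (nat_lit 4311936067) (nat_lit 84) (nat_lit 1510360844) (nat_lit 168) (nat_lit 27518487525) (nat_lit 7) (nat_lit 5) (nat_lit 8) (nat_lit 5) (nat_lit 9) (nat_lit 4) (nat_lit 422) (nat_lit 275) (nat_lit 248)) (XT.lf (nat_lit 0) (nat_lit 8828023757) (nat_lit 168) (nat_lit 24048821340) (nat_lit 0) (nat_lit 1365531519) (nat_lit 7) (nat_lit 5) (nat_lit 9) (nat_lit 4) (nat_lit 7) (nat_lit 4) (nat_lit 423) (nat_lit 275) (nat_lit 247))) (XT.nd (nat_lit 94) (nat_lit 0) (nat_lit 0) (XT.lf (nat_lit 0) (nat_lit 11894459699) (nat_lit 168) (nat_lit 19014260195) (nat_lit 0) (nat_lit 4263204767) (nat_lit 7) (nat_lit 5) (nat_lit 9) (nat_lit 4) (nat_lit 7) (nat_lit 4) (nat_lit 424) (nat_lit 275) (nat_lit 246)) (XT.lf (nat_lit 0) (nat_lit 15009765635) (nat_lit 168) (nat_lit 13906247289) (nat_lit 0) (nat_lit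 7214663429) (nat_lit 7) (nat_lit 5) (nat_lit 9) (nat_lit 4) (nat_lit 7) (nat_lit 4) (nat_lit 425) (nat_lit 275) (nat_lit 245))))) (XT.nd (nat_lit 282) (nat_lit 0) (nat_lit 0) (XT.nd (nat_lit 94) (nat_lit 84) (nat_lit 0) (XT.lf (nat_lit 0) (nat_lit 18176663677) (nat_lit 168) (nat_lit 8720319310) (nat_lit 0) (nat_lit 10222486447) (nat_lit 7) (nat_lit 5) (nat_lit 9) (nat_lit 4) (nat_lit 7) (nat_lit 4) (nat_lit 426) (nat_lit 275) (nat_lit 244)) (XT.nd (nat_lit 94) (nat_lit 84) (nat_lit 0) (XT.lf (nat_lit 0) (nat_lit 21397921017) (nat_lit 168) (nat_lit 3451944866) (nat_lit 0) (nat_lit 13289302016) (nat_lit 7) (nat_lit 5) (nat_lit 9) (nat_lit 4) (nat_lit 7) (nat_lit 4) (nat_lit 427) (nat_lit 275) (nat_lit 243)) (XT.lf (nat_lit 0) (nat_lit 1941362451) (nat_lit 84) (nat_lit 22753651459) (nat_lit 84) (nat_lit 14495088991) (nat_lit 6) (nat_lit 4) (nat_lit 7) (nat_lit 5) (nat_lit 7) (nat_lit 4) (nat_lit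 428) (nat_lit 275) (nat_lit 242)))) (XT.nd (nat_lit 188) (nat_lit 0) (nat_lit 0) (XT.nd (nat_lit 94) (nat_lit 0) (nat_lit 0) (XT.lf (nat_lit 0) (nat_lit 7496925232) (nat_lit 84) (nat_lit 20589962114) (nat_lit 84) (nat_lit 12185823465) (nat_lit 6) (nat_lit 4) (nat_lit 7) (nat_lit 5) (nat_lit 7) (nat_lit 4) (nat_lit 429) (nat_lit 275) (nat_lit 241)) (XT.lf (nat_lit 0) (nat_lit 13150897380) (nat_lit 84) (nat_lit 18391765122) (nat_lit 84) (nat_lit 9846290374) (nat_lit 6) (nat_lit 4) (nat_lit 7) (nat_lit 5) (nat_lit 7) (nat_lit 4) (nat_lit 430) (nat_lit 275) (nat_lit 240))) (XT.nd (nat_lit 94) (nat_lit 0) (nat_lit 0) (XT.lf (nat_lit 0) (nat_lit 18908219259) (nat_lit 84) (nat_lit 16157139726) (nat_lit 84) (nat_lit 7474445466) (nat_lit 6) (nat_lit 4) (nat_lit 7) (nat_lit 5) (nat_lit 7) (nat_lit 4) (nat_lit 431) (nat_lit 275) (nat_lit 239)) (XT.lf (nat_lit 0) (nat_lit 24773921538) (nat_lit 84)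 (nat_lit 13884133343) (nat_lit 84) (nat_lit 5068216254) (nat_lit 6) (nat_lit 4) (nat_lit 7) (nat_lit 5) (nat_lit 7) (nat_lit 4) (nat_lit 432) (nat_lit 275) (nat_lit 238))))))) (XT.nd (nat_lit 1316) (nat_lit 84) (nat_lit 0) (XT.nd (nat_lit 658) (nat_lit 0) (nat_lit 0) (XT.nd (nat_lit 282) (nat_lit 84) (nat_lit 0) (XT.nd (nat_lit 94) (nat_lit 84) (nat_lit 0) (XT.lf (nat_lit 0) (nat_lit 30753129589) (nat_lit 84) (nat_lit 11570759850) (nat_lit 84) (nat_lit 2625500209) (nat_lit 6) (nat_lit 4) (nat_lit 7) (nat_lit 5) (nat_lit 7) (nat_lit 4) (nat_lit 433) (nat_lit 275) (nat_lit 237)) (XT.nd (nat_lit 94) (nat_lit 84) (nat_lit 0) (XT.lf (nat_lit 0) (nat_lit 36851067962) (nat_lit 84) (nat_lit 9214997852) (nat_lit 84) (nat_lit 144162919) (nat_lit 6) (nat_lit 4) (nat_lit 7) (nat_lit 5) (nat_lit 7) (nat_lit 4) (nat_lit 434) (nat_lit 275) (nat_lit 236)) (XT.lf (nat_lit 0) (nat_lit 2331561137) (nat_lit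 168) (nat_lit 4459683584) (nat_lit 84) (nat_lit 40717959620) (nat_lit 5) (nat_lit 5) (nat_lit 7) (nat_lit 5) (nat_lit 6) (nat_lit 4) (nat_lit 435) (nat_lit 275) (nat_lit 235)))) (XT.nd (nat_lit 188) (nat_lit 0) (nat_lit 0) (XT.nd (nat_lit 94) (nat_lit 0) (nat_lit 0) (XT.lf (nat_lit 0) (nat_lit 538030875) (nat_lit 84) (nat_lit 4313767314) (nat_lit 168) (nat_lit 43996130534) (nat_lit 4) (nat_lit 5) (nat_lit 5) (nat_lit 5) (nat_lit 6) (nat_lit 4) (nat_lit 436) (nat_lit 275) (nat_lit 234)) (XT.lf (nat_lit 0) (nat_lit 5719844151) (nat_lit 84) (nat_lit 1741181850) (nat_lit 168) (nat_lit 42765403338) (nat_lit 4) (nat_lit 5) (nat_lit 5) (nat_lit 5) (nat_lit 6) (nat_lit 4) (nat_lit 437) (nat_lit 275) (nat_lit 233))) (XT.nd (nat_lit 94) (nat_lit 0) (nat_lit 0) (XT.lf (nat_lit 0) (nat_lit 10126297003) (nat_lit 168) (nat_lit 40654189690) (nat_lit 0) (nat_lit 866480834) (nat_lit 4) (nat_lit 5) (nat_lit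 6) (nat_lit 4) (nat_lit 4) (nat_lit 4) (nat_lit 438) (nat_lit 275) (nat_lit 232)) (XT.lf (nat_lit 0) (nat_lit 12858700040) (nat_lit 168) (nat_lit 36758105154) (nat_lit 0) (nat_lit 3493716540) (nat_lit 4) (nat_lit 5) (nat_lit 6) (nat_lit 4) (nat_lit 4) (nat_lit 4) (nat_lit 439) (nat_lit 275) (nat_lit 231))))) (XT.nd (nat_lit 282) (nat_lit 0) (nat_lit 0) (XT.nd (nat_lit 94) (nat_lit 0) (nat_lit 0) (XT.lf (nat_lit 0) (nat_lit 15643885345) (nat_lit 168) (nat_lit 32798189930) (nat_lit 0) (nat_lit 6176797641) (nat_lit 4) (nat_lit 5) (nat_lit 6) (nat_lit 4) (nat_lit 4) (nat_lit 4) (nat_lit 440) (nat_lit 275) (nat_lit 230)) (XT.nd (nat_lit 94) (nat_lit 0) (nat_lit 0) (XT.lf (nat_lit 0) (nat_lit 18484286575) (nat_lit 168) (nat_lit 28770983896) (nat_lit 0) (nat_lit 8918068575) (nat_lit 4) (nat_lit 5) (nat_lit 6) (nat_lit 4) (nat_lit 4) (nat_lit 4) (nat_lit 441) (nat_lit 275) (nat_lit 229)) (XT.lf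 (nat_lit 0) (nat_lit 21382385634) (nat_lit 168) (nat_lit 24672968136) (nat_lit 0) (nat_lit 11719924628) (nat_lit 4) (nat_lit 5) (nat_lit 6) (nat_lit 4) (nat_lit 4) (nat_lit 4) (nat_lit 442) (nat_lit 275) (nat_lit 228)))) (XT.nd (nat_lit 188) (nat_lit 0) (nat_lit 0) (XT.nd (nat_lit 94) (nat_lit 0) (nat_lit 0) (XT.lf (nat_lit 0) (nat_lit 24340714842) (nat_lit 168) (nat_lit 20500561859) (nat_lit 0) (nat_lit 14584814025) (nat_lit 4) (nat_lit 5) (nat_lit 6) (nat_lit 4) (nat_lit 4) (nat_lit 4) (nat_lit 443) (nat_lit 275) (nat_lit 227)) (XT.lf (nat_lit 0) (nat_lit 27361859145) (nat_lit 168) (nat_lit 16250119272) (nat_lit 0) (nat_lit 17515240065) (nat_lit 4) (nat_lit 5) (nat_lit 6) (nat_lit 4) (nat_lit 4) (nat_lit 4) (nat_lit 444) (nat_lit 275) (nat_lit 226))) (XT.nd (nat_lit 94) (nat_lit 0) (nat_lit 0) (XT.lf (nat_lit 0) (nat_lit 30448458380) (nat_lit 168) (nat_lit 11917926398) (nat_lit 0) (nat_lit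 20513763316) (nat_lit 4) (nat_lit 5) (nat_lit 6) (nat_lit 4) (nat_lit 4) (nat_lit 4) (nat_lit 445) (nat_lit 275) (nat_lit 225)) (XT.lf (nat_lit 0) (nat_lit 33603209575) (nat_lit 168) (nat_lit 7500197824) (nat_lit 0) (nat_lit 23583003847) (nat_lit 4) (nat_lit 5) (nat_lit 6) (nat_lit 4) (nat_lit 4) (nat_lit 4) (nat_lit 446) (nat_lit 275) (nat_lit 224)))))) (XT.nd (nat_lit 658) (nat_lit 0) (nat_lit 0) (XT.nd (nat_lit 282) (nat_lit 0) (nat_lit 0) (XT.nd (nat_lit 94) (nat_lit 84) (nat_lit 0) (XT.lf (nat_lit 0) (nat_lit 36828869308) (nat_lit 168) (nat_lit 2993073399) (nat_lit 0) (nat_lit 26725643518) (nat_lit 4) (nat_lit 5) (nat_lit 6) (nat_lit 4) (nat_lit 4) (nat_lit 4) (nat_lit 447) (nat_lit 275) (nat_lit 223)) (XT.nd (nat_lit 94) (nat_lit 0) (nat_lit 0) (XT.lf (nat_lit 0) (nat_lit 1639375254) (nat_lit 84) (nat_lit 38504639540) (nat_lit 84) (nat_lit 28320811747) (nat_lit 3) (nat_lit 4) (nat_lit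 4) (nat_lit 5) (nat_lit 4) (nat_lit 4) (nat_lit 448) (nat_lit 275) (nat_lit 222)) (XT.lf (nat_lit 0) (nat_lit 6430683406) (nat_lit 84) (nat_lit 37135385218) (nat_lit 84) (nat_lit 26873303055) (nat_lit 3) (nat_lit 4) (nat_lit 4) (nat_lit 5) (nat_lit 4) (nat_lit 4) (nat_lit 449) (nat_lit 275) (nat_lit 221)))) (XT.nd (nat_lit 188) (nat_lit 0) (nat_lit 0) (XT.nd (nat_lit 94) (nat_lit 0) (nat_lit 0) (XT.lf (nat_lit 0) (nat_lit 11325469604) (nat_lit 84) (nat_lit 35743207479) (nat_lit 84) (nat_lit 25405150198) (nat_lit 3) (nat_lit 4) (nat_lit 4) (nat_lit 5) (nat_lit 4) (nat_lit 4) (nat_lit 450) (nat_lit 275) (nat_lit 220)) (XT.lf (nat_lit 0) (nat_lit 16328010846) (nat_lit 84) (nat_lit 34326889857) (nat_lit 84) (nat_lit 23915070326) (nat_lit 3) (nat_lit 4) (nat_lit 4) (nat_lit 5) (nat_lit 4) (nat_lit 4) (nat_lit 451) (nat_lit 275) (nat_lit 219))) (XT.nd (nat_lit 94) (nat_lit 0) (nat_lit 0) (XT.lf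 (nat_lit 0) (nat_lit 21442678285) (nat_lit 84) (nat_lit 32885194793) (nat_lit 84) (nat_lit 22401761427) (nat_lit 3) (nat_lit 4) (nat_lit 4) (nat_lit 5) (nat_lit 4) (nat_lit 4) (nat_lit 452) (nat_lit 275) (nat_lit 218)) (XT.lf (nat_lit 0) (nat_lit 26673941049) (nat_lit 84) (nat_lit 31416862553) (nat_lit 84) (nat_lit 20863901193) (nat_lit 3) (nat_lit 4) (nat_lit 4) (nat_lit 5) (nat_lit 4) (nat_lit 4) (nat_lit 453) (nat_lit 275) (nat_lit 217))))) (XT.nd (nat_lit 53674) (nat_lit 0) (nat_lit 1344) (XT.nd (nat_lit 94) (nat_lit 0) (nat_lit 0) (XT.lf (nat_lit 0) (nat_lit 32026370142) (nat_lit 84) (nat_lit 29920610129) (nat_lit 84) (nat_lit 19300145861) (nat_lit 3) (nat_lit 4) (nat_lit 4) (nat_lit 5) (nat_lit 4) (nat_lit 4) (nat_lit 454) (nat_lit 275) (nat_lit 216)) (XT.nd (nat_lit 53486) (nat_lit 0) (nat_lit 1680) (XT.lf (nat_lit 0) (nat_lit 37504642445) (nat_lit 84) (nat_lit 28395130115) (nat_lit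 84) (nat_lit 17709129043) (nat_lit 3) (nat_lit 4) (nat_lit 4) (nat_lit 5) (nat_lit 4) (nat_lit 4) (nat_lit 455) (nat_lit 275) (nat_lit 215)) (XT.lf (nat_lit 0) (nat_lit 6409849491) (nat_lit 168) (nat_lit 890305105) (nat_lit 168) (nat_lit 890305105) (nat_lit 23) (nat_lit 4) (nat_lit 25) (nat_lit 5) (nat_lit 25) (nat_lit 4) (nat_lit 393) (nat_lit 276) (nat_lit 276)))) (XT.nd (nat_lit 188) (nat_lit 168) (nat_lit 0) (XT.nd (nat_lit 94) (nat_lit 0) (nat_lit 0) (XT.lf (nat_lit 0) (nat_lit 1962604708) (nat_lit 168) (nat_lit 13265397533) (nat_lit 0) (nat_lit 1514989471) (nat_lit 21) (nat_lit 5) (nat_lit 23) (nat_lit 4) (nat_lit 21) (nat_lit 4) (nat_lit 394) (nat_lit 276) (nat_lit 275)) (XT.lf (nat_lit 0) (nat_lit 5753655828) (nat_lit 168) (nat_lit 6491201294) (nat_lit 0) (nat_lit 4871462691) (nat_lit 21) (nat_lit 5) (nat_lit 23) (nat_lit 4) (nat_lit 21) (nat_lit 4) (nat_lit 395) (nat_lit 276)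 (nat_lit 274))) (XT.nd (nat_lit 94) (nat_lit 0) (nat_lit 0) (XT.lf (nat_lit 0) (nat_lit 355969974) (nat_lit 168) (nat_lit 9225677741) (nat_lit 168) (nat_lit 7921564312) (nat_lit 19) (nat_lit 4) (nat_lit 21) (nat_lit 5) (nat_lit 21) (nat_lit 4) (nat_lit 396) (nat_lit 276) (nat_lit 273)) (XT.lf (nat_lit 0) (nat_lit 7405767602) (nat_lit 168) (nat_lit 6105077991) (nat_lit 168) (nat_lit 4391333211) (nat_lit 19) (nat_lit 4) (nat_lit 21) (nat_lit 5) (nat_lit 21) (nat_lit 4) (nat_lit 397) (nat_lit 276) (nat_lit 272))))))))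
noncomputable def xc14 : XT := (XT.nd (nat_lit 2538) (nat_lit 336) (nat_lit 0) (XT.nd (nat_lit 1222) (nat_lit 420) (nat_lit 0) (XT.nd (nat_lit 564) (nat_lit 252) (nat_lit 0) (XT.nd (nat_lit 282) (nat_lit 168) (nat_lit 0) (XT.nd (nat_lit 94) (nat_lit 168) (nat_lit 0) (XT.lf (nat_lit 0) (nat_lit 14535163971) (nat_lit 168) (nat_lit 2945879541) (nat_lit 168) (nat_lit 834434419) (nat_lit 19) (nat_lit 4) (nat_lit 21) (nat_lit 5) (nat_lit 21) (nat_lit 4) (nat_lit 398) (nat_lit 276) (nat_lit 271)) (XT.nd (nat_lit 94) (nat_lit 0) (nat_lit 0) (XT.lf (nat_lit 0) (nat_lit 2730753502) (nat_lit 168) (nat_lit 15705020699) (nat_lit 0) (nat_lit 305936068) (nat_lit 17) (nat_lit 5) (nat_lit 19) (nat_lit 4) (nat_lit 17) (nat_lit 4) (nat_lit 399) (nat_lit 276) (nat_lit 270)) (XT.lf (nat_lit 0) (nat_lit 6378859989) (nat_lit 168) (nat_lit 9211801534) (nat_lit 0) (nat_lit 3590090405) (nat_lit 17) (nat_lit 5)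 (nat_lit 19) (nat_lit 4) (nat_lit 17) (nat_lit 4) (nat_lit 400) (nat_lit 276) (nat_lit 269)))) (XT.nd (nat_lit 94) (nat_lit 168) (nat_lit 0) (XT.lf (nat_lit 0) (nat_lit 10063609080) (nat_lit 168) (nat_lit 2650102588) (nat_lit 0) (nat_lit 6921487894) (nat_lit 17) (nat_lit 5) (nat_lit 19) (nat_lit 4) (nat_lit 17) (nat_lit 4) (nat_lit 401) (nat_lit 276) (nat_lit 268)) (XT.nd (nat_lit 94) (nat_lit 0) (nat_lit 0) (XT.lf (nat_lit 0) (nat_lit 4065135089) (nat_lit 168) (nat_lit 9762161934) (nat_lit 168) (nat_lit 6276980940) (nat_lit 15) (nat_lit 4) (nat_lit 17) (nat_lit 5) (nat_lit 17) (nat_lit 4) (nat_lit 402) (nat_lit 276) (nat_lit 267)) (XT.lf (nat_lit 0) (nat_lit 10914719068) (nat_lit 168) (nat_lit 6746148526) (nat_lit 168) (nat_lit 2927899758) (nat_lit 15) (nat_lit 4) (nat_lit 17) (nat_lit 5) (nat_lit 17) (nat_lit 4) (nat_lit 403) (nat_lit 276) (nat_lit 266))))) (XT.nd (nat_lit 282) (nat_lit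 84) (nat_lit 0) (XT.nd (nat_lit 94) (nat_lit 84) (nat_lit 0) (XT.lf (nat_lit 0) (nat_lit 443001997) (nat_lit 252) (nat_lit 3242321484) (nat_lit 84) (nat_lit 17404416735) (nat_lit 14) (nat_lit 5) (nat_lit 17) (nat_lit 5) (nat_lit 15) (nat_lit 4) (nat_lit 404) (nat_lit 276) (nat_lit 265)) (XT.nd (nat_lit 94) (nat_lit 0) (nat_lit 0) (XT.lf (nat_lit 0) (nat_lit 3301970107) (nat_lit 84) (nat_lit 519475197) (nat_lit 168) (nat_lit 17784513159) (nat_lit 13) (nat_lit 5) (nat_lit 14) (nat_lit 5) (nat_lit 15) (nat_lit 4) (nat_lit 405) (nat_lit 276) (nat_lit 264)) (XT.lf (nat_lit 0) (nat_lit 7294542740) (nat_lit 168) (nat_lit 12170537778) (nat_lit 0) (nat_lit 2672826180) (nat_lit 13) (nat_lit 5) (nat_lit 15) (nat_lit 4) (nat_lit 13) (nat_lit 4) (nat_lit 406) (nat_lit 276) (nat_lit 263)))) (XT.nd (nat_lit 188) (nat_lit 0) (nat_lit 0) (XT.nd (nat_lit 94) (nat_lit 84) (nat_lit 0) (XT.lf (nat_lit 0) (nat_lit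 10812786176) (nat_lit 168) (nat_lit 5971077412) (nat_lit 0) (nat_lit 5903762428) (nat_lit 13) (nat_lit 5) (nat_lit 15) (nat_lit 4) (nat_lit 13) (nat_lit 4) (nat_lit 407) (nat_lit 276) (nat_lit 262)) (XT.lf (nat_lit 0) (nat_lit 310869439) (nat_lit 84) (nat_lit 14066375119) (nat_lit 84) (nat_lit 8878412354) (nat_lit 12) (nat_lit 4) (nat_lit 13) (nat_lit 5) (nat_lit 13) (nat_lit 4) (nat_lit 408) (nat_lit 276) (nat_lit 261))) (XT.nd (nat_lit 94) (nat_lit 0) (nat_lit 0) (XT.lf (nat_lit 0) (nat_lit 6795186576) (nat_lit 84) (nat_lit 11252197967) (nat_lit 84) (nat_lit 5793420622) (nat_lit 12) (nat_lit 4) (nat_lit 13) (nat_lit 5) (nat_lit 13) (nat_lit 4) (nat_lit 409) (nat_lit 276) (nat_lit 260)) (XT.lf (nat_lit 0) (nat_lit 13368703756) (nat_lit 84) (nat_lit 8399169315) (nat_lit 84) (nat_lit 2677465193) (nat_lit 12) (nat_lit 4) (nat_lit 13) (nat_lit 5) (nat_lit 13) (nat_lit 4) (nat_lit 410) (nat_lit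 276) (nat_lit 259)))))) (XT.nd (nat_lit 658) (nat_lit 168) (nat_lit 0) (XT.nd (nat_lit 282) (nat_lit 84) (nat_lit 0) (XT.nd (nat_lit 94) (nat_lit 84) (nat_lit 0) (XT.lf (nat_lit 0) (nat_lit 462962744) (nat_lit 168) (nat_lit 5037158464) (nat_lit 84) (nat_lit 19569527069) (nat_lit 11) (nat_lit 5) (nat_lit 13) (nat_lit 5) (nat_lit 12) (nat_lit 4) (nat_lit 411) (nat_lit 276) (nat_lit 258)) (XT.nd (nat_lit 94) (nat_lit 0) (nat_lit 0) (XT.lf (nat_lit 0) (nat_lit 1077569122) (nat_lit 84) (nat_lit 2519660268) (nat_lit 168) (nat_lit 22116094236) (nat_lit 10) (nat_lit 5) (nat_lit 11) (nat_lit 5) (nat_lit 12) (nat_lit 4) (nat_lit 412) (nat_lit 276) (nat_lit 257)) (XT.lf (nat_lit 0) (nat_lit 6825550033) (nat_lit 168) (nat_lit 19002350444) (nat_lit 0) (nat_lit 548441502) (nat_lit 10) (nat_lit 5) (nat_lit 12) (nat_lit 4) (nat_lit 10) (nat_lit 4) (nat_lit 413) (nat_lit 276) (nat_lit 256)))) (XT.nd (nat_lit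 188) (nat_lit 84) (nat_lit 0) (XT.nd (nat_lit 94) (nat_lit 0) (nat_lit 0) (XT.lf (nat_lit 0) (nat_lit 10120684861) (nat_lit 168) (nat_lit 13322726248) (nat_lit 0) (nat_lit 3616773382) (nat_lit 10) (nat_lit 5) (nat_lit 12) (nat_lit 4) (nat_lit 10) (nat_lit 4) (nat_lit 414) (nat_lit 276) (nat_lit 255)) (XT.lf (nat_lit 0) (nat_lit 13461292602) (nat_lit 168) (nat_lit 7567698623) (nat_lit 0) (nat_lit 6737184087) (nat_lit 10) (nat_lit 5) (nat_lit 12) (nat_lit 4) (nat_lit 10) (nat_lit 4) (nat_lit 415) (nat_lit 276) (nat_lit 254))) (XT.nd (nat_lit 94) (nat_lit 84) (nat_lit 0) (XT.lf (nat_lit 0) (nat_lit 16850292234) (nat_lit 168) (nat_lit 1732238904) (nat_lit 0) (nat_lit 9912400188) (nat_lit 10) (nat_lit 5) (nat_lit 12) (nat_lit 4) (nat_lit 10) (nat_lit 4) (nat_lit 416) (nat_lit 276) (nat_lit 253)) (XT.lf (nat_lit 0) (nat_lit 4272116229) (nat_lit 84) (nat_lit 16059594984) (nat_lit 84) (nat_lit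 8914146113) (nat_lit 9) (nat_lit 4) (nat_lit 10) (nat_lit 5) (nat_lit 10) (nat_lit 4) (nat_lit 417) (nat_lit 276) (nat_lit 252))))) (XT.nd (nat_lit 282) (nat_lit 168) (nat_lit 0) (XT.nd (nat_lit 94) (nat_lit 0) (nat_lit 0) (XT.lf (nat_lit 0) (nat_lit 10403456236) (nat_lit 84) (nat_lit 13481905238) (nat_lit 84) (nat_lit 6134944886) (nat_lit 9) (nat_lit 4) (nat_lit 10) (nat_lit 5) (nat_lit 10) (nat_lit 4) (nat_lit 418) (nat_lit 276) (nat_lit 251)) (XT.nd (nat_lit 94) (nat_lit 0) (nat_lit 0) (XT.lf (nat_lit 0) (nat_lit 16632663646) (nat_lit 84) (nat_lit 10864701768) (nat_lit 84) (nat_lit 3322099201) (nat_lit 9) (nat_lit 4) (nat_lit 10) (nat_lit 5) (nat_lit 10) (nat_lit 4) (nat_lit 419) (nat_lit 276) (nat_lit 250)) (XT.lf (nat_lit 0) (nat_lit 22965181458) (nat_lit 84) (nat_lit 8205697696) (nat_lit 84) (nat_lit 473151232) (nat_lit 9) (nat_lit 4) (nat_lit 10) (nat_lit 5) (nat_lit 10) (nat_lit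 4) (nat_lit 420) (nat_lit 276) (nat_lit 249)))) (XT.nd (nat_lit 188) (nat_lit 0) (nat_lit 0) (XT.nd (nat_lit 94) (nat_lit 84) (nat_lit 0) (XT.lf (nat_lit 0) (nat_lit 2367274980) (nat_lit 168) (nat_lit 3111389805) (nat_lit 84) (nat_lit 27015363123) (nat_lit 8) (nat_lit 5) (nat_lit 10) (nat_lit 5) (nat_lit 9) (nat_lit 4) (nat_lit 421) (nat_lit 276) (nat_lit 248)) (XT.lf (nat_lit 0) (nat_lit 2589252223) (nat_lit 84) (nat_lit 2674418012) (nat_lit 168) (nat_lit 28106331540) (nat_lit 7) (nat_lit 5) (nat_lit 8) (nat_lit 5) (nat_lit 9) (nat_lit 4) (nat_lit 422) (nat_lit 276) (nat_lit 247))) (XT.nd (nat_lit 94) (nat_lit 0) (nat_lit 0) (XT.lf (nat_lit 0) (nat_lit 8236327266) (nat_lit 168) (nat_lit 25828898720) (nat_lit 0) (nat_lit 207371994) (nat_lit 7) (nat_lit 5) (nat_lit 9) (nat_lit 4) (nat_lit 7) (nat_lit 4) (nat_lit 423) (nat_lit 276) (nat_lit 246)) (XT.lf (nat_lit 0) (nat_lit 11281520309)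 (nat_lit 168) (nat_lit 20832556823) (nat_lit 0) (nat_lit 3088717763) (nat_lit 7) (nat_lit 5) (nat_lit 9) (nat_lit 4) (nat_lit 7) (nat_lit 4) (nat_lit 424) (nat_lit 276) (nat_lit 245))))))) (XT.nd (nat_lit 1316) (nat_lit 84) (nat_lit 0) (XT.nd (nat_lit 658) (nat_lit 168) (nat_lit 0) (XT.nd (nat_lit 282) (nat_lit 84) (nat_lit 0) (XT.nd (nat_lit 94) (nat_lit 0) (nat_lit 0) (XT.lf (nat_lit 0) (nat_lit 14376202072) (nat_lit 168) (nat_lit 15761649983) (nat_lit 0) (nat_lit 6024324501) (nat_lit 7) (nat_lit 5) (nat_lit 9) (nat_lit 4) (nat_lit 7) (nat_lit 4) (nat_lit 425) (nat_lit 276) (nat_lit 244)) (XT.nd (nat_lit 94) (nat_lit 0) (nat_lit 0) (XT.lf (nat_lit 0) (nat_lit 17523076644) (nat_lit 168) (nat_lit 10611747312) (nat_lit 0) (nat_lit 9016757303) (nat_lit 7) (nat_lit 5) (nat_lit 9) (nat_lit 4) (nat_lit 7) (nat_lit 4) (nat_lit 426) (nat_lit 276) (nat_lit 243)) (XT.lf (nat_lit 0) (nat_lit 20724893724)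 (nat_lit 168) (nat_lit 5378348894) (nat_lit 0) (nat_lit 12068630915) (nat_lit 7) (nat_lit 5) (nat_lit 9) (nat_lit 4) (nat_lit 7) (nat_lit 4) (nat_lit 427) (nat_lit 276) (nat_lit 242)))) (XT.nd (nat_lit 188) (nat_lit 0) (nat_lit 0) (XT.nd (nat_lit 94) (nat_lit 84) (nat_lit 0) (XT.lf (nat_lit 0) (nat_lit 23984451013) (nat_lit 168) (nat_lit 56881857) (nat_lit 0) (nat_lit 15182612024) (nat_lit 7) (nat_lit 5) (nat_lit 9) (nat_lit 4) (nat_lit 7) (nat_lit 4) (nat_lit 428) (nat_lit 276) (nat_lit 241)) (XT.lf (nat_lit 0) (nat_lit 5463924470) (nat_lit 84) (nat_lit 21893194785) (nat_lit 84) (nat_lit 12950019697) (nat_lit 6) (nat_lit 4) (nat_lit 7) (nat_lit 5) (nat_lit 7) (nat_lit 4) (nat_lit 429) (nat_lit 276) (nat_lit 240))) (XT.nd (nat_lit 94) (nat_lit 0) (nat_lit 0) (XT.lf (nat_lit 0) (nat_lit 11085251577) (nat_lit 84) (nat_lit 19709538436) (nat_lit 84) (nat_lit 10629143835) (nat_lit 6) (nat_lit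 4) (nat_lit 7) (nat_lit 5) (nat_lit 7) (nat_lit 4) (nat_lit 430) (nat_lit 276) (nat_lit 239)) (XT.lf (nat_lit 0) (nat_lit 16810879241) (nat_lit 84) (nat_lit 17489030171) (nat_lit 84) (nat_lit 8275412741) (nat_lit 6) (nat_lit 4) (nat_lit 7) (nat_lit 5) (nat_lit 7) (nat_lit 4) (nat_lit 431) (nat_lit 276) (nat_lit 238))))) (XT.nd (nat_lit 282) (nat_lit 168) (nat_lit 0) (XT.nd (nat_lit 94) (nat_lit 0) (nat_lit 0) (XT.lf (nat_lit 0) (nat_lit 22645810438) (nat_lit 84) (nat_lit 15229729739) (nat_lit 84) (nat_lit 5886769758) (nat_lit 6) (nat_lit 4) (nat_lit 7) (nat_lit 5) (nat_lit 7) (nat_lit 4) (nat_lit 432) (nat_lit 276) (nat_lit 237)) (XT.nd (nat_lit 94) (nat_lit 0) (nat_lit 0) (XT.lf (nat_lit 0) (nat_lit 28595143652) (nat_lit 84) (nat_lit 12929662994) (nat_lit 84) (nat_lit 3461127720) (nat_lit 6) (nat_lit 4) (nat_lit 7) (nat_lit 5) (nat_lit 7) (nat_lit 4) (nat_lit 433) (nat_lit 276) (nat_lit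 236)) (XT.lf (nat_lit 0) (nat_lit 34664077329) (nat_lit 84) (nat_lit 10586820171) (nat_lit 84) (nat_lit 996367136) (nat_lit 6) (nat_lit 4) (nat_lit 7) (nat_lit 5) (nat_lit 7) (nat_lit 4) (nat_lit 434) (nat_lit 276) (nat_lit 235)))) (XT.nd (nat_lit 188) (nat_lit 84) (nat_lit 0) (XT.nd (nat_lit 94) (nat_lit 0) (nat_lit 0) (XT.lf (nat_lit 0) (nat_lit 1480206653) (nat_lit 168) (nat_lit 6704000285) (nat_lit 84) (nat_lit 39362760582) (nat_lit 5) (nat_lit 5) (nat_lit 7) (nat_lit 5) (nat_lit 6) (nat_lit 4) (nat_lit 435) (nat_lit 276) (nat_lit 234)) (XT.lf (nat_lit 0) (nat_lit 3979951591) (nat_lit 168) (nat_lit 1744437243) (nat_lit 84) (nat_lit 43161925720) (nat_lit 5) (nat_lit 5) (nat_lit 7) (nat_lit 5) (nat_lit 6) (nat_lit 4) (nat_lit 436) (nat_lit 276) (nat_lit 233))) (XT.nd (nat_lit 94) (nat_lit 0) (nat_lit 0) (XT.lf (nat_lit 0) (nat_lit 3375276916) (nat_lit 84) (nat_lit 3181662941) (nat_lit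 168) (nat_lit 43708850155) (nat_lit 4) (nat_lit 5) (nat_lit 5) (nat_lit 5) (nat_lit 6) (nat_lit 4) (nat_lit 437) (nat_lit 276) (nat_lit 232)) (XT.lf (nat_lit 0) (nat_lit 8630376481) (nat_lit 84) (nat_lit 568643137) (nat_lit 168) (nat_lit 42488011753) (nat_lit 4) (nat_lit 5) (nat_lit 5) (nat_lit 5) (nat_lit 6) (nat_lit 4) (nat_lit 438) (nat_lit 276) (nat_lit 231)))))) (XT.nd (nat_lit 658) (nat_lit 84) (nat_lit 0) (XT.nd (nat_lit 282) (nat_lit 0) (nat_lit 0) (XT.nd (nat_lit 94) (nat_lit 0) (nat_lit 0) (XT.lf (nat_lit 0) (nat_lit 11911577287) (nat_lit 168) (nat_lit 39181238125) (nat_lit 0) (nat_lit 2058372747) (nat_lit 4) (nat_lit 5) (nat_lit 6) (nat_lit 4) (nat_lit 4) (nat_lit 4) (nat_lit 439) (nat_lit 276) (nat_lit 230)) (XT.nd (nat_lit 94) (nat_lit 0) (nat_lit 0) (XT.lf (nat_lit 0) (nat_lit 14682802181) (nat_lit 168) (nat_lit 35246695633) (nat_lit 0) (nat_lit 4730467345) (nat_lit 4) (nat_lit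 5) (nat_lit 6) (nat_lit 4) (nat_lit 4) (nat_lit 4) (nat_lit 440) (nat_lit 276) (nat_lit 229)) (XT.lf (nat_lit 0) (nat_lit 17509649614) (nat_lit 168) (nat_lit 31244123321) (nat_lit 0) (nat_lit 7461071772) (nat_lit 4) (nat_lit 5) (nat_lit 6) (nat_lit 4) (nat_lit 4) (nat_lit 4) (nat_lit 441) (nat_lit 276) (nat_lit 228)))) (XT.nd (nat_lit 188) (nat_lit 0) (nat_lit 0) (XT.nd (nat_lit 94) (nat_lit 0) (nat_lit 0) (XT.lf (nat_lit 0) (nat_lit 20394589647) (nat_lit 168) (nat_lit 27170023795) (nat_lit 0) (nat_lit 10252571994) (nat_lit 4) (nat_lit 5) (nat_lit 6) (nat_lit 4) (nat_lit 4) (nat_lit 4) (nat_lit 442) (nat_lit 276) (nat_lit 227)) (XT.lf (nat_lit 0) (nat_lit 23340143101) (nat_lit 168) (nat_lit 23020837163) (nat_lit 0) (nat_lit 13107407184) (nat_lit 4) (nat_lit 5) (nat_lit 6) (nat_lit 4) (nat_lit 4) (nat_lit 4) (nat_lit 443) (nat_lit 276) (nat_lit 226))) (XT.nd (nat_lit 94) (nat_lit 0) (nat_lit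 0) (XT.lf (nat_lit 0) (nat_lit 26348883760) (nat_lit 168) (nat_lit 18792937921) (nat_lit 0) (nat_lit 16028071860) (nat_lit 4) (nat_lit 5) (nat_lit 6) (nat_lit 4) (nat_lit 4) (nat_lit 4) (nat_lit 444) (nat_lit 276) (nat_lit 225)) (XT.lf (nat_lit 0) (nat_lit 29423440622) (nat_lit 168) (nat_lit 14482631789) (nat_lit 0) (nat_lit 19017118058) (nat_lit 4) (nat_lit 5) (nat_lit 6) (nat_lit 4) (nat_lit 4) (nat_lit 4) (nat_lit 445) (nat_lit 276) (nat_lit 224))))) (XT.nd (nat_lit 282) (nat_lit 84) (nat_lit 0) (XT.nd (nat_lit 94) (nat_lit 0) (nat_lit 0) (XT.lf (nat_lit 0) (nat_lit 32566500192) (nat_lit 168) (nat_lit 10086152479) (nat_lit 0) (nat_lit 22077157566) (nat_lit 4) (nat_lit 5) (nat_lit 6) (nat_lit 4) (nat_lit 4) (nat_lit 4) (nat_lit 446) (nat_lit 276) (nat_lit 223)) (XT.nd (nat_lit 94) (nat_lit 0) (nat_lit 0) (XT.lf (nat_lit 0) (nat_lit 35780808833) (nat_lit 168) (nat_lit 5599658409) (nat_lit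 0) (nat_lit 25210864205) (nat_lit 4) (nat_lit 5) (nat_lit 6) (nat_lit 4) (nat_lit 4) (nat_lit 4) (nat_lit 447) (nat_lit 276) (nat_lit 222)) (XT.lf (nat_lit 0) (nat_lit 39069175165) (nat_lit 168) (nat_lit 1019229339) (nat_lit 0) (nat_lit 28420976166) (nat_lit 4) (nat_lit 5) (nat_lit 6) (nat_lit 4) (nat_lit 4) (nat_lit 4) (nat_lit 448) (nat_lit 276) (nat_lit 221)))) (XT.nd (nat_lit 188) (nat_lit 0) (nat_lit 0) (XT.nd (nat_lit 94) (nat_lit 0) (nat_lit 0) (XT.lf (nat_lit 0) (nat_lit 3731961046) (nat_lit 84) (nat_lit 38738385363) (nat_lit 84) (nat_lit 28014211246) (nat_lit 3) (nat_lit 4) (nat_lit 4) (nat_lit 5) (nat_lit 4) (nat_lit 4) (nat_lit 449) (nat_lit 276) (nat_lit 220)) (XT.lf (nat_lit 0) (nat_lit 8607491805) (nat_lit 84) (nat_lit 37354890111) (nat_lit 84) (nat_lit 26556953745) (nat_lit 3) (nat_lit 4) (nat_lit 4) (nat_lit 5) (nat_lit 4) (nat_lit 4) (nat_lit 450) (nat_lit 276) (nat_lit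 219))) (XT.nd (nat_lit 94) (nat_lit 0) (nat_lit 0) (XT.lf (nat_lit 0) (nat_lit 13591338446) (nat_lit 84) (nat_lit 35947002088) (nat_lit 84) (nat_lit 25077451887) (nat_lit 3) (nat_lit 4) (nat_lit 4) (nat_lit 5) (nat_lit 4) (nat_lit 4) (nat_lit 451) (nat_lit 276) (nat_lit 218)) (XT.lf (nat_lit 0) (nat_lit 18687855787) (nat_lit 84) (nat_lit 34513491101) (nat_lit 84) (nat_lit 23574412905) (nat_lit 3) (nat_lit 4) (nat_lit 4) (nat_lit 5) (nat_lit 4) (nat_lit 4) (nat_lit 452) (nat_lit 276) (nat_lit 217))))))))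
noncomputable def xc15 : XT := (XT.nd (nat_lit 55836) (nat_lit 0) (nat_lit 84) (XT.nd (nat_lit 54520) (nat_lit 0) (nat_lit 588) (XT.nd (nat_lit 53862) (nat_lit 0) (nat_lit 1176) (XT.nd (nat_lit 53486) (nat_lit 0) (nat_lit 1512) (XT.nd (nat_lit 94) (nat_lit 0) (nat_lit 0) (XT.lf (nat_lit 0) (nat_lit 23901497096) (nat_lit 84) (nat_lit 33053104567) (nat_lit 84) (nat_lit 22046523463) (nat_lit 3) (nat_lit 4) (nat_lit 4) (nat_lit 5) (nat_lit 4) (nat_lit 4) (nat_lit 453) (nat_lit 276) (nat_lit 216)) (XT.nd (nat_lit 94) (nat_lit 0) (nat_lit 0) (XT.lf (nat_lit 0) (nat_lit 29236817981) (nat_lit 84) (nat_lit 31564566421) (nat_lit 84) (nat_lit 20492448513) (nat_lit 3) (nat_lit 4) (nat_lit 4) (nat_lit 5) (nat_lit 4) (nat_lit 4) (nat_lit 454) (nat_lit 276) (nat_lit 215)) (XT.lf (nat_lit 0) (nat_lit 34698480374) (nat_lit 84) (nat_lit 30046575997) (nat_lit 84) (nat_lit 18910830124) (nat_lit 3) (nat_lit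 4) (nat_lit 4) (nat_lit 5) (nat_lit 4) (nat_lit 4) (nat_lit 455) (nat_lit 276) (nat_lit 214)))) (XT.nd (nat_lit 188) (nat_lit 168) (nat_lit 0) (XT.nd (nat_lit 94) (nat_lit 168) (nat_lit 0) (XT.lf (nat_lit 0) (nat_lit 3526662925) (nat_lit 252) (nat_lit 791614058) (nat_lit 0) (nat_lit 3526662925) (nat_lit 25) (nat_lit 5) (nat_lit 28) (nat_lit 4) (nat_lit 25) (nat_lit 4) (nat_lit 391) (nat_lit 277) (nat_lit 277)) (XT.lf (nat_lit 0) (nat_lit 5530564681) (nat_lit 168) (nat_lit 5487103281) (nat_lit 168) (nat_lit 5012228276) (nat_lit 23) (nat_lit 4) (nat_lit 25) (nat_lit 5) (nat_lit 25) (nat_lit 4) (nat_lit 392) (nat_lit 277) (nat_lit 276))) (XT.nd (nat_lit 94) (nat_lit 168) (nat_lit 0) (XT.lf (nat_lit 0) (nat_lit 12751226260) (nat_lit 168) (nat_lit 2283430134) (nat_lit 168) (nat_lit 1347511434) (nat_lit 23) (nat_lit 4) (nat_lit 25) (nat_lit 5) (nat_lit 25) (nat_lit 4) (nat_lit 393) (nat_lit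 277) (nat_lit 275)) (XT.lf (nat_lit 0) (nat_lit 2341029458) (nat_lit 168) (nat_lit 13406710559) (nat_lit 0) (nat_lit 997792626) (nat_lit 21) (nat_lit 5) (nat_lit 23) (nat_lit 4) (nat_lit 21) (nat_lit 4) (nat_lit 394) (nat_lit 277) (nat_lit 274))))) (XT.nd (nat_lit 282) (nat_lit 168) (nat_lit 0) (XT.nd (nat_lit 94) (nat_lit 168) (nat_lit 0) (XT.lf (nat_lit 0) (nat_lit 6092566999) (nat_lit 168) (nat_lit 6700099105) (nat_lit 0) (nat_lit 4327409875) (nat_lit 21) (nat_lit 5) (nat_lit 23) (nat_lit 4) (nat_lit 21) (nat_lit 4) (nat_lit 395) (nat_lit 277) (nat_lit 273)) (XT.nd (nat_lit 94) (nat_lit 0) (nat_lit 0) (XT.lf (nat_lit 0) (nat_lit 75992499) (nat_lit 168) (nat_lit 9803512373) (nat_lit 168) (nat_lit 7628723898) (nat_lit 19) (nat_lit 4) (nat_lit 21) (nat_lit 5) (nat_lit 21) (nat_lit 4) (nat_lit 396) (nat_lit 277) (nat_lit 272)) (XT.lf (nat_lit 0) (nat_lit 7060817128) (nat_lit 168) (nat_lit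 6710015722) (nat_lit 168) (nat_lit 4137526906) (nat_lit 19) (nat_lit 4) (nat_lit 21) (nat_lit 5) (nat_lit 21) (nat_lit 4) (nat_lit 397) (nat_lit 277) (nat_lit 271)))) (XT.nd (nat_lit 188) (nat_lit 0) (nat_lit 0) (XT.nd (nat_lit 94) (nat_lit 168) (nat_lit 0) (XT.lf (nat_lit 0) (nat_lit 14127132915) (nat_lit 168) (nat_lit 3577130961) (nat_lit 168) (nat_lit 618525309) (nat_lit 19) (nat_lit 4) (nat_lit 21) (nat_lit 5) (nat_lit 21) (nat_lit 4) (nat_lit 398) (nat_lit 277) (nat_lit 270)) (XT.lf (nat_lit 0) (nat_lit 2550833089) (nat_lit 84) (nat_lit 347841519) (nat_lit 168) (nat_lit 15851623627) (nat_lit 17) (nat_lit 5) (nat_lit 18) (nat_lit 5) (nat_lit 19) (nat_lit 4) (nat_lit 399) (nat_lit 277) (nat_lit 269))) (XT.nd (nat_lit 94) (nat_lit 0) (nat_lit 0) (XT.lf (nat_lit 0) (nat_lit 6507575069) (nat_lit 168) (nat_lit 9765127337) (nat_lit 0) (nat_lit 2917838646) (nat_lit 17) (nat_lit 5) (nat_lit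 19) (nat_lit 4) (nat_lit 17) (nat_lit 4) (nat_lit 400) (nat_lit 277) (nat_lit 268)) (XT.lf (nat_lit 0) (nat_lit 10157506334) (nat_lit 168) (nat_lit 3263841034) (nat_lit 0) (nat_lit 6224710104) (nat_lit 17) (nat_lit 5) (nat_lit 19) (nat_lit 4) (nat_lit 17) (nat_lit 4) (nat_lit 401) (nat_lit 277) (nat_lit 267)))))) (XT.nd (nat_lit 658) (nat_lit 252) (nat_lit 0) (XT.nd (nat_lit 282) (nat_lit 84) (nat_lit 0) (XT.nd (nat_lit 94) (nat_lit 84) (nat_lit 0) (XT.lf (nat_lit 0) (nat_lit 3379361683) (nat_lit 168) (nat_lit 10501436806) (nat_lit 168) (nat_lit 6235572801) (nat_lit 15) (nat_lit 4) (nat_lit 17) (nat_lit 5) (nat_lit 17) (nat_lit 4) (nat_lit 402) (nat_lit 277) (nat_lit 266)) (XT.nd (nat_lit 94) (nat_lit 84) (nat_lit 0) (XT.lf (nat_lit 0) (nat_lit 10170867642) (nat_lit 168) (nat_lit 7510123998) (nat_lit 168) (nat_lit 2920893222) (nat_lit 15) (nat_lit 4) (nat_lit 17) (nat_lit 5) (nat_lit 17)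 (nat_lit 4) (nat_lit 403) (nat_lit 277) (nat_lit 265)) (XT.lf (nat_lit 0) (nat_lit 417123942) (nat_lit 252) (nat_lit 4056417494) (nat_lit 84) (nat_lit 16630318253) (nat_lit 14) (nat_lit 5) (nat_lit 17) (nat_lit 5) (nat_lit 15) (nat_lit 4) (nat_lit 404) (nat_lit 277) (nat_lit 264)))) (XT.nd (nat_lit 188) (nat_lit 0) (nat_lit 0) (XT.nd (nat_lit 94) (nat_lit 0) (nat_lit 0) (XT.lf (nat_lit 0) (nat_lit 2415171678) (nat_lit 84) (nat_lit 1340077076) (nat_lit 168) (nat_lit 17866059655) (nat_lit 13) (nat_lit 5) (nat_lit 14) (nat_lit 5) (nat_lit 15) (nat_lit 4) (nat_lit 405) (nat_lit 277) (nat_lit 263)) (XT.lf (nat_lit 0) (nat_lit 7188837254) (nat_lit 168) (nat_lit 13120389361) (nat_lit 0) (nat_lit 1845235606) (nat_lit 13) (nat_lit 5) (nat_lit 15) (nat_lit 4) (nat_lit 13) (nat_lit 4) (nat_lit 406) (nat_lit 277) (nat_lit 262))) (XT.nd (nat_lit 94) (nat_lit 0) (nat_lit 0) (XT.lf (nat_lit 0) (nat_lit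 10676380876) (nat_lit 168) (nat_lit 6974901167) (nat_lit 0) (nat_lit 5053840210) (nat_lit 13) (nat_lit 5) (nat_lit 15) (nat_lit 4) (nat_lit 13) (nat_lit 4) (nat_lit 407) (nat_lit 277) (nat_lit 261)) (XT.lf (nat_lit 0) (nat_lit 14208045347) (nat_lit 168) (nat_lit 751420663) (nat_lit 0) (nat_lit 8314690102) (nat_lit 13) (nat_lit 5) (nat_lit 15) (nat_lit 4) (nat_lit 13) (nat_lit 4) (nat_lit 408) (nat_lit 277) (nat_lit 260))))) (XT.nd (nat_lit 282) (nat_lit 84) (nat_lit 0) (XT.nd (nat_lit 94) (nat_lit 84) (nat_lit 0) (XT.lf (nat_lit 0) (nat_lit 5666055290) (nat_lit 84) (nat_lit 12175326888) (nat_lit 84) (nat_lit 6019044866) (nat_lit 12) (nat_lit 4) (nat_lit 13) (nat_lit 5) (nat_lit 13) (nat_lit 4) (nat_lit 409) (nat_lit 277) (nat_lit 259)) (XT.nd (nat_lit 94) (nat_lit 84) (nat_lit 0) (XT.lf (nat_lit 0) (nat_lit 12189197287) (nat_lit 84) (nat_lit 9344094503) (nat_lit 84) (nat_lit 2932543766)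 (nat_lit 12) (nat_lit 4) (nat_lit 13) (nat_lit 5) (nat_lit 13) (nat_lit 4) (nat_lit 410) (nat_lit 277) (nat_lit 258)) (XT.lf (nat_lit 0) (nat_lit 184823257) (nat_lit 168) (nat_lit 6284193228) (nat_lit 84) (nat_lit 18622060806) (nat_lit 11) (nat_lit 5) (nat_lit 13) (nat_lit 5) (nat_lit 12) (nat_lit 4) (nat_lit 411) (nat_lit 277) (nat_lit 257)))) (XT.nd (nat_lit 188) (nat_lit 0) (nat_lit 0) (XT.nd (nat_lit 94) (nat_lit 84) (nat_lit 0) (XT.lf (nat_lit 0) (nat_lit 3281509886) (nat_lit 168) (nat_lit 238534617) (nat_lit 84) (nat_lit 22215852050) (nat_lit 11) (nat_lit 5) (nat_lit 13) (nat_lit 5) (nat_lit 12) (nat_lit 4) (nat_lit 412) (nat_lit 277) (nat_lit 256)) (XT.lf (nat_lit 0) (nat_lit 6011107948) (nat_lit 84) (nat_lit 464120954) (nat_lit 168) (nat_lit 19924740087) (nat_lit 10) (nat_lit 5) (nat_lit 11) (nat_lit 5) (nat_lit 12) (nat_lit 4) (nat_lit 413) (nat_lit 277) (nat_lit 255))) (XT.nd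 (nat_lit 94) (nat_lit 0) (nat_lit 0) (XT.lf (nat_lit 0) (nat_lit 9739606191) (nat_lit 168) (nat_lit 14751566217) (nat_lit 0) (nat_lit 2593577384) (nat_lit 10) (nat_lit 5) (nat_lit 12) (nat_lit 4) (nat_lit 10) (nat_lit 4) (nat_lit 414) (nat_lit 277) (nat_lit 254)) (XT.lf (nat_lit 0) (nat_lit 13054683715) (nat_lit 168) (nat_lit 9041966540) (nat_lit 0) (nat_lit 5694871378) (nat_lit 10) (nat_lit 5) (nat_lit 12) (nat_lit 4) (nat_lit 10) (nat_lit 4) (nat_lit 415) (nat_lit 277) (nat_lit 253))))))) (XT.nd (nat_lit 1316) (nat_lit 168) (nat_lit 0) (XT.nd (nat_lit 658) (nat_lit 84) (nat_lit 0) (XT.nd (nat_lit 282) (nat_lit 168) (nat_lit 0) (XT.nd (nat_lit 94) (nat_lit 84) (nat_lit 0) (XT.lf (nat_lit 0) (nat_lit 16418896728) (nat_lit 168) (nat_lit 3250611625) (nat_lit 0) (nat_lit 8851527565) (nat_lit 10) (nat_lit 5) (nat_lit 12) (nat_lit 4) (nat_lit 10) (nat_lit 4) (nat_lit 416) (nat_lit 277) (nat_lit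 252)) (XT.nd (nat_lit 94) (nat_lit 0) (nat_lit 0) (XT.lf (nat_lit 0) (nat_lit 2679852509) (nat_lit 84) (nat_lit 17181092706) (nat_lit 84) (nat_lit 9412212062) (nat_lit 9) (nat_lit 4) (nat_lit 10) (nat_lit 5) (nat_lit 10) (nat_lit 4) (nat_lit 417) (nat_lit 277) (nat_lit 251)) (XT.lf (nat_lit 0) (nat_lit 8768792124) (nat_lit 84) (nat_lit 14622032008) (nat_lit 84) (nat_lit 6657509150) (nat_lit 9) (nat_lit 4) (nat_lit 10) (nat_lit 5) (nat_lit 10) (nat_lit 4) (nat_lit 418) (nat_lit 277) (nat_lit 250)))) (XT.nd (nat_lit 188) (nat_lit 168) (nat_lit 0) (XT.nd (nat_lit 94) (nat_lit 0) (nat_lit 0) (XT.lf (nat_lit 0) (nat_lit 14956834105) (nat_lit 84) (nat_lit 12022914992) (nat_lit 84) (nat_lit 3868448236) (nat_lit 9) (nat_lit 4) (nat_lit 10) (nat_lit 5) (nat_lit 10) (nat_lit 4) (nat_lit 419) (nat_lit 277) (nat_lit 249)) (XT.lf (nat_lit 0) (nat_lit 21249385481) (nat_lit 84) (nat_lit 9381470585) (nat_lit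 84) (nat_lit 1042592278) (nat_lit 9) (nat_lit 4) (nat_lit 10) (nat_lit 5) (nat_lit 10) (nat_lit 4) (nat_lit 420) (nat_lit 277) (nat_lit 248))) (XT.nd (nat_lit 94) (nat_lit 84) (nat_lit 0) (XT.lf (nat_lit 0) (nat_lit 1786963835) (nat_lit 168) (nat_lit 4890382062) (nat_lit 84) (nat_lit 25846935929) (nat_lit 8) (nat_lit 5) (nat_lit 10) (nat_lit 5) (nat_lit 9) (nat_lit 4) (nat_lit 421) (nat_lit 277) (nat_lit 247)) (XT.lf (nat_lit 0) (nat_lit 735987221) (nat_lit 84) (nat_lit 3908215459) (nat_lit 168) (nat_lit 28757239636) (nat_lit 7) (nat_lit 5) (nat_lit 8) (nat_lit 5) (nat_lit 9) (nat_lit 4) (nat_lit 422) (nat_lit 277) (nat_lit 246))))) (XT.nd (nat_lit 282) (nat_lit 84) (nat_lit 0) (XT.nd (nat_lit 94) (nat_lit 0) (nat_lit 0) (XT.lf (nat_lit 0) (nat_lit 6554793055) (nat_lit 84) (nat_lit 1038950772) (nat_lit 168) (nat_lit 26710999754) (nat_lit 7) (nat_lit 5) (nat_lit 8) (nat_lit 5) (nat_lit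 9) (nat_lit 4) (nat_lit 423) (nat_lit 277) (nat_lit 245)) (XT.nd (nat_lit 94) (nat_lit 0) (nat_lit 0) (XT.lf (nat_lit 0) (nat_lit 10608325666) (nat_lit 168) (nat_lit 22780727665) (nat_lit 0) (nat_lit 1846816744) (nat_lit 7) (nat_lit 5) (nat_lit 9) (nat_lit 4) (nat_lit 7) (nat_lit 4) (nat_lit 424) (nat_lit 277) (nat_lit 244)) (XT.lf (nat_lit 0) (nat_lit 13682983960) (nat_lit 168) (nat_lit 17745846132) (nat_lit 0) (nat_lit 4767033267) (nat_lit 7) (nat_lit 5) (nat_lit 9) (nat_lit 4) (nat_lit 7) (nat_lit 4) (nat_lit 425) (nat_lit 277) (nat_lit 243)))) (XT.nd (nat_lit 188) (nat_lit 84) (nat_lit 0) (XT.nd (nat_lit 94) (nat_lit 0) (nat_lit 0) (XT.lf (nat_lit 0) (nat_lit 16810418271) (nat_lit 168) (nat_lit 12630919487) (nat_lit 0) (nat_lit 7744524111) (nat_lit 7) (nat_lit 5) (nat_lit 9) (nat_lit 4) (nat_lit 7) (nat_lit 4) (nat_lit 426) (nat_lit 277) (nat_lit 242)) (XT.lf (nat_lit 0) (nat_lit 19993361310)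 (nat_lit 168) (nat_lit 7431478377) (nat_lit 0) (nat_lit 10781890969) (nat_lit 7) (nat_lit 5) (nat_lit 9) (nat_lit 4) (nat_lit 7) (nat_lit 4) (nat_lit 427) (nat_lit 277) (nat_lit 241))) (XT.nd (nat_lit 94) (nat_lit 84) (nat_lit 0) (XT.lf (nat_lit 0) (nat_lit 23234594289) (nat_lit 168) (nat_lit 2142979599) (nat_lit 0) (nat_lit 13881787849) (nat_lit 7) (nat_lit 5) (nat_lit 9) (nat_lit 4) (nat_lit 7) (nat_lit 4) (nat_lit 428) (nat_lit 277) (nat_lit 240)) (XT.lf (nat_lit 0) (nat_lit 3303664252) (nat_lit 84) (nat_lit 23265041943) (nat_lit 84) (nat_lit 13775015990) (nat_lit 6) (nat_lit 4) (nat_lit 7) (nat_lit 5) (nat_lit 7) (nat_lit 4) (nat_lit 429) (nat_lit 277) (nat_lit 239)))))) (XT.nd (nat_lit 658) (nat_lit 84) (nat_lit 0) (XT.nd (nat_lit 282) (nat_lit 84) (nat_lit 0) (XT.nd (nat_lit 94) (nat_lit 0) (nat_lit 0) (XT.lf (nat_lit 0) (nat_lit 8893297144) (nat_lit 84) (nat_lit 21095502724) (nat_lit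 84) (nat_lit 11472253943) (nat_lit 6) (nat_lit 4) (nat_lit 7) (nat_lit 5) (nat_lit 7) (nat_lit 4) (nat_lit 430) (nat_lit 277) (nat_lit 238)) (XT.nd (nat_lit 94) (nat_lit 0) (nat_lit 0) (XT.lf (nat_lit 0) (nat_lit 14588153726) (nat_lit 84) (nat_lit 18888700410) (nat_lit 84) (nat_lit 9136109077) (nat_lit 6) (nat_lit 4) (nat_lit 7) (nat_lit 5) (nat_lit 7) (nat_lit 4) (nat_lit 431) (nat_lit 277) (nat_lit 237)) (XT.lf (nat_lit 0) (nat_lit 20393210086) (nat_lit 84) (nat_lit 16642706727) (nat_lit 84) (nat_lit 6764540102) (nat_lit 6) (nat_lit 4) (nat_lit 7) (nat_lit 5) (nat_lit 7) (nat_lit 4) (nat_lit 432) (nat_lit 277) (nat_lit 236)))) (XT.nd (nat_lit 188) (nat_lit 84) (nat_lit 0) (XT.nd (nat_lit 94) (nat_lit 0) (nat_lit 0) (XT.lf (nat_lit 0) (nat_lit 26313538603) (nat_lit 84) (nat_lit 14355559156) (nat_lit 84) (nat_lit 4355474771) (nat_lit 6) (nat_lit 4) (nat_lit 7) (nat_lit 5) (nat_lit 7) (nat_lit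 4) (nat_lit 433) (nat_lit 277) (nat_lit 235)) (XT.lf (nat_lit 0) (nat_lit 32354312381) (nat_lit 84) (nat_lit 12025259220) (nat_lit 84) (nat_lit 1906808077) (nat_lit 6) (nat_lit 4) (nat_lit 7) (nat_lit 5) (nat_lit 7) (nat_lit 4) (nat_lit 434) (nat_lit 277) (nat_lit 234))) (XT.nd (nat_lit 94) (nat_lit 0) (nat_lit 0) (XT.lf (nat_lit 0) (nat_lit 572211461) (nat_lit 168) (nat_lit 9071781057) (nat_lit 84) (nat_lit 37942820089) (nat_lit 5) (nat_lit 5) (nat_lit 7) (nat_lit 5) (nat_lit 6) (nat_lit 4) (nat_lit 435) (nat_lit 277) (nat_lit 233)) (XT.lf (nat_lit 0) (nat_lit 3057082386) (nat_lit 168) (nat_lit 4139065100) (nat_lit 84) (nat_lit 41730466032) (nat_lit 5) (nat_lit 5) (nat_lit 7) (nat_lit 5) (nat_lit 6) (nat_lit 4) (nat_lit 436) (nat_lit 277) (nat_lit 232))))) (XT.nd (nat_lit 282) (nat_lit 0) (nat_lit 0) (XT.nd (nat_lit 94) (nat_lit 0) (nat_lit 0) (XT.lf (nat_lit 0) (nat_lit 906407390) (nat_lit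 84) (nat_lit 4689490189) (nat_lit 168) (nat_lit 44711344025) (nat_lit 4) (nat_lit 5) (nat_lit 5) (nat_lit 5) (nat_lit 6) (nat_lit 4) (nat_lit 437) (nat_lit 277) (nat_lit 231)) (XT.nd (nat_lit 94) (nat_lit 0) (nat_lit 0) (XT.lf (nat_lit 0) (nat_lit 6135697364) (nat_lit 84) (nat_lit 2088011695) (nat_lit 168) (nat_lit 43505209170) (nat_lit 4) (nat_lit 5) (nat_lit 5) (nat_lit 5) (nat_lit 6) (nat_lit 4) (nat_lit 438) (nat_lit 277) (nat_lit 230)) (XT.lf (nat_lit 0) (nat_lit 10907701217) (nat_lit 168) (nat_lit 41728571732) (nat_lit 0) (nat_lit 557666040) (nat_lit 4) (nat_lit 5) (nat_lit 6) (nat_lit 4) (nat_lit 4) (nat_lit 4) (nat_lit 439) (nat_lit 277) (nat_lit 229)))) (XT.nd (nat_lit 188) (nat_lit 0) (nat_lit 0) (XT.nd (nat_lit 94) (nat_lit 0) (nat_lit 0) (XT.lf (nat_lit 0) (nat_lit 13665372314) (nat_lit 168) (nat_lit 37818662962) (nat_lit 0) (nat_lit 3219094132) (nat_lit 4) (nat_lit 5) (nat_lit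 6) (nat_lit 4) (nat_lit 4) (nat_lit 4) (nat_lit 440) (nat_lit 277) (nat_lit 228)) (XT.lf (nat_lit 0) (nat_lit 16479060721) (nat_lit 168) (nat_lit 33840006884) (nat_lit 0) (nat_lit 5939342727) (nat_lit 4) (nat_lit 5) (nat_lit 6) (nat_lit 4) (nat_lit 4) (nat_lit 4) (nat_lit 441) (nat_lit 277) (nat_lit 227))) (XT.nd (nat_lit 94) (nat_lit 0) (nat_lit 0) (XT.lf (nat_lit 0) (nat_lit 19351225000) (nat_lit 168) (nat_lit 29789127003) (nat_lit 0) (nat_lit 8720788743) (nat_lit 4) (nat_lit 5) (nat_lit 6) (nat_lit 4) (nat_lit 4) (nat_lit 4) (nat_lit 442) (nat_lit 277) (nat_lit 226)) (XT.lf (nat_lit 0) (nat_lit 22284374809) (nat_lit 168) (nat_lit 25662483715) (nat_lit 0) (nat_lit 11565862568) (nat_lit 4) (nat_lit 5) (nat_lit 6) (nat_lit 4) (nat_lit 4) (nat_lit 4) (nat_lit 443) (nat_lit 277) (nat_lit 225))))))))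
noncomputable def xc16 : XT := (XT.nd (nat_lit 55554) (nat_lit 0) (nat_lit 252) (XT.nd (nat_lit 54238) (nat_lit 0) (nat_lit 1008) (XT.nd (nat_lit 564) (nat_lit 0) (nat_lit 0) (XT.nd (nat_lit 282) (nat_lit 84) (nat_lit 0) (XT.nd (nat_lit 94) (nat_lit 0) (nat_lit 0) (XT.lf (nat_lit 0) (nat_lit 25281073096) (nat_lit 168) (nat_lit 21456471216) (nat_lit 0) (nat_lit 14477050191) (nat_lit 4) (nat_lit 5) (nat_lit 6) (nat_lit 4) (nat_lit 4) (nat_lit 4) (nat_lit 444) (nat_lit 277) (nat_lit 224)) (XT.nd (nat_lit 94) (nat_lit 0) (nat_lit 0) (XT.lf (nat_lit 0) (nat_lit 28343938333) (nat_lit 168) (nat_lit 17167414348) (nat_lit 0) (nat_lit 17456895366) (nat_lit 4) (nat_lit 5) (nat_lit 6) (nat_lit 4) (nat_lit 4) (nat_lit 4) (nat_lit 445) (nat_lit 277) (nat_lit 223)) (XT.lf (nat_lit 0) (nat_lit 31475646812) (nat_lit 168) (nat_lit 12791565392) (nat_lit 0) (nat_lit 20508001843) (nat_lit 4) (nat_lit 5) (nat_lit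 6) (nat_lit 4) (nat_lit 4) (nat_lit 4) (nat_lit 446) (nat_lit 277) (nat_lit 222)))) (XT.nd (nat_lit 94) (nat_lit 84) (nat_lit 0) (XT.lf (nat_lit 0) (nat_lit 34678934976) (nat_lit 168) (nat_lit 8325100791) (nat_lit 0) (nat_lit 23633035636) (nat_lit 4) (nat_lit 5) (nat_lit 6) (nat_lit 4) (nat_lit 4) (nat_lit 4) (nat_lit 447) (nat_lit 277) (nat_lit 221)) (XT.nd (nat_lit 94) (nat_lit 84) (nat_lit 0) (XT.lf (nat_lit 0) (nat_lit 37956601815) (nat_lit 168) (nat_lit 3764117809) (nat_lit 0) (nat_lit 26834727358) (nat_lit 4) (nat_lit 5) (nat_lit 6) (nat_lit 4) (nat_lit 4) (nat_lit 4) (nat_lit 448) (nat_lit 277) (nat_lit 220)) (XT.lf (nat_lit 0) (nat_lit 913188474) (nat_lit 84) (nat_lit 40407100961) (nat_lit 84) (nat_lit 29211464254) (nat_lit 3) (nat_lit 4) (nat_lit 4) (nat_lit 5) (nat_lit 4) (nat_lit 4) (nat_lit 449) (nat_lit 277) (nat_lit 219))))) (XT.nd (nat_lit 282) (nat_lit 0) (nat_lit 0) (XT.nd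 (nat_lit 94) (nat_lit 0) (nat_lit 0) (XT.lf (nat_lit 0) (nat_lit 5770024632) (nat_lit 84) (nat_lit 39032035309) (nat_lit 84) (nat_lit 27764784767) (nat_lit 3) (nat_lit 4) (nat_lit 4) (nat_lit 5) (nat_lit 4) (nat_lit 4) (nat_lit 450) (nat_lit 277) (nat_lit 218)) (XT.nd (nat_lit 94) (nat_lit 0) (nat_lit 0) (XT.lf (nat_lit 0) (nat_lit 10735721175) (nat_lit 84) (nat_lit 37632331363) (nat_lit 84) (nat_lit 26295552826) (nat_lit 3) (nat_lit 4) (nat_lit 4) (nat_lit 5) (nat_lit 4) (nat_lit 4) (nat_lit 451) (nat_lit 277) (nat_lit 217)) (XT.lf (nat_lit 0) (nat_lit 15814617062) (nat_lit 84) (nat_lit 36206766082) (nat_lit 84) (nat_lit 24802484637) (nat_lit 3) (nat_lit 4) (nat_lit 4) (nat_lit 5) (nat_lit 4) (nat_lit 4) (nat_lit 452) (nat_lit 277) (nat_lit 216)))) (XT.nd (nat_lit 188) (nat_lit 0) (nat_lit 0) (XT.nd (nat_lit 94) (nat_lit 0) (nat_lit 0) (XT.lf (nat_lit 0) (nat_lit 21011150162) (nat_lit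 84) (nat_lit 34754093825) (nat_lit 84) (nat_lit 23284275577) (nat_lit 3) (nat_lit 4) (nat_lit 4) (nat_lit 5) (nat_lit 4) (nat_lit 4) (nat_lit 453) (nat_lit 277) (nat_lit 215)) (XT.lf (nat_lit 0) (nat_lit 26329861136) (nat_lit 84) (nat_lit 33273045268) (nat_lit 84) (nat_lit 21739599055) (nat_lit 3) (nat_lit 4) (nat_lit 4) (nat_lit 5) (nat_lit 4) (nat_lit 4) (nat_lit 454) (nat_lit 277) (nat_lit 214))) (XT.nd (nat_lit 53110) (nat_lit 0) (nat_lit 2100) (XT.lf (nat_lit 0) (nat_lit 31775397402) (nat_lit 84) (nat_lit 31762326291) (nat_lit 84) (nat_lit 20167105355) (nat_lit 3) (nat_lit 4) (nat_lit 4) (nat_lit 5) (nat_lit 4) (nat_lit 4) (nat_lit 455) (nat_lit 277) (nat_lit 213)) (XT.lf (nat_lit 0) (nat_lit 7380455267) (nat_lit 168) (nat_lit 70330758) (nat_lit 168) (nat_lit 70330758) (nat_lit 28) (nat_lit 4) (nat_lit 30) (nat_lit 5) (nat_lit 30) (nat_lit 4) (nat_lit 389) (nat_lit 278) (nat_lit 278))))))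 (XT.nd (nat_lit 658) (nat_lit 504) (nat_lit 0) (XT.nd (nat_lit 282) (nat_lit 168) (nat_lit 0) (XT.nd (nat_lit 94) (nat_lit 168) (nat_lit 0) (XT.lf (nat_lit 0) (nat_lit 3664250708) (nat_lit 252) (nat_lit 8521332409) (nat_lit 0) (nat_lit 3175129452) (nat_lit 25) (nat_lit 5) (nat_lit 28) (nat_lit 4) (nat_lit 25) (nat_lit 4) (nat_lit 390) (nat_lit 278) (nat_lit 277)) (XT.nd (nat_lit 94) (nat_lit 168) (nat_lit 0) (XT.lf (nat_lit 0) (nat_lit 7501381417) (nat_lit 252) (nat_lit 1652378787) (nat_lit 0) (nat_lit 6537385156) (nat_lit 25) (nat_lit 5) (nat_lit 28) (nat_lit 4) (nat_lit 25) (nat_lit 4) (nat_lit 391) (nat_lit 278) (nat_lit 276)) (XT.lf (nat_lit 0) (nat_lit 5391565054) (nat_lit 168) (nat_lit 6032952722) (nat_lit 168) (nat_lit 4607912766) (nat_lit 23) (nat_lit 4) (nat_lit 25) (nat_lit 5) (nat_lit 25) (nat_lit 4) (nat_lit 392) (nat_lit 278) (nat_lit 275)))) (XT.nd (nat_lit 188) (nat_lit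 0) (nat_lit 0) (XT.nd (nat_lit 94) (nat_lit 168) (nat_lit 0) (XT.lf (nat_lit 0) (nat_lit 12545748260) (nat_lit 168) (nat_lit 2856410564) (nat_lit 168) (nat_lit 983755371) (nat_lit 23) (nat_lit 4) (nat_lit 25) (nat_lit 5) (nat_lit 25) (nat_lit 4) (nat_lit 393) (nat_lit 278) (nat_lit 274)) (XT.lf (nat_lit 0) (nat_lit 2650594383) (nat_lit 168) (nat_lit 13689460089) (nat_lit 0) (nat_lit 410562254) (nat_lit 21) (nat_lit 5) (nat_lit 23) (nat_lit 4) (nat_lit 21) (nat_lit 4) (nat_lit 394) (nat_lit 278) (nat_lit 273))) (XT.nd (nat_lit 94) (nat_lit 0) (nat_lit 0) (XT.lf (nat_lit 0) (nat_lit 6363769225) (nat_lit 168) (nat_lit 7048464930) (nat_lit 0) (nat_lit 3714105744) (nat_lit 21) (nat_lit 5) (nat_lit 23) (nat_lit 4) (nat_lit 21) (nat_lit 4) (nat_lit 395) (nat_lit 278) (nat_lit 272)) (XT.lf (nat_lit 0) (nat_lit 10112731273) (nat_lit 168) (nat_lit 337561354) (nat_lit 0) (nat_lit 7065367452) (nat_lit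 21) (nat_lit 5) (nat_lit 23) (nat_lit 4) (nat_lit 21) (nat_lit 4) (nat_lit 396) (nat_lit 278) (nat_lit 271))))) (XT.nd (nat_lit 282) (nat_lit 168) (nat_lit 0) (XT.nd (nat_lit 94) (nat_lit 168) (nat_lit 0) (XT.lf (nat_lit 0) (nat_lit 6577464560) (nat_lit 168) (nat_lit 7386518374) (nat_lit 168) (nat_lit 3953037717) (nat_lit 19) (nat_lit 4) (nat_lit 21) (nat_lit 5) (nat_lit 21) (nat_lit 4) (nat_lit 397) (nat_lit 278) (nat_lit 270)) (XT.nd (nat_lit 94) (nat_lit 168) (nat_lit 0) (XT.lf (nat_lit 0) (nat_lit 13582537064) (nat_lit 168) (nat_lit 4279180883) (nat_lit 168) (nat_lit 470829512) (nat_lit 19) (nat_lit 4) (nat_lit 21) (nat_lit 5) (nat_lit 21) (nat_lit 4) (nat_lit 398) (nat_lit 278) (nat_lit 269)) (XT.lf (nat_lit 0) (nat_lit 1922618965) (nat_lit 84) (nat_lit 1079805905) (nat_lit 168) (nat_lit 15758845930) (nat_lit 17) (nat_lit 5) (nat_lit 18) (nat_lit 5) (nat_lit 19) (nat_lit 4) (nat_lit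 399) (nat_lit 278) (nat_lit 268)))) (XT.nd (nat_lit 188) (nat_lit 168) (nat_lit 0) (XT.nd (nat_lit 94) (nat_lit 0) (nat_lit 0) (XT.lf (nat_lit 0) (nat_lit 6569471416) (nat_lit 168) (nat_lit 10457690579) (nat_lit 0) (nat_lit 2175631491) (nat_lit 17) (nat_lit 5) (nat_lit 19) (nat_lit 4) (nat_lit 17) (nat_lit 4) (nat_lit 400) (nat_lit 278) (nat_lit 267)) (XT.lf (nat_lit 0) (nat_lit 10185598967) (nat_lit 168) (nat_lit 4015057326) (nat_lit 0) (nat_lit 5458691268) (nat_lit 17) (nat_lit 5) (nat_lit 19) (nat_lit 4) (nat_lit 17) (nat_lit 4) (nat_lit 401) (nat_lit 278) (nat_lit 266))) (XT.nd (nat_lit 94) (nat_lit 0) (nat_lit 0) (XT.lf (nat_lit 0) (nat_lit 2555116693) (nat_lit 168) (nat_lit 11313032143) (nat_lit 168) (nat_lit 6262757672) (nat_lit 15) (nat_lit 4) (nat_lit 17) (nat_lit 5) (nat_lit 17) (nat_lit 4) (nat_lit 402) (nat_lit 278) (nat_lit 265)) (XT.lf (nat_lit 0) (nat_lit 9290236223) (nat_lit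 168) (nat_lit 8345700500) (nat_lit 168) (nat_lit 2981477707) (nat_lit 15) (nat_lit 4) (nat_lit 17) (nat_lit 5) (nat_lit 17) (nat_lit 4) (nat_lit 403) (nat_lit 278) (nat_lit 264))))))) (XT.nd (nat_lit 1316) (nat_lit 252) (nat_lit 0) (XT.nd (nat_lit 658) (nat_lit 252) (nat_lit 0) (XT.nd (nat_lit 282) (nat_lit 84) (nat_lit 0) (XT.nd (nat_lit 94) (nat_lit 84) (nat_lit 0) (XT.lf (nat_lit 0) (nat_lit 325927632) (nat_lit 252) (nat_lit 5007393893) (nat_lit 84) (nat_lit 15787059943) (nat_lit 14) (nat_lit 5) (nat_lit 17) (nat_lit 5) (nat_lit 15) (nat_lit 4) (nat_lit 404) (nat_lit 278) (nat_lit 263)) (XT.nd (nat_lit 94) (nat_lit 0) (nat_lit 0) (XT.lf (nat_lit 0) (nat_lit 1390414311) (nat_lit 84) (nat_lit 2232919532) (nat_lit 168) (nat_lit 18015738214) (nat_lit 13) (nat_lit 5) (nat_lit 14) (nat_lit 5) (nat_lit 15) (nat_lit 4) (nat_lit 405) (nat_lit 278) (nat_lit 262)) (XT.lf (nat_lit 0) (nat_lit 7017639981)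 (nat_lit 168) (nat_lit 14208299999) (nat_lit 0) (nat_lit 947484078) (nat_lit 13) (nat_lit 5) (nat_lit 15) (nat_lit 4) (nat_lit 13) (nat_lit 4) (nat_lit 406) (nat_lit 278) (nat_lit 261)))) (XT.nd (nat_lit 188) (nat_lit 84) (nat_lit 0) (XT.nd (nat_lit 94) (nat_lit 0) (nat_lit 0) (XT.lf (nat_lit 0) (nat_lit 10475377958) (nat_lit 168) (nat_lit 8115211970) (nat_lit 0) (nat_lit 4134407475) (nat_lit 13) (nat_lit 5) (nat_lit 15) (nat_lit 4) (nat_lit 13) (nat_lit 4) (nat_lit 407) (nat_lit 278) (nat_lit 260)) (XT.lf (nat_lit 0) (nat_lit 13978104910) (nat_lit 168) (nat_lit 1942605413) (nat_lit 0) (nat_lit 7374207651) (nat_lit 13) (nat_lit 5) (nat_lit 15) (nat_lit 4) (nat_lit 13) (nat_lit 4) (nat_lit 408) (nat_lit 278) (nat_lit 259))) (XT.nd (nat_lit 94) (nat_lit 0) (nat_lit 0) (XT.lf (nat_lit 0) (nat_lit 4400788444) (nat_lit 84) (nat_lit 13170396100) (nat_lit 84) (nat_lit 6311230125) (nat_lit 12)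 (nat_lit 4) (nat_lit 13) (nat_lit 5) (nat_lit 13) (nat_lit 4) (nat_lit 409) (nat_lit 278) (nat_lit 258)) (XT.lf (nat_lit 0) (nat_lit 10875022496) (nat_lit 84) (nat_lit 10360325139) (nat_lit 84) (nat_lit 3253325460) (nat_lit 12) (nat_lit 4) (nat_lit 13) (nat_lit 5) (nat_lit 13) (nat_lit 4) (nat_lit 410) (nat_lit 278) (nat_lit 257))))) (XT.nd (nat_lit 282) (nat_lit 84) (nat_lit 0) (XT.nd (nat_lit 94) (nat_lit 168) (nat_lit 0) (XT.lf (nat_lit 0) (nat_lit 17447092184) (nat_lit 84) (nat_lit 7507658546) (nat_lit 84) (nat_lit 160043620) (nat_lit 12) (nat_lit 4) (nat_lit 13) (nat_lit 5) (nat_lit 13) (nat_lit 4) (nat_lit 411) (nat_lit 278) (nat_lit 256)) (XT.nd (nat_lit 94) (nat_lit 84) (nat_lit 0) (XT.lf (nat_lit 0) (nat_lit 2913337139) (nat_lit 168) (nat_lit 1667147567) (nat_lit 84) (nat_lit 21179983960) (nat_lit 11) (nat_lit 5) (nat_lit 13) (nat_lit 5) (nat_lit 12) (nat_lit 4) (nat_lit 412)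 (nat_lit 278) (nat_lit 255)) (XT.lf (nat_lit 0) (nat_lit 4507877629) (nat_lit 84) (nat_lit 1559069433) (nat_lit 168) (nat_lit 20358812877) (nat_lit 10) (nat_lit 5) (nat_lit 11) (nat_lit 5) (nat_lit 12) (nat_lit 4) (nat_lit 413) (nat_lit 278) (nat_lit 254)))) (XT.nd (nat_lit 188) (nat_lit 84) (nat_lit 0) (XT.nd (nat_lit 94) (nat_lit 0) (nat_lit 0) (XT.lf (nat_lit 0) (nat_lit 9295268820) (nat_lit 168) (nat_lit 16315490120) (nat_lit 0) (nat_lit 1500878582) (nat_lit 10) (nat_lit 5) (nat_lit 12) (nat_lit 4) (nat_lit 10) (nat_lit 4) (nat_lit 414) (nat_lit 278) (nat_lit 253)) (XT.lf (nat_lit 0) (nat_lit 12585559724) (nat_lit 168) (nat_lit 10649995247) (nat_lit 0) (nat_lit 4583612661) (nat_lit 10) (nat_lit 5) (nat_lit 12) (nat_lit 4) (nat_lit 10) (nat_lit 4) (nat_lit 415) (nat_lit 278) (nat_lit 252))) (XT.nd (nat_lit 94) (nat_lit 84) (nat_lit 0) (XT.lf (nat_lit 0) (nat_lit 15925708059) (nat_lit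 168) (nat_lit 4901460530) (nat_lit 0) (nat_lit 7722249515) (nat_lit 10) (nat_lit 5) (nat_lit 12) (nat_lit 4) (nat_lit 10) (nat_lit 4) (nat_lit 416) (nat_lit 278) (nat_lit 251)) (XT.lf (nat_lit 0) (nat_lit 953748082) (nat_lit 84) (nat_lit 18374052327) (nat_lit 84) (nat_lit 9974951568) (nat_lit 9) (nat_lit 4) (nat_lit 10) (nat_lit 5) (nat_lit 10) (nat_lit 4) (nat_lit 417) (nat_lit 278) (nat_lit 250)))))) (XT.nd (nat_lit 658) (nat_lit 84) (nat_lit 0) (XT.nd (nat_lit 282) (nat_lit 168) (nat_lit 0) (XT.nd (nat_lit 94) (nat_lit 0) (nat_lit 0) (XT.lf (nat_lit 0) (nat_lit 7001522267) (nat_lit 84) (nat_lit 15833078084) (nat_lit 84) (nat_lit 7244033427) (nat_lit 9) (nat_lit 4) (nat_lit 10) (nat_lit 5) (nat_lit 10) (nat_lit 4) (nat_lit 418) (nat_lit 278) (nat_lit 249)) (XT.nd (nat_lit 94) (nat_lit 0) (nat_lit 0) (XT.lf (nat_lit 0) (nat_lit 13149597812) (nat_lit 84) (nat_lit 13251520732) (nat_lit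 84) (nat_lit 4478064525) (nat_lit 9) (nat_lit 4) (nat_lit 10) (nat_lit 5) (nat_lit 10) (nat_lit 4) (nat_lit 419) (nat_lit 278) (nat_lit 248)) (XT.lf (nat_lit 0) (nat_lit 19403346822) (nat_lit 84) (nat_lit 10627124543) (nat_lit 84) (nat_lit 1674627995) (nat_lit 9) (nat_lit 4) (nat_lit 10) (nat_lit 5) (nat_lit 10) (nat_lit 4) (nat_lit 420) (nat_lit 278) (nat_lit 247)))) (XT.nd (nat_lit 188) (nat_lit 84) (nat_lit 0) (XT.nd (nat_lit 94) (nat_lit 0) (nat_lit 0) (XT.lf (nat_lit 0) (nat_lit 1145919718) (nat_lit 168) (nat_lit 6800105093) (nat_lit 84) (nat_lit 24610742478) (nat_lit 8) (nat_lit 5) (nat_lit 10) (nat_lit 5) (nat_lit 9) (nat_lit 4) (nat_lit 421) (nat_lit 278) (nat_lit 246)) (XT.lf (nat_lit 0) (nat_lit 3975363714) (nat_lit 168) (nat_lit 1225096475) (nat_lit 84) (nat_lit 28234313019) (nat_lit 8) (nat_lit 5) (nat_lit 10) (nat_lit 5) (nat_lit 9) (nat_lit 4) (nat_lit 422) (nat_lit 278)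 (nat_lit 245))) (XT.nd (nat_lit 94) (nat_lit 0) (nat_lit 0) (XT.lf (nat_lit 0) (nat_lit 4532691366) (nat_lit 84) (nat_lit 2359733981) (nat_lit 168) (nat_lit 27446634754) (nat_lit 7) (nat_lit 5) (nat_lit 8) (nat_lit 5) (nat_lit 9) (nat_lit 4) (nat_lit 423) (nat_lit 278) (nat_lit 244)) (XT.lf (nat_lit 0) (nat_lit 9874287541) (nat_lit 168) (nat_lit 24860475005) (nat_lit 0) (nat_lit 536416557) (nat_lit 7) (nat_lit 5) (nat_lit 9) (nat_lit 4) (nat_lit 7) (nat_lit 4) (nat_lit 424) (nat_lit 278) (nat_lit 243))))) (XT.nd (nat_lit 282) (nat_lit 84) (nat_lit 0) (XT.nd (nat_lit 94) (nat_lit 0) (nat_lit 0) (XT.lf (nat_lit 0) (nat_lit 12929505573) (nat_lit 168) (nat_lit 19860569499) (nat_lit 0) (nat_lit 3441691122) (nat_lit 7) (nat_lit 5) (nat_lit 9) (nat_lit 4) (nat_lit 7) (nat_lit 4) (nat_lit 425) (nat_lit 278) (nat_lit 242)) (XT.nd (nat_lit 94) (nat_lit 0) (nat_lit 0) (XT.lf (nat_lit 0) (nat_lit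 16038065844) (nat_lit 168) (nat_lit 14779600162) (nat_lit 0) (nat_lit 6404675212) (nat_lit 7) (nat_lit 5) (nat_lit 9) (nat_lit 4) (nat_lit 7) (nat_lit 4) (nat_lit 426) (nat_lit 278) (nat_lit 241)) (XT.lf (nat_lit 0) (nat_lit 19202684572) (nat_lit 168) (nat_lit 9613127310) (nat_lit 0) (nat_lit 9427957841) (nat_lit 7) (nat_lit 5) (nat_lit 9) (nat_lit 4) (nat_lit 7) (nat_lit 4) (nat_lit 427) (nat_lit 278) (nat_lit 240)))) (XT.nd (nat_lit 188) (nat_lit 0) (nat_lit 0) (XT.nd (nat_lit 94) (nat_lit 84) (nat_lit 0) (XT.lf (nat_lit 0) (nat_lit 22426126958) (nat_lit 168) (nat_lit 4356636551) (nat_lit 0) (nat_lit 12514180714) (nat_lit 7) (nat_lit 5) (nat_lit 9) (nat_lit 4) (nat_lit 7) (nat_lit 4) (nat_lit 428) (nat_lit 278) (nat_lit 239)) (XT.lf (nat_lit 0) (nat_lit 1014256971) (nat_lit 84) (nat_lit 24706702289) (nat_lit 84) (nat_lit 14661533217) (nat_lit 6) (nat_lit 4) (nat_lit 7) (nat_lit 5) (nat_lit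 7) (nat_lit 4) (nat_lit 429) (nat_lit 278) (nat_lit 238))) (XT.nd (nat_lit 94) (nat_lit 0) (nat_lit 0) (XT.lf (nat_lit 0) (nat_lit 6573118781) (nat_lit 84) (nat_lit 22550869022) (nat_lit 84) (nat_lit 12376357398) (nat_lit 6) (nat_lit 4) (nat_lit 7) (nat_lit 5) (nat_lit 7) (nat_lit 4) (nat_lit 430) (nat_lit 278) (nat_lit 237)) (XT.lf (nat_lit 0) (nat_lit 12238100526) (nat_lit 84) (nat_lit 20357373457) (nat_lit 84) (nat_lit 10057286540) (nat_lit 6) (nat_lit 4) (nat_lit 7) (nat_lit 5) (nat_lit 7) (nat_lit 4) (nat_lit 431) (nat_lit 278) (nat_lit 236))))))))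
noncomputable def xc17 : XT := (XT.nd (nat_lit 55272) (nat_lit 0) (nat_lit 588) (XT.nd (nat_lit 1222) (nat_lit 84) (nat_lit 0) (XT.nd (nat_lit 564) (nat_lit 84) (nat_lit 0) (XT.nd (nat_lit 282) (nat_lit 84) (nat_lit 0) (XT.nd (nat_lit 94) (nat_lit 0) (nat_lit 0) (XT.lf (nat_lit 0) (nat_lit 18014152189) (nat_lit 84) (nat_lit 18124298948) (nat_lit 84) (nat_lit 7702294271) (nat_lit 6) (nat_lit 4) (nat_lit 7) (nat_lit 5) (nat_lit 7) (nat_lit 4) (nat_lit 432) (nat_lit 278) (nat_lit 235)) (XT.nd (nat_lit 94) (nat_lit 0) (nat_lit 0) (XT.lf (nat_lit 0) (nat_lit 23906320808) (nat_lit 84) (nat_lit 15849694264) (nat_lit 84) (nat_lit 5309322830) (nat_lit 6) (nat_lit 4) (nat_lit 7) (nat_lit 5) (nat_lit 7) (nat_lit 4) (nat_lit 433) (nat_lit 278) (nat_lit 234)) (XT.lf (nat_lit 0) (nat_lit 29919754877) (nat_lit 84) (nat_lit 13531571888) (nat_lit 84) (nat_lit 2876281272) (nat_lit 6) (nat_lit 4) (nat_lit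 7) (nat_lit 5) (nat_lit 7) (nat_lit 4) (nat_lit 434) (nat_lit 278) (nat_lit 233)))) (XT.nd (nat_lit 94) (nat_lit 84) (nat_lit 0) (XT.lf (nat_lit 0) (nat_lit 36059708855) (nat_lit 84) (nat_lit 11167906275) (nat_lit 84) (nat_lit 401043637) (nat_lit 6) (nat_lit 4) (nat_lit 7) (nat_lit 5) (nat_lit 7) (nat_lit 4) (nat_lit 435) (nat_lit 278) (nat_lit 232)) (XT.nd (nat_lit 94) (nat_lit 0) (nat_lit 0) (XT.lf (nat_lit 0) (nat_lit 2077212304) (nat_lit 168) (nat_lit 6658444010) (nat_lit 84) (nat_lit 40233359674) (nat_lit 5) (nat_lit 5) (nat_lit 7) (nat_lit 5) (nat_lit 6) (nat_lit 4) (nat_lit 436) (nat_lit 278) (nat_lit 231)) (XT.lf (nat_lit 0) (nat_lit 4593294371) (nat_lit 168) (nat_lit 1655964744) (nat_lit 84) (nat_lit 44101074170) (nat_lit 5) (nat_lit 5) (nat_lit 7) (nat_lit 5) (nat_lit 6) (nat_lit 4) (nat_lit 437) (nat_lit 278) (nat_lit 230))))) (XT.nd (nat_lit 282) (nat_lit 0) (nat_lit 0) (XT.nd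 (nat_lit 94) (nat_lit 0) (nat_lit 0) (XT.lf (nat_lit 0) (nat_lit 3515310428) (nat_lit 84) (nat_lit 3675707774) (nat_lit 168) (nat_lit 44581901346) (nat_lit 4) (nat_lit 5) (nat_lit 5) (nat_lit 5) (nat_lit 6) (nat_lit 4) (nat_lit 438) (nat_lit 278) (nat_lit 229)) (XT.nd (nat_lit 94) (nat_lit 0) (nat_lit 0) (XT.lf (nat_lit 0) (nat_lit 8826283640) (nat_lit 84) (nat_lit 1029810182) (nat_lit 168) (nat_lit 43382420786) (nat_lit 4) (nat_lit 5) (nat_lit 5) (nat_lit 5) (nat_lit 6) (nat_lit 4) (nat_lit 439) (nat_lit 278) (nat_lit 228)) (XT.lf (nat_lit 0) (nat_lit 12590706728) (nat_lit 168) (nat_lit 40516339266) (nat_lit 0) (nat_lit 1641357383) (nat_lit 4) (nat_lit 5) (nat_lit 6) (nat_lit 4) (nat_lit 4) (nat_lit 4) (nat_lit 440) (nat_lit 278) (nat_lit 227)))) (XT.nd (nat_lit 188) (nat_lit 0) (nat_lit 0) (XT.nd (nat_lit 94) (nat_lit 0) (nat_lit 0) (XT.lf (nat_lit 0) (nat_lit 15391619381) (nat_lit 168)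 (nat_lit 36560902833) (nat_lit 0) (nat_lit 4351551773) (nat_lit 4) (nat_lit 5) (nat_lit 6) (nat_lit 4) (nat_lit 4) (nat_lit 4) (nat_lit 441) (nat_lit 278) (nat_lit 226)) (XT.lf (nat_lit 0) (nat_lit 18251380016) (nat_lit 168) (nat_lit 32532566297) (nat_lit 0) (nat_lit 7123236424) (nat_lit 4) (nat_lit 5) (nat_lit 6) (nat_lit 4) (nat_lit 4) (nat_lit 4) (nat_lit 442) (nat_lit 278) (nat_lit 225))) (XT.nd (nat_lit 94) (nat_lit 0) (nat_lit 0) (XT.lf (nat_lit 0) (nat_lit 21172487452) (nat_lit 168) (nat_lit 28427809751) (nat_lit 0) (nat_lit 9958833196) (nat_lit 4) (nat_lit 5) (nat_lit 6) (nat_lit 4) (nat_lit 4) (nat_lit 4) (nat_lit 443) (nat_lit 278) (nat_lit 224)) (XT.lf (nat_lit 0) (nat_lit 24157494114) (nat_lit 168) (nat_lit 24243046516) (nat_lit 0) (nat_lit 12860819796) (nat_lit 4) (nat_lit 5) (nat_lit 6) (nat_lit 4) (nat_lit 4) (nat_lit 4) (nat_lit 444) (nat_lit 278) (nat_lit 223)))))) (XT.nd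 (nat_lit 658) (nat_lit 0) (nat_lit 0) (XT.nd (nat_lit 282) (nat_lit 84) (nat_lit 0) (XT.nd (nat_lit 94) (nat_lit 0) (nat_lit 0) (XT.lf (nat_lit 0) (nat_lit 27209008260) (nat_lit 168) (nat_lit 19974620002) (nat_lit 0) (nat_lit 15831731940) (nat_lit 4) (nat_lit 5) (nat_lit 6) (nat_lit 4) (nat_lit 4) (nat_lit 4) (nat_lit 445) (nat_lit 278) (nat_lit 222)) (XT.nd (nat_lit 94) (nat_lit 0) (nat_lit 0) (XT.lf (nat_lit 0) (nat_lit 30329696261) (nat_lit 168) (nat_lit 15618800516) (nat_lit 0) (nat_lit 18874165570) (nat_lit 4) (nat_lit 5) (nat_lit 6) (nat_lit 4) (nat_lit 4) (nat_lit 4) (nat_lit 446) (nat_lit 278) (nat_lit 221)) (XT.lf (nat_lit 0) (nat_lit 33522284933) (nat_lit 168) (nat_lit 11171782002) (nat_lit 0) (nat_lit 21990779124) (nat_lit 4) (nat_lit 5) (nat_lit 6) (nat_lit 4) (nat_lit 4) (nat_lit 4) (nat_lit 447) (nat_lit 278) (nat_lit 220)))) (XT.nd (nat_lit 188) (nat_lit 84) (nat_lit 0)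 (XT.nd (nat_lit 94) (nat_lit 0) (nat_lit 0) (XT.lf (nat_lit 0) (nat_lit 36789563915) (nat_lit 168) (nat_lit 6629678717) (nat_lit 0) (nat_lit 25184295857) (nat_lit 4) (nat_lit 5) (nat_lit 6) (nat_lit 4) (nat_lit 4) (nat_lit 4) (nat_lit 448) (nat_lit 278) (nat_lit 219)) (XT.lf (nat_lit 0) (nat_lit 40134388112) (nat_lit 168) (nat_lit 1988521830) (nat_lit 0) (nat_lit 28457506219) (nat_lit 4) (nat_lit 5) (nat_lit 6) (nat_lit 4) (nat_lit 4) (nat_lit 4) (nat_lit 449) (nat_lit 278) (nat_lit 218))) (XT.nd (nat_lit 94) (nat_lit 0) (nat_lit 0) (XT.lf (nat_lit 0) (nat_lit 2810588745) (nat_lit 84) (nat_lit 40776108539) (nat_lit 84) (nat_lit 29029698650) (nat_lit 3) (nat_lit 4) (nat_lit 4) (nat_lit 5) (nat_lit 4) (nat_lit 4) (nat_lit 450) (nat_lit 278) (nat_lit 217)) (XT.lf (nat_lit 0) (nat_lit 7758663833) (nat_lit 84) (nat_lit 39384350299) (nat_lit 84) (nat_lit 27570437503) (nat_lit 3) (nat_lit 4)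 (nat_lit 4) (nat_lit 5) (nat_lit 4) (nat_lit 4) (nat_lit 451) (nat_lit 278) (nat_lit 216))))) (XT.nd (nat_lit 282) (nat_lit 0) (nat_lit 0) (XT.nd (nat_lit 94) (nat_lit 0) (nat_lit 0) (XT.lf (nat_lit 0) (nat_lit 12820451512) (nat_lit 84) (nat_lit 37966499295) (nat_lit 84) (nat_lit 26087049695) (nat_lit 3) (nat_lit 4) (nat_lit 4) (nat_lit 5) (nat_lit 4) (nat_lit 4) (nat_lit 452) (nat_lit 278) (nat_lit 215)) (XT.nd (nat_lit 94) (nat_lit 0) (nat_lit 0) (XT.lf (nat_lit 0) (nat_lit 18000374701) (nat_lit 84) (nat_lit 36521316628) (nat_lit 84) (nat_lit 24578239064) (nat_lit 3) (nat_lit 4) (nat_lit 4) (nat_lit 5) (nat_lit 4) (nat_lit 4) (nat_lit 453) (nat_lit 278) (nat_lit 214)) (XT.lf (nat_lit 0) (nat_lit 23302959548) (nat_lit 84) (nat_lit 35047539518) (nat_lit 84) (nat_lit 23042687230) (nat_lit 3) (nat_lit 4) (nat_lit 4) (nat_lit 5) (nat_lit 4) (nat_lit 4) (nat_lit 454) (nat_lit 278) (nat_lit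 213)))) (XT.nd (nat_lit 52922) (nat_lit 0) (nat_lit 2100) (XT.nd (nat_lit 94) (nat_lit 0) (nat_lit 0) (XT.lf (nat_lit 0) (nat_lit 28732839379) (nat_lit 84) (nat_lit 33543880197) (nat_lit 84) (nat_lit 21479052450) (nat_lit 3) (nat_lit 4) (nat_lit 4) (nat_lit 5) (nat_lit 4) (nat_lit 4) (nat_lit 455) (nat_lit 278) (nat_lit 212)) (XT.lf (nat_lit 0) (nat_lit 34294758749) (nat_lit 84) (nat_lit 32009024789) (nat_lit 84) (nat_lit 19885968441) (nat_lit 3) (nat_lit 4) (nat_lit 4) (nat_lit 5) (nat_lit 4) (nat_lit 4) (nat_lit 456) (nat_lit 278) (nat_lit 211))) (XT.nd (nat_lit 94) (nat_lit 0) (nat_lit 0) (XT.lf (nat_lit 0) (nat_lit 157486837) (nat_lit 168) (nat_lit 3529110670) (nat_lit 168) (nat_lit 3529110670) (nat_lit 28) (nat_lit 4) (nat_lit 30) (nat_lit 5) (nat_lit 30) (nat_lit 4) (nat_lit 387) (nat_lit 279) (nat_lit 279)) (XT.lf (nat_lit 0) (nat_lit 7465687595) (nat_lit 168) (nat_lit 3892445929)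 (nat_lit 168) (nat_lit 3373537189) (nat_lit 28) (nat_lit 4) (nat_lit 30) (nat_lit 5) (nat_lit 30) (nat_lit 4) (nat_lit 388) (nat_lit 279) (nat_lit 278))))))) (XT.nd (nat_lit 1316) (nat_lit 420) (nat_lit 0) (XT.nd (nat_lit 658) (nat_lit 504) (nat_lit 0) (XT.nd (nat_lit 282) (nat_lit 336) (nat_lit 0) (XT.nd (nat_lit 94) (nat_lit 168) (nat_lit 0) (XT.lf (nat_lit 0) (nat_lit 329514231) (nat_lit 252) (nat_lit 353789742) (nat_lit 84) (nat_lit 14360095652) (nat_lit 27) (nat_lit 5) (nat_lit 30) (nat_lit 5) (nat_lit 28) (nat_lit 4) (nat_lit 389) (nat_lit 279) (nat_lit 277)) (XT.nd (nat_lit 94) (nat_lit 0) (nat_lit 0) (XT.lf (nat_lit 0) (nat_lit 4084682249) (nat_lit 252) (nat_lit 8661708271) (nat_lit 0) (nat_lit 2616891095) (nat_lit 25) (nat_lit 5) (nat_lit 28) (nat_lit 4) (nat_lit 25) (nat_lit 4) (nat_lit 390) (nat_lit 279) (nat_lit 276)) (XT.lf (nat_lit 0) (nat_lit 7881943356) (nat_lit 252) (nat_lit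 1859891221) (nat_lit 0) (nat_lit 5953108507) (nat_lit 25) (nat_lit 5) (nat_lit 28) (nat_lit 4) (nat_lit 25) (nat_lit 4) (nat_lit 391) (nat_lit 279) (nat_lit 275)))) (XT.nd (nat_lit 188) (nat_lit 168) (nat_lit 0) (XT.nd (nat_lit 94) (nat_lit 0) (nat_lit 0) (XT.lf (nat_lit 0) (nat_lit 5113444343) (nat_lit 168) (nat_lit 6650253554) (nat_lit 168) (nat_lit 4273803468) (nat_lit 23) (nat_lit 4) (nat_lit 25) (nat_lit 5) (nat_lit 25) (nat_lit 4) (nat_lit 392) (nat_lit 279) (nat_lit 274)) (XT.lf (nat_lit 0) (nat_lit 12203085441) (nat_lit 168) (nat_lit 3500052162) (nat_lit 168) (nat_lit 689024176) (nat_lit 23) (nat_lit 4) (nat_lit 25) (nat_lit 5) (nat_lit 25) (nat_lit 4) (nat_lit 393) (nat_lit 279) (nat_lit 273))) (XT.nd (nat_lit 94) (nat_lit 0) (nat_lit 0) (XT.lf (nat_lit 0) (nat_lit 2641858835) (nat_lit 84) (nat_lit 252134816) (nat_lit 168) (nat_lit 13864182042) (nat_lit 21) (nat_lit 5) (nat_lit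 22) (nat_lit 5) (nat_lit 23) (nat_lit 4) (nat_lit 394) (nat_lit 279) (nat_lit 272)) (XT.lf (nat_lit 0) (nat_lit 6567499480) (nat_lit 168) (nat_lit 7536603167) (nat_lit 0) (nat_lit 3031014403) (nat_lit 21) (nat_lit 5) (nat_lit 23) (nat_lit 4) (nat_lit 21) (nat_lit 4) (nat_lit 395) (nat_lit 279) (nat_lit 271))))) (XT.nd (nat_lit 282) (nat_lit 336) (nat_lit 0) (XT.nd (nat_lit 94) (nat_lit 168) (nat_lit 0) (XT.lf (nat_lit 0) (nat_lit 10280301005) (nat_lit 168) (nat_lit 887549243) (nat_lit 0) (nat_lit 6357699092) (nat_lit 21) (nat_lit 5) (nat_lit 23) (nat_lit 4) (nat_lit 21) (nat_lit 4) (nat_lit 396) (nat_lit 279) (nat_lit 270)) (XT.nd (nat_lit 94) (nat_lit 0) (nat_lit 0) (XT.lf (nat_lit 0) (nat_lit 5955287550) (nat_lit 168) (nat_lit 8135177065) (nat_lit 168) (nat_lit 3837704438) (nat_lit 19) (nat_lit 4) (nat_lit 21) (nat_lit 5) (nat_lit 21) (nat_lit 4) (nat_lit 397) (nat_lit 279) (nat_lit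 269)) (XT.lf (nat_lit 0) (nat_lit 12900900557) (nat_lit 168) (nat_lit 5052642750) (nat_lit 168) (nat_lit 391217973) (nat_lit 19) (nat_lit 4) (nat_lit 21) (nat_lit 5) (nat_lit 21) (nat_lit 4) (nat_lit 398) (nat_lit 279) (nat_lit 268)))) (XT.nd (nat_lit 188) (nat_lit 168) (nat_lit 0) (XT.nd (nat_lit 94) (nat_lit 0) (nat_lit 0) (XT.lf (nat_lit 0) (nat_lit 1154587629) (nat_lit 84) (nat_lit 1884507941) (nat_lit 168) (nat_lit 15735631963) (nat_lit 17) (nat_lit 5) (nat_lit 18) (nat_lit 5) (nat_lit 19) (nat_lit 4) (nat_lit 399) (nat_lit 279) (nat_lit 267)) (XT.lf (nat_lit 0) (nat_lit 6564603114) (nat_lit 168) (nat_lit 11290096411) (nat_lit 0) (nat_lit 1362820409) (nat_lit 17) (nat_lit 5) (nat_lit 19) (nat_lit 4) (nat_lit 17) (nat_lit 4) (nat_lit 400) (nat_lit 279) (nat_lit 266))) (XT.nd (nat_lit 94) (nat_lit 168) (nat_lit 0) (XT.lf (nat_lit 0) (nat_lit 10147911526) (nat_lit 168) (nat_lit 4904407867)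 (nat_lit 0) (nat_lit 4622762049) (nat_lit 17) (nat_lit 5) (nat_lit 19) (nat_lit 4) (nat_lit 17) (nat_lit 4) (nat_lit 401) (nat_lit 279) (nat_lit 265)) (XT.lf (nat_lit 0) (nat_lit 1591679904) (nat_lit 168) (nat_lit 12197657104) (nat_lit 168) (nat_lit 6358559306) (nat_lit 15) (nat_lit 4) (nat_lit 17) (nat_lit 5) (nat_lit 17) (nat_lit 4) (nat_lit 402) (nat_lit 279) (nat_lit 264)))))) (XT.nd (nat_lit 658) (nat_lit 168) (nat_lit 0) (XT.nd (nat_lit 282) (nat_lit 84) (nat_lit 0) (XT.nd (nat_lit 94) (nat_lit 168) (nat_lit 0) (XT.lf (nat_lit 0) (nat_lit 8272055329) (nat_lit 168) (nat_lit 9253608145) (nat_lit 168) (nat_lit 3109706151) (nat_lit 15) (nat_lit 4) (nat_lit 17) (nat_lit 5) (nat_lit 17) (nat_lit 4) (nat_lit 403) (nat_lit 279) (nat_lit 263)) (XT.nd (nat_lit 94) (nat_lit 84) (nat_lit 0) (XT.lf (nat_lit 0) (nat_lit 169333381) (nat_lit 252) (nat_lit 6096081633) (nat_lit 84) (nat_lit 14873904979)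 (nat_lit 14) (nat_lit 5) (nat_lit 17) (nat_lit 5) (nat_lit 15) (nat_lit 4) (nat_lit 404) (nat_lit 279) (nat_lit 262)) (XT.lf (nat_lit 0) (nat_lit 226802587) (nat_lit 84) (nat_lit 3198782719) (nat_lit 168) (nat_lit 18233679623) (nat_lit 13) (nat_lit 5) (nat_lit 14) (nat_lit 5) (nat_lit 15) (nat_lit 4) (nat_lit 405) (nat_lit 279) (nat_lit 261)))) (XT.nd (nat_lit 188) (nat_lit 84) (nat_lit 0) (XT.nd (nat_lit 94) (nat_lit 0) (nat_lit 0) (XT.lf (nat_lit 0) (nat_lit 6759374277) (nat_lit 84) (nat_lit 21635022) (nat_lit 168) (nat_lit 15413793239) (nat_lit 13) (nat_lit 5) (nat_lit 14) (nat_lit 5) (nat_lit 15) (nat_lit 4) (nat_lit 406) (nat_lit 279) (nat_lit 260)) (XT.lf (nat_lit 0) (nat_lit 10209601789) (nat_lit 168) (nat_lit 9393006211) (nat_lit 0) (nat_lit 3144660835) (nat_lit 13) (nat_lit 5) (nat_lit 15) (nat_lit 4) (nat_lit 13) (nat_lit 4) (nat_lit 407) (nat_lit 279) (nat_lit 259))) (XT.nd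 (nat_lit 94) (nat_lit 84) (nat_lit 0) (XT.lf (nat_lit 0) (nat_lit 13684234062) (nat_lit 168) (nat_lit 3269791836) (nat_lit 0) (nat_lit 6364024393) (nat_lit 13) (nat_lit 5) (nat_lit 15) (nat_lit 4) (nat_lit 13) (nat_lit 4) (nat_lit 408) (nat_lit 279) (nat_lit 258)) (XT.lf (nat_lit 0) (nat_lit 2998280464) (nat_lit 84) (nat_lit 14238275079) (nat_lit 84) (nat_lit 6670231705) (nat_lit 12) (nat_lit 4) (nat_lit 13) (nat_lit 5) (nat_lit 13) (nat_lit 4) (nat_lit 409) (nat_lit 279) (nat_lit 257))))) (XT.nd (nat_lit 282) (nat_lit 84) (nat_lit 0) (XT.nd (nat_lit 94) (nat_lit 84) (nat_lit 0) (XT.lf (nat_lit 0) (nat_lit 9425031075) (nat_lit 84) (nat_lit 11448749190) (nat_lit 84) (nat_lit 3640090570) (nat_lit 12) (nat_lit 4) (nat_lit 13) (nat_lit 5) (nat_lit 13) (nat_lit 4) (nat_lit 410) (nat_lit 279) (nat_lit 256)) (XT.nd (nat_lit 94) (nat_lit 84) (nat_lit 0) (XT.lf (nat_lit 0) (nat_lit 15951000334)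 (nat_lit 84) (nat_lit 8616029270) (nat_lit 84) (nat_lit 573763614) (nat_lit 12) (nat_lit 4) (nat_lit 13) (nat_lit 5) (nat_lit 13) (nat_lit 4) (nat_lit 411) (nat_lit 279) (nat_lit 255)) (XT.lf (nat_lit 0) (nat_lit 2482031190) (nat_lit 168) (nat_lit 3230545285) (nat_lit 84) (nat_lit 20074795705) (nat_lit 11) (nat_lit 5) (nat_lit 13) (nat_lit 5) (nat_lit 12) (nat_lit 4) (nat_lit 412) (nat_lit 279) (nat_lit 254)))) (XT.nd (nat_lit 188) (nat_lit 0) (nat_lit 0) (XT.nd (nat_lit 94) (nat_lit 0) (nat_lit 0) (XT.lf (nat_lit 0) (nat_lit 2868525261) (nat_lit 84) (nat_lit 2726445625) (nat_lit 168) (nat_lit 20858927787) (nat_lit 10) (nat_lit 5) (nat_lit 11) (nat_lit 5) (nat_lit 12) (nat_lit 4) (nat_lit 413) (nat_lit 279) (nat_lit 253)) (XT.lf (nat_lit 0) (nat_lit 8787284491) (nat_lit 168) (nat_lit 18015864492) (nat_lit 0) (nat_lit 337722190) (nat_lit 10) (nat_lit 5) (nat_lit 12) (nat_lit 4) (nat_lit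 10) (nat_lit 4) (nat_lit 414) (nat_lit 279) (nat_lit 252))) (XT.nd (nat_lit 94) (nat_lit 0) (nat_lit 0) (XT.lf (nat_lit 0) (nat_lit 12053510717) (nat_lit 168) (nat_lit 12393189817) (nat_lit 0) (nat_lit 3402436935) (nat_lit 10) (nat_lit 5) (nat_lit 12) (nat_lit 4) (nat_lit 10) (nat_lit 4) (nat_lit 415) (nat_lit 279) (nat_lit 251)) (XT.lf (nat_lit 0) (nat_lit 15370295285) (nat_lit 168) (nat_lit 6686228108) (nat_lit 0) (nat_lit 6523579289) (nat_lit 10) (nat_lit 5) (nat_lit 12) (nat_lit 4) (nat_lit 10) (nat_lit 4) (nat_lit 416) (nat_lit 279) (nat_lit 250))))))))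
noncomputable def xc18 : XT := (XT.nd (nat_lit 2538) (nat_lit 84) (nat_lit 0) (XT.nd (nat_lit 1222) (nat_lit 252) (nat_lit 0) (XT.nd (nat_lit 564) (nat_lit 84) (nat_lit 0) (XT.nd (nat_lit 282) (nat_lit 84) (nat_lit 0) (XT.nd (nat_lit 94) (nat_lit 84) (nat_lit 0) (XT.lf (nat_lit 0) (nat_lit 18740536358) (nat_lit 168) (nat_lit 889992699) (nat_lit 0) (nat_lit 9703876464) (nat_lit 10) (nat_lit 5) (nat_lit 12) (nat_lit 4) (nat_lit 10) (nat_lit 4) (nat_lit 417) (nat_lit 279) (nat_lit 249)) (XT.nd (nat_lit 94) (nat_lit 0) (nat_lit 0) (XT.lf (nat_lit 0) (nat_lit 5100102449) (nat_lit 84) (nat_lit 17116101661) (nat_lit 84) (nat_lit 7895030215) (nat_lit 9) (nat_lit 4) (nat_lit 10) (nat_lit 5) (nat_lit 10) (nat_lit 4) (nat_lit 418) (nat_lit 279) (nat_lit 248)) (XT.lf (nat_lit 0) (nat_lit 11209375629) (nat_lit 84) (nat_lit 14551592527) (nat_lit 84) (nat_lit 5151480741) (nat_lit 9) (nat_lit 4) (nat_lit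 10) (nat_lit 5) (nat_lit 10) (nat_lit 4) (nat_lit 419) (nat_lit 279) (nat_lit 247)))) (XT.nd (nat_lit 94) (nat_lit 84) (nat_lit 0) (XT.lf (nat_lit 0) (nat_lit 17425452440) (nat_lit 84) (nat_lit 11943748006) (nat_lit 84) (nat_lit 2369810646) (nat_lit 9) (nat_lit 4) (nat_lit 10) (nat_lit 5) (nat_lit 10) (nat_lit 4) (nat_lit 420) (nat_lit 279) (nat_lit 246)) (XT.nd (nat_lit 94) (nat_lit 0) (nat_lit 0) (XT.lf (nat_lit 0) (nat_lit 443582493) (nat_lit 168) (nat_lit 8842227591) (nat_lit 84) (nat_lit 23305702598) (nat_lit 8) (nat_lit 5) (nat_lit 10) (nat_lit 5) (nat_lit 9) (nat_lit 4) (nat_lit 421) (nat_lit 279) (nat_lit 245)) (XT.lf (nat_lit 0) (nat_lit 3252909896) (nat_lit 168) (nat_lit 3303140238) (nat_lit 84) (nat_lit 26914083210) (nat_lit 8) (nat_lit 5) (nat_lit 10) (nat_lit 5) (nat_lit 9) (nat_lit 4) (nat_lit 422) (nat_lit 279) (nat_lit 244))))) (XT.nd (nat_lit 282) (nat_lit 0) (nat_lit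 0) (XT.nd (nat_lit 94) (nat_lit 0) (nat_lit 0) (XT.lf (nat_lit 0) (nat_lit 2377721361) (nat_lit 84) (nat_lit 3752004605) (nat_lit 168) (nat_lit 28245912556) (nat_lit 7) (nat_lit 5) (nat_lit 8) (nat_lit 5) (nat_lit 9) (nat_lit 4) (nat_lit 423) (nat_lit 279) (nat_lit 243)) (XT.nd (nat_lit 94) (nat_lit 0) (nat_lit 0) (XT.lf (nat_lit 0) (nat_lit 8226617746) (nat_lit 84) (nat_lit 860417656) (nat_lit 168) (nat_lit 26221469304) (nat_lit 7) (nat_lit 5) (nat_lit 8) (nat_lit 5) (nat_lit 9) (nat_lit 4) (nat_lit 424) (nat_lit 279) (nat_lit 242)) (XT.lf (nat_lit 0) (nat_lit 12115108534) (nat_lit 168) (nat_lit 22107667901) (nat_lit 0) (nat_lit 2047140001) (nat_lit 7) (nat_lit 5) (nat_lit 9) (nat_lit 4) (nat_lit 7) (nat_lit 4) (nat_lit 425) (nat_lit 279) (nat_lit 241)))) (XT.nd (nat_lit 188) (nat_lit 0) (nat_lit 0) (XT.nd (nat_lit 94) (nat_lit 0) (nat_lit 0) (XT.lf (nat_lit 0) (nat_lit 15205344494) (nat_lit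 168) (nat_lit 17059666822) (nat_lit 0) (nat_lit 4996039862) (nat_lit 7) (nat_lit 5) (nat_lit 9) (nat_lit 4) (nat_lit 7) (nat_lit 4) (nat_lit 426) (nat_lit 279) (nat_lit 240)) (XT.lf (nat_lit 0) (nat_lit 18352172628) (nat_lit 168) (nat_lit 11925201990) (nat_lit 0) (nat_lit 8005648484) (nat_lit 7) (nat_lit 5) (nat_lit 9) (nat_lit 4) (nat_lit 7) (nat_lit 4) (nat_lit 427) (nat_lit 279) (nat_lit 239))) (XT.nd (nat_lit 94) (nat_lit 0) (nat_lit 0) (XT.lf (nat_lit 0) (nat_lit 21558342594) (nat_lit 168) (nat_lit 6699786977) (nat_lit 0) (nat_lit 11078595621) (nat_lit 7) (nat_lit 5) (nat_lit 9) (nat_lit 4) (nat_lit 7) (nat_lit 4) (nat_lit 428) (nat_lit 279) (nat_lit 238)) (XT.lf (nat_lit 0) (nat_lit 24826655897) (nat_lit 168) (nat_lit 1378855889) (nat_lit 0) (nat_lit 14217566373) (nat_lit 7) (nat_lit 5) (nat_lit 9) (nat_lit 4) (nat_lit 7) (nat_lit 4) (nat_lit 429) (nat_lit 279) (nat_lit 237))))))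 (XT.nd (nat_lit 658) (nat_lit 84) (nat_lit 0) (XT.nd (nat_lit 282) (nat_lit 84) (nat_lit 0) (XT.nd (nat_lit 94) (nat_lit 0) (nat_lit 0) (XT.lf (nat_lit 0) (nat_lit 4122689147) (nat_lit 84) (nat_lit 24076909009) (nat_lit 84) (nat_lit 13342244192) (nat_lit 6) (nat_lit 4) (nat_lit 7) (nat_lit 5) (nat_lit 7) (nat_lit 4) (nat_lit 430) (nat_lit 279) (nat_lit 236)) (XT.nd (nat_lit 94) (nat_lit 0) (nat_lit 0) (XT.lf (nat_lit 0) (nat_lit 9758666196) (nat_lit 84) (nat_lit 21896332618) (nat_lit 84) (nat_lit 11039750040) (nat_lit 6) (nat_lit 4) (nat_lit 7) (nat_lit 5) (nat_lit 7) (nat_lit 4) (nat_lit 431) (nat_lit 279) (nat_lit 235)) (XT.lf (nat_lit 0) (nat_lit 15506557961) (nat_lit 84) (nat_lit 19675800996) (nat_lit 84) (nat_lit 8700851661) (nat_lit 6) (nat_lit 4) (nat_lit 7) (nat_lit 5) (nat_lit 7) (nat_lit 4) (nat_lit 432) (nat_lit 279) (nat_lit 234)))) (XT.nd (nat_lit 188) (nat_lit 84) (nat_lit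 0) (XT.nd (nat_lit 94) (nat_lit 0) (nat_lit 0) (XT.lf (nat_lit 0) (nat_lit 21371386871) (nat_lit 84) (nat_lit 17413373873) (nat_lit 84) (nat_lit 6323505356) (nat_lit 6) (nat_lit 4) (nat_lit 7) (nat_lit 5) (nat_lit 7) (nat_lit 4) (nat_lit 433) (nat_lit 279) (nat_lit 233)) (XT.lf (nat_lit 0) (nat_lit 27358277535) (nat_lit 84) (nat_lit 15107074370) (nat_lit 84) (nat_lit 3905633833) (nat_lit 6) (nat_lit 4) (nat_lit 7) (nat_lit 5) (nat_lit 7) (nat_lit 4) (nat_lit 434) (nat_lit 279) (nat_lit 232))) (XT.nd (nat_lit 94) (nat_lit 84) (nat_lit 0) (XT.lf (nat_lit 0) (nat_lit 33472461216) (nat_lit 84) (nat_lit 12754887276) (nat_lit 84) (nat_lit 1445124387) (nat_lit 6) (nat_lit 4) (nat_lit 7) (nat_lit 5) (nat_lit 7) (nat_lit 4) (nat_lit 435) (nat_lit 279) (nat_lit 231)) (XT.lf (nat_lit 0) (nat_lit 1039485146) (nat_lit 168) (nat_lit 9304775371) (nat_lit 84) (nat_lit 38669298496) (nat_lit 5) (nat_lit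 5) (nat_lit 7) (nat_lit 5) (nat_lit 6) (nat_lit 4) (nat_lit 436) (nat_lit 279) (nat_lit 230))))) (XT.nd (nat_lit 282) (nat_lit 0) (nat_lit 0) (XT.nd (nat_lit 94) (nat_lit 84) (nat_lit 0) (XT.lf (nat_lit 0) (nat_lit 3541955385) (nat_lit 168) (nat_lit 4326864991) (nat_lit 84) (nat_lit 42526471297) (nat_lit 5) (nat_lit 5) (nat_lit 7) (nat_lit 5) (nat_lit 6) (nat_lit 4) (nat_lit 437) (nat_lit 279) (nat_lit 229)) (XT.nd (nat_lit 94) (nat_lit 0) (nat_lit 0) (XT.lf (nat_lit 0) (nat_lit 766926014) (nat_lit 84) (nat_lit 5333118682) (nat_lit 168) (nat_lit 45719029079) (nat_lit 4) (nat_lit 5) (nat_lit 5) (nat_lit 5) (nat_lit 6) (nat_lit 4) (nat_lit 438) (nat_lit 279) (nat_lit 228)) (XT.lf (nat_lit 0) (nat_lit 6054279794) (nat_lit 84) (nat_lit 2697783022) (nat_lit 168) (nat_lit 44533004348) (nat_lit 4) (nat_lit 5) (nat_lit 5) (nat_lit 5) (nat_lit 6) (nat_lit 4) (nat_lit 439) (nat_lit 279) (nat_lit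 227)))) (XT.nd (nat_lit 188) (nat_lit 0) (nat_lit 0) (XT.nd (nat_lit 94) (nat_lit 0) (nat_lit 0) (XT.lf (nat_lit 0) (nat_lit 11453703269) (nat_lit 84) (nat_lit 4203531) (nat_lit 168) (nat_lit 43337918614) (nat_lit 4) (nat_lit 5) (nat_lit 5) (nat_lit 5) (nat_lit 6) (nat_lit 4) (nat_lit 440) (nat_lit 279) (nat_lit 226)) (XT.lf (nat_lit 0) (nat_lit 14246375403) (nat_lit 168) (nat_lit 39409188651) (nat_lit 0) (nat_lit 2696311519) (nat_lit 4) (nat_lit 5) (nat_lit 6) (nat_lit 4) (nat_lit 4) (nat_lit 4) (nat_lit 441) (nat_lit 279) (nat_lit 225))) (XT.nd (nat_lit 94) (nat_lit 0) (nat_lit 0) (XT.lf (nat_lit 0) (nat_lit 17094093664) (nat_lit 168) (nat_lit 35402738857) (nat_lit 0) (nat_lit 5458519117) (nat_lit 4) (nat_lit 5) (nat_lit 6) (nat_lit 4) (nat_lit 4) (nat_lit 4) (nat_lit 442) (nat_lit 279) (nat_lit 224)) (XT.lf (nat_lit 0) (nat_lit 20003509476) (nat_lit 168) (nat_lit 31319231575) (nat_lit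 0) (nat_lit 8284914867) (nat_lit 4) (nat_lit 5) (nat_lit 6) (nat_lit 4) (nat_lit 4) (nat_lit 4) (nat_lit 443) (nat_lit 279) (nat_lit 223))))))) (XT.nd (nat_lit 53768) (nat_lit 0) (nat_lit 1344) (XT.nd (nat_lit 658) (nat_lit 84) (nat_lit 0) (XT.nd (nat_lit 282) (nat_lit 0) (nat_lit 0) (XT.nd (nat_lit 94) (nat_lit 0) (nat_lit 0) (XT.lf (nat_lit 0) (nat_lit 22977165047) (nat_lit 168) (nat_lit 27155098694) (nat_lit 0) (nat_lit 11177968435) (nat_lit 4) (nat_lit 5) (nat_lit 6) (nat_lit 4) (nat_lit 4) (nat_lit 4) (nat_lit 444) (nat_lit 279) (nat_lit 222)) (XT.nd (nat_lit 94) (nat_lit 0) (nat_lit 0) (XT.lf (nat_lit 0) (nat_lit 26017658715) (nat_lit 168) (nat_lit 22906701650) (nat_lit 0) (nat_lit 14140207733) (nat_lit 4) (nat_lit 5) (nat_lit 6) (nat_lit 4) (nat_lit 4) (nat_lit 4) (nat_lit 445) (nat_lit 279) (nat_lit 221)) (XT.lf (nat_lit 0) (nat_lit 29127647224) (nat_lit 168) (nat_lit 18570328251)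 (nat_lit 0) (nat_lit 17174221124) (nat_lit 4) (nat_lit 5) (nat_lit 6) (nat_lit 4) (nat_lit 4) (nat_lit 4) (nat_lit 446) (nat_lit 279) (nat_lit 220)))) (XT.nd (nat_lit 188) (nat_lit 0) (nat_lit 0) (XT.nd (nat_lit 94) (nat_lit 0) (nat_lit 0) (XT.lf (nat_lit 0) (nat_lit 32309848039) (nat_lit 168) (nat_lit 14142189433) (nat_lit 0) (nat_lit 20282659689) (nat_lit 4) (nat_lit 5) (nat_lit 6) (nat_lit 4) (nat_lit 4) (nat_lit 4) (nat_lit 447) (nat_lit 279) (nat_lit 219)) (XT.lf (nat_lit 0) (nat_lit 35567041723) (nat_lit 168) (nat_lit 9618415949) (nat_lit 0) (nat_lit 23468239538) (nat_lit 4) (nat_lit 5) (nat_lit 6) (nat_lit 4) (nat_lit 4) (nat_lit 4) (nat_lit 448) (nat_lit 279) (nat_lit 218))) (XT.nd (nat_lit 94) (nat_lit 0) (nat_lit 0) (XT.lf (nat_lit 0) (nat_lit 38902074369) (nat_lit 168) (nat_lit 4995054988) (nat_lit 0) (nat_lit 26733744189) (nat_lit 4) (nat_lit 5) (nat_lit 6) (nat_lit 4) (nat_lit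 4) (nat_lit 4) (nat_lit 449) (nat_lit 279) (nat_lit 217)) (XT.lf (nat_lit 0) (nat_lit 42317860082) (nat_lit 168) (nat_lit 268066718) (nat_lit 0) (nat_lit 30082026994) (nat_lit 4) (nat_lit 5) (nat_lit 6) (nat_lit 4) (nat_lit 4) (nat_lit 4) (nat_lit 450) (nat_lit 279) (nat_lit 216))))) (XT.nd (nat_lit 282) (nat_lit 0) (nat_lit 0) (XT.nd (nat_lit 94) (nat_lit 0) (nat_lit 0) (XT.lf (nat_lit 0) (nat_lit 4657565108) (nat_lit 84) (nat_lit 41204589786) (nat_lit 84) (nat_lit 28903219895) (nat_lit 3) (nat_lit 4) (nat_lit 4) (nat_lit 5) (nat_lit 4) (nat_lit 4) (nat_lit 451) (nat_lit 279) (nat_lit 215)) (XT.nd (nat_lit 94) (nat_lit 0) (nat_lit 0) (XT.lf (nat_lit 0) (nat_lit 9702742876) (nat_lit 84) (nat_lit 39794228372) (nat_lit 84) (nat_lit 27429230516) (nat_lit 3) (nat_lit 4) (nat_lit 4) (nat_lit 5) (nat_lit 4) (nat_lit 4) (nat_lit 452) (nat_lit 279) (nat_lit 214)) (XT.lf (nat_lit 0) (nat_lit 14866539938)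 (nat_lit 84) (nat_lit 38356317151) (nat_lit 84) (nat_lit 25929544573) (nat_lit 3) (nat_lit 4) (nat_lit 4) (nat_lit 5) (nat_lit 4) (nat_lit 4) (nat_lit 453) (nat_lit 279) (nat_lit 213)))) (XT.nd (nat_lit 188) (nat_lit 0) (nat_lit 0) (XT.nd (nat_lit 94) (nat_lit 0) (nat_lit 0) (XT.lf (nat_lit 0) (nat_lit 20153468351) (nat_lit 84) (nat_lit 36889599698) (nat_lit 84) (nat_lit 24402851660) (nat_lit 3) (nat_lit 4) (nat_lit 4) (nat_lit 5) (nat_lit 4) (nat_lit 4) (nat_lit 454) (nat_lit 279) (nat_lit 212)) (XT.lf (nat_lit 0) (nat_lit 25568147760) (nat_lit 84) (nat_lit 35392794413) (nat_lit 84) (nat_lit 22847817773) (nat_lit 3) (nat_lit 4) (nat_lit 4) (nat_lit 5) (nat_lit 4) (nat_lit 4) (nat_lit 455) (nat_lit 279) (nat_lit 211))) (XT.nd (nat_lit 94) (nat_lit 0) (nat_lit 0) (XT.lf (nat_lit 0) (nat_lit 31115309440) (nat_lit 84) (nat_lit 33864593408) (nat_lit 84) (nat_lit 21263084146) (nat_lit 3) (nat_lit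 4) (nat_lit 4) (nat_lit 5) (nat_lit 4) (nat_lit 4) (nat_lit 456) (nat_lit 279) (nat_lit 210)) (XT.lf (nat_lit 0) (nat_lit 36799800424) (nat_lit 84) (nat_lit 32303661363) (nat_lit 84) (nat_lit 19647266060) (nat_lit 3) (nat_lit 4) (nat_lit 4) (nat_lit 5) (nat_lit 4) (nat_lit 4) (nat_lit 457) (nat_lit 279) (nat_lit 209)))))) (XT.nd (nat_lit 658) (nat_lit 504) (nat_lit 0) (XT.nd (nat_lit 282) (nat_lit 252) (nat_lit 0) (XT.nd (nat_lit 94) (nat_lit 168) (nat_lit 0) (XT.lf (nat_lit 0) (nat_lit 104287166) (nat_lit 252) (nat_lit 6721070184) (nat_lit 0) (nat_lit 104287166) (nat_lit 30) (nat_lit 5) (nat_lit 33) (nat_lit 4) (nat_lit 30) (nat_lit 4) (nat_lit 385) (nat_lit 280) (nat_lit 280)) (XT.nd (nat_lit 94) (nat_lit 168) (nat_lit 0) (XT.lf (nat_lit 0) (nat_lit 4020780911) (nat_lit 252) (nat_lit 6633434278) (nat_lit 0) (nat_lit 3486304908) (nat_lit 30) (nat_lit 5) (nat_lit 33) (nat_lit 4) (nat_lit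 30) (nat_lit 4) (nat_lit 386) (nat_lit 280) (nat_lit 279)) (XT.lf (nat_lit 0) (nat_lit 244961275) (nat_lit 168) (nat_lit 7620570343) (nat_lit 168) (nat_lit 6567185600) (nat_lit 28) (nat_lit 4) (nat_lit 30) (nat_lit 5) (nat_lit 30) (nat_lit 4) (nat_lit 387) (nat_lit 280) (nat_lit 278)))) (XT.nd (nat_lit 188) (nat_lit 168) (nat_lit 0) (XT.nd (nat_lit 94) (nat_lit 84) (nat_lit 0) (XT.lf (nat_lit 0) (nat_lit 7327701993) (nat_lit 168) (nat_lit 4481856097) (nat_lit 168) (nat_lit 2924676462) (nat_lit 28) (nat_lit 4) (nat_lit 30) (nat_lit 5) (nat_lit 30) (nat_lit 4) (nat_lit 388) (nat_lit 280) (nat_lit 277)) (XT.lf (nat_lit 0) (nat_lit 729468471) (nat_lit 252) (nat_lit 565479893) (nat_lit 84) (nat_lit 13752123655) (nat_lit 27) (nat_lit 5) (nat_lit 30) (nat_lit 5) (nat_lit 28) (nat_lit 4) (nat_lit 389) (nat_lit 280) (nat_lit 276))) (XT.nd (nat_lit 94) (nat_lit 0) (nat_lit 0) (XT.lf (nat_lit 0)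 (nat_lit 4436791445) (nat_lit 252) (nat_lit 8942582652) (nat_lit 0) (nat_lit 1989047856) (nat_lit 25) (nat_lit 5) (nat_lit 28) (nat_lit 4) (nat_lit 25) (nat_lit 4) (nat_lit 390) (nat_lit 280) (nat_lit 275)) (XT.lf (nat_lit 0) (nat_lit 8195344199) (nat_lit 252) (nat_lit 2205946742) (nat_lit 0) (nat_lit 5299985374) (nat_lit 25) (nat_lit 5) (nat_lit 28) (nat_lit 4) (nat_lit 25) (nat_lit 4) (nat_lit 391) (nat_lit 280) (nat_lit 274))))) (XT.nd (nat_lit 282) (nat_lit 168) (nat_lit 0) (XT.nd (nat_lit 94) (nat_lit 168) (nat_lit 0) (XT.lf (nat_lit 0) (nat_lit 4695959530) (nat_lit 168) (nat_lit 7339545166) (nat_lit 168) (nat_lit 4009608440) (nat_lit 23) (nat_lit 4) (nat_lit 25) (nat_lit 5) (nat_lit 25) (nat_lit 4) (nat_lit 392) (nat_lit 280) (nat_lit 273)) (XT.nd (nat_lit 94) (nat_lit 168) (nat_lit 0) (XT.lf (nat_lit 0) (nat_lit 11722938387) (nat_lit 168) (nat_lit 4214917334) (nat_lit 168) (nat_lit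 463060316) (nat_lit 23) (nat_lit 4) (nat_lit 25) (nat_lit 5) (nat_lit 25) (nat_lit 4) (nat_lit 393) (nat_lit 280) (nat_lit 272)) (XT.lf (nat_lit 0) (nat_lit 2078196804) (nat_lit 84) (nat_lit 995539734) (nat_lit 168) (nat_lit 13694410713) (nat_lit 21) (nat_lit 5) (nat_lit 22) (nat_lit 5) (nat_lit 23) (nat_lit 4) (nat_lit 394) (nat_lit 280) (nat_lit 271)))) (XT.nd (nat_lit 188) (nat_lit 168) (nat_lit 0) (XT.nd (nat_lit 94) (nat_lit 0) (nat_lit 0) (XT.lf (nat_lit 0) (nat_lit 6703935780) (nat_lit 168) (nat_lit 8164940345) (nat_lit 0) (nat_lit 2277538974) (nat_lit 21) (nat_lit 5) (nat_lit 23) (nat_lit 4) (nat_lit 21) (nat_lit 4) (nat_lit 395) (nat_lit 280) (nat_lit 270)) (XT.lf (nat_lit 0) (nat_lit 10381630001) (nat_lit 168) (nat_lit 1575934626) (nat_lit 0) (nat_lit 5580362481) (nat_lit 21) (nat_lit 5) (nat_lit 23) (nat_lit 4) (nat_lit 21) (nat_lit 4) (nat_lit 396) (nat_lit 280) (nat_lit 269)))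 (XT.nd (nat_lit 94) (nat_lit 0) (nat_lit 0) (XT.lf (nat_lit 0) (nat_lit 5193742450) (nat_lit 168) (nat_lit 8956645963) (nat_lit 168) (nat_lit 3791426293) (nat_lit 19) (nat_lit 4) (nat_lit 21) (nat_lit 5) (nat_lit 21) (nat_lit 4) (nat_lit 397) (nat_lit 280) (nat_lit 268)) (XT.lf (nat_lit 0) (nat_lit 12081627790) (nat_lit 168) (nat_lit 5898192400) (nat_lit 168) (nat_lit 379621129) (nat_lit 19) (nat_lit 4) (nat_lit 21) (nat_lit 5) (nat_lit 21) (nat_lit 4) (nat_lit 398) (nat_lit 280) (nat_lit 267))))))))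
noncomputable def xc19 : XT := (XT.nd (nat_lit 2632) (nat_lit 336) (nat_lit 0) (XT.nd (nat_lit 1316) (nat_lit 336) (nat_lit 0) (XT.nd (nat_lit 658) (nat_lit 252) (nat_lit 0) (XT.nd (nat_lit 282) (nat_lit 252) (nat_lit 0) (XT.nd (nat_lit 94) (nat_lit 0) (nat_lit 0) (XT.lf (nat_lit 0) (nat_lit 246067985) (nat_lit 84) (nat_lit 2762650765) (nat_lit 168) (nat_lit 15781961442) (nat_lit 17) (nat_lit 5) (nat_lit 18) (nat_lit 5) (nat_lit 19) (nat_lit 4) (nat_lit 399) (nat_lit 280) (nat_lit 266)) (XT.nd (nat_lit 94) (nat_lit 0) (nat_lit 0) (XT.lf (nat_lit 0) (nat_lit 6492965909) (nat_lit 168) (nat_lit 12263072178) (nat_lit 0) (nat_lit 478695178) (nat_lit 17) (nat_lit 5) (nat_lit 19) (nat_lit 4) (nat_lit 17) (nat_lit 4) (nat_lit 400) (nat_lit 280) (nat_lit 265)) (XT.lf (nat_lit 0) (nat_lit 10044411078) (nat_lit 168) (nat_lit 5932669761) (nat_lit 0) (nat_lit 3716192025) (nat_lit 17) (nat_lit 5) (nat_lit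 19) (nat_lit 4) (nat_lit 17) (nat_lit 4) (nat_lit 401) (nat_lit 280) (nat_lit 264)))) (XT.nd (nat_lit 188) (nat_lit 84) (nat_lit 0) (XT.nd (nat_lit 94) (nat_lit 0) (nat_lit 0) (XT.lf (nat_lit 0) (nat_lit 488209478) (nat_lit 168) (nat_lit 13156084663) (nat_lit 168) (nat_lit 6523061414) (nat_lit 15) (nat_lit 4) (nat_lit 17) (nat_lit 5) (nat_lit 17) (nat_lit 4) (nat_lit 402) (nat_lit 280) (nat_lit 263)) (XT.lf (nat_lit 0) (nat_lit 7115435286) (nat_lit 168) (nat_lit 10234640252) (nat_lit 168) (nat_lit 3305690599) (nat_lit 15) (nat_lit 4) (nat_lit 17) (nat_lit 5) (nat_lit 17) (nat_lit 4) (nat_lit 403) (nat_lit 280) (nat_lit 262))) (XT.nd (nat_lit 94) (nat_lit 84) (nat_lit 0) (XT.lf (nat_lit 0) (nat_lit 13836726683) (nat_lit 168) (nat_lit 7270103219) (nat_lit 168) (nat_lit 53846379) (nat_lit 15) (nat_lit 4) (nat_lit 17) (nat_lit 5) (nat_lit 17) (nat_lit 4) (nat_lit 404) (nat_lit 280) (nat_lit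 261)) (XT.lf (nat_lit 0) (nat_lit 3172180061) (nat_lit 252) (nat_lit 1055670333) (nat_lit 84) (nat_lit 17453743782) (nat_lit 14) (nat_lit 5) (nat_lit 17) (nat_lit 5) (nat_lit 15) (nat_lit 4) (nat_lit 405) (nat_lit 280) (nat_lit 260))))) (XT.nd (nat_lit 282) (nat_lit 168) (nat_lit 0) (XT.nd (nat_lit 94) (nat_lit 0) (nat_lit 0) (XT.lf (nat_lit 0) (nat_lit 5405691651) (nat_lit 84) (nat_lit 1082831545) (nat_lit 168) (nat_lit 15729799602) (nat_lit 13) (nat_lit 5) (nat_lit 14) (nat_lit 5) (nat_lit 15) (nat_lit 4) (nat_lit 406) (nat_lit 280) (nat_lit 259)) (XT.nd (nat_lit 94) (nat_lit 0) (nat_lit 0) (XT.lf (nat_lit 0) (nat_lit 9878820136) (nat_lit 168) (nat_lit 10809400408) (nat_lit 0) (nat_lit 2083735462) (nat_lit 13) (nat_lit 5) (nat_lit 15) (nat_lit 4) (nat_lit 13) (nat_lit 4) (nat_lit 407) (nat_lit 280) (nat_lit 258)) (XT.lf (nat_lit 0) (nat_lit 13326176022) (nat_lit 168) (nat_lit 4734139608)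 (nat_lit 0) (nat_lit 5283257644) (nat_lit 13) (nat_lit 5) (nat_lit 15) (nat_lit 4) (nat_lit 13) (nat_lit 4) (nat_lit 408) (nat_lit 280) (nat_lit 257)))) (XT.nd (nat_lit 188) (nat_lit 84) (nat_lit 0) (XT.nd (nat_lit 94) (nat_lit 0) (nat_lit 0) (XT.lf (nat_lit 0) (nat_lit 1457305859) (nat_lit 84) (nat_lit 15379896924) (nat_lit 84) (nat_lit 7096363299) (nat_lit 12) (nat_lit 4) (nat_lit 13) (nat_lit 5) (nat_lit 13) (nat_lit 4) (nat_lit 409) (nat_lit 280) (nat_lit 256)) (XT.lf (nat_lit 0) (nat_lit 7837956041) (nat_lit 84) (nat_lit 12610317708) (nat_lit 84) (nat_lit 4093177047) (nat_lit 12) (nat_lit 4) (nat_lit 13) (nat_lit 5) (nat_lit 13) (nat_lit 4) (nat_lit 410) (nat_lit 280) (nat_lit 255))) (XT.nd (nat_lit 94) (nat_lit 84) (nat_lit 0) (XT.lf (nat_lit 0) (nat_lit 14319167603) (nat_lit 84) (nat_lit 9796963488) (nat_lit 84) (nat_lit 1053019880) (nat_lit 12) (nat_lit 4) (nat_lit 13) (nat_lit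 5) (nat_lit 13) (nat_lit 4) (nat_lit 411) (nat_lit 280) (nat_lit 254)) (XT.lf (nat_lit 0) (nat_lit 1987215171) (nat_lit 168) (nat_lit 4930093846) (nat_lit 84) (nat_lit 18899321589) (nat_lit 11) (nat_lit 5) (nat_lit 13) (nat_lit 5) (nat_lit 12) (nat_lit 4) (nat_lit 412) (nat_lit 280) (nat_lit 253)))))) (XT.nd (nat_lit 658) (nat_lit 168) (nat_lit 0) (XT.nd (nat_lit 282) (nat_lit 84) (nat_lit 0) (XT.nd (nat_lit 94) (nat_lit 0) (nat_lit 0) (XT.lf (nat_lit 0) (nat_lit 1091618400) (nat_lit 84) (nat_lit 3967269567) (nat_lit 168) (nat_lit 21425521811) (nat_lit 10) (nat_lit 5) (nat_lit 11) (nat_lit 5) (nat_lit 12) (nat_lit 4) (nat_lit 413) (nat_lit 280) (nat_lit 252)) (XT.nd (nat_lit 94) (nat_lit 0) (nat_lit 0) (XT.lf (nat_lit 0) (nat_lit 7309244180) (nat_lit 84) (nat_lit 914758371) (nat_lit 168) (nat_lit 18948209943) (nat_lit 10) (nat_lit 5) (nat_lit 11) (nat_lit 5) (nat_lit 12) (nat_lit 4) (nat_lit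 414) (nat_lit 280) (nat_lit 251)) (XT.lf (nat_lit 0) (nat_lit 11458071795) (nat_lit 168) (nat_lit 14273073431) (nat_lit 0) (nat_lit 2150312104) (nat_lit 10) (nat_lit 5) (nat_lit 12) (nat_lit 4) (nat_lit 10) (nat_lit 4) (nat_lit 415) (nat_lit 280) (nat_lit 250)))) (XT.nd (nat_lit 188) (nat_lit 84) (nat_lit 0) (XT.nd (nat_lit 94) (nat_lit 0) (nat_lit 0) (XT.lf (nat_lit 0) (nat_lit 14752173096) (nat_lit 168) (nat_lit 8606473865) (nat_lit 0) (nat_lit 5254469507) (nat_lit 10) (nat_lit 5) (nat_lit 12) (nat_lit 4) (nat_lit 10) (nat_lit 4) (nat_lit 416) (nat_lit 280) (nat_lit 249)) (XT.lf (nat_lit 0) (nat_lit 18100391579) (nat_lit 168) (nat_lit 2849425003) (nat_lit 0) (nat_lit 8418276439) (nat_lit 10) (nat_lit 5) (nat_lit 12) (nat_lit 4) (nat_lit 10) (nat_lit 4) (nat_lit 417) (nat_lit 280) (nat_lit 248))) (XT.nd (nat_lit 94) (nat_lit 0) (nat_lit 0) (XT.lf (nat_lit 0) (nat_lit 3062871235) (nat_lit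 84) (nat_lit 18472223827) (nat_lit 84) (nat_lit 8611068347) (nat_lit 9) (nat_lit 4) (nat_lit 10) (nat_lit 5) (nat_lit 10) (nat_lit 4) (nat_lit 418) (nat_lit 280) (nat_lit 247)) (XT.lf (nat_lit 0) (nat_lit 9134472216) (nat_lit 84) (nat_lit 15924266362) (nat_lit 84) (nat_lit 5889285308) (nat_lit 9) (nat_lit 4) (nat_lit 10) (nat_lit 5) (nat_lit 10) (nat_lit 4) (nat_lit 419) (nat_lit 280) (nat_lit 246))))) (XT.nd (nat_lit 282) (nat_lit 84) (nat_lit 0) (XT.nd (nat_lit 94) (nat_lit 84) (nat_lit 0) (XT.lf (nat_lit 0) (nat_lit 15313974076) (nat_lit 84) (nat_lit 13332491421) (nat_lit 84) (nat_lit 3128747674) (nat_lit 9) (nat_lit 4) (nat_lit 10) (nat_lit 5) (nat_lit 10) (nat_lit 4) (nat_lit 420) (nat_lit 280) (nat_lit 245)) (XT.nd (nat_lit 94) (nat_lit 84) (nat_lit 0) (XT.lf (nat_lit 0) (nat_lit 21606776380) (nat_lit 84) (nat_lit 10694634347) (nat_lit 84) (nat_lit 327043325) (nat_lit 9) (nat_lit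 4) (nat_lit 10) (nat_lit 5) (nat_lit 10) (nat_lit 4) (nat_lit 421) (nat_lit 280) (nat_lit 244)) (XT.lf (nat_lit 0) (nat_lit 2469135197) (nat_lit 168) (nat_lit 5514321595) (nat_lit 84) (nat_lit 25524309072) (nat_lit 8) (nat_lit 5) (nat_lit 10) (nat_lit 5) (nat_lit 9) (nat_lit 4) (nat_lit 422) (nat_lit 280) (nat_lit 243)))) (XT.nd (nat_lit 188) (nat_lit 0) (nat_lit 0) (XT.nd (nat_lit 94) (nat_lit 0) (nat_lit 0) (XT.lf (nat_lit 0) (nat_lit 88000057) (nat_lit 84) (nat_lit 5216979191) (nat_lit 168) (nat_lit 29109531555) (nat_lit 7) (nat_lit 5) (nat_lit 8) (nat_lit 5) (nat_lit 9) (nat_lit 4) (nat_lit 423) (nat_lit 280) (nat_lit 242)) (XT.lf (nat_lit 0) (nat_lit 5903369157) (nat_lit 84) (nat_lit 2340187710) (nat_lit 168) (nat_lit 27104392366) (nat_lit 7) (nat_lit 5) (nat_lit 8) (nat_lit 5) (nat_lit 9) (nat_lit 4) (nat_lit 424) (nat_lit 280) (nat_lit 241))) (XT.nd (nat_lit 94) (nat_lit 0) (nat_lit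 0) (XT.lf (nat_lit 0) (nat_lit 11239081232) (nat_lit 168) (nat_lit 24489104821) (nat_lit 0) (nat_lit 582161363) (nat_lit 7) (nat_lit 5) (nat_lit 9) (nat_lit 4) (nat_lit 7) (nat_lit 4) (nat_lit 425) (nat_lit 280) (nat_lit 240)) (XT.lf (nat_lit 0) (nat_lit 14311526598) (nat_lit 168) (nat_lit 19473111761) (nat_lit 0) (nat_lit 3517387217) (nat_lit 7) (nat_lit 5) (nat_lit 9) (nat_lit 4) (nat_lit 7) (nat_lit 4) (nat_lit 426) (nat_lit 280) (nat_lit 239))))))) (XT.nd (nat_lit 1316) (nat_lit 84) (nat_lit 0) (XT.nd (nat_lit 658) (nat_lit 168) (nat_lit 0) (XT.nd (nat_lit 282) (nat_lit 84) (nat_lit 0) (XT.nd (nat_lit 94) (nat_lit 0) (nat_lit 0) (XT.lf (nat_lit 0) (nat_lit 17441082313) (nat_lit 168) (nat_lit 14369722675) (nat_lit 0) (nat_lit 6513720103) (nat_lit 7) (nat_lit 5) (nat_lit 9) (nat_lit 4) (nat_lit 7) (nat_lit 4) (nat_lit 427) (nat_lit 280) (nat_lit 238)) (XT.nd (nat_lit 94) (nat_lit 0)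 (nat_lit 0) (XT.lf (nat_lit 0) (nat_lit 20630482938) (nat_lit 168) (nat_lit 9174478290) (nat_lit 0) (nat_lit 9573778176) (nat_lit 7) (nat_lit 5) (nat_lit 9) (nat_lit 4) (nat_lit 7) (nat_lit 4) (nat_lit 428) (nat_lit 280) (nat_lit 237)) (XT.lf (nat_lit 0) (nat_lit 23882515328) (nat_lit 168) (nat_lit 3882839073) (nat_lit 0) (nat_lit 12700235274) (nat_lit 7) (nat_lit 5) (nat_lit 9) (nat_lit 4) (nat_lit 7) (nat_lit 4) (nat_lit 429) (nat_lit 280) (nat_lit 236)))) (XT.nd (nat_lit 188) (nat_lit 0) (nat_lit 0) (XT.nd (nat_lit 94) (nat_lit 0) (nat_lit 0) (XT.lf (nat_lit 0) (nat_lit 1539867092) (nat_lit 84) (nat_lit 25674956118) (nat_lit 84) (nat_lit 14370758304) (nat_lit 6) (nat_lit 4) (nat_lit 7) (nat_lit 5) (nat_lit 7) (nat_lit 4) (nat_lit 430) (nat_lit 280) (nat_lit 235)) (XT.lf (nat_lit 0) (nat_lit 7147684241) (nat_lit 84) (nat_lit 23506922614) (nat_lit 84) (nat_lit 12084358042) (nat_lit 6)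 (nat_lit 4) (nat_lit 7) (nat_lit 5) (nat_lit 7) (nat_lit 4) (nat_lit 431) (nat_lit 280) (nat_lit 234))) (XT.nd (nat_lit 94) (nat_lit 0) (nat_lit 0) (XT.lf (nat_lit 0) (nat_lit 12868236298) (nat_lit 84) (nat_lit 21298568553) (nat_lit 84) (nat_lit 9761084799) (nat_lit 6) (nat_lit 4) (nat_lit 7) (nat_lit 5) (nat_lit 7) (nat_lit 4) (nat_lit 432) (nat_lit 280) (nat_lit 233)) (XT.lf (nat_lit 0) (nat_lit 18706521802) (nat_lit 84) (nat_lit 19047964304) (nat_lit 84) (nat_lit 7398908529) (nat_lit 6) (nat_lit 4) (nat_lit 7) (nat_lit 5) (nat_lit 7) (nat_lit 4) (nat_lit 433) (nat_lit 280) (nat_lit 232))))) (XT.nd (nat_lit 282) (nat_lit 168) (nat_lit 0) (XT.nd (nat_lit 94) (nat_lit 0) (nat_lit 0) (XT.lf (nat_lit 0) (nat_lit 24667642169) (nat_lit 84) (nat_lit 16753143320) (nat_lit 84) (nat_lit 4995765194) (nat_lit 6) (nat_lit 4) (nat_lit 7) (nat_lit 5) (nat_lit 7) (nat_lit 4) (nat_lit 434) (nat_lit 280)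 (nat_lit 231)) (XT.nd (nat_lit 94) (nat_lit 0) (nat_lit 0) (XT.lf (nat_lit 0) (nat_lit 30756806144) (nat_lit 84) (nat_lit 14412100418) (nat_lit 84) (nat_lit 2549554962) (nat_lit 6) (nat_lit 4) (nat_lit 7) (nat_lit 5) (nat_lit 7) (nat_lit 4) (nat_lit 435) (nat_lit 280) (nat_lit 230)) (XT.lf (nat_lit 0) (nat_lit 36979334357) (nat_lit 84) (nat_lit 12022790027) (nat_lit 84) (nat_lit 58140365) (nat_lit 6) (nat_lit 4) (nat_lit 7) (nat_lit 5) (nat_lit 7) (nat_lit 4) (nat_lit 436) (nat_lit 280) (nat_lit 229)))) (XT.nd (nat_lit 188) (nat_lit 84) (nat_lit 0) (XT.nd (nat_lit 94) (nat_lit 0) (nat_lit 0) (XT.lf (nat_lit 0) (nat_lit 2432249032) (nat_lit 168) (nat_lit 7126314420) (nat_lit 84) (nat_lit 40883853988) (nat_lit 5) (nat_lit 5) (nat_lit 7) (nat_lit 5) (nat_lit 6) (nat_lit 4) (nat_lit 437) (nat_lit 280) (nat_lit 228)) (XT.lf (nat_lit 0) (nat_lit 4970135728) (nat_lit 168) (nat_lit 2070647434)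 (nat_lit 84) (nat_lit 44826029064) (nat_lit 5) (nat_lit 5) (nat_lit 7) (nat_lit 5) (nat_lit 6) (nat_lit 4) (nat_lit 438) (nat_lit 280) (nat_lit 227))) (XT.nd (nat_lit 94) (nat_lit 0) (nat_lit 0) (XT.lf (nat_lit 0) (nat_lit 3152564914) (nat_lit 84) (nat_lit 4436611286) (nat_lit 168) (nat_lit 45744625157) (nat_lit 4) (nat_lit 5) (nat_lit 5) (nat_lit 5) (nat_lit 6) (nat_lit 4) (nat_lit 439) (nat_lit 280) (nat_lit 226)) (XT.lf (nat_lit 0) (nat_lit 8529724810) (nat_lit 84) (nat_lit 1752987430) (nat_lit 168) (nat_lit 44562222833) (nat_lit 4) (nat_lit 5) (nat_lit 5) (nat_lit 5) (nat_lit 6) (nat_lit 4) (nat_lit 440) (nat_lit 280) (nat_lit 225)))))) (XT.nd (nat_lit 658) (nat_lit 84) (nat_lit 0) (XT.nd (nat_lit 282) (nat_lit 0) (nat_lit 0) (XT.nd (nat_lit 94) (nat_lit 0) (nat_lit 0) (XT.lf (nat_lit 0) (nat_lit 13042328088) (nat_lit 168) (nat_lit 42387353129) (nat_lit 0) (nat_lit 972175640) (nat_lit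 4) (nat_lit 5) (nat_lit 6) (nat_lit 4) (nat_lit 4) (nat_lit 4) (nat_lit 441) (nat_lit 280) (nat_lit 224)) (XT.nd (nat_lit 94) (nat_lit 0) (nat_lit 0) (XT.lf (nat_lit 0) (nat_lit 15878354725) (nat_lit 168) (nat_lit 38402152600) (nat_lit 0) (nat_lit 3725182215) (nat_lit 4) (nat_lit 5) (nat_lit 6) (nat_lit 4) (nat_lit 4) (nat_lit 4) (nat_lit 442) (nat_lit 280) (nat_lit 223)) (XT.lf (nat_lit 0) (nat_lit 18776419446) (nat_lit 168) (nat_lit 34339275672) (nat_lit 0) (nat_lit 6542644933) (nat_lit 4) (nat_lit 5) (nat_lit 6) (nat_lit 4) (nat_lit 4) (nat_lit 4) (nat_lit 443) (nat_lit 280) (nat_lit 222)))) (XT.nd (nat_lit 188) (nat_lit 0) (nat_lit 0) (XT.nd (nat_lit 94) (nat_lit 0) (nat_lit 0) (XT.lf (nat_lit 0) (nat_lit 21739054539) (nat_lit 168) (nat_lit 30195172261) (nat_lit 0) (nat_lit 9427025656) (nat_lit 4) (nat_lit 5) (nat_lit 6) (nat_lit 4) (nat_lit 4) (nat_lit 4) (nat_lit 444) (nat_lit 280)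 (nat_lit 221)) (XT.lf (nat_lit 0) (nat_lit 24768848715) (nat_lit 168) (nat_lit 25966221303) (nat_lit 0) (nat_lit 12380844714) (nat_lit 4) (nat_lit 5) (nat_lit 6) (nat_lit 4) (nat_lit 4) (nat_lit 4) (nat_lit 445) (nat_lit 280) (nat_lit 220))) (XT.nd (nat_lit 94) (nat_lit 0) (nat_lit 0) (XT.lf (nat_lit 0) (nat_lit 27868449367) (nat_lit 168) (nat_lit 21648727601) (nat_lit 0) (nat_lit 15406683116) (nat_lit 4) (nat_lit 5) (nat_lit 6) (nat_lit 4) (nat_lit 4) (nat_lit 4) (nat_lit 446) (nat_lit 280) (nat_lit 219)) (XT.lf (nat_lit 0) (nat_lit 31040564883) (nat_lit 168) (nat_lit 17238918585) (nat_lit 0) (nat_lit 18507184798) (nat_lit 4) (nat_lit 5) (nat_lit 6) (nat_lit 4) (nat_lit 4) (nat_lit 4) (nat_lit 447) (nat_lit 280) (nat_lit 218))))) (XT.nd (nat_lit 282) (nat_lit 84) (nat_lit 0) (XT.nd (nat_lit 94) (nat_lit 0) (nat_lit 0) (XT.lf (nat_lit 0) (nat_lit 34287967016) (nat_lit 168) (nat_lit 12732941026)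 (nat_lit 0) (nat_lit 21685058936) (nat_lit 4) (nat_lit 5) (nat_lit 6) (nat_lit 4) (nat_lit 4) (nat_lit 4) (nat_lit 448) (nat_lit 280) (nat_lit 217)) (XT.nd (nat_lit 94) (nat_lit 0) (nat_lit 0) (XT.lf (nat_lit 0) (nat_lit 37613493301) (nat_lit 168) (nat_lit 8126857660) (nat_lit 0) (nat_lit 24943082313) (nat_lit 4) (nat_lit 5) (nat_lit 6) (nat_lit 4) (nat_lit 4) (nat_lit 4) (nat_lit 449) (nat_lit 280) (nat_lit 216)) (XT.lf (nat_lit 0) (nat_lit 41020049538) (nat_lit 168) (nat_lit 3416643756) (nat_lit 0) (nat_lit 28284101747) (nat_lit 4) (nat_lit 5) (nat_lit 6) (nat_lit 4) (nat_lit 4) (nat_lit 4) (nat_lit 450) (nat_lit 280) (nat_lit 215)))) (XT.nd (nat_lit 188) (nat_lit 0) (nat_lit 0) (XT.nd (nat_lit 94) (nat_lit 0) (nat_lit 0) (XT.lf (nat_lit 0) (nat_lit 1429715302) (nat_lit 84) (nat_lit 43094640325) (nat_lit 84) (nat_lit 30295064568) (nat_lit 3) (nat_lit 4) (nat_lit 4) (nat_lit 5) (nat_lit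 4) (nat_lit 4) (nat_lit 451) (nat_lit 280) (nat_lit 214)) (XT.lf (nat_lit 0) (nat_lit 6458766942) (nat_lit 84) (nat_lit 41691550357) (nat_lit 84) (nat_lit 28830199878) (nat_lit 3) (nat_lit 4) (nat_lit 4) (nat_lit 5) (nat_lit 4) (nat_lit 4) (nat_lit 452) (nat_lit 280) (nat_lit 213))) (XT.nd (nat_lit 94) (nat_lit 0) (nat_lit 0) (XT.lf (nat_lit 0) (nat_lit 11606907570) (nat_lit 84) (nat_lit 40260698793) (nat_lit 84) (nat_lit 27339372855) (nat_lit 3) (nat_lit 4) (nat_lit 4) (nat_lit 5) (nat_lit 4) (nat_lit 4) (nat_lit 453) (nat_lit 280) (nat_lit 212)) (XT.lf (nat_lit 0) (nat_lit 16878635562) (nat_lit 84) (nat_lit 38800835375) (nat_lit 84) (nat_lit 25821280836) (nat_lit 3) (nat_lit 4) (nat_lit 4) (nat_lit 5) (nat_lit 4) (nat_lit 4) (nat_lit 454) (nat_lit 280) (nat_lit 211))))))))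
noncomputable def xc20 : XT := (XT.nd (nat_lit 54708) (nat_lit 0) (nat_lit 252) (XT.nd (nat_lit 53392) (nat_lit 0) (nat_lit 924) (XT.nd (nat_lit 52734) (nat_lit 0) (nat_lit 1848) (XT.nd (nat_lit 282) (nat_lit 0) (nat_lit 0) (XT.nd (nat_lit 94) (nat_lit 0) (nat_lit 0) (XT.lf (nat_lit 0) (nat_lit 22278557281) (nat_lit 84) (nat_lit 37310684494) (nat_lit 84) (nat_lit 24274597332) (nat_lit 3) (nat_lit 4) (nat_lit 4) (nat_lit 5) (nat_lit 4) (nat_lit 4) (nat_lit 455) (nat_lit 280) (nat_lit 210)) (XT.nd (nat_lit 94) (nat_lit 0) (nat_lit 0) (XT.lf (nat_lit 0) (nat_lit 27811391105) (nat_lit 84) (nat_lit 35788944075) (nat_lit 84) (nat_lit 22697970872) (nat_lit 3) (nat_lit 4) (nat_lit 4) (nat_lit 5) (nat_lit 4) (nat_lit 4) (nat_lit 456) (nat_lit 280) (nat_lit 209)) (XT.lf (nat_lit 0) (nat_lit 33481971550) (nat_lit 84) (nat_lit 34234284444) (nat_lit 84) (nat_lit 21090023821) (nat_lit 3) (nat_lit 4)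 (nat_lit 4) (nat_lit 5) (nat_lit 4) (nat_lit 4) (nat_lit 457) (nat_lit 280) (nat_lit 208)))) (XT.nd (nat_lit 52264) (nat_lit 0) (nat_lit 2520) (XT.lf (nat_lit 0) (nat_lit 39295253492) (nat_lit 84) (nat_lit 32645347158) (nat_lit 84) (nat_lit 19449351178) (nat_lit 3) (nat_lit 4) (nat_lit 4) (nat_lit 5) (nat_lit 4) (nat_lit 4) (nat_lit 458) (nat_lit 280) (nat_lit 207)) (XT.nd (nat_lit 94) (nat_lit 168) (nat_lit 0) (XT.lf (nat_lit 0) (nat_lit 3321091159) (nat_lit 252) (nat_lit 17705561) (nat_lit 0) (nat_lit 3321091159) (nat_lit 35) (nat_lit 5) (nat_lit 38) (nat_lit 4) (nat_lit 35) (nat_lit 4) (nat_lit 383) (nat_lit 281) (nat_lit 281)) (XT.lf (nat_lit 0) (nat_lit 7046719533) (nat_lit 168) (nat_lit 3552663709) (nat_lit 168) (nat_lit 2985638119) (nat_lit 33) (nat_lit 4) (nat_lit 35) (nat_lit 5) (nat_lit 35) (nat_lit 4) (nat_lit 384) (nat_lit 281) (nat_lit 280))))) (XT.nd (nat_lit 282) (nat_lit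 252) (nat_lit 0) (XT.nd (nat_lit 94) (nat_lit 168) (nat_lit 0) (XT.lf (nat_lit 0) (nat_lit 344039910) (nat_lit 168) (nat_lit 375948160) (nat_lit 252) (nat_lit 13140511643) (nat_lit 30) (nat_lit 5) (nat_lit 32) (nat_lit 5) (nat_lit 33) (nat_lit 4) (nat_lit 385) (nat_lit 281) (nat_lit 279)) (XT.nd (nat_lit 94) (nat_lit 168) (nat_lit 0) (XT.lf (nat_lit 0) (nat_lit 4487114408) (nat_lit 252) (nat_lit 6772786074) (nat_lit 0) (nat_lit 2883219383) (nat_lit 30) (nat_lit 5) (nat_lit 33) (nat_lit 4) (nat_lit 30) (nat_lit 4) (nat_lit 386) (nat_lit 281) (nat_lit 278)) (XT.lf (nat_lit 0) (nat_lit 34862902) (nat_lit 168) (nat_lit 8254723981) (nat_lit 168) (nat_lit 6147034064) (nat_lit 28) (nat_lit 4) (nat_lit 30) (nat_lit 5) (nat_lit 30) (nat_lit 4) (nat_lit 387) (nat_lit 281) (nat_lit 277)))) (XT.nd (nat_lit 188) (nat_lit 168) (nat_lit 0) (XT.nd (nat_lit 94) (nat_lit 84) (nat_lit 0) (XT.lf (nat_lit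 0) (nat_lit 7051610219) (nat_lit 168) (nat_lit 5142282712) (nat_lit 168) (nat_lit 2545471539) (nat_lit 28) (nat_lit 4) (nat_lit 30) (nat_lit 5) (nat_lit 30) (nat_lit 4) (nat_lit 388) (nat_lit 281) (nat_lit 276)) (XT.lf (nat_lit 0) (nat_lit 1062295489) (nat_lit 252) (nat_lit 915226333) (nat_lit 84) (nat_lit 13075772699) (nat_lit 27) (nat_lit 5) (nat_lit 30) (nat_lit 5) (nat_lit 28) (nat_lit 4) (nat_lit 389) (nat_lit 281) (nat_lit 275))) (XT.nd (nat_lit 94) (nat_lit 0) (nat_lit 0) (XT.lf (nat_lit 0) (nat_lit 4720885962) (nat_lit 252) (nat_lit 9364200977) (nat_lit 0) (nat_lit 1291051133) (nat_lit 25) (nat_lit 5) (nat_lit 28) (nat_lit 4) (nat_lit 25) (nat_lit 4) (nat_lit 390) (nat_lit 281) (nat_lit 274)) (XT.lf (nat_lit 0) (nat_lit 8441857792) (nat_lit 252) (nat_lit 2690847727) (nat_lit 0) (nat_lit 4577445064) (nat_lit 25) (nat_lit 5) (nat_lit 28) (nat_lit 4) (nat_lit 25) (nat_lit 4) (nat_lit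 391) (nat_lit 281) (nat_lit 273)))))) (XT.nd (nat_lit 658) (nat_lit 420) (nat_lit 0) (XT.nd (nat_lit 282) (nat_lit 168) (nat_lit 0) (XT.nd (nat_lit 94) (nat_lit 168) (nat_lit 0) (XT.lf (nat_lit 0) (nat_lit 4138745824) (nat_lit 168) (nat_lit 8101429853) (nat_lit 168) (nat_lit 3815096832) (nat_lit 23) (nat_lit 4) (nat_lit 25) (nat_lit 5) (nat_lit 25) (nat_lit 4) (nat_lit 392) (nat_lit 281) (nat_lit 272)) (XT.nd (nat_lit 94) (nat_lit 168) (nat_lit 0) (XT.lf (nat_lit 0) (nat_lit 11104887554) (nat_lit 168) (nat_lit 5001630719) (nat_lit 168) (nat_lit 305666347) (nat_lit 23) (nat_lit 4) (nat_lit 25) (nat_lit 5) (nat_lit 25) (nat_lit 4) (nat_lit 393) (nat_lit 281) (nat_lit 271)) (XT.lf (nat_lit 0) (nat_lit 1373823898) (nat_lit 84) (nat_lit 1812131082) (nat_lit 168) (nat_lit 13594705885) (nat_lit 21) (nat_lit 5) (nat_lit 22) (nat_lit 5) (nat_lit 23) (nat_lit 4) (nat_lit 394) (nat_lit 281) (nat_lit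 270)))) (XT.nd (nat_lit 188) (nat_lit 168) (nat_lit 0) (XT.nd (nat_lit 94) (nat_lit 0) (nat_lit 0) (XT.lf (nat_lit 0) (nat_lit 6773197342) (nat_lit 168) (nat_lit 8934025495) (nat_lit 0) (nat_lit 1453021082) (nat_lit 21) (nat_lit 5) (nat_lit 23) (nat_lit 4) (nat_lit 21) (nat_lit 4) (nat_lit 395) (nat_lit 281) (nat_lit 269)) (XT.lf (nat_lit 0) (nat_lit 10416806802) (nat_lit 168) (nat_lit 2403319006) (nat_lit 0) (nat_lit 4732678392) (nat_lit 21) (nat_lit 5) (nat_lit 23) (nat_lit 4) (nat_lit 21) (nat_lit 4) (nat_lit 396) (nat_lit 281) (nat_lit 268))) (XT.nd (nat_lit 94) (nat_lit 0) (nat_lit 0) (XT.lf (nat_lit 0) (nat_lit 4292163832) (nat_lit 168) (nat_lit 9851642856) (nat_lit 168) (nat_lit 3814162844) (nat_lit 19) (nat_lit 4) (nat_lit 21) (nat_lit 5) (nat_lit 21) (nat_lit 4) (nat_lit 397) (nat_lit 281) (nat_lit 267)) (XT.lf (nat_lit 0) (nat_lit 11124002892) (nat_lit 168) (nat_lit 6816568666)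 (nat_lit 168) (nat_lit 436028846) (nat_lit 19) (nat_lit 4) (nat_lit 21) (nat_lit 5) (nat_lit 21) (nat_lit 4) (nat_lit 398) (nat_lit 281) (nat_lit 266))))) (XT.nd (nat_lit 282) (nat_lit 252) (nat_lit 0) (XT.nd (nat_lit 94) (nat_lit 84) (nat_lit 0) (XT.lf (nat_lit 0) (nat_lit 2918993851) (nat_lit 252) (nat_lit 788050075) (nat_lit 84) (nat_lit 15101867014) (nat_lit 18) (nat_lit 5) (nat_lit 21) (nat_lit 5) (nat_lit 19) (nat_lit 4) (nat_lit 399) (nat_lit 281) (nat_lit 265)) (XT.nd (nat_lit 94) (nat_lit 0) (nat_lit 0) (XT.lf (nat_lit 0) (nat_lit 5872158484) (nat_lit 84) (nat_lit 487020259) (nat_lit 168) (nat_lit 12895129331) (nat_lit 17) (nat_lit 5) (nat_lit 18) (nat_lit 5) (nat_lit 19) (nat_lit 4) (nat_lit 400) (nat_lit 281) (nat_lit 264)) (XT.lf (nat_lit 0) (nat_lit 9875007189) (nat_lit 168) (nat_lit 7100741487) (nat_lit 0) (nat_lit 2738189046) (nat_lit 17) (nat_lit 5) (nat_lit 19) (nat_lit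 4) (nat_lit 17) (nat_lit 4) (nat_lit 401) (nat_lit 281) (nat_lit 263)))) (XT.nd (nat_lit 188) (nat_lit 84) (nat_lit 0) (XT.nd (nat_lit 94) (nat_lit 168) (nat_lit 0) (XT.lf (nat_lit 0) (nat_lit 13440163121) (nat_lit 168) (nat_lit 741501449) (nat_lit 0) (nat_lit 6007418576) (nat_lit 17) (nat_lit 5) (nat_lit 19) (nat_lit 4) (nat_lit 17) (nat_lit 4) (nat_lit 402) (nat_lit 281) (nat_lit 262)) (XT.lf (nat_lit 0) (nat_lit 5819365457) (nat_lit 168) (nat_lit 11289654033) (nat_lit 168) (nat_lit 3569602299) (nat_lit 15) (nat_lit 4) (nat_lit 17) (nat_lit 5) (nat_lit 17) (nat_lit 4) (nat_lit 403) (nat_lit 281) (nat_lit 261))) (XT.nd (nat_lit 94) (nat_lit 84) (nat_lit 0) (XT.lf (nat_lit 0) (nat_lit 12490558243) (nat_lit 168) (nat_lit 8346423955) (nat_lit 168) (nat_lit 347433203) (nat_lit 15) (nat_lit 4) (nat_lit 17) (nat_lit 5) (nat_lit 17) (nat_lit 4) (nat_lit 404) (nat_lit 281) (nat_lit 260)) (XT.lf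 (nat_lit 0) (nat_lit 2856073574) (nat_lit 252) (nat_lit 2471975974) (nat_lit 84) (nat_lit 16378234455) (nat_lit 14) (nat_lit 5) (nat_lit 17) (nat_lit 5) (nat_lit 15) (nat_lit 4) (nat_lit 405) (nat_lit 281) (nat_lit 259))))))) (XT.nd (nat_lit 1316) (nat_lit 252) (nat_lit 0) (XT.nd (nat_lit 658) (nat_lit 168) (nat_lit 0) (XT.nd (nat_lit 282) (nat_lit 168) (nat_lit 0) (XT.nd (nat_lit 94) (nat_lit 0) (nat_lit 0) (XT.lf (nat_lit 0) (nat_lit 3912461085) (nat_lit 84) (nat_lit 2218175955) (nat_lit 168) (nat_lit 16113647021) (nat_lit 13) (nat_lit 5) (nat_lit 14) (nat_lit 5) (nat_lit 15) (nat_lit 4) (nat_lit 406) (nat_lit 281) (nat_lit 258)) (XT.nd (nat_lit 94) (nat_lit 0) (nat_lit 0) (XT.lf (nat_lit 0) (nat_lit 9482743968) (nat_lit 168) (nat_lit 12365632187) (nat_lit 0) (nat_lit 950704334) (nat_lit 13) (nat_lit 5) (nat_lit 15) (nat_lit 4) (nat_lit 13) (nat_lit 4) (nat_lit 407) (nat_lit 281) (nat_lit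 257)) (XT.lf (nat_lit 0) (nat_lit 12903617925) (nat_lit 168) (nat_lit 6336928255) (nat_lit 0) (nat_lit 4130963044) (nat_lit 13) (nat_lit 5) (nat_lit 15) (nat_lit 4) (nat_lit 13) (nat_lit 4) (nat_lit 408) (nat_lit 281) (nat_lit 256)))) (XT.nd (nat_lit 188) (nat_lit 84) (nat_lit 0) (XT.nd (nat_lit 94) (nat_lit 84) (nat_lit 0) (XT.lf (nat_lit 0) (nat_lit 16374925560) (nat_lit 168) (nat_lit 219120917) (nat_lit 0) (nat_lit 7368663643) (nat_lit 13) (nat_lit 5) (nat_lit 15) (nat_lit 4) (nat_lit 13) (nat_lit 4) (nat_lit 409) (nat_lit 281) (nat_lit 255)) (XT.lf (nat_lit 0) (nat_lit 6112410630) (nat_lit 84) (nat_lit 13846045654) (nat_lit 84) (nat_lit 4612980790) (nat_lit 12) (nat_lit 4) (nat_lit 13) (nat_lit 5) (nat_lit 13) (nat_lit 4) (nat_lit 410) (nat_lit 281) (nat_lit 254))) (XT.nd (nat_lit 94) (nat_lit 84) (nat_lit 0) (XT.lf (nat_lit 0) (nat_lit 12550168116) (nat_lit 84) (nat_lit 11051493085)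 (nat_lit 84) (nat_lit 1598231185) (nat_lit 12) (nat_lit 4) (nat_lit 13) (nat_lit 5) (nat_lit 13) (nat_lit 4) (nat_lit 411) (nat_lit 281) (nat_lit 253)) (XT.lf (nat_lit 0) (nat_lit 1428456718) (nat_lit 168) (nat_lit 6767278292) (nat_lit 84) (nat_lit 17652534498) (nat_lit 11) (nat_lit 5) (nat_lit 13) (nat_lit 5) (nat_lit 12) (nat_lit 4) (nat_lit 412) (nat_lit 281) (nat_lit 252))))) (XT.nd (nat_lit 282) (nat_lit 84) (nat_lit 0) (XT.nd (nat_lit 94) (nat_lit 84) (nat_lit 0) (XT.lf (nat_lit 0) (nat_lit 4466154478) (nat_lit 168) (nat_lit 808308664) (nat_lit 84) (nat_lit 21242619034) (nat_lit 11) (nat_lit 5) (nat_lit 13) (nat_lit 5) (nat_lit 12) (nat_lit 4) (nat_lit 413) (nat_lit 281) (nat_lit 251)) (XT.nd (nat_lit 94) (nat_lit 0) (nat_lit 0) (XT.lf (nat_lit 0) (nat_lit 5352195263) (nat_lit 84) (nat_lit 2247956953) (nat_lit 168) (nat_lit 19605680011) (nat_lit 10) (nat_lit 5) (nat_lit 11) (nat_lit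 5) (nat_lit 12) (nat_lit 4) (nat_lit 414) (nat_lit 281) (nat_lit 250)) (XT.lf (nat_lit 0) (nat_lit 10798722672) (nat_lit 168) (nat_lit 16291288704) (nat_lit 0) (nat_lit 826144078) (nat_lit 10) (nat_lit 5) (nat_lit 12) (nat_lit 4) (nat_lit 10) (nat_lit 4) (nat_lit 415) (nat_lit 281) (nat_lit 249)))) (XT.nd (nat_lit 188) (nat_lit 84) (nat_lit 0) (XT.nd (nat_lit 94) (nat_lit 0) (nat_lit 0) (XT.lf (nat_lit 0) (nat_lit 14070801383) (nat_lit 168) (nat_lit 10663875685) (nat_lit 0) (nat_lit 3913811238) (nat_lit 10) (nat_lit 5) (nat_lit 12) (nat_lit 4) (nat_lit 10) (nat_lit 4) (nat_lit 416) (nat_lit 281) (nat_lit 248)) (XT.lf (nat_lit 0) (nat_lit 17397638711) (nat_lit 168) (nat_lit 4944872015) (nat_lit 0) (nat_lit 7061608225) (nat_lit 10) (nat_lit 5) (nat_lit 12) (nat_lit 4) (nat_lit 10) (nat_lit 4) (nat_lit 417) (nat_lit 281) (nat_lit 247))) (XT.nd (nat_lit 94) (nat_lit 0) (nat_lit 0) (XT.lf (nat_lit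 0) (nat_lit 888048520) (nat_lit 84) (nat_lit 19902629545) (nat_lit 84) (nat_lit 9392773485) (nat_lit 9) (nat_lit 4) (nat_lit 10) (nat_lit 5) (nat_lit 10) (nat_lit 4) (nat_lit 418) (nat_lit 281) (nat_lit 246)) (XT.lf (nat_lit 0) (nat_lit 6923074550) (nat_lit 84) (nat_lit 17370741660) (nat_lit 84) (nat_lit 6692122907) (nat_lit 9) (nat_lit 4) (nat_lit 10) (nat_lit 5) (nat_lit 10) (nat_lit 4) (nat_lit 419) (nat_lit 281) (nat_lit 245)))))) (XT.nd (nat_lit 658) (nat_lit 84) (nat_lit 0) (XT.nd (nat_lit 282) (nat_lit 84) (nat_lit 0) (XT.nd (nat_lit 94) (nat_lit 84) (nat_lit 0) (XT.lf (nat_lit 0) (nat_lit 13067066749) (nat_lit 84) (nat_lit 14794568254) (nat_lit 84) (nat_lit 3952102226) (nat_lit 9) (nat_lit 4) (nat_lit 10) (nat_lit 5) (nat_lit 10) (nat_lit 4) (nat_lit 420) (nat_lit 281) (nat_lit 244)) (XT.nd (nat_lit 94) (nat_lit 84) (nat_lit 0) (XT.lf (nat_lit 0) (nat_lit 19325393654) (nat_lit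 84) (nat_lit 12171858300) (nat_lit 84) (nat_lit 1170317249) (nat_lit 9) (nat_lit 4) (nat_lit 10) (nat_lit 5) (nat_lit 10) (nat_lit 4) (nat_lit 421) (nat_lit 281) (nat_lit 243)) (XT.lf (nat_lit 0) (nat_lit 1623354766) (nat_lit 168) (nat_lit 7860572646) (nat_lit 84) (nat_lit 24063776240) (nat_lit 8) (nat_lit 5) (nat_lit 10) (nat_lit 5) (nat_lit 9) (nat_lit 4) (nat_lit 422) (nat_lit 281) (nat_lit 242)))) (XT.nd (nat_lit 188) (nat_lit 0) (nat_lit 0) (XT.nd (nat_lit 94) (nat_lit 84) (nat_lit 0) (XT.lf (nat_lit 0) (nat_lit 4439943374) (nat_lit 168) (nat_lit 2292841238) (nat_lit 84) (nat_lit 27722251932) (nat_lit 8) (nat_lit 5) (nat_lit 10) (nat_lit 5) (nat_lit 9) (nat_lit 4) (nat_lit 423) (nat_lit 281) (nat_lit 241)) (XT.lf (nat_lit 0) (nat_lit 3444345063) (nat_lit 84) (nat_lit 3893510864) (nat_lit 168) (nat_lit 28051848991) (nat_lit 7) (nat_lit 5) (nat_lit 8) (nat_lit 5) (nat_lit 9) (nat_lit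 4) (nat_lit 424) (nat_lit 281) (nat_lit 240))) (XT.nd (nat_lit 94) (nat_lit 0) (nat_lit 0) (XT.lf (nat_lit 0) (nat_lit 9336494507) (nat_lit 84) (nat_lit 973521785) (nat_lit 168) (nat_lit 26042797428) (nat_lit 7) (nat_lit 5) (nat_lit 8) (nat_lit 5) (nat_lit 9) (nat_lit 4) (nat_lit 425) (nat_lit 281) (nat_lit 239)) (XT.lf (nat_lit 0) (nat_lit 13355831153) (nat_lit 168) (nat_lit 22022043813) (nat_lit 0) (nat_lit 1967425248) (nat_lit 7) (nat_lit 5) (nat_lit 9) (nat_lit 4) (nat_lit 7) (nat_lit 4) (nat_lit 426) (nat_lit 281) (nat_lit 238))))) (XT.nd (nat_lit 282) (nat_lit 84) (nat_lit 0) (XT.nd (nat_lit 94) (nat_lit 0) (nat_lit 0) (XT.lf (nat_lit 0) (nat_lit 16468617527) (nat_lit 168) (nat_lit 16948825355) (nat_lit 0) (nat_lit 4950869071) (nat_lit 7) (nat_lit 5) (nat_lit 9) (nat_lit 4) (nat_lit 7) (nat_lit 4) (nat_lit 427) (nat_lit 281) (nat_lit 237)) (XT.nd (nat_lit 94) (nat_lit 0) (nat_lit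 0) (XT.lf (nat_lit 0) (nat_lit 19641737239) (nat_lit 168) (nat_lit 11782872841) (nat_lit 0) (nat_lit 7998413490) (nat_lit 7) (nat_lit 5) (nat_lit 9) (nat_lit 4) (nat_lit 7) (nat_lit 4) (nat_lit 428) (nat_lit 281) (nat_lit 236)) (XT.lf (nat_lit 0) (nat_lit 22877962918) (nat_lit 168) (nat_lit 6519672334) (nat_lit 0) (nat_lit 11112721409) (nat_lit 7) (nat_lit 5) (nat_lit 9) (nat_lit 4) (nat_lit 7) (nat_lit 4) (nat_lit 429) (nat_lit 281) (nat_lit 235)))) (XT.nd (nat_lit 188) (nat_lit 0) (nat_lit 0) (XT.nd (nat_lit 94) (nat_lit 84) (nat_lit 0) (XT.lf (nat_lit 0) (nat_lit 26180122334) (nat_lit 168) (nat_lit 1154624920) (nat_lit 0) (nat_lit 14296514067) (nat_lit 7) (nat_lit 5) (nat_lit 9) (nat_lit 4) (nat_lit 7) (nat_lit 4) (nat_lit 430) (nat_lit 281) (nat_lit 234)) (XT.lf (nat_lit 0) (nat_lit 4402873220) (nat_lit 84) (nat_lit 25190550759) (nat_lit 84) (nat_lit 13192023310) (nat_lit 6) (nat_lit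 4) (nat_lit 7) (nat_lit 5) (nat_lit 7) (nat_lit 4) (nat_lit 431) (nat_lit 281) (nat_lit 233))) (XT.nd (nat_lit 94) (nat_lit 0) (nat_lit 0) (XT.lf (nat_lit 0) (nat_lit 10096881871) (nat_lit 84) (nat_lit 22994019571) (nat_lit 84) (nat_lit 10883920101) (nat_lit 6) (nat_lit 4) (nat_lit 7) (nat_lit 5) (nat_lit 7) (nat_lit 4) (nat_lit 432) (nat_lit 281) (nat_lit 232)) (XT.lf (nat_lit 0) (nat_lit 15909397079) (nat_lit 84) (nat_lit 20754893841) (nat_lit 84) (nat_lit 8536472020) (nat_lit 6) (nat_lit 4) (nat_lit 7) (nat_lit 5) (nat_lit 7) (nat_lit 4) (nat_lit 433) (nat_lit 281) (nat_lit 231))))))))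
noncomputable def xc21 : XT := (XT.nd (nat_lit 54426) (nat_lit 0) (nat_lit 840) (XT.nd (nat_lit 1222) (nat_lit 84) (nat_lit 0) (XT.nd (nat_lit 564) (nat_lit 0) (nat_lit 0) (XT.nd (nat_lit 282) (nat_lit 168) (nat_lit 0) (XT.nd (nat_lit 94) (nat_lit 0) (nat_lit 0) (XT.lf (nat_lit 0) (nat_lit 21845497740) (nat_lit 84) (nat_lit 18471217050) (nat_lit 84) (nat_lit 6147627899) (nat_lit 6) (nat_lit 4) (nat_lit 7) (nat_lit 5) (nat_lit 7) (nat_lit 4) (nat_lit 434) (nat_lit 281) (nat_lit 230)) (XT.nd (nat_lit 94) (nat_lit 0) (nat_lit 0) (XT.lf (nat_lit 0) (nat_lit 27910370739) (nat_lit 84) (nat_lit 16140993753) (nat_lit 84) (nat_lit 3715300397) (nat_lit 6) (nat_lit 4) (nat_lit 7) (nat_lit 5) (nat_lit 7) (nat_lit 4) (nat_lit 435) (nat_lit 281) (nat_lit 229)) (XT.lf (nat_lit 0) (nat_lit 34109315479) (nat_lit 84) (nat_lit 13762187832) (nat_lit 84) (nat_lit 1237364180) (nat_lit 6) (nat_lit 4) (nat_lit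 7) (nat_lit 5) (nat_lit 7) (nat_lit 4) (nat_lit 436) (nat_lit 281) (nat_lit 228)))) (XT.nd (nat_lit 94) (nat_lit 84) (nat_lit 0) (XT.lf (nat_lit 0) (nat_lit 1263205668) (nat_lit 168) (nat_lit 10056759150) (nat_lit 84) (nat_lit 39171786945) (nat_lit 5) (nat_lit 5) (nat_lit 7) (nat_lit 5) (nat_lit 6) (nat_lit 4) (nat_lit 437) (nat_lit 281) (nat_lit 227)) (XT.nd (nat_lit 94) (nat_lit 84) (nat_lit 0) (XT.lf (nat_lit 0) (nat_lit 3788635612) (nat_lit 168) (nat_lit 5023576175) (nat_lit 84) (nat_lit 43104314877) (nat_lit 5) (nat_lit 5) (nat_lit 7) (nat_lit 5) (nat_lit 6) (nat_lit 4) (nat_lit 438) (nat_lit 281) (nat_lit 226)) (XT.lf (nat_lit 0) (nat_lit 118603521) (nat_lit 84) (nat_lit 6247814337) (nat_lit 168) (nat_lit 47018341911) (nat_lit 4) (nat_lit 5) (nat_lit 5) (nat_lit 5) (nat_lit 6) (nat_lit 4) (nat_lit 439) (nat_lit 281) (nat_lit 225))))) (XT.nd (nat_lit 282) (nat_lit 0) (nat_lit 0) (XT.nd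 (nat_lit 94) (nat_lit 0) (nat_lit 0) (XT.lf (nat_lit 0) (nat_lit 5474148290) (nat_lit 84) (nat_lit 3573856145) (nat_lit 168) (nat_lit 45848253576) (nat_lit 4) (nat_lit 5) (nat_lit 5) (nat_lit 5) (nat_lit 6) (nat_lit 4) (nat_lit 440) (nat_lit 281) (nat_lit 224)) (XT.nd (nat_lit 94) (nat_lit 0) (nat_lit 0) (XT.lf (nat_lit 0) (nat_lit 10947758718) (nat_lit 84) (nat_lit 838729014) (nat_lit 168) (nat_lit 44667331911) (nat_lit 4) (nat_lit 5) (nat_lit 5) (nat_lit 5) (nat_lit 6) (nat_lit 4) (nat_lit 441) (nat_lit 281) (nat_lit 223)) (XT.lf (nat_lit 0) (nat_lit 14603100902) (nat_lit 168) (nat_lit 41533428373) (nat_lit 0) (nat_lit 1921711152) (nat_lit 4) (nat_lit 5) (nat_lit 6) (nat_lit 4) (nat_lit 4) (nat_lit 4) (nat_lit 442) (nat_lit 281) (nat_lit 222)))) (XT.nd (nat_lit 188) (nat_lit 0) (nat_lit 0) (XT.nd (nat_lit 94) (nat_lit 0) (nat_lit 0) (XT.lf (nat_lit 0) (nat_lit 17490145145) (nat_lit 168)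 (nat_lit 37490580916) (nat_lit 0) (nat_lit 4730501024) (nat_lit 4) (nat_lit 5) (nat_lit 6) (nat_lit 4) (nat_lit 4) (nat_lit 4) (nat_lit 443) (nat_lit 281) (nat_lit 221)) (XT.lf (nat_lit 0) (nat_lit 20442080745) (nat_lit 168) (nat_lit 33365923591) (nat_lit 0) (nat_lit 7606461508) (nat_lit 4) (nat_lit 5) (nat_lit 6) (nat_lit 4) (nat_lit 4) (nat_lit 4) (nat_lit 444) (nat_lit 281) (nat_lit 220))) (XT.nd (nat_lit 94) (nat_lit 0) (nat_lit 0) (XT.lf (nat_lit 0) (nat_lit 23461487065) (nat_lit 168) (nat_lit 29155852330) (nat_lit 0) (nat_lit 10552105577) (nat_lit 4) (nat_lit 5) (nat_lit 6) (nat_lit 4) (nat_lit 4) (nat_lit 4) (nat_lit 445) (nat_lit 281) (nat_lit 219)) (XT.lf (nat_lit 0) (nat_lit 26551002419) (nat_lit 168) (nat_lit 24856688429) (nat_lit 0) (nat_lit 13570007096) (nat_lit 4) (nat_lit 5) (nat_lit 6) (nat_lit 4) (nat_lit 4) (nat_lit 4) (nat_lit 446) (nat_lit 281) (nat_lit 218)))))) (XT.nd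 (nat_lit 658) (nat_lit 0) (nat_lit 0) (XT.nd (nat_lit 282) (nat_lit 84) (nat_lit 0) (XT.nd (nat_lit 94) (nat_lit 0) (nat_lit 0) (XT.lf (nat_lit 0) (nat_lit 29713326384) (nat_lit 168) (nat_lit 20464675338) (nat_lit 0) (nat_lit 16662803066) (nat_lit 4) (nat_lit 5) (nat_lit 6) (nat_lit 4) (nat_lit 4) (nat_lit 4) (nat_lit 447) (nat_lit 281) (nat_lit 217)) (XT.nd (nat_lit 94) (nat_lit 0) (nat_lit 0) (XT.lf (nat_lit 0) (nat_lit 32951222156) (nat_lit 168) (nat_lit 15975975375) (nat_lit 0) (nat_lit 19833195931) (nat_lit 4) (nat_lit 5) (nat_lit 6) (nat_lit 4) (nat_lit 4) (nat_lit 4) (nat_lit 448) (nat_lit 281) (nat_lit 216)) (XT.lf (nat_lit 0) (nat_lit 36267518965) (nat_lit 168) (nat_lit 11386666375) (nat_lit 0) (nat_lit 23083955936) (nat_lit 4) (nat_lit 5) (nat_lit 6) (nat_lit 4) (nat_lit 4) (nat_lit 4) (nat_lit 449) (nat_lit 281) (nat_lit 215)))) (XT.nd (nat_lit 188) (nat_lit 84) (nat_lit 0)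 (XT.nd (nat_lit 94) (nat_lit 0) (nat_lit 0) (XT.lf (nat_lit 0) (nat_lit 39665114545) (nat_lit 168) (nat_lit 6692738263) (nat_lit 0) (nat_lit 26417923552) (nat_lit 4) (nat_lit 5) (nat_lit 6) (nat_lit 4) (nat_lit 4) (nat_lit 4) (nat_lit 450) (nat_lit 281) (nat_lit 214)) (XT.lf (nat_lit 0) (nat_lit 43146977670) (nat_lit 168) (nat_lit 1890089547) (nat_lit 0) (nat_lit 29838011953) (nat_lit 4) (nat_lit 5) (nat_lit 6) (nat_lit 4) (nat_lit 4) (nat_lit 4) (nat_lit 451) (nat_lit 281) (nat_lit 213))) (XT.nd (nat_lit 94) (nat_lit 0) (nat_lit 0) (XT.lf (nat_lit 0) (nat_lit 3085689170) (nat_lit 84) (nat_lit 43660123105) (nat_lit 84) (nat_lit 30291181929) (nat_lit 3) (nat_lit 4) (nat_lit 4) (nat_lit 5) (nat_lit 4) (nat_lit 4) (nat_lit 452) (nat_lit 281) (nat_lit 212)) (XT.lf (nat_lit 0) (nat_lit 8218629376) (nat_lit 84) (nat_lit 42236125577) (nat_lit 84) (nat_lit 28808955800) (nat_lit 3) (nat_lit 4)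 (nat_lit 4) (nat_lit 5) (nat_lit 4) (nat_lit 4) (nat_lit 453) (nat_lit 281) (nat_lit 211))))) (XT.nd (nat_lit 282) (nat_lit 0) (nat_lit 0) (XT.nd (nat_lit 94) (nat_lit 0) (nat_lit 0) (XT.lf (nat_lit 0) (nat_lit 13475599677) (nat_lit 84) (nat_lit 40782916562) (nat_lit 84) (nat_lit 27299214163) (nat_lit 3) (nat_lit 4) (nat_lit 4) (nat_lit 5) (nat_lit 4) (nat_lit 4) (nat_lit 454) (nat_lit 281) (nat_lit 210)) (XT.nd (nat_lit 94) (nat_lit 0) (nat_lit 0) (XT.lf (nat_lit 0) (nat_lit 18861193541) (nat_lit 84) (nat_lit 39299226267) (nat_lit 84) (nat_lit 25760637826) (nat_lit 3) (nat_lit 4) (nat_lit 4) (nat_lit 5) (nat_lit 4) (nat_lit 4) (nat_lit 455) (nat_lit 281) (nat_lit 209)) (XT.lf (nat_lit 0) (nat_lit 24380116826) (nat_lit 84) (nat_lit 37783758262) (nat_lit 84) (nat_lit 24191882402) (nat_lit 3) (nat_lit 4) (nat_lit 4) (nat_lit 5) (nat_lit 4) (nat_lit 4) (nat_lit 456) (nat_lit 281) (nat_lit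 208)))) (XT.nd (nat_lit 188) (nat_lit 0) (nat_lit 0) (XT.nd (nat_lit 94) (nat_lit 0) (nat_lit 0) (XT.lf (nat_lit 0) (nat_lit 30037191894) (nat_lit 84) (nat_lit 36235188352) (nat_lit 84) (nat_lit 22591577135) (nat_lit 3) (nat_lit 4) (nat_lit 4) (nat_lit 5) (nat_lit 4) (nat_lit 4) (nat_lit 457) (nat_lit 281) (nat_lit 207)) (XT.lf (nat_lit 0) (nat_lit 35837361819) (nat_lit 84) (nat_lit 34652163418) (nat_lit 84) (nat_lit 20958323698) (nat_lit 3) (nat_lit 4) (nat_lit 4) (nat_lit 5) (nat_lit 4) (nat_lit 4) (nat_lit 458) (nat_lit 281) (nat_lit 206))) (XT.nd (nat_lit 51982) (nat_lit 0) (nat_lit 2940) (XT.lf (nat_lit 0) (nat_lit 41785694711) (nat_lit 84) (nat_lit 33033300235) (nat_lit 84) (nat_lit 19290694977) (nat_lit 3) (nat_lit 4) (nat_lit 4) (nat_lit 5) (nat_lit 4) (nat_lit 4) (nat_lit 459) (nat_lit 281) (nat_lit 205)) (XT.lf (nat_lit 0) (nat_lit 5990397049) (nat_lit 252) (nat_lit 208350495)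 (nat_lit 252) (nat_lit 208350495) (nat_lit 38) (nat_lit 4) (nat_lit 41) (nat_lit 5) (nat_lit 41) (nat_lit 4) (nat_lit 381) (nat_lit 282) (nat_lit 282))))))) (XT.nd (nat_lit 1316) (nat_lit 672) (nat_lit 0) (XT.nd (nat_lit 658) (nat_lit 588) (nat_lit 0) (XT.nd (nat_lit 282) (nat_lit 420) (nat_lit 0) (XT.nd (nat_lit 94) (nat_lit 168) (nat_lit 0) (XT.lf (nat_lit 0) (nat_lit 3367452471) (nat_lit 252) (nat_lit 6911970880) (nat_lit 0) (nat_lit 2783416113) (nat_lit 35) (nat_lit 5) (nat_lit 38) (nat_lit 4) (nat_lit 35) (nat_lit 4) (nat_lit 382) (nat_lit 282) (nat_lit 281)) (XT.nd (nat_lit 94) (nat_lit 168) (nat_lit 0) (XT.lf (nat_lit 0) (nat_lit 7184314417) (nat_lit 252) (nat_lit 103506085) (nat_lit 0) (nat_lit 6033252468) (nat_lit 35) (nat_lit 5) (nat_lit 38) (nat_lit 4) (nat_lit 35) (nat_lit 4) (nat_lit 383) (nat_lit 282) (nat_lit 280)) (XT.lf (nat_lit 0) (nat_lit 6909841983) (nat_lit 168) (nat_lit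 4189673861) (nat_lit 168) (nat_lit 2488101629) (nat_lit 33) (nat_lit 4) (nat_lit 35) (nat_lit 5) (nat_lit 35) (nat_lit 4) (nat_lit 384) (nat_lit 282) (nat_lit 279)))) (XT.nd (nat_lit 188) (nat_lit 168) (nat_lit 0) (XT.nd (nat_lit 94) (nat_lit 0) (nat_lit 0) (XT.lf (nat_lit 0) (nat_lit 129285579) (nat_lit 168) (nat_lit 1035903490) (nat_lit 252) (nat_lit 12699078762) (nat_lit 30) (nat_lit 5) (nat_lit 32) (nat_lit 5) (nat_lit 33) (nat_lit 4) (nat_lit 385) (nat_lit 282) (nat_lit 278)) (XT.lf (nat_lit 0) (nat_lit 4885712876) (nat_lit 252) (nat_lit 7051611430) (nat_lit 0) (nat_lit 2210997367) (nat_lit 30) (nat_lit 5) (nat_lit 33) (nat_lit 4) (nat_lit 30) (nat_lit 4) (nat_lit 386) (nat_lit 282) (nat_lit 277))) (XT.nd (nat_lit 94) (nat_lit 168) (nat_lit 0) (XT.lf (nat_lit 0) (nat_lit 8648764172) (nat_lit 252) (nat_lit 309348386) (nat_lit 0) (nat_lit 5484927408) (nat_lit 30) (nat_lit 5) (nat_lit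 33) (nat_lit 4) (nat_lit 30) (nat_lit 4) (nat_lit 387) (nat_lit 282) (nat_lit 276)) (XT.lf (nat_lit 0) (nat_lit 6637171027) (nat_lit 168) (nat_lit 5874302846) (nat_lit 168) (nat_lit 2235591076) (nat_lit 28) (nat_lit 4) (nat_lit 30) (nat_lit 5) (nat_lit 30) (nat_lit 4) (nat_lit 388) (nat_lit 282) (nat_lit 275))))) (XT.nd (nat_lit 282) (nat_lit 336) (nat_lit 0) (XT.nd (nat_lit 94) (nat_lit 168) (nat_lit 0) (XT.lf (nat_lit 0) (nat_lit 1328286106) (nat_lit 252) (nat_lit 1403334666) (nat_lit 84) (nat_lit 12330451797) (nat_lit 27) (nat_lit 5) (nat_lit 30) (nat_lit 5) (nat_lit 28) (nat_lit 4) (nat_lit 389) (nat_lit 282) (nat_lit 274)) (XT.nd (nat_lit 94) (nat_lit 0) (nat_lit 0) (XT.lf (nat_lit 0) (nat_lit 4937214038) (nat_lit 252) (nat_lit 9926931651) (nat_lit 0) (nat_lit 522291028) (nat_lit 25) (nat_lit 5) (nat_lit 28) (nat_lit 4) (nat_lit 25) (nat_lit 4) (nat_lit 390) (nat_lit 282) (nat_lit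 273)) (XT.lf (nat_lit 0) (nat_lit 8621699535) (nat_lit 252) (nat_lit 3315017876) (nat_lit 0) (nat_lit 3784856233) (nat_lit 25) (nat_lit 5) (nat_lit 28) (nat_lit 4) (nat_lit 25) (nat_lit 4) (nat_lit 391) (nat_lit 282) (nat_lit 272)))) (XT.nd (nat_lit 188) (nat_lit 168) (nat_lit 0) (XT.nd (nat_lit 94) (nat_lit 0) (nat_lit 0) (XT.lf (nat_lit 0) (nat_lit 3441316337) (nat_lit 168) (nat_lit 8936573337) (nat_lit 168) (nat_lit 3690098684) (nat_lit 23) (nat_lit 4) (nat_lit 25) (nat_lit 5) (nat_lit 25) (nat_lit 4) (nat_lit 392) (nat_lit 282) (nat_lit 271)) (XT.lf (nat_lit 0) (nat_lit 10348392895) (nat_lit 168) (nat_lit 5860879736) (nat_lit 168) (nat_lit 216704742) (nat_lit 23) (nat_lit 4) (nat_lit 25) (nat_lit 5) (nat_lit 25) (nat_lit 4) (nat_lit 393) (nat_lit 282) (nat_lit 270))) (XT.nd (nat_lit 94) (nat_lit 0) (nat_lit 0) (XT.lf (nat_lit 0) (nat_lit 528124646) (nat_lit 84) (nat_lit 2702622386)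 (nat_lit 168) (nat_lit 13564980439) (nat_lit 21) (nat_lit 5) (nat_lit 22) (nat_lit 5) (nat_lit 23) (nat_lit 4) (nat_lit 394) (nat_lit 282) (nat_lit 269)) (XT.lf (nat_lit 0) (nat_lit 6775344686) (nat_lit 168) (nat_lit 9844530635) (nat_lit 0) (nat_lit 556740274) (nat_lit 21) (nat_lit 5) (nat_lit 23) (nat_lit 4) (nat_lit 21) (nat_lit 4) (nat_lit 395) (nat_lit 282) (nat_lit 268)))))) (XT.nd (nat_lit 658) (nat_lit 336) (nat_lit 0) (XT.nd (nat_lit 282) (nat_lit 168) (nat_lit 0) (XT.nd (nat_lit 94) (nat_lit 168) (nat_lit 0) (XT.lf (nat_lit 0) (nat_lit 10385862145) (nat_lit 168) (nat_lit 3370425339) (nat_lit 0) (nat_lit 3813906131) (nat_lit 21) (nat_lit 5) (nat_lit 23) (nat_lit 4) (nat_lit 21) (nat_lit 4) (nat_lit 396) (nat_lit 282) (nat_lit 267)) (XT.nd (nat_lit 94) (nat_lit 0) (nat_lit 0) (XT.lf (nat_lit 0) (nat_lit 3249763907) (nat_lit 168) (nat_lit 10820949781) (nat_lit 168) (nat_lit 3905933959)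 (nat_lit 19) (nat_lit 4) (nat_lit 21) (nat_lit 5) (nat_lit 21) (nat_lit 4) (nat_lit 397) (nat_lit 282) (nat_lit 266)) (XT.lf (nat_lit 0) (nat_lit 10027189104) (nat_lit 168) (nat_lit 7808574010) (nat_lit 168) (nat_lit 560490414) (nat_lit 19) (nat_lit 4) (nat_lit 21) (nat_lit 5) (nat_lit 21) (nat_lit 4) (nat_lit 398) (nat_lit 282) (nat_lit 265)))) (XT.nd (nat_lit 188) (nat_lit 0) (nat_lit 0) (XT.nd (nat_lit 94) (nat_lit 84) (nat_lit 0) (XT.lf (nat_lit 0) (nat_lit 2765842002) (nat_lit 252) (nat_lit 1956791101) (nat_lit 84) (nat_lit 14106922615) (nat_lit 18) (nat_lit 5) (nat_lit 21) (nat_lit 5) (nat_lit 19) (nat_lit 4) (nat_lit 399) (nat_lit 282) (nat_lit 264)) (XT.lf (nat_lit 0) (nat_lit 4627210924) (nat_lit 84) (nat_lit 1536636175) (nat_lit 168) (nat_lit 13112392693) (nat_lit 17) (nat_lit 5) (nat_lit 18) (nat_lit 5) (nat_lit 19) (nat_lit 4) (nat_lit 400) (nat_lit 282) (nat_lit 263))) (XT.nd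 (nat_lit 94) (nat_lit 0) (nat_lit 0) (XT.lf (nat_lit 0) (nat_lit 9639551833) (nat_lit 168) (nat_lit 8409643691) (nat_lit 0) (nat_lit 1687898547) (nat_lit 17) (nat_lit 5) (nat_lit 19) (nat_lit 4) (nat_lit 17) (nat_lit 4) (nat_lit 401) (nat_lit 282) (nat_lit 262)) (XT.lf (nat_lit 0) (nat_lit 13175548385) (nat_lit 168) (nat_lit 2100998290) (nat_lit 0) (nat_lit 4936587912) (nat_lit 17) (nat_lit 5) (nat_lit 19) (nat_lit 4) (nat_lit 17) (nat_lit 4) (nat_lit 402) (nat_lit 282) (nat_lit 261))))) (XT.nd (nat_lit 282) (nat_lit 84) (nat_lit 0) (XT.nd (nat_lit 94) (nat_lit 84) (nat_lit 0) (XT.lf (nat_lit 0) (nat_lit 4382713352) (nat_lit 168) (nat_lit 12419571345) (nat_lit 168) (nat_lit 3901671854) (nat_lit 15) (nat_lit 4) (nat_lit 17) (nat_lit 5) (nat_lit 17) (nat_lit 4) (nat_lit 403) (nat_lit 282) (nat_lit 260)) (XT.nd (nat_lit 94) (nat_lit 84) (nat_lit 0) (XT.lf (nat_lit 0) (nat_lit 11005266710)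 (nat_lit 168) (nat_lit 9497027630) (nat_lit 168) (nat_lit 708313559) (nat_lit 15) (nat_lit 4) (nat_lit 17) (nat_lit 5) (nat_lit 17) (nat_lit 4) (nat_lit 404) (nat_lit 282) (nat_lit 259)) (XT.lf (nat_lit 0) (nat_lit 2474809471) (nat_lit 252) (nat_lit 4027777620) (nat_lit 84) (nat_lit 15230834299) (nat_lit 14) (nat_lit 5) (nat_lit 17) (nat_lit 5) (nat_lit 15) (nat_lit 4) (nat_lit 405) (nat_lit 282) (nat_lit 258)))) (XT.nd (nat_lit 188) (nat_lit 0) (nat_lit 0) (XT.nd (nat_lit 94) (nat_lit 0) (nat_lit 0) (XT.lf (nat_lit 0) (nat_lit 2278377813) (nat_lit 84) (nat_lit 3428660303) (nat_lit 168) (nat_lit 16565670897) (nat_lit 13) (nat_lit 5) (nat_lit 14) (nat_lit 5) (nat_lit 15) (nat_lit 4) (nat_lit 406) (nat_lit 282) (nat_lit 257)) (XT.lf (nat_lit 0) (nat_lit 8763025355) (nat_lit 84) (nat_lit 260505985) (nat_lit 168) (nat_lit 13805059520) (nat_lit 13) (nat_lit 5) (nat_lit 14) (nat_lit 5) (nat_lit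 15) (nat_lit 4) (nat_lit 407) (nat_lit 282) (nat_lit 256))) (XT.nd (nat_lit 94) (nat_lit 0) (nat_lit 0) (XT.lf (nat_lit 0) (nat_lit 12416190544) (nat_lit 168) (nat_lit 8079558274) (nat_lit 0) (nat_lit 2906133734) (nat_lit 13) (nat_lit 5) (nat_lit 15) (nat_lit 4) (nat_lit 13) (nat_lit 4) (nat_lit 408) (nat_lit 282) (nat_lit 255)) (XT.lf (nat_lit 0) (nat_lit 15862536420) (nat_lit 168) (nat_lit 2005635250) (nat_lit 0) (nat_lit 6125676663) (nat_lit 13) (nat_lit 5) (nat_lit 15) (nat_lit 4) (nat_lit 13) (nat_lit 4) (nat_lit 409) (nat_lit 282) (nat_lit 254))))))))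
noncomputable def xc22 : XT := (XT.nd (nat_lit 2538) (nat_lit 252) (nat_lit 0) (XT.nd (nat_lit 1222) (nat_lit 168) (nat_lit 0) (XT.nd (nat_lit 564) (nat_lit 168) (nat_lit 0) (XT.nd (nat_lit 282) (nat_lit 84) (nat_lit 0) (XT.nd (nat_lit 94) (nat_lit 84) (nat_lit 0) (XT.lf (nat_lit 0) (nat_lit 4246887084) (nat_lit 84) (nat_lit 15157012790) (nat_lit 84) (nat_lit 5199955997) (nat_lit 12) (nat_lit 4) (nat_lit 13) (nat_lit 5) (nat_lit 13) (nat_lit 4) (nat_lit 410) (nat_lit 282) (nat_lit 253)) (XT.nd (nat_lit 94) (nat_lit 84) (nat_lit 0) (XT.lf (nat_lit 0) (nat_lit 10642456147) (nat_lit 84) (nat_lit 12380714253) (nat_lit 84) (nat_lit 2209873929) (nat_lit 12) (nat_lit 4) (nat_lit 13) (nat_lit 5) (nat_lit 13) (nat_lit 4) (nat_lit 411) (nat_lit 282) (nat_lit 252)) (XT.lf (nat_lit 0) (nat_lit 805267595) (nat_lit 168) (nat_lit 8743703931) (nat_lit 84) (nat_lit 16333345007) (nat_lit 11) (nat_lit 5)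 (nat_lit 13) (nat_lit 5) (nat_lit 12) (nat_lit 4) (nat_lit 412) (nat_lit 282) (nat_lit 251)))) (XT.nd (nat_lit 94) (nat_lit 84) (nat_lit 0) (XT.lf (nat_lit 0) (nat_lit 3820167557) (nat_lit 168) (nat_lit 2824968488) (nat_lit 84) (nat_lit 19906690918) (nat_lit 11) (nat_lit 5) (nat_lit 13) (nat_lit 5) (nat_lit 12) (nat_lit 4) (nat_lit 413) (nat_lit 282) (nat_lit 250)) (XT.nd (nat_lit 94) (nat_lit 0) (nat_lit 0) (XT.lf (nat_lit 0) (nat_lit 3255560221) (nat_lit 84) (nat_lit 3656317150) (nat_lit 168) (nat_lit 20329981708) (nat_lit 10) (nat_lit 5) (nat_lit 11) (nat_lit 5) (nat_lit 12) (nat_lit 4) (nat_lit 414) (nat_lit 282) (nat_lit 249)) (XT.lf (nat_lit 0) (nat_lit 9497894792) (nat_lit 84) (nat_lit 582592663) (nat_lit 168) (nat_lit 17872606699) (nat_lit 10) (nat_lit 5) (nat_lit 11) (nat_lit 5) (nat_lit 12) (nat_lit 4) (nat_lit 415) (nat_lit 282) (nat_lit 248))))) (XT.nd (nat_lit 282) (nat_lit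 168) (nat_lit 0) (XT.nd (nat_lit 94) (nat_lit 0) (nat_lit 0) (XT.lf (nat_lit 0) (nat_lit 13325584774) (nat_lit 168) (nat_lit 12860231298) (nat_lit 0) (nat_lit 2500433033) (nat_lit 10) (nat_lit 5) (nat_lit 12) (nat_lit 4) (nat_lit 10) (nat_lit 4) (nat_lit 416) (nat_lit 282) (nat_lit 247)) (XT.nd (nat_lit 94) (nat_lit 0) (nat_lit 0) (XT.lf (nat_lit 0) (nat_lit 16631663698) (nat_lit 168) (nat_lit 7178164707) (nat_lit 0) (nat_lit 5632686383) (nat_lit 10) (nat_lit 5) (nat_lit 12) (nat_lit 4) (nat_lit 10) (nat_lit 4) (nat_lit 417) (nat_lit 282) (nat_lit 246)) (XT.lf (nat_lit 0) (nat_lit 19996012798) (nat_lit 168) (nat_lit 1398434438) (nat_lit 0) (nat_lit 8828272790) (nat_lit 10) (nat_lit 5) (nat_lit 12) (nat_lit 4) (nat_lit 10) (nat_lit 4) (nat_lit 418) (nat_lit 282) (nat_lit 245)))) (XT.nd (nat_lit 188) (nat_lit 84) (nat_lit 0) (XT.nd (nat_lit 94) (nat_lit 0) (nat_lit 0) (XT.lf (nat_lit 0)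 (nat_lit 4573250342) (nat_lit 84) (nat_lit 18892282332) (nat_lit 84) (nat_lit 7560695049) (nat_lit 9) (nat_lit 4) (nat_lit 10) (nat_lit 5) (nat_lit 10) (nat_lit 4) (nat_lit 419) (nat_lit 282) (nat_lit 244)) (XT.lf (nat_lit 0) (nat_lit 10682767143) (nat_lit 84) (nat_lit 16331256046) (nat_lit 84) (nat_lit 4840593740) (nat_lit 9) (nat_lit 4) (nat_lit 10) (nat_lit 5) (nat_lit 10) (nat_lit 4) (nat_lit 420) (nat_lit 282) (nat_lit 243))) (XT.nd (nat_lit 94) (nat_lit 84) (nat_lit 0) (XT.lf (nat_lit 0) (nat_lit 16907622787) (nat_lit 84) (nat_lit 13723252036) (nat_lit 84) (nat_lit 2078147958) (nat_lit 9) (nat_lit 4) (nat_lit 10) (nat_lit 5) (nat_lit 10) (nat_lit 4) (nat_lit 421) (nat_lit 282) (nat_lit 242)) (XT.lf (nat_lit 0) (nat_lit 714829571) (nat_lit 168) (nat_lit 10343943513) (nat_lit 84) (nat_lit 22531208520) (nat_lit 8) (nat_lit 5) (nat_lit 10) (nat_lit 5) (nat_lit 9) (nat_lit 4) (nat_lit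 422) (nat_lit 282) (nat_lit 241)))))) (XT.nd (nat_lit 658) (nat_lit 84) (nat_lit 0) (XT.nd (nat_lit 282) (nat_lit 0) (nat_lit 0) (XT.nd (nat_lit 94) (nat_lit 84) (nat_lit 0) (XT.lf (nat_lit 0) (nat_lit 3513544847) (nat_lit 168) (nat_lit 4808127685) (nat_lit 84) (nat_lit 26176188157) (nat_lit 8) (nat_lit 5) (nat_lit 10) (nat_lit 5) (nat_lit 9) (nat_lit 4) (nat_lit 423) (nat_lit 282) (nat_lit 240)) (XT.nd (nat_lit 94) (nat_lit 0) (nat_lit 0) (XT.lf (nat_lit 0) (nat_lit 847396802) (nat_lit 84) (nat_lit 5521744392) (nat_lit 168) (nat_lit 29064667053) (nat_lit 7) (nat_lit 5) (nat_lit 8) (nat_lit 5) (nat_lit 9) (nat_lit 4) (nat_lit 424) (nat_lit 282) (nat_lit 239)) (XT.lf (nat_lit 0) (nat_lit 6708864032) (nat_lit 84) (nat_lit 2615295262) (nat_lit 168) (nat_lit 27073281442) (nat_lit 7) (nat_lit 5) (nat_lit 8) (nat_lit 5) (nat_lit 9) (nat_lit 4) (nat_lit 425) (nat_lit 282) (nat_lit 238)))) (XT.nd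 (nat_lit 188) (nat_lit 0) (nat_lit 0) (XT.nd (nat_lit 94) (nat_lit 0) (nat_lit 0) (XT.lf (nat_lit 0) (nat_lit 12337423083) (nat_lit 168) (nat_lit 24708690201) (nat_lit 0) (nat_lit 344799622) (nat_lit 7) (nat_lit 5) (nat_lit 9) (nat_lit 4) (nat_lit 7) (nat_lit 4) (nat_lit 426) (nat_lit 282) (nat_lit 237)) (XT.lf (nat_lit 0) (nat_lit 15433928544) (nat_lit 168) (nat_lit 19664763614) (nat_lit 0) (nat_lit 3315729790) (nat_lit 7) (nat_lit 5) (nat_lit 9) (nat_lit 4) (nat_lit 7) (nat_lit 4) (nat_lit 427) (nat_lit 282) (nat_lit 236))) (XT.nd (nat_lit 94) (nat_lit 0) (nat_lit 0) (XT.lf (nat_lit 0) (nat_lit 18591241545) (nat_lit 168) (nat_lit 14527249811) (nat_lit 0) (nat_lit 6351125030) (nat_lit 7) (nat_lit 5) (nat_lit 9) (nat_lit 4) (nat_lit 7) (nat_lit 4) (nat_lit 428) (nat_lit 282) (nat_lit 235)) (XT.lf (nat_lit 0) (nat_lit 21812120902) (nat_lit 168) (nat_lit 9291659702) (nat_lit 0) (nat_lit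 9453637630) (nat_lit 7) (nat_lit 5) (nat_lit 9) (nat_lit 4) (nat_lit 7) (nat_lit 4) (nat_lit 429) (nat_lit 282) (nat_lit 234))))) (XT.nd (nat_lit 282) (nat_lit 0) (nat_lit 0) (XT.nd (nat_lit 94) (nat_lit 84) (nat_lit 0) (XT.lf (nat_lit 0) (nat_lit 25099380976) (nat_lit 168) (nat_lit 3953418499) (nat_lit 0) (nat_lit 12625978522) (nat_lit 7) (nat_lit 5) (nat_lit 9) (nat_lit 4) (nat_lit 7) (nat_lit 4) (nat_lit 430) (nat_lit 282) (nat_lit 233)) (XT.nd (nat_lit 94) (nat_lit 0) (nat_lit 0) (XT.lf (nat_lit 0) (nat_lit 1521834755) (nat_lit 84) (nat_lit 26948688182) (nat_lit 84) (nat_lit 14363713707) (nat_lit 6) (nat_lit 4) (nat_lit 7) (nat_lit 5) (nat_lit 7) (nat_lit 4) (nat_lit 431) (nat_lit 282) (nat_lit 232)) (XT.lf (nat_lit 0) (nat_lit 7190073109) (nat_lit 84) (nat_lit 24763635513) (nat_lit 84) (nat_lit 12070338687) (nat_lit 6) (nat_lit 4) (nat_lit 7) (nat_lit 5) (nat_lit 7) (nat_lit 4) (nat_lit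 432) (nat_lit 282) (nat_lit 231)))) (XT.nd (nat_lit 188) (nat_lit 0) (nat_lit 0) (XT.nd (nat_lit 94) (nat_lit 0) (nat_lit 0) (XT.lf (nat_lit 0) (nat_lit 12977568611) (nat_lit 84) (nat_lit 22535653975) (nat_lit 84) (nat_lit 9737189819) (nat_lit 6) (nat_lit 4) (nat_lit 7) (nat_lit 5) (nat_lit 7) (nat_lit 4) (nat_lit 433) (nat_lit 282) (nat_lit 230)) (XT.lf (nat_lit 0) (nat_lit 18889378296) (nat_lit 84) (nat_lit 20262796789) (nat_lit 84) (nat_lit 7362228428) (nat_lit 6) (nat_lit 4) (nat_lit 7) (nat_lit 5) (nat_lit 7) (nat_lit 4) (nat_lit 434) (nat_lit 282) (nat_lit 229))) (XT.nd (nat_lit 94) (nat_lit 0) (nat_lit 0) (XT.lf (nat_lit 0) (nat_lit 24930667822) (nat_lit 84) (nat_lit 17943077962) (nat_lit 84) (nat_lit 4943379305) (nat_lit 6) (nat_lit 4) (nat_lit 7) (nat_lit 5) (nat_lit 7) (nat_lit 4) (nat_lit 435) (nat_lit 282) (nat_lit 228)) (XT.lf (nat_lit 0) (nat_lit 31106715987) (nat_lit 84)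 (nat_lit 15574470556) (nat_lit 84) (nat_lit 2478528894) (nat_lit 6) (nat_lit 4) (nat_lit 7) (nat_lit 5) (nat_lit 7) (nat_lit 4) (nat_lit 436) (nat_lit 282) (nat_lit 227))))))) (XT.nd (nat_lit 1316) (nat_lit 84) (nat_lit 0) (XT.nd (nat_lit 658) (nat_lit 0) (nat_lit 0) (XT.nd (nat_lit 282) (nat_lit 84) (nat_lit 0) (XT.nd (nat_lit 94) (nat_lit 0) (nat_lit 0) (XT.lf (nat_lit 0) (nat_lit 33803797) (nat_lit 168) (nat_lit 13120759765) (nat_lit 84) (nat_lit 37388774188) (nat_lit 5) (nat_lit 5) (nat_lit 7) (nat_lit 5) (nat_lit 6) (nat_lit 4) (nat_lit 437) (nat_lit 282) (nat_lit 226)) (XT.nd (nat_lit 94) (nat_lit 0) (nat_lit 0) (XT.lf (nat_lit 0) (nat_lit 2547139807) (nat_lit 168) (nat_lit 8109405928) (nat_lit 84) (nat_lit 41311935961) (nat_lit 5) (nat_lit 5) (nat_lit 7) (nat_lit 5) (nat_lit 6) (nat_lit 4) (nat_lit 438) (nat_lit 282) (nat_lit 225)) (XT.lf (nat_lit 0) (nat_lit 5112040281) (nat_lit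 168) (nat_lit 2990733949) (nat_lit 84) (nat_lit 45334333068) (nat_lit 5) (nat_lit 5) (nat_lit 7) (nat_lit 5) (nat_lit 6) (nat_lit 4) (nat_lit 439) (nat_lit 282) (nat_lit 224)))) (XT.nd (nat_lit 188) (nat_lit 0) (nat_lit 0) (XT.nd (nat_lit 94) (nat_lit 0) (nat_lit 0) (XT.lf (nat_lit 0) (nat_lit 2284303790) (nat_lit 84) (nat_lit 5468400729) (nat_lit 168) (nat_lit 47197134561) (nat_lit 4) (nat_lit 5) (nat_lit 5) (nat_lit 5) (nat_lit 6) (nat_lit 4) (nat_lit 440) (nat_lit 282) (nat_lit 223)) (XT.lf (nat_lit 0) (nat_lit 7737539888) (nat_lit 84) (nat_lit 2742384414) (nat_lit 168) (nat_lit 46027820011) (nat_lit 4) (nat_lit 5) (nat_lit 5) (nat_lit 5) (nat_lit 6) (nat_lit 4) (nat_lit 441) (nat_lit 282) (nat_lit 222))) (XT.nd (nat_lit 94) (nat_lit 0) (nat_lit 0) (XT.lf (nat_lit 0) (nat_lit 13267217895) (nat_lit 168) (nat_lit 44799302243) (nat_lit 0) (nat_lit 46530080) (nat_lit 4) (nat_lit 5) (nat_lit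 6) (nat_lit 4) (nat_lit 4) (nat_lit 4) (nat_lit 442) (nat_lit 282) (nat_lit 221)) (XT.lf (nat_lit 0) (nat_lit 16143562645) (nat_lit 168) (nat_lit 40775900873) (nat_lit 0) (nat_lit 2846899713) (nat_lit 4) (nat_lit 5) (nat_lit 6) (nat_lit 4) (nat_lit 4) (nat_lit 4) (nat_lit 443) (nat_lit 282) (nat_lit 220))))) (XT.nd (nat_lit 282) (nat_lit 0) (nat_lit 0) (XT.nd (nat_lit 94) (nat_lit 0) (nat_lit 0) (XT.lf (nat_lit 0) (nat_lit 19085110389) (nat_lit 168) (nat_lit 36670123244) (nat_lit 0) (nat_lit 5714685207) (nat_lit 4) (nat_lit 5) (nat_lit 6) (nat_lit 4) (nat_lit 4) (nat_lit 4) (nat_lit 444) (nat_lit 282) (nat_lit 219)) (XT.nd (nat_lit 94) (nat_lit 0) (nat_lit 0) (XT.lf (nat_lit 0) (nat_lit 22094431410) (nat_lit 168) (nat_lit 32478381785) (nat_lit 0) (nat_lit 8652392393) (nat_lit 4) (nat_lit 5) (nat_lit 6) (nat_lit 4) (nat_lit 4) (nat_lit 4) (nat_lit 445) (nat_lit 282) (nat_lit 218)) (XT.lf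 (nat_lit 0) (nat_lit 25174155213) (nat_lit 168) (nat_lit 28197013809) (nat_lit 0) (nat_lit 11662588201) (nat_lit 4) (nat_lit 5) (nat_lit 6) (nat_lit 4) (nat_lit 4) (nat_lit 4) (nat_lit 446) (nat_lit 282) (nat_lit 217)))) (XT.nd (nat_lit 188) (nat_lit 0) (nat_lit 0) (XT.nd (nat_lit 94) (nat_lit 0) (nat_lit 0) (XT.lf (nat_lit 0) (nat_lit 28326972818) (nat_lit 168) (nat_lit 23822278315) (nat_lit 0) (nat_lit 14747902898) (nat_lit 4) (nat_lit 5) (nat_lit 6) (nat_lit 4) (nat_lit 4) (nat_lit 4) (nat_lit 447) (nat_lit 282) (nat_lit 216)) (XT.lf (nat_lit 0) (nat_lit 31555639114) (nat_lit 168) (nat_lit 19350352717) (nat_lit 0) (nat_lit 17911032390) (nat_lit 4) (nat_lit 5) (nat_lit 6) (nat_lit 4) (nat_lit 4) (nat_lit 4) (nat_lit 448) (nat_lit 282) (nat_lit 215))) (XT.nd (nat_lit 94) (nat_lit 0) (nat_lit 0) (XT.lf (nat_lit 0) (nat_lit 34862975266) (nat_lit 168) (nat_lit 14777329509) (nat_lit 0) (nat_lit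 21154740578) (nat_lit 4) (nat_lit 5) (nat_lit 6) (nat_lit 4) (nat_lit 4) (nat_lit 4) (nat_lit 449) (nat_lit 282) (nat_lit 214)) (XT.lf (nat_lit 0) (nat_lit 38251871180) (nat_lit 168) (nat_lit 10099212845) (nat_lit 0) (nat_lit 24481861769) (nat_lit 4) (nat_lit 5) (nat_lit 6) (nat_lit 4) (nat_lit 4) (nat_lit 4) (nat_lit 450) (nat_lit 282) (nat_lit 213)))))) (XT.nd (nat_lit 658) (nat_lit 0) (nat_lit 0) (XT.nd (nat_lit 282) (nat_lit 0) (nat_lit 0) (XT.nd (nat_lit 94) (nat_lit 84) (nat_lit 0) (XT.lf (nat_lit 0) (nat_lit 41725288026) (nat_lit 168) (nat_lit 5311915050) (nat_lit 0) (nat_lit 27895303156) (nat_lit 4) (nat_lit 5) (nat_lit 6) (nat_lit 4) (nat_lit 4) (nat_lit 4) (nat_lit 451) (nat_lit 282) (nat_lit 212)) (XT.nd (nat_lit 94) (nat_lit 84) (nat_lit 0) (XT.lf (nat_lit 0) (nat_lit 45286260829) (nat_lit 168) (nat_lit 411253048) (nat_lit 0) (nat_lit 31398047358) (nat_lit 4) (nat_lit 5) (nat_lit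 6) (nat_lit 4) (nat_lit 4) (nat_lit 4) (nat_lit 452) (nat_lit 282) (nat_lit 211)) (XT.lf (nat_lit 0) (nat_lit 4698744724) (nat_lit 84) (nat_lit 44284323603) (nat_lit 84) (nat_lit 30339577509) (nat_lit 3) (nat_lit 4) (nat_lit 4) (nat_lit 5) (nat_lit 4) (nat_lit 4) (nat_lit 453) (nat_lit 282) (nat_lit 210)))) (XT.nd (nat_lit 188) (nat_lit 0) (nat_lit 0) (XT.nd (nat_lit 94) (nat_lit 0) (nat_lit 0) (XT.lf (nat_lit 0) (nat_lit 9941387170) (nat_lit 84) (nat_lit 42837575175) (nat_lit 84) (nat_lit 28837943039) (nat_lit 3) (nat_lit 4) (nat_lit 4) (nat_lit 5) (nat_lit 4) (nat_lit 4) (nat_lit 454) (nat_lit 282) (nat_lit 209)) (XT.lf (nat_lit 0) (nat_lit 15313070495) (nat_lit 84) (nat_lit 41360157293) (nat_lit 84) (nat_lit 27307237738) (nat_lit 3) (nat_lit 4) (nat_lit 4) (nat_lit 5) (nat_lit 4) (nat_lit 4) (nat_lit 455) (nat_lit 282) (nat_lit 208))) (XT.nd (nat_lit 94) (nat_lit 0) (nat_lit 0) (XT.lf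 (nat_lit 0) (nat_lit 20818488403) (nat_lit 84) (nat_lit 39850779009) (nat_lit 84) (nat_lit 25746124097) (nat_lit 3) (nat_lit 4) (nat_lit 4) (nat_lit 5) (nat_lit 4) (nat_lit 4) (nat_lit 456) (nat_lit 282) (nat_lit 207)) (XT.lf (nat_lit 0) (nat_lit 26462451453) (nat_lit 84) (nat_lit 38308121451) (nat_lit 84) (nat_lit 24153238036) (nat_lit 3) (nat_lit 4) (nat_lit 4) (nat_lit 5) (nat_lit 4) (nat_lit 4) (nat_lit 457) (nat_lit 282) (nat_lit 206))))) (XT.nd (nat_lit 51888) (nat_lit 0) (nat_lit 2688) (XT.nd (nat_lit 94) (nat_lit 0) (nat_lit 0) (XT.lf (nat_lit 0) (nat_lit 32249891264) (nat_lit 84) (nat_lit 36730836664) (nat_lit 84) (nat_lit 22527187712) (nat_lit 3) (nat_lit 4) (nat_lit 4) (nat_lit 5) (nat_lit 4) (nat_lit 4) (nat_lit 458) (nat_lit 282) (nat_lit 205)) (XT.nd (nat_lit 564) (nat_lit 0) (nat_lit 0) (XT.lf (nat_lit 0) (nat_lit 38185864823) (nat_lit 84) (nat_lit 35117546439) (nat_lit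 84) (nat_lit 20866552306) (nat_lit 3) (nat_lit 4) (nat_lit 4) (nat_lit 5) (nat_lit 4) (nat_lit 4) (nat_lit 459) (nat_lit 282) (nat_lit 204)) (XT.lf (nat_lit 0) (nat_lit 77221040275) (nat_lit 84) (nat_lit 24600389384) (nat_lit 84) (nat_lit 10092917339) (nat_lit 3) (nat_lit 4) (nat_lit 4) (nat_lit 5) (nat_lit 4) (nat_lit 4) (nat_lit 465) (nat_lit 282) (nat_lit 198)))) (XT.nd (nat_lit 188) (nat_lit 252) (nat_lit 0) (XT.nd (nat_lit 94) (nat_lit 252) (nat_lit 0) (XT.lf (nat_lit 0) (nat_lit 2575209223) (nat_lit 252) (nat_lit 1018248769) (nat_lit 0) (nat_lit 2575209223) (nat_lit 41) (nat_lit 5) (nat_lit 44) (nat_lit 4) (nat_lit 41) (nat_lit 4) (nat_lit 379) (nat_lit 283) (nat_lit 283)) (XT.lf (nat_lit 0) (nat_lit 4881916881) (nat_lit 252) (nat_lit 4154787574) (nat_lit 252) (nat_lit 3535183402) (nat_lit 38) (nat_lit 4) (nat_lit 41) (nat_lit 5) (nat_lit 41) (nat_lit 4) (nat_lit 380) (nat_lit 283)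 (nat_lit 282))) (XT.nd (nat_lit 94) (nat_lit 168) (nat_lit 0) (XT.lf (nat_lit 0) (nat_lit 156697650) (nat_lit 336) (nat_lit 903065391) (nat_lit 84) (nat_lit 11755683198) (nat_lit 37) (nat_lit 5) (nat_lit 41) (nat_lit 5) (nat_lit 38) (nat_lit 4) (nat_lit 381) (nat_lit 283) (nat_lit 281)) (XT.lf (nat_lit 0) (nat_lit 3883944274) (nat_lit 252) (nat_lit 7050203653) (nat_lit 0) (nat_lit 2131324876) (nat_lit 35) (nat_lit 5) (nat_lit 38) (nat_lit 4) (nat_lit 35) (nat_lit 4) (nat_lit 382) (nat_lit 283) (nat_lit 280))))))))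
noncomputable def xc23 : XT := (XT.nd (nat_lit 2632) (nat_lit 588) (nat_lit 0) (XT.nd (nat_lit 1316) (nat_lit 756) (nat_lit 0) (XT.nd (nat_lit 658) (nat_lit 504) (nat_lit 0) (XT.nd (nat_lit 282) (nat_lit 420) (nat_lit 0) (XT.nd (nat_lit 94) (nat_lit 252) (nat_lit 0) (XT.lf (nat_lit 0) (nat_lit 7660122474) (nat_lit 252) (nat_lit 307850471) (nat_lit 0) (nat_lit 5356992793) (nat_lit 35) (nat_lit 5) (nat_lit 38) (nat_lit 4) (nat_lit 35) (nat_lit 4) (nat_lit 383) (nat_lit 283) (nat_lit 279)) (XT.nd (nat_lit 94) (nat_lit 84) (nat_lit 0) (XT.lf (nat_lit 0) (nat_lit 6635967283) (nat_lit 168) (nat_lit 4897225183) (nat_lit 168) (nat_lit 2059619500) (nat_lit 33) (nat_lit 4) (nat_lit 35) (nat_lit 5) (nat_lit 35) (nat_lit 4) (nat_lit 384) (nat_lit 283) (nat_lit 278)) (XT.lf (nat_lit 0) (nat_lit 1544686216) (nat_lit 252) (nat_lit 220801403) (nat_lit 84) (nat_lit 12105105467) (nat_lit 32) (nat_lit 5)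 (nat_lit 35) (nat_lit 5) (nat_lit 33) (nat_lit 4) (nat_lit 385) (nat_lit 283) (nat_lit 277)))) (XT.nd (nat_lit 188) (nat_lit 252) (nat_lit 0) (XT.nd (nat_lit 94) (nat_lit 0) (nat_lit 0) (XT.lf (nat_lit 0) (nat_lit 5216924604) (nat_lit 252) (nat_lit 7470153980) (nat_lit 0) (nat_lit 1469051482) (nat_lit 30) (nat_lit 5) (nat_lit 33) (nat_lit 4) (nat_lit 30) (nat_lit 4) (nat_lit 386) (nat_lit 283) (nat_lit 276)) (XT.lf (nat_lit 0) (nat_lit 8942028274) (nat_lit 252) (nat_lit 790711938) (nat_lit 0) (nat_lit 4719280146) (nat_lit 30) (nat_lit 5) (nat_lit 33) (nat_lit 4) (nat_lit 30) (nat_lit 4) (nat_lit 387) (nat_lit 283) (nat_lit 275))) (XT.nd (nat_lit 94) (nat_lit 84) (nat_lit 0) (XT.lf (nat_lit 0) (nat_lit 6084022287) (nat_lit 168) (nat_lit 6678556127) (nat_lit 168) (nat_lit 1994764305) (nat_lit 28) (nat_lit 4) (nat_lit 30) (nat_lit 5) (nat_lit 30) (nat_lit 4) (nat_lit 388) (nat_lit 283) (nat_lit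 274)) (XT.lf (nat_lit 0) (nat_lit 1527672741) (nat_lit 252) (nat_lit 2030231394) (nat_lit 84) (nat_lit 11515509698) (nat_lit 27) (nat_lit 5) (nat_lit 30) (nat_lit 5) (nat_lit 28) (nat_lit 4) (nat_lit 389) (nat_lit 283) (nat_lit 273))))) (XT.nd (nat_lit 282) (nat_lit 168) (nat_lit 0) (XT.nd (nat_lit 94) (nat_lit 168) (nat_lit 0) (XT.lf (nat_lit 0) (nat_lit 4764850297) (nat_lit 168) (nat_lit 324231110) (nat_lit 252) (nat_lit 10310151978) (nat_lit 25) (nat_lit 5) (nat_lit 27) (nat_lit 5) (nat_lit 28) (nat_lit 4) (nat_lit 390) (nat_lit 283) (nat_lit 272)) (XT.nd (nat_lit 94) (nat_lit 168) (nat_lit 0) (XT.lf (nat_lit 0) (nat_lit 8735026571) (nat_lit 252) (nat_lit 4079002581) (nat_lit 0) (nat_lit 2921526327) (nat_lit 25) (nat_lit 5) (nat_lit 28) (nat_lit 4) (nat_lit 25) (nat_lit 4) (nat_lit 391) (nat_lit 283) (nat_lit 271)) (XT.lf (nat_lit 0) (nat_lit 2603061667) (nat_lit 168) (nat_lit 9845705358)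 (nat_lit 168) (nat_lit 3634504773) (nat_lit 23) (nat_lit 4) (nat_lit 25) (nat_lit 5) (nat_lit 25) (nat_lit 4) (nat_lit 392) (nat_lit 283) (nat_lit 270)))) (XT.nd (nat_lit 188) (nat_lit 84) (nat_lit 0) (XT.nd (nat_lit 94) (nat_lit 84) (nat_lit 0) (XT.lf (nat_lit 0) (nat_lit 9452793397) (nat_lit 168) (nat_lit 6793415186) (nat_lit 168) (nat_lit 196097765) (nat_lit 23) (nat_lit 4) (nat_lit 25) (nat_lit 5) (nat_lit 25) (nat_lit 4) (nat_lit 393) (nat_lit 283) (nat_lit 269)) (XT.lf (nat_lit 0) (nat_lit 3212570174) (nat_lit 252) (nat_lit 450670681) (nat_lit 84) (nat_lit 13149986828) (nat_lit 22) (nat_lit 5) (nat_lit 25) (nat_lit 5) (nat_lit 23) (nat_lit 4) (nat_lit 394) (nat_lit 283) (nat_lit 268))) (XT.nd (nat_lit 94) (nat_lit 0) (nat_lit 0) (XT.lf (nat_lit 0) (nat_lit 6294131814) (nat_lit 84) (nat_lit 420287939) (nat_lit 168) (nat_lit 10481003477) (nat_lit 21) (nat_lit 5) (nat_lit 22) (nat_lit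 5) (nat_lit 23) (nat_lit 4) (nat_lit 395) (nat_lit 283) (nat_lit 267)) (XT.lf (nat_lit 0) (nat_lit 10288768990) (nat_lit 168) (nat_lit 4478098669) (nat_lit 0) (nat_lit 2823242887) (nat_lit 21) (nat_lit 5) (nat_lit 23) (nat_lit 4) (nat_lit 21) (nat_lit 4) (nat_lit 396) (nat_lit 283) (nat_lit 266)))))) (XT.nd (nat_lit 658) (nat_lit 252) (nat_lit 0) (XT.nd (nat_lit 282) (nat_lit 252) (nat_lit 0) (XT.nd (nat_lit 94) (nat_lit 84) (nat_lit 0) (XT.lf (nat_lit 0) (nat_lit 2065631842) (nat_lit 168) (nat_lit 11865413705) (nat_lit 168) (nat_lit 4066819826) (nat_lit 19) (nat_lit 4) (nat_lit 21) (nat_lit 5) (nat_lit 21) (nat_lit 4) (nat_lit 397) (nat_lit 283) (nat_lit 265)) (XT.nd (nat_lit 94) (nat_lit 84) (nat_lit 0) (XT.lf (nat_lit 0) (nat_lit 8790228045) (nat_lit 168) (nat_lit 8875075234) (nat_lit 168) (nat_lit 753114584) (nat_lit 19) (nat_lit 4) (nat_lit 21) (nat_lit 5) (nat_lit 21) (nat_lit 4)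 (nat_lit 398) (nat_lit 283) (nat_lit 264)) (XT.lf (nat_lit 0) (nat_lit 2546764026) (nat_lit 252) (nat_lit 3265977996) (nat_lit 84) (nat_lit 13039961505) (nat_lit 18) (nat_lit 5) (nat_lit 21) (nat_lit 5) (nat_lit 19) (nat_lit 4) (nat_lit 399) (nat_lit 283) (nat_lit 263)))) (XT.nd (nat_lit 188) (nat_lit 168) (nat_lit 0) (XT.nd (nat_lit 94) (nat_lit 0) (nat_lit 0) (XT.lf (nat_lit 0) (nat_lit 3240564474) (nat_lit 84) (nat_lit 2661542738) (nat_lit 168) (nat_lit 13398581167) (nat_lit 17) (nat_lit 5) (nat_lit 18) (nat_lit 5) (nat_lit 19) (nat_lit 4) (nat_lit 400) (nat_lit 283) (nat_lit 262)) (XT.lf (nat_lit 0) (nat_lit 9337839274) (nat_lit 168) (nat_lit 9860520074) (nat_lit 0) (nat_lit 564402798) (nat_lit 17) (nat_lit 5) (nat_lit 19) (nat_lit 4) (nat_lit 17) (nat_lit 4) (nat_lit 401) (nat_lit 283) (nat_lit 261))) (XT.nd (nat_lit 94) (nat_lit 168) (nat_lit 0) (XT.lf (nat_lit 0) (nat_lit 12845525748)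 (nat_lit 168) (nat_lit 3600995680) (nat_lit 0) (nat_lit 3793150255) (nat_lit 17) (nat_lit 5) (nat_lit 19) (nat_lit 4) (nat_lit 17) (nat_lit 4) (nat_lit 402) (nat_lit 283) (nat_lit 260)) (XT.lf (nat_lit 0) (nat_lit 2804223645) (nat_lit 168) (nat_lit 13625379494) (nat_lit 168) (nat_lit 4302189420) (nat_lit 15) (nat_lit 4) (nat_lit 17) (nat_lit 5) (nat_lit 17) (nat_lit 4) (nat_lit 403) (nat_lit 283) (nat_lit 259))))) (XT.nd (nat_lit 282) (nat_lit 84) (nat_lit 0) (XT.nd (nat_lit 94) (nat_lit 168) (nat_lit 0) (XT.lf (nat_lit 0) (nat_lit 9379554256) (nat_lit 168) (nat_lit 10722919627) (nat_lit 168) (nat_lit 1136802776) (nat_lit 15) (nat_lit 4) (nat_lit 17) (nat_lit 5) (nat_lit 17) (nat_lit 4) (nat_lit 404) (nat_lit 283) (nat_lit 258)) (XT.nd (nat_lit 94) (nat_lit 84) (nat_lit 0) (XT.lf (nat_lit 0) (nat_lit 2028054608) (nat_lit 252) (nat_lit 5724434710) (nat_lit 84) (nat_lit 14010540731) (nat_lit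 14) (nat_lit 5) (nat_lit 17) (nat_lit 5) (nat_lit 15) (nat_lit 4) (nat_lit 405) (nat_lit 283) (nat_lit 257)) (XT.lf (nat_lit 0) (nat_lit 502013996) (nat_lit 84) (nat_lit 4715342292) (nat_lit 168) (nat_lit 17086266202) (nat_lit 13) (nat_lit 5) (nat_lit 14) (nat_lit 5) (nat_lit 15) (nat_lit 4) (nat_lit 406) (nat_lit 283) (nat_lit 256)))) (XT.nd (nat_lit 188) (nat_lit 84) (nat_lit 0) (XT.nd (nat_lit 94) (nat_lit 0) (nat_lit 0) (XT.lf (nat_lit 0) (nat_lit 6942059669) (nat_lit 84) (nat_lit 1566262589) (nat_lit 168) (nat_lit 14351964411) (nat_lit 13) (nat_lit 5) (nat_lit 14) (nat_lit 5) (nat_lit 15) (nat_lit 4) (nat_lit 407) (nat_lit 283) (nat_lit 255)) (XT.lf (nat_lit 0) (nat_lit 11863467972) (nat_lit 168) (nat_lit 9963552351) (nat_lit 0) (nat_lit 1607699475) (nat_lit 13) (nat_lit 5) (nat_lit 15) (nat_lit 4) (nat_lit 13) (nat_lit 4) (nat_lit 408) (nat_lit 283) (nat_lit 254))) (XT.nd (nat_lit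 94) (nat_lit 84) (nat_lit 0) (XT.lf (nat_lit 0) (nat_lit 15285579132) (nat_lit 168) (nat_lit 3932235457) (nat_lit 0) (nat_lit 4809613598) (nat_lit 13) (nat_lit 5) (nat_lit 15) (nat_lit 4) (nat_lit 13) (nat_lit 4) (nat_lit 409) (nat_lit 283) (nat_lit 253)) (XT.lf (nat_lit 0) (nat_lit 2239755333) (nat_lit 84) (nat_lit 16544364624) (nat_lit 84) (nat_lit 5854615560) (nat_lit 12) (nat_lit 4) (nat_lit 13) (nat_lit 5) (nat_lit 13) (nat_lit 4) (nat_lit 410) (nat_lit 283) (nat_lit 252))))))) (XT.nd (nat_lit 1316) (nat_lit 252) (nat_lit 0) (XT.nd (nat_lit 658) (nat_lit 168) (nat_lit 0) (XT.nd (nat_lit 282) (nat_lit 84) (nat_lit 0) (XT.nd (nat_lit 94) (nat_lit 84) (nat_lit 0) (XT.lf (nat_lit 0) (nat_lit 8594364762) (nat_lit 84) (nat_lit 13785788446) (nat_lit 84) (nat_lit 2888482557) (nat_lit 12) (nat_lit 4) (nat_lit 13) (nat_lit 5) (nat_lit 13) (nat_lit 4) (nat_lit 411) (nat_lit 283) (nat_lit 251))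 (XT.nd (nat_lit 94) (nat_lit 0) (nat_lit 0) (XT.lf (nat_lit 0) (nat_lit 117103268) (nat_lit 168) (nat_lit 10861097735) (nat_lit 84) (nat_lit 14940600424) (nat_lit 11) (nat_lit 5) (nat_lit 13) (nat_lit 5) (nat_lit 12) (nat_lit 4) (nat_lit 412) (nat_lit 283) (nat_lit 250)) (XT.lf (nat_lit 0) (nat_lit 3109869446) (nat_lit 168) (nat_lit 4981424609) (nat_lit 84) (nat_lit 18497695245) (nat_lit 11) (nat_lit 5) (nat_lit 13) (nat_lit 5) (nat_lit 12) (nat_lit 4) (nat_lit 413) (nat_lit 283) (nat_lit 249)))) (XT.nd (nat_lit 188) (nat_lit 0) (nat_lit 0) (XT.nd (nat_lit 94) (nat_lit 0) (nat_lit 0) (XT.lf (nat_lit 0) (nat_lit 1017507043) (nat_lit 84) (nat_lit 5141069570) (nat_lit 168) (nat_lit 21121747919) (nat_lit 10) (nat_lit 5) (nat_lit 11) (nat_lit 5) (nat_lit 12) (nat_lit 4) (nat_lit 414) (nat_lit 283) (nat_lit 248)) (XT.lf (nat_lit 0) (nat_lit 7222288844) (nat_lit 84) (nat_lit 2083673656) (nat_lit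 168) (nat_lit 18686246487) (nat_lit 10) (nat_lit 5) (nat_lit 11) (nat_lit 5) (nat_lit 12) (nat_lit 4) (nat_lit 415) (nat_lit 283) (nat_lit 247))) (XT.nd (nat_lit 94) (nat_lit 0) (nat_lit 0) (XT.lf (nat_lit 0) (nat_lit 12515872108) (nat_lit 168) (nat_lit 15197459850) (nat_lit 0) (nat_lit 1013099900) (nat_lit 10) (nat_lit 5) (nat_lit 12) (nat_lit 4) (nat_lit 10) (nat_lit 4) (nat_lit 416) (nat_lit 283) (nat_lit 246)) (XT.lf (nat_lit 0) (nat_lit 15801797243) (nat_lit 168) (nat_lit 9551254500) (nat_lit 0) (nat_lit 4130262342) (nat_lit 10) (nat_lit 5) (nat_lit 12) (nat_lit 4) (nat_lit 10) (nat_lit 4) (nat_lit 417) (nat_lit 283) (nat_lit 245))))) (XT.nd (nat_lit 282) (nat_lit 84) (nat_lit 0) (XT.nd (nat_lit 94) (nat_lit 84) (nat_lit 0) (XT.lf (nat_lit 0) (nat_lit 19146579557) (nat_lit 168) (nat_lit 3806340971) (nat_lit 0) (nat_lit 7311197381) (nat_lit 10) (nat_lit 5) (nat_lit 12) (nat_lit 4)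 (nat_lit 10) (nat_lit 4) (nat_lit 418) (nat_lit 283) (nat_lit 244)) (XT.nd (nat_lit 94) (nat_lit 0) (nat_lit 0) (XT.lf (nat_lit 0) (nat_lit 2082946349) (nat_lit 84) (nat_lit 20490217880) (nat_lit 84) (nat_lit 8495760680) (nat_lit 9) (nat_lit 4) (nat_lit 10) (nat_lit 5) (nat_lit 10) (nat_lit 4) (nat_lit 419) (nat_lit 283) (nat_lit 243)) (XT.lf (nat_lit 0) (nat_lit 8158991888) (nat_lit 84) (nat_lit 17943897537) (nat_lit 84) (nat_lit 5794998566) (nat_lit 9) (nat_lit 4) (nat_lit 10) (nat_lit 5) (nat_lit 10) (nat_lit 4) (nat_lit 420) (nat_lit 283) (nat_lit 242)))) (XT.nd (nat_lit 188) (nat_lit 84) (nat_lit 0) (XT.nd (nat_lit 94) (nat_lit 0) (nat_lit 0) (XT.lf (nat_lit 0) (nat_lit 14351351162) (nat_lit 84) (nat_lit 15350171140) (nat_lit 84) (nat_lit 3051328703) (nat_lit 9) (nat_lit 4) (nat_lit 10) (nat_lit 5) (nat_lit 10) (nat_lit 4) (nat_lit 421) (nat_lit 283) (nat_lit 241)) (XT.lf (nat_lit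 0) (nat_lit 20665434970) (nat_lit 84) (nat_lit 12706772327) (nat_lit 84) (nat_lit 262353709) (nat_lit 9) (nat_lit 4) (nat_lit 10) (nat_lit 5) (nat_lit 10) (nat_lit 4) (nat_lit 422) (nat_lit 283) (nat_lit 240))) (XT.nd (nat_lit 94) (nat_lit 0) (nat_lit 0) (XT.lf (nat_lit 0) (nat_lit 2524128282) (nat_lit 168) (nat_lit 7461774303) (nat_lit 84) (nat_lit 24557143445) (nat_lit 8) (nat_lit 5) (nat_lit 10) (nat_lit 5) (nat_lit 9) (nat_lit 4) (nat_lit 423) (nat_lit 283) (nat_lit 239)) (XT.lf (nat_lit 0) (nat_lit 5354731604) (nat_lit 168) (nat_lit 1852869074) (nat_lit 84) (nat_lit 28272152121) (nat_lit 8) (nat_lit 5) (nat_lit 10) (nat_lit 5) (nat_lit 9) (nat_lit 4) (nat_lit 424) (nat_lit 283) (nat_lit 238)))))) (XT.nd (nat_lit 658) (nat_lit 168) (nat_lit 0) (XT.nd (nat_lit 282) (nat_lit 0) (nat_lit 0) (XT.nd (nat_lit 94) (nat_lit 0) (nat_lit 0) (XT.lf (nat_lit 0) (nat_lit 3941933869) (nat_lit 84)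 (nat_lit 4333007474) (nat_lit 168) (nat_lit 28169497338) (nat_lit 7) (nat_lit 5) (nat_lit 8) (nat_lit 5) (nat_lit 9) (nat_lit 4) (nat_lit 425) (nat_lit 283) (nat_lit 237)) (XT.nd (nat_lit 94) (nat_lit 0) (nat_lit 0) (XT.lf (nat_lit 0) (nat_lit 9889853412) (nat_lit 84) (nat_lit 1378813101) (nat_lit 168) (nat_lit 26169839373) (nat_lit 7) (nat_lit 5) (nat_lit 8) (nat_lit 5) (nat_lit 9) (nat_lit 4) (nat_lit 426) (nat_lit 283) (nat_lit 236)) (XT.lf (nat_lit 0) (nat_lit 14336111268) (nat_lit 168) (nat_lit 22519910603) (nat_lit 0) (nat_lit 1606873498) (nat_lit 7) (nat_lit 5) (nat_lit 9) (nat_lit 4) (nat_lit 7) (nat_lit 4) (nat_lit 427) (nat_lit 283) (nat_lit 235)))) (XT.nd (nat_lit 188) (nat_lit 0) (nat_lit 0) (XT.nd (nat_lit 94) (nat_lit 0) (nat_lit 0) (XT.lf (nat_lit 0) (nat_lit 17478077946) (nat_lit 168) (nat_lit 17410007197) (nat_lit 0) (nat_lit 4630473419) (nat_lit 7) (nat_lit 5) (nat_lit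 9) (nat_lit 4) (nat_lit 7) (nat_lit 4) (nat_lit 428) (nat_lit 283) (nat_lit 234)) (XT.lf (nat_lit 0) (nat_lit 20684057962) (nat_lit 168) (nat_lit 12201223300) (nat_lit 0) (nat_lit 7721534252) (nat_lit 7) (nat_lit 5) (nat_lit 9) (nat_lit 4) (nat_lit 7) (nat_lit 4) (nat_lit 429) (nat_lit 283) (nat_lit 233))) (XT.nd (nat_lit 94) (nat_lit 0) (nat_lit 0) (XT.lf (nat_lit 0) (nat_lit 23956852656) (nat_lit 168) (nat_lit 6889007546) (nat_lit 0) (nat_lit 10882756925) (nat_lit 7) (nat_lit 5) (nat_lit 9) (nat_lit 4) (nat_lit 7) (nat_lit 4) (nat_lit 430) (nat_lit 283) (nat_lit 232)) (XT.lf (nat_lit 0) (nat_lit 27299321752) (nat_lit 168) (nat_lit 1468718194) (nat_lit 0) (nat_lit 14116903670) (nat_lit 7) (nat_lit 5) (nat_lit 9) (nat_lit 4) (nat_lit 7) (nat_lit 4) (nat_lit 431) (nat_lit 283) (nat_lit 231))))) (XT.nd (nat_lit 282) (nat_lit 84) (nat_lit 0) (XT.nd (nat_lit 94) (nat_lit 0) (nat_lit 0) (XT.lf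 (nat_lit 0) (nat_lit 4145270081) (nat_lit 84) (nat_lit 26608962644) (nat_lit 84) (nat_lit 13321377232) (nat_lit 6) (nat_lit 4) (nat_lit 7) (nat_lit 5) (nat_lit 7) (nat_lit 4) (nat_lit 432) (nat_lit 283) (nat_lit 230)) (XT.nd (nat_lit 94) (nat_lit 0) (nat_lit 0) (XT.lf (nat_lit 0) (nat_lit 9908474607) (nat_lit 84) (nat_lit 24391800711) (nat_lit 84) (nat_lit 11002111094) (nat_lit 6) (nat_lit 4) (nat_lit 7) (nat_lit 5) (nat_lit 7) (nat_lit 4) (nat_lit 433) (nat_lit 283) (nat_lit 229)) (XT.lf (nat_lit 0) (nat_lit 15796700819) (nat_lit 84) (nat_lit 22129447995) (nat_lit 84) (nat_lit 8640628083) (nat_lit 6) (nat_lit 4) (nat_lit 7) (nat_lit 5) (nat_lit 7) (nat_lit 4) (nat_lit 434) (nat_lit 283) (nat_lit 228)))) (XT.nd (nat_lit 188) (nat_lit 84) (nat_lit 0) (XT.nd (nat_lit 94) (nat_lit 0) (nat_lit 0) (XT.lf (nat_lit 0) (nat_lit 21815093771) (nat_lit 84) (nat_lit 19819927684) (nat_lit 84) (nat_lit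 6234864765) (nat_lit 6) (nat_lit 4) (nat_lit 7) (nat_lit 5) (nat_lit 7) (nat_lit 4) (nat_lit 435) (nat_lit 283) (nat_lit 227)) (XT.lf (nat_lit 0) (nat_lit 27968912251) (nat_lit 84) (nat_lit 17461221749) (nat_lit 84) (nat_lit 3782719019) (nat_lit 6) (nat_lit 4) (nat_lit 7) (nat_lit 5) (nat_lit 7) (nat_lit 4) (nat_lit 436) (nat_lit 283) (nat_lit 226))) (XT.nd (nat_lit 94) (nat_lit 84) (nat_lit 0) (XT.lf (nat_lit 0) (nat_lit 34263533383) (nat_lit 84) (nat_lit 15051269185) (nat_lit 84) (nat_lit 1282048193) (nat_lit 6) (nat_lit 4) (nat_lit 7) (nat_lit 5) (nat_lit 7) (nat_lit 4) (nat_lit 437) (nat_lit 283) (nat_lit 225)) (XT.lf (nat_lit 0) (nat_lit 1244563512) (nat_lit 168) (nat_lit 11330833046) (nat_lit 84) (nat_lit 39447326159) (nat_lit 5) (nat_lit 5) (nat_lit 7) (nat_lit 5) (nat_lit 6) (nat_lit 4) (nat_lit 438) (nat_lit 283) (nat_lit 224))))))))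
noncomputable def xc24 : XT := (XT.nd (nat_lit 53768) (nat_lit 0) (nat_lit 840) (XT.nd (nat_lit 1222) (nat_lit 84) (nat_lit 0) (XT.nd (nat_lit 564) (nat_lit 0) (nat_lit 0) (XT.nd (nat_lit 282) (nat_lit 0) (nat_lit 0) (XT.nd (nat_lit 94) (nat_lit 84) (nat_lit 0) (XT.lf (nat_lit 0) (nat_lit 3798064294) (nat_lit 168) (nat_lit 6232737123) (nat_lit 84) (nat_lit 43460894763) (nat_lit 5) (nat_lit 5) (nat_lit 7) (nat_lit 5) (nat_lit 6) (nat_lit 4) (nat_lit 439) (nat_lit 283) (nat_lit 223)) (XT.nd (nat_lit 94) (nat_lit 84) (nat_lit 0) (XT.lf (nat_lit 0) (nat_lit 6405702744) (nat_lit 168) (nat_lit 1022251130) (nat_lit 84) (nat_lit 47577470558) (nat_lit 5) (nat_lit 5) (nat_lit 7) (nat_lit 5) (nat_lit 6) (nat_lit 4) (nat_lit 440) (nat_lit 283) (nat_lit 222)) (XT.lf (nat_lit 0) (nat_lit 4390859263) (nat_lit 84) (nat_lit 4721105745) (nat_lit 168) (nat_lit 47451998916) (nat_lit 4) (nat_lit 5) (nat_lit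 5) (nat_lit 5) (nat_lit 6) (nat_lit 4) (nat_lit 441) (nat_lit 283) (nat_lit 221)))) (XT.nd (nat_lit 94) (nat_lit 0) (nat_lit 0) (XT.lf (nat_lit 0) (nat_lit 9948332452) (nat_lit 84) (nat_lit 1939853029) (nat_lit 168) (nat_lit 46281421911) (nat_lit 4) (nat_lit 5) (nat_lit 5) (nat_lit 5) (nat_lit 6) (nat_lit 4) (nat_lit 442) (nat_lit 283) (nat_lit 220)) (XT.nd (nat_lit 94) (nat_lit 0) (nat_lit 0) (XT.lf (nat_lit 0) (nat_lit 14735495321) (nat_lit 168) (nat_lit 44198106212) (nat_lit 0) (nat_lit 890195134) (nat_lit 4) (nat_lit 5) (nat_lit 6) (nat_lit 4) (nat_lit 4) (nat_lit 4) (nat_lit 443) (nat_lit 283) (nat_lit 219)) (XT.lf (nat_lit 0) (nat_lit 17666957767) (nat_lit 168) (nat_lit 40110658386) (nat_lit 0) (nat_lit 3750043745) (nat_lit 4) (nat_lit 5) (nat_lit 6) (nat_lit 4) (nat_lit 4) (nat_lit 4) (nat_lit 444) (nat_lit 283) (nat_lit 218))))) (XT.nd (nat_lit 282) (nat_lit 0) (nat_lit 0) (XT.nd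 (nat_lit 94) (nat_lit 0) (nat_lit 0) (XT.lf (nat_lit 0) (nat_lit 20666487237) (nat_lit 168) (nat_lit 35936712851) (nat_lit 0) (nat_lit 6680045220) (nat_lit 4) (nat_lit 5) (nat_lit 6) (nat_lit 4) (nat_lit 4) (nat_lit 4) (nat_lit 445) (nat_lit 283) (nat_lit 217)) (XT.nd (nat_lit 94) (nat_lit 0) (nat_lit 0) (XT.lf (nat_lit 0) (nat_lit 23736704679) (nat_lit 168) (nat_lit 31672622472) (nat_lit 0) (nat_lit 9682759754) (nat_lit 4) (nat_lit 5) (nat_lit 6) (nat_lit 4) (nat_lit 4) (nat_lit 4) (nat_lit 446) (nat_lit 283) (nat_lit 216)) (XT.lf (nat_lit 0) (nat_lit 26880292808) (nat_lit 168) (nat_lit 27314661342) (nat_lit 0) (nat_lit 12760811079) (nat_lit 4) (nat_lit 5) (nat_lit 6) (nat_lit 4) (nat_lit 4) (nat_lit 4) (nat_lit 447) (nat_lit 283) (nat_lit 215)))) (XT.nd (nat_lit 188) (nat_lit 0) (nat_lit 0) (XT.nd (nat_lit 94) (nat_lit 0) (nat_lit 0) (XT.lf (nat_lit 0) (nat_lit 30099998447) (nat_lit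 168) (nat_lit 22859021537) (nat_lit 0) (nat_lit 15916888754) (nat_lit 4) (nat_lit 5) (nat_lit 6) (nat_lit 4) (nat_lit 4) (nat_lit 4) (nat_lit 448) (nat_lit 283) (nat_lit 214)) (XT.lf (nat_lit 0) (nat_lit 33398634933) (nat_lit 168) (nat_lit 18301809777) (nat_lit 0) (nat_lit 19153750516) (nat_lit 4) (nat_lit 5) (nat_lit 6) (nat_lit 4) (nat_lit 4) (nat_lit 4) (nat_lit 449) (nat_lit 283) (nat_lit 213))) (XT.nd (nat_lit 94) (nat_lit 0) (nat_lit 0) (XT.lf (nat_lit 0) (nat_lit 36779084568) (nat_lit 168) (nat_lit 13639044034) (nat_lit 0) (nat_lit 22474224693) (nat_lit 4) (nat_lit 5) (nat_lit 6) (nat_lit 4) (nat_lit 4) (nat_lit 4) (nat_lit 450) (nat_lit 283) (nat_lit 212)) (XT.lf (nat_lit 0) (nat_lit 40244301145) (nat_lit 168) (nat_lit 8866650045) (nat_lit 0) (nat_lit 25881212668) (nat_lit 4) (nat_lit 5) (nat_lit 6) (nat_lit 4) (nat_lit 4) (nat_lit 4) (nat_lit 451) (nat_lit 283) (nat_lit 211))))))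 (XT.nd (nat_lit 658) (nat_lit 0) (nat_lit 0) (XT.nd (nat_lit 282) (nat_lit 0) (nat_lit 0) (XT.nd (nat_lit 94) (nat_lit 84) (nat_lit 0) (XT.lf (nat_lit 0) (nat_lit 43797312521) (nat_lit 168) (nat_lit 3980457759) (nat_lit 0) (nat_lit 29377691421) (nat_lit 4) (nat_lit 5) (nat_lit 6) (nat_lit 4) (nat_lit 4) (nat_lit 4) (nat_lit 452) (nat_lit 283) (nat_lit 210)) (XT.nd (nat_lit 94) (nat_lit 0) (nat_lit 0) (XT.lf (nat_lit 0) (nat_lit 1044177987) (nat_lit 84) (nat_lit 46407082560) (nat_lit 84) (nat_lit 31932575419) (nat_lit 3) (nat_lit 4) (nat_lit 4) (nat_lit 5) (nat_lit 4) (nat_lit 4) (nat_lit 453) (nat_lit 283) (nat_lit 209)) (XT.lf (nat_lit 0) (nat_lit 6272909893) (nat_lit 84) (nat_lit 44966606545) (nat_lit 84) (nat_lit 30438811985) (nat_lit 3) (nat_lit 4) (nat_lit 4) (nat_lit 5) (nat_lit 4) (nat_lit 4) (nat_lit 454) (nat_lit 283) (nat_lit 208)))) (XT.nd (nat_lit 188) (nat_lit 0) (nat_lit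 0) (XT.nd (nat_lit 94) (nat_lit 0) (nat_lit 0) (XT.lf (nat_lit 0) (nat_lit 11631087841) (nat_lit 84) (nat_lit 43495278385) (nat_lit 84) (nat_lit 28915748467) (nat_lit 3) (nat_lit 4) (nat_lit 4) (nat_lit 5) (nat_lit 4) (nat_lit 4) (nat_lit 455) (nat_lit 283) (nat_lit 207)) (XT.lf (nat_lit 0) (nat_lit 17123393731) (nat_lit 84) (nat_lit 41991812453) (nat_lit 84) (nat_lit 27362054032) (nat_lit 3) (nat_lit 4) (nat_lit 4) (nat_lit 5) (nat_lit 4) (nat_lit 4) (nat_lit 456) (nat_lit 283) (nat_lit 206))) (XT.nd (nat_lit 94) (nat_lit 0) (nat_lit 0) (XT.lf (nat_lit 0) (nat_lit 22754626668) (nat_lit 84) (nat_lit 40454895041) (nat_lit 84) (nat_lit 25776371084) (nat_lit 3) (nat_lit 4) (nat_lit 4) (nat_lit 5) (nat_lit 4) (nat_lit 4) (nat_lit 457) (nat_lit 283) (nat_lit 205)) (XT.lf (nat_lit 0) (nat_lit 28529707146) (nat_lit 84) (nat_lit 38883183213) (nat_lit 84) (nat_lit 24157314074) (nat_lit 3) (nat_lit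 4) (nat_lit 4) (nat_lit 5) (nat_lit 4) (nat_lit 4) (nat_lit 458) (nat_lit 283) (nat_lit 204))))) (XT.nd (nat_lit 564) (nat_lit 0) (nat_lit 0) (XT.nd (nat_lit 94) (nat_lit 0) (nat_lit 0) (XT.lf (nat_lit 0) (nat_lit 34453681351) (nat_lit 84) (nat_lit 37275303626) (nat_lit 84) (nat_lit 22503468292) (nat_lit 3) (nat_lit 4) (nat_lit 4) (nat_lit 5) (nat_lit 4) (nat_lit 4) (nat_lit 459) (nat_lit 283) (nat_lit 203)) (XT.nd (nat_lit 376) (nat_lit 0) (nat_lit 0) (XT.lf (nat_lit 0) (nat_lit 40531725572) (nat_lit 84) (nat_lit 35629851339) (nat_lit 84) (nat_lit 20813388631) (nat_lit 3) (nat_lit 4) (nat_lit 4) (nat_lit 5) (nat_lit 4) (nat_lit 4) (nat_lit 460) (nat_lit 283) (nat_lit 202)) (XT.lf (nat_lit 0) (nat_lit 66492938533) (nat_lit 84) (nat_lit 28643040653) (nat_lit 84) (nat_lit 13660693603) (nat_lit 3) (nat_lit 4) (nat_lit 4) (nat_lit 5) (nat_lit 4) (nat_lit 4) (nat_lit 464) (nat_lit 283) (nat_lit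 198)))) (XT.nd (nat_lit 51136) (nat_lit 0) (nat_lit 3192) (XT.nd (nat_lit 51042) (nat_lit 0) (nat_lit 3444) (XT.lf (nat_lit 0) (nat_lit 73423854011) (nat_lit 84) (nat_lit 26787457039) (nat_lit 84) (nat_lit 11766614024) (nat_lit 3) (nat_lit 4) (nat_lit 4) (nat_lit 5) (nat_lit 4) (nat_lit 4) (nat_lit 465) (nat_lit 283) (nat_lit 197)) (XT.lf (nat_lit 0) (nat_lit 4197510550) (nat_lit 252) (nat_lit 873796693) (nat_lit 252) (nat_lit 873796693) (nat_lit 44) (nat_lit 4) (nat_lit 47) (nat_lit 5) (nat_lit 47) (nat_lit 4) (nat_lit 377) (nat_lit 284) (nat_lit 284))) (XT.nd (nat_lit 94) (nat_lit 0) (nat_lit 0) (XT.lf (nat_lit 0) (nat_lit 1977547668) (nat_lit 252) (nat_lit 8793935038) (nat_lit 0) (nat_lit 1339355370) (nat_lit 41) (nat_lit 5) (nat_lit 44) (nat_lit 4) (nat_lit 41) (nat_lit 4) (nat_lit 378) (nat_lit 284) (nat_lit 283)) (XT.lf (nat_lit 0) (nat_lit 5746228020) (nat_lit 252) (nat_lit 2103990142)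 (nat_lit 0) (nat_lit 4488431550) (nat_lit 41) (nat_lit 5) (nat_lit 44) (nat_lit 4) (nat_lit 41) (nat_lit 4) (nat_lit 379) (nat_lit 284) (nat_lit 282))))))) (XT.nd (nat_lit 1316) (nat_lit 840) (nat_lit 0) (XT.nd (nat_lit 658) (nat_lit 588) (nat_lit 0) (XT.nd (nat_lit 282) (nat_lit 420) (nat_lit 0) (XT.nd (nat_lit 94) (nat_lit 252) (nat_lit 0) (XT.lf (nat_lit 0) (nat_lit 4746250131) (nat_lit 252) (nat_lit 4843811512) (nat_lit 252) (nat_lit 2984457592) (nat_lit 38) (nat_lit 4) (nat_lit 41) (nat_lit 5) (nat_lit 41) (nat_lit 4) (nat_lit 380) (nat_lit 284) (nat_lit 281)) (XT.nd (nat_lit 94) (nat_lit 168) (nat_lit 0) (XT.lf (nat_lit 0) (nat_lit 655661127) (nat_lit 336) (nat_lit 1112398189) (nat_lit 84) (nat_lit 11051130038) (nat_lit 37) (nat_lit 5) (nat_lit 41) (nat_lit 5) (nat_lit 38) (nat_lit 4) (nat_lit 381) (nat_lit 284) (nat_lit 280)) (XT.lf (nat_lit 0) (nat_lit 4333342826) (nat_lit 252)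 (nat_lit 7326789984) (nat_lit 0) (nat_lit 1410608972) (nat_lit 35) (nat_lit 5) (nat_lit 38) (nat_lit 4) (nat_lit 35) (nat_lit 4) (nat_lit 382) (nat_lit 284) (nat_lit 279)))) (XT.nd (nat_lit 188) (nat_lit 252) (nat_lit 0) (XT.nd (nat_lit 94) (nat_lit 168) (nat_lit 0) (XT.lf (nat_lit 0) (nat_lit 8070022242) (nat_lit 252) (nat_lit 648622835) (nat_lit 0) (nat_lit 4612812386) (nat_lit 35) (nat_lit 5) (nat_lit 38) (nat_lit 4) (nat_lit 35) (nat_lit 4) (nat_lit 383) (nat_lit 284) (nat_lit 278)) (XT.lf (nat_lit 0) (nat_lit 6224856123) (nat_lit 168) (nat_lit 5675935925) (nat_lit 168) (nat_lit 1699817330) (nat_lit 33) (nat_lit 4) (nat_lit 35) (nat_lit 5) (nat_lit 35) (nat_lit 4) (nat_lit 384) (nat_lit 284) (nat_lit 277))) (XT.nd (nat_lit 94) (nat_lit 168) (nat_lit 0) (XT.lf (nat_lit 0) (nat_lit 1859233387) (nat_lit 252) (nat_lit 705669711) (nat_lit 84) (nat_lit 11314565236) (nat_lit 32) (nat_lit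 5) (nat_lit 35) (nat_lit 5) (nat_lit 33) (nat_lit 4) (nat_lit 385) (nat_lit 284) (nat_lit 276)) (XT.lf (nat_lit 0) (nat_lit 5481039002) (nat_lit 252) (nat_lit 8028779441) (nat_lit 0) (nat_lit 656733425) (nat_lit 30) (nat_lit 5) (nat_lit 33) (nat_lit 4) (nat_lit 30) (nat_lit 4) (nat_lit 386) (nat_lit 284) (nat_lit 275))))) (XT.nd (nat_lit 282) (nat_lit 336) (nat_lit 0) (XT.nd (nat_lit 94) (nat_lit 252) (nat_lit 0) (XT.lf (nat_lit 0) (nat_lit 9169300315) (nat_lit 252) (nat_lit 1410328663) (nat_lit 0) (nat_lit 3883951044) (nat_lit 30) (nat_lit 5) (nat_lit 33) (nat_lit 4) (nat_lit 30) (nat_lit 4) (nat_lit 387) (nat_lit 284) (nat_lit 274)) (XT.nd (nat_lit 94) (nat_lit 84) (nat_lit 0) (XT.lf (nat_lit 0) (nat_lit 5391680664) (nat_lit 168) (nat_lit 7555745302) (nat_lit 168) (nat_lit 1822780793) (nat_lit 28) (nat_lit 4) (nat_lit 30) (nat_lit 5) (nat_lit 30) (nat_lit 4) (nat_lit 388) (nat_lit 284)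 (nat_lit 273)) (XT.lf (nat_lit 0) (nat_lit 1660629614) (nat_lit 252) (nat_lit 2796464291) (nat_lit 84) (nat_lit 10630234316) (nat_lit 27) (nat_lit 5) (nat_lit 30) (nat_lit 5) (nat_lit 28) (nat_lit 4) (nat_lit 389) (nat_lit 284) (nat_lit 272)))) (XT.nd (nat_lit 188) (nat_lit 168) (nat_lit 0) (XT.nd (nat_lit 94) (nat_lit 0) (nat_lit 0) (XT.lf (nat_lit 0) (nat_lit 3924575938) (nat_lit 168) (nat_lit 1254753440) (nat_lit 252) (nat_lit 10235128619) (nat_lit 25) (nat_lit 5) (nat_lit 27) (nat_lit 5) (nat_lit 28) (nat_lit 4) (nat_lit 390) (nat_lit 284) (nat_lit 271)) (XT.lf (nat_lit 0) (nat_lit 8781937923) (nat_lit 252) (nat_lit 4983469400) (nat_lit 0) (nat_lit 1986700980) (nat_lit 25) (nat_lit 5) (nat_lit 28) (nat_lit 4) (nat_lit 25) (nat_lit 4) (nat_lit 391) (nat_lit 284) (nat_lit 270))) (XT.nd (nat_lit 94) (nat_lit 0) (nat_lit 0) (XT.lf (nat_lit 0) (nat_lit 1623249356) (nat_lit 168) (nat_lit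 10829620301) (nat_lit 168) (nat_lit 3648266522) (nat_lit 23) (nat_lit 4) (nat_lit 25) (nat_lit 5) (nat_lit 25) (nat_lit 4) (nat_lit 392) (nat_lit 284) (nat_lit 269)) (XT.lf (nat_lit 0) (nat_lit 8417306497) (nat_lit 168) (nat_lit 7800051905) (nat_lit 168) (nat_lit 243827412) (nat_lit 23) (nat_lit 4) (nat_lit 25) (nat_lit 5) (nat_lit 25) (nat_lit 4) (nat_lit 393) (nat_lit 284) (nat_lit 268)))))) (XT.nd (nat_lit 658) (nat_lit 336) (nat_lit 0) (XT.nd (nat_lit 282) (nat_lit 336) (nat_lit 0) (XT.nd (nat_lit 94) (nat_lit 84) (nat_lit 0) (XT.lf (nat_lit 0) (nat_lit 3133436893) (nat_lit 252) (nat_lit 1559299749) (nat_lit 84) (nat_lit 12140379300) (nat_lit 22) (nat_lit 5) (nat_lit 25) (nat_lit 5) (nat_lit 23) (nat_lit 4) (nat_lit 394) (nat_lit 284) (nat_lit 267)) (XT.nd (nat_lit 94) (nat_lit 0) (nat_lit 0) (XT.lf (nat_lit 0) (nat_lit 5109253830) (nat_lit 84) (nat_lit 1483249654) (nat_lit 168) (nat_lit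 10624115744) (nat_lit 21) (nat_lit 5) (nat_lit 22) (nat_lit 5) (nat_lit 23) (nat_lit 4) (nat_lit 395) (nat_lit 284) (nat_lit 266)) (XT.lf (nat_lit 0) (nat_lit 10125442500) (nat_lit 168) (nat_lit 5727306867) (nat_lit 0) (nat_lit 1759823031) (nat_lit 21) (nat_lit 5) (nat_lit 23) (nat_lit 4) (nat_lit 21) (nat_lit 4) (nat_lit 396) (nat_lit 284) (nat_lit 265)))) (XT.nd (nat_lit 188) (nat_lit 168) (nat_lit 0) (XT.nd (nat_lit 94) (nat_lit 0) (nat_lit 0) (XT.lf (nat_lit 0) (nat_lit 738732958) (nat_lit 168) (nat_lit 12985947265) (nat_lit 168) (nat_lit 4296961025) (nat_lit 19) (nat_lit 4) (nat_lit 21) (nat_lit 5) (nat_lit 21) (nat_lit 4) (nat_lit 397) (nat_lit 284) (nat_lit 264)) (XT.lf (nat_lit 0) (nat_lit 7412038875) (nat_lit 168) (nat_lit 10017004231) (nat_lit 168) (nat_lit 1014069670) (nat_lit 19) (nat_lit 4) (nat_lit 21) (nat_lit 5) (nat_lit 21) (nat_lit 4) (nat_lit 398) (nat_lit 284) (nat_lit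 263))) (XT.nd (nat_lit 94) (nat_lit 84) (nat_lit 0) (XT.lf (nat_lit 0) (nat_lit 2261568496) (nat_lit 252) (nat_lit 4716754709) (nat_lit 84) (nat_lit 11900051388) (nat_lit 18) (nat_lit 5) (nat_lit 21) (nat_lit 5) (nat_lit 19) (nat_lit 4) (nat_lit 399) (nat_lit 284) (nat_lit 262)) (XT.lf (nat_lit 0) (nat_lit 1711007499) (nat_lit 84) (nat_lit 3862722875) (nat_lit 168) (nat_lit 13753944820) (nat_lit 17) (nat_lit 5) (nat_lit 18) (nat_lit 5) (nat_lit 19) (nat_lit 4) (nat_lit 400) (nat_lit 284) (nat_lit 261))))) (XT.nd (nat_lit 282) (nat_lit 168) (nat_lit 0) (XT.nd (nat_lit 94) (nat_lit 168) (nat_lit 0) (XT.lf (nat_lit 0) (nat_lit 8329931100) (nat_lit 84) (nat_lit 645883406) (nat_lit 168) (nat_lit 10814963612) (nat_lit 17) (nat_lit 5) (nat_lit 18) (nat_lit 5) (nat_lit 19) (nat_lit 4) (nat_lit 401) (nat_lit 284) (nat_lit 260)) (XT.nd (nat_lit 94) (nat_lit 168) (nat_lit 0) (XT.lf (nat_lit 0) (nat_lit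 12449806841) (nat_lit 168) (nat_lit 5242804296) (nat_lit 0) (nat_lit 2576106486) (nat_lit 17) (nat_lit 5) (nat_lit 19) (nat_lit 4) (nat_lit 17) (nat_lit 4) (nat_lit 402) (nat_lit 284) (nat_lit 259)) (XT.lf (nat_lit 0) (nat_lit 1082517072) (nat_lit 168) (nat_lit 14908132098) (nat_lit 168) (nat_lit 4771504966) (nat_lit 15) (nat_lit 4) (nat_lit 17) (nat_lit 5) (nat_lit 17) (nat_lit 4) (nat_lit 403) (nat_lit 284) (nat_lit 258)))) (XT.nd (nat_lit 188) (nat_lit 84) (nat_lit 0) (XT.nd (nat_lit 94) (nat_lit 84) (nat_lit 0) (XT.lf (nat_lit 0) (nat_lit 7612000358) (nat_lit 168) (nat_lit 12025171113) (nat_lit 168) (nat_lit 1633275265) (nat_lit 15) (nat_lit 4) (nat_lit 17) (nat_lit 5) (nat_lit 17) (nat_lit 4) (nat_lit 404) (nat_lit 284) (nat_lit 257)) (XT.lf (nat_lit 0) (nat_lit 1515418617) (nat_lit 252) (nat_lit 7563429759) (nat_lit 84) (nat_lit 12716287476) (nat_lit 14) (nat_lit 5) (nat_lit 17)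 (nat_lit 5) (nat_lit 15) (nat_lit 4) (nat_lit 405) (nat_lit 284) (nat_lit 256))) (XT.nd (nat_lit 94) (nat_lit 84) (nat_lit 0) (XT.lf (nat_lit 0) (nat_lit 4674796117) (nat_lit 252) (nat_lit 1390508679) (nat_lit 84) (nat_lit 16271337734) (nat_lit 14) (nat_lit 5) (nat_lit 17) (nat_lit 5) (nat_lit 15) (nat_lit 4) (nat_lit 406) (nat_lit 284) (nat_lit 255)) (XT.lf (nat_lit 0) (nat_lit 4978560359) (nat_lit 84) (nat_lit 2948785548) (nat_lit 168) (nat_lit 14967129321) (nat_lit 13) (nat_lit 5) (nat_lit 14) (nat_lit 5) (nat_lit 15) (nat_lit 4) (nat_lit 407) (nat_lit 284) (nat_lit 254))))))))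
noncomputable def xc25 : XT := (XT.nd (nat_lit 2538) (nat_lit 252) (nat_lit 0) (XT.nd (nat_lit 1222) (nat_lit 252) (nat_lit 0) (XT.nd (nat_lit 564) (nat_lit 168) (nat_lit 0) (XT.nd (nat_lit 282) (nat_lit 84) (nat_lit 0) (XT.nd (nat_lit 94) (nat_lit 84) (nat_lit 0) (XT.lf (nat_lit 0) (nat_lit 11244967248) (nat_lit 168) (nat_lit 11990556694) (nat_lit 0) (nat_lit 234525712) (nat_lit 13) (nat_lit 5) (nat_lit 15) (nat_lit 4) (nat_lit 13) (nat_lit 4) (nat_lit 408) (nat_lit 284) (nat_lit 253)) (XT.nd (nat_lit 94) (nat_lit 84) (nat_lit 0) (XT.lf (nat_lit 0) (nat_lit 14643549556) (nat_lit 168) (nat_lit 6000604974) (nat_lit 0) (nat_lit 3419324491) (nat_lit 13) (nat_lit 5) (nat_lit 15) (nat_lit 4) (nat_lit 13) (nat_lit 4) (nat_lit 409) (nat_lit 284) (nat_lit 252)) (XT.lf (nat_lit 0) (nat_lit 89261573) (nat_lit 84) (nat_lit 18009313402) (nat_lit 84) (nat_lit 6577531511) (nat_lit 12) (nat_lit 4) (nat_lit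 13) (nat_lit 5) (nat_lit 13) (nat_lit 4) (nat_lit 410) (nat_lit 284) (nat_lit 251)))) (XT.nd (nat_lit 94) (nat_lit 84) (nat_lit 0) (XT.lf (nat_lit 0) (nat_lit 6404104367) (nat_lit 84) (nat_lit 15267943399) (nat_lit 84) (nat_lit 3634650026) (nat_lit 12) (nat_lit 4) (nat_lit 13) (nat_lit 5) (nat_lit 13) (nat_lit 4) (nat_lit 411) (nat_lit 284) (nat_lit 250)) (XT.nd (nat_lit 94) (nat_lit 84) (nat_lit 0) (XT.lf (nat_lit 0) (nat_lit 12830017428) (nat_lit 84) (nat_lit 12478243493) (nat_lit 84) (nat_lit 649307907) (nat_lit 12) (nat_lit 4) (nat_lit 13) (nat_lit 5) (nat_lit 13) (nat_lit 4) (nat_lit 412) (nat_lit 284) (nat_lit 249)) (XT.lf (nat_lit 0) (nat_lit 2334639495) (nat_lit 168) (nat_lit 7279561308) (nat_lit 84) (nat_lit 17014400853) (nat_lit 11) (nat_lit 5) (nat_lit 13) (nat_lit 5) (nat_lit 12) (nat_lit 4) (nat_lit 413) (nat_lit 284) (nat_lit 248))))) (XT.nd (nat_lit 282) (nat_lit 84) (nat_lit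 0) (XT.nd (nat_lit 94) (nat_lit 84) (nat_lit 0) (XT.lf (nat_lit 0) (nat_lit 5352702548) (nat_lit 168) (nat_lit 1337304862) (nat_lit 84) (nat_lit 20630861458) (nat_lit 11) (nat_lit 5) (nat_lit 13) (nat_lit 5) (nat_lit 12) (nat_lit 4) (nat_lit 414) (nat_lit 284) (nat_lit 247)) (XT.nd (nat_lit 94) (nat_lit 0) (nat_lit 0) (XT.lf (nat_lit 0) (nat_lit 4804402950) (nat_lit 84) (nat_lit 3661968639) (nat_lit 168) (nat_lit 19567405529) (nat_lit 10) (nat_lit 5) (nat_lit 11) (nat_lit 5) (nat_lit 12) (nat_lit 4) (nat_lit 415) (nat_lit 284) (nat_lit 246)) (XT.lf (nat_lit 0) (nat_lit 11085919350) (nat_lit 84) (nat_lit 560423654) (nat_lit 168) (nat_lit 17122567060) (nat_lit 10) (nat_lit 5) (nat_lit 11) (nat_lit 5) (nat_lit 12) (nat_lit 4) (nat_lit 416) (nat_lit 284) (nat_lit 245)))) (XT.nd (nat_lit 188) (nat_lit 84) (nat_lit 0) (XT.nd (nat_lit 94) (nat_lit 0) (nat_lit 0) (XT.lf (nat_lit 0) (nat_lit 14907314219)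 (nat_lit 168) (nat_lit 12066214969) (nat_lit 0) (nat_lit 2553023303) (nat_lit 10) (nat_lit 5) (nat_lit 12) (nat_lit 4) (nat_lit 10) (nat_lit 4) (nat_lit 417) (nat_lit 284) (nat_lit 244)) (XT.lf (nat_lit 0) (nat_lit 18233099653) (nat_lit 168) (nat_lit 6355104100) (nat_lit 0) (nat_lit 5719733713) (nat_lit 10) (nat_lit 5) (nat_lit 12) (nat_lit 4) (nat_lit 10) (nat_lit 4) (nat_lit 418) (nat_lit 284) (nat_lit 243))) (XT.nd (nat_lit 94) (nat_lit 84) (nat_lit 0) (XT.lf (nat_lit 0) (nat_lit 21621218198) (nat_lit 168) (nat_lit 539280681) (nat_lit 0) (nat_lit 8953410488) (nat_lit 10) (nat_lit 5) (nat_lit 12) (nat_lit 4) (nat_lit 10) (nat_lit 4) (nat_lit 419) (nat_lit 284) (nat_lit 242)) (XT.lf (nat_lit 0) (nat_lit 5493535744) (nat_lit 84) (nat_lit 19633901828) (nat_lit 84) (nat_lit 6816150651) (nat_lit 9) (nat_lit 4) (nat_lit 10) (nat_lit 5) (nat_lit 10) (nat_lit 4) (nat_lit 420) (nat_lit 284) (nat_lit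 241)))))) (XT.nd (nat_lit 658) (nat_lit 84) (nat_lit 0) (XT.nd (nat_lit 282) (nat_lit 84) (nat_lit 0) (XT.nd (nat_lit 94) (nat_lit 84) (nat_lit 0) (XT.lf (nat_lit 0) (nat_lit 11654345145) (nat_lit 84) (nat_lit 17054037193) (nat_lit 84) (nat_lit 4090709834) (nat_lit 9) (nat_lit 4) (nat_lit 10) (nat_lit 5) (nat_lit 10) (nat_lit 4) (nat_lit 421) (nat_lit 284) (nat_lit 240)) (XT.nd (nat_lit 94) (nat_lit 84) (nat_lit 0) (XT.lf (nat_lit 0) (nat_lit 17937798007) (nat_lit 84) (nat_lit 14424096401) (nat_lit 84) (nat_lit 1319432944) (nat_lit 9) (nat_lit 4) (nat_lit 10) (nat_lit 5) (nat_lit 10) (nat_lit 4) (nat_lit 422) (nat_lit 284) (nat_lit 239)) (XT.lf (nat_lit 0) (nat_lit 1470829140) (nat_lit 168) (nat_lit 10256099815) (nat_lit 84) (nat_lit 22863703098) (nat_lit 8) (nat_lit 5) (nat_lit 10) (nat_lit 5) (nat_lit 9) (nat_lit 4) (nat_lit 423) (nat_lit 284) (nat_lit 238)))) (XT.nd (nat_lit 188) (nat_lit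 0) (nat_lit 0) (XT.nd (nat_lit 94) (nat_lit 84) (nat_lit 0) (XT.lf (nat_lit 0) (nat_lit 4285075830) (nat_lit 168) (nat_lit 4676401861) (nat_lit 84) (nat_lit 26566360971) (nat_lit 8) (nat_lit 5) (nat_lit 10) (nat_lit 5) (nat_lit 9) (nat_lit 4) (nat_lit 424) (nat_lit 284) (nat_lit 237)) (XT.lf (nat_lit 0) (nat_lit 1033286312) (nat_lit 84) (nat_lit 6128159334) (nat_lit 168) (nat_lit 29332402974) (nat_lit 7) (nat_lit 5) (nat_lit 8) (nat_lit 5) (nat_lit 9) (nat_lit 4) (nat_lit 425) (nat_lit 284) (nat_lit 236))) (XT.nd (nat_lit 94) (nat_lit 0) (nat_lit 0) (XT.lf (nat_lit 0) (nat_lit 6953127282) (nat_lit 84) (nat_lit 3186355932) (nat_lit 168) (nat_lit 27348911858) (nat_lit 7) (nat_lit 5) (nat_lit 8) (nat_lit 5) (nat_lit 9) (nat_lit 4) (nat_lit 426) (nat_lit 284) (nat_lit 235)) (XT.lf (nat_lit 0) (nat_lit 12995224157) (nat_lit 84) (nat_lit 180719468) (nat_lit 168) (nat_lit 25337778827) (nat_lit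 7) (nat_lit 5) (nat_lit 8) (nat_lit 5) (nat_lit 9) (nat_lit 4) (nat_lit 427) (nat_lit 284) (nat_lit 234))))) (XT.nd (nat_lit 282) (nat_lit 84) (nat_lit 0) (XT.nd (nat_lit 94) (nat_lit 0) (nat_lit 0) (XT.lf (nat_lit 0) (nat_lit 16301273776) (nat_lit 168) (nat_lit 20433663916) (nat_lit 0) (nat_lit 2834955174) (nat_lit 7) (nat_lit 5) (nat_lit 9) (nat_lit 4) (nat_lit 7) (nat_lit 4) (nat_lit 428) (nat_lit 284) (nat_lit 233)) (XT.nd (nat_lit 94) (nat_lit 0) (nat_lit 0) (XT.lf (nat_lit 0) (nat_lit 19492788411) (nat_lit 168) (nat_lit 15250905467) (nat_lit 0) (nat_lit 5914897788) (nat_lit 7) (nat_lit 5) (nat_lit 9) (nat_lit 4) (nat_lit 7) (nat_lit 4) (nat_lit 429) (nat_lit 284) (nat_lit 232)) (XT.lf (nat_lit 0) (nat_lit 22751539047) (nat_lit 168) (nat_lit 9963957139) (nat_lit 0) (nat_lit 9065326072) (nat_lit 7) (nat_lit 5) (nat_lit 9) (nat_lit 4) (nat_lit 7) (nat_lit 4) (nat_lit 430) (nat_lit 284)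 (nat_lit 231)))) (XT.nd (nat_lit 188) (nat_lit 0) (nat_lit 0) (XT.nd (nat_lit 94) (nat_lit 84) (nat_lit 0) (XT.lf (nat_lit 0) (nat_lit 26080373135) (nat_lit 168) (nat_lit 4568199267) (nat_lit 0) (nat_lit 12288992829) (nat_lit 7) (nat_lit 5) (nat_lit 9) (nat_lit 4) (nat_lit 7) (nat_lit 4) (nat_lit 431) (nat_lit 284) (nat_lit 230)) (XT.lf (nat_lit 0) (nat_lit 959812281) (nat_lit 84) (nat_lit 28531613387) (nat_lit 84) (nat_lit 14638128877) (nat_lit 6) (nat_lit 4) (nat_lit 7) (nat_lit 5) (nat_lit 7) (nat_lit 4) (nat_lit 432) (nat_lit 284) (nat_lit 229))) (XT.nd (nat_lit 94) (nat_lit 0) (nat_lit 0) (XT.lf (nat_lit 0) (nat_lit 6699433334) (nat_lit 84) (nat_lit 26324955924) (nat_lit 84) (nat_lit 12332341118) (nat_lit 6) (nat_lit 4) (nat_lit 7) (nat_lit 5) (nat_lit 7) (nat_lit 4) (nat_lit 433) (nat_lit 284) (nat_lit 228)) (XT.lf (nat_lit 0) (nat_lit 12564762971) (nat_lit 84) (nat_lit 24072801724)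 (nat_lit 84) (nat_lit 9983943912) (nat_lit 6) (nat_lit 4) (nat_lit 7) (nat_lit 5) (nat_lit 7) (nat_lit 4) (nat_lit 434) (nat_lit 284) (nat_lit 227))))))) (XT.nd (nat_lit 1316) (nat_lit 84) (nat_lit 0) (XT.nd (nat_lit 658) (nat_lit 0) (nat_lit 0) (XT.nd (nat_lit 282) (nat_lit 168) (nat_lit 0) (XT.nd (nat_lit 94) (nat_lit 0) (nat_lit 0) (XT.lf (nat_lit 0) (nat_lit 18560926238) (nat_lit 84) (nat_lit 21773182883) (nat_lit 84) (nat_lit 7590885260) (nat_lit 6) (nat_lit 4) (nat_lit 7) (nat_lit 5) (nat_lit 7) (nat_lit 4) (nat_lit 435) (nat_lit 284) (nat_lit 226)) (XT.nd (nat_lit 94) (nat_lit 0) (nat_lit 0) (XT.lf (nat_lit 0) (nat_lit 24693162501) (nat_lit 84) (nat_lit 19424090027) (nat_lit 84) (nat_lit 5151074140) (nat_lit 6) (nat_lit 4) (nat_lit 7) (nat_lit 5) (nat_lit 7) (nat_lit 4) (nat_lit 436) (nat_lit 284) (nat_lit 225)) (XT.lf (nat_lit 0) (nat_lit 30966830023) (nat_lit 84) (nat_lit 17023470549)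 (nat_lit 84) (nat_lit 2662378679) (nat_lit 6) (nat_lit 4) (nat_lit 7) (nat_lit 5) (nat_lit 7) (nat_lit 4) (nat_lit 437) (nat_lit 284) (nat_lit 224)))) (XT.nd (nat_lit 188) (nat_lit 84) (nat_lit 0) (XT.nd (nat_lit 94) (nat_lit 84) (nat_lit 0) (XT.lf (nat_lit 0) (nat_lit 37387410652) (nat_lit 84) (nat_lit 14569226822) (nat_lit 84) (nat_lit 122624288) (nat_lit 6) (nat_lit 4) (nat_lit 7) (nat_lit 5) (nat_lit 7) (nat_lit 4) (nat_lit 438) (nat_lit 284) (nat_lit 223)) (XT.lf (nat_lit 0) (nat_lit 2422201672) (nat_lit 168) (nat_lit 9612553201) (nat_lit 84) (nat_lit 41513853442) (nat_lit 5) (nat_lit 5) (nat_lit 7) (nat_lit 5) (nat_lit 6) (nat_lit 4) (nat_lit 439) (nat_lit 284) (nat_lit 222))) (XT.nd (nat_lit 94) (nat_lit 84) (nat_lit 0) (XT.lf (nat_lit 0) (nat_lit 5019094819) (nat_lit 168) (nat_lit 4421462113) (nat_lit 84) (nat_lit 45622107526) (nat_lit 5) (nat_lit 5) (nat_lit 7) (nat_lit 5) (nat_lit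 6) (nat_lit 4) (nat_lit 440) (nat_lit 284) (nat_lit 221)) (XT.lf (nat_lit 0) (nat_lit 904792556) (nat_lit 84) (nat_lit 6776621987) (nat_lit 168) (nat_lit 48941113053) (nat_lit 4) (nat_lit 5) (nat_lit 5) (nat_lit 5) (nat_lit 6) (nat_lit 4) (nat_lit 441) (nat_lit 284) (nat_lit 220))))) (XT.nd (nat_lit 282) (nat_lit 0) (nat_lit 0) (XT.nd (nat_lit 94) (nat_lit 0) (nat_lit 0) (XT.lf (nat_lit 0) (nat_lit 6443620349) (nat_lit 84) (nat_lit 4003706958) (nat_lit 168) (nat_lit 47781158204) (nat_lit 4) (nat_lit 5) (nat_lit 5) (nat_lit 5) (nat_lit 6) (nat_lit 4) (nat_lit 442) (nat_lit 284) (nat_lit 219)) (XT.nd (nat_lit 94) (nat_lit 0) (nat_lit 0) (XT.lf (nat_lit 0) (nat_lit 12111865249) (nat_lit 84) (nat_lit 1164037009) (nat_lit 168) (nat_lit 46607339636) (nat_lit 4) (nat_lit 5) (nat_lit 5) (nat_lit 5) (nat_lit 6) (nat_lit 4) (nat_lit 443) (nat_lit 284) (nat_lit 218)) (XT.lf (nat_lit 0) (nat_lit 16186383717)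 (nat_lit 168) (nat_lit 43690535308) (nat_lit 0) (nat_lit 1710820444) (nat_lit 4) (nat_lit 5) (nat_lit 6) (nat_lit 4) (nat_lit 4) (nat_lit 4) (nat_lit 444) (nat_lit 284) (nat_lit 217)))) (XT.nd (nat_lit 188) (nat_lit 0) (nat_lit 0) (XT.nd (nat_lit 94) (nat_lit 0) (nat_lit 0) (XT.lf (nat_lit 0) (nat_lit 19176406827) (nat_lit 168) (nat_lit 39533867370) (nat_lit 0) (nat_lit 4633340646) (nat_lit 4) (nat_lit 5) (nat_lit 6) (nat_lit 4) (nat_lit 4) (nat_lit 4) (nat_lit 445) (nat_lit 284) (nat_lit 216)) (XT.lf (nat_lit 0) (nat_lit 22237394792) (nat_lit 168) (nat_lit 35286551356) (nat_lit 0) (nat_lit 7628791808) (nat_lit 4) (nat_lit 5) (nat_lit 6) (nat_lit 4) (nat_lit 4) (nat_lit 4) (nat_lit 446) (nat_lit 284) (nat_lit 215))) (XT.nd (nat_lit 94) (nat_lit 0) (nat_lit 0) (XT.lf (nat_lit 0) (nat_lit 25372022264) (nat_lit 168) (nat_lit 30944876018) (nat_lit 0) (nat_lit 10699791315) (nat_lit 4) (nat_lit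 5) (nat_lit 6) (nat_lit 4) (nat_lit 4) (nat_lit 4) (nat_lit 447) (nat_lit 284) (nat_lit 214)) (XT.lf (nat_lit 0) (nat_lit 28583028238) (nat_lit 168) (nat_lit 26505047661) (nat_lit 0) (nat_lit 13849022565) (nat_lit 4) (nat_lit 5) (nat_lit 6) (nat_lit 4) (nat_lit 4) (nat_lit 4) (nat_lit 448) (nat_lit 284) (nat_lit 213)))))) (XT.nd (nat_lit 658) (nat_lit 0) (nat_lit 0) (XT.nd (nat_lit 282) (nat_lit 84) (nat_lit 0) (XT.nd (nat_lit 94) (nat_lit 0) (nat_lit 0) (XT.lf (nat_lit 0) (nat_lit 31873218445) (nat_lit 168) (nat_lit 21963186822) (nat_lit 0) (nat_lit 17079237314) (nat_lit 4) (nat_lit 5) (nat_lit 6) (nat_lit 4) (nat_lit 4) (nat_lit 4) (nat_lit 449) (nat_lit 284) (nat_lit 212)) (XT.nd (nat_lit 94) (nat_lit 0) (nat_lit 0) (XT.lf (nat_lit 0) (nat_lit 35245467810) (nat_lit 168) (nat_lit 17315324885) (nat_lit 0) (nat_lit 20393258078) (nat_lit 4) (nat_lit 5) (nat_lit 6) (nat_lit 4) (nat_lit 4)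 (nat_lit 4) (nat_lit 450) (nat_lit 284) (nat_lit 211)) (XT.lf (nat_lit 0) (nat_lit 38702722959) (nat_lit 168) (nat_lit 12557400612) (nat_lit 0) (nat_lit 23793980604) (nat_lit 4) (nat_lit 5) (nat_lit 6) (nat_lit 4) (nat_lit 4) (nat_lit 4) (nat_lit 451) (nat_lit 284) (nat_lit 210)))) (XT.nd (nat_lit 188) (nat_lit 84) (nat_lit 0) (XT.nd (nat_lit 94) (nat_lit 0) (nat_lit 0) (XT.lf (nat_lit 0) (nat_lit 42248004794) (nat_lit 168) (nat_lit 7685256592) (nat_lit 0) (nat_lit 27284376398) (nat_lit 4) (nat_lit 5) (nat_lit 6) (nat_lit 4) (nat_lit 4) (nat_lit 4) (nat_lit 452) (nat_lit 284) (nat_lit 209)) (XT.lf (nat_lit 0) (nat_lit 45884411135) (nat_lit 168) (nat_lit 2694635614) (nat_lit 0) (nat_lit 30867495320) (nat_lit 4) (nat_lit 5) (nat_lit 6) (nat_lit 4) (nat_lit 4) (nat_lit 4) (nat_lit 453) (nat_lit 284) (nat_lit 208))) (XT.nd (nat_lit 94) (nat_lit 0) (nat_lit 0) (XT.lf (nat_lit 0) (nat_lit 2466962382)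 (nat_lit 84) (nat_lit 47171870991) (nat_lit 84) (nat_lit 32103219818) (nat_lit 3) (nat_lit 4) (nat_lit 4) (nat_lit 5) (nat_lit 4) (nat_lit 4) (nat_lit 454) (nat_lit 284) (nat_lit 207)) (XT.lf (nat_lit 0) (nat_lit 7812028312) (nat_lit 84) (nat_lit 45706455183) (nat_lit 84) (nat_lit 30587575507) (nat_lit 3) (nat_lit 4) (nat_lit 4) (nat_lit 5) (nat_lit 4) (nat_lit 4) (nat_lit 455) (nat_lit 284) (nat_lit 206))))) (XT.nd (nat_lit 282) (nat_lit 0) (nat_lit 0) (XT.nd (nat_lit 94) (nat_lit 0) (nat_lit 0) (XT.lf (nat_lit 0) (nat_lit 13291604089) (nat_lit 84) (nat_lit 44208729398) (nat_lit 84) (nat_lit 29041084185) (nat_lit 3) (nat_lit 4) (nat_lit 4) (nat_lit 5) (nat_lit 4) (nat_lit 4) (nat_lit 456) (nat_lit 284) (nat_lit 205)) (XT.nd (nat_lit 94) (nat_lit 0) (nat_lit 0) (XT.lf (nat_lit 0) (nat_lit 18910477692) (nat_lit 84) (nat_lit 42677384944) (nat_lit 84) (nat_lit 27462394550) (nat_lit 3) (nat_lit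 4) (nat_lit 4) (nat_lit 5) (nat_lit 4) (nat_lit 4) (nat_lit 457) (nat_lit 284) (nat_lit 204)) (XT.lf (nat_lit 0) (nat_lit 24673558817) (nat_lit 84) (nat_lit 41111083755) (nat_lit 84) (nat_lit 25850127165) (nat_lit 3) (nat_lit 4) (nat_lit 4) (nat_lit 5) (nat_lit 4) (nat_lit 4) (nat_lit 458) (nat_lit 284) (nat_lit 203)))) (XT.nd (nat_lit 376) (nat_lit 0) (nat_lit 0) (XT.nd (nat_lit 94) (nat_lit 0) (nat_lit 0) (XT.lf (nat_lit 0) (nat_lit 30585883165) (nat_lit 84) (nat_lit 39508457216) (nat_lit 84) (nat_lit 24202873252) (nat_lit 3) (nat_lit 4) (nat_lit 4) (nat_lit 5) (nat_lit 4) (nat_lit 4) (nat_lit 459) (nat_lit 284) (nat_lit 202)) (XT.lf (nat_lit 0) (nat_lit 36652616844) (nat_lit 84) (nat_lit 37868104975) (nat_lit 84) (nat_lit 22519193463) (nat_lit 3) (nat_lit 4) (nat_lit 4) (nat_lit 5) (nat_lit 4) (nat_lit 4) (nat_lit 460) (nat_lit 284) (nat_lit 201))) (XT.nd (nat_lit 94) (nat_lit 0) (nat_lit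 0) (XT.lf (nat_lit 0) (nat_lit 55832986687) (nat_lit 84) (nat_lit 32706188497) (nat_lit 84) (nat_lit 17234720192) (nat_lit 3) (nat_lit 4) (nat_lit 4) (nat_lit 5) (nat_lit 4) (nat_lit 4) (nat_lit 463) (nat_lit 284) (nat_lit 198)) (XT.lf (nat_lit 0) (nat_lit 62571787412) (nat_lit 84) (nat_lit 30900251663) (nat_lit 84) (nat_lit 15390287392) (nat_lit 3) (nat_lit 4) (nat_lit 4) (nat_lit 5) (nat_lit 4) (nat_lit 4) (nat_lit 464) (nat_lit 284) (nat_lit 197))))))))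
noncomputable def xc26 : XT := (XT.nd (nat_lit 53298) (nat_lit 0) (nat_lit 336) (XT.nd (nat_lit 51982) (nat_lit 0) (nat_lit 1176) (XT.nd (nat_lit 51324) (nat_lit 0) (nat_lit 2268) (XT.nd (nat_lit 51042) (nat_lit 0) (nat_lit 3192) (XT.nd (nat_lit 50854) (nat_lit 0) (nat_lit 3444) (XT.lf (nat_lit 0) (nat_lit 69492946317) (nat_lit 84) (nat_lit 29049067393) (nat_lit 84) (nat_lit 13501728399) (nat_lit 3) (nat_lit 4) (nat_lit 4) (nat_lit 5) (nat_lit 4) (nat_lit 4) (nat_lit 465) (nat_lit 284) (nat_lit 196)) (XT.nd (nat_lit 94) (nat_lit 252) (nat_lit 0) (XT.lf (nat_lit 0) (nat_lit 1561653853) (nat_lit 336) (nat_lit 2611316092) (nat_lit 0) (nat_lit 1561653853) (nat_lit 47) (nat_lit 5) (nat_lit 51) (nat_lit 4) (nat_lit 47) (nat_lit 4) (nat_lit 375) (nat_lit 285) (nat_lit 285)) (XT.lf (nat_lit 0) (nat_lit 1466411644) (nat_lit 252) (nat_lit 5443687904) (nat_lit 252) (nat_lit 4766629695) (nat_lit 44)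 (nat_lit 4) (nat_lit 47) (nat_lit 5) (nat_lit 47) (nat_lit 4) (nat_lit 376) (nat_lit 285) (nat_lit 284)))) (XT.nd (nat_lit 94) (nat_lit 252) (nat_lit 0) (XT.lf (nat_lit 0) (nat_lit 8328841950) (nat_lit 252) (nat_lit 2448538715) (nat_lit 252) (nat_lit 1114142440) (nat_lit 44) (nat_lit 4) (nat_lit 47) (nat_lit 5) (nat_lit 47) (nat_lit 4) (nat_lit 377) (nat_lit 285) (nat_lit 283)) (XT.nd (nat_lit 94) (nat_lit 0) (nat_lit 0) (XT.lf (nat_lit 0) (nat_lit 2548848807) (nat_lit 252) (nat_lit 8930945023) (nat_lit 0) (nat_lit 633714269) (nat_lit 41) (nat_lit 5) (nat_lit 44) (nat_lit 4) (nat_lit 41) (nat_lit 4) (nat_lit 378) (nat_lit 285) (nat_lit 282)) (XT.lf (nat_lit 0) (nat_lit 6276380883) (nat_lit 252) (nat_lit 2306526927) (nat_lit 0) (nat_lit 3759688897) (nat_lit 41) (nat_lit 5) (nat_lit 44) (nat_lit 4) (nat_lit 41) (nat_lit 4) (nat_lit 379) (nat_lit 285) (nat_lit 281))))) (XT.nd (nat_lit 282)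 (nat_lit 420) (nat_lit 0) (XT.nd (nat_lit 94) (nat_lit 252) (nat_lit 0) (XT.lf (nat_lit 0) (nat_lit 4474798087) (nat_lit 252) (nat_lit 5602857274) (nat_lit 252) (nat_lit 2502128930) (nat_lit 38) (nat_lit 4) (nat_lit 41) (nat_lit 5) (nat_lit 41) (nat_lit 4) (nat_lit 380) (nat_lit 285) (nat_lit 280)) (XT.nd (nat_lit 94) (nat_lit 168) (nat_lit 0) (XT.lf (nat_lit 0) (nat_lit 1088756764) (nat_lit 336) (nat_lit 1457577704) (nat_lit 84) (nat_lit 10279214397) (nat_lit 37) (nat_lit 5) (nat_lit 41) (nat_lit 5) (nat_lit 38) (nat_lit 4) (nat_lit 381) (nat_lit 285) (nat_lit 279)) (XT.lf (nat_lit 0) (nat_lit 4716040803) (nat_lit 252) (nat_lit 7741971551) (nat_lit 0) (nat_lit 620638650) (nat_lit 35) (nat_lit 5) (nat_lit 38) (nat_lit 4) (nat_lit 35) (nat_lit 4) (nat_lit 382) (nat_lit 285) (nat_lit 278)))) (XT.nd (nat_lit 188) (nat_lit 252) (nat_lit 0) (XT.nd (nat_lit 94) (nat_lit 168) (nat_lit 0) (XT.lf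 (nat_lit 0) (nat_lit 8414371886) (nat_lit 252) (nat_lit 1126120938) (nat_lit 0) (nat_lit 3800060993) (nat_lit 35) (nat_lit 5) (nat_lit 38) (nat_lit 4) (nat_lit 35) (nat_lit 4) (nat_lit 383) (nat_lit 285) (nat_lit 277)) (XT.lf (nat_lit 0) (nat_lit 5676149281) (nat_lit 168) (nat_lit 6526486514) (nat_lit 168) (nat_lit 1408380728) (nat_lit 33) (nat_lit 4) (nat_lit 35) (nat_lit 5) (nat_lit 35) (nat_lit 4) (nat_lit 384) (nat_lit 285) (nat_lit 276))) (XT.nd (nat_lit 94) (nat_lit 168) (nat_lit 0) (XT.lf (nat_lit 0) (nat_lit 2107862659) (nat_lit 252) (nat_lit 1328265842) (nat_lit 84) (nat_lit 10454810114) (nat_lit 32) (nat_lit 5) (nat_lit 35) (nat_lit 5) (nat_lit 33) (nat_lit 4) (nat_lit 385) (nat_lit 285) (nat_lit 275)) (XT.lf (nat_lit 0) (nat_lit 5449331364) (nat_lit 168) (nat_lit 231177705) (nat_lit 252) (nat_lit 8499020447) (nat_lit 30) (nat_lit 5) (nat_lit 32) (nat_lit 5) (nat_lit 33) (nat_lit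 4) (nat_lit 386) (nat_lit 285) (nat_lit 274)))))) (XT.nd (nat_lit 658) (nat_lit 504) (nat_lit 0) (XT.nd (nat_lit 282) (nat_lit 336) (nat_lit 0) (XT.nd (nat_lit 94) (nat_lit 252) (nat_lit 0) (XT.lf (nat_lit 0) (nat_lit 9330778883) (nat_lit 252) (nat_lit 2168739972) (nat_lit 0) (nat_lit 2978210202) (nat_lit 30) (nat_lit 5) (nat_lit 33) (nat_lit 4) (nat_lit 30) (nat_lit 4) (nat_lit 387) (nat_lit 285) (nat_lit 273)) (XT.nd (nat_lit 94) (nat_lit 84) (nat_lit 0) (XT.lf (nat_lit 0) (nat_lit 4559541200) (nat_lit 168) (nat_lit 8506636846) (nat_lit 168) (nat_lit 1719490264) (nat_lit 28) (nat_lit 4) (nat_lit 30) (nat_lit 5) (nat_lit 30) (nat_lit 4) (nat_lit 388) (nat_lit 285) (nat_lit 272)) (XT.lf (nat_lit 0) (nat_lit 1727272902) (nat_lit 252) (nat_lit 3702702881) (nat_lit 84) (nat_lit 9673852110) (nat_lit 27) (nat_lit 5) (nat_lit 30) (nat_lit 5) (nat_lit 28) (nat_lit 4) (nat_lit 389) (nat_lit 285)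 (nat_lit 271)))) (XT.nd (nat_lit 188) (nat_lit 168) (nat_lit 0) (XT.nd (nat_lit 94) (nat_lit 0) (nat_lit 0) (XT.lf (nat_lit 0) (nat_lit 2943221884) (nat_lit 168) (nat_lit 2259694425) (nat_lit 252) (nat_lit 10229361164) (nat_lit 25) (nat_lit 5) (nat_lit 27) (nat_lit 5) (nat_lit 28) (nat_lit 4) (nat_lit 390) (nat_lit 285) (nat_lit 270)) (XT.lf (nat_lit 0) (nat_lit 8762474582) (nat_lit 252) (nat_lit 6029208646) (nat_lit 0) (nat_lit 979563354) (nat_lit 25) (nat_lit 5) (nat_lit 28) (nat_lit 4) (nat_lit 25) (nat_lit 4) (nat_lit 391) (nat_lit 285) (nat_lit 269))) (XT.nd (nat_lit 94) (nat_lit 0) (nat_lit 0) (XT.lf (nat_lit 0) (nat_lit 501023260) (nat_lit 168) (nat_lit 11889177898) (nat_lit 168) (nat_lit 3731395955) (nat_lit 23) (nat_lit 4) (nat_lit 25) (nat_lit 5) (nat_lit 25) (nat_lit 4) (nat_lit 392) (nat_lit 285) (nat_lit 268)) (XT.lf (nat_lit 0) (nat_lit 7241027400) (nat_lit 168) (nat_lit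 8881669480) (nat_lit 168) (nat_lit 359935387) (nat_lit 23) (nat_lit 4) (nat_lit 25) (nat_lit 5) (nat_lit 25) (nat_lit 4) (nat_lit 393) (nat_lit 285) (nat_lit 267))))) (XT.nd (nat_lit 282) (nat_lit 336) (nat_lit 0) (XT.nd (nat_lit 94) (nat_lit 84) (nat_lit 0) (XT.lf (nat_lit 0) (nat_lit 2988201388) (nat_lit 252) (nat_lit 2809036876) (nat_lit 84) (nat_lit 11058323662) (nat_lit 22) (nat_lit 5) (nat_lit 25) (nat_lit 5) (nat_lit 23) (nat_lit 4) (nat_lit 394) (nat_lit 285) (nat_lit 266)) (XT.nd (nat_lit 94) (nat_lit 0) (nat_lit 0) (XT.lf (nat_lit 0) (nat_lit 3782037666) (nat_lit 84) (nat_lit 2621993451) (nat_lit 168) (nat_lit 10836354747) (nat_lit 21) (nat_lit 5) (nat_lit 22) (nat_lit 5) (nat_lit 23) (nat_lit 4) (nat_lit 395) (nat_lit 285) (nat_lit 265)) (XT.lf (nat_lit 0) (nat_lit 9895739960) (nat_lit 168) (nat_lit 7119141474) (nat_lit 0) (nat_lit 622717362) (nat_lit 21) (nat_lit 5) (nat_lit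 23) (nat_lit 4) (nat_lit 21) (nat_lit 4) (nat_lit 396) (nat_lit 285) (nat_lit 264)))) (XT.nd (nat_lit 188) (nat_lit 168) (nat_lit 0) (XT.nd (nat_lit 94) (nat_lit 168) (nat_lit 0) (XT.lf (nat_lit 0) (nat_lit 13458474717) (nat_lit 168) (nat_lit 717806416) (nat_lit 0) (nat_lit 3871503797) (nat_lit 21) (nat_lit 5) (nat_lit 23) (nat_lit 4) (nat_lit 21) (nat_lit 4) (nat_lit 397) (nat_lit 285) (nat_lit 263)) (XT.lf (nat_lit 0) (nat_lit 5891417353) (nat_lit 168) (nat_lit 11235358805) (nat_lit 168) (nat_lit 1343583690) (nat_lit 19) (nat_lit 4) (nat_lit 21) (nat_lit 5) (nat_lit 21) (nat_lit 4) (nat_lit 398) (nat_lit 285) (nat_lit 262))) (XT.nd (nat_lit 94) (nat_lit 84) (nat_lit 0) (XT.lf (nat_lit 0) (nat_lit 1910006211) (nat_lit 252) (nat_lit 6310388909) (nat_lit 84) (nat_lit 10686196227) (nat_lit 18) (nat_lit 5) (nat_lit 21) (nat_lit 5) (nat_lit 19) (nat_lit 4) (nat_lit 399) (nat_lit 285) (nat_lit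 261)) (XT.lf (nat_lit 0) (nat_lit 37203494) (nat_lit 84) (nat_lit 5141226161) (nat_lit 168) (nat_lit 14178794163) (nat_lit 17) (nat_lit 5) (nat_lit 18) (nat_lit 5) (nat_lit 19) (nat_lit 4) (nat_lit 400) (nat_lit 285) (nat_lit 260))))))) (XT.nd (nat_lit 1316) (nat_lit 336) (nat_lit 0) (XT.nd (nat_lit 658) (nat_lit 168) (nat_lit 0) (XT.nd (nat_lit 282) (nat_lit 336) (nat_lit 0) (XT.nd (nat_lit 94) (nat_lit 0) (nat_lit 0) (XT.lf (nat_lit 0) (nat_lit 6609084997) (nat_lit 84) (nat_lit 1944133092) (nat_lit 168) (nat_lit 11267946669) (nat_lit 17) (nat_lit 5) (nat_lit 18) (nat_lit 5) (nat_lit 19) (nat_lit 4) (nat_lit 401) (nat_lit 285) (nat_lit 259)) (XT.nd (nat_lit 94) (nat_lit 0) (nat_lit 0) (XT.lf (nat_lit 0) (nat_lit 11988045890) (nat_lit 168) (nat_lit 7027858728) (nat_lit 0) (nat_lit 1284393167) (nat_lit 17) (nat_lit 5) (nat_lit 19) (nat_lit 4) (nat_lit 17) (nat_lit 4) (nat_lit 402) (nat_lit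 285) (nat_lit 258)) (XT.lf (nat_lit 0) (nat_lit 15492574671) (nat_lit 168) (nat_lit 768613846) (nat_lit 0) (nat_lit 4533653233) (nat_lit 17) (nat_lit 5) (nat_lit 19) (nat_lit 4) (nat_lit 17) (nat_lit 4) (nat_lit 403) (nat_lit 285) (nat_lit 257)))) (XT.nd (nat_lit 188) (nat_lit 84) (nat_lit 0) (XT.nd (nat_lit 94) (nat_lit 84) (nat_lit 0) (XT.lf (nat_lit 0) (nat_lit 5701060549) (nat_lit 168) (nat_lit 13404919978) (nat_lit 168) (nat_lit 2198164836) (nat_lit 15) (nat_lit 4) (nat_lit 17) (nat_lit 5) (nat_lit 17) (nat_lit 4) (nat_lit 404) (nat_lit 285) (nat_lit 256)) (XT.lf (nat_lit 0) (nat_lit 936453562) (nat_lit 252) (nat_lit 9546369656) (nat_lit 84) (nat_lit 11346943631) (nat_lit 14) (nat_lit 5) (nat_lit 17) (nat_lit 5) (nat_lit 15) (nat_lit 4) (nat_lit 405) (nat_lit 285) (nat_lit 255))) (XT.nd (nat_lit 94) (nat_lit 84) (nat_lit 0) (XT.lf (nat_lit 0) (nat_lit 4071463574) (nat_lit 252) (nat_lit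 3415906368) (nat_lit 84) (nat_lit 14884650644) (nat_lit 14) (nat_lit 5) (nat_lit 17) (nat_lit 5) (nat_lit 15) (nat_lit 4) (nat_lit 406) (nat_lit 285) (nat_lit 254)) (XT.lf (nat_lit 0) (nat_lit 2870811746) (nat_lit 84) (nat_lit 4409282893) (nat_lit 168) (nat_lit 15651091773) (nat_lit 13) (nat_lit 5) (nat_lit 14) (nat_lit 5) (nat_lit 15) (nat_lit 4) (nat_lit 407) (nat_lit 285) (nat_lit 253))))) (XT.nd (nat_lit 282) (nat_lit 168) (nat_lit 0) (XT.nd (nat_lit 94) (nat_lit 0) (nat_lit 0) (XT.lf (nat_lit 0) (nat_lit 9333295569) (nat_lit 84) (nat_lit 1238760084) (nat_lit 168) (nat_lit 12935490107) (nat_lit 13) (nat_lit 5) (nat_lit 14) (nat_lit 5) (nat_lit 15) (nat_lit 4) (nat_lit 408) (nat_lit 285) (nat_lit 252)) (XT.nd (nat_lit 94) (nat_lit 0) (nat_lit 0) (XT.lf (nat_lit 0) (nat_lit 13935886698) (nat_lit 168) (nat_lit 8212551115) (nat_lit 0) (nat_lit 1953594524) (nat_lit 13) (nat_lit 5) (nat_lit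 15) (nat_lit 4) (nat_lit 13) (nat_lit 4) (nat_lit 409) (nat_lit 285) (nat_lit 251)) (XT.lf (nat_lit 0) (nat_lit 17367875880) (nat_lit 168) (nat_lit 2163417027) (nat_lit 0) (nat_lit 5184072226) (nat_lit 13) (nat_lit 5) (nat_lit 15) (nat_lit 4) (nat_lit 13) (nat_lit 4) (nat_lit 410) (nat_lit 285) (nat_lit 250)))) (XT.nd (nat_lit 188) (nat_lit 84) (nat_lit 0) (XT.nd (nat_lit 94) (nat_lit 0) (nat_lit 0) (XT.lf (nat_lit 0) (nat_lit 4069761143) (nat_lit 84) (nat_lit 16828474198) (nat_lit 84) (nat_lit 4449028329) (nat_lit 12) (nat_lit 4) (nat_lit 13) (nat_lit 5) (nat_lit 13) (nat_lit 4) (nat_lit 411) (nat_lit 285) (nat_lit 249)) (XT.lf (nat_lit 0) (nat_lit 10458190336) (nat_lit 84) (nat_lit 14054992763) (nat_lit 84) (nat_lit 1485602996) (nat_lit 12) (nat_lit 4) (nat_lit 13) (nat_lit 5) (nat_lit 13) (nat_lit 4) (nat_lit 412) (nat_lit 285) (nat_lit 248))) (XT.nd (nat_lit 94) (nat_lit 0) (nat_lit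 0) (XT.lf (nat_lit 0) (nat_lit 1493800320) (nat_lit 168) (nat_lit 9721386667) (nat_lit 84) (nat_lit 15455511659) (nat_lit 11) (nat_lit 5) (nat_lit 13) (nat_lit 5) (nat_lit 12) (nat_lit 4) (nat_lit 413) (nat_lit 285) (nat_lit 247)) (XT.lf (nat_lit 0) (nat_lit 4491607824) (nat_lit 168) (nat_lit 3814877774) (nat_lit 84) (nat_lit 19057100214) (nat_lit 11) (nat_lit 5) (nat_lit 13) (nat_lit 5) (nat_lit 12) (nat_lit 4) (nat_lit 414) (nat_lit 285) (nat_lit 246)))))) (XT.nd (nat_lit 658) (nat_lit 168) (nat_lit 0) (XT.nd (nat_lit 282) (nat_lit 84) (nat_lit 0) (XT.nd (nat_lit 94) (nat_lit 0) (nat_lit 0) (XT.lf (nat_lit 0) (nat_lit 2242124392) (nat_lit 84) (nat_lit 5318856703) (nat_lit 168) (nat_lit 20516853770) (nat_lit 10) (nat_lit 5) (nat_lit 11) (nat_lit 5) (nat_lit 12) (nat_lit 4) (nat_lit 415) (nat_lit 285) (nat_lit 245)) (XT.nd (nat_lit 94) (nat_lit 0) (nat_lit 0) (XT.lf (nat_lit 0) (nat_lit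 8489274689) (nat_lit 84) (nat_lit 2232254677) (nat_lit 168) (nat_lit 18092032722) (nat_lit 10) (nat_lit 5) (nat_lit 11) (nat_lit 5) (nat_lit 12) (nat_lit 4) (nat_lit 416) (nat_lit 285) (nat_lit 244)) (XT.lf (nat_lit 0) (nat_lit 13947433039) (nat_lit 168) (nat_lit 14725243651) (nat_lit 0) (nat_lit 899591096) (nat_lit 10) (nat_lit 5) (nat_lit 12) (nat_lit 4) (nat_lit 10) (nat_lit 4) (nat_lit 417) (nat_lit 285) (nat_lit 243)))) (XT.nd (nat_lit 188) (nat_lit 84) (nat_lit 0) (XT.nd (nat_lit 94) (nat_lit 0) (nat_lit 0) (XT.lf (nat_lit 0) (nat_lit 17254774900) (nat_lit 168) (nat_lit 9046950898) (nat_lit 0) (nat_lit 4052491187) (nat_lit 10) (nat_lit 5) (nat_lit 12) (nat_lit 4) (nat_lit 10) (nat_lit 4) (nat_lit 418) (nat_lit 285) (nat_lit 242)) (XT.lf (nat_lit 0) (nat_lit 20624987065) (nat_lit 168) (nat_lit 3262989728) (nat_lit 0) (nat_lit 7272759885) (nat_lit 10) (nat_lit 5) (nat_lit 12) (nat_lit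 4) (nat_lit 10) (nat_lit 4) (nat_lit 419) (nat_lit 285) (nat_lit 241))) (XT.nd (nat_lit 94) (nat_lit 0) (nat_lit 0) (XT.lf (nat_lit 0) (nat_lit 2684069673) (nat_lit 84) (nat_lit 21402745624) (nat_lit 84) (nat_lit 7904942263) (nat_lit 9) (nat_lit 4) (nat_lit 10) (nat_lit 5) (nat_lit 10) (nat_lit 4) (nat_lit 420) (nat_lit 285) (nat_lit 240)) (XT.lf (nat_lit 0) (nat_lit 8814248127) (nat_lit 84) (nat_lit 18836339010) (nat_lit 84) (nat_lit 5197199550) (nat_lit 9) (nat_lit 4) (nat_lit 10) (nat_lit 5) (nat_lit 10) (nat_lit 4) (nat_lit 421) (nat_lit 285) (nat_lit 239))))) (XT.nd (nat_lit 282) (nat_lit 84) (nat_lit 0) (XT.nd (nat_lit 94) (nat_lit 84) (nat_lit 0) (XT.lf (nat_lit 0) (nat_lit 15067962208) (nat_lit 84) (nat_lit 16219464257) (nat_lit 84) (nat_lit 2443105285) (nat_lit 9) (nat_lit 4) (nat_lit 10) (nat_lit 5) (nat_lit 10) (nat_lit 4) (nat_lit 422) (nat_lit 285) (nat_lit 238)) (XT.nd (nat_lit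 94) (nat_lit 0) (nat_lit 0) (XT.lf (nat_lit 0) (nat_lit 352727063) (nat_lit 168) (nat_lit 13193545862) (nat_lit 84) (nat_lit 21094387411) (nat_lit 8) (nat_lit 5) (nat_lit 10) (nat_lit 5) (nat_lit 9) (nat_lit 4) (nat_lit 423) (nat_lit 285) (nat_lit 237)) (XT.lf (nat_lit 0) (nat_lit 3151093529) (nat_lit 168) (nat_lit 7642204487) (nat_lit 84) (nat_lit 24785054213) (nat_lit 8) (nat_lit 5) (nat_lit 10) (nat_lit 5) (nat_lit 9) (nat_lit 4) (nat_lit 424) (nat_lit 285) (nat_lit 236)))) (XT.nd (nat_lit 188) (nat_lit 0) (nat_lit 0) (XT.nd (nat_lit 94) (nat_lit 84) (nat_lit 0) (XT.lf (nat_lit 0) (nat_lit 6002113071) (nat_lit 168) (nat_lit 1980210110) (nat_lit 84) (nat_lit 28562808133) (nat_lit 8) (nat_lit 5) (nat_lit 10) (nat_lit 5) (nat_lit 9) (nat_lit 4) (nat_lit 425) (nat_lit 285) (nat_lit 235)) (XT.lf (nat_lit 0) (nat_lit 3872960044) (nat_lit 84) (nat_lit 5072546088) (nat_lit 168) (nat_lit 28595219336)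 (nat_lit 7) (nat_lit 5) (nat_lit 8) (nat_lit 5) (nat_lit 9) (nat_lit 4) (nat_lit 426) (nat_lit 285) (nat_lit 234))) (XT.nd (nat_lit 94) (nat_lit 0) (nat_lit 0) (XT.lf (nat_lit 0) (nat_lit 9888590171) (nat_lit 84) (nat_lit 2078589303) (nat_lit 168) (nat_lit 26599325109) (nat_lit 7) (nat_lit 5) (nat_lit 8) (nat_lit 5) (nat_lit 9) (nat_lit 4) (nat_lit 427) (nat_lit 285) (nat_lit 233)) (XT.lf (nat_lit 0) (nat_lit 15059800759) (nat_lit 168) (nat_lit 23600861996) (nat_lit 0) (nat_lit 963001396) (nat_lit 7) (nat_lit 5) (nat_lit 9) (nat_lit 4) (nat_lit 7) (nat_lit 4) (nat_lit 428) (nat_lit 285) (nat_lit 232))))))))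
noncomputable def xc27 : XT := (XT.nd (nat_lit 2632) (nat_lit 0) (nat_lit 0) (XT.nd (nat_lit 1316) (nat_lit 84) (nat_lit 0) (XT.nd (nat_lit 658) (nat_lit 168) (nat_lit 0) (XT.nd (nat_lit 282) (nat_lit 84) (nat_lit 0) (XT.nd (nat_lit 94) (nat_lit 0) (nat_lit 0) (XT.lf (nat_lit 0) (nat_lit 18237271336) (nat_lit 168) (nat_lit 18443370973) (nat_lit 0) (nat_lit 4032149621) (nat_lit 7) (nat_lit 5) (nat_lit 9) (nat_lit 4) (nat_lit 7) (nat_lit 4) (nat_lit 429) (nat_lit 285) (nat_lit 231)) (XT.nd (nat_lit 94) (nat_lit 0) (nat_lit 0) (XT.lf (nat_lit 0) (nat_lit 21482386963) (nat_lit 168) (nat_lit 13180954126) (nat_lit 0) (nat_lit 7172097918) (nat_lit 7) (nat_lit 5) (nat_lit 9) (nat_lit 4) (nat_lit 7) (nat_lit 4) (nat_lit 430) (nat_lit 285) (nat_lit 230)) (XT.lf (nat_lit 0) (nat_lit 24797983179) (nat_lit 168) (nat_lit 7809013226) (nat_lit 0) (nat_lit 10385589929) (nat_lit 7) (nat_lit 5) (nat_lit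 9) (nat_lit 4) (nat_lit 7) (nat_lit 4) (nat_lit 431) (nat_lit 285) (nat_lit 229)))) (XT.nd (nat_lit 188) (nat_lit 0) (nat_lit 0) (XT.nd (nat_lit 94) (nat_lit 84) (nat_lit 0) (XT.lf (nat_lit 0) (nat_lit 28186957106) (nat_lit 168) (nat_lit 2322854346) (nat_lit 0) (nat_lit 13675433560) (nat_lit 7) (nat_lit 5) (nat_lit 9) (nat_lit 4) (nat_lit 7) (nat_lit 4) (nat_lit 432) (nat_lit 285) (nat_lit 228)) (XT.lf (nat_lit 0) (nat_lit 3347640775) (nat_lit 84) (nat_lit 28336808779) (nat_lit 84) (nat_lit 13729042228) (nat_lit 6) (nat_lit 4) (nat_lit 7) (nat_lit 5) (nat_lit 7) (nat_lit 4) (nat_lit 433) (nat_lit 285) (nat_lit 227))) (XT.nd (nat_lit 94) (nat_lit 0) (nat_lit 0) (XT.lf (nat_lit 0) (nat_lit 9190740728) (nat_lit 84) (nat_lit 26094556050) (nat_lit 84) (nat_lit 11393349687) (nat_lit 6) (nat_lit 4) (nat_lit 7) (nat_lit 5) (nat_lit 7) (nat_lit 4) (nat_lit 434) (nat_lit 285) (nat_lit 226)) (XT.lf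 (nat_lit 0) (nat_lit 15165321777) (nat_lit 84) (nat_lit 23804550288) (nat_lit 84) (nat_lit 9012625661) (nat_lit 6) (nat_lit 4) (nat_lit 7) (nat_lit 5) (nat_lit 7) (nat_lit 4) (nat_lit 435) (nat_lit 285) (nat_lit 225))))) (XT.nd (nat_lit 282) (nat_lit 168) (nat_lit 0) (XT.nd (nat_lit 94) (nat_lit 0) (nat_lit 0) (XT.lf (nat_lit 0) (nat_lit 21276604430) (nat_lit 84) (nat_lit 21464790517) (nat_lit 84) (nat_lit 6584789907) (nat_lit 6) (nat_lit 4) (nat_lit 7) (nat_lit 5) (nat_lit 7) (nat_lit 4) (nat_lit 436) (nat_lit 285) (nat_lit 224)) (XT.nd (nat_lit 94) (nat_lit 0) (nat_lit 0) (XT.lf (nat_lit 0) (nat_lit 27529928642) (nat_lit 84) (nat_lit 19073232288) (nat_lit 84) (nat_lit 4107721015) (nat_lit 6) (nat_lit 4) (nat_lit 7) (nat_lit 5) (nat_lit 7) (nat_lit 4) (nat_lit 437) (nat_lit 285) (nat_lit 223)) (XT.lf (nat_lit 0) (nat_lit 33930758484) (nat_lit 84) (nat_lit 16627785890) (nat_lit 84) (nat_lit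 1579254554) (nat_lit 6) (nat_lit 4) (nat_lit 7) (nat_lit 5) (nat_lit 7) (nat_lit 4) (nat_lit 438) (nat_lit 285) (nat_lit 222)))) (XT.nd (nat_lit 188) (nat_lit 84) (nat_lit 0) (XT.nd (nat_lit 94) (nat_lit 0) (nat_lit 0) (XT.lf (nat_lit 0) (nat_lit 983250206) (nat_lit 168) (nat_lit 13133135419) (nat_lit 84) (nat_lit 39491507807) (nat_lit 5) (nat_lit 5) (nat_lit 7) (nat_lit 5) (nat_lit 6) (nat_lit 4) (nat_lit 439) (nat_lit 285) (nat_lit 221)) (XT.lf (nat_lit 0) (nat_lit 3569711020) (nat_lit 168) (nat_lit 7960874337) (nat_lit 84) (nat_lit 43591682560) (nat_lit 5) (nat_lit 5) (nat_lit 7) (nat_lit 5) (nat_lit 6) (nat_lit 4) (nat_lit 440) (nat_lit 285) (nat_lit 220))) (XT.nd (nat_lit 94) (nat_lit 84) (nat_lit 0) (XT.lf (nat_lit 0) (nat_lit 6213204846) (nat_lit 168) (nat_lit 2670556987) (nat_lit 84) (nat_lit 47798939214) (nat_lit 5) (nat_lit 5) (nat_lit 7) (nat_lit 5) (nat_lit 6) (nat_lit 4) (nat_lit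 441) (nat_lit 285) (nat_lit 219)) (XT.lf (nat_lit 0) (nat_lit 2797019156) (nat_lit 84) (nat_lit 6145909036) (nat_lit 168) (nat_lit 49346821513) (nat_lit 4) (nat_lit 5) (nat_lit 5) (nat_lit 5) (nat_lit 6) (nat_lit 4) (nat_lit 442) (nat_lit 285) (nat_lit 218)))))) (XT.nd (nat_lit 658) (nat_lit 84) (nat_lit 0) (XT.nd (nat_lit 282) (nat_lit 0) (nat_lit 0) (XT.nd (nat_lit 94) (nat_lit 0) (nat_lit 0) (XT.lf (nat_lit 0) (nat_lit 8447688982) (nat_lit 84) (nat_lit 3314098157) (nat_lit 168) (nat_lit 48183015346) (nat_lit 4) (nat_lit 5) (nat_lit 5) (nat_lit 5) (nat_lit 6) (nat_lit 4) (nat_lit 443) (nat_lit 285) (nat_lit 217)) (XT.nd (nat_lit 94) (nat_lit 0) (nat_lit 0) (XT.lf (nat_lit 0) (nat_lit 14233240647) (nat_lit 84) (nat_lit 412822187) (nat_lit 168) (nat_lit 47004028171) (nat_lit 4) (nat_lit 5) (nat_lit 5) (nat_lit 5) (nat_lit 6) (nat_lit 4) (nat_lit 444) (nat_lit 285) (nat_lit 216)) (XT.lf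 (nat_lit 0) (nat_lit 17622888167) (nat_lit 168) (nat_lit 43272988486) (nat_lit 0) (nat_lit 2510490290) (nat_lit 4) (nat_lit 5) (nat_lit 6) (nat_lit 4) (nat_lit 4) (nat_lit 4) (nat_lit 445) (nat_lit 285) (nat_lit 215)))) (XT.nd (nat_lit 188) (nat_lit 0) (nat_lit 0) (XT.nd (nat_lit 94) (nat_lit 0) (nat_lit 0) (XT.lf (nat_lit 0) (nat_lit 20674915476) (nat_lit 168) (nat_lit 39041958264) (nat_lit 0) (nat_lit 5498889634) (nat_lit 4) (nat_lit 5) (nat_lit 6) (nat_lit 4) (nat_lit 4) (nat_lit 4) (nat_lit 446) (nat_lit 285) (nat_lit 214)) (XT.lf (nat_lit 0) (nat_lit 23800843282) (nat_lit 168) (nat_lit 34716094375) (nat_lit 0) (nat_lit 8563042717) (nat_lit 4) (nat_lit 5) (nat_lit 6) (nat_lit 4) (nat_lit 4) (nat_lit 4) (nat_lit 447) (nat_lit 285) (nat_lit 213))) (XT.nd (nat_lit 94) (nat_lit 0) (nat_lit 0) (XT.lf (nat_lit 0) (nat_lit 27003402977) (nat_lit 168) (nat_lit 30291616938) (nat_lit 0) (nat_lit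 11705626952) (nat_lit 4) (nat_lit 5) (nat_lit 6) (nat_lit 4) (nat_lit 4) (nat_lit 4) (nat_lit 448) (nat_lit 285) (nat_lit 212)) (XT.lf (nat_lit 0) (nat_lit 30285392914) (nat_lit 168) (nat_lit 25764659906) (nat_lit 0) (nat_lit 14929388288) (nat_lit 4) (nat_lit 5) (nat_lit 6) (nat_lit 4) (nat_lit 4) (nat_lit 4) (nat_lit 449) (nat_lit 285) (nat_lit 211))))) (XT.nd (nat_lit 282) (nat_lit 84) (nat_lit 0) (XT.nd (nat_lit 94) (nat_lit 0) (nat_lit 0) (XT.lf (nat_lit 0) (nat_lit 33649680852) (nat_lit 168) (nat_lit 21131267684) (nat_lit 0) (nat_lit 18237143604) (nat_lit 4) (nat_lit 5) (nat_lit 6) (nat_lit 4) (nat_lit 4) (nat_lit 4) (nat_lit 450) (nat_lit 285) (nat_lit 210)) (XT.nd (nat_lit 94) (nat_lit 0) (nat_lit 0) (XT.lf (nat_lit 0) (nat_lit 37099206460) (nat_lit 168) (nat_lit 16387391678) (nat_lit 0) (nat_lit 21631783171) (nat_lit 4) (nat_lit 5) (nat_lit 6) (nat_lit 4) (nat_lit 4) (nat_lit 4)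 (nat_lit 451) (nat_lit 285) (nat_lit 209)) (XT.lf (nat_lit 0) (nat_lit 40636983886) (nat_lit 168) (nat_lit 11528886752) (nat_lit 0) (nat_lit 25116273178) (nat_lit 4) (nat_lit 5) (nat_lit 6) (nat_lit 4) (nat_lit 4) (nat_lit 4) (nat_lit 452) (nat_lit 285) (nat_lit 208)))) (XT.nd (nat_lit 188) (nat_lit 84) (nat_lit 0) (XT.nd (nat_lit 94) (nat_lit 0) (nat_lit 0) (XT.lf (nat_lit 0) (nat_lit 44266104393) (nat_lit 168) (nat_lit 6551507613) (nat_lit 0) (nat_lit 28693658327) (nat_lit 4) (nat_lit 5) (nat_lit 6) (nat_lit 4) (nat_lit 4) (nat_lit 4) (nat_lit 453) (nat_lit 285) (nat_lit 207)) (XT.lf (nat_lit 0) (nat_lit 47989739056) (nat_lit 168) (nat_lit 1450905092) (nat_lit 0) (nat_lit 32367064486) (nat_lit 4) (nat_lit 5) (nat_lit 6) (nat_lit 4) (nat_lit 4) (nat_lit 4) (nat_lit 454) (nat_lit 285) (nat_lit 206))) (XT.nd (nat_lit 94) (nat_lit 0) (nat_lit 0) (XT.lf (nat_lit 0) (nat_lit 3852554867) (nat_lit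 84) (nat_lit 47995619783) (nat_lit 84) (nat_lit 32324179677) (nat_lit 3) (nat_lit 4) (nat_lit 4) (nat_lit 5) (nat_lit 4) (nat_lit 4) (nat_lit 455) (nat_lit 285) (nat_lit 205)) (XT.lf (nat_lit 0) (nat_lit 9319771311) (nat_lit 84) (nat_lit 46503466956) (nat_lit 84) (nat_lit 30784681669) (nat_lit 3) (nat_lit 4) (nat_lit 4) (nat_lit 5) (nat_lit 4) (nat_lit 4) (nat_lit 456) (nat_lit 285) (nat_lit 204))))))) (XT.nd (nat_lit 51982) (nat_lit 0) (nat_lit 1848) (XT.nd (nat_lit 752) (nat_lit 0) (nat_lit 0) (XT.nd (nat_lit 282) (nat_lit 0) (nat_lit 0) (XT.nd (nat_lit 94) (nat_lit 0) (nat_lit 0) (XT.lf (nat_lit 0) (nat_lit 14926645561) (nat_lit 84) (nat_lit 44977533142) (nat_lit 84) (nat_lit 29212781659) (nat_lit 3) (nat_lit 4) (nat_lit 4) (nat_lit 5) (nat_lit 4) (nat_lit 4) (nat_lit 457) (nat_lit 285) (nat_lit 203)) (XT.nd (nat_lit 94) (nat_lit 0) (nat_lit 0) (XT.lf (nat_lit 0) (nat_lit 20678076828)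 (nat_lit 84) (nat_lit 43416485000) (nat_lit 84) (nat_lit 27607106143) (nat_lit 3) (nat_lit 4) (nat_lit 4) (nat_lit 5) (nat_lit 4) (nat_lit 4) (nat_lit 458) (nat_lit 285) (nat_lit 202)) (XT.lf (nat_lit 0) (nat_lit 26579090634) (nat_lit 84) (nat_lit 41818958507) (nat_lit 84) (nat_lit 25966252102) (nat_lit 3) (nat_lit 4) (nat_lit 4) (nat_lit 5) (nat_lit 4) (nat_lit 4) (nat_lit 459) (nat_lit 285) (nat_lit 201)))) (XT.nd (nat_lit 282) (nat_lit 0) (nat_lit 0) (XT.nd (nat_lit 188) (nat_lit 0) (nat_lit 0) (XT.lf (nat_lit 0) (nat_lit 32634843206) (nat_lit 84) (nat_lit 40183557767) (nat_lit 84) (nat_lit 24288785782) (nat_lit 3) (nat_lit 4) (nat_lit 4) (nat_lit 5) (nat_lit 4) (nat_lit 4) (nat_lit 460) (nat_lit 285) (nat_lit 200)) (XT.lf (nat_lit 0) (nat_lit 45231870215) (nat_lit 84) (nat_lit 36793383239) (nat_lit 84) (nat_lit 20818120040) (nat_lit 3) (nat_lit 4) (nat_lit 4) (nat_lit 5) (nat_lit 4)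 (nat_lit 4) (nat_lit 462) (nat_lit 285) (nat_lit 198))) (XT.nd (nat_lit 94) (nat_lit 0) (nat_lit 0) (XT.lf (nat_lit 0) (nat_lit 51784151762) (nat_lit 84) (nat_lit 35035647162) (nat_lit 84) (nat_lit 19021887998) (nat_lit 3) (nat_lit 4) (nat_lit 4) (nat_lit 5) (nat_lit 4) (nat_lit 4) (nat_lit 463) (nat_lit 285) (nat_lit 197)) (XT.lf (nat_lit 0) (nat_lit 58513195915) (nat_lit 84) (nat_lit 33234109672) (nat_lit 84) (nat_lit 17182975785) (nat_lit 3) (nat_lit 4) (nat_lit 4) (nat_lit 5) (nat_lit 4) (nat_lit 4) (nat_lit 464) (nat_lit 285) (nat_lit 196))))) (XT.nd (nat_lit 50854) (nat_lit 0) (nat_lit 3192) (XT.nd (nat_lit 50666) (nat_lit 0) (nat_lit 3948) (XT.lf (nat_lit 0) (nat_lit 65424882420) (nat_lit 84) (nat_lit 31387196611) (nat_lit 84) (nat_lit 15299776585) (nat_lit 3) (nat_lit 4) (nat_lit 4) (nat_lit 5) (nat_lit 4) (nat_lit 4) (nat_lit 465) (nat_lit 285) (nat_lit 195)) (XT.nd (nat_lit 94)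 (nat_lit 84) (nat_lit 0) (XT.lf (nat_lit 0) (nat_lit 1964427285) (nat_lit 252) (nat_lit 1786228014) (nat_lit 252) (nat_lit 1786228014) (nat_lit 51) (nat_lit 4) (nat_lit 54) (nat_lit 5) (nat_lit 54) (nat_lit 4) (nat_lit 373) (nat_lit 286) (nat_lit 286)) (XT.lf (nat_lit 0) (nat_lit 84777884) (nat_lit 336) (nat_lit 546191947) (nat_lit 84) (nat_lit 10638715686) (nat_lit 50) (nat_lit 5) (nat_lit 54) (nat_lit 5) (nat_lit 51) (nat_lit 4) (nat_lit 374) (nat_lit 286) (nat_lit 285)))) (XT.nd (nat_lit 188) (nat_lit 252) (nat_lit 0) (XT.nd (nat_lit 94) (nat_lit 252) (nat_lit 0) (XT.lf (nat_lit 0) (nat_lit 3777772106) (nat_lit 336) (nat_lit 5289466574) (nat_lit 0) (nat_lit 2403343943) (nat_lit 47) (nat_lit 5) (nat_lit 51) (nat_lit 4) (nat_lit 47) (nat_lit 4) (nat_lit 375) (nat_lit 286) (nat_lit 284)) (XT.lf (nat_lit 0) (nat_lit 1332067967) (nat_lit 252) (nat_lit 6189548711) (nat_lit 252) (nat_lit 4157782480)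 (nat_lit 44) (nat_lit 4) (nat_lit 47) (nat_lit 5) (nat_lit 47) (nat_lit 4) (nat_lit 376) (nat_lit 286) (nat_lit 283))) (XT.nd (nat_lit 94) (nat_lit 252) (nat_lit 0) (XT.lf (nat_lit 0) (nat_lit 8130246669) (nat_lit 252) (nat_lit 3217590899) (nat_lit 252) (nat_lit 547632371) (nat_lit 44) (nat_lit 4) (nat_lit 47) (nat_lit 5) (nat_lit 47) (nat_lit 4) (nat_lit 377) (nat_lit 286) (nat_lit 282)) (XT.lf (nat_lit 0) (nat_lit 2912352120) (nat_lit 168) (nat_lit 142778333) (nat_lit 252) (nat_lit 9063678850) (nat_lit 41) (nat_lit 5) (nat_lit 43) (nat_lit 5) (nat_lit 44) (nat_lit 4) (nat_lit 378) (nat_lit 286) (nat_lit 281)))))) (XT.nd (nat_lit 658) (nat_lit 588) (nat_lit 0) (XT.nd (nat_lit 282) (nat_lit 420) (nat_lit 0) (XT.nd (nat_lit 94) (nat_lit 336) (nat_lit 0) (XT.lf (nat_lit 0) (nat_lit 6741340276) (nat_lit 252) (nat_lit 2644284867) (nat_lit 0) (nat_lit 2963553722) (nat_lit 41) (nat_lit 5) (nat_lit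 44) (nat_lit 4) (nat_lit 41) (nat_lit 4) (nat_lit 379) (nat_lit 286) (nat_lit 280)) (XT.nd (nat_lit 94) (nat_lit 84) (nat_lit 0) (XT.lf (nat_lit 0) (nat_lit 4067323558) (nat_lit 252) (nat_lit 6432588106) (nat_lit 252) (nat_lit 2087775961) (nat_lit 38) (nat_lit 4) (nat_lit 41) (nat_lit 5) (nat_lit 41) (nat_lit 4) (nat_lit 380) (nat_lit 286) (nat_lit 279)) (XT.lf (nat_lit 0) (nat_lit 1456362993) (nat_lit 336) (nat_lit 1938905548) (nat_lit 84) (nat_lit 9439261785) (nat_lit 37) (nat_lit 5) (nat_lit 41) (nat_lit 5) (nat_lit 38) (nat_lit 4) (nat_lit 381) (nat_lit 286) (nat_lit 278)))) (XT.nd (nat_lit 188) (nat_lit 252) (nat_lit 0) (XT.nd (nat_lit 94) (nat_lit 0) (nat_lit 0) (XT.lf (nat_lit 0) (nat_lit 4790680026) (nat_lit 168) (nat_lit 244038424) (nat_lit 252) (nat_lit 8054418556) (nat_lit 35) (nat_lit 5) (nat_lit 37) (nat_lit 5) (nat_lit 38) (nat_lit 4) (nat_lit 382) (nat_lit 286) (nat_lit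 277)) (XT.lf (nat_lit 0) (nat_lit 8693472295) (nat_lit 252) (nat_lit 1740762013) (nat_lit 0) (nat_lit 2918028442) (nat_lit 35) (nat_lit 5) (nat_lit 38) (nat_lit 4) (nat_lit 35) (nat_lit 4) (nat_lit 383) (nat_lit 286) (nat_lit 276))) (XT.nd (nat_lit 94) (nat_lit 84) (nat_lit 0) (XT.lf (nat_lit 0) (nat_lit 4989367304) (nat_lit 168) (nat_lit 7449620150) (nat_lit 168) (nat_lit 1185055041) (nat_lit 33) (nat_lit 4) (nat_lit 35) (nat_lit 5) (nat_lit 35) (nat_lit 4) (nat_lit 384) (nat_lit 286) (nat_lit 275)) (XT.lf (nat_lit 0) (nat_lit 2290791281) (nat_lit 252) (nat_lit 2089133812) (nat_lit 84) (nat_lit 9525088858) (nat_lit 32) (nat_lit 5) (nat_lit 35) (nat_lit 5) (nat_lit 33) (nat_lit 4) (nat_lit 385) (nat_lit 286) (nat_lit 274))))) (XT.nd (nat_lit 282) (nat_lit 252) (nat_lit 0) (XT.nd (nat_lit 94) (nat_lit 168) (nat_lit 0) (XT.lf (nat_lit 0) (nat_lit 4614984932) (nat_lit 168) (nat_lit 1205443018)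 (nat_lit 252) (nat_lit 8374498836) (nat_lit 30) (nat_lit 5) (nat_lit 32) (nat_lit 5) (nat_lit 33) (nat_lit 4) (nat_lit 386) (nat_lit 286) (nat_lit 273)) (XT.nd (nat_lit 94) (nat_lit 168) (nat_lit 0) (XT.lf (nat_lit 0) (nat_lit 9426605076) (nat_lit 252) (nat_lit 3066608557) (nat_lit 0) (nat_lit 2001266196) (nat_lit 30) (nat_lit 5) (nat_lit 33) (nat_lit 4) (nat_lit 30) (nat_lit 4) (nat_lit 387) (nat_lit 286) (nat_lit 272)) (XT.lf (nat_lit 0) (nat_lit 3586876783) (nat_lit 168) (nat_lit 9532061636) (nat_lit 168) (nat_lit 1684802465) (nat_lit 28) (nat_lit 4) (nat_lit 30) (nat_lit 5) (nat_lit 30) (nat_lit 4) (nat_lit 388) (nat_lit 286) (nat_lit 271)))) (XT.nd (nat_lit 188) (nat_lit 0) (nat_lit 0) (XT.nd (nat_lit 94) (nat_lit 168) (nat_lit 0) (XT.lf (nat_lit 0) (nat_lit 1727660836) (nat_lit 252) (nat_lit 4749739023) (nat_lit 84) (nat_lit 8645527407) (nat_lit 27) (nat_lit 5) (nat_lit 30) (nat_lit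 5) (nat_lit 28) (nat_lit 4) (nat_lit 389) (nat_lit 286) (nat_lit 270)) (XT.lf (nat_lit 0) (nat_lit 1819930642) (nat_lit 168) (nat_lit 3339932167) (nat_lit 252) (nat_lit 10292844574) (nat_lit 25) (nat_lit 5) (nat_lit 27) (nat_lit 5) (nat_lit 28) (nat_lit 4) (nat_lit 390) (nat_lit 286) (nat_lit 269))) (XT.nd (nat_lit 94) (nat_lit 0) (nat_lit 0) (XT.lf (nat_lit 0) (nat_lit 8574835424) (nat_lit 168) (nat_lit 102772025) (nat_lit 252) (nat_lit 7115349953) (nat_lit 25) (nat_lit 5) (nat_lit 27) (nat_lit 5) (nat_lit 28) (nat_lit 4) (nat_lit 391) (nat_lit 286) (nat_lit 268)) (XT.lf (nat_lit 0) (nat_lit 12268056544) (nat_lit 252) (nat_lit 749677163) (nat_lit 0) (nat_lit 3126718278) (nat_lit 25) (nat_lit 5) (nat_lit 28) (nat_lit 4) (nat_lit 25) (nat_lit 4) (nat_lit 392) (nat_lit 286) (nat_lit 267))))))))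
noncomputable def xc28 : XT := (XT.nd (nat_lit 2538) (nat_lit 504) (nat_lit 0) (XT.nd (nat_lit 1222) (nat_lit 336) (nat_lit 0) (XT.nd (nat_lit 564) (nat_lit 420) (nat_lit 0) (XT.nd (nat_lit 282) (nat_lit 168) (nat_lit 0) (XT.nd (nat_lit 94) (nat_lit 168) (nat_lit 0) (XT.lf (nat_lit 0) (nat_lit 5922928291) (nat_lit 168) (nat_lit 10039213011) (nat_lit 168) (nat_lit 544523144) (nat_lit 23) (nat_lit 4) (nat_lit 25) (nat_lit 5) (nat_lit 25) (nat_lit 4) (nat_lit 393) (nat_lit 286) (nat_lit 266)) (XT.nd (nat_lit 94) (nat_lit 84) (nat_lit 0) (XT.lf (nat_lit 0) (nat_lit 2776736753) (nat_lit 252) (nat_lit 4200974065) (nat_lit 84) (nat_lit 9902874429) (nat_lit 22) (nat_lit 5) (nat_lit 25) (nat_lit 5) (nat_lit 23) (nat_lit 4) (nat_lit 394) (nat_lit 286) (nat_lit 265)) (XT.lf (nat_lit 0) (nat_lit 2311323616) (nat_lit 84) (nat_lit 3837514346) (nat_lit 168) (nat_lit 11117905936) (nat_lit 21) (nat_lit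 5) (nat_lit 22) (nat_lit 5) (nat_lit 23) (nat_lit 4) (nat_lit 395) (nat_lit 286) (nat_lit 264)))) (XT.nd (nat_lit 94) (nat_lit 168) (nat_lit 0) (XT.lf (nat_lit 0) (nat_lit 9004444525) (nat_lit 84) (nat_lit 600791309) (nat_lit 168) (nat_lit 8059802519) (nat_lit 21) (nat_lit 5) (nat_lit 22) (nat_lit 5) (nat_lit 23) (nat_lit 4) (nat_lit 396) (nat_lit 286) (nat_lit 263)) (XT.nd (nat_lit 94) (nat_lit 168) (nat_lit 0) (XT.lf (nat_lit 0) (nat_lit 13133649967) (nat_lit 168) (nat_lit 2302308283) (nat_lit 0) (nat_lit 2640317402) (nat_lit 21) (nat_lit 5) (nat_lit 23) (nat_lit 4) (nat_lit 21) (nat_lit 4) (nat_lit 397) (nat_lit 286) (nat_lit 262)) (XT.lf (nat_lit 0) (nat_lit 4227034778) (nat_lit 168) (nat_lit 12531203537) (nat_lit 168) (nat_lit 1741944569) (nat_lit 19) (nat_lit 4) (nat_lit 21) (nat_lit 5) (nat_lit 21) (nat_lit 4) (nat_lit 398) (nat_lit 286) (nat_lit 261))))) (XT.nd (nat_lit 282) (nat_lit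 252) (nat_lit 0) (XT.nd (nat_lit 94) (nat_lit 84) (nat_lit 0) (XT.lf (nat_lit 0) (nat_lit 1491769982) (nat_lit 252) (nat_lit 8048273091) (nat_lit 84) (nat_lit 9397335370) (nat_lit 18) (nat_lit 5) (nat_lit 21) (nat_lit 5) (nat_lit 19) (nat_lit 4) (nat_lit 399) (nat_lit 286) (nat_lit 260)) (XT.nd (nat_lit 94) (nat_lit 84) (nat_lit 0) (XT.lf (nat_lit 0) (nat_lit 4732992302) (nat_lit 252) (nat_lit 1747530799) (nat_lit 84) (nat_lit 12908322992) (nat_lit 18) (nat_lit 5) (nat_lit 21) (nat_lit 5) (nat_lit 19) (nat_lit 4) (nat_lit 400) (nat_lit 286) (nat_lit 259)) (XT.lf (nat_lit 0) (nat_lit 4743899476) (nat_lit 84) (nat_lit 3320247927) (nat_lit 168) (nat_lit 11789967216) (nat_lit 17) (nat_lit 5) (nat_lit 18) (nat_lit 5) (nat_lit 19) (nat_lit 4) (nat_lit 401) (nat_lit 286) (nat_lit 258)))) (XT.nd (nat_lit 188) (nat_lit 252) (nat_lit 0) (XT.nd (nat_lit 94) (nat_lit 0) (nat_lit 0) (XT.lf (nat_lit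 0) (nat_lit 11375881700) (nat_lit 84) (nat_lit 84772600) (nat_lit 168) (nat_lit 8873761019) (nat_lit 17) (nat_lit 5) (nat_lit 18) (nat_lit 5) (nat_lit 19) (nat_lit 4) (nat_lit 402) (nat_lit 286) (nat_lit 257)) (XT.lf (nat_lit 0) (nat_lit 14939215058) (nat_lit 168) (nat_lit 2742117229) (nat_lit 0) (nat_lit 3148423557) (nat_lit 17) (nat_lit 5) (nat_lit 19) (nat_lit 4) (nat_lit 17) (nat_lit 4) (nat_lit 403) (nat_lit 286) (nat_lit 256))) (XT.nd (nat_lit 94) (nat_lit 84) (nat_lit 0) (XT.lf (nat_lit 0) (nat_lit 3645065077) (nat_lit 168) (nat_lit 14863371829) (nat_lit 168) (nat_lit 2831965081) (nat_lit 15) (nat_lit 4) (nat_lit 17) (nat_lit 5) (nat_lit 17) (nat_lit 4) (nat_lit 404) (nat_lit 286) (nat_lit 255)) (XT.lf (nat_lit 0) (nat_lit 290653554) (nat_lit 252) (nat_lit 11674987067) (nat_lit 84) (nat_lit 9901312683) (nat_lit 14) (nat_lit 5) (nat_lit 17) (nat_lit 5) (nat_lit 15) (nat_lit 4) (nat_lit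 405) (nat_lit 286) (nat_lit 254)))))) (XT.nd (nat_lit 658) (nat_lit 168) (nat_lit 0) (XT.nd (nat_lit 282) (nat_lit 84) (nat_lit 0) (XT.nd (nat_lit 94) (nat_lit 84) (nat_lit 0) (XT.lf (nat_lit 0) (nat_lit 3402005809) (nat_lit 252) (nat_lit 5585744937) (nat_lit 84) (nat_lit 13422181594) (nat_lit 14) (nat_lit 5) (nat_lit 17) (nat_lit 5) (nat_lit 15) (nat_lit 4) (nat_lit 406) (nat_lit 286) (nat_lit 253)) (XT.nd (nat_lit 94) (nat_lit 0) (nat_lit 0) (XT.lf (nat_lit 0) (nat_lit 616972107) (nat_lit 84) (nat_lit 5949030786) (nat_lit 168) (nat_lit 16404449404) (nat_lit 13) (nat_lit 5) (nat_lit 14) (nat_lit 5) (nat_lit 15) (nat_lit 4) (nat_lit 407) (nat_lit 286) (nat_lit 252)) (XT.lf (nat_lit 0) (nat_lit 7039827748) (nat_lit 84) (nat_lit 2795455525) (nat_lit 168) (nat_lit 13712223464) (nat_lit 13) (nat_lit 5) (nat_lit 14) (nat_lit 5) (nat_lit 15) (nat_lit 4) (nat_lit 408) (nat_lit 286) (nat_lit 251))))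 (XT.nd (nat_lit 188) (nat_lit 84) (nat_lit 0) (XT.nd (nat_lit 94) (nat_lit 0) (nat_lit 0) (XT.lf (nat_lit 0) (nat_lit 13161972209) (nat_lit 168) (nat_lit 10570006649) (nat_lit 0) (nat_lit 411142964) (nat_lit 13) (nat_lit 5) (nat_lit 15) (nat_lit 4) (nat_lit 13) (nat_lit 4) (nat_lit 409) (nat_lit 286) (nat_lit 250)) (XT.lf (nat_lit 0) (nat_lit 16572429160) (nat_lit 168) (nat_lit 4558727555) (nat_lit 0) (nat_lit 3625957700) (nat_lit 13) (nat_lit 5) (nat_lit 15) (nat_lit 4) (nat_lit 13) (nat_lit 4) (nat_lit 410) (nat_lit 286) (nat_lit 249))) (XT.nd (nat_lit 94) (nat_lit 0) (nat_lit 0) (XT.lf (nat_lit 0) (nat_lit 1589295371) (nat_lit 84) (nat_lit 18468744416) (nat_lit 84) (nat_lit 5332329058) (nat_lit 12) (nat_lit 4) (nat_lit 13) (nat_lit 5) (nat_lit 13) (nat_lit 4) (nat_lit 411) (nat_lit 286) (nat_lit 248)) (XT.lf (nat_lit 0) (nat_lit 7941332460) (nat_lit 84) (nat_lit 15711009068) (nat_lit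 84) (nat_lit 2390182159) (nat_lit 12) (nat_lit 4) (nat_lit 13) (nat_lit 5) (nat_lit 13) (nat_lit 4) (nat_lit 412) (nat_lit 286) (nat_lit 247))))) (XT.nd (nat_lit 282) (nat_lit 84) (nat_lit 0) (XT.nd (nat_lit 94) (nat_lit 0) (nat_lit 0) (XT.lf (nat_lit 0) (nat_lit 586617207) (nat_lit 168) (nat_lit 12309034319) (nat_lit 84) (nat_lit 13819665527) (nat_lit 11) (nat_lit 5) (nat_lit 13) (nat_lit 5) (nat_lit 12) (nat_lit 4) (nat_lit 413) (nat_lit 286) (nat_lit 246)) (XT.nd (nat_lit 94) (nat_lit 0) (nat_lit 0) (XT.lf (nat_lit 0) (nat_lit 3564759130) (nat_lit 168) (nat_lit 6437231788) (nat_lit 84) (nat_lit 17406815198) (nat_lit 11) (nat_lit 5) (nat_lit 13) (nat_lit 5) (nat_lit 12) (nat_lit 4) (nat_lit 414) (nat_lit 286) (nat_lit 245)) (XT.lf (nat_lit 0) (nat_lit 6593486933) (nat_lit 168) (nat_lit 457677040) (nat_lit 84) (nat_lit 21073122142) (nat_lit 11) (nat_lit 5) (nat_lit 13) (nat_lit 5) (nat_lit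 12) (nat_lit 4) (nat_lit 415) (nat_lit 286) (nat_lit 244)))) (XT.nd (nat_lit 188) (nat_lit 0) (nat_lit 0) (XT.nd (nat_lit 94) (nat_lit 0) (nat_lit 0) (XT.lf (nat_lit 0) (nat_lit 5746999436) (nat_lit 84) (nat_lit 3983691316) (nat_lit 168) (nat_lit 19130034166) (nat_lit 10) (nat_lit 5) (nat_lit 11) (nat_lit 5) (nat_lit 12) (nat_lit 4) (nat_lit 416) (nat_lit 286) (nat_lit 243)) (XT.lf (nat_lit 0) (nat_lit 12081439640) (nat_lit 84) (nat_lit 848027086) (nat_lit 168) (nat_lit 16690788639) (nat_lit 10) (nat_lit 5) (nat_lit 11) (nat_lit 5) (nat_lit 12) (nat_lit 4) (nat_lit 417) (nat_lit 286) (nat_lit 242))) (XT.nd (nat_lit 94) (nat_lit 0) (nat_lit 0) (XT.lf (nat_lit 0) (nat_lit 16210750452) (nat_lit 168) (nat_lit 11884233466) (nat_lit 0) (nat_lit 2308012990) (nat_lit 10) (nat_lit 5) (nat_lit 12) (nat_lit 4) (nat_lit 10) (nat_lit 4) (nat_lit 418) (nat_lit 286) (nat_lit 241)) (XT.lf (nat_lit 0)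 (nat_lit 19563577781) (nat_lit 168) (nat_lit 6131206518) (nat_lit 0) (nat_lit 5515264137) (nat_lit 10) (nat_lit 5) (nat_lit 12) (nat_lit 4) (nat_lit 10) (nat_lit 4) (nat_lit 419) (nat_lit 286) (nat_lit 240))))))) (XT.nd (nat_lit 1316) (nat_lit 252) (nat_lit 0) (XT.nd (nat_lit 658) (nat_lit 0) (nat_lit 0) (XT.nd (nat_lit 282) (nat_lit 168) (nat_lit 0) (XT.nd (nat_lit 94) (nat_lit 84) (nat_lit 0) (XT.lf (nat_lit 0) (nat_lit 22982726612) (nat_lit 168) (nat_lit 266556208) (nat_lit 0) (nat_lit 8793076870) (nat_lit 10) (nat_lit 5) (nat_lit 12) (nat_lit 4) (nat_lit 10) (nat_lit 4) (nat_lit 420) (nat_lit 286) (nat_lit 239)) (XT.nd (nat_lit 94) (nat_lit 0) (nat_lit 0) (XT.lf (nat_lit 0) (nat_lit 5828578472) (nat_lit 84) (nat_lit 20698633941) (nat_lit 84) (nat_lit 6371764686) (nat_lit 9) (nat_lit 4) (nat_lit 10) (nat_lit 5) (nat_lit 10) (nat_lit 4) (nat_lit 421) (nat_lit 286) (nat_lit 238)) (XT.lf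 (nat_lit 0) (nat_lit 12053419949) (nat_lit 84) (nat_lit 18094444664) (nat_lit 84) (nat_lit 3634352581) (nat_lit 9) (nat_lit 4) (nat_lit 10) (nat_lit 5) (nat_lit 10) (nat_lit 4) (nat_lit 422) (nat_lit 286) (nat_lit 237)))) (XT.nd (nat_lit 188) (nat_lit 84) (nat_lit 0) (XT.nd (nat_lit 94) (nat_lit 84) (nat_lit 0) (XT.lf (nat_lit 0) (nat_lit 18408102412) (nat_lit 84) (nat_lit 15437131179) (nat_lit 84) (nat_lit 847696544) (nat_lit 9) (nat_lit 4) (nat_lit 10) (nat_lit 5) (nat_lit 10) (nat_lit 4) (nat_lit 423) (nat_lit 286) (nat_lit 236)) (XT.lf (nat_lit 0) (nat_lit 1951793840) (nat_lit 168) (nat_lit 10752868430) (nat_lit 84) (nat_lit 22926675366) (nat_lit 8) (nat_lit 5) (nat_lit 10) (nat_lit 5) (nat_lit 9) (nat_lit 4) (nat_lit 424) (nat_lit 286) (nat_lit 235))) (XT.nd (nat_lit 94) (nat_lit 84) (nat_lit 0) (XT.lf (nat_lit 0) (nat_lit 4787844748) (nat_lit 168) (nat_lit 5117602848) (nat_lit 84)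 (nat_lit 26693126551) (nat_lit 8) (nat_lit 5) (nat_lit 10) (nat_lit 5) (nat_lit 9) (nat_lit 4) (nat_lit 425) (nat_lit 286) (nat_lit 234)) (XT.lf (nat_lit 0) (nat_lit 646660291) (nat_lit 84) (nat_lit 7039031697) (nat_lit 168) (nat_lit 29909850812) (nat_lit 7) (nat_lit 5) (nat_lit 8) (nat_lit 5) (nat_lit 9) (nat_lit 4) (nat_lit 426) (nat_lit 286) (nat_lit 233))))) (XT.nd (nat_lit 282) (nat_lit 0) (nat_lit 0) (XT.nd (nat_lit 94) (nat_lit 0) (nat_lit 0) (XT.lf (nat_lit 0) (nat_lit 6636594545) (nat_lit 84) (nat_lit 4056414406) (nat_lit 168) (nat_lit 27928751542) (nat_lit 7) (nat_lit 5) (nat_lit 8) (nat_lit 5) (nat_lit 9) (nat_lit 4) (nat_lit 427) (nat_lit 286) (nat_lit 232)) (XT.nd (nat_lit 94) (nat_lit 0) (nat_lit 0) (XT.lf (nat_lit 0) (nat_lit 12755583507) (nat_lit 84) (nat_lit 1006667308) (nat_lit 168) (nat_lit 25917378286) (nat_lit 7) (nat_lit 5) (nat_lit 8) (nat_lit 5) (nat_lit 9) (nat_lit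 4) (nat_lit 428) (nat_lit 286) (nat_lit 231)) (XT.lf (nat_lit 0) (nat_lit 16916409681) (nat_lit 168) (nat_lit 21781409350) (nat_lit 0) (nat_lit 2071644634) (nat_lit 7) (nat_lit 5) (nat_lit 9) (nat_lit 4) (nat_lit 7) (nat_lit 4) (nat_lit 429) (nat_lit 286) (nat_lit 230)))) (XT.nd (nat_lit 188) (nat_lit 0) (nat_lit 0) (XT.nd (nat_lit 94) (nat_lit 0) (nat_lit 0) (XT.lf (nat_lit 0) (nat_lit 20148287437) (nat_lit 168) (nat_lit 16542809475) (nat_lit 0) (nat_lit 5201418184) (nat_lit 7) (nat_lit 5) (nat_lit 9) (nat_lit 4) (nat_lit 7) (nat_lit 4) (nat_lit 430) (nat_lit 286) (nat_lit 229)) (XT.lf (nat_lit 0) (nat_lit 23451031349) (nat_lit 168) (nat_lit 11193991850) (nat_lit 0) (nat_lit 8405031801) (nat_lit 7) (nat_lit 5) (nat_lit 9) (nat_lit 4) (nat_lit 7) (nat_lit 4) (nat_lit 431) (nat_lit 286) (nat_lit 228))) (XT.nd (nat_lit 94) (nat_lit 0) (nat_lit 0) (XT.lf (nat_lit 0) (nat_lit 26827527312)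 (nat_lit 168) (nat_lit 5730282750) (nat_lit 0) (nat_lit 11685284759) (nat_lit 7) (nat_lit 5) (nat_lit 9) (nat_lit 4) (nat_lit 7) (nat_lit 4) (nat_lit 432) (nat_lit 286) (nat_lit 227)) (XT.lf (nat_lit 0) (nat_lit 30280725662) (nat_lit 168) (nat_lit 146908060) (nat_lit 0) (nat_lit 15045043297) (nat_lit 7) (nat_lit 5) (nat_lit 9) (nat_lit 4) (nat_lit 7) (nat_lit 4) (nat_lit 433) (nat_lit 286) (nat_lit 226)))))) (XT.nd (nat_lit 658) (nat_lit 84) (nat_lit 0) (XT.nd (nat_lit 282) (nat_lit 84) (nat_lit 0) (XT.nd (nat_lit 94) (nat_lit 0) (nat_lit 0) (XT.lf (nat_lit 0) (nat_lit 5671685915) (nat_lit 84) (nat_lit 28196477555) (nat_lit 84) (nat_lit 12870076927) (nat_lit 6) (nat_lit 4) (nat_lit 7) (nat_lit 5) (nat_lit 7) (nat_lit 4) (nat_lit 434) (nat_lit 286) (nat_lit 225)) (XT.nd (nat_lit 94) (nat_lit 0) (nat_lit 0) (XT.lf (nat_lit 0) (nat_lit 11625313355) (nat_lit 84) (nat_lit 25915804879) (nat_lit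 84) (nat_lit 10501328267) (nat_lit 6) (nat_lit 4) (nat_lit 7) (nat_lit 5) (nat_lit 7) (nat_lit 4) (nat_lit 435) (nat_lit 286) (nat_lit 224)) (XT.lf (nat_lit 0) (nat_lit 17716252697) (nat_lit 84) (nat_lit 23585106357) (nat_lit 84) (nat_lit 8085119081) (nat_lit 6) (nat_lit 4) (nat_lit 7) (nat_lit 5) (nat_lit 7) (nat_lit 4) (nat_lit 436) (nat_lit 286) (nat_lit 223)))) (XT.nd (nat_lit 188) (nat_lit 84) (nat_lit 0) (XT.nd (nat_lit 94) (nat_lit 0) (nat_lit 0) (XT.lf (nat_lit 0) (nat_lit 23949826123) (nat_lit 84) (nat_lit 21202345457) (nat_lit 84) (nat_lit 5619338119) (nat_lit 6) (nat_lit 4) (nat_lit 7) (nat_lit 5) (nat_lit 7) (nat_lit 4) (nat_lit 437) (nat_lit 286) (nat_lit 222)) (XT.lf (nat_lit 0) (nat_lit 30331480443) (nat_lit 84) (nat_lit 18765440155) (nat_lit 84) (nat_lit 3101830814) (nat_lit 6) (nat_lit 4) (nat_lit 7) (nat_lit 5) (nat_lit 7) (nat_lit 4) (nat_lit 438) (nat_lit 286) (nat_lit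 221))) (XT.nd (nat_lit 94) (nat_lit 84) (nat_lit 0) (XT.lf (nat_lit 0) (nat_lit 36866791861) (nat_lit 84) (nat_lit 16272261115) (nat_lit 84) (nat_lit 530397404) (nat_lit 6) (nat_lit 4) (nat_lit 7) (nat_lit 5) (nat_lit 7) (nat_lit 4) (nat_lit 439) (nat_lit 286) (nat_lit 220)) (XT.lf (nat_lit 0) (nat_lit 2056284894) (nat_lit 168) (nat_lit 11643580491) (nat_lit 84) (nat_lit 41484421503) (nat_lit 5) (nat_lit 5) (nat_lit 7) (nat_lit 5) (nat_lit 6) (nat_lit 4) (nat_lit 440) (nat_lit 286) (nat_lit 219))))) (XT.nd (nat_lit 282) (nat_lit 0) (nat_lit 0) (XT.nd (nat_lit 94) (nat_lit 84) (nat_lit 0) (XT.lf (nat_lit 0) (nat_lit 4689945246) (nat_lit 168) (nat_lit 6371012227) (nat_lit 84) (nat_lit 45684062611) (nat_lit 5) (nat_lit 5) (nat_lit 7) (nat_lit 5) (nat_lit 6) (nat_lit 4) (nat_lit 441) (nat_lit 286) (nat_lit 218)) (XT.nd (nat_lit 94) (nat_lit 84) (nat_lit 0) (XT.lf (nat_lit 0) (nat_lit 7383234871)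 (nat_lit 168) (nat_lit 975248124) (nat_lit 84) (nat_lit 49994683676) (nat_lit 5) (nat_lit 5) (nat_lit 7) (nat_lit 5) (nat_lit 6) (nat_lit 4) (nat_lit 442) (nat_lit 286) (nat_lit 217)) (XT.lf (nat_lit 0) (nat_lit 4638949171) (nat_lit 84) (nat_lit 5544150375) (nat_lit 168) (nat_lit 49825694504) (nat_lit 4) (nat_lit 5) (nat_lit 5) (nat_lit 5) (nat_lit 6) (nat_lit 4) (nat_lit 443) (nat_lit 286) (nat_lit 216)))) (XT.nd (nat_lit 188) (nat_lit 0) (nat_lit 0) (XT.nd (nat_lit 94) (nat_lit 0) (nat_lit 0) (XT.lf (nat_lit 0) (nat_lit 10407934641) (nat_lit 84) (nat_lit 2650282332) (nat_lit 168) (nat_lit 48656144977) (nat_lit 4) (nat_lit 5) (nat_lit 5) (nat_lit 5) (nat_lit 6) (nat_lit 4) (nat_lit 444) (nat_lit 286) (nat_lit 215)) (XT.lf (nat_lit 0) (nat_lit 16004573815) (nat_lit 168) (nat_lit 47157343393) (nat_lit 0) (nat_lit 309639233) (nat_lit 4) (nat_lit 5) (nat_lit 6) (nat_lit 4) (nat_lit 4) (nat_lit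 4) (nat_lit 445) (nat_lit 286) (nat_lit 214))) (XT.nd (nat_lit 94) (nat_lit 0) (nat_lit 0) (XT.lf (nat_lit 0) (nat_lit 19047901458) (nat_lit 168) (nat_lit 42942124619) (nat_lit 0) (nat_lit 3291192153) (nat_lit 4) (nat_lit 5) (nat_lit 6) (nat_lit 4) (nat_lit 4) (nat_lit 4) (nat_lit 446) (nat_lit 286) (nat_lit 213)) (XT.lf (nat_lit 0) (nat_lit 22165382985) (nat_lit 168) (nat_lit 38631611651) (nat_lit 0) (nat_lit 6348698221) (nat_lit 4) (nat_lit 5) (nat_lit 6) (nat_lit 4) (nat_lit 4) (nat_lit 4) (nat_lit 447) (nat_lit 286) (nat_lit 212))))))))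
noncomputable def xc29 : XT := (XT.nd (nat_lit 53016) (nat_lit 0) (nat_lit 840) (XT.nd (nat_lit 1316) (nat_lit 0) (nat_lit 0) (XT.nd (nat_lit 658) (nat_lit 84) (nat_lit 0) (XT.nd (nat_lit 282) (nat_lit 0) (nat_lit 0) (XT.nd (nat_lit 94) (nat_lit 0) (nat_lit 0) (XT.lf (nat_lit 0) (nat_lit 25359742410) (nat_lit 168) (nat_lit 34222038021) (nat_lit 0) (nat_lit 9484829044) (nat_lit 4) (nat_lit 5) (nat_lit 6) (nat_lit 4) (nat_lit 4) (nat_lit 4) (nat_lit 448) (nat_lit 286) (nat_lit 211)) (XT.nd (nat_lit 94) (nat_lit 0) (nat_lit 0) (XT.lf (nat_lit 0) (nat_lit 28633770920) (nat_lit 168) (nat_lit 29709550703) (nat_lit 0) (nat_lit 12702324932) (nat_lit 4) (nat_lit 5) (nat_lit 6) (nat_lit 4) (nat_lit 4) (nat_lit 4) (nat_lit 449) (nat_lit 286) (nat_lit 210)) (XT.lf (nat_lit 0) (nat_lit 31990329317) (nat_lit 168) (nat_lit 25090206749) (nat_lit 0) (nat_lit 16003997287) (nat_lit 4) (nat_lit 5) (nat_lit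 6) (nat_lit 4) (nat_lit 4) (nat_lit 4) (nat_lit 450) (nat_lit 286) (nat_lit 209)))) (XT.nd (nat_lit 188) (nat_lit 0) (nat_lit 0) (XT.nd (nat_lit 94) (nat_lit 0) (nat_lit 0) (XT.lf (nat_lit 0) (nat_lit 35432350516) (nat_lit 168) (nat_lit 20359969837) (nat_lit 0) (nat_lit 19392731068) (nat_lit 4) (nat_lit 5) (nat_lit 6) (nat_lit 4) (nat_lit 4) (nat_lit 4) (nat_lit 451) (nat_lit 286) (nat_lit 208)) (XT.lf (nat_lit 0) (nat_lit 38962842108) (nat_lit 168) (nat_lit 15514706750) (nat_lit 0) (nat_lit 22871487302) (nat_lit 4) (nat_lit 5) (nat_lit 6) (nat_lit 4) (nat_lit 4) (nat_lit 4) (nat_lit 452) (nat_lit 286) (nat_lit 207))) (XT.nd (nat_lit 94) (nat_lit 0) (nat_lit 0) (XT.lf (nat_lit 0) (nat_lit 42584888990) (nat_lit 168) (nat_lit 10550183765) (nat_lit 0) (nat_lit 26443305681) (nat_lit 4) (nat_lit 5) (nat_lit 6) (nat_lit 4) (nat_lit 4) (nat_lit 4) (nat_lit 453) (nat_lit 286) (nat_lit 206)) (XT.lf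 (nat_lit 0) (nat_lit 46301656056) (nat_lit 168) (nat_lit 5462062948) (nat_lit 0) (nat_lit 30111307210) (nat_lit 4) (nat_lit 5) (nat_lit 6) (nat_lit 4) (nat_lit 4) (nat_lit 4) (nat_lit 454) (nat_lit 286) (nat_lit 205))))) (XT.nd (nat_lit 282) (nat_lit 0) (nat_lit 0) (XT.nd (nat_lit 94) (nat_lit 84) (nat_lit 0) (XT.lf (nat_lit 0) (nat_lit 50116390966) (nat_lit 168) (nat_lit 245898368) (nat_lit 0) (nat_lit 33878696939) (nat_lit 4) (nat_lit 5) (nat_lit 6) (nat_lit 4) (nat_lit 4) (nat_lit 4) (nat_lit 455) (nat_lit 286) (nat_lit 204)) (XT.nd (nat_lit 94) (nat_lit 0) (nat_lit 0) (XT.lf (nat_lit 0) (nat_lit 5204424862) (nat_lit 84) (nat_lit 48878030238) (nat_lit 84) (nat_lit 32594370016) (nat_lit 3) (nat_lit 4) (nat_lit 4) (nat_lit 5) (nat_lit 4) (nat_lit 4) (nat_lit 456) (nat_lit 286) (nat_lit 203)) (XT.lf (nat_lit 0) (nat_lit 10799649254) (nat_lit 84) (nat_lit 47357349472) (nat_lit 84) (nat_lit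 31029061875) (nat_lit 3) (nat_lit 4) (nat_lit 4) (nat_lit 5) (nat_lit 4) (nat_lit 4) (nat_lit 457) (nat_lit 286) (nat_lit 202)))) (XT.nd (nat_lit 188) (nat_lit 0) (nat_lit 0) (XT.nd (nat_lit 94) (nat_lit 0) (nat_lit 0) (XT.lf (nat_lit 0) (nat_lit 16539769980) (nat_lit 84) (nat_lit 45801401376) (nat_lit 84) (nat_lit 29429786231) (nat_lit 3) (nat_lit 4) (nat_lit 4) (nat_lit 5) (nat_lit 4) (nat_lit 4) (nat_lit 458) (nat_lit 286) (nat_lit 201)) (XT.lf (nat_lit 0) (nat_lit 22429802679) (nat_lit 84) (nat_lit 44208826384) (nat_lit 84) (nat_lit 27795145659) (nat_lit 3) (nat_lit 4) (nat_lit 4) (nat_lit 5) (nat_lit 4) (nat_lit 4) (nat_lit 459) (nat_lit 286) (nat_lit 200))) (XT.nd (nat_lit 94) (nat_lit 0) (nat_lit 0) (XT.lf (nat_lit 0) (nat_lit 28474893981) (nat_lit 84) (nat_lit 42578232927) (nat_lit 84) (nat_lit 26123711833) (nat_lit 3) (nat_lit 4) (nat_lit 4) (nat_lit 5) (nat_lit 4) (nat_lit 4)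 (nat_lit 460) (nat_lit 286) (nat_lit 199)) (XT.lf (nat_lit 0) (nat_lit 34680326005) (nat_lit 84) (nat_lit 40908196214) (nat_lit 84) (nat_lit 24414024275) (nat_lit 3) (nat_lit 4) (nat_lit 4) (nat_lit 5) (nat_lit 4) (nat_lit 4) (nat_lit 461) (nat_lit 286) (nat_lit 198)))))) (XT.nd (nat_lit 51042) (nat_lit 0) (nat_lit 2940) (XT.nd (nat_lit 282) (nat_lit 0) (nat_lit 0) (XT.nd (nat_lit 94) (nat_lit 0) (nat_lit 0) (XT.lf (nat_lit 0) (nat_lit 41051520973) (nat_lit 84) (nat_lit 39197256988) (nat_lit 84) (nat_lit 22664589085) (nat_lit 3) (nat_lit 4) (nat_lit 4) (nat_lit 5) (nat_lit 4) (nat_lit 4) (nat_lit 462) (nat_lit 286) (nat_lit 197)) (XT.nd (nat_lit 94) (nat_lit 0) (nat_lit 0) (XT.lf (nat_lit 0) (nat_lit 47594045948) (nat_lit 84) (nat_lit 37443920256) (nat_lit 84) (nat_lit 20873877629) (nat_lit 3) (nat_lit 4) (nat_lit 4) (nat_lit 5) (nat_lit 4) (nat_lit 4) (nat_lit 463) (nat_lit 286) (nat_lit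 196)) (XT.lf (nat_lit 0) (nat_lit 54313617701) (nat_lit 84) (nat_lit 35646653975) (nat_lit 84) (nat_lit 19040325209) (nat_lit 3) (nat_lit 4) (nat_lit 4) (nat_lit 5) (nat_lit 4) (nat_lit 4) (nat_lit 464) (nat_lit 286) (nat_lit 195)))) (XT.nd (nat_lit 50572) (nat_lit 0) (nat_lit 4032) (XT.nd (nat_lit 50478) (nat_lit 0) (nat_lit 4284) (XT.lf (nat_lit 0) (nat_lit 61216107701) (nat_lit 84) (nat_lit 33803887718) (nat_lit 84) (nat_lit 17162329690) (nat_lit 3) (nat_lit 4) (nat_lit 4) (nat_lit 5) (nat_lit 4) (nat_lit 4) (nat_lit 465) (nat_lit 286) (nat_lit 194)) (XT.lf (nat_lit 0) (nat_lit 373019112) (nat_lit 336) (nat_lit 4605286982) (nat_lit 0) (nat_lit 373019112) (nat_lit 54) (nat_lit 5) (nat_lit 58) (nat_lit 4) (nat_lit 54) (nat_lit 4) (nat_lit 371) (nat_lit 287) (nat_lit 287))) (XT.nd (nat_lit 94) (nat_lit 252) (nat_lit 0) (XT.lf (nat_lit 0) (nat_lit 4441024664) (nat_lit 336) (nat_lit 2743146587)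 (nat_lit 0) (nat_lit 3701184878) (nat_lit 54) (nat_lit 5) (nat_lit 58) (nat_lit 4) (nat_lit 54) (nat_lit 4) (nat_lit 372) (nat_lit 287) (nat_lit 286)) (XT.lf (nat_lit 0) (nat_lit 3863387615) (nat_lit 252) (nat_lit 4334922911) (nat_lit 252) (nat_lit 2876792072) (nat_lit 51) (nat_lit 4) (nat_lit 54) (nat_lit 5) (nat_lit 54) (nat_lit 4) (nat_lit 373) (nat_lit 287) (nat_lit 285))))) (XT.nd (nat_lit 282) (nat_lit 504) (nat_lit 0) (XT.nd (nat_lit 94) (nat_lit 504) (nat_lit 0) (XT.lf (nat_lit 0) (nat_lit 724814698) (nat_lit 336) (nat_lit 684126957) (nat_lit 84) (nat_lit 9863188649) (nat_lit 50) (nat_lit 5) (nat_lit 54) (nat_lit 5) (nat_lit 51) (nat_lit 4) (nat_lit 374) (nat_lit 287) (nat_lit 284)) (XT.nd (nat_lit 94) (nat_lit 252) (nat_lit 0) (XT.lf (nat_lit 0) (nat_lit 4367309007) (nat_lit 336) (nat_lit 5490028145) (nat_lit 0) (nat_lit 1617251723) (nat_lit 47) (nat_lit 5) (nat_lit 51) (nat_lit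 4) (nat_lit 47) (nat_lit 4) (nat_lit 375) (nat_lit 287) (nat_lit 283)) (XT.lf (nat_lit 0) (nat_lit 1063263225) (nat_lit 252) (nat_lit 7004863838) (nat_lit 252) (nat_lit 3616614256) (nat_lit 44) (nat_lit 4) (nat_lit 47) (nat_lit 5) (nat_lit 47) (nat_lit 4) (nat_lit 376) (nat_lit 287) (nat_lit 282)))) (XT.nd (nat_lit 188) (nat_lit 252) (nat_lit 0) (XT.nd (nat_lit 94) (nat_lit 252) (nat_lit 0) (XT.lf (nat_lit 0) (nat_lit 7799061730) (nat_lit 252) (nat_lit 4055421928) (nat_lit 252) (nat_lit 47568173) (nat_lit 44) (nat_lit 4) (nat_lit 47) (nat_lit 5) (nat_lit 47) (nat_lit 4) (nat_lit 377) (nat_lit 287) (nat_lit 281)) (XT.lf (nat_lit 0) (nat_lit 2500355519) (nat_lit 168) (nat_lit 1001992620) (nat_lit 252) (nat_lit 8624232787) (nat_lit 41) (nat_lit 5) (nat_lit 43) (nat_lit 5) (nat_lit 44) (nat_lit 4) (nat_lit 378) (nat_lit 287) (nat_lit 280))) (XT.nd (nat_lit 94) (nat_lit 252) (nat_lit 0) (XT.lf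 (nat_lit 0) (nat_lit 7141512472) (nat_lit 252) (nat_lit 3117559091) (nat_lit 0) (nat_lit 2099330373) (nat_lit 41) (nat_lit 5) (nat_lit 44) (nat_lit 4) (nat_lit 41) (nat_lit 4) (nat_lit 379) (nat_lit 287) (nat_lit 279)) (XT.lf (nat_lit 0) (nat_lit 3523470499) (nat_lit 252) (nat_lit 7333729013) (nat_lit 252) (nat_lit 1741036631) (nat_lit 38) (nat_lit 4) (nat_lit 41) (nat_lit 5) (nat_lit 41) (nat_lit 4) (nat_lit 380) (nat_lit 287) (nat_lit 278))))))) (XT.nd (nat_lit 1316) (nat_lit 756) (nat_lit 0) (XT.nd (nat_lit 658) (nat_lit 672) (nat_lit 0) (XT.nd (nat_lit 282) (nat_lit 420) (nat_lit 0) (XT.nd (nat_lit 94) (nat_lit 168) (nat_lit 0) (XT.lf (nat_lit 0) (nat_lit 1758801025) (nat_lit 336) (nat_lit 2556802301) (nat_lit 84) (nat_lit 8530538263) (nat_lit 37) (nat_lit 5) (nat_lit 41) (nat_lit 5) (nat_lit 38) (nat_lit 4) (nat_lit 381) (nat_lit 287) (nat_lit 277)) (XT.nd (nat_lit 94) (nat_lit 0)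 (nat_lit 0) (XT.lf (nat_lit 0) (nat_lit 4100913637) (nat_lit 168) (nat_lit 1193170481) (nat_lit 252) (nat_lit 7807991936) (nat_lit 35) (nat_lit 5) (nat_lit 37) (nat_lit 5) (nat_lit 38) (nat_lit 4) (nat_lit 382) (nat_lit 287) (nat_lit 276)) (XT.lf (nat_lit 0) (nat_lit 8907567343) (nat_lit 252) (nat_lit 2493083123) (nat_lit 0) (nat_lit 1965944026) (nat_lit 35) (nat_lit 5) (nat_lit 38) (nat_lit 4) (nat_lit 35) (nat_lit 4) (nat_lit 383) (nat_lit 287) (nat_lit 275)))) (XT.nd (nat_lit 188) (nat_lit 168) (nat_lit 0) (XT.nd (nat_lit 94) (nat_lit 84) (nat_lit 0) (XT.lf (nat_lit 0) (nat_lit 4163910092) (nat_lit 168) (nat_lit 8446143453) (nat_lit 168) (nat_lit 1029645130) (nat_lit 33) (nat_lit 4) (nat_lit 35) (nat_lit 5) (nat_lit 35) (nat_lit 4) (nat_lit 384) (nat_lit 287) (nat_lit 274)) (XT.lf (nat_lit 0) (nat_lit 2408179093) (nat_lit 252) (nat_lit 2988938457) (nat_lit 84) (nat_lit 8524589091) (nat_lit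 32) (nat_lit 5) (nat_lit 35) (nat_lit 5) (nat_lit 33) (nat_lit 4) (nat_lit 385) (nat_lit 287) (nat_lit 273))) (XT.nd (nat_lit 94) (nat_lit 0) (nat_lit 0) (XT.lf (nat_lit 0) (nat_lit 3640635810) (nat_lit 168) (nat_lit 2253843531) (nat_lit 252) (nat_lit 8318470949) (nat_lit 30) (nat_lit 5) (nat_lit 32) (nat_lit 5) (nat_lit 33) (nat_lit 4) (nat_lit 386) (nat_lit 287) (nat_lit 272)) (XT.lf (nat_lit 0) (nat_lit 9456862625) (nat_lit 252) (nat_lit 4104718962) (nat_lit 0) (nat_lit 952265387) (nat_lit 30) (nat_lit 5) (nat_lit 33) (nat_lit 4) (nat_lit 30) (nat_lit 4) (nat_lit 387) (nat_lit 287) (nat_lit 271))))) (XT.nd (nat_lit 282) (nat_lit 252) (nat_lit 0) (XT.nd (nat_lit 94) (nat_lit 252) (nat_lit 0) (XT.lf (nat_lit 0) (nat_lit 2472837511) (nat_lit 168) (nat_lit 10632915673) (nat_lit 168) (nat_lit 1718687084) (nat_lit 28) (nat_lit 4) (nat_lit 30) (nat_lit 5) (nat_lit 30) (nat_lit 4) (nat_lit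 388) (nat_lit 287) (nat_lit 270)) (XT.nd (nat_lit 94) (nat_lit 168) (nat_lit 0) (XT.lf (nat_lit 0) (nat_lit 1661793757) (nat_lit 252) (nat_lit 5938487602) (nat_lit 84) (nat_lit 7544361669) (nat_lit 27) (nat_lit 5) (nat_lit 30) (nat_lit 5) (nat_lit 28) (nat_lit 4) (nat_lit 389) (nat_lit 287) (nat_lit 269)) (XT.lf (nat_lit 0) (nat_lit 553720696) (nat_lit 168) (nat_lit 4496410565) (nat_lit 252) (nat_lit 10425634319) (nat_lit 25) (nat_lit 5) (nat_lit 27) (nat_lit 5) (nat_lit 28) (nat_lit 4) (nat_lit 390) (nat_lit 287) (nat_lit 268)))) (XT.nd (nat_lit 188) (nat_lit 252) (nat_lit 0) (XT.nd (nat_lit 94) (nat_lit 0) (nat_lit 0) (XT.lf (nat_lit 0) (nat_lit 7256389614) (nat_lit 168) (nat_lit 1280214373) (nat_lit 252) (nat_lit 7280375497) (nat_lit 25) (nat_lit 5) (nat_lit 27) (nat_lit 5) (nat_lit 28) (nat_lit 4) (nat_lit 391) (nat_lit 287) (nat_lit 267)) (XT.lf (nat_lit 0) (nat_lit 12085178054) (nat_lit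 252) (nat_lit 2132281352) (nat_lit 0) (nat_lit 1952295889) (nat_lit 25) (nat_lit 5) (nat_lit 28) (nat_lit 4) (nat_lit 25) (nat_lit 4) (nat_lit 392) (nat_lit 287) (nat_lit 266))) (XT.nd (nat_lit 94) (nat_lit 84) (nat_lit 0) (XT.lf (nat_lit 0) (nat_lit 4461857431) (nat_lit 168) (nat_lit 11273693947) (nat_lit 168) (nat_lit 797751974) (nat_lit 23) (nat_lit 4) (nat_lit 25) (nat_lit 5) (nat_lit 25) (nat_lit 4) (nat_lit 393) (nat_lit 287) (nat_lit 265)) (XT.lf (nat_lit 0) (nat_lit 2498858214) (nat_lit 252) (nat_lit 5736327572) (nat_lit 84) (nat_lit 8673021985) (nat_lit 22) (nat_lit 5) (nat_lit 25) (nat_lit 5) (nat_lit 23) (nat_lit 4) (nat_lit 394) (nat_lit 287) (nat_lit 264)))))) (XT.nd (nat_lit 658) (nat_lit 336) (nat_lit 0) (XT.nd (nat_lit 282) (nat_lit 336) (nat_lit 0) (XT.nd (nat_lit 94) (nat_lit 0) (nat_lit 0) (XT.lf (nat_lit 0) (nat_lit 695826592) (nat_lit 84) (nat_lit 5130874447) (nat_lit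 168) (nat_lit 11469015328) (nat_lit 21) (nat_lit 5) (nat_lit 22) (nat_lit 5) (nat_lit 23) (nat_lit 4) (nat_lit 395) (nat_lit 287) (nat_lit 263)) (XT.nd (nat_lit 94) (nat_lit 0) (nat_lit 0) (XT.lf (nat_lit 0) (nat_lit 7340804810) (nat_lit 84) (nat_lit 1913938859) (nat_lit 168) (nat_lit 8440139357) (nat_lit 21) (nat_lit 5) (nat_lit 22) (nat_lit 5) (nat_lit 23) (nat_lit 4) (nat_lit 396) (nat_lit 287) (nat_lit 262)) (XT.lf (nat_lit 0) (nat_lit 12742820994) (nat_lit 168) (nat_lit 4030572502) (nat_lit 0) (nat_lit 1333957853) (nat_lit 21) (nat_lit 5) (nat_lit 23) (nat_lit 4) (nat_lit 21) (nat_lit 4) (nat_lit 397) (nat_lit 287) (nat_lit 261)))) (XT.nd (nat_lit 188) (nat_lit 84) (nat_lit 0) (XT.nd (nat_lit 94) (nat_lit 84) (nat_lit 0) (XT.lf (nat_lit 0) (nat_lit 2417436836) (nat_lit 168) (nat_lit 13905670718) (nat_lit 168) (nat_lit 2209500389) (nat_lit 19) (nat_lit 4) (nat_lit 21) (nat_lit 5) (nat_lit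 21) (nat_lit 4) (nat_lit 398) (nat_lit 287) (nat_lit 260)) (XT.lf (nat_lit 0) (nat_lit 1006494359) (nat_lit 252) (nat_lit 9931925796) (nat_lit 84) (nat_lit 8032342630) (nat_lit 18) (nat_lit 5) (nat_lit 21) (nat_lit 5) (nat_lit 19) (nat_lit 4) (nat_lit 399) (nat_lit 287) (nat_lit 259))) (XT.nd (nat_lit 94) (nat_lit 84) (nat_lit 0) (XT.lf (nat_lit 0) (nat_lit 4221655028) (nat_lit 252) (nat_lit 3675964219) (nat_lit 84) (nat_lit 11525411624) (nat_lit 18) (nat_lit 5) (nat_lit 21) (nat_lit 5) (nat_lit 19) (nat_lit 4) (nat_lit 400) (nat_lit 287) (nat_lit 258)) (XT.lf (nat_lit 0) (nat_lit 2732744761) (nat_lit 84) (nat_lit 4775430344) (nat_lit 168) (nat_lit 12381481388) (nat_lit 17) (nat_lit 5) (nat_lit 18) (nat_lit 5) (nat_lit 19) (nat_lit 4) (nat_lit 401) (nat_lit 287) (nat_lit 257))))) (XT.nd (nat_lit 282) (nat_lit 168) (nat_lit 0) (XT.nd (nat_lit 94) (nat_lit 168) (nat_lit 0) (XT.lf (nat_lit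 0) (nat_lit 9321676802) (nat_lit 84) (nat_lit 1558025769) (nat_lit 168) (nat_lit 9491021523) (nat_lit 17) (nat_lit 5) (nat_lit 18) (nat_lit 5) (nat_lit 19) (nat_lit 4) (nat_lit 402) (nat_lit 287) (nat_lit 256)) (XT.nd (nat_lit 94) (nat_lit 168) (nat_lit 0) (XT.lf (nat_lit 0) (nat_lit 14319680996) (nat_lit 168) (nat_lit 4860841304) (nat_lit 0) (nat_lit 1686716799) (nat_lit 17) (nat_lit 5) (nat_lit 19) (nat_lit 4) (nat_lit 17) (nat_lit 4) (nat_lit 403) (nat_lit 287) (nat_lit 255)) (XT.lf (nat_lit 0) (nat_lit 1442217441) (nat_lit 168) (nat_lit 16401801039) (nat_lit 168) (nat_lit 3535229807) (nat_lit 15) (nat_lit 4) (nat_lit 17) (nat_lit 5) (nat_lit 17) (nat_lit 4) (nat_lit 404) (nat_lit 287) (nat_lit 254)))) (XT.nd (nat_lit 188) (nat_lit 84) (nat_lit 0) (XT.nd (nat_lit 94) (nat_lit 84) (nat_lit 0) (XT.lf (nat_lit 0) (nat_lit 7951318877) (nat_lit 168) (nat_lit 13524329367) (nat_lit 168) (nat_lit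 430955187) (nat_lit 15) (nat_lit 4) (nat_lit 17) (nat_lit 5) (nat_lit 17) (nat_lit 4) (nat_lit 405) (nat_lit 287) (nat_lit 253)) (XT.lf (nat_lit 0) (nat_lit 2665837859) (nat_lit 252) (nat_lit 7901920360) (nat_lit 84) (nat_lit 11882652699) (nat_lit 14) (nat_lit 5) (nat_lit 17) (nat_lit 5) (nat_lit 15) (nat_lit 4) (nat_lit 406) (nat_lit 287) (nat_lit 252))) (XT.nd (nat_lit 94) (nat_lit 84) (nat_lit 0) (XT.lf (nat_lit 0) (nat_lit 5801604526) (nat_lit 252) (nat_lit 1750097557) (nat_lit 84) (nat_lit 15460090378) (nat_lit 14) (nat_lit 5) (nat_lit 17) (nat_lit 5) (nat_lit 15) (nat_lit 4) (nat_lit 407) (nat_lit 287) (nat_lit 251)) (XT.lf (nat_lit 0) (nat_lit 4599453746) (nat_lit 84) (nat_lit 4432253306) (nat_lit 168) (nat_lit 14558329428) (nat_lit 13) (nat_lit 5) (nat_lit 14) (nat_lit 5) (nat_lit 15) (nat_lit 4) (nat_lit 408) (nat_lit 287) (nat_lit 250))))))))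
noncomputable def xc30 : XT := (XT.nd (nat_lit 2538) (nat_lit 252) (nat_lit 0) (XT.nd (nat_lit 1222) (nat_lit 252) (nat_lit 0) (XT.nd (nat_lit 564) (nat_lit 168) (nat_lit 0) (XT.nd (nat_lit 282) (nat_lit 168) (nat_lit 0) (XT.nd (nat_lit 94) (nat_lit 0) (nat_lit 0) (XT.lf (nat_lit 0) (nat_lit 11099539547) (nat_lit 84) (nat_lit 1233446955) (nat_lit 168) (nat_lit 11853441180) (nat_lit 13) (nat_lit 5) (nat_lit 14) (nat_lit 5) (nat_lit 15) (nat_lit 4) (nat_lit 409) (nat_lit 287) (nat_lit 249)) (XT.nd (nat_lit 94) (nat_lit 0) (nat_lit 0) (XT.lf (nat_lit 0) (nat_lit 15710681727) (nat_lit 168) (nat_lit 7100504816) (nat_lit 0) (nat_lit 1990230011) (nat_lit 13) (nat_lit 5) (nat_lit 15) (nat_lit 4) (nat_lit 13) (nat_lit 4) (nat_lit 410) (nat_lit 287) (nat_lit 248)) (XT.lf (nat_lit 0) (nat_lit 19160718880) (nat_lit 168) (nat_lit 1019176729) (nat_lit 0) (nat_lit 5255855613) (nat_lit 13) (nat_lit 5)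 (nat_lit 15) (nat_lit 4) (nat_lit 13) (nat_lit 4) (nat_lit 411) (nat_lit 287) (nat_lit 247)))) (XT.nd (nat_lit 94) (nat_lit 84) (nat_lit 0) (XT.lf (nat_lit 0) (nat_lit 5277244604) (nat_lit 84) (nat_lit 17447739412) (nat_lit 84) (nat_lit 3363835804) (nat_lit 12) (nat_lit 4) (nat_lit 13) (nat_lit 5) (nat_lit 13) (nat_lit 4) (nat_lit 412) (nat_lit 287) (nat_lit 246)) (XT.nd (nat_lit 94) (nat_lit 84) (nat_lit 0) (XT.lf (nat_lit 0) (nat_lit 11713815513) (nat_lit 84) (nat_lit 14653147751) (nat_lit 84) (nat_lit 395418569) (nat_lit 12) (nat_lit 4) (nat_lit 13) (nat_lit 5) (nat_lit 13) (nat_lit 4) (nat_lit 413) (nat_lit 287) (nat_lit 245)) (XT.lf (nat_lit 0) (nat_lit 2571346597) (nat_lit 168) (nat_lit 9206658282) (nat_lit 84) (nat_lit 15678564415) (nat_lit 11) (nat_lit 5) (nat_lit 13) (nat_lit 5) (nat_lit 12) (nat_lit 4) (nat_lit 414) (nat_lit 287) (nat_lit 244))))) (XT.nd (nat_lit 282) (nat_lit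 84) (nat_lit 0) (XT.nd (nat_lit 94) (nat_lit 84) (nat_lit 0) (XT.lf (nat_lit 0) (nat_lit 5581537704) (nat_lit 168) (nat_lit 3259817609) (nat_lit 84) (nat_lit 19331261326) (nat_lit 11) (nat_lit 5) (nat_lit 13) (nat_lit 5) (nat_lit 12) (nat_lit 4) (nat_lit 415) (nat_lit 287) (nat_lit 243)) (XT.nd (nat_lit 94) (nat_lit 0) (nat_lit 0) (XT.lf (nat_lit 0) (nat_lit 2856697427) (nat_lit 84) (nat_lit 5816263952) (nat_lit 168) (nat_lit 20237478384) (nat_lit 10) (nat_lit 5) (nat_lit 11) (nat_lit 5) (nat_lit 12) (nat_lit 4) (nat_lit 416) (nat_lit 287) (nat_lit 242)) (XT.lf (nat_lit 0) (nat_lit 9159687778) (nat_lit 84) (nat_lit 2694274646) (nat_lit 168) (nat_lit 17816551633) (nat_lit 10) (nat_lit 5) (nat_lit 11) (nat_lit 5) (nat_lit 12) (nat_lit 4) (nat_lit 417) (nat_lit 287) (nat_lit 241)))) (XT.nd (nat_lit 188) (nat_lit 84) (nat_lit 0) (XT.nd (nat_lit 94) (nat_lit 0) (nat_lit 0) (XT.lf (nat_lit 0)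 (nat_lit 15100114053) (nat_lit 168) (nat_lit 14869430981) (nat_lit 0) (nat_lit 484774819) (nat_lit 10) (nat_lit 5) (nat_lit 12) (nat_lit 4) (nat_lit 10) (nat_lit 4) (nat_lit 418) (nat_lit 287) (nat_lit 240)) (XT.lf (nat_lit 0) (nat_lit 18436062901) (nat_lit 168) (nat_lit 9146437258) (nat_lit 0) (nat_lit 3679387568) (nat_lit 10) (nat_lit 5) (nat_lit 12) (nat_lit 4) (nat_lit 10) (nat_lit 4) (nat_lit 419) (nat_lit 287) (nat_lit 239))) (XT.nd (nat_lit 94) (nat_lit 84) (nat_lit 0) (XT.lf (nat_lit 0) (nat_lit 21838824857) (nat_lit 168) (nat_lit 3310945420) (nat_lit 0) (nat_lit 6944930012) (nat_lit 10) (nat_lit 5) (nat_lit 12) (nat_lit 4) (nat_lit 10) (nat_lit 4) (nat_lit 420) (nat_lit 287) (nat_lit 238)) (XT.lf (nat_lit 0) (nat_lit 2694727341) (nat_lit 84) (nat_lit 22642549235) (nat_lit 84) (nat_lit 7615431561) (nat_lit 9) (nat_lit 4) (nat_lit 10) (nat_lit 5) (nat_lit 10) (nat_lit 4) (nat_lit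 421) (nat_lit 287) (nat_lit 237)))))) (XT.nd (nat_lit 658) (nat_lit 84) (nat_lit 0) (XT.nd (nat_lit 282) (nat_lit 84) (nat_lit 0) (XT.nd (nat_lit 94) (nat_lit 84) (nat_lit 0) (XT.lf (nat_lit 0) (nat_lit 8891537164) (nat_lit 84) (nat_lit 20050675953) (nat_lit 84) (nat_lit 4894215728) (nat_lit 9) (nat_lit 4) (nat_lit 10) (nat_lit 5) (nat_lit 10) (nat_lit 4) (nat_lit 422) (nat_lit 287) (nat_lit 236)) (XT.nd (nat_lit 94) (nat_lit 84) (nat_lit 0) (XT.lf (nat_lit 0) (nat_lit 15219004429) (nat_lit 84) (nat_lit 17405319745) (nat_lit 84) (nat_lit 2123284227) (nat_lit 9) (nat_lit 4) (nat_lit 10) (nat_lit 5) (nat_lit 10) (nat_lit 4) (nat_lit 423) (nat_lit 287) (nat_lit 235)) (XT.lf (nat_lit 0) (nat_lit 686128833) (nat_lit 168) (nat_lit 14011111746) (nat_lit 84) (nat_lit 20989600602) (nat_lit 8) (nat_lit 5) (nat_lit 10) (nat_lit 5) (nat_lit 9) (nat_lit 4) (nat_lit 424) (nat_lit 287) (nat_lit 234))))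 (XT.nd (nat_lit 188) (nat_lit 84) (nat_lit 0) (XT.nd (nat_lit 94) (nat_lit 0) (nat_lit 0) (XT.lf (nat_lit 0) (nat_lit 3507647086) (nat_lit 168) (nat_lit 8401796450) (nat_lit 84) (nat_lit 24745078259) (nat_lit 8) (nat_lit 5) (nat_lit 10) (nat_lit 5) (nat_lit 9) (nat_lit 4) (nat_lit 425) (nat_lit 287) (nat_lit 233)) (XT.lf (nat_lit 0) (nat_lit 6385168858) (nat_lit 168) (nat_lit 2675346435) (nat_lit 84) (nat_lit 28591592806) (nat_lit 8) (nat_lit 5) (nat_lit 10) (nat_lit 5) (nat_lit 9) (nat_lit 4) (nat_lit 426) (nat_lit 287) (nat_lit 232))) (XT.nd (nat_lit 94) (nat_lit 0) (nat_lit 0) (XT.lf (nat_lit 0) (nat_lit 3236395730) (nat_lit 84) (nat_lit 6115922973) (nat_lit 168) (nat_lit 29327219760) (nat_lit 7) (nat_lit 5) (nat_lit 8) (nat_lit 5) (nat_lit 9) (nat_lit 4) (nat_lit 427) (nat_lit 287) (nat_lit 231)) (XT.lf (nat_lit 0) (nat_lit 9331163868) (nat_lit 84) (nat_lit 3076864436) (nat_lit 168)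 (nat_lit 27329792170) (nat_lit 7) (nat_lit 5) (nat_lit 8) (nat_lit 5) (nat_lit 9) (nat_lit 4) (nat_lit 428) (nat_lit 287) (nat_lit 230))))) (XT.nd (nat_lit 282) (nat_lit 84) (nat_lit 0) (XT.nd (nat_lit 94) (nat_lit 0) (nat_lit 0) (XT.lf (nat_lit 0) (nat_lit 15529049297) (nat_lit 168) (nat_lit 25267937332) (nat_lit 0) (nat_lit 31669763) (nat_lit 7) (nat_lit 5) (nat_lit 9) (nat_lit 4) (nat_lit 7) (nat_lit 4) (nat_lit 429) (nat_lit 287) (nat_lit 229)) (XT.nd (nat_lit 94) (nat_lit 0) (nat_lit 0) (XT.lf (nat_lit 0) (nat_lit 18748074749) (nat_lit 168) (nat_lit 20052460731) (nat_lit 0) (nat_lit 3151564919) (nat_lit 7) (nat_lit 5) (nat_lit 9) (nat_lit 4) (nat_lit 7) (nat_lit 4) (nat_lit 430) (nat_lit 287) (nat_lit 228)) (XT.lf (nat_lit 0) (nat_lit 22038340698) (nat_lit 168) (nat_lit 14726092886) (nat_lit 0) (nat_lit 6345587862) (nat_lit 7) (nat_lit 5) (nat_lit 9) (nat_lit 4) (nat_lit 7) (nat_lit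 4) (nat_lit 431) (nat_lit 287) (nat_lit 227)))) (XT.nd (nat_lit 188) (nat_lit 84) (nat_lit 0) (XT.nd (nat_lit 94) (nat_lit 0) (nat_lit 0) (XT.lf (nat_lit 0) (nat_lit 25402722133) (nat_lit 168) (nat_lit 9284179689) (nat_lit 0) (nat_lit 9616529486) (nat_lit 7) (nat_lit 5) (nat_lit 9) (nat_lit 4) (nat_lit 7) (nat_lit 4) (nat_lit 432) (nat_lit 287) (nat_lit 226)) (XT.lf (nat_lit 0) (nat_lit 28844158804) (nat_lit 168) (nat_lit 3721966071) (nat_lit 0) (nat_lit 12967247894) (nat_lit 7) (nat_lit 5) (nat_lit 9) (nat_lit 4) (nat_lit 7) (nat_lit 4) (nat_lit 433) (nat_lit 287) (nat_lit 225))) (XT.nd (nat_lit 94) (nat_lit 0) (nat_lit 0) (XT.lf (nat_lit 0) (nat_lit 2004523631) (nat_lit 84) (nat_lit 30380402870) (nat_lit 84) (nat_lit 14415415976) (nat_lit 6) (nat_lit 4) (nat_lit 7) (nat_lit 5) (nat_lit 7) (nat_lit 4) (nat_lit 434) (nat_lit 287) (nat_lit 224)) (XT.lf (nat_lit 0) (nat_lit 7937807759) (nat_lit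 84) (nat_lit 28108791443) (nat_lit 84) (nat_lit 12058293884) (nat_lit 6) (nat_lit 4) (nat_lit 7) (nat_lit 5) (nat_lit 7) (nat_lit 4) (nat_lit 435) (nat_lit 287) (nat_lit 223))))))) (XT.nd (nat_lit 1316) (nat_lit 84) (nat_lit 0) (XT.nd (nat_lit 658) (nat_lit 84) (nat_lit 0) (XT.nd (nat_lit 282) (nat_lit 84) (nat_lit 0) (XT.nd (nat_lit 94) (nat_lit 0) (nat_lit 0) (XT.lf (nat_lit 0) (nat_lit 14008996315) (nat_lit 84) (nat_lit 25786890250) (nat_lit 84) (nat_lit 9653372629) (nat_lit 6) (nat_lit 4) (nat_lit 7) (nat_lit 5) (nat_lit 7) (nat_lit 4) (nat_lit 436) (nat_lit 287) (nat_lit 222)) (XT.nd (nat_lit 94) (nat_lit 0) (nat_lit 0) (XT.lf (nat_lit 0) (nat_lit 20223394220) (nat_lit 84) (nat_lit 23412670445) (nat_lit 84) (nat_lit 7198550823) (nat_lit 6) (nat_lit 4) (nat_lit 7) (nat_lit 5) (nat_lit 7) (nat_lit 4) (nat_lit 437) (nat_lit 287) (nat_lit 221)) (XT.lf (nat_lit 0) (nat_lit 26586431529)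 (nat_lit 84) (nat_lit 20984057469) (nat_lit 84) (nat_lit 4691683475) (nat_lit 6) (nat_lit 4) (nat_lit 7) (nat_lit 5) (nat_lit 7) (nat_lit 4) (nat_lit 438) (nat_lit 287) (nat_lit 220)))) (XT.nd (nat_lit 188) (nat_lit 0) (nat_lit 0) (XT.nd (nat_lit 94) (nat_lit 84) (nat_lit 0) (XT.lf (nat_lit 0) (nat_lit 33103668180) (nat_lit 84) (nat_lit 18498929231) (nat_lit 84) (nat_lit 2130580120) (nat_lit 6) (nat_lit 4) (nat_lit 7) (nat_lit 5) (nat_lit 7) (nat_lit 4) (nat_lit 439) (nat_lit 287) (nat_lit 219)) (XT.lf (nat_lit 0) (nat_lit 477494032) (nat_lit 168) (nat_lit 15472798475) (nat_lit 84) (nat_lit 39298483058) (nat_lit 5) (nat_lit 5) (nat_lit 7) (nat_lit 5) (nat_lit 6) (nat_lit 4) (nat_lit 440) (nat_lit 287) (nat_lit 218))) (XT.nd (nat_lit 94) (nat_lit 0) (nat_lit 0) (XT.lf (nat_lit 0) (nat_lit 3101607320) (nat_lit 168) (nat_lit 10217462333) (nat_lit 84) (nat_lit 43490730434) (nat_lit 5) (nat_lit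 5) (nat_lit 7) (nat_lit 5) (nat_lit 6) (nat_lit 4) (nat_lit 441) (nat_lit 287) (nat_lit 217)) (XT.lf (nat_lit 0) (nat_lit 5785627952) (nat_lit 168) (nat_lit 4838428446) (nat_lit 84) (nat_lit 47794173117) (nat_lit 5) (nat_lit 5) (nat_lit 7) (nat_lit 5) (nat_lit 6) (nat_lit 4) (nat_lit 442) (nat_lit 287) (nat_lit 216))))) (XT.nd (nat_lit 282) (nat_lit 0) (nat_lit 0) (XT.nd (nat_lit 94) (nat_lit 0) (nat_lit 0) (XT.lf (nat_lit 0) (nat_lit 682317791) (nat_lit 84) (nat_lit 7856142252) (nat_lit 168) (nat_lit 51536812461) (nat_lit 4) (nat_lit 5) (nat_lit 5) (nat_lit 5) (nat_lit 6) (nat_lit 4) (nat_lit 443) (nat_lit 287) (nat_lit 215)) (XT.nd (nat_lit 94) (nat_lit 0) (nat_lit 0) (XT.lf (nat_lit 0) (nat_lit 6435219578) (nat_lit 84) (nat_lit 4969466372) (nat_lit 168) (nat_lit 50376425698) (nat_lit 4) (nat_lit 5) (nat_lit 5) (nat_lit 5) (nat_lit 6) (nat_lit 4) (nat_lit 444) (nat_lit 287) (nat_lit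 214)) (XT.lf (nat_lit 0) (nat_lit 12329009508) (nat_lit 84) (nat_lit 2010365060) (nat_lit 168) (nat_lit 49199285986) (nat_lit 4) (nat_lit 5) (nat_lit 5) (nat_lit 5) (nat_lit 6) (nat_lit 4) (nat_lit 445) (nat_lit 287) (nat_lit 213)))) (XT.nd (nat_lit 188) (nat_lit 0) (nat_lit 0) (XT.nd (nat_lit 94) (nat_lit 0) (nat_lit 0) (XT.lf (nat_lit 0) (nat_lit 17354931074) (nat_lit 168) (nat_lit 46990458334) (nat_lit 0) (nat_lit 1003770307) (nat_lit 4) (nat_lit 5) (nat_lit 6) (nat_lit 4) (nat_lit 4) (nat_lit 4) (nat_lit 446) (nat_lit 287) (nat_lit 212)) (XT.lf (nat_lit 0) (nat_lit 20464212331) (nat_lit 168) (nat_lit 42694849173) (nat_lit 0) (nat_lit 4054822963) (nat_lit 4) (nat_lit 5) (nat_lit 6) (nat_lit 4) (nat_lit 4) (nat_lit 4) (nat_lit 447) (nat_lit 287) (nat_lit 211))) (XT.nd (nat_lit 94) (nat_lit 0) (nat_lit 0) (XT.lf (nat_lit 0) (nat_lit 23650610329) (nat_lit 168) (nat_lit 38299745258) (nat_lit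 0) (nat_lit 7184688338) (nat_lit 4) (nat_lit 5) (nat_lit 6) (nat_lit 4) (nat_lit 4) (nat_lit 4) (nat_lit 448) (nat_lit 287) (nat_lit 210)) (XT.lf (nat_lit 0) (nat_lit 26916909298) (nat_lit 168) (nat_lit 33801306207) (nat_lit 0) (nat_lit 10396101266) (nat_lit 4) (nat_lit 5) (nat_lit 6) (nat_lit 4) (nat_lit 4) (nat_lit 4) (nat_lit 449) (nat_lit 287) (nat_lit 209)))))) (XT.nd (nat_lit 658) (nat_lit 0) (nat_lit 0) (XT.nd (nat_lit 282) (nat_lit 84) (nat_lit 0) (XT.nd (nat_lit 94) (nat_lit 0) (nat_lit 0) (XT.lf (nat_lit 0) (nat_lit 30265963286) (nat_lit 168) (nat_lit 29195601347) (nat_lit 0) (nat_lit 13691867835) (nat_lit 4) (nat_lit 5) (nat_lit 6) (nat_lit 4) (nat_lit 4) (nat_lit 4) (nat_lit 450) (nat_lit 287) (nat_lit 208)) (XT.nd (nat_lit 94) (nat_lit 0) (nat_lit 0) (XT.lf (nat_lit 0) (nat_lit 33700698651) (nat_lit 168) (nat_lit 24478606274) (nat_lit 0) (nat_lit 17074867843) (nat_lit 4) (nat_lit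 5) (nat_lit 6) (nat_lit 4) (nat_lit 4) (nat_lit 4) (nat_lit 451) (nat_lit 287) (nat_lit 207)) (XT.lf (nat_lit 0) (nat_lit 37224116618) (nat_lit 168) (nat_lit 19646199342) (nat_lit 0) (nat_lit 20548057307) (nat_lit 4) (nat_lit 5) (nat_lit 6) (nat_lit 4) (nat_lit 4) (nat_lit 4) (nat_lit 452) (nat_lit 287) (nat_lit 206)))) (XT.nd (nat_lit 188) (nat_lit 84) (nat_lit 0) (XT.nd (nat_lit 94) (nat_lit 0) (nat_lit 0) (XT.lf (nat_lit 0) (nat_lit 40839295903) (nat_lit 168) (nat_lit 14694158060) (nat_lit 0) (nat_lit 24114471055) (nat_lit 4) (nat_lit 5) (nat_lit 6) (nat_lit 4) (nat_lit 4) (nat_lit 4) (nat_lit 453) (nat_lit 287) (nat_lit 205)) (XT.lf (nat_lit 0) (nat_lit 44549395398) (nat_lit 168) (nat_lit 9618155401) (nat_lit 0) (nat_lit 27777225369) (nat_lit 4) (nat_lit 5) (nat_lit 6) (nat_lit 4) (nat_lit 4) (nat_lit 4) (nat_lit 454) (nat_lit 287) (nat_lit 204))) (XT.nd (nat_lit 94) (nat_lit 84) (nat_lit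 0) (XT.lf (nat_lit 0) (nat_lit 48357656940) (nat_lit 168) (nat_lit 4413756024) (nat_lit 0) (nat_lit 31539520715) (nat_lit 4) (nat_lit 5) (nat_lit 6) (nat_lit 4) (nat_lit 4) (nat_lit 4) (nat_lit 455) (nat_lit 287) (nat_lit 203)) (XT.lf (nat_lit 0) (nat_lit 941968809) (nat_lit 84) (nat_lit 51334494106) (nat_lit 84) (nat_lit 34471730507) (nat_lit 3) (nat_lit 4) (nat_lit 4) (nat_lit 5) (nat_lit 4) (nat_lit 4) (nat_lit 456) (nat_lit 287) (nat_lit 202))))) (XT.nd (nat_lit 282) (nat_lit 0) (nat_lit 0) (XT.nd (nat_lit 94) (nat_lit 0) (nat_lit 0) (XT.lf (nat_lit 0) (nat_lit 6525882661) (nat_lit 84) (nat_lit 49818913385) (nat_lit 84) (nat_lit 32912822238) (nat_lit 3) (nat_lit 4) (nat_lit 4) (nat_lit 5) (nat_lit 4) (nat_lit 4) (nat_lit 457) (nat_lit 287) (nat_lit 201)) (XT.nd (nat_lit 94) (nat_lit 0) (nat_lit 0) (XT.lf (nat_lit 0) (nat_lit 12255022279) (nat_lit 84) (nat_lit 48267916791) (nat_lit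 84) (nat_lit 31319760063) (nat_lit 3) (nat_lit 4) (nat_lit 4) (nat_lit 5) (nat_lit 4) (nat_lit 4) (nat_lit 458) (nat_lit 287) (nat_lit 200)) (XT.lf (nat_lit 0) (nat_lit 18134393707) (nat_lit 84) (nat_lit 46680149082) (nat_lit 84) (nat_lit 29691151985) (nat_lit 3) (nat_lit 4) (nat_lit 4) (nat_lit 5) (nat_lit 4) (nat_lit 4) (nat_lit 459) (nat_lit 287) (nat_lit 199)))) (XT.nd (nat_lit 188) (nat_lit 0) (nat_lit 0) (XT.nd (nat_lit 94) (nat_lit 0) (nat_lit 0) (XT.lf (nat_lit 0) (nat_lit 24169134262) (nat_lit 84) (nat_lit 45054222889) (nat_lit 84) (nat_lit 28025574949) (nat_lit 3) (nat_lit 4) (nat_lit 4) (nat_lit 5) (nat_lit 4) (nat_lit 4) (nat_lit 460) (nat_lit 287) (nat_lit 198)) (XT.lf (nat_lit 0) (nat_lit 30364517017) (nat_lit 84) (nat_lit 43388717501) (nat_lit 84) (nat_lit 26321573595) (nat_lit 3) (nat_lit 4) (nat_lit 4) (nat_lit 5) (nat_lit 4) (nat_lit 4) (nat_lit 461) (nat_lit 287) (nat_lit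 197))) (XT.nd (nat_lit 94) (nat_lit 0) (nat_lit 0) (XT.lf (nat_lit 0) (nat_lit 36725955412) (nat_lit 84) (nat_lit 41682177620) (nat_lit 84) (nat_lit 24577658991) (nat_lit 3) (nat_lit 4) (nat_lit 4) (nat_lit 5) (nat_lit 4) (nat_lit 4) (nat_lit 462) (nat_lit 287) (nat_lit 196)) (XT.lf (nat_lit 0) (nat_lit 43259007988) (nat_lit 84) (nat_lit 39933112096) (nat_lit 84) (nat_lit 22792307328) (nat_lit 3) (nat_lit 4) (nat_lit 4) (nat_lit 5) (nat_lit 4) (nat_lit 4) (nat_lit 463) (nat_lit 287) (nat_lit 195))))))))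
noncomputable def xc31 : XT := (XT.nd (nat_lit 52828) (nat_lit 0) (nat_lit 504) (XT.nd (nat_lit 51512) (nat_lit 0) (nat_lit 1596) (XT.nd (nat_lit 50854) (nat_lit 0) (nat_lit 2940) (XT.nd (nat_lit 50478) (nat_lit 0) (nat_lit 4032) (XT.nd (nat_lit 94) (nat_lit 0) (nat_lit 0) (XT.lf (nat_lit 0) (nat_lit 49969383235) (nat_lit 84) (nat_lit 38139992619) (nat_lit 84) (nat_lit 20963958590) (nat_lit 3) (nat_lit 4) (nat_lit 4) (nat_lit 5) (nat_lit 4) (nat_lit 4) (nat_lit 464) (nat_lit 287) (nat_lit 194)) (XT.nd (nat_lit 50290) (nat_lit 0) (nat_lit 4956) (XT.lf (nat_lit 0) (nat_lit 56862944590) (nat_lit 84) (nat_lit 36301252386) (nat_lit 84) (nat_lit 19091015190) (nat_lit 3) (nat_lit 4) (nat_lit 4) (nat_lit 5) (nat_lit 4) (nat_lit 4) (nat_lit 465) (nat_lit 287) (nat_lit 193)) (XT.lf (nat_lit 0) (nat_lit 2322737380) (nat_lit 336) (nat_lit 530859136) (nat_lit 0) (nat_lit 2322737380) (nat_lit 62) (nat_lit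 5) (nat_lit 66) (nat_lit 4) (nat_lit 62) (nat_lit 4) (nat_lit 369) (nat_lit 288) (nat_lit 288)))) (XT.nd (nat_lit 188) (nat_lit 252) (nat_lit 0) (XT.nd (nat_lit 94) (nat_lit 336) (nat_lit 0) (XT.lf (nat_lit 0) (nat_lit 5482915412) (nat_lit 336) (nat_lit 2913484433) (nat_lit 336) (nat_lit 2128588405) (nat_lit 58) (nat_lit 4) (nat_lit 62) (nat_lit 5) (nat_lit 62) (nat_lit 4) (nat_lit 370) (nat_lit 288) (nat_lit 287)) (XT.lf (nat_lit 0) (nat_lit 1426941472) (nat_lit 252) (nat_lit 38020340) (nat_lit 336) (nat_lit 9239034242) (nat_lit 54) (nat_lit 5) (nat_lit 57) (nat_lit 5) (nat_lit 58) (nat_lit 4) (nat_lit 371) (nat_lit 288) (nat_lit 286))) (XT.nd (nat_lit 94) (nat_lit 252) (nat_lit 0) (XT.lf (nat_lit 0) (nat_lit 5117372228) (nat_lit 336) (nat_lit 2873451190) (nat_lit 0) (nat_lit 2897206410) (nat_lit 54) (nat_lit 5) (nat_lit 58) (nat_lit 4) (nat_lit 54) (nat_lit 4) (nat_lit 372) (nat_lit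 288) (nat_lit 285)) (XT.lf (nat_lit 0) (nat_lit 3666929545) (nat_lit 252) (nat_lit 5164858956) (nat_lit 252) (nat_lit 2247323183) (nat_lit 51) (nat_lit 4) (nat_lit 54) (nat_lit 5) (nat_lit 54) (nat_lit 4) (nat_lit 373) (nat_lit 288) (nat_lit 284))))) (XT.nd (nat_lit 282) (nat_lit 504) (nat_lit 0) (XT.nd (nat_lit 94) (nat_lit 504) (nat_lit 0) (XT.lf (nat_lit 0) (nat_lit 1301172971) (nat_lit 336) (nat_lit 953212849) (nat_lit 84) (nat_lit 9022843333) (nat_lit 50) (nat_lit 5) (nat_lit 54) (nat_lit 5) (nat_lit 51) (nat_lit 4) (nat_lit 374) (nat_lit 288) (nat_lit 283)) (XT.nd (nat_lit 94) (nat_lit 252) (nat_lit 0) (XT.lf (nat_lit 0) (nat_lit 4892433538) (nat_lit 336) (nat_lit 5824492143) (nat_lit 0) (nat_lit 764344171) (nat_lit 47) (nat_lit 5) (nat_lit 51) (nat_lit 4) (nat_lit 47) (nat_lit 4) (nat_lit 375) (nat_lit 288) (nat_lit 282)) (XT.lf (nat_lit 0) (nat_lit 659762540) (nat_lit 252) (nat_lit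 7890345698) (nat_lit 252) (nat_lit 3142652158) (nat_lit 44) (nat_lit 4) (nat_lit 47) (nat_lit 5) (nat_lit 47) (nat_lit 4) (nat_lit 376) (nat_lit 288) (nat_lit 281)))) (XT.nd (nat_lit 188) (nat_lit 252) (nat_lit 0) (XT.nd (nat_lit 94) (nat_lit 168) (nat_lit 0) (XT.lf (nat_lit 0) (nat_lit 378945348) (nat_lit 336) (nat_lit 4579991932) (nat_lit 84) (nat_lit 6952225794) (nat_lit 43) (nat_lit 5) (nat_lit 47) (nat_lit 5) (nat_lit 44) (nat_lit 4) (nat_lit 377) (nat_lit 288) (nat_lit 280)) (XT.lf (nat_lit 0) (nat_lit 1952612549) (nat_lit 168) (nat_lit 1932067202) (nat_lit 252) (nat_lit 8252336394) (nat_lit 41) (nat_lit 5) (nat_lit 43) (nat_lit 5) (nat_lit 44) (nat_lit 4) (nat_lit 378) (nat_lit 288) (nat_lit 279))) (XT.nd (nat_lit 94) (nat_lit 252) (nat_lit 0) (XT.lf (nat_lit 0) (nat_lit 7477247138) (nat_lit 252) (nat_lit 3726763138) (nat_lit 0) (nat_lit 1166263703) (nat_lit 41) (nat_lit 5) (nat_lit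 44) (nat_lit 4) (nat_lit 41) (nat_lit 4) (nat_lit 379) (nat_lit 288) (nat_lit 278)) (XT.lf (nat_lit 0) (nat_lit 2842763697) (nat_lit 252) (nat_lit 8307067401) (nat_lit 252) (nat_lit 1461607963) (nat_lit 38) (nat_lit 4) (nat_lit 41) (nat_lit 5) (nat_lit 41) (nat_lit 4) (nat_lit 380) (nat_lit 288) (nat_lit 277)))))) (XT.nd (nat_lit 658) (nat_lit 672) (nat_lit 0) (XT.nd (nat_lit 282) (nat_lit 420) (nat_lit 0) (XT.nd (nat_lit 94) (nat_lit 168) (nat_lit 0) (XT.lf (nat_lit 0) (nat_lit 1996335126) (nat_lit 336) (nat_lit 3311807871) (nat_lit 84) (nat_lit 7552249801) (nat_lit 37) (nat_lit 5) (nat_lit 41) (nat_lit 5) (nat_lit 38) (nat_lit 4) (nat_lit 381) (nat_lit 288) (nat_lit 276)) (XT.nd (nat_lit 94) (nat_lit 0) (nat_lit 0) (XT.lf (nat_lit 0) (nat_lit 3273044811) (nat_lit 168) (nat_lit 2215234933) (nat_lit 252) (nat_lit 7629382248) (nat_lit 35) (nat_lit 5) (nat_lit 37) (nat_lit 5) (nat_lit 38)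 (nat_lit 4) (nat_lit 382) (nat_lit 288) (nat_lit 275)) (XT.lf (nat_lit 0) (nat_lit 9056844103) (nat_lit 252) (nat_lit 3383741638) (nat_lit 0) (nat_lit 942975825) (nat_lit 35) (nat_lit 5) (nat_lit 38) (nat_lit 4) (nat_lit 35) (nat_lit 4) (nat_lit 383) (nat_lit 288) (nat_lit 274)))) (XT.nd (nat_lit 188) (nat_lit 168) (nat_lit 0) (XT.nd (nat_lit 94) (nat_lit 84) (nat_lit 0) (XT.lf (nat_lit 0) (nat_lit 3199056370) (nat_lit 168) (nat_lit 9516927173) (nat_lit 168) (nat_lit 942015201) (nat_lit 33) (nat_lit 4) (nat_lit 35) (nat_lit 5) (nat_lit 35) (nat_lit 4) (nat_lit 384) (nat_lit 288) (nat_lit 273)) (XT.lf (nat_lit 0) (nat_lit 2460128666) (nat_lit 252) (nat_lit 4028466015) (nat_lit 84) (nat_lit 7452436590) (nat_lit 32) (nat_lit 5) (nat_lit 35) (nat_lit 5) (nat_lit 33) (nat_lit 4) (nat_lit 385) (nat_lit 288) (nat_lit 272))) (XT.nd (nat_lit 94) (nat_lit 0) (nat_lit 0) (XT.lf (nat_lit 0) (nat_lit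 2525432626) (nat_lit 168) (nat_lit 3377295322) (nat_lit 252) (nat_lit 8330887827) (nat_lit 30) (nat_lit 5) (nat_lit 32) (nat_lit 5) (nat_lit 33) (nat_lit 4) (nat_lit 386) (nat_lit 288) (nat_lit 271)) (XT.lf (nat_lit 0) (nat_lit 9250155415) (nat_lit 168) (nat_lit 173086366) (nat_lit 252) (nat_lit 5112555719) (nat_lit 30) (nat_lit 5) (nat_lit 32) (nat_lit 5) (nat_lit 33) (nat_lit 4) (nat_lit 387) (nat_lit 288) (nat_lit 270))))) (XT.nd (nat_lit 282) (nat_lit 420) (nat_lit 0) (XT.nd (nat_lit 94) (nat_lit 84) (nat_lit 0) (XT.lf (nat_lit 0) (nat_lit 1216449953) (nat_lit 168) (nat_lit 11810160870) (nat_lit 168) (nat_lit 1821173731) (nat_lit 28) (nat_lit 4) (nat_lit 30) (nat_lit 5) (nat_lit 30) (nat_lit 4) (nat_lit 388) (nat_lit 288) (nat_lit 269)) (XT.nd (nat_lit 94) (nat_lit 0) (nat_lit 0) (XT.lf (nat_lit 0) (nat_lit 1529614109) (nat_lit 252) (nat_lit 7269987332) (nat_lit 84) (nat_lit 6369392713)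 (nat_lit 27) (nat_lit 5) (nat_lit 30) (nat_lit 5) (nat_lit 28) (nat_lit 4) (nat_lit 389) (nat_lit 288) (nat_lit 268)) (XT.lf (nat_lit 0) (nat_lit 4881859121) (nat_lit 252) (nat_lit 839800672) (nat_lit 84) (nat_lit 9779565416) (nat_lit 27) (nat_lit 5) (nat_lit 30) (nat_lit 5) (nat_lit 28) (nat_lit 4) (nat_lit 390) (nat_lit 288) (nat_lit 267)))) (XT.nd (nat_lit 188) (nat_lit 252) (nat_lit 0) (XT.nd (nat_lit 94) (nat_lit 0) (nat_lit 0) (XT.lf (nat_lit 0) (nat_lit 5795440134) (nat_lit 168) (nat_lit 2534297290) (nat_lit 252) (nat_lit 7513884500) (nat_lit 25) (nat_lit 5) (nat_lit 27) (nat_lit 5) (nat_lit 28) (nat_lit 4) (nat_lit 391) (nat_lit 288) (nat_lit 266)) (XT.lf (nat_lit 0) (nat_lit 11836589751) (nat_lit 252) (nat_lit 3657774176) (nat_lit 0) (nat_lit 703309712) (nat_lit 25) (nat_lit 5) (nat_lit 28) (nat_lit 4) (nat_lit 25) (nat_lit 4) (nat_lit 392) (nat_lit 288) (nat_lit 265))) (XT.nd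 (nat_lit 94) (nat_lit 84) (nat_lit 0) (XT.lf (nat_lit 0) (nat_lit 2856538157) (nat_lit 168) (nat_lit 12586190958) (nat_lit 168) (nat_lit 1119843144) (nat_lit 23) (nat_lit 4) (nat_lit 25) (nat_lit 5) (nat_lit 25) (nat_lit 4) (nat_lit 393) (nat_lit 288) (nat_lit 264)) (XT.lf (nat_lit 0) (nat_lit 2154322963) (nat_lit 252) (nat_lit 7416438968) (nat_lit 84) (nat_lit 7367691701) (nat_lit 22) (nat_lit 5) (nat_lit 25) (nat_lit 5) (nat_lit 23) (nat_lit 4) (nat_lit 394) (nat_lit 288) (nat_lit 263))))))) (XT.nd (nat_lit 1316) (nat_lit 336) (nat_lit 0) (XT.nd (nat_lit 658) (nat_lit 336) (nat_lit 0) (XT.nd (nat_lit 282) (nat_lit 336) (nat_lit 0) (XT.nd (nat_lit 94) (nat_lit 84) (nat_lit 0) (XT.lf (nat_lit 0) (nat_lit 5447584613) (nat_lit 252) (nat_lit 1045066140) (nat_lit 84) (nat_lit 10834370458) (nat_lit 22) (nat_lit 5) (nat_lit 25) (nat_lit 5) (nat_lit 23) (nat_lit 4) (nat_lit 395) (nat_lit 288)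 (nat_lit 262)) (XT.nd (nat_lit 94) (nat_lit 0) (nat_lit 0) (XT.lf (nat_lit 0) (nat_lit 5532372735) (nat_lit 84) (nat_lit 3305479401) (nat_lit 168) (nat_lit 8889489907) (nat_lit 21) (nat_lit 5) (nat_lit 22) (nat_lit 5) (nat_lit 23) (nat_lit 4) (nat_lit 396) (nat_lit 288) (nat_lit 261)) (XT.lf (nat_lit 0) (nat_lit 12236438027) (nat_lit 84) (nat_lit 49685880) (nat_lit 168) (nat_lit 5854900935) (nat_lit 21) (nat_lit 5) (nat_lit 22) (nat_lit 5) (nat_lit 23) (nat_lit 4) (nat_lit 397) (nat_lit 288) (nat_lit 260)))) (XT.nd (nat_lit 188) (nat_lit 84) (nat_lit 0) (XT.nd (nat_lit 94) (nat_lit 84) (nat_lit 0) (XT.lf (nat_lit 0) (nat_lit 461042325) (nat_lit 168) (nat_lit 15359961339) (nat_lit 168) (nat_lit 2746659695) (nat_lit 19) (nat_lit 4) (nat_lit 21) (nat_lit 5) (nat_lit 21) (nat_lit 4) (nat_lit 398) (nat_lit 288) (nat_lit 259)) (XT.lf (nat_lit 0) (nat_lit 453755315) (nat_lit 252) (nat_lit 11962992934)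 (nat_lit 84) (nat_lit 6590025293) (nat_lit 18) (nat_lit 5) (nat_lit 21) (nat_lit 5) (nat_lit 19) (nat_lit 4) (nat_lit 399) (nat_lit 288) (nat_lit 258))) (XT.nd (nat_lit 94) (nat_lit 84) (nat_lit 0) (XT.lf (nat_lit 0) (nat_lit 3643613409) (nat_lit 252) (nat_lit 5750507779) (nat_lit 84) (nat_lit 10065697562) (nat_lit 18) (nat_lit 5) (nat_lit 21) (nat_lit 5) (nat_lit 19) (nat_lit 4) (nat_lit 400) (nat_lit 288) (nat_lit 257)) (XT.lf (nat_lit 0) (nat_lit 573863534) (nat_lit 84) (nat_lit 6310951860) (nat_lit 168) (nat_lit 13043006041) (nat_lit 17) (nat_lit 5) (nat_lit 18) (nat_lit 5) (nat_lit 19) (nat_lit 4) (nat_lit 401) (nat_lit 288) (nat_lit 256))))) (XT.nd (nat_lit 282) (nat_lit 336) (nat_lit 0) (XT.nd (nat_lit 94) (nat_lit 0) (nat_lit 0) (XT.lf (nat_lit 0) (nat_lit 7120999281) (nat_lit 84) (nat_lit 3111091704) (nat_lit 168) (nat_lit 10177542617) (nat_lit 17) (nat_lit 5) (nat_lit 18) (nat_lit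 5) (nat_lit 19) (nat_lit 4) (nat_lit 402) (nat_lit 288) (nat_lit 255)) (XT.nd (nat_lit 94) (nat_lit 0) (nat_lit 0) (XT.lf (nat_lit 0) (nat_lit 13633431145) (nat_lit 168) (nat_lit 7126637383) (nat_lit 0) (nat_lit 147255740) (nat_lit 17) (nat_lit 5) (nat_lit 19) (nat_lit 4) (nat_lit 17) (nat_lit 4) (nat_lit 403) (nat_lit 288) (nat_lit 254)) (XT.lf (nat_lit 0) (nat_lit 17120886469) (nat_lit 168) (nat_lit 891661367) (nat_lit 0) (nat_lit 3407908117) (nat_lit 17) (nat_lit 5) (nat_lit 19) (nat_lit 4) (nat_lit 17) (nat_lit 4) (nat_lit 404) (nat_lit 288) (nat_lit 253)))) (XT.nd (nat_lit 188) (nat_lit 84) (nat_lit 0) (XT.nd (nat_lit 94) (nat_lit 84) (nat_lit 0) (XT.lf (nat_lit 0) (nat_lit 5560145952) (nat_lit 168) (nat_lit 15160900103) (nat_lit 168) (nat_lit 1227724714) (nat_lit 15) (nat_lit 4) (nat_lit 17) (nat_lit 5) (nat_lit 17) (nat_lit 4) (nat_lit 405) (nat_lit 288) (nat_lit 252)) (XT.lf (nat_lit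 0) (nat_lit 1862316471) (nat_lit 252) (nat_lit 10366456481) (nat_lit 84) (nat_lit 10264718739) (nat_lit 14) (nat_lit 5) (nat_lit 17) (nat_lit 5) (nat_lit 15) (nat_lit 4) (nat_lit 406) (nat_lit 288) (nat_lit 251))) (XT.nd (nat_lit 94) (nat_lit 84) (nat_lit 0) (XT.lf (nat_lit 0) (nat_lit 4976432939) (nat_lit 252) (nat_lit 4252356876) (nat_lit 84) (nat_lit 13826747169) (nat_lit 14) (nat_lit 5) (nat_lit 17) (nat_lit 5) (nat_lit 15) (nat_lit 4) (nat_lit 407) (nat_lit 288) (nat_lit 250)) (XT.lf (nat_lit 0) (nat_lit 2010041198) (nat_lit 84) (nat_lit 6150583641) (nat_lit 168) (nat_lit 15474547315) (nat_lit 13) (nat_lit 5) (nat_lit 14) (nat_lit 5) (nat_lit 15) (nat_lit 4) (nat_lit 408) (nat_lit 288) (nat_lit 249)))))) (XT.nd (nat_lit 658) (nat_lit 168) (nat_lit 0) (XT.nd (nat_lit 282) (nat_lit 168) (nat_lit 0) (XT.nd (nat_lit 94) (nat_lit 0) (nat_lit 0) (XT.lf (nat_lit 0) (nat_lit 8473861598) (nat_lit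 84) (nat_lit 2967286696) (nat_lit 168) (nat_lit 12791051167) (nat_lit 13) (nat_lit 5) (nat_lit 14) (nat_lit 5) (nat_lit 15) (nat_lit 4) (nat_lit 409) (nat_lit 288) (nat_lit 248)) (XT.nd (nat_lit 94) (nat_lit 0) (nat_lit 0) (XT.lf (nat_lit 0) (nat_lit 14781880597) (nat_lit 168) (nat_lit 9790969780) (nat_lit 0) (nat_lit 275459880) (nat_lit 13) (nat_lit 5) (nat_lit 15) (nat_lit 4) (nat_lit 13) (nat_lit 4) (nat_lit 410) (nat_lit 288) (nat_lit 247)) (XT.lf (nat_lit 0) (nat_lit 18212212708) (nat_lit 168) (nat_lit 3744284375) (nat_lit 0) (nat_lit 3526751651) (nat_lit 13) (nat_lit 5) (nat_lit 15) (nat_lit 4) (nat_lit 13) (nat_lit 4) (nat_lit 411) (nat_lit 288) (nat_lit 246)))) (XT.nd (nat_lit 188) (nat_lit 84) (nat_lit 0) (XT.nd (nat_lit 94) (nat_lit 0) (nat_lit 0) (XT.lf (nat_lit 0) (nat_lit 2463598924) (nat_lit 84) (nat_lit 19266701327) (nat_lit 84) (nat_lit 4407414696) (nat_lit 12) (nat_lit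 4) (nat_lit 13) (nat_lit 5) (nat_lit 13) (nat_lit 4) (nat_lit 412) (nat_lit 288) (nat_lit 245)) (XT.lf (nat_lit 0) (nat_lit 8866865903) (nat_lit 84) (nat_lit 16486519566) (nat_lit 84) (nat_lit 1458470242) (nat_lit 12) (nat_lit 4) (nat_lit 13) (nat_lit 5) (nat_lit 13) (nat_lit 4) (nat_lit 413) (nat_lit 288) (nat_lit 244))) (XT.nd (nat_lit 94) (nat_lit 0) (nat_lit 0) (XT.lf (nat_lit 0) (nat_lit 1510502195) (nat_lit 168) (nat_lit 12125577142) (nat_lit 84) (nat_lit 13870837742) (nat_lit 11) (nat_lit 5) (nat_lit 13) (nat_lit 5) (nat_lit 12) (nat_lit 4) (nat_lit 414) (nat_lit 288) (nat_lit 243)) (XT.lf (nat_lit 0) (nat_lit 4502696510) (nat_lit 168) (nat_lit 6210497707) (nat_lit 84) (nat_lit 17510321029) (nat_lit 11) (nat_lit 5) (nat_lit 13) (nat_lit 5) (nat_lit 12) (nat_lit 4) (nat_lit 415) (nat_lit 288) (nat_lit 242))))) (XT.nd (nat_lit 282) (nat_lit 84) (nat_lit 0) (XT.nd (nat_lit 94) (nat_lit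 84) (nat_lit 0) (XT.lf (nat_lit 0) (nat_lit 7549187247) (nat_lit 168) (nat_lit 180563279) (nat_lit 84) (nat_lit 21232946429) (nat_lit 11) (nat_lit 5) (nat_lit 13) (nat_lit 5) (nat_lit 12) (nat_lit 4) (nat_lit 416) (nat_lit 288) (nat_lit 241)) (XT.nd (nat_lit 94) (nat_lit 0) (nat_lit 0) (XT.lf (nat_lit 0) (nat_lit 6088299669) (nat_lit 84) (nat_lit 4622861182) (nat_lit 168) (nat_lit 19012191514) (nat_lit 10) (nat_lit 5) (nat_lit 11) (nat_lit 5) (nat_lit 12) (nat_lit 4) (nat_lit 417) (nat_lit 288) (nat_lit 240)) (XT.lf (nat_lit 0) (nat_lit 12488751537) (nat_lit 84) (nat_lit 1447053673) (nat_lit 168) (nat_lit 16572008161) (nat_lit 10) (nat_lit 5) (nat_lit 11) (nat_lit 5) (nat_lit 12) (nat_lit 4) (nat_lit 418) (nat_lit 288) (nat_lit 239)))) (XT.nd (nat_lit 188) (nat_lit 84) (nat_lit 0) (XT.nd (nat_lit 94) (nat_lit 0) (nat_lit 0) (XT.lf (nat_lit 0) (nat_lit 17241457218) (nat_lit 168) (nat_lit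 12311316618) (nat_lit 0) (nat_lit 1763526014) (nat_lit 10) (nat_lit 5) (nat_lit 12) (nat_lit 4) (nat_lit 10) (nat_lit 4) (nat_lit 419) (nat_lit 288) (nat_lit 238)) (XT.lf (nat_lit 0) (nat_lit 20628309587) (nat_lit 168) (nat_lit 6504133976) (nat_lit 0) (nat_lit 5017155555) (nat_lit 10) (nat_lit 5) (nat_lit 12) (nat_lit 4) (nat_lit 10) (nat_lit 4) (nat_lit 420) (nat_lit 288) (nat_lit 237))) (XT.nd (nat_lit 94) (nat_lit 84) (nat_lit 0) (XT.lf (nat_lit 0) (nat_lit 24085411738) (nat_lit 168) (nat_lit 578529705) (nat_lit 0) (nat_lit 8344915154) (nat_lit 10) (nat_lit 5) (nat_lit 12) (nat_lit 4) (nat_lit 10) (nat_lit 4) (nat_lit 421) (nat_lit 288) (nat_lit 236)) (XT.lf (nat_lit 0) (nat_lit 5579551043) (nat_lit 84) (nat_lit 22089867454) (nat_lit 84) (nat_lit 6223795577) (nat_lit 9) (nat_lit 4) (nat_lit 10) (nat_lit 5) (nat_lit 10) (nat_lit 4) (nat_lit 422) (nat_lit 288) (nat_lit 235))))))))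
noncomputable def xc32 : XT := (XT.nd (nat_lit 2538) (nat_lit 84) (nat_lit 0) (XT.nd (nat_lit 1222) (nat_lit 168) (nat_lit 0) (XT.nd (nat_lit 564) (nat_lit 84) (nat_lit 0) (XT.nd (nat_lit 282) (nat_lit 84) (nat_lit 0) (XT.nd (nat_lit 94) (nat_lit 84) (nat_lit 0) (XT.lf (nat_lit 0) (nat_lit 11880595786) (nat_lit 84) (nat_lit 19456120253) (nat_lit 84) (nat_lit 3468130616) (nat_lit 9) (nat_lit 4) (nat_lit 10) (nat_lit 5) (nat_lit 10) (nat_lit 4) (nat_lit 423) (nat_lit 288) (nat_lit 234)) (XT.nd (nat_lit 94) (nat_lit 84) (nat_lit 0) (XT.lf (nat_lit 0) (nat_lit 18318596413) (nat_lit 84) (nat_lit 16766240523) (nat_lit 84) (nat_lit 659884129) (nat_lit 9) (nat_lit 4) (nat_lit 10) (nat_lit 5) (nat_lit 10) (nat_lit 4) (nat_lit 424) (nat_lit 288) (nat_lit 233)) (XT.lf (nat_lit 0) (nat_lit 2160401465) (nat_lit 168) (nat_lit 11835660600) (nat_lit 84) (nat_lit 22716961078) (nat_lit 8) (nat_lit 5) (nat_lit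 10) (nat_lit 5) (nat_lit 9) (nat_lit 4) (nat_lit 425) (nat_lit 288) (nat_lit 232)))) (XT.nd (nat_lit 94) (nat_lit 84) (nat_lit 0) (XT.lf (nat_lit 0) (nat_lit 5024224816) (nat_lit 168) (nat_lit 6133671219) (nat_lit 84) (nat_lit 26553132022) (nat_lit 8) (nat_lit 5) (nat_lit 10) (nat_lit 5) (nat_lit 9) (nat_lit 4) (nat_lit 426) (nat_lit 288) (nat_lit 231)) (XT.nd (nat_lit 94) (nat_lit 84) (nat_lit 0) (XT.lf (nat_lit 0) (nat_lit 7946965009) (nat_lit 168) (nat_lit 308830979) (nat_lit 84) (nat_lit 30484002159) (nat_lit 8) (nat_lit 5) (nat_lit 10) (nat_lit 5) (nat_lit 9) (nat_lit 4) (nat_lit 427) (nat_lit 288) (nat_lit 230)) (XT.lf (nat_lit 0) (nat_lit 5756275453) (nat_lit 84) (nat_lit 5230233281) (nat_lit 168) (nat_lit 28812063616) (nat_lit 7) (nat_lit 5) (nat_lit 8) (nat_lit 5) (nat_lit 9) (nat_lit 4) (nat_lit 428) (nat_lit 288) (nat_lit 229))))) (XT.nd (nat_lit 282) (nat_lit 84) (nat_lit 0)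 (XT.nd (nat_lit 94) (nat_lit 0) (nat_lit 0) (XT.lf (nat_lit 0) (nat_lit 11963319998) (nat_lit 84) (nat_lit 2131143785) (nat_lit 168) (nat_lit 26795343472) (nat_lit 7) (nat_lit 5) (nat_lit 8) (nat_lit 5) (nat_lit 9) (nat_lit 4) (nat_lit 429) (nat_lit 288) (nat_lit 228)) (XT.nd (nat_lit 94) (nat_lit 0) (nat_lit 0) (XT.lf (nat_lit 0) (nat_lit 17280525414) (nat_lit 168) (nat_lit 23712974579) (nat_lit 0) (nat_lit 1020746988) (nat_lit 7) (nat_lit 5) (nat_lit 9) (nat_lit 4) (nat_lit 7) (nat_lit 4) (nat_lit 430) (nat_lit 288) (nat_lit 227)) (XT.lf (nat_lit 0) (nat_lit 20558676834) (nat_lit 168) (nat_lit 18408402637) (nat_lit 0) (nat_lit 4205458597) (nat_lit 7) (nat_lit 5) (nat_lit 9) (nat_lit 4) (nat_lit 7) (nat_lit 4) (nat_lit 431) (nat_lit 288) (nat_lit 226)))) (XT.nd (nat_lit 188) (nat_lit 84) (nat_lit 0) (XT.nd (nat_lit 94) (nat_lit 0) (nat_lit 0) (XT.lf (nat_lit 0) (nat_lit 23911296591) (nat_lit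 168) (nat_lit 12987650511) (nat_lit 0) (nat_lit 7467360090) (nat_lit 7) (nat_lit 5) (nat_lit 9) (nat_lit 4) (nat_lit 7) (nat_lit 4) (nat_lit 432) (nat_lit 288) (nat_lit 225)) (XT.lf (nat_lit 0) (nat_lit 27341314158) (nat_lit 168) (nat_lit 7445981622) (nat_lit 0) (nat_lit 10809301673) (nat_lit 7) (nat_lit 5) (nat_lit 9) (nat_lit 4) (nat_lit 7) (nat_lit 4) (nat_lit 433) (nat_lit 288) (nat_lit 224))) (XT.nd (nat_lit 94) (nat_lit 84) (nat_lit 0) (XT.lf (nat_lit 0) (nat_lit 30851726638) (nat_lit 168) (nat_lit 1778553735) (nat_lit 0) (nat_lit 14234203489) (nat_lit 7) (nat_lit 5) (nat_lit 9) (nat_lit 4) (nat_lit 7) (nat_lit 4) (nat_lit 434) (nat_lit 288) (nat_lit 223)) (XT.lf (nat_lit 0) (nat_lit 4099582899) (nat_lit 84) (nat_lit 30385426181) (nat_lit 84) (nat_lit 13684882969) (nat_lit 6) (nat_lit 4) (nat_lit 7) (nat_lit 5) (nat_lit 7) (nat_lit 4) (nat_lit 435) (nat_lit 288) (nat_lit 222))))))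 (XT.nd (nat_lit 658) (nat_lit 84) (nat_lit 0) (XT.nd (nat_lit 282) (nat_lit 84) (nat_lit 0) (XT.nd (nat_lit 94) (nat_lit 0) (nat_lit 0) (XT.lf (nat_lit 0) (nat_lit 10151595934) (nat_lit 84) (nat_lit 28072066083) (nat_lit 84) (nat_lit 11290920870) (nat_lit 6) (nat_lit 4) (nat_lit 7) (nat_lit 5) (nat_lit 7) (nat_lit 4) (nat_lit 436) (nat_lit 288) (nat_lit 221)) (XT.nd (nat_lit 94) (nat_lit 0) (nat_lit 0) (XT.lf (nat_lit 0) (nat_lit 16347376828) (nat_lit 84) (nat_lit 25706138605) (nat_lit 84) (nat_lit 8846739021) (nat_lit 6) (nat_lit 4) (nat_lit 7) (nat_lit 5) (nat_lit 7) (nat_lit 4) (nat_lit 437) (nat_lit 288) (nat_lit 220)) (XT.lf (nat_lit 0) (nat_lit 22692339369) (nat_lit 84) (nat_lit 23285576431) (nat_lit 84) (nat_lit 6350201729) (nat_lit 6) (nat_lit 4) (nat_lit 7) (nat_lit 5) (nat_lit 7) (nat_lit 4) (nat_lit 438) (nat_lit 288) (nat_lit 219)))) (XT.nd (nat_lit 188) (nat_lit 84) (nat_lit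 0) (XT.nd (nat_lit 94) (nat_lit 0) (nat_lit 0) (XT.lf (nat_lit 0) (nat_lit 29192027702) (nat_lit 84) (nat_lit 20808264505) (nat_lit 84) (nat_lit 3799127554) (nat_lit 6) (nat_lit 4) (nat_lit 7) (nat_lit 5) (nat_lit 7) (nat_lit 4) (nat_lit 439) (nat_lit 288) (nat_lit 218)) (XT.lf (nat_lit 0) (nat_lit 35852121163) (nat_lit 84) (nat_lit 18272038188) (nat_lit 84) (nat_lit 1191287402) (nat_lit 6) (nat_lit 4) (nat_lit 7) (nat_lit 5) (nat_lit 7) (nat_lit 4) (nat_lit 440) (nat_lit 288) (nat_lit 217))) (XT.nd (nat_lit 94) (nat_lit 0) (nat_lit 0) (XT.lf (nat_lit 0) (nat_lit 1446803201) (nat_lit 168) (nat_lit 14213268281) (nat_lit 84) (nat_lit 41217026177) (nat_lit 5) (nat_lit 5) (nat_lit 7) (nat_lit 5) (nat_lit 6) (nat_lit 4) (nat_lit 441) (nat_lit 288) (nat_lit 216)) (XT.lf (nat_lit 0) (nat_lit 4121824811) (nat_lit 168) (nat_lit 8850477322) (nat_lit 84) (nat_lit 45513499557) (nat_lit 5) (nat_lit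 5) (nat_lit 7) (nat_lit 5) (nat_lit 6) (nat_lit 4) (nat_lit 442) (nat_lit 288) (nat_lit 215))))) (XT.nd (nat_lit 282) (nat_lit 0) (nat_lit 0) (XT.nd (nat_lit 94) (nat_lit 84) (nat_lit 0) (XT.lf (nat_lit 0) (nat_lit 6859361131) (nat_lit 168) (nat_lit 3358815395) (nat_lit 84) (nat_lit 49925131524) (nat_lit 5) (nat_lit 5) (nat_lit 7) (nat_lit 5) (nat_lit 6) (nat_lit 4) (nat_lit 443) (nat_lit 288) (nat_lit 214)) (XT.nd (nat_lit 94) (nat_lit 0) (nat_lit 0) (XT.lf (nat_lit 0) (nat_lit 2311624152) (nat_lit 84) (nat_lit 7372400778) (nat_lit 168) (nat_lit 52166373494) (nat_lit 4) (nat_lit 5) (nat_lit 5) (nat_lit 5) (nat_lit 6) (nat_lit 4) (nat_lit 444) (nat_lit 288) (nat_lit 213)) (XT.lf (nat_lit 0) (nat_lit 8190253667) (nat_lit 84) (nat_lit 4420078769) (nat_lit 168) (nat_lit 50997870566) (nat_lit 4) (nat_lit 5) (nat_lit 5) (nat_lit 5) (nat_lit 6) (nat_lit 4) (nat_lit 445) (nat_lit 288) (nat_lit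 212)))) (XT.nd (nat_lit 188) (nat_lit 0) (nat_lit 0) (XT.nd (nat_lit 94) (nat_lit 0) (nat_lit 0) (XT.lf (nat_lit 0) (nat_lit 14215362805) (nat_lit 84) (nat_lit 1392548251) (nat_lit 168) (nat_lit 49811334562) (nat_lit 4) (nat_lit 5) (nat_lit 5) (nat_lit 5) (nat_lit 6) (nat_lit 4) (nat_lit 446) (nat_lit 288) (nat_lit 211)) (XT.lf (nat_lit 0) (nat_lit 18695844860) (nat_lit 168) (nat_lit 46909357341) (nat_lit 0) (nat_lit 1679412588) (nat_lit 4) (nat_lit 5) (nat_lit 6) (nat_lit 4) (nat_lit 4) (nat_lit 4) (nat_lit 447) (nat_lit 288) (nat_lit 210))) (XT.nd (nat_lit 94) (nat_lit 0) (nat_lit 0) (XT.lf (nat_lit 0) (nat_lit 21874513316) (nat_lit 168) (nat_lit 42528301693) (nat_lit 0) (nat_lit 4803195003) (nat_lit 4) (nat_lit 5) (nat_lit 6) (nat_lit 4) (nat_lit 4) (nat_lit 4) (nat_lit 448) (nat_lit 288) (nat_lit 209)) (XT.lf (nat_lit 0) (nat_lit 25133307877) (nat_lit 168) (nat_lit 38043501737) (nat_lit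 0) (nat_lit 8008702144) (nat_lit 4) (nat_lit 5) (nat_lit 6) (nat_lit 4) (nat_lit 4) (nat_lit 4) (nat_lit 449) (nat_lit 288) (nat_lit 208))))))) (XT.nd (nat_lit 51794) (nat_lit 0) (nat_lit 2688) (XT.nd (nat_lit 658) (nat_lit 84) (nat_lit 0) (XT.nd (nat_lit 282) (nat_lit 0) (nat_lit 0) (XT.nd (nat_lit 94) (nat_lit 0) (nat_lit 0) (XT.lf (nat_lit 0) (nat_lit 28475076031) (nat_lit 168) (nat_lit 33451038716) (nat_lit 0) (nat_lit 11298734941) (nat_lit 4) (nat_lit 5) (nat_lit 6) (nat_lit 4) (nat_lit 4) (nat_lit 4) (nat_lit 450) (nat_lit 288) (nat_lit 207)) (XT.nd (nat_lit 94) (nat_lit 0) (nat_lit 0) (XT.lf (nat_lit 0) (nat_lit 31902737771) (nat_lit 168) (nat_lit 28746899797) (nat_lit 0) (nat_lit 14676168178) (nat_lit 4) (nat_lit 5) (nat_lit 6) (nat_lit 4) (nat_lit 4) (nat_lit 4) (nat_lit 451) (nat_lit 288) (nat_lit 206)) (XT.lf (nat_lit 0) (nat_lit 35419288142) (nat_lit 168) (nat_lit 23926974569)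 (nat_lit 0) (nat_lit 18143953011) (nat_lit 4) (nat_lit 5) (nat_lit 6) (nat_lit 4) (nat_lit 4) (nat_lit 4) (nat_lit 452) (nat_lit 288) (nat_lit 205)))) (XT.nd (nat_lit 188) (nat_lit 0) (nat_lit 0) (XT.nd (nat_lit 94) (nat_lit 0) (nat_lit 0) (XT.lf (nat_lit 0) (nat_lit 39027799856) (nat_lit 168) (nat_lit 18987051445) (nat_lit 0) (nat_lit 21705119544) (nat_lit 4) (nat_lit 5) (nat_lit 6) (nat_lit 4) (nat_lit 4) (nat_lit 4) (nat_lit 453) (nat_lit 288) (nat_lit 204)) (XT.lf (nat_lit 0) (nat_lit 42731425983) (nat_lit 168) (nat_lit 13922813989) (nat_lit 0) (nat_lit 25362779476) (nat_lit 4) (nat_lit 5) (nat_lit 6) (nat_lit 4) (nat_lit 4) (nat_lit 4) (nat_lit 454) (nat_lit 288) (nat_lit 203))) (XT.nd (nat_lit 94) (nat_lit 0) (nat_lit 0) (XT.lf (nat_lit 0) (nat_lit 46533402700) (nat_lit 168) (nat_lit 8729837138) (nat_lit 0) (nat_lit 29120128819) (nat_lit 4) (nat_lit 5) (nat_lit 6) (nat_lit 4) (nat_lit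 4) (nat_lit 4) (nat_lit 455) (nat_lit 288) (nat_lit 202)) (XT.lf (nat_lit 0) (nat_lit 50437052124) (nat_lit 168) (nat_lit 3403583341) (nat_lit 0) (nat_lit 32980450694) (nat_lit 4) (nat_lit 5) (nat_lit 6) (nat_lit 4) (nat_lit 4) (nat_lit 4) (nat_lit 456) (nat_lit 288) (nat_lit 201))))) (XT.nd (nat_lit 282) (nat_lit 0) (nat_lit 0) (XT.nd (nat_lit 94) (nat_lit 0) (nat_lit 0) (XT.lf (nat_lit 0) (nat_lit 2101611420) (nat_lit 84) (nat_lit 52364375764) (nat_lit 84) (nat_lit 34865708754) (nat_lit 3) (nat_lit 4) (nat_lit 4) (nat_lit 5) (nat_lit 4) (nat_lit 4) (nat_lit 457) (nat_lit 288) (nat_lit 200)) (XT.nd (nat_lit 94) (nat_lit 0) (nat_lit 0) (XT.lf (nat_lit 0) (nat_lit 7820089768) (nat_lit 84) (nat_lit 50818186452) (nat_lit 84) (nat_lit 33278679073) (nat_lit 3) (nat_lit 4) (nat_lit 4) (nat_lit 5) (nat_lit 4) (nat_lit 4) (nat_lit 458) (nat_lit 288) (nat_lit 199)) (XT.lf (nat_lit 0) (nat_lit 13689110450)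 (nat_lit 84) (nat_lit 49235086008) (nat_lit 84) (nat_lit 31655927785) (nat_lit 3) (nat_lit 4) (nat_lit 4) (nat_lit 5) (nat_lit 4) (nat_lit 4) (nat_lit 459) (nat_lit 288) (nat_lit 198)))) (XT.nd (nat_lit 50666) (nat_lit 0) (nat_lit 4956) (XT.nd (nat_lit 50572) (nat_lit 0) (nat_lit 5292) (XT.lf (nat_lit 0) (nat_lit 19713801735) (nat_lit 84) (nat_lit 47613691140) (nat_lit 84) (nat_lit 29996036952) (nat_lit 3) (nat_lit 4) (nat_lit 4) (nat_lit 5) (nat_lit 4) (nat_lit 4) (nat_lit 460) (nat_lit 288) (nat_lit 197)) (XT.lf (nat_lit 0) (nat_lit 3198478827) (nat_lit 336) (nat_lit 906844031) (nat_lit 336) (nat_lit 906844031) (nat_lit 66) (nat_lit 4) (nat_lit 70) (nat_lit 5) (nat_lit 70) (nat_lit 4) (nat_lit 367) (nat_lit 289) (nat_lit 289))) (XT.nd (nat_lit 94) (nat_lit 0) (nat_lit 0) (XT.lf (nat_lit 0) (nat_lit 1779026646) (nat_lit 336) (nat_lit 7436861834) (nat_lit 0) (nat_lit 970583736) (nat_lit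 62) (nat_lit 5) (nat_lit 66) (nat_lit 4) (nat_lit 62) (nat_lit 4) (nat_lit 368) (nat_lit 289) (nat_lit 288)) (XT.lf (nat_lit 0) (nat_lit 5411101016) (nat_lit 336) (nat_lit 1125144682) (nat_lit 0) (nat_lit 3817762079) (nat_lit 62) (nat_lit 5) (nat_lit 66) (nat_lit 4) (nat_lit 62) (nat_lit 4) (nat_lit 369) (nat_lit 289) (nat_lit 287)))))) (XT.nd (nat_lit 658) (nat_lit 756) (nat_lit 0) (XT.nd (nat_lit 282) (nat_lit 840) (nat_lit 0) (XT.nd (nat_lit 94) (nat_lit 336) (nat_lit 0) (XT.lf (nat_lit 0) (nat_lit 5355422110) (nat_lit 336) (nat_lit 3763808881) (nat_lit 336) (nat_lit 1408434965) (nat_lit 58) (nat_lit 4) (nat_lit 62) (nat_lit 5) (nat_lit 62) (nat_lit 4) (nat_lit 370) (nat_lit 289) (nat_lit 286)) (XT.nd (nat_lit 94) (nat_lit 0) (nat_lit 0) (XT.lf (nat_lit 0) (nat_lit 1224038467) (nat_lit 252) (nat_lit 903671960) (nat_lit 336) (nat_lit 8580106995) (nat_lit 54) (nat_lit 5) (nat_lit 57)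 (nat_lit 5) (nat_lit 58) (nat_lit 4) (nat_lit 371) (nat_lit 289) (nat_lit 285)) (XT.lf (nat_lit 0) (nat_lit 5730818555) (nat_lit 336) (nat_lit 3134174253) (nat_lit 0) (nat_lit 2028386754) (nat_lit 54) (nat_lit 5) (nat_lit 58) (nat_lit 4) (nat_lit 54) (nat_lit 4) (nat_lit 372) (nat_lit 289) (nat_lit 284)))) (XT.nd (nat_lit 188) (nat_lit 504) (nat_lit 0) (XT.nd (nat_lit 94) (nat_lit 84) (nat_lit 0) (XT.lf (nat_lit 0) (nat_lit 3339308697) (nat_lit 252) (nat_lit 6062989348) (nat_lit 252) (nat_lit 1683499338) (nat_lit 51) (nat_lit 4) (nat_lit 54) (nat_lit 5) (nat_lit 54) (nat_lit 4) (nat_lit 373) (nat_lit 289) (nat_lit 283)) (XT.lf (nat_lit 0) (nat_lit 1814356319) (nat_lit 336) (nat_lit 1353684747) (nat_lit 84) (nat_lit 8116945453) (nat_lit 50) (nat_lit 5) (nat_lit 54) (nat_lit 5) (nat_lit 51) (nat_lit 4) (nat_lit 374) (nat_lit 289) (nat_lit 282))) (XT.nd (nat_lit 94) (nat_lit 252) (nat_lit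 0) (XT.lf (nat_lit 0) (nat_lit 5195904025) (nat_lit 252) (nat_lit 159231147) (nat_lit 336) (nat_lit 6135450299) (nat_lit 47) (nat_lit 5) (nat_lit 50) (nat_lit 5) (nat_lit 51) (nat_lit 4) (nat_lit 375) (nat_lit 289) (nat_lit 281)) (XT.lf (nat_lit 0) (nat_lit 121213339) (nat_lit 252) (nat_lit 8846768012) (nat_lit 252) (nat_lit 2735482044) (nat_lit 44) (nat_lit 4) (nat_lit 47) (nat_lit 5) (nat_lit 47) (nat_lit 4) (nat_lit 376) (nat_lit 289) (nat_lit 280))))) (XT.nd (nat_lit 282) (nat_lit 504) (nat_lit 0) (XT.nd (nat_lit 94) (nat_lit 168) (nat_lit 0) (XT.lf (nat_lit 0) (nat_lit 740181664) (nat_lit 336) (nat_lit 5192753546) (nat_lit 84) (nat_lit 5989993179) (nat_lit 43) (nat_lit 5) (nat_lit 47) (nat_lit 5) (nat_lit 44) (nat_lit 4) (nat_lit 377) (nat_lit 289) (nat_lit 279)) (XT.nd (nat_lit 94) (nat_lit 0) (nat_lit 0) (XT.lf (nat_lit 0) (nat_lit 1268644599) (nat_lit 168) (nat_lit 2933814768)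 (nat_lit 252) (nat_lit 7947664712) (nat_lit 41) (nat_lit 5) (nat_lit 43) (nat_lit 5) (nat_lit 44) (nat_lit 4) (nat_lit 378) (nat_lit 289) (nat_lit 278)) (XT.lf (nat_lit 0) (nat_lit 7748837634) (nat_lit 252) (nat_lit 4472429324) (nat_lit 0) (nat_lit 163538411) (nat_lit 41) (nat_lit 5) (nat_lit 44) (nat_lit 4) (nat_lit 41) (nat_lit 4) (nat_lit 379) (nat_lit 289) (nat_lit 277)))) (XT.nd (nat_lit 188) (nat_lit 168) (nat_lit 0) (XT.nd (nat_lit 94) (nat_lit 84) (nat_lit 0) (XT.lf (nat_lit 0) (nat_lit 2024608361) (nat_lit 252) (nat_lit 9353453760) (nat_lit 252) (nat_lit 1249245797) (nat_lit 38) (nat_lit 4) (nat_lit 41) (nat_lit 5) (nat_lit 41) (nat_lit 4) (nat_lit 380) (nat_lit 289) (nat_lit 276)) (XT.lf (nat_lit 0) (nat_lit 2169172849) (nat_lit 336) (nat_lit 4204581972) (nat_lit 84) (nat_lit 6503541584) (nat_lit 37) (nat_lit 5) (nat_lit 41) (nat_lit 5) (nat_lit 38) (nat_lit 4) (nat_lit 381)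 (nat_lit 289) (nat_lit 275))) (XT.nd (nat_lit 94) (nat_lit 0) (nat_lit 0) (XT.lf (nat_lit 0) (nat_lit 2306350167) (nat_lit 168) (nat_lit 3311124846) (nat_lit 252) (nat_lit 7518433428) (nat_lit 35) (nat_lit 5) (nat_lit 37) (nat_lit 5) (nat_lit 38) (nat_lit 4) (nat_lit 382) (nat_lit 289) (nat_lit 274)) (XT.lf (nat_lit 0) (nat_lit 8988130417) (nat_lit 168) (nat_lit 154790535) (nat_lit 252) (nat_lit 4260213208) (nat_lit 35) (nat_lit 5) (nat_lit 37) (nat_lit 5) (nat_lit 38) (nat_lit 4) (nat_lit 383) (nat_lit 289) (nat_lit 273))))))))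
noncomputable def xc33 : XT := (XT.nd (nat_lit 2538) (nat_lit 588) (nat_lit 0) (XT.nd (nat_lit 1222) (nat_lit 672) (nat_lit 0) (XT.nd (nat_lit 564) (nat_lit 504) (nat_lit 0) (XT.nd (nat_lit 282) (nat_lit 252) (nat_lit 0) (XT.nd (nat_lit 94) (nat_lit 252) (nat_lit 0) (XT.lf (nat_lit 0) (nat_lit 2093963063) (nat_lit 168) (nat_lit 10662906946) (nat_lit 168) (nat_lit 922088682) (nat_lit 33) (nat_lit 4) (nat_lit 35) (nat_lit 5) (nat_lit 35) (nat_lit 4) (nat_lit 384) (nat_lit 289) (nat_lit 272)) (XT.nd (nat_lit 94) (nat_lit 168) (nat_lit 0) (XT.lf (nat_lit 0) (nat_lit 2446685395) (nat_lit 252) (nat_lit 5208624811) (nat_lit 84) (nat_lit 6307694521) (nat_lit 32) (nat_lit 5) (nat_lit 35) (nat_lit 5) (nat_lit 33) (nat_lit 4) (nat_lit 385) (nat_lit 289) (nat_lit 271)) (XT.lf (nat_lit 0) (nat_lit 1268400929) (nat_lit 168) (nat_lit 4576780048) (nat_lit 252) (nat_lit 8411760322) (nat_lit 30) (nat_lit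 5) (nat_lit 32) (nat_lit 5) (nat_lit 33) (nat_lit 4) (nat_lit 386) (nat_lit 289) (nat_lit 270)))) (XT.nd (nat_lit 94) (nat_lit 252) (nat_lit 0) (XT.lf (nat_lit 0) (nat_lit 7941293207) (nat_lit 168) (nat_lit 1392815666) (nat_lit 252) (nat_lit 5225989842) (nat_lit 30) (nat_lit 5) (nat_lit 32) (nat_lit 5) (nat_lit 33) (nat_lit 4) (nat_lit 387) (nat_lit 289) (nat_lit 269)) (XT.nd (nat_lit 94) (nat_lit 252) (nat_lit 0) (XT.lf (nat_lit 0) (nat_lit 12883204976) (nat_lit 252) (nat_lit 179805229) (nat_lit 0) (nat_lit 1810731046) (nat_lit 30) (nat_lit 5) (nat_lit 33) (nat_lit 4) (nat_lit 30) (nat_lit 4) (nat_lit 388) (nat_lit 289) (nat_lit 268)) (XT.lf (nat_lit 0) (nat_lit 1331006396) (nat_lit 252) (nat_lit 8745401658) (nat_lit 84) (nat_lit 5119593868) (nat_lit 27) (nat_lit 5) (nat_lit 30) (nat_lit 5) (nat_lit 28) (nat_lit 4) (nat_lit 389) (nat_lit 289) (nat_lit 267))))) (XT.nd (nat_lit 282) (nat_lit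 336) (nat_lit 0) (XT.nd (nat_lit 94) (nat_lit 168) (nat_lit 0) (XT.lf (nat_lit 0) (nat_lit 4653377825) (nat_lit 252) (nat_lit 2364939808) (nat_lit 84) (nat_lit 8510836531) (nat_lit 27) (nat_lit 5) (nat_lit 30) (nat_lit 5) (nat_lit 28) (nat_lit 4) (nat_lit 390) (nat_lit 289) (nat_lit 266)) (XT.nd (nat_lit 94) (nat_lit 0) (nat_lit 0) (XT.lf (nat_lit 0) (nat_lit 4190710427) (nat_lit 168) (nat_lit 3866116578) (nat_lit 252) (nat_lit 7816080998) (nat_lit 25) (nat_lit 5) (nat_lit 27) (nat_lit 5) (nat_lit 28) (nat_lit 4) (nat_lit 391) (nat_lit 289) (nat_lit 265)) (XT.lf (nat_lit 0) (nat_lit 10894468591) (nat_lit 168) (nat_lit 633697316) (nat_lit 252) (nat_lit 4699882759) (nat_lit 25) (nat_lit 5) (nat_lit 27) (nat_lit 5) (nat_lit 28) (nat_lit 4) (nat_lit 392) (nat_lit 289) (nat_lit 264)))) (XT.nd (nat_lit 188) (nat_lit 84) (nat_lit 0) (XT.nd (nat_lit 94) (nat_lit 84) (nat_lit 0) (XT.lf (nat_lit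 0) (nat_lit 1105567762) (nat_lit 168) (nat_lit 13977850888) (nat_lit 168) (nat_lit 1511078094) (nat_lit 23) (nat_lit 4) (nat_lit 25) (nat_lit 5) (nat_lit 25) (nat_lit 4) (nat_lit 393) (nat_lit 289) (nat_lit 263)) (XT.lf (nat_lit 0) (nat_lit 1742829952) (nat_lit 252) (nat_lit 9242776311) (nat_lit 84) (nat_lit 5985742998) (nat_lit 22) (nat_lit 5) (nat_lit 25) (nat_lit 5) (nat_lit 23) (nat_lit 4) (nat_lit 394) (nat_lit 289) (nat_lit 262))) (XT.nd (nat_lit 94) (nat_lit 84) (nat_lit 0) (XT.lf (nat_lit 0) (nat_lit 5009011539) (nat_lit 252) (nat_lit 2917231885) (nat_lit 84) (nat_lit 9434506737) (nat_lit 22) (nat_lit 5) (nat_lit 25) (nat_lit 5) (nat_lit 23) (nat_lit 4) (nat_lit 395) (nat_lit 289) (nat_lit 261)) (XT.lf (nat_lit 0) (nat_lit 3577568116) (nat_lit 84) (nat_lit 4776628844) (nat_lit 168) (nat_lit 9408246806) (nat_lit 21) (nat_lit 5) (nat_lit 22) (nat_lit 5) (nat_lit 23) (nat_lit 4) (nat_lit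 396) (nat_lit 289) (nat_lit 260)))))) (XT.nd (nat_lit 658) (nat_lit 336) (nat_lit 0) (XT.nd (nat_lit 282) (nat_lit 168) (nat_lit 0) (XT.nd (nat_lit 94) (nat_lit 168) (nat_lit 0) (XT.lf (nat_lit 0) (nat_lit 10237576026) (nat_lit 84) (nat_lit 1538943642) (nat_lit 168) (nat_lit 6400405087) (nat_lit 21) (nat_lit 5) (nat_lit 22) (nat_lit 5) (nat_lit 23) (nat_lit 4) (nat_lit 397) (nat_lit 289) (nat_lit 259)) (XT.nd (nat_lit 94) (nat_lit 168) (nat_lit 0) (XT.lf (nat_lit 0) (nat_lit 15267289685) (nat_lit 168) (nat_lit 1611780630) (nat_lit 0) (nat_lit 1725835394) (nat_lit 21) (nat_lit 5) (nat_lit 23) (nat_lit 4) (nat_lit 21) (nat_lit 4) (nat_lit 398) (nat_lit 289) (nat_lit 258)) (XT.lf (nat_lit 0) (nat_lit 4900507291) (nat_lit 168) (nat_lit 13974633430) (nat_lit 168) (nat_lit 170252362) (nat_lit 19) (nat_lit 4) (nat_lit 21) (nat_lit 5) (nat_lit 21) (nat_lit 4) (nat_lit 399) (nat_lit 289) (nat_lit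 257)))) (XT.nd (nat_lit 188) (nat_lit 84) (nat_lit 0) (XT.nd (nat_lit 94) (nat_lit 0) (nat_lit 0) (XT.lf (nat_lit 0) (nat_lit 2998362362) (nat_lit 252) (nat_lit 7972974187) (nat_lit 84) (nat_lit 8527905327) (nat_lit 18) (nat_lit 5) (nat_lit 21) (nat_lit 5) (nat_lit 19) (nat_lit 4) (nat_lit 400) (nat_lit 289) (nat_lit 256)) (XT.lf (nat_lit 0) (nat_lit 6210197916) (nat_lit 252) (nat_lit 1700781716) (nat_lit 84) (nat_lit 12057162931) (nat_lit 18) (nat_lit 5) (nat_lit 21) (nat_lit 5) (nat_lit 19) (nat_lit 4) (nat_lit 401) (nat_lit 289) (nat_lit 255))) (XT.nd (nat_lit 94) (nat_lit 0) (nat_lit 0) (XT.lf (nat_lit 0) (nat_lit 4771926213) (nat_lit 84) (nat_lit 4745327455) (nat_lit 168) (nat_lit 10933924171) (nat_lit 17) (nat_lit 5) (nat_lit 18) (nat_lit 5) (nat_lit 19) (nat_lit 4) (nat_lit 402) (nat_lit 289) (nat_lit 254)) (XT.lf (nat_lit 0) (nat_lit 11393703797) (nat_lit 84) (nat_lit 1500586629)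 (nat_lit 168) (nat_lit 8055323214) (nat_lit 17) (nat_lit 5) (nat_lit 18) (nat_lit 5) (nat_lit 19) (nat_lit 4) (nat_lit 403) (nat_lit 289) (nat_lit 253))))) (XT.nd (nat_lit 282) (nat_lit 84) (nat_lit 0) (XT.nd (nat_lit 94) (nat_lit 252) (nat_lit 0) (XT.lf (nat_lit 0) (nat_lit 16344972957) (nat_lit 168) (nat_lit 3345285848) (nat_lit 0) (nat_lit 1773605270) (nat_lit 17) (nat_lit 5) (nat_lit 19) (nat_lit 4) (nat_lit 17) (nat_lit 4) (nat_lit 404) (nat_lit 289) (nat_lit 252)) (XT.nd (nat_lit 94) (nat_lit 84) (nat_lit 0) (XT.lf (nat_lit 0) (nat_lit 3019293119) (nat_lit 168) (nat_lit 16879717874) (nat_lit 168) (nat_lit 2094566657) (nat_lit 15) (nat_lit 4) (nat_lit 17) (nat_lit 5) (nat_lit 17) (nat_lit 4) (nat_lit 405) (nat_lit 289) (nat_lit 251)) (XT.lf (nat_lit 0) (nat_lit 990739539) (nat_lit 252) (nat_lit 12981506777) (nat_lit 84) (nat_lit 8566965985) (nat_lit 14) (nat_lit 5) (nat_lit 17) (nat_lit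 5) (nat_lit 15) (nat_lit 4) (nat_lit 406) (nat_lit 289) (nat_lit 250)))) (XT.nd (nat_lit 188) (nat_lit 84) (nat_lit 0) (XT.nd (nat_lit 94) (nat_lit 0) (nat_lit 0) (XT.lf (nat_lit 0) (nat_lit 4083836397) (nat_lit 252) (nat_lit 6904031637) (nat_lit 84) (nat_lit 12114033980) (nat_lit 14) (nat_lit 5) (nat_lit 17) (nat_lit 5) (nat_lit 15) (nat_lit 4) (nat_lit 407) (nat_lit 289) (nat_lit 249)) (XT.lf (nat_lit 0) (nat_lit 7228299162) (nat_lit 252) (nat_lit 716414438) (nat_lit 84) (nat_lit 15738028883) (nat_lit 14) (nat_lit 5) (nat_lit 17) (nat_lit 5) (nat_lit 15) (nat_lit 4) (nat_lit 408) (nat_lit 289) (nat_lit 248))) (XT.nd (nat_lit 94) (nat_lit 0) (nat_lit 0) (XT.lf (nat_lit 0) (nat_lit 5697938782) (nat_lit 84) (nat_lit 4783708713) (nat_lit 168) (nat_lit 13798950585) (nat_lit 13) (nat_lit 5) (nat_lit 14) (nat_lit 5) (nat_lit 15) (nat_lit 4) (nat_lit 409) (nat_lit 289) (nat_lit 247)) (XT.lf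 (nat_lit 0) (nat_lit 12250015648) (nat_lit 84) (nat_lit 1550099048) (nat_lit 168) (nat_lit 11097274790) (nat_lit 13) (nat_lit 5) (nat_lit 14) (nat_lit 5) (nat_lit 15) (nat_lit 4) (nat_lit 410) (nat_lit 289) (nat_lit 246))))))) (XT.nd (nat_lit 1316) (nat_lit 252) (nat_lit 0) (XT.nd (nat_lit 658) (nat_lit 84) (nat_lit 0) (XT.nd (nat_lit 282) (nat_lit 168) (nat_lit 0) (XT.nd (nat_lit 94) (nat_lit 84) (nat_lit 0) (XT.lf (nat_lit 0) (nat_lit 17196415199) (nat_lit 168) (nat_lit 6619421606) (nat_lit 0) (nat_lit 1717524395) (nat_lit 13) (nat_lit 5) (nat_lit 15) (nat_lit 4) (nat_lit 13) (nat_lit 4) (nat_lit 411) (nat_lit 289) (nat_lit 245)) (XT.nd (nat_lit 94) (nat_lit 84) (nat_lit 0) (XT.lf (nat_lit 0) (nat_lit 20672247229) (nat_lit 168) (nat_lit 492266045) (nat_lit 0) (nat_lit 5024593733) (nat_lit 13) (nat_lit 5) (nat_lit 15) (nat_lit 4) (nat_lit 13) (nat_lit 4) (nat_lit 412) (nat_lit 289) (nat_lit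 244)) (XT.lf (nat_lit 0) (nat_lit 5868869960) (nat_lit 84) (nat_lit 18403292631) (nat_lit 84) (nat_lit 2591791859) (nat_lit 12) (nat_lit 4) (nat_lit 13) (nat_lit 5) (nat_lit 13) (nat_lit 4) (nat_lit 413) (nat_lit 289) (nat_lit 243)))) (XT.nd (nat_lit 188) (nat_lit 84) (nat_lit 0) (XT.nd (nat_lit 94) (nat_lit 0) (nat_lit 0) (XT.lf (nat_lit 0) (nat_lit 381298972) (nat_lit 168) (nat_lit 15196538880) (nat_lit 84) (nat_lit 11982055612) (nat_lit 11) (nat_lit 5) (nat_lit 13) (nat_lit 5) (nat_lit 12) (nat_lit 4) (nat_lit 414) (nat_lit 289) (nat_lit 242)) (XT.lf (nat_lit 0) (nat_lit 3356020673) (nat_lit 168) (nat_lit 9312295599) (nat_lit 84) (nat_lit 15608710138) (nat_lit 11) (nat_lit 5) (nat_lit 13) (nat_lit 5) (nat_lit 12) (nat_lit 4) (nat_lit 415) (nat_lit 289) (nat_lit 241))) (XT.nd (nat_lit 94) (nat_lit 84) (nat_lit 0) (XT.lf (nat_lit 0) (nat_lit 6385547708) (nat_lit 168) (nat_lit 3312299184)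 (nat_lit 84) (nat_lit 19318880430) (nat_lit 11) (nat_lit 5) (nat_lit 13) (nat_lit 5) (nat_lit 12) (nat_lit 4) (nat_lit 416) (nat_lit 289) (nat_lit 240)) (XT.lf (nat_lit 0) (nat_lit 2864591577) (nat_lit 84) (nat_lit 6635471866) (nat_lit 168) (nat_lit 20278753015) (nat_lit 10) (nat_lit 5) (nat_lit 11) (nat_lit 5) (nat_lit 12) (nat_lit 4) (nat_lit 417) (nat_lit 289) (nat_lit 239))))) (XT.nd (nat_lit 282) (nat_lit 84) (nat_lit 0) (XT.nd (nat_lit 94) (nat_lit 0) (nat_lit 0) (XT.lf (nat_lit 0) (nat_lit 9236262374) (nat_lit 84) (nat_lit 3472178850) (nat_lit 168) (nat_lit 17855333938) (nat_lit 10) (nat_lit 5) (nat_lit 11) (nat_lit 5) (nat_lit 12) (nat_lit 4) (nat_lit 418) (nat_lit 289) (nat_lit 238)) (XT.nd (nat_lit 94) (nat_lit 0) (nat_lit 0) (XT.lf (nat_lit 0) (nat_lit 15742359437) (nat_lit 84) (nat_lit 238651529) (nat_lit 168) (nat_lit 15392252560) (nat_lit 10) (nat_lit 5) (nat_lit 11) (nat_lit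 5) (nat_lit 12) (nat_lit 4) (nat_lit 419) (nat_lit 289) (nat_lit 237)) (XT.lf (nat_lit 0) (nat_lit 19350123070) (nat_lit 168) (nat_lit 9848912038) (nat_lit 0) (nat_lit 3008069037) (nat_lit 10) (nat_lit 5) (nat_lit 12) (nat_lit 4) (nat_lit 10) (nat_lit 4) (nat_lit 420) (nat_lit 289) (nat_lit 236)))) (XT.nd (nat_lit 188) (nat_lit 0) (nat_lit 0) (XT.nd (nat_lit 94) (nat_lit 84) (nat_lit 0) (XT.lf (nat_lit 0) (nat_lit 22792228908) (nat_lit 168) (nat_lit 3949991899) (nat_lit 0) (nat_lit 6324599583) (nat_lit 10) (nat_lit 5) (nat_lit 12) (nat_lit 4) (nat_lit 10) (nat_lit 4) (nat_lit 421) (nat_lit 289) (nat_lit 235)) (XT.lf (nat_lit 0) (nat_lit 2114567618) (nat_lit 84) (nat_lit 24213800984) (nat_lit 84) (nat_lit 7624253898) (nat_lit 9) (nat_lit 4) (nat_lit 10) (nat_lit 5) (nat_lit 10) (nat_lit 4) (nat_lit 422) (nat_lit 289) (nat_lit 234))) (XT.nd (nat_lit 94) (nat_lit 0) (nat_lit 0) (XT.lf (nat_lit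 0) (nat_lit 8389959425) (nat_lit 84) (nat_lit 21591324663) (nat_lit 84) (nat_lit 4883410820) (nat_lit 9) (nat_lit 4) (nat_lit 10) (nat_lit 5) (nat_lit 10) (nat_lit 4) (nat_lit 423) (nat_lit 289) (nat_lit 233)) (XT.lf (nat_lit 0) (nat_lit 14803054291) (nat_lit 84) (nat_lit 18912387536) (nat_lit 84) (nat_lit 2089554510) (nat_lit 9) (nat_lit 4) (nat_lit 10) (nat_lit 5) (nat_lit 10) (nat_lit 4) (nat_lit 424) (nat_lit 289) (nat_lit 232)))))) (XT.nd (nat_lit 658) (nat_lit 84) (nat_lit 0) (XT.nd (nat_lit 282) (nat_lit 84) (nat_lit 0) (XT.nd (nat_lit 94) (nat_lit 0) (nat_lit 0) (XT.lf (nat_lit 0) (nat_lit 744930681) (nat_lit 168) (nat_lit 15422195762) (nat_lit 84) (nat_lit 20607002868) (nat_lit 8) (nat_lit 5) (nat_lit 10) (nat_lit 5) (nat_lit 9) (nat_lit 4) (nat_lit 425) (nat_lit 289) (nat_lit 231)) (XT.nd (nat_lit 94) (nat_lit 0) (nat_lit 0) (XT.lf (nat_lit 0) (nat_lit 3595454594) (nat_lit 168)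 (nat_lit 9743954569) (nat_lit 84) (nat_lit 24433131479) (nat_lit 8) (nat_lit 5) (nat_lit 10) (nat_lit 5) (nat_lit 9) (nat_lit 4) (nat_lit 426) (nat_lit 289) (nat_lit 230)) (XT.lf (nat_lit 0) (nat_lit 6505282711) (nat_lit 168) (nat_lit 3942170823) (nat_lit 84) (nat_lit 28354251778) (nat_lit 8) (nat_lit 5) (nat_lit 10) (nat_lit 5) (nat_lit 9) (nat_lit 4) (nat_lit 427) (nat_lit 289) (nat_lit 229)))) (XT.nd (nat_lit 188) (nat_lit 0) (nat_lit 0) (XT.nd (nat_lit 94) (nat_lit 0) (nat_lit 0) (XT.lf (nat_lit 0) (nat_lit 2027794572) (nat_lit 84) (nat_lit 7468655429) (nat_lit 168) (nat_lit 30365487814) (nat_lit 7) (nat_lit 5) (nat_lit 8) (nat_lit 5) (nat_lit 9) (nat_lit 4) (nat_lit 428) (nat_lit 289) (nat_lit 228)) (XT.lf (nat_lit 0) (nat_lit 8212673633) (nat_lit 84) (nat_lit 4379347480) (nat_lit 168) (nat_lit 28361529930) (nat_lit 7) (nat_lit 5) (nat_lit 8) (nat_lit 5) (nat_lit 9) (nat_lit 4) (nat_lit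 429) (nat_lit 289) (nat_lit 227))) (XT.nd (nat_lit 94) (nat_lit 0) (nat_lit 0) (XT.lf (nat_lit 0) (nat_lit 14539413692) (nat_lit 84) (nat_lit 1216638488) (nat_lit 168) (nat_lit 26322606111) (nat_lit 7) (nat_lit 5) (nat_lit 8) (nat_lit 5) (nat_lit 9) (nat_lit 4) (nat_lit 430) (nat_lit 289) (nat_lit 226)) (XT.lf (nat_lit 0) (nat_lit 19010746849) (nat_lit 168) (nat_lit 22244138655) (nat_lit 0) (nat_lit 1982773989) (nat_lit 7) (nat_lit 5) (nat_lit 9) (nat_lit 4) (nat_lit 7) (nat_lit 4) (nat_lit 431) (nat_lit 289) (nat_lit 225))))) (XT.nd (nat_lit 282) (nat_lit 84) (nat_lit 0) (XT.nd (nat_lit 94) (nat_lit 0) (nat_lit 0) (XT.lf (nat_lit 0) (nat_lit 22351947501) (nat_lit 168) (nat_lit 16843931259) (nat_lit 0) (nat_lit 5235898658) (nat_lit 7) (nat_lit 5) (nat_lit 9) (nat_lit 4) (nat_lit 7) (nat_lit 4) (nat_lit 432) (nat_lit 289) (nat_lit 224)) (XT.nd (nat_lit 94) (nat_lit 0) (nat_lit 0) (XT.lf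 (nat_lit 0) (nat_lit 25770878559) (nat_lit 168) (nat_lit 11322208709) (nat_lit 0) (nat_lit 8569319051) (nat_lit 7) (nat_lit 5) (nat_lit 9) (nat_lit 4) (nat_lit 7) (nat_lit 4) (nat_lit 433) (nat_lit 289) (nat_lit 223)) (XT.lf (nat_lit 0) (nat_lit 29270527437) (nat_lit 168) (nat_lit 5674146199) (nat_lit 0) (nat_lit 11985947868) (nat_lit 7) (nat_lit 5) (nat_lit 9) (nat_lit 4) (nat_lit 7) (nat_lit 4) (nat_lit 434) (nat_lit 289) (nat_lit 222)))) (XT.nd (nat_lit 188) (nat_lit 0) (nat_lit 0) (XT.nd (nat_lit 94) (nat_lit 0) (nat_lit 0) (XT.lf (nat_lit 0) (nat_lit 107284986) (nat_lit 84) (nat_lit 32747698385) (nat_lit 84) (nat_lit 15382516814) (nat_lit 6) (nat_lit 4) (nat_lit 7) (nat_lit 5) (nat_lit 7) (nat_lit 4) (nat_lit 435) (nat_lit 289) (nat_lit 221)) (XT.lf (nat_lit 0) (nat_lit 6140681009) (nat_lit 84) (nat_lit 30442630614) (nat_lit 84) (nat_lit 12999194671) (nat_lit 6) (nat_lit 4) (nat_lit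 7) (nat_lit 5) (nat_lit 7) (nat_lit 4) (nat_lit 436) (nat_lit 289) (nat_lit 220))) (XT.nd (nat_lit 94) (nat_lit 0) (nat_lit 0) (XT.lf (nat_lit 0) (nat_lit 12318387135) (nat_lit 84) (nat_lit 28084753938) (nat_lit 84) (nat_lit 10565342878) (nat_lit 6) (nat_lit 4) (nat_lit 7) (nat_lit 5) (nat_lit 7) (nat_lit 4) (nat_lit 437) (nat_lit 289) (nat_lit 219)) (XT.lf (nat_lit 0) (nat_lit 18645801359) (nat_lit 84) (nat_lit 25672008076) (nat_lit 84) (nat_lit 8078834766) (nat_lit 6) (nat_lit 4) (nat_lit 7) (nat_lit 5) (nat_lit 7) (nat_lit 4) (nat_lit 438) (nat_lit 289) (nat_lit 218))))))))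
noncomputable def xc34 : XT := (XT.nd (nat_lit 52922) (nat_lit 0) (nat_lit 1512) (XT.nd (nat_lit 1222) (nat_lit 84) (nat_lit 0) (XT.nd (nat_lit 564) (nat_lit 84) (nat_lit 0) (XT.nd (nat_lit 282) (nat_lit 84) (nat_lit 0) (XT.nd (nat_lit 94) (nat_lit 0) (nat_lit 0) (XT.lf (nat_lit 0) (nat_lit 25128452489) (nat_lit 84) (nat_lit 23202284804) (nat_lit 84) (nat_lit 5537497659) (nat_lit 6) (nat_lit 4) (nat_lit 7) (nat_lit 5) (nat_lit 7) (nat_lit 4) (nat_lit 439) (nat_lit 289) (nat_lit 217)) (XT.nd (nat_lit 94) (nat_lit 0) (nat_lit 0) (XT.lf (nat_lit 0) (nat_lit 31772004978) (nat_lit 84) (nat_lit 20673426110) (nat_lit 84) (nat_lit 2939110971) (nat_lit 6) (nat_lit 4) (nat_lit 7) (nat_lit 5) (nat_lit 7) (nat_lit 4) (nat_lit 440) (nat_lit 289) (nat_lit 216)) (XT.lf (nat_lit 0) (nat_lit 38582263871) (nat_lit 84) (nat_lit 18083222314) (nat_lit 84) (nat_lit 281404267) (nat_lit 6) (nat_lit 4) (nat_lit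 7) (nat_lit 5) (nat_lit 7) (nat_lit 4) (nat_lit 441) (nat_lit 289) (nat_lit 215)))) (XT.nd (nat_lit 94) (nat_lit 0) (nat_lit 0) (XT.lf (nat_lit 0) (nat_lit 2390371638) (nat_lit 168) (nat_lit 13014900425) (nat_lit 84) (nat_lit 43150670176) (nat_lit 5) (nat_lit 5) (nat_lit 7) (nat_lit 5) (nat_lit 6) (nat_lit 4) (nat_lit 442) (nat_lit 289) (nat_lit 214)) (XT.nd (nat_lit 94) (nat_lit 0) (nat_lit 0) (XT.lf (nat_lit 0) (nat_lit 5119425517) (nat_lit 168) (nat_lit 7538549016) (nat_lit 84) (nat_lit 47555732907) (nat_lit 5) (nat_lit 5) (nat_lit 7) (nat_lit 5) (nat_lit 6) (nat_lit 4) (nat_lit 443) (nat_lit 289) (nat_lit 213)) (XT.lf (nat_lit 0) (nat_lit 7913633190) (nat_lit 168) (nat_lit 1928082161) (nat_lit 84) (nat_lit 52080000386) (nat_lit 5) (nat_lit 5) (nat_lit 7) (nat_lit 5) (nat_lit 6) (nat_lit 4) (nat_lit 444) (nat_lit 289) (nat_lit 212))))) (XT.nd (nat_lit 282) (nat_lit 0) (nat_lit 0) (XT.nd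 (nat_lit 94) (nat_lit 0) (nat_lit 0) (XT.lf (nat_lit 0) (nat_lit 3897455888) (nat_lit 84) (nat_lit 6915445040) (nat_lit 168) (nat_lit 52867434696) (nat_lit 4) (nat_lit 5) (nat_lit 5) (nat_lit 5) (nat_lit 6) (nat_lit 4) (nat_lit 445) (nat_lit 289) (nat_lit 211)) (XT.nd (nat_lit 94) (nat_lit 0) (nat_lit 0) (XT.lf (nat_lit 0) (nat_lit 9908274881) (nat_lit 84) (nat_lit 3894304665) (nat_lit 168) (nat_lit 51689039690) (nat_lit 4) (nat_lit 5) (nat_lit 5) (nat_lit 5) (nat_lit 6) (nat_lit 4) (nat_lit 446) (nat_lit 289) (nat_lit 210)) (XT.lf (nat_lit 0) (nat_lit 16071254372) (nat_lit 84) (nat_lit 795124245) (nat_lit 168) (nat_lit 50491337713) (nat_lit 4) (nat_lit 5) (nat_lit 5) (nat_lit 5) (nat_lit 6) (nat_lit 4) (nat_lit 447) (nat_lit 289) (nat_lit 209)))) (XT.nd (nat_lit 188) (nat_lit 0) (nat_lit 0) (XT.nd (nat_lit 94) (nat_lit 0) (nat_lit 0) (XT.lf (nat_lit 0) (nat_lit 20029899444) (nat_lit 168)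 (nat_lit 46911402184) (nat_lit 0) (nat_lit 2338268121) (nat_lit 4) (nat_lit 5) (nat_lit 6) (nat_lit 4) (nat_lit 4) (nat_lit 4) (nat_lit 448) (nat_lit 289) (nat_lit 208)) (XT.lf (nat_lit 0) (nat_lit 23281408171) (nat_lit 168) (nat_lit 42439844067) (nat_lit 0) (nat_lit 5538041489) (nat_lit 4) (nat_lit 5) (nat_lit 6) (nat_lit 4) (nat_lit 4) (nat_lit 4) (nat_lit 449) (nat_lit 289) (nat_lit 207))) (XT.nd (nat_lit 94) (nat_lit 0) (nat_lit 0) (XT.lf (nat_lit 0) (nat_lit 26616102700) (nat_lit 168) (nat_lit 37860237200) (nat_lit 0) (nat_lit 8822507516) (nat_lit 4) (nat_lit 5) (nat_lit 6) (nat_lit 4) (nat_lit 4) (nat_lit 4) (nat_lit 450) (nat_lit 289) (nat_lit 206)) (XT.lf (nat_lit 0) (nat_lit 30036896843) (nat_lit 168) (nat_lit 33168579984) (nat_lit 0) (nat_lit 12194536122) (nat_lit 4) (nat_lit 5) (nat_lit 6) (nat_lit 4) (nat_lit 4) (nat_lit 4) (nat_lit 451) (nat_lit 289) (nat_lit 205)))))) (XT.nd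 (nat_lit 658) (nat_lit 0) (nat_lit 0) (XT.nd (nat_lit 282) (nat_lit 84) (nat_lit 0) (XT.nd (nat_lit 94) (nat_lit 0) (nat_lit 0) (XT.lf (nat_lit 0) (nat_lit 33546779643) (nat_lit 168) (nat_lit 28360772914) (nat_lit 0) (nat_lit 15657073741) (nat_lit 4) (nat_lit 5) (nat_lit 6) (nat_lit 4) (nat_lit 4) (nat_lit 4) (nat_lit 452) (nat_lit 289) (nat_lit 204)) (XT.nd (nat_lit 94) (nat_lit 0) (nat_lit 0) (XT.lf (nat_lit 0) (nat_lit 37148817989) (nat_lit 168) (nat_lit 23432614993) (nat_lit 0) (nat_lit 19213145891) (nat_lit 4) (nat_lit 5) (nat_lit 6) (nat_lit 4) (nat_lit 4) (nat_lit 4) (nat_lit 453) (nat_lit 289) (nat_lit 203)) (XT.lf (nat_lit 0) (nat_lit 40846159291) (nat_lit 168) (nat_lit 18379800064) (nat_lit 0) (nat_lit 22865859819) (nat_lit 4) (nat_lit 5) (nat_lit 6) (nat_lit 4) (nat_lit 4) (nat_lit 4) (nat_lit 454) (nat_lit 289) (nat_lit 202)))) (XT.nd (nat_lit 188) (nat_lit 84) (nat_lit 0)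 (XT.nd (nat_lit 94) (nat_lit 0) (nat_lit 0) (XT.lf (nat_lit 0) (nat_lit 44642034237) (nat_lit 168) (nat_lit 13197913045) (nat_lit 0) (nat_lit 26618407218) (nat_lit 4) (nat_lit 5) (nat_lit 6) (nat_lit 4) (nat_lit 4) (nat_lit 4) (nat_lit 455) (nat_lit 289) (nat_lit 201)) (XT.lf (nat_lit 0) (nat_lit 48539759611) (nat_lit 168) (nat_lit 7882426074) (nat_lit 0) (nat_lit 30474067011) (nat_lit 4) (nat_lit 5) (nat_lit 6) (nat_lit 4) (nat_lit 4) (nat_lit 4) (nat_lit 456) (nat_lit 289) (nat_lit 200))) (XT.nd (nat_lit 94) (nat_lit 84) (nat_lit 0) (XT.lf (nat_lit 0) (nat_lit 52542741193) (nat_lit 168) (nat_lit 2428694551) (nat_lit 0) (nat_lit 34436208223) (nat_lit 4) (nat_lit 5) (nat_lit 6) (nat_lit 4) (nat_lit 4) (nat_lit 4) (nat_lit 457) (nat_lit 289) (nat_lit 199)) (XT.lf (nat_lit 0) (nat_lit 3231097265) (nat_lit 84) (nat_lit 53454438750) (nat_lit 84) (nat_lit 35308254936) (nat_lit 3) (nat_lit 4)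 (nat_lit 4) (nat_lit 5) (nat_lit 4) (nat_lit 4) (nat_lit 458) (nat_lit 289) (nat_lit 198))))) (XT.nd (nat_lit 50666) (nat_lit 0) (nat_lit 4620) (XT.nd (nat_lit 50478) (nat_lit 0) (nat_lit 5628) (XT.lf (nat_lit 0) (nat_lit 9090068677) (nat_lit 84) (nat_lit 51875869631) (nat_lit 84) (nat_lit 33691189852) (nat_lit 3) (nat_lit 4) (nat_lit 4) (nat_lit 5) (nat_lit 4) (nat_lit 4) (nat_lit 459) (nat_lit 289) (nat_lit 197)) (XT.nd (nat_lit 94) (nat_lit 0) (nat_lit 0) (XT.lf (nat_lit 0) (nat_lit 867600130) (nat_lit 420) (nat_lit 3122679911) (nat_lit 0) (nat_lit 867600130) (nat_lit 70) (nat_lit 5) (nat_lit 75) (nat_lit 4) (nat_lit 70) (nat_lit 4) (nat_lit 365) (nat_lit 290) (nat_lit 290)) (XT.lf (nat_lit 0) (nat_lit 5338702737) (nat_lit 420) (nat_lit 48274897) (nat_lit 0) (nat_lit 4481025655) (nat_lit 70) (nat_lit 5) (nat_lit 75) (nat_lit 4) (nat_lit 70) (nat_lit 4) (nat_lit 366) (nat_lit 290) (nat_lit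 289)))) (XT.nd (nat_lit 188) (nat_lit 336) (nat_lit 0) (XT.nd (nat_lit 94) (nat_lit 336) (nat_lit 0) (XT.lf (nat_lit 0) (nat_lit 6334978702) (nat_lit 336) (nat_lit 2690535734) (nat_lit 336) (nat_lit 1000162456) (nat_lit 66) (nat_lit 4) (nat_lit 70) (nat_lit 5) (nat_lit 70) (nat_lit 4) (nat_lit 367) (nat_lit 290) (nat_lit 288)) (XT.lf (nat_lit 0) (nat_lit 2524805036) (nat_lit 336) (nat_lit 7565617446) (nat_lit 0) (nat_lit 98769903) (nat_lit 62) (nat_lit 5) (nat_lit 66) (nat_lit 4) (nat_lit 62) (nat_lit 4) (nat_lit 368) (nat_lit 290) (nat_lit 287))) (XT.nd (nat_lit 94) (nat_lit 336) (nat_lit 0) (XT.lf (nat_lit 0) (nat_lit 6115309840) (nat_lit 336) (nat_lit 1315479333) (nat_lit 0) (nat_lit 2927239728) (nat_lit 62) (nat_lit 5) (nat_lit 66) (nat_lit 4) (nat_lit 62) (nat_lit 4) (nat_lit 369) (nat_lit 290) (nat_lit 286)) (XT.lf (nat_lit 0) (nat_lit 5100324104) (nat_lit 336) (nat_lit 4680304752)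 (nat_lit 336) (nat_lit 752394854) (nat_lit 58) (nat_lit 4) (nat_lit 62) (nat_lit 5) (nat_lit 62) (nat_lit 4) (nat_lit 370) (nat_lit 290) (nat_lit 285))))))) (XT.nd (nat_lit 1316) (nat_lit 1008) (nat_lit 0) (XT.nd (nat_lit 658) (nat_lit 840) (nat_lit 0) (XT.nd (nat_lit 282) (nat_lit 672) (nat_lit 0) (XT.nd (nat_lit 94) (nat_lit 252) (nat_lit 0) (XT.lf (nat_lit 0) (nat_lit 890723662) (nat_lit 252) (nat_lit 1836825408) (nat_lit 336) (nat_lit 7986788207) (nat_lit 54) (nat_lit 5) (nat_lit 57) (nat_lit 5) (nat_lit 58) (nat_lit 4) (nat_lit 371) (nat_lit 290) (nat_lit 284)) (XT.nd (nat_lit 94) (nat_lit 252) (nat_lit 0) (XT.lf (nat_lit 0) (nat_lit 6281899666) (nat_lit 336) (nat_lit 3525543593) (nat_lit 0) (nat_lit 1093966747) (nat_lit 54) (nat_lit 5) (nat_lit 58) (nat_lit 4) (nat_lit 54) (nat_lit 4) (nat_lit 372) (nat_lit 290) (nat_lit 283)) (XT.lf (nat_lit 0) (nat_lit 2880238801) (nat_lit 252)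 (nat_lit 7030098862) (nat_lit 252) (nat_lit 1184827876) (nat_lit 51) (nat_lit 4) (nat_lit 54) (nat_lit 5) (nat_lit 54) (nat_lit 4) (nat_lit 373) (nat_lit 290) (nat_lit 282)))) (XT.nd (nat_lit 188) (nat_lit 336) (nat_lit 0) (XT.nd (nat_lit 94) (nat_lit 252) (nat_lit 0) (XT.lf (nat_lit 0) (nat_lit 2264813154) (nat_lit 336) (nat_lit 1885892579) (nat_lit 84) (nat_lit 7144703449) (nat_lit 50) (nat_lit 5) (nat_lit 54) (nat_lit 5) (nat_lit 51) (nat_lit 4) (nat_lit 374) (nat_lit 290) (nat_lit 281)) (XT.lf (nat_lit 0) (nat_lit 4594706168) (nat_lit 252) (nat_lit 1167743893) (nat_lit 336) (nat_lit 5739894855) (nat_lit 47) (nat_lit 5) (nat_lit 50) (nat_lit 5) (nat_lit 51) (nat_lit 4) (nat_lit 375) (nat_lit 290) (nat_lit 280))) (XT.nd (nat_lit 94) (nat_lit 336) (nat_lit 0) (XT.lf (nat_lit 0) (nat_lit 9327425914) (nat_lit 336) (nat_lit 542066762) (nat_lit 0) (nat_lit 1847207560) (nat_lit 47) (nat_lit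 5) (nat_lit 51) (nat_lit 4) (nat_lit 47) (nat_lit 4) (nat_lit 376) (nat_lit 290) (nat_lit 279)) (XT.lf (nat_lit 0) (nat_lit 1037384646) (nat_lit 336) (nat_lit 5941353113) (nat_lit 84) (nat_lit 4958634020) (nat_lit 43) (nat_lit 5) (nat_lit 47) (nat_lit 5) (nat_lit 44) (nat_lit 4) (nat_lit 377) (nat_lit 290) (nat_lit 278))))) (XT.nd (nat_lit 282) (nat_lit 420) (nat_lit 0) (XT.nd (nat_lit 94) (nat_lit 252) (nat_lit 0) (XT.lf (nat_lit 0) (nat_lit 447854027) (nat_lit 168) (nat_lit 4008110629) (nat_lit 252) (nat_lit 7709951523) (nat_lit 41) (nat_lit 5) (nat_lit 43) (nat_lit 5) (nat_lit 44) (nat_lit 4) (nat_lit 378) (nat_lit 290) (nat_lit 277)) (XT.nd (nat_lit 94) (nat_lit 252) (nat_lit 0) (XT.lf (nat_lit 0) (nat_lit 7037613197) (nat_lit 168) (nat_lit 927826914) (nat_lit 252) (nat_lit 4436301126) (nat_lit 41) (nat_lit 5) (nat_lit 43) (nat_lit 5) (nat_lit 44) (nat_lit 4) (nat_lit 379) (nat_lit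 290) (nat_lit 276)) (XT.lf (nat_lit 0) (nat_lit 1068289597) (nat_lit 252) (nat_lit 10473802407) (nat_lit 252) (nat_lit 1103764572) (nat_lit 38) (nat_lit 4) (nat_lit 41) (nat_lit 5) (nat_lit 41) (nat_lit 4) (nat_lit 380) (nat_lit 290) (nat_lit 275)))) (XT.nd (nat_lit 188) (nat_lit 168) (nat_lit 0) (XT.nd (nat_lit 94) (nat_lit 168) (nat_lit 0) (XT.lf (nat_lit 0) (nat_lit 2277465217) (nat_lit 336) (nat_lit 5235904698) (nat_lit 84) (nat_lit 5383497264) (nat_lit 37) (nat_lit 5) (nat_lit 41) (nat_lit 5) (nat_lit 38) (nat_lit 4) (nat_lit 381) (nat_lit 290) (nat_lit 274)) (XT.lf (nat_lit 0) (nat_lit 1199985021) (nat_lit 168) (nat_lit 4481797794) (nat_lit 252) (nat_lit 7475048530) (nat_lit 35) (nat_lit 5) (nat_lit 37) (nat_lit 5) (nat_lit 38) (nat_lit 4) (nat_lit 382) (nat_lit 290) (nat_lit 273))) (XT.nd (nat_lit 94) (nat_lit 168) (nat_lit 0) (XT.lf (nat_lit 0) (nat_lit 7828836072) (nat_lit 168)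 (nat_lit 1345505731) (nat_lit 252) (nat_lit 4250733511) (nat_lit 35) (nat_lit 5) (nat_lit 37) (nat_lit 5) (nat_lit 38) (nat_lit 4) (nat_lit 383) (nat_lit 290) (nat_lit 272)) (XT.lf (nat_lit 0) (nat_lit 847664556) (nat_lit 168) (nat_lit 11885084113) (nat_lit 168) (nat_lit 969848164) (nat_lit 33) (nat_lit 4) (nat_lit 35) (nat_lit 5) (nat_lit 35) (nat_lit 4) (nat_lit 384) (nat_lit 290) (nat_lit 271)))))) (XT.nd (nat_lit 658) (nat_lit 336) (nat_lit 0) (XT.nd (nat_lit 282) (nat_lit 420) (nat_lit 0) (XT.nd (nat_lit 94) (nat_lit 168) (nat_lit 0) (XT.lf (nat_lit 0) (nat_lit 2367837531) (nat_lit 252) (nat_lit 6530446051) (nat_lit 84) (nat_lit 5089362626) (nat_lit 32) (nat_lit 5) (nat_lit 35) (nat_lit 5) (nat_lit 33) (nat_lit 4) (nat_lit 385) (nat_lit 290) (nat_lit 270)) (XT.nd (nat_lit 94) (nat_lit 168) (nat_lit 0) (XT.lf (nat_lit 0) (nat_lit 5723052758) (nat_lit 252) (nat_lit 128990492) (nat_lit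 84) (nat_lit 8430866055) (nat_lit 32) (nat_lit 5) (nat_lit 35) (nat_lit 5) (nat_lit 33) (nat_lit 4) (nat_lit 386) (nat_lit 290) (nat_lit 269)) (XT.lf (nat_lit 0) (nat_lit 6491013736) (nat_lit 168) (nat_lit 2689036346) (nat_lit 252) (nat_lit 5407001850) (nat_lit 30) (nat_lit 5) (nat_lit 32) (nat_lit 5) (nat_lit 33) (nat_lit 4) (nat_lit 387) (nat_lit 290) (nat_lit 268)))) (XT.nd (nat_lit 188) (nat_lit 168) (nat_lit 0) (XT.nd (nat_lit 94) (nat_lit 252) (nat_lit 0) (XT.lf (nat_lit 0) (nat_lit 12686729912) (nat_lit 252) (nat_lit 1694169330) (nat_lit 0) (nat_lit 521094215) (nat_lit 30) (nat_lit 5) (nat_lit 33) (nat_lit 4) (nat_lit 30) (nat_lit 4) (nat_lit 388) (nat_lit 290) (nat_lit 267)) (XT.lf (nat_lit 0) (nat_lit 1065797078) (nat_lit 252) (nat_lit 10366019777) (nat_lit 84) (nat_lit 3793873076) (nat_lit 27) (nat_lit 5) (nat_lit 30) (nat_lit 5) (nat_lit 28) (nat_lit 4) (nat_lit 389) (nat_lit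 290) (nat_lit 266))) (XT.nd (nat_lit 94) (nat_lit 168) (nat_lit 0) (XT.lf (nat_lit 0) (nat_lit 4359165028) (nat_lit 252) (nat_lit 4033834442) (nat_lit 84) (nat_lit 7166737059) (nat_lit 27) (nat_lit 5) (nat_lit 30) (nat_lit 5) (nat_lit 28) (nat_lit 4) (nat_lit 390) (nat_lit 290) (nat_lit 265)) (XT.lf (nat_lit 0) (nat_lit 2440798303) (nat_lit 168) (nat_lit 5276835962) (nat_lit 252) (nat_lit 8187229046) (nat_lit 25) (nat_lit 5) (nat_lit 27) (nat_lit 5) (nat_lit 28) (nat_lit 4) (nat_lit 391) (nat_lit 290) (nat_lit 264))))) (XT.nd (nat_lit 282) (nat_lit 84) (nat_lit 0) (XT.nd (nat_lit 94) (nat_lit 252) (nat_lit 0) (XT.lf (nat_lit 0) (nat_lit 9098145578) (nat_lit 168) (nat_lit 2063042898) (nat_lit 252) (nat_lit 5099671898) (nat_lit 25) (nat_lit 5) (nat_lit 27) (nat_lit 5) (nat_lit 28) (nat_lit 4) (nat_lit 392) (nat_lit 290) (nat_lit 263)) (XT.nd (nat_lit 94) (nat_lit 252) (nat_lit 0) (XT.lf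 (nat_lit 0) (nat_lit 14664924822) (nat_lit 252) (nat_lit 777117562) (nat_lit 0) (nat_lit 1186833752) (nat_lit 25) (nat_lit 5) (nat_lit 28) (nat_lit 4) (nat_lit 25) (nat_lit 4) (nat_lit 393) (nat_lit 290) (nat_lit 262)) (XT.lf (nat_lit 0) (nat_lit 1264019623) (nat_lit 252) (nat_lit 11216935431) (nat_lit 84) (nat_lit 4525968348) (nat_lit 22) (nat_lit 5) (nat_lit 25) (nat_lit 5) (nat_lit 23) (nat_lit 4) (nat_lit 394) (nat_lit 290) (nat_lit 261)))) (XT.nd (nat_lit 188) (nat_lit 0) (nat_lit 0) (XT.nd (nat_lit 94) (nat_lit 84) (nat_lit 0) (XT.lf (nat_lit 0) (nat_lit 4503909886) (nat_lit 252) (nat_lit 4935884599) (nat_lit 84) (nat_lit 7957338866) (nat_lit 22) (nat_lit 5) (nat_lit 25) (nat_lit 5) (nat_lit 23) (nat_lit 4) (nat_lit 395) (nat_lit 290) (nat_lit 260)) (XT.lf (nat_lit 0) (nat_lit 1474682873) (nat_lit 84) (nat_lit 6328672659) (nat_lit 168) (nat_lit 9996863336) (nat_lit 21) (nat_lit 5)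 (nat_lit 22) (nat_lit 5) (nat_lit 23) (nat_lit 4) (nat_lit 396) (nat_lit 290) (nat_lit 259))) (XT.nd (nat_lit 94) (nat_lit 0) (nat_lit 0) (XT.lf (nat_lit 0) (nat_lit 8091916625) (nat_lit 84) (nat_lit 3108568350) (nat_lit 168) (nat_lit 7014989824) (nat_lit 21) (nat_lit 5) (nat_lit 22) (nat_lit 5) (nat_lit 23) (nat_lit 4) (nat_lit 397) (nat_lit 290) (nat_lit 258)) (XT.lf (nat_lit 0) (nat_lit 14651543242) (nat_lit 168) (nat_lit 3823018484) (nat_lit 0) (nat_lit 170103965) (nat_lit 21) (nat_lit 5) (nat_lit 23) (nat_lit 4) (nat_lit 21) (nat_lit 4) (nat_lit 398) (nat_lit 290) (nat_lit 257))))))))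
noncomputable def xc35 : XT := (XT.nd (nat_lit 2632) (nat_lit 336) (nat_lit 0) (XT.nd (nat_lit 1316) (nat_lit 420) (nat_lit 0) (XT.nd (nat_lit 658) (nat_lit 168) (nat_lit 0) (XT.nd (nat_lit 282) (nat_lit 252) (nat_lit 0) (XT.nd (nat_lit 94) (nat_lit 84) (nat_lit 0) (XT.lf (nat_lit 0) (nat_lit 2603557771) (nat_lit 168) (nat_lit 15609850456) (nat_lit 168) (nat_lit 873142464) (nat_lit 19) (nat_lit 4) (nat_lit 21) (nat_lit 5) (nat_lit 21) (nat_lit 4) (nat_lit 399) (nat_lit 290) (nat_lit 256)) (XT.nd (nat_lit 94) (nat_lit 0) (nat_lit 0) (XT.lf (nat_lit 0) (nat_lit 2285338075) (nat_lit 252) (nat_lit 10345305403) (nat_lit 84) (nat_lit 6910691218) (nat_lit 18) (nat_lit 5) (nat_lit 21) (nat_lit 5) (nat_lit 19) (nat_lit 4) (nat_lit 400) (nat_lit 290) (nat_lit 255)) (XT.lf (nat_lit 0) (nat_lit 5474018189) (nat_lit 252) (nat_lit 4112900018) (nat_lit 84) (nat_lit 10424028353) (nat_lit 18) (nat_lit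 5) (nat_lit 21) (nat_lit 5) (nat_lit 19) (nat_lit 4) (nat_lit 401) (nat_lit 290) (nat_lit 254)))) (XT.nd (nat_lit 188) (nat_lit 168) (nat_lit 0) (XT.nd (nat_lit 94) (nat_lit 0) (nat_lit 0) (XT.lf (nat_lit 0) (nat_lit 2272405012) (nat_lit 84) (nat_lit 6462160992) (nat_lit 168) (nat_lit 11760827103) (nat_lit 17) (nat_lit 5) (nat_lit 18) (nat_lit 5) (nat_lit 19) (nat_lit 4) (nat_lit 402) (nat_lit 290) (nat_lit 253)) (XT.lf (nat_lit 0) (nat_lit 8855933066) (nat_lit 84) (nat_lit 3233475796) (nat_lit 168) (nat_lit 8905101429) (nat_lit 17) (nat_lit 5) (nat_lit 18) (nat_lit 5) (nat_lit 19) (nat_lit 4) (nat_lit 403) (nat_lit 290) (nat_lit 252))) (XT.nd (nat_lit 94) (nat_lit 168) (nat_lit 0) (XT.lf (nat_lit 0) (nat_lit 15501736484) (nat_lit 168) (nat_lit 5948942801) (nat_lit 0) (nat_lit 59247200) (nat_lit 17) (nat_lit 5) (nat_lit 19) (nat_lit 4) (nat_lit 17) (nat_lit 4) (nat_lit 404) (nat_lit 290)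 (nat_lit 251)) (XT.lf (nat_lit 0) (nat_lit 326540216) (nat_lit 168) (nat_lit 18682284559) (nat_lit 168) (nat_lit 3032238450) (nat_lit 15) (nat_lit 4) (nat_lit 17) (nat_lit 5) (nat_lit 17) (nat_lit 4) (nat_lit 405) (nat_lit 290) (nat_lit 250))))) (XT.nd (nat_lit 282) (nat_lit 84) (nat_lit 0) (XT.nd (nat_lit 94) (nat_lit 0) (nat_lit 0) (XT.lf (nat_lit 0) (nat_lit 50345489) (nat_lit 252) (nat_lit 15749356245) (nat_lit 84) (nat_lit 6787910965) (nat_lit 14) (nat_lit 5) (nat_lit 17) (nat_lit 5) (nat_lit 15) (nat_lit 4) (nat_lit 406) (nat_lit 290) (nat_lit 249)) (XT.nd (nat_lit 94) (nat_lit 0) (nat_lit 0) (XT.lf (nat_lit 0) (nat_lit 3123034959) (nat_lit 252) (nat_lit 9707438836) (nat_lit 84) (nat_lit 10320454264) (nat_lit 14) (nat_lit 5) (nat_lit 17) (nat_lit 5) (nat_lit 15) (nat_lit 4) (nat_lit 407) (nat_lit 290) (nat_lit 248)) (XT.lf (nat_lit 0) (nat_lit 6247684726) (nat_lit 252) (nat_lit 3554343708)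 (nat_lit 84) (nat_lit 13930347523) (nat_lit 14) (nat_lit 5) (nat_lit 17) (nat_lit 5) (nat_lit 15) (nat_lit 4) (nat_lit 408) (nat_lit 290) (nat_lit 247)))) (XT.nd (nat_lit 188) (nat_lit 0) (nat_lit 0) (XT.nd (nat_lit 94) (nat_lit 0) (nat_lit 0) (XT.lf (nat_lit 0) (nat_lit 2769345537) (nat_lit 84) (nat_lit 6684300172) (nat_lit 168) (nat_lit 14878020122) (nat_lit 13) (nat_lit 5) (nat_lit 14) (nat_lit 5) (nat_lit 15) (nat_lit 4) (nat_lit 409) (nat_lit 290) (nat_lit 246)) (XT.lf (nat_lit 0) (nat_lit 9288234424) (nat_lit 84) (nat_lit 3464883811) (nat_lit 168) (nat_lit 12195921129) (nat_lit 13) (nat_lit 5) (nat_lit 14) (nat_lit 5) (nat_lit 15) (nat_lit 4) (nat_lit 410) (nat_lit 290) (nat_lit 245))) (XT.nd (nat_lit 94) (nat_lit 0) (nat_lit 0) (XT.lf (nat_lit 0) (nat_lit 15937280660) (nat_lit 84) (nat_lit 176858171) (nat_lit 168) (nat_lit 9471942574) (nat_lit 13) (nat_lit 5) (nat_lit 14) (nat_lit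 5) (nat_lit 15) (nat_lit 4) (nat_lit 411) (nat_lit 290) (nat_lit 244)) (XT.lf (nat_lit 0) (nat_lit 19570237888) (nat_lit 168) (nat_lit 3551648078) (nat_lit 0) (nat_lit 3120544819) (nat_lit 13) (nat_lit 5) (nat_lit 15) (nat_lit 4) (nat_lit 13) (nat_lit 4) (nat_lit 412) (nat_lit 290) (nat_lit 243)))))) (XT.nd (nat_lit 658) (nat_lit 168) (nat_lit 0) (XT.nd (nat_lit 282) (nat_lit 84) (nat_lit 0) (XT.nd (nat_lit 94) (nat_lit 84) (nat_lit 0) (XT.lf (nat_lit 0) (nat_lit 2717208077) (nat_lit 84) (nat_lit 20405141795) (nat_lit 84) (nat_lit 3796373702) (nat_lit 12) (nat_lit 4) (nat_lit 13) (nat_lit 5) (nat_lit 13) (nat_lit 4) (nat_lit 413) (nat_lit 290) (nat_lit 242)) (XT.nd (nat_lit 94) (nat_lit 84) (nat_lit 0) (XT.lf (nat_lit 0) (nat_lit 9185065259) (nat_lit 84) (nat_lit 17596724489) (nat_lit 84) (nat_lit 833514625) (nat_lit 12) (nat_lit 4) (nat_lit 13) (nat_lit 5) (nat_lit 13) (nat_lit 4) (nat_lit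 414) (nat_lit 290) (nat_lit 241)) (XT.lf (nat_lit 0) (nat_lit 2140508244) (nat_lit 168) (nat_lit 12567921593) (nat_lit 84) (nat_lit 13624767050) (nat_lit 11) (nat_lit 5) (nat_lit 13) (nat_lit 5) (nat_lit 12) (nat_lit 4) (nat_lit 415) (nat_lit 290) (nat_lit 240)))) (XT.nd (nat_lit 188) (nat_lit 84) (nat_lit 0) (XT.nd (nat_lit 94) (nat_lit 0) (nat_lit 0) (XT.lf (nat_lit 0) (nat_lit 5153565665) (nat_lit 168) (nat_lit 6596991210) (nat_lit 84) (nat_lit 17322845005) (nat_lit 11) (nat_lit 5) (nat_lit 13) (nat_lit 5) (nat_lit 12) (nat_lit 4) (nat_lit 416) (nat_lit 290) (nat_lit 239)) (XT.lf (nat_lit 0) (nat_lit 8224555277) (nat_lit 168) (nat_lit 504218396) (nat_lit 84) (nat_lit 21108032827) (nat_lit 11) (nat_lit 5) (nat_lit 13) (nat_lit 5) (nat_lit 12) (nat_lit 4) (nat_lit 417) (nat_lit 290) (nat_lit 238))) (XT.nd (nat_lit 94) (nat_lit 0) (nat_lit 0) (XT.lf (nat_lit 0) (nat_lit 5829474678) (nat_lit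 84) (nat_lit 5582722268) (nat_lit 168) (nat_lit 19210199760) (nat_lit 10) (nat_lit 5) (nat_lit 11) (nat_lit 5) (nat_lit 12) (nat_lit 4) (nat_lit 418) (nat_lit 290) (nat_lit 237)) (XT.lf (nat_lit 0) (nat_lit 12308442822) (nat_lit 84) (nat_lit 2360991056) (nat_lit 168) (nat_lit 16762920320) (nat_lit 10) (nat_lit 5) (nat_lit 11) (nat_lit 5) (nat_lit 12) (nat_lit 4) (nat_lit 419) (nat_lit 290) (nat_lit 236))))) (XT.nd (nat_lit 282) (nat_lit 168) (nat_lit 0) (XT.nd (nat_lit 94) (nat_lit 0) (nat_lit 0) (XT.lf (nat_lit 0) (nat_lit 18003148443) (nat_lit 168) (nat_lit 13348202231) (nat_lit 0) (nat_lit 915914945) (nat_lit 10) (nat_lit 5) (nat_lit 12) (nat_lit 4) (nat_lit 10) (nat_lit 4) (nat_lit 420) (nat_lit 290) (nat_lit 235)) (XT.nd (nat_lit 94) (nat_lit 0) (nat_lit 0) (XT.lf (nat_lit 0) (nat_lit 21430694756) (nat_lit 168) (nat_lit 7475189016) (nat_lit 0) (nat_lit 4221543497) (nat_lit 10) (nat_lit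 5) (nat_lit 12) (nat_lit 4) (nat_lit 10) (nat_lit 4) (nat_lit 421) (nat_lit 290) (nat_lit 234)) (XT.lf (nat_lit 0) (nat_lit 24932372469) (nat_lit 168) (nat_lit 1477044682) (nat_lit 0) (nat_lit 7604854453) (nat_lit 10) (nat_lit 5) (nat_lit 12) (nat_lit 4) (nat_lit 10) (nat_lit 4) (nat_lit 422) (nat_lit 290) (nat_lit 233)))) (XT.nd (nat_lit 188) (nat_lit 84) (nat_lit 0) (XT.nd (nat_lit 94) (nat_lit 0) (nat_lit 0) (XT.lf (nat_lit 0) (nat_lit 4744045278) (nat_lit 84) (nat_lit 23812798688) (nat_lit 84) (nat_lit 6370361490) (nat_lit 9) (nat_lit 4) (nat_lit 10) (nat_lit 5) (nat_lit 10) (nat_lit 4) (nat_lit 423) (nat_lit 290) (nat_lit 232)) (XT.lf (nat_lit 0) (nat_lit 11132959792) (nat_lit 84) (nat_lit 21144485447) (nat_lit 84) (nat_lit 3590476228) (nat_lit 9) (nat_lit 4) (nat_lit 10) (nat_lit 5) (nat_lit 10) (nat_lit 4) (nat_lit 424) (nat_lit 290) (nat_lit 231))) (XT.nd (nat_lit 94) (nat_lit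 84) (nat_lit 0) (XT.lf (nat_lit 0) (nat_lit 17665885322) (nat_lit 84) (nat_lit 18417061146) (nat_lit 84) (nat_lit 754729576) (nat_lit 9) (nat_lit 4) (nat_lit 10) (nat_lit 5) (nat_lit 10) (nat_lit 4) (nat_lit 425) (nat_lit 290) (nat_lit 230)) (XT.lf (nat_lit 0) (nat_lit 2097609753) (nat_lit 168) (nat_lit 13509351101) (nat_lit 84) (nat_lit 22229738749) (nat_lit 8) (nat_lit 5) (nat_lit 10) (nat_lit 5) (nat_lit 9) (nat_lit 4) (nat_lit 426) (nat_lit 290) (nat_lit 229))))))) (XT.nd (nat_lit 1316) (nat_lit 168) (nat_lit 0) (XT.nd (nat_lit 658) (nat_lit 84) (nat_lit 0) (XT.nd (nat_lit 282) (nat_lit 0) (nat_lit 0) (XT.nd (nat_lit 94) (nat_lit 84) (nat_lit 0) (XT.lf (nat_lit 0) (nat_lit 4994901874) (nat_lit 168) (nat_lit 7729952300) (nat_lit 84) (nat_lit 26141393186) (nat_lit 8) (nat_lit 5) (nat_lit 10) (nat_lit 5) (nat_lit 9) (nat_lit 4) (nat_lit 427) (nat_lit 290) (nat_lit 228)) (XT.nd (nat_lit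 94) (nat_lit 84) (nat_lit 0) (XT.lf (nat_lit 0) (nat_lit 7954405893) (nat_lit 168) (nat_lit 1821289437) (nat_lit 84) (nat_lit 30151741236) (nat_lit 8) (nat_lit 5) (nat_lit 10) (nat_lit 5) (nat_lit 9) (nat_lit 4) (nat_lit 428) (nat_lit 290) (nat_lit 227)) (XT.lf (nat_lit 0) (nat_lit 4305822503) (nat_lit 84) (nat_lit 6714275481) (nat_lit 168) (nat_lit 29999854784) (nat_lit 7) (nat_lit 5) (nat_lit 8) (nat_lit 5) (nat_lit 9) (nat_lit 4) (nat_lit 429) (nat_lit 290) (nat_lit 226)))) (XT.nd (nat_lit 188) (nat_lit 0) (nat_lit 0) (XT.nd (nat_lit 94) (nat_lit 0) (nat_lit 0) (XT.lf (nat_lit 0) (nat_lit 10611669467) (nat_lit 84) (nat_lit 3560786535) (nat_lit 168) (nat_lit 27972960619) (nat_lit 7) (nat_lit 5) (nat_lit 8) (nat_lit 5) (nat_lit 9) (nat_lit 4) (nat_lit 430) (nat_lit 290) (nat_lit 225)) (XT.lf (nat_lit 0) (nat_lit 17065514185) (nat_lit 84) (nat_lit 330864468) (nat_lit 168) (nat_lit 25908968558)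 (nat_lit 7) (nat_lit 5) (nat_lit 8) (nat_lit 5) (nat_lit 9) (nat_lit 4) (nat_lit 431) (nat_lit 290) (nat_lit 224))) (XT.nd (nat_lit 94) (nat_lit 0) (nat_lit 0) (XT.lf (nat_lit 0) (nat_lit 20723312324) (nat_lit 168) (nat_lit 20856391497) (nat_lit 0) (nat_lit 2920195368) (nat_lit 7) (nat_lit 5) (nat_lit 9) (nat_lit 4) (nat_lit 7) (nat_lit 4) (nat_lit 432) (nat_lit 290) (nat_lit 223)) (XT.lf (nat_lit 0) (nat_lit 24131479780) (nat_lit 168) (nat_lit 15354034325) (nat_lit 0) (nat_lit 6245342762) (nat_lit 7) (nat_lit 5) (nat_lit 9) (nat_lit 4) (nat_lit 7) (nat_lit 4) (nat_lit 433) (nat_lit 290) (nat_lit 222))))) (XT.nd (nat_lit 282) (nat_lit 0) (nat_lit 0) (XT.nd (nat_lit 94) (nat_lit 84) (nat_lit 0) (XT.lf (nat_lit 0) (nat_lit 27620678560) (nat_lit 168) (nat_lit 9724773153) (nat_lit 0) (nat_lit 9653939540) (nat_lit 7) (nat_lit 5) (nat_lit 9) (nat_lit 4) (nat_lit 7) (nat_lit 4) (nat_lit 434)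 (nat_lit 290) (nat_lit 221)) (XT.nd (nat_lit 94) (nat_lit 84) (nat_lit 0) (XT.lf (nat_lit 0) (nat_lit 31193957479) (nat_lit 168) (nat_lit 3963689209) (nat_lit 0) (nat_lit 13148964087) (nat_lit 7) (nat_lit 5) (nat_lit 9) (nat_lit 4) (nat_lit 7) (nat_lit 4) (nat_lit 435) (nat_lit 290) (nat_lit 220)) (XT.lf (nat_lit 0) (nat_lit 1972746858) (nat_lit 84) (nat_lit 32900655208) (nat_lit 84) (nat_lit 14779686699) (nat_lit 6) (nat_lit 4) (nat_lit 7) (nat_lit 5) (nat_lit 7) (nat_lit 4) (nat_lit 436) (nat_lit 290) (nat_lit 219)))) (XT.nd (nat_lit 188) (nat_lit 0) (nat_lit 0) (XT.nd (nat_lit 94) (nat_lit 0) (nat_lit 0) (XT.lf (nat_lit 0) (nat_lit 8132904666) (nat_lit 84) (nat_lit 30550594845) (nat_lit 84) (nat_lit 12355864086) (nat_lit 6) (nat_lit 4) (nat_lit 7) (nat_lit 5) (nat_lit 7) (nat_lit 4) (nat_lit 437) (nat_lit 290) (nat_lit 218)) (XT.lf (nat_lit 0) (nat_lit 14443281688) (nat_lit 84) (nat_lit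 28145437636) (nat_lit 84) (nat_lit 9879093042) (nat_lit 6) (nat_lit 4) (nat_lit 7) (nat_lit 5) (nat_lit 7) (nat_lit 4) (nat_lit 438) (nat_lit 290) (nat_lit 217))) (XT.nd (nat_lit 94) (nat_lit 0) (nat_lit 0) (XT.lf (nat_lit 0) (nat_lit 20909391845) (nat_lit 84) (nat_lit 25683081988) (nat_lit 84) (nat_lit 7347209399) (nat_lit 6) (nat_lit 4) (nat_lit 7) (nat_lit 5) (nat_lit 7) (nat_lit 4) (nat_lit 439) (nat_lit 290) (nat_lit 216)) (XT.lf (nat_lit 0) (nat_lit 27536885136) (nat_lit 84) (nat_lit 23161376328) (nat_lit 84) (nat_lit 4758000832) (nat_lit 6) (nat_lit 4) (nat_lit 7) (nat_lit 5) (nat_lit 7) (nat_lit 4) (nat_lit 440) (nat_lit 290) (nat_lit 215)))))) (XT.nd (nat_lit 658) (nat_lit 0) (nat_lit 0) (XT.nd (nat_lit 282) (nat_lit 84) (nat_lit 0) (XT.nd (nat_lit 94) (nat_lit 84) (nat_lit 0) (XT.lf (nat_lit 0) (nat_lit 34331552576) (nat_lit 84) (nat_lit 20578117224) (nat_lit 84) (nat_lit 2109204924)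 (nat_lit 6) (nat_lit 4) (nat_lit 7) (nat_lit 5) (nat_lit 7) (nat_lit 4) (nat_lit 441) (nat_lit 290) (nat_lit 214)) (XT.nd (nat_lit 94) (nat_lit 0) (nat_lit 0) (XT.lf (nat_lit 0) (nat_lit 589755513) (nat_lit 168) (nat_lit 17335336572) (nat_lit 84) (nat_lit 40703620365) (nat_lit 5) (nat_lit 5) (nat_lit 7) (nat_lit 5) (nat_lit 6) (nat_lit 4) (nat_lit 442) (nat_lit 290) (nat_lit 213)) (XT.lf (nat_lit 0) (nat_lit 3310574012) (nat_lit 168) (nat_lit 11873849743) (nat_lit 84) (nat_lit 45102305197) (nat_lit 5) (nat_lit 5) (nat_lit 7) (nat_lit 5) (nat_lit 6) (nat_lit 4) (nat_lit 443) (nat_lit 290) (nat_lit 212)))) (XT.nd (nat_lit 188) (nat_lit 84) (nat_lit 0) (XT.nd (nat_lit 94) (nat_lit 0) (nat_lit 0) (XT.lf (nat_lit 0) (nat_lit 6096786170) (nat_lit 168) (nat_lit 6277814520) (nat_lit 84) (nat_lit 49620380541) (nat_lit 5) (nat_lit 5) (nat_lit 7) (nat_lit 5) (nat_lit 6) (nat_lit 4) (nat_lit 444)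 (nat_lit 290) (nat_lit 211)) (XT.lf (nat_lit 0) (nat_lit 8950826543) (nat_lit 168) (nat_lit 542341164) (nat_lit 84) (nat_lit 54261794229) (nat_lit 5) (nat_lit 5) (nat_lit 7) (nat_lit 5) (nat_lit 6) (nat_lit 4) (nat_lit 445) (nat_lit 290) (nat_lit 210))) (XT.nd (nat_lit 94) (nat_lit 0) (nat_lit 0) (XT.lf (nat_lit 0) (nat_lit 5443810248) (nat_lit 84) (nat_lit 6483707938) (nat_lit 168) (nat_lit 53639120851) (nat_lit 4) (nat_lit 5) (nat_lit 5) (nat_lit 5) (nat_lit 6) (nat_lit 4) (nat_lit 446) (nat_lit 290) (nat_lit 209)) (XT.lf (nat_lit 0) (nat_lit 11593319907) (nat_lit 84) (nat_lit 3390550841) (nat_lit 168) (nat_lit 52449092544) (nat_lit 4) (nat_lit 5) (nat_lit 5) (nat_lit 5) (nat_lit 6) (nat_lit 4) (nat_lit 447) (nat_lit 290) (nat_lit 208))))) (XT.nd (nat_lit 282) (nat_lit 0) (nat_lit 0) (XT.nd (nat_lit 94) (nat_lit 0) (nat_lit 0) (XT.lf (nat_lit 0) (nat_lit 17900767517) (nat_lit 84) (nat_lit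 216470240) (nat_lit 168) (nat_lit 51238487226) (nat_lit 4) (nat_lit 5) (nat_lit 5) (nat_lit 5) (nat_lit 6) (nat_lit 4) (nat_lit 448) (nat_lit 290) (nat_lit 207)) (XT.nd (nat_lit 94) (nat_lit 0) (nat_lit 0) (XT.lf (nat_lit 0) (nat_lit 21359592014) (nat_lit 168) (nat_lit 46994174659) (nat_lit 0) (nat_lit 2981960472) (nat_lit 4) (nat_lit 5) (nat_lit 6) (nat_lit 4) (nat_lit 4) (nat_lit 4) (nat_lit 449) (nat_lit 290) (nat_lit 206)) (XT.lf (nat_lit 0) (nat_lit 24687418947) (nat_lit 168) (nat_lit 42427049496) (nat_lit 0) (nat_lit 6261021867) (nat_lit 4) (nat_lit 5) (nat_lit 6) (nat_lit 4) (nat_lit 4) (nat_lit 4) (nat_lit 450) (nat_lit 290) (nat_lit 205)))) (XT.nd (nat_lit 188) (nat_lit 0) (nat_lit 0) (XT.nd (nat_lit 94) (nat_lit 0) (nat_lit 0) (XT.lf (nat_lit 0) (nat_lit 28101545520) (nat_lit 168) (nat_lit 37747510439) (nat_lit 0) (nat_lit 9627803259) (nat_lit 4) (nat_lit 5) (nat_lit 6) (nat_lit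 4) (nat_lit 4) (nat_lit 4) (nat_lit 451) (nat_lit 290) (nat_lit 204)) (XT.lf (nat_lit 0) (nat_lit 31604954951) (nat_lit 168) (nat_lit 32951468571) (nat_lit 0) (nat_lit 13085246495) (nat_lit 4) (nat_lit 5) (nat_lit 6) (nat_lit 4) (nat_lit 4) (nat_lit 4) (nat_lit 452) (nat_lit 290) (nat_lit 203))) (XT.nd (nat_lit 94) (nat_lit 0) (nat_lit 0) (XT.lf (nat_lit 0) (nat_lit 35200708472) (nat_lit 168) (nat_lit 28034733177) (nat_lit 0) (nat_lit 16636372642) (nat_lit 4) (nat_lit 5) (nat_lit 6) (nat_lit 4) (nat_lit 4) (nat_lit 4) (nat_lit 453) (nat_lit 290) (nat_lit 202)) (XT.lf (nat_lit 0) (nat_lit 38891948004) (nat_lit 168) (nat_lit 22993008079) (nat_lit 0) (nat_lit 20284284625) (nat_lit 4) (nat_lit 5) (nat_lit 6) (nat_lit 4) (nat_lit 4) (nat_lit 4) (nat_lit 454) (nat_lit 290) (nat_lit 201))))))))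
noncomputable def xc36 : XT := (XT.nd (nat_lit 52734) (nat_lit 0) (nat_lit 840) (XT.nd (nat_lit 51418) (nat_lit 0) (nat_lit 2688) (XT.nd (nat_lit 50760) (nat_lit 0) (nat_lit 4620) (XT.nd (nat_lit 282) (nat_lit 84) (nat_lit 0) (XT.nd (nat_lit 94) (nat_lit 0) (nat_lit 0) (XT.lf (nat_lit 0) (nat_lit 42681898900) (nat_lit 168) (nat_lit 17821887887) (nat_lit 0) (nat_lit 24032169942) (nat_lit 4) (nat_lit 5) (nat_lit 6) (nat_lit 4) (nat_lit 4) (nat_lit 4) (nat_lit 455) (nat_lit 290) (nat_lit 200)) (XT.nd (nat_lit 94) (nat_lit 0) (nat_lit 0) (XT.lf (nat_lit 0) (nat_lit 46573872770) (nat_lit 168) (nat_lit 12516854147) (nat_lit 0) (nat_lit 27883303442) (nat_lit 4) (nat_lit 5) (nat_lit 6) (nat_lit 4) (nat_lit 4) (nat_lit 4) (nat_lit 456) (nat_lit 290) (nat_lit 199)) (XT.lf (nat_lit 0) (nat_lit 50571270366) (nat_lit 168) (nat_lit 7073271391) (nat_lit 0) (nat_lit 31841050194) (nat_lit 4) (nat_lit 5)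 (nat_lit 6) (nat_lit 4) (nat_lit 4) (nat_lit 4) (nat_lit 457) (nat_lit 290) (nat_lit 198)))) (XT.nd (nat_lit 94) (nat_lit 84) (nat_lit 0) (XT.lf (nat_lit 0) (nat_lit 54677584561) (nat_lit 168) (nat_lit 1486383091) (nat_lit 0) (nat_lit 35908868424) (nat_lit 4) (nat_lit 5) (nat_lit 6) (nat_lit 4) (nat_lit 4) (nat_lit 4) (nat_lit 458) (nat_lit 290) (nat_lit 197)) (XT.nd (nat_lit 50290) (nat_lit 0) (nat_lit 6048) (XT.lf (nat_lit 0) (nat_lit 4333249810) (nat_lit 84) (nat_lit 54604807433) (nat_lit 84) (nat_lit 35798716572) (nat_lit 3) (nat_lit 4) (nat_lit 4) (nat_lit 5) (nat_lit 4) (nat_lit 4) (nat_lit 459) (nat_lit 290) (nat_lit 196)) (XT.lf (nat_lit 0) (nat_lit 268013519) (nat_lit 336) (nat_lit 2222470988) (nat_lit 336) (nat_lit 2222470988) (nat_lit 75) (nat_lit 4) (nat_lit 79) (nat_lit 5) (nat_lit 79) (nat_lit 4) (nat_lit 363) (nat_lit 291) (nat_lit 291))))) (XT.nd (nat_lit 282) (nat_lit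 1008) (nat_lit 0) (XT.nd (nat_lit 94) (nat_lit 420) (nat_lit 0) (XT.lf (nat_lit 0) (nat_lit 6781937748) (nat_lit 336) (nat_lit 1848491096) (nat_lit 336) (nat_lit 938581480) (nat_lit 75) (nat_lit 4) (nat_lit 79) (nat_lit 5) (nat_lit 79) (nat_lit 4) (nat_lit 364) (nat_lit 291) (nat_lit 290)) (XT.nd (nat_lit 94) (nat_lit 0) (nat_lit 0) (XT.lf (nat_lit 0) (nat_lit 2575128695) (nat_lit 420) (nat_lit 6307952428) (nat_lit 0) (nat_lit 834044218) (nat_lit 70) (nat_lit 5) (nat_lit 75) (nat_lit 4) (nat_lit 70) (nat_lit 4) (nat_lit 365) (nat_lit 291) (nat_lit 289)) (XT.lf (nat_lit 0) (nat_lit 6136418590) (nat_lit 420) (nat_lit 171637022) (nat_lit 0) (nat_lit 3562637917) (nat_lit 70) (nat_lit 5) (nat_lit 75) (nat_lit 4) (nat_lit 70) (nat_lit 4) (nat_lit 366) (nat_lit 291) (nat_lit 288)))) (XT.nd (nat_lit 188) (nat_lit 336) (nat_lit 0) (XT.nd (nat_lit 94) (nat_lit 336) (nat_lit 0) (XT.lf (nat_lit 0)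 (nat_lit 6148987690) (nat_lit 336) (nat_lit 3631471652) (nat_lit 336) (nat_lit 249248069) (nat_lit 66) (nat_lit 4) (nat_lit 70) (nat_lit 5) (nat_lit 70) (nat_lit 4) (nat_lit 367) (nat_lit 291) (nat_lit 287)) (XT.lf (nat_lit 0) (nat_lit 2362940082) (nat_lit 252) (nat_lit 853838091) (nat_lit 336) (nat_lit 6977610698) (nat_lit 62) (nat_lit 5) (nat_lit 65) (nat_lit 5) (nat_lit 66) (nat_lit 4) (nat_lit 368) (nat_lit 291) (nat_lit 286))) (XT.nd (nat_lit 94) (nat_lit 336) (nat_lit 0) (XT.lf (nat_lit 0) (nat_lit 6758716561) (nat_lit 336) (nat_lit 1632888536) (nat_lit 0) (nat_lit 1973129581) (nat_lit 62) (nat_lit 5) (nat_lit 66) (nat_lit 4) (nat_lit 62) (nat_lit 4) (nat_lit 369) (nat_lit 291) (nat_lit 285)) (XT.lf (nat_lit 0) (nat_lit 4717398493) (nat_lit 336) (nat_lit 5663772866) (nat_lit 336) (nat_lit 159894832) (nat_lit 58) (nat_lit 4) (nat_lit 62) (nat_lit 5) (nat_lit 62) (nat_lit 4) (nat_lit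 370) (nat_lit 291) (nat_lit 284)))))) (XT.nd (nat_lit 658) (nat_lit 672) (nat_lit 0) (XT.nd (nat_lit 282) (nat_lit 672) (nat_lit 0) (XT.nd (nat_lit 94) (nat_lit 252) (nat_lit 0) (XT.lf (nat_lit 0) (nat_lit 426705813) (nat_lit 252) (nat_lit 2838296059) (nat_lit 336) (nat_lit 7458559447) (nat_lit 54) (nat_lit 5) (nat_lit 57) (nat_lit 5) (nat_lit 58) (nat_lit 4) (nat_lit 371) (nat_lit 291) (nat_lit 283)) (XT.nd (nat_lit 94) (nat_lit 252) (nat_lit 0) (XT.lf (nat_lit 0) (nat_lit 6771097087) (nat_lit 336) (nat_lit 4047901184) (nat_lit 0) (nat_lit 93129905) (nat_lit 54) (nat_lit 5) (nat_lit 58) (nat_lit 4) (nat_lit 54) (nat_lit 4) (nat_lit 372) (nat_lit 291) (nat_lit 282)) (XT.lf (nat_lit 0) (nat_lit 2289318729) (nat_lit 252) (nat_lit 8067032545) (nat_lit 252) (nat_lit 750873065) (nat_lit 51) (nat_lit 4) (nat_lit 54) (nat_lit 5) (nat_lit 54) (nat_lit 4) (nat_lit 373) (nat_lit 291) (nat_lit 281))))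 (XT.nd (nat_lit 188) (nat_lit 336) (nat_lit 0) (XT.nd (nat_lit 94) (nat_lit 252) (nat_lit 0) (XT.lf (nat_lit 0) (nat_lit 2652937080) (nat_lit 336) (nat_lit 2550301379) (nat_lit 84) (nat_lit 6105267790) (nat_lit 50) (nat_lit 5) (nat_lit 54) (nat_lit 5) (nat_lit 51) (nat_lit 4) (nat_lit 374) (nat_lit 291) (nat_lit 280)) (XT.lf (nat_lit 0) (nat_lit 3860377197) (nat_lit 252) (nat_lit 2246863343) (nat_lit 336) (nat_lit 5409542731) (nat_lit 47) (nat_lit 5) (nat_lit 50) (nat_lit 5) (nat_lit 51) (nat_lit 4) (nat_lit 375) (nat_lit 291) (nat_lit 279))) (XT.nd (nat_lit 94) (nat_lit 336) (nat_lit 0) (XT.lf (nat_lit 0) (nat_lit 9625910512) (nat_lit 336) (nat_lit 1336433681) (nat_lit 0) (nat_lit 770223658) (nat_lit 47) (nat_lit 5) (nat_lit 51) (nat_lit 4) (nat_lit 47) (nat_lit 4) (nat_lit 376) (nat_lit 291) (nat_lit 278)) (XT.lf (nat_lit 0) (nat_lit 1270813984) (nat_lit 336) (nat_lit 6826444748) (nat_lit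 84) (nat_lit 3857247127) (nat_lit 43) (nat_lit 5) (nat_lit 47) (nat_lit 5) (nat_lit 44) (nat_lit 4) (nat_lit 377) (nat_lit 291) (nat_lit 277))))) (XT.nd (nat_lit 282) (nat_lit 504) (nat_lit 0) (XT.nd (nat_lit 94) (nat_lit 168) (nat_lit 0) (XT.lf (nat_lit 0) (nat_lit 4650324143) (nat_lit 336) (nat_lit 500515128) (nat_lit 84) (nat_lit 7033419768) (nat_lit 43) (nat_lit 5) (nat_lit 47) (nat_lit 5) (nat_lit 44) (nat_lit 4) (nat_lit 378) (nat_lit 291) (nat_lit 276)) (XT.nd (nat_lit 94) (nat_lit 0) (nat_lit 0) (XT.lf (nat_lit 0) (nat_lit 6025279221) (nat_lit 168) (nat_lit 2095342010) (nat_lit 252) (nat_lit 4300673829) (nat_lit 41) (nat_lit 5) (nat_lit 43) (nat_lit 5) (nat_lit 44) (nat_lit 4) (nat_lit 379) (nat_lit 291) (nat_lit 275)) (XT.lf (nat_lit 0) (nat_lit 11642323889) (nat_lit 252) (nat_lit 26500794) (nat_lit 0) (nat_lit 998268770) (nat_lit 41) (nat_lit 5) (nat_lit 44) (nat_lit 4) (nat_lit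 41) (nat_lit 4) (nat_lit 380) (nat_lit 291) (nat_lit 274)))) (XT.nd (nat_lit 188) (nat_lit 168) (nat_lit 0) (XT.nd (nat_lit 94) (nat_lit 0) (nat_lit 0) (XT.lf (nat_lit 0) (nat_lit 2321306856) (nat_lit 336) (nat_lit 6406677204) (nat_lit 84) (nat_lit 4191138163) (nat_lit 37) (nat_lit 5) (nat_lit 41) (nat_lit 5) (nat_lit 38) (nat_lit 4) (nat_lit 381) (nat_lit 291) (nat_lit 273)) (XT.lf (nat_lit 0) (nat_lit 5681711302) (nat_lit 336) (nat_lit 46099874) (nat_lit 84) (nat_lit 7452624250) (nat_lit 37) (nat_lit 5) (nat_lit 41) (nat_lit 5) (nat_lit 38) (nat_lit 4) (nat_lit 382) (nat_lit 291) (nat_lit 272))) (XT.nd (nat_lit 94) (nat_lit 0) (nat_lit 0) (XT.lf (nat_lit 0) (nat_lit 6530446125) (nat_lit 168) (nat_lit 2611443126) (nat_lit 252) (nat_lit 4307792296) (nat_lit 35) (nat_lit 5) (nat_lit 37) (nat_lit 5) (nat_lit 38) (nat_lit 4) (nat_lit 383) (nat_lit 291) (nat_lit 271)) (XT.lf (nat_lit 0) (nat_lit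 12648798178) (nat_lit 252) (nat_lit 530372693) (nat_lit 0) (nat_lit 549606958) (nat_lit 35) (nat_lit 5) (nat_lit 38) (nat_lit 4) (nat_lit 35) (nat_lit 4) (nat_lit 384) (nat_lit 291) (nat_lit 270))))))) (XT.nd (nat_lit 1316) (nat_lit 672) (nat_lit 0) (XT.nd (nat_lit 658) (nat_lit 336) (nat_lit 0) (XT.nd (nat_lit 282) (nat_lit 420) (nat_lit 0) (XT.nd (nat_lit 94) (nat_lit 168) (nat_lit 0) (XT.lf (nat_lit 0) (nat_lit 2223516180) (nat_lit 252) (nat_lit 7995084724) (nat_lit 84) (nat_lit 3796376342) (nat_lit 32) (nat_lit 5) (nat_lit 35) (nat_lit 5) (nat_lit 33) (nat_lit 4) (nat_lit 385) (nat_lit 291) (nat_lit 269)) (XT.nd (nat_lit 94) (nat_lit 168) (nat_lit 0) (XT.lf (nat_lit 0) (nat_lit 5548549163) (nat_lit 252) (nat_lit 1642968108) (nat_lit 84) (nat_lit 7119655833) (nat_lit 32) (nat_lit 5) (nat_lit 35) (nat_lit 5) (nat_lit 33) (nat_lit 4) (nat_lit 386) (nat_lit 291) (nat_lit 268)) (XT.lf (nat_lit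 0) (nat_lit 4898049768) (nat_lit 168) (nat_lit 4062881027) (nat_lit 252) (nat_lit 5655749909) (nat_lit 30) (nat_lit 5) (nat_lit 32) (nat_lit 5) (nat_lit 33) (nat_lit 4) (nat_lit 387) (nat_lit 291) (nat_lit 267)))) (XT.nd (nat_lit 188) (nat_lit 168) (nat_lit 0) (XT.nd (nat_lit 94) (nat_lit 252) (nat_lit 0) (XT.lf (nat_lit 0) (nat_lit 11572689929) (nat_lit 168) (nat_lit 860906322) (nat_lit 252) (nat_lit 2499072137) (nat_lit 30) (nat_lit 5) (nat_lit 32) (nat_lit 5) (nat_lit 33) (nat_lit 4) (nat_lit 388) (nat_lit 291) (nat_lit 266)) (XT.lf (nat_lit 0) (nat_lit 733754418) (nat_lit 252) (nat_lit 12133257765) (nat_lit 84) (nat_lit 2391071941) (nat_lit 27) (nat_lit 5) (nat_lit 30) (nat_lit 5) (nat_lit 28) (nat_lit 4) (nat_lit 389) (nat_lit 291) (nat_lit 265))) (XT.nd (nat_lit 94) (nat_lit 168) (nat_lit 0) (XT.lf (nat_lit 0) (nat_lit 3998963650) (nat_lit 252) (nat_lit 5847942831) (nat_lit 84) (nat_lit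 5746092545) (nat_lit 27) (nat_lit 5) (nat_lit 30) (nat_lit 5) (nat_lit 28) (nat_lit 4) (nat_lit 390) (nat_lit 291) (nat_lit 264)) (XT.lf (nat_lit 0) (nat_lit 544174711) (nat_lit 168) (nat_lit 6767688110) (nat_lit 252) (nat_lit 8627652949) (nat_lit 25) (nat_lit 5) (nat_lit 27) (nat_lit 5) (nat_lit 28) (nat_lit 4) (nat_lit 391) (nat_lit 291) (nat_lit 263))))) (XT.nd (nat_lit 282) (nat_lit 84) (nat_lit 0) (XT.nd (nat_lit 94) (nat_lit 252) (nat_lit 0) (XT.lf (nat_lit 0) (nat_lit 7156462872) (nat_lit 168) (nat_lit 3571978733) (nat_lit 252) (nat_lit 5567902685) (nat_lit 25) (nat_lit 5) (nat_lit 27) (nat_lit 5) (nat_lit 28) (nat_lit 4) (nat_lit 392) (nat_lit 291) (nat_lit 262)) (XT.nd (nat_lit 94) (nat_lit 252) (nat_lit 0) (XT.lf (nat_lit 0) (nat_lit 13878313848) (nat_lit 168) (nat_lit 316038741) (nat_lit 252) (nat_lit 2471163770) (nat_lit 25) (nat_lit 5) (nat_lit 27) (nat_lit 5) (nat_lit 28)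 (nat_lit 4) (nat_lit 393) (nat_lit 291) (nat_lit 261)) (XT.lf (nat_lit 0) (nat_lit 717473597) (nat_lit 252) (nat_lit 13340641320) (nat_lit 84) (nat_lit 2987092220) (nat_lit 22) (nat_lit 5) (nat_lit 25) (nat_lit 5) (nat_lit 23) (nat_lit 4) (nat_lit 394) (nat_lit 291) (nat_lit 260)))) (XT.nd (nat_lit 188) (nat_lit 84) (nat_lit 0) (XT.nd (nat_lit 94) (nat_lit 0) (nat_lit 0) (XT.lf (nat_lit 0) (nat_lit 3931838304) (nat_lit 252) (nat_lit 7102788152) (nat_lit 84) (nat_lit 6401576115) (nat_lit 22) (nat_lit 5) (nat_lit 25) (nat_lit 5) (nat_lit 23) (nat_lit 4) (nat_lit 395) (nat_lit 291) (nat_lit 259)) (XT.lf (nat_lit 0) (nat_lit 7192326302) (nat_lit 252) (nat_lit 762936534) (nat_lit 84) (nat_lit 9885213125) (nat_lit 22) (nat_lit 5) (nat_lit 25) (nat_lit 5) (nat_lit 23) (nat_lit 4) (nat_lit 396) (nat_lit 291) (nat_lit 258))) (XT.nd (nat_lit 94) (nat_lit 0) (nat_lit 0) (XT.lf (nat_lit 0) (nat_lit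 5797584976) (nat_lit 84) (nat_lit 4759931518) (nat_lit 168) (nat_lit 7699192163) (nat_lit 21) (nat_lit 5) (nat_lit 22) (nat_lit 5) (nat_lit 23) (nat_lit 4) (nat_lit 397) (nat_lit 291) (nat_lit 257)) (XT.lf (nat_lit 0) (nat_lit 12488714529) (nat_lit 84) (nat_lit 1494445478) (nat_lit 168) (nat_lit 4703520030) (nat_lit 21) (nat_lit 5) (nat_lit 22) (nat_lit 5) (nat_lit 23) (nat_lit 4) (nat_lit 398) (nat_lit 291) (nat_lit 256)))))) (XT.nd (nat_lit 658) (nat_lit 336) (nat_lit 0) (XT.nd (nat_lit 282) (nat_lit 84) (nat_lit 0) (XT.nd (nat_lit 94) (nat_lit 84) (nat_lit 0) (XT.lf (nat_lit 0) (nat_lit 155507046) (nat_lit 168) (nat_lit 17328410197) (nat_lit 168) (nat_lit 1646498546) (nat_lit 19) (nat_lit 4) (nat_lit 21) (nat_lit 5) (nat_lit 21) (nat_lit 4) (nat_lit 399) (nat_lit 291) (nat_lit 255)) (XT.nd (nat_lit 94) (nat_lit 0) (nat_lit 0) (XT.lf (nat_lit 0) (nat_lit 1503917516) (nat_lit 252) (nat_lit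 12869574340) (nat_lit 84) (nat_lit 5212642134) (nat_lit 18) (nat_lit 5) (nat_lit 21) (nat_lit 5) (nat_lit 19) (nat_lit 4) (nat_lit 400) (nat_lit 291) (nat_lit 254)) (XT.lf (nat_lit 0) (nat_lit 4670116621) (nat_lit 252) (nat_lit 6675797192) (nat_lit 84) (nat_lit 8710522504) (nat_lit 18) (nat_lit 5) (nat_lit 21) (nat_lit 5) (nat_lit 19) (nat_lit 4) (nat_lit 401) (nat_lit 291) (nat_lit 253)))) (XT.nd (nat_lit 188) (nat_lit 0) (nat_lit 0) (XT.nd (nat_lit 94) (nat_lit 84) (nat_lit 0) (XT.lf (nat_lit 0) (nat_lit 7886994467) (nat_lit 252) (nat_lit 372338112) (nat_lit 84) (nat_lit 12282875950) (nat_lit 18) (nat_lit 5) (nat_lit 21) (nat_lit 5) (nat_lit 19) (nat_lit 4) (nat_lit 402) (nat_lit 291) (nat_lit 252)) (XT.lf (nat_lit 0) (nat_lit 6166644216) (nat_lit 84) (nat_lit 5049995257) (nat_lit 168) (nat_lit 9825457288) (nat_lit 17) (nat_lit 5) (nat_lit 18) (nat_lit 5) (nat_lit 19) (nat_lit 4) (nat_lit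 403) (nat_lit 291) (nat_lit 251))) (XT.nd (nat_lit 94) (nat_lit 0) (nat_lit 0) (XT.lf (nat_lit 0) (nat_lit 12836239266) (nat_lit 84) (nat_lit 1771227095) (nat_lit 168) (nat_lit 6950706290) (nat_lit 17) (nat_lit 5) (nat_lit 18) (nat_lit 5) (nat_lit 19) (nat_lit 4) (nat_lit 404) (nat_lit 291) (nat_lit 250)) (XT.lf (nat_lit 0) (nat_lit 18073937827) (nat_lit 168) (nat_lit 2471282284) (nat_lit 0) (nat_lit 1545322028) (nat_lit 17) (nat_lit 5) (nat_lit 19) (nat_lit 4) (nat_lit 17) (nat_lit 4) (nat_lit 405) (nat_lit 291) (nat_lit 249))))) (XT.nd (nat_lit 282) (nat_lit 84) (nat_lit 0) (XT.nd (nat_lit 94) (nat_lit 84) (nat_lit 0) (XT.lf (nat_lit 0) (nat_lit 3956620823) (nat_lit 168) (nat_lit 17703045053) (nat_lit 168) (nat_lit 978787039) (nat_lit 15) (nat_lit 4) (nat_lit 17) (nat_lit 5) (nat_lit 17) (nat_lit 4) (nat_lit 406) (nat_lit 291) (nat_lit 248)) (XT.nd (nat_lit 94) (nat_lit 0) (nat_lit 0)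 (XT.lf (nat_lit 0) (nat_lit 2093189091) (nat_lit 252) (nat_lit 12665028054) (nat_lit 84) (nat_lit 8444440817) (nat_lit 14) (nat_lit 5) (nat_lit 17) (nat_lit 5) (nat_lit 15) (nat_lit 4) (nat_lit 407) (nat_lit 291) (nat_lit 247)) (XT.lf (nat_lit 0) (nat_lit 5198602937) (nat_lit 252) (nat_lit 6545449499) (nat_lit 84) (nat_lit 12040643158) (nat_lit 14) (nat_lit 5) (nat_lit 17) (nat_lit 5) (nat_lit 15) (nat_lit 4) (nat_lit 408) (nat_lit 291) (nat_lit 246)))) (XT.nd (nat_lit 188) (nat_lit 0) (nat_lit 0) (XT.nd (nat_lit 94) (nat_lit 84) (nat_lit 0) (XT.lf (nat_lit 0) (nat_lit 8359267626) (nat_lit 252) (nat_lit 308340521) (nat_lit 84) (nat_lit 15717748498) (nat_lit 14) (nat_lit 5) (nat_lit 17) (nat_lit 5) (nat_lit 15) (nat_lit 4) (nat_lit 409) (nat_lit 291) (nat_lit 245)) (XT.lf (nat_lit 0) (nat_lit 6172190445) (nat_lit 84) (nat_lit 5465085329) (nat_lit 168) (nat_lit 13366110266) (nat_lit 13)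 (nat_lit 5) (nat_lit 14) (nat_lit 5) (nat_lit 15) (nat_lit 4) (nat_lit 410) (nat_lit 291) (nat_lit 244))) (XT.nd (nat_lit 94) (nat_lit 0) (nat_lit 0) (XT.lf (nat_lit 0) (nat_lit 12789953828) (nat_lit 84) (nat_lit 2190438239) (nat_lit 168) (nat_lit 10660584725) (nat_lit 13) (nat_lit 5) (nat_lit 14) (nat_lit 5) (nat_lit 15) (nat_lit 4) (nat_lit 411) (nat_lit 291) (nat_lit 243)) (XT.lf (nat_lit 0) (nat_lit 18399627685) (nat_lit 168) (nat_lit 6765294109) (nat_lit 0) (nat_lit 1133521526) (nat_lit 13) (nat_lit 5) (nat_lit 15) (nat_lit 4) (nat_lit 13) (nat_lit 4) (nat_lit 412) (nat_lit 291) (nat_lit 242))))))))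
noncomputable def xc37 : XT := (XT.nd (nat_lit 2538) (nat_lit 168) (nat_lit 0) (XT.nd (nat_lit 1222) (nat_lit 252) (nat_lit 0) (XT.nd (nat_lit 564) (nat_lit 84) (nat_lit 0) (XT.nd (nat_lit 282) (nat_lit 84) (nat_lit 0) (XT.nd (nat_lit 94) (nat_lit 168) (nat_lit 0) (XT.lf (nat_lit 0) (nat_lit 21908622461) (nat_lit 168) (nat_lit 579343551) (nat_lit 0) (nat_lit 4488074531) (nat_lit 13) (nat_lit 5) (nat_lit 15) (nat_lit 4) (nat_lit 13) (nat_lit 4) (nat_lit 413) (nat_lit 291) (nat_lit 241)) (XT.nd (nat_lit 94) (nat_lit 84) (nat_lit 0) (XT.lf (nat_lit 0) (nat_lit 5847393446) (nat_lit 84) (nat_lit 19698201951) (nat_lit 84) (nat_lit 2127710553) (nat_lit 12) (nat_lit 4) (nat_lit 13) (nat_lit 5) (nat_lit 13) (nat_lit 4) (nat_lit 414) (nat_lit 291) (nat_lit 240)) (XT.lf (nat_lit 0) (nat_lit 855097126) (nat_lit 168) (nat_lit 15980220412) (nat_lit 84) (nat_lit 11556758225) (nat_lit 11) (nat_lit 5)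 (nat_lit 13) (nat_lit 5) (nat_lit 12) (nat_lit 4) (nat_lit 415) (nat_lit 291) (nat_lit 239)))) (XT.nd (nat_lit 94) (nat_lit 84) (nat_lit 0) (XT.lf (nat_lit 0) (nat_lit 3852164630) (nat_lit 168) (nat_lit 10037509477) (nat_lit 84) (nat_lit 15243096046) (nat_lit 11) (nat_lit 5) (nat_lit 13) (nat_lit 5) (nat_lit 12) (nat_lit 4) (nat_lit 416) (nat_lit 291) (nat_lit 238)) (XT.nd (nat_lit 94) (nat_lit 84) (nat_lit 0) (XT.lf (nat_lit 0) (nat_lit 6907630051) (nat_lit 168) (nat_lit 3972134186) (nat_lit 84) (nat_lit 19016885680) (nat_lit 11) (nat_lit 5) (nat_lit 13) (nat_lit 5) (nat_lit 12) (nat_lit 4) (nat_lit 417) (nat_lit 291) (nat_lit 237)) (XT.lf (nat_lit 0) (nat_lit 2265411645) (nat_lit 84) (nat_lit 7780528090) (nat_lit 168) (nat_lit 20637789489) (nat_lit 10) (nat_lit 5) (nat_lit 11) (nat_lit 5) (nat_lit 12) (nat_lit 4) (nat_lit 418) (nat_lit 291) (nat_lit 236))))) (XT.nd (nat_lit 282) (nat_lit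 84) (nat_lit 0) (XT.nd (nat_lit 94) (nat_lit 0) (nat_lit 0) (XT.lf (nat_lit 0) (nat_lit 8718041032) (nat_lit 84) (nat_lit 4570249412) (nat_lit 168) (nat_lit 18205851736) (nat_lit 10) (nat_lit 5) (nat_lit 11) (nat_lit 5) (nat_lit 12) (nat_lit 4) (nat_lit 419) (nat_lit 291) (nat_lit 235)) (XT.nd (nat_lit 94) (nat_lit 0) (nat_lit 0) (XT.lf (nat_lit 0) (nat_lit 15312338935) (nat_lit 84) (nat_lit 1286233871) (nat_lit 168) (nat_lit 15731192379) (nat_lit 10) (nat_lit 5) (nat_lit 11) (nat_lit 5) (nat_lit 12) (nat_lit 4) (nat_lit 420) (nat_lit 291) (nat_lit 234)) (XT.lf (nat_lit 0) (nat_lit 19999619590) (nat_lit 168) (nat_lit 11157201323) (nat_lit 0) (nat_lit 2033909276) (nat_lit 10) (nat_lit 5) (nat_lit 12) (nat_lit 4) (nat_lit 10) (nat_lit 4) (nat_lit 421) (nat_lit 291) (nat_lit 233)))) (XT.nd (nat_lit 188) (nat_lit 0) (nat_lit 0) (XT.nd (nat_lit 94) (nat_lit 84) (nat_lit 0) (XT.lf (nat_lit 0)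 (nat_lit 23487573553) (nat_lit 168) (nat_lit 5183476750) (nat_lit 0) (nat_lit 5406944057) (nat_lit 10) (nat_lit 5) (nat_lit 12) (nat_lit 4) (nat_lit 10) (nat_lit 4) (nat_lit 422) (nat_lit 291) (nat_lit 232)) (XT.lf (nat_lit 0) (nat_lit 939667593) (nat_lit 84) (nat_lit 26122483422) (nat_lit 84) (nat_lit 7930281905) (nat_lit 9) (nat_lit 4) (nat_lit 10) (nat_lit 5) (nat_lit 10) (nat_lit 4) (nat_lit 423) (nat_lit 291) (nat_lit 231))) (XT.nd (nat_lit 94) (nat_lit 0) (nat_lit 0) (XT.lf (nat_lit 0) (nat_lit 7305106039) (nat_lit 84) (nat_lit 23464484633) (nat_lit 84) (nat_lit 5163960766) (nat_lit 9) (nat_lit 4) (nat_lit 10) (nat_lit 5) (nat_lit 10) (nat_lit 4) (nat_lit 424) (nat_lit 291) (nat_lit 230)) (XT.lf (nat_lit 0) (nat_lit 13815239268) (nat_lit 84) (nat_lit 20747074364) (nat_lit 84) (nat_lit 2341383165) (nat_lit 9) (nat_lit 4) (nat_lit 10) (nat_lit 5) (nat_lit 10) (nat_lit 4) (nat_lit 425)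 (nat_lit 291) (nat_lit 229)))))) (XT.nd (nat_lit 658) (nat_lit 84) (nat_lit 0) (XT.nd (nat_lit 282) (nat_lit 84) (nat_lit 0) (XT.nd (nat_lit 94) (nat_lit 0) (nat_lit 0) (XT.lf (nat_lit 0) (nat_lit 529381494) (nat_lit 168) (nat_lit 17433150969) (nat_lit 84) (nat_lit 19941028538) (nat_lit 8) (nat_lit 5) (nat_lit 10) (nat_lit 5) (nat_lit 9) (nat_lit 4) (nat_lit 426) (nat_lit 291) (nat_lit 228)) (XT.nd (nat_lit 94) (nat_lit 0) (nat_lit 0) (XT.lf (nat_lit 0) (nat_lit 3414502746) (nat_lit 168) (nat_lit 11675485124) (nat_lit 84) (nat_lit 23843492817) (nat_lit 8) (nat_lit 5) (nat_lit 10) (nat_lit 5) (nat_lit 9) (nat_lit 4) (nat_lit 427) (nat_lit 291) (nat_lit 227)) (XT.lf (nat_lit 0) (nat_lit 6362190387) (nat_lit 168) (nat_lit 5787922218) (nat_lit 84) (nat_lit 27844918384) (nat_lit 8) (nat_lit 5) (nat_lit 10) (nat_lit 5) (nat_lit 9) (nat_lit 4) (nat_lit 428) (nat_lit 291) (nat_lit 226)))) (XT.nd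 (nat_lit 188) (nat_lit 0) (nat_lit 0) (XT.nd (nat_lit 94) (nat_lit 0) (nat_lit 0) (XT.lf (nat_lit 0) (nat_lit 239352856) (nat_lit 84) (nat_lit 9137968016) (nat_lit 168) (nat_lit 31711749581) (nat_lit 7) (nat_lit 5) (nat_lit 8) (nat_lit 5) (nat_lit 9) (nat_lit 4) (nat_lit 429) (nat_lit 291) (nat_lit 225)) (XT.lf (nat_lit 0) (nat_lit 6524915261) (nat_lit 84) (nat_lit 5993430571) (nat_lit 168) (nat_lit 29696534691) (nat_lit 7) (nat_lit 5) (nat_lit 8) (nat_lit 5) (nat_lit 9) (nat_lit 4) (nat_lit 430) (nat_lit 291) (nat_lit 224))) (XT.nd (nat_lit 94) (nat_lit 0) (nat_lit 0) (XT.lf (nat_lit 0) (nat_lit 12959066233) (nat_lit 84) (nat_lit 2772199282) (nat_lit 168) (nat_lit 27643881732) (nat_lit 7) (nat_lit 5) (nat_lit 8) (nat_lit 5) (nat_lit 9) (nat_lit 4) (nat_lit 431) (nat_lit 291) (nat_lit 223)) (XT.lf (nat_lit 0) (nat_lit 19023967981) (nat_lit 168) (nat_lit 25028537259) (nat_lit 0) (nat_lit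 518226790) (nat_lit 7) (nat_lit 5) (nat_lit 9) (nat_lit 4) (nat_lit 7) (nat_lit 4) (nat_lit 432) (nat_lit 291) (nat_lit 222))))) (XT.nd (nat_lit 282) (nat_lit 84) (nat_lit 0) (XT.nd (nat_lit 94) (nat_lit 0) (nat_lit 0) (XT.lf (nat_lit 0) (nat_lit 22421685339) (nat_lit 168) (nat_lit 19544981425) (nat_lit 0) (nat_lit 3835342145) (nat_lit 7) (nat_lit 5) (nat_lit 9) (nat_lit 4) (nat_lit 7) (nat_lit 4) (nat_lit 433) (nat_lit 291) (nat_lit 221)) (XT.nd (nat_lit 94) (nat_lit 0) (nat_lit 0) (XT.lf (nat_lit 0) (nat_lit 25900738392) (nat_lit 168) (nat_lit 13933973979) (nat_lit 0) (nat_lit 7236140828) (nat_lit 7) (nat_lit 5) (nat_lit 9) (nat_lit 4) (nat_lit 7) (nat_lit 4) (nat_lit 434) (nat_lit 291) (nat_lit 220)) (XT.lf (nat_lit 0) (nat_lit 29464167090) (nat_lit 168) (nat_lit 8190612099) (nat_lit 0) (nat_lit 10723594409) (nat_lit 7) (nat_lit 5) (nat_lit 9) (nat_lit 4) (nat_lit 7) (nat_lit 4) (nat_lit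 435) (nat_lit 291) (nat_lit 219)))) (XT.nd (nat_lit 188) (nat_lit 0) (nat_lit 0) (XT.nd (nat_lit 94) (nat_lit 84) (nat_lit 0) (XT.lf (nat_lit 0) (nat_lit 33115085109) (nat_lit 168) (nat_lit 2309877314) (nat_lit 0) (nat_lit 14300750177) (nat_lit 7) (nat_lit 5) (nat_lit 9) (nat_lit 4) (nat_lit 7) (nat_lit 4) (nat_lit 436) (nat_lit 291) (nat_lit 218)) (XT.lf (nat_lit 0) (nat_lit 3787272202) (nat_lit 84) (nat_lit 33105815945) (nat_lit 84) (nat_lit 14219867178) (nat_lit 6) (nat_lit 4) (nat_lit 7) (nat_lit 5) (nat_lit 7) (nat_lit 4) (nat_lit 437) (nat_lit 291) (nat_lit 217))) (XT.nd (nat_lit 94) (nat_lit 0) (nat_lit 0) (XT.lf (nat_lit 0) (nat_lit 10081108251) (nat_lit 84) (nat_lit 30708026360) (nat_lit 84) (nat_lit 11752549599) (nat_lit 6) (nat_lit 4) (nat_lit 7) (nat_lit 5) (nat_lit 7) (nat_lit 4) (nat_lit 438) (nat_lit 291) (nat_lit 216)) (XT.lf (nat_lit 0) (nat_lit 16531159211) (nat_lit 84)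 (nat_lit 28252823745) (nat_lit 84) (nat_lit 9229844076) (nat_lit 6) (nat_lit 4) (nat_lit 7) (nat_lit 5) (nat_lit 7) (nat_lit 4) (nat_lit 439) (nat_lit 291) (nat_lit 215))))))) (XT.nd (nat_lit 1316) (nat_lit 0) (nat_lit 0) (XT.nd (nat_lit 658) (nat_lit 0) (nat_lit 0) (XT.nd (nat_lit 282) (nat_lit 168) (nat_lit 0) (XT.nd (nat_lit 94) (nat_lit 0) (nat_lit 0) (XT.lf (nat_lit 0) (nat_lit 23143061049) (nat_lit 84) (nat_lit 25738062778) (nat_lit 84) (nat_lit 6649546305) (nat_lit 6) (nat_lit 4) (nat_lit 7) (nat_lit 5) (nat_lit 7) (nat_lit 4) (nat_lit 440) (nat_lit 291) (nat_lit 214)) (XT.nd (nat_lit 94) (nat_lit 0) (nat_lit 0) (XT.lf (nat_lit 0) (nat_lit 29922591156) (nat_lit 84) (nat_lit 23161546094) (nat_lit 84) (nat_lit 4009401657) (nat_lit 6) (nat_lit 4) (nat_lit 7) (nat_lit 5) (nat_lit 7) (nat_lit 4) (nat_lit 441) (nat_lit 291) (nat_lit 213)) (XT.lf (nat_lit 0) (nat_lit 36875673392) (nat_lit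 84) (nat_lit 20521022369) (nat_lit 84) (nat_lit 1307103208) (nat_lit 6) (nat_lit 4) (nat_lit 7) (nat_lit 5) (nat_lit 7) (nat_lit 4) (nat_lit 442) (nat_lit 291) (nat_lit 212)))) (XT.nd (nat_lit 188) (nat_lit 84) (nat_lit 0) (XT.nd (nat_lit 94) (nat_lit 0) (nat_lit 0) (XT.lf (nat_lit 0) (nat_lit 1431226066) (nat_lit 168) (nat_lit 16368505703) (nat_lit 84) (nat_lit 42562704622) (nat_lit 5) (nat_lit 5) (nat_lit 7) (nat_lit 5) (nat_lit 6) (nat_lit 4) (nat_lit 443) (nat_lit 291) (nat_lit 211)) (XT.lf (nat_lit 0) (nat_lit 4209675589) (nat_lit 168) (nat_lit 10786481773) (nat_lit 84) (nat_lit 47074768184) (nat_lit 5) (nat_lit 5) (nat_lit 7) (nat_lit 5) (nat_lit 6) (nat_lit 4) (nat_lit 444) (nat_lit 291) (nat_lit 210))) (XT.nd (nat_lit 94) (nat_lit 84) (nat_lit 0) (XT.lf (nat_lit 0) (nat_lit 7056179423) (nat_lit 168) (nat_lit 5064611614) (nat_lit 84) (nat_lit 51710345191) (nat_lit 5) (nat_lit 5)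 (nat_lit 7) (nat_lit 5) (nat_lit 6) (nat_lit 4) (nat_lit 445) (nat_lit 291) (nat_lit 209)) (XT.lf (nat_lit 0) (nat_lit 818067917) (nat_lit 84) (nat_lit 9163020654) (nat_lit 168) (nat_lit 55663281998) (nat_lit 4) (nat_lit 5) (nat_lit 5) (nat_lit 5) (nat_lit 6) (nat_lit 4) (nat_lit 446) (nat_lit 291) (nat_lit 208))))) (XT.nd (nat_lit 282) (nat_lit 0) (nat_lit 0) (XT.nd (nat_lit 94) (nat_lit 0) (nat_lit 0) (XT.lf (nat_lit 0) (nat_lit 6954500070) (nat_lit 84) (nat_lit 6075711443) (nat_lit 168) (nat_lit 54480703858) (nat_lit 4) (nat_lit 5) (nat_lit 5) (nat_lit 5) (nat_lit 6) (nat_lit 4) (nat_lit 447) (nat_lit 291) (nat_lit 207)) (XT.nd (nat_lit 94) (nat_lit 0) (nat_lit 0) (XT.lf (nat_lit 0) (nat_lit 13249251071) (nat_lit 84) (nat_lit 2907308402) (nat_lit 168) (nat_lit 53277331711) (nat_lit 4) (nat_lit 5) (nat_lit 5) (nat_lit 5) (nat_lit 6) (nat_lit 4) (nat_lit 448) (nat_lit 291) (nat_lit 206))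 (XT.lf (nat_lit 0) (nat_lit 19366180151) (nat_lit 168) (nat_lit 51710473027) (nat_lit 0) (nat_lit 338225623) (nat_lit 4) (nat_lit 5) (nat_lit 6) (nat_lit 4) (nat_lit 4) (nat_lit 4) (nat_lit 449) (nat_lit 291) (nat_lit 205)))) (XT.nd (nat_lit 188) (nat_lit 0) (nat_lit 0) (XT.nd (nat_lit 94) (nat_lit 0) (nat_lit 0) (XT.lf (nat_lit 0) (nat_lit 22687339514) (nat_lit 168) (nat_lit 47155466022) (nat_lit 0) (nat_lit 3612039804) (nat_lit 4) (nat_lit 5) (nat_lit 6) (nat_lit 4) (nat_lit 4) (nat_lit 4) (nat_lit 450) (nat_lit 291) (nat_lit 204)) (XT.lf (nat_lit 0) (nat_lit 26094992718) (nat_lit 168) (nat_lit 42487692168) (nat_lit 0) (nat_lit 6973726813) (nat_lit 4) (nat_lit 5) (nat_lit 6) (nat_lit 4) (nat_lit 4) (nat_lit 4) (nat_lit 451) (nat_lit 291) (nat_lit 203))) (XT.nd (nat_lit 94) (nat_lit 0) (nat_lit 0) (XT.lf (nat_lit 0) (nat_lit 29592117325) (nat_lit 168) (nat_lit 37703072827) (nat_lit 0)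 (nat_lit 10426224045) (nat_lit 4) (nat_lit 5) (nat_lit 6) (nat_lit 4) (nat_lit 4) (nat_lit 4) (nat_lit 452) (nat_lit 291) (nat_lit 202)) (XT.lf (nat_lit 0) (nat_lit 33181769075) (nat_lit 168) (nat_lit 32797427265) (nat_lit 0) (nat_lit 13972548248) (nat_lit 4) (nat_lit 5) (nat_lit 6) (nat_lit 4) (nat_lit 4) (nat_lit 4) (nat_lit 453) (nat_lit 291) (nat_lit 201)))))) (XT.nd (nat_lit 50760) (nat_lit 0) (nat_lit 4872) (XT.nd (nat_lit 282) (nat_lit 0) (nat_lit 0) (XT.nd (nat_lit 94) (nat_lit 0) (nat_lit 0) (XT.lf (nat_lit 0) (nat_lit 36867084557) (nat_lit 168) (nat_lit 27766468994) (nat_lit 0) (nat_lit 17615798149) (nat_lit 4) (nat_lit 5) (nat_lit 6) (nat_lit 4) (nat_lit 4) (nat_lit 4) (nat_lit 454) (nat_lit 291) (nat_lit 200)) (XT.nd (nat_lit 94) (nat_lit 0) (nat_lit 0) (XT.lf (nat_lit 0) (nat_lit 40651283949) (nat_lit 168) (nat_lit 22605802032) (nat_lit 0) (nat_lit 21359157172) (nat_lit 4)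 (nat_lit 5) (nat_lit 6) (nat_lit 4) (nat_lit 4) (nat_lit 4) (nat_lit 455) (nat_lit 291) (nat_lit 199)) (XT.lf (nat_lit 0) (nat_lit 44537673834) (nat_lit 168) (nat_lit 17310917058) (nat_lit 0) (nat_lit 25205896212) (nat_lit 4) (nat_lit 5) (nat_lit 6) (nat_lit 4) (nat_lit 4) (nat_lit 4) (nat_lit 456) (nat_lit 291) (nat_lit 198)))) (XT.nd (nat_lit 50290) (nat_lit 0) (nat_lit 6300) (XT.nd (nat_lit 94) (nat_lit 0) (nat_lit 0) (XT.lf (nat_lit 0) (nat_lit 48529650085) (nat_lit 168) (nat_lit 11877187474) (nat_lit 0) (nat_lit 29159376499) (nat_lit 4) (nat_lit 5) (nat_lit 6) (nat_lit 4) (nat_lit 4) (nat_lit 4) (nat_lit 457) (nat_lit 291) (nat_lit 197)) (XT.lf (nat_lit 0) (nat_lit 52630700839) (nat_lit 168) (nat_lit 6299865361) (nat_lit 0) (nat_lit 33223052529) (nat_lit 4) (nat_lit 5) (nat_lit 6) (nat_lit 4) (nat_lit 4) (nat_lit 4) (nat_lit 458) (nat_lit 291) (nat_lit 196))) (XT.nd (nat_lit 94) (nat_lit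 420) (nat_lit 0) (XT.lf (nat_lit 0) (nat_lit 3423611054) (nat_lit 420) (nat_lit 576708207) (nat_lit 420) (nat_lit 576708207) (nat_lit 84) (nat_lit 4) (nat_lit 89) (nat_lit 5) (nat_lit 89) (nat_lit 4) (nat_lit 361) (nat_lit 292) (nat_lit 292)) (XT.lf (nat_lit 0) (nat_lit 2343568724) (nat_lit 420) (nat_lit 5538119102) (nat_lit 0) (nat_lit 1406361818) (nat_lit 79) (nat_lit 5) (nat_lit 84) (nat_lit 4) (nat_lit 79) (nat_lit 4) (nat_lit 362) (nat_lit 292) (nat_lit 291))))) (XT.nd (nat_lit 282) (nat_lit 672) (nat_lit 0) (XT.nd (nat_lit 94) (nat_lit 420) (nat_lit 0) (XT.lf (nat_lit 0) (nat_lit 474950275) (nat_lit 336) (nat_lit 5399723316) (nat_lit 336) (nat_lit 3552606794) (nat_lit 75) (nat_lit 4) (nat_lit 79) (nat_lit 5) (nat_lit 79) (nat_lit 4) (nat_lit 363) (nat_lit 292) (nat_lit 290)) (XT.nd (nat_lit 94) (nat_lit 420) (nat_lit 0) (XT.lf (nat_lit 0) (nat_lit 6661563155) (nat_lit 336) (nat_lit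 2820334992) (nat_lit 336) (nat_lit 89811076) (nat_lit 75) (nat_lit 4) (nat_lit 79) (nat_lit 5) (nat_lit 79) (nat_lit 4) (nat_lit 364) (nat_lit 292) (nat_lit 289)) (XT.lf (nat_lit 0) (nat_lit 3224132667) (nat_lit 336) (nat_lit 131696724) (nat_lit 420) (nat_lit 6365354161) (nat_lit 70) (nat_lit 5) (nat_lit 74) (nat_lit 5) (nat_lit 75) (nat_lit 4) (nat_lit 365) (nat_lit 292) (nat_lit 288)))) (XT.nd (nat_lit 188) (nat_lit 252) (nat_lit 0) (XT.nd (nat_lit 94) (nat_lit 420) (nat_lit 0) (XT.lf (nat_lit 0) (nat_lit 6874870248) (nat_lit 420) (nat_lit 418469063) (nat_lit 0) (nat_lit 2582737049) (nat_lit 70) (nat_lit 5) (nat_lit 75) (nat_lit 4) (nat_lit 70) (nat_lit 4) (nat_lit 366) (nat_lit 292) (nat_lit 287)) (XT.lf (nat_lit 0) (nat_lit 431130886) (nat_lit 420) (nat_lit 4201833527) (nat_lit 84) (nat_lit 5403337637) (nat_lit 65) (nat_lit 5) (nat_lit 70) (nat_lit 5) (nat_lit 66) (nat_lit 4) (nat_lit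 367) (nat_lit 292) (nat_lit 286))) (XT.nd (nat_lit 94) (nat_lit 0) (nat_lit 0) (XT.lf (nat_lit 0) (nat_lit 1974286045) (nat_lit 252) (nat_lit 1874654964) (nat_lit 336) (nat_lit 6353323494) (nat_lit 62) (nat_lit 5) (nat_lit 65) (nat_lit 5) (nat_lit 66) (nat_lit 4) (nat_lit 368) (nat_lit 292) (nat_lit 285)) (XT.lf (nat_lit 0) (nat_lit 7341883379) (nat_lit 336) (nat_lit 2077649640) (nat_lit 0) (nat_lit 954597951) (nat_lit 62) (nat_lit 5) (nat_lit 66) (nat_lit 4) (nat_lit 62) (nat_lit 4) (nat_lit 369) (nat_lit 292) (nat_lit 284))))))))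
noncomputable def xc38 : XT := (XT.nd (nat_lit 2538) (nat_lit 1092) (nat_lit 0) (XT.nd (nat_lit 1222) (nat_lit 1260) (nat_lit 0) (XT.nd (nat_lit 564) (nat_lit 840) (nat_lit 0) (XT.nd (nat_lit 282) (nat_lit 588) (nat_lit 0) (XT.nd (nat_lit 94) (nat_lit 252) (nat_lit 0) (XT.lf (nat_lit 0) (nat_lit 362370926) (nat_lit 420) (nat_lit 6349042403) (nat_lit 84) (nat_lit 3840280519) (nat_lit 57) (nat_lit 5) (nat_lit 62) (nat_lit 5) (nat_lit 58) (nat_lit 4) (nat_lit 370) (nat_lit 292) (nat_lit 283)) (XT.nd (nat_lit 94) (nat_lit 252) (nat_lit 0) (XT.lf (nat_lit 0) (nat_lit 3742157413) (nat_lit 420) (nat_lit 165134043) (nat_lit 84) (nat_lit 6828157580) (nat_lit 57) (nat_lit 5) (nat_lit 62) (nat_lit 5) (nat_lit 58) (nat_lit 4) (nat_lit 371) (nat_lit 292) (nat_lit 282)) (XT.lf (nat_lit 0) (nat_lit 6213994414) (nat_lit 252) (nat_lit 994402666) (nat_lit 336) (nat_lit 3716859594) (nat_lit 54) (nat_lit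 5) (nat_lit 57) (nat_lit 5) (nat_lit 58) (nat_lit 4) (nat_lit 372) (nat_lit 292) (nat_lit 281)))) (XT.nd (nat_lit 94) (nat_lit 336) (nat_lit 0) (XT.lf (nat_lit 0) (nat_lit 1566032141) (nat_lit 252) (nat_lit 9174696455) (nat_lit 252) (nat_lit 381255720) (nat_lit 51) (nat_lit 4) (nat_lit 54) (nat_lit 5) (nat_lit 54) (nat_lit 4) (nat_lit 373) (nat_lit 292) (nat_lit 280)) (XT.nd (nat_lit 94) (nat_lit 252) (nat_lit 0) (XT.lf (nat_lit 0) (nat_lit 2979067233) (nat_lit 336) (nat_lit 3347491700) (nat_lit 84) (nat_lit 4997730229) (nat_lit 50) (nat_lit 5) (nat_lit 54) (nat_lit 5) (nat_lit 51) (nat_lit 4) (nat_lit 374) (nat_lit 292) (nat_lit 279)) (XT.lf (nat_lit 0) (nat_lit 2992275467) (nat_lit 252) (nat_lit 3397532419) (nat_lit 336) (nat_lit 5144105267) (nat_lit 47) (nat_lit 5) (nat_lit 50) (nat_lit 5) (nat_lit 51) (nat_lit 4) (nat_lit 375) (nat_lit 292) (nat_lit 278))))) (XT.nd (nat_lit 282) (nat_lit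 504) (nat_lit 0) (XT.nd (nat_lit 94) (nat_lit 336) (nat_lit 0) (XT.lf (nat_lit 0) (nat_lit 9482367704) (nat_lit 252) (nat_lit 383852904) (nat_lit 336) (nat_lit 1884783758) (nat_lit 47) (nat_lit 5) (nat_lit 50) (nat_lit 5) (nat_lit 51) (nat_lit 4) (nat_lit 376) (nat_lit 292) (nat_lit 277)) (XT.nd (nat_lit 94) (nat_lit 0) (nat_lit 0) (XT.lf (nat_lit 0) (nat_lit 1440673646) (nat_lit 336) (nat_lit 7848801832) (nat_lit 84) (nat_lit 2684870125) (nat_lit 43) (nat_lit 5) (nat_lit 47) (nat_lit 5) (nat_lit 44) (nat_lit 4) (nat_lit 377) (nat_lit 292) (nat_lit 276)) (XT.lf (nat_lit 0) (nat_lit 4786431566) (nat_lit 336) (nat_lit 1575821995) (nat_lit 84) (nat_lit 5842893403) (nat_lit 43) (nat_lit 5) (nat_lit 47) (nat_lit 5) (nat_lit 44) (nat_lit 4) (nat_lit 378) (nat_lit 292) (nat_lit 275)))) (XT.nd (nat_lit 188) (nat_lit 336) (nat_lit 0) (XT.nd (nat_lit 94) (nat_lit 0) (nat_lit 0) (XT.lf (nat_lit 0)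 (nat_lit 4876140972) (nat_lit 168) (nat_lit 3336772298) (nat_lit 252) (nat_lit 4230618753) (nat_lit 41) (nat_lit 5) (nat_lit 43) (nat_lit 5) (nat_lit 44) (nat_lit 4) (nat_lit 379) (nat_lit 292) (nat_lit 274)) (XT.lf (nat_lit 0) (nat_lit 11450631407) (nat_lit 168) (nat_lit 241893533) (nat_lit 252) (nat_lit 998101774) (nat_lit 41) (nat_lit 5) (nat_lit 43) (nat_lit 5) (nat_lit 44) (nat_lit 4) (nat_lit 380) (nat_lit 292) (nat_lit 273))) (XT.nd (nat_lit 94) (nat_lit 0) (nat_lit 0) (XT.lf (nat_lit 0) (nat_lit 2300736073) (nat_lit 336) (nat_lit 7717922497) (nat_lit 84) (nat_lit 2925422412) (nat_lit 37) (nat_lit 5) (nat_lit 41) (nat_lit 5) (nat_lit 38) (nat_lit 4) (nat_lit 381) (nat_lit 292) (nat_lit 272)) (XT.lf (nat_lit 0) (nat_lit 5629705409) (nat_lit 336) (nat_lit 1407729982) (nat_lit 84) (nat_lit 6168932568) (nat_lit 37) (nat_lit 5) (nat_lit 41) (nat_lit 5) (nat_lit 38) (nat_lit 4) (nat_lit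 382) (nat_lit 292) (nat_lit 271)))))) (XT.nd (nat_lit 658) (nat_lit 420) (nat_lit 0) (XT.nd (nat_lit 282) (nat_lit 420) (nat_lit 0) (XT.nd (nat_lit 94) (nat_lit 252) (nat_lit 0) (XT.lf (nat_lit 0) (nat_lit 5091826061) (nat_lit 168) (nat_lit 3953708877) (nat_lit 252) (nat_lit 4431439421) (nat_lit 35) (nat_lit 5) (nat_lit 37) (nat_lit 5) (nat_lit 38) (nat_lit 4) (nat_lit 383) (nat_lit 292) (nat_lit 270)) (XT.nd (nat_lit 94) (nat_lit 252) (nat_lit 0) (XT.lf (nat_lit 0) (nat_lit 11716897310) (nat_lit 168) (nat_lit 800062033) (nat_lit 252) (nat_lit 1240204791) (nat_lit 35) (nat_lit 5) (nat_lit 37) (nat_lit 5) (nat_lit 38) (nat_lit 4) (nat_lit 384) (nat_lit 292) (nat_lit 269)) (XT.lf (nat_lit 0) (nat_lit 2013595234) (nat_lit 252) (nat_lit 9603820613) (nat_lit 84) (nat_lit 2427605875) (nat_lit 32) (nat_lit 5) (nat_lit 35) (nat_lit 5) (nat_lit 33) (nat_lit 4) (nat_lit 385) (nat_lit 292) (nat_lit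 268)))) (XT.nd (nat_lit 188) (nat_lit 252) (nat_lit 0) (XT.nd (nat_lit 94) (nat_lit 168) (nat_lit 0) (XT.lf (nat_lit 0) (nat_lit 5309325069) (nat_lit 252) (nat_lit 3299605883) (nat_lit 84) (nat_lit 5733192222) (nat_lit 32) (nat_lit 5) (nat_lit 35) (nat_lit 5) (nat_lit 33) (nat_lit 4) (nat_lit 386) (nat_lit 292) (nat_lit 267)) (XT.lf (nat_lit 0) (nat_lit 3161009393) (nat_lit 168) (nat_lit 5515550155) (nat_lit 252) (nat_lit 5972451370) (nat_lit 30) (nat_lit 5) (nat_lit 32) (nat_lit 5) (nat_lit 33) (nat_lit 4) (nat_lit 387) (nat_lit 292) (nat_lit 266))) (XT.nd (nat_lit 94) (nat_lit 252) (nat_lit 0) (XT.lf (nat_lit 0) (nat_lit 9789598815) (nat_lit 168) (nat_lit 2331562492) (nat_lit 252) (nat_lit 2844704183) (nat_lit 30) (nat_lit 5) (nat_lit 32) (nat_lit 5) (nat_lit 33) (nat_lit 4) (nat_lit 388) (nat_lit 292) (nat_lit 265)) (XT.lf (nat_lit 0) (nat_lit 334588282) (nat_lit 252) (nat_lit 14048659808)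 (nat_lit 84) (nat_lit 909964713) (nat_lit 27) (nat_lit 5) (nat_lit 30) (nat_lit 5) (nat_lit 28) (nat_lit 4) (nat_lit 389) (nat_lit 292) (nat_lit 264))))) (XT.nd (nat_lit 282) (nat_lit 252) (nat_lit 0) (XT.nd (nat_lit 94) (nat_lit 168) (nat_lit 0) (XT.lf (nat_lit 0) (nat_lit 3572458953) (nat_lit 252) (nat_lit 7808850119) (nat_lit 84) (nat_lit 4247661649) (nat_lit 27) (nat_lit 5) (nat_lit 30) (nat_lit 5) (nat_lit 28) (nat_lit 4) (nat_lit 390) (nat_lit 292) (nat_lit 263)) (XT.nd (nat_lit 94) (nat_lit 168) (nat_lit 0) (XT.lf (nat_lit 0) (nat_lit 6853584892) (nat_lit 252) (nat_lit 1471531234) (nat_lit 84) (nat_lit 7651346729) (nat_lit 27) (nat_lit 5) (nat_lit 30) (nat_lit 5) (nat_lit 28) (nat_lit 4) (nat_lit 391) (nat_lit 292) (nat_lit 262)) (XT.lf (nat_lit 0) (nat_lit 5067723855) (nat_lit 168) (nat_lit 5161823308) (nat_lit 252) (nat_lit 6104984254) (nat_lit 25) (nat_lit 5) (nat_lit 27) (nat_lit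 5) (nat_lit 28) (nat_lit 4) (nat_lit 392) (nat_lit 292) (nat_lit 261)))) (XT.nd (nat_lit 188) (nat_lit 0) (nat_lit 0) (XT.nd (nat_lit 94) (nat_lit 252) (nat_lit 0) (XT.lf (nat_lit 0) (nat_lit 11747102294) (nat_lit 168) (nat_lit 1922928926) (nat_lit 252) (nat_lit 3034455994) (nat_lit 25) (nat_lit 5) (nat_lit 27) (nat_lit 5) (nat_lit 28) (nat_lit 4) (nat_lit 393) (nat_lit 292) (nat_lit 260)) (XT.lf (nat_lit 0) (nat_lit 102714311) (nat_lit 252) (nat_lit 15615749644) (nat_lit 84) (nat_lit 1367769964) (nat_lit 22) (nat_lit 5) (nat_lit 25) (nat_lit 5) (nat_lit 23) (nat_lit 4) (nat_lit 394) (nat_lit 292) (nat_lit 259))) (XT.nd (nat_lit 94) (nat_lit 0) (nat_lit 0) (XT.lf (nat_lit 0) (nat_lit 3292296924) (nat_lit 252) (nat_lit 9419835956) (nat_lit 84) (nat_lit 4765859080) (nat_lit 22) (nat_lit 5) (nat_lit 25) (nat_lit 5) (nat_lit 23) (nat_lit 4) (nat_lit 395) (nat_lit 292) (nat_lit 258)) (XT.lf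 (nat_lit 0) (nat_lit 6528724637) (nat_lit 252) (nat_lit 3120702279) (nat_lit 84) (nat_lit 8233578829) (nat_lit 22) (nat_lit 5) (nat_lit 25) (nat_lit 5) (nat_lit 23) (nat_lit 4) (nat_lit 396) (nat_lit 292) (nat_lit 257))))))) (XT.nd (nat_lit 1316) (nat_lit 336) (nat_lit 0) (XT.nd (nat_lit 658) (nat_lit 336) (nat_lit 0) (XT.nd (nat_lit 282) (nat_lit 336) (nat_lit 0) (XT.nd (nat_lit 94) (nat_lit 0) (nat_lit 0) (XT.lf (nat_lit 0) (nat_lit 3352576323) (nat_lit 84) (nat_lit 6494476087) (nat_lit 168) (nat_lit 8453609949) (nat_lit 21) (nat_lit 5) (nat_lit 22) (nat_lit 5) (nat_lit 23) (nat_lit 4) (nat_lit 397) (nat_lit 292) (nat_lit 256)) (XT.nd (nat_lit 94) (nat_lit 0) (nat_lit 0) (XT.lf (nat_lit 0) (nat_lit 10004561462) (nat_lit 84) (nat_lit 3245079054) (nat_lit 168) (nat_lit 5481702405) (nat_lit 21) (nat_lit 5) (nat_lit 22) (nat_lit 5) (nat_lit 23) (nat_lit 4) (nat_lit 398) (nat_lit 292) (nat_lit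 255)) (XT.lf (nat_lit 0) (nat_lit 16709540721) (nat_lit 168) (nat_lit 2398057903) (nat_lit 0) (nat_lit 68722770) (nat_lit 21) (nat_lit 5) (nat_lit 23) (nat_lit 4) (nat_lit 21) (nat_lit 4) (nat_lit 399) (nat_lit 292) (nat_lit 254)))) (XT.nd (nat_lit 188) (nat_lit 84) (nat_lit 0) (XT.nd (nat_lit 94) (nat_lit 0) (nat_lit 0) (XT.lf (nat_lit 0) (nat_lit 653417891) (nat_lit 252) (nat_lit 15547986667) (nat_lit 84) (nat_lit 3432274344) (nat_lit 18) (nat_lit 5) (nat_lit 21) (nat_lit 5) (nat_lit 19) (nat_lit 4) (nat_lit 400) (nat_lit 292) (nat_lit 253)) (XT.lf (nat_lit 0) (nat_lit 3797790773) (nat_lit 252) (nat_lit 9391712664) (nat_lit 84) (nat_lit 6915148145) (nat_lit 18) (nat_lit 5) (nat_lit 21) (nat_lit 5) (nat_lit 19) (nat_lit 4) (nat_lit 401) (nat_lit 292) (nat_lit 252))) (XT.nd (nat_lit 94) (nat_lit 84) (nat_lit 0) (XT.lf (nat_lit 0) (nat_lit 6993478112) (nat_lit 252) (nat_lit 3124664403)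 (nat_lit 84) (nat_lit 10472932108) (nat_lit 18) (nat_lit 5) (nat_lit 21) (nat_lit 5) (nat_lit 19) (nat_lit 4) (nat_lit 402) (nat_lit 292) (nat_lit 251)) (XT.lf (nat_lit 0) (nat_lit 3323487385) (nat_lit 84) (nat_lit 6951732262) (nat_lit 168) (nat_lit 10817194983) (nat_lit 17) (nat_lit 5) (nat_lit 18) (nat_lit 5) (nat_lit 19) (nat_lit 4) (nat_lit 403) (nat_lit 292) (nat_lit 250))))) (XT.nd (nat_lit 282) (nat_lit 168) (nat_lit 0) (XT.nd (nat_lit 94) (nat_lit 168) (nat_lit 0) (XT.lf (nat_lit 0) (nat_lit 9958078696) (nat_lit 84) (nat_lit 3687657275) (nat_lit 168) (nat_lit 7963378110) (nat_lit 17) (nat_lit 5) (nat_lit 18) (nat_lit 5) (nat_lit 19) (nat_lit 4) (nat_lit 404) (nat_lit 292) (nat_lit 249)) (XT.nd (nat_lit 94) (nat_lit 168) (nat_lit 0) (XT.lf (nat_lit 0) (nat_lit 16722719797) (nat_lit 84) (nat_lit 354618431) (nat_lit 168) (nat_lit 5065205249) (nat_lit 17) (nat_lit 5) (nat_lit 18) (nat_lit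 5) (nat_lit 19) (nat_lit 4) (nat_lit 405) (nat_lit 292) (nat_lit 248)) (XT.lf (nat_lit 0) (nat_lit 918759606) (nat_lit 168) (nat_lit 19692418296) (nat_lit 168) (nat_lit 2080846430) (nat_lit 15) (nat_lit 4) (nat_lit 17) (nat_lit 5) (nat_lit 17) (nat_lit 4) (nat_lit 406) (nat_lit 292) (nat_lit 247)))) (XT.nd (nat_lit 188) (nat_lit 84) (nat_lit 0) (XT.nd (nat_lit 94) (nat_lit 0) (nat_lit 0) (XT.lf (nat_lit 0) (nat_lit 993398928) (nat_lit 252) (nat_lit 15779383592) (nat_lit 84) (nat_lit 6484354404) (nat_lit 14) (nat_lit 5) (nat_lit 17) (nat_lit 5) (nat_lit 15) (nat_lit 4) (nat_lit 407) (nat_lit 292) (nat_lit 246)) (XT.lf (nat_lit 0) (nat_lit 4080137123) (nat_lit 252) (nat_lit 9692345398) (nat_lit 84) (nat_lit 10067264591) (nat_lit 14) (nat_lit 5) (nat_lit 17) (nat_lit 5) (nat_lit 15) (nat_lit 4) (nat_lit 408) (nat_lit 292) (nat_lit 245))) (XT.nd (nat_lit 94) (nat_lit 84) (nat_lit 0) (XT.lf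 (nat_lit 0) (nat_lit 7222670111) (nat_lit 252) (nat_lit 3486829005) (nat_lit 84) (nat_lit 13731464928) (nat_lit 14) (nat_lit 5) (nat_lit 17) (nat_lit 5) (nat_lit 15) (nat_lit 4) (nat_lit 409) (nat_lit 292) (nat_lit 244)) (XT.lf (nat_lit 0) (nat_lit 2899160955) (nat_lit 84) (nat_lit 7552451350) (nat_lit 168) (nat_lit 14608864696) (nat_lit 13) (nat_lit 5) (nat_lit 14) (nat_lit 5) (nat_lit 15) (nat_lit 4) (nat_lit 410) (nat_lit 292) (nat_lit 243)))))) (XT.nd (nat_lit 658) (nat_lit 168) (nat_lit 0) (XT.nd (nat_lit 282) (nat_lit 168) (nat_lit 0) (XT.nd (nat_lit 94) (nat_lit 0) (nat_lit 0) (XT.lf (nat_lit 0) (nat_lit 9486552635) (nat_lit 84) (nat_lit 4290793145) (nat_lit 168) (nat_lit 11921254702) (nat_lit 13) (nat_lit 5) (nat_lit 14) (nat_lit 5) (nat_lit 15) (nat_lit 4) (nat_lit 411) (nat_lit 292) (nat_lit 242)) (XT.nd (nat_lit 94) (nat_lit 0) (nat_lit 0) (XT.lf (nat_lit 0) (nat_lit 16211707274)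 (nat_lit 84) (nat_lit 956884645) (nat_lit 168) (nat_lit 9188325692) (nat_lit 13) (nat_lit 5) (nat_lit 14) (nat_lit 5) (nat_lit 15) (nat_lit 4) (nat_lit 412) (nat_lit 292) (nat_lit 241)) (XT.lf (nat_lit 0) (nat_lit 20651885872) (nat_lit 168) (nat_lit 3979074321) (nat_lit 0) (nat_lit 2404336266) (nat_lit 13) (nat_lit 5) (nat_lit 15) (nat_lit 4) (nat_lit 13) (nat_lit 4) (nat_lit 413) (nat_lit 292) (nat_lit 240)))) (XT.nd (nat_lit 188) (nat_lit 84) (nat_lit 0) (XT.nd (nat_lit 94) (nat_lit 0) (nat_lit 0) (XT.lf (nat_lit 0) (nat_lit 2351273105) (nat_lit 84) (nat_lit 21887956853) (nat_lit 84) (nat_lit 3494831065) (nat_lit 12) (nat_lit 4) (nat_lit 13) (nat_lit 5) (nat_lit 13) (nat_lit 4) (nat_lit 414) (nat_lit 292) (nat_lit 239)) (XT.lf (nat_lit 0) (nat_lit 8896478297) (nat_lit 84) (nat_lit 19045775309) (nat_lit 84) (nat_lit 511313423) (nat_lit 12) (nat_lit 4) (nat_lit 13) (nat_lit 5) (nat_lit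 13) (nat_lit 4) (nat_lit 415) (nat_lit 292) (nat_lit 238))) (XT.nd (nat_lit 94) (nat_lit 0) (nat_lit 0) (XT.lf (nat_lit 0) (nat_lit 2480207455) (nat_lit 168) (nat_lit 13636860264) (nat_lit 84) (nat_lit 13077816296) (nat_lit 11) (nat_lit 5) (nat_lit 13) (nat_lit 5) (nat_lit 12) (nat_lit 4) (nat_lit 416) (nat_lit 292) (nat_lit 237)) (XT.lf (nat_lit 0) (nat_lit 5520600846) (nat_lit 168) (nat_lit 7598084509) (nat_lit 84) (nat_lit 16840539727) (nat_lit 11) (nat_lit 5) (nat_lit 13) (nat_lit 5) (nat_lit 12) (nat_lit 4) (nat_lit 417) (nat_lit 292) (nat_lit 236))))) (XT.nd (nat_lit 282) (nat_lit 84) (nat_lit 0) (XT.nd (nat_lit 94) (nat_lit 84) (nat_lit 0) (XT.lf (nat_lit 0) (nat_lit 8622500969) (nat_lit 168) (nat_lit 1430569811) (nat_lit 84) (nat_lit 20694334774) (nat_lit 11) (nat_lit 5) (nat_lit 13) (nat_lit 5) (nat_lit 12) (nat_lit 4) (nat_lit 418) (nat_lit 292) (nat_lit 235)) (XT.nd (nat_lit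 94) (nat_lit 0) (nat_lit 0) (XT.lf (nat_lit 0) (nat_lit 4968016822) (nat_lit 84) (nat_lit 6868357016) (nat_lit 168) (nat_lit 19722307624) (nat_lit 10) (nat_lit 5) (nat_lit 11) (nat_lit 5) (nat_lit 12) (nat_lit 4) (nat_lit 419) (nat_lit 292) (nat_lit 234)) (XT.lf (nat_lit 0) (nat_lit 11537487921) (nat_lit 84) (nat_lit 3595136587) (nat_lit 168) (nat_lit 17262109279) (nat_lit 10) (nat_lit 5) (nat_lit 11) (nat_lit 5) (nat_lit 12) (nat_lit 4) (nat_lit 420) (nat_lit 292) (nat_lit 233)))) (XT.nd (nat_lit 188) (nat_lit 84) (nat_lit 0) (XT.nd (nat_lit 94) (nat_lit 0) (nat_lit 0) (XT.lf (nat_lit 0) (nat_lit 18255112655) (nat_lit 84) (nat_lit 244995346) (nat_lit 168) (nat_lit 14756605812) (nat_lit 10) (nat_lit 5) (nat_lit 11) (nat_lit 5) (nat_lit 12) (nat_lit 4) (nat_lit 421) (nat_lit 292) (nat_lit 232)) (XT.lf (nat_lit 0) (nat_lit 21972382891) (nat_lit 168) (nat_lit 9049230045) (nat_lit 0) (nat_lit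 3122843307) (nat_lit 10) (nat_lit 5) (nat_lit 12) (nat_lit 4) (nat_lit 10) (nat_lit 4) (nat_lit 422) (nat_lit 292) (nat_lit 231))) (XT.nd (nat_lit 94) (nat_lit 84) (nat_lit 0) (XT.lf (nat_lit 0) (nat_lit 25524991744) (nat_lit 168) (nat_lit 2967439967) (nat_lit 0) (nat_lit 6567129809) (nat_lit 10) (nat_lit 5) (nat_lit 12) (nat_lit 4) (nat_lit 10) (nat_lit 4) (nat_lit 423) (nat_lit 292) (nat_lit 230)) (XT.lf (nat_lit 0) (nat_lit 3316148303) (nat_lit 84) (nat_lit 25874412279) (nat_lit 84) (nat_lit 6811383014) (nat_lit 9) (nat_lit 4) (nat_lit 10) (nat_lit 5) (nat_lit 10) (nat_lit 4) (nat_lit 424) (nat_lit 292) (nat_lit 229))))))))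
noncomputable def xc39 : XT := (XT.nd (nat_lit 2632) (nat_lit 0) (nat_lit 0) (XT.nd (nat_lit 1316) (nat_lit 168) (nat_lit 0) (XT.nd (nat_lit 658) (nat_lit 84) (nat_lit 0) (XT.nd (nat_lit 282) (nat_lit 84) (nat_lit 0) (XT.nd (nat_lit 94) (nat_lit 84) (nat_lit 0) (XT.lf (nat_lit 0) (nat_lit 9804153085) (nat_lit 84) (nat_lit 23166724370) (nat_lit 84) (nat_lit 4001590900) (nat_lit 9) (nat_lit 4) (nat_lit 10) (nat_lit 5) (nat_lit 10) (nat_lit 4) (nat_lit 425) (nat_lit 292) (nat_lit 228)) (XT.nd (nat_lit 94) (nat_lit 84) (nat_lit 0) (XT.lf (nat_lit 0) (nat_lit 16443185636) (nat_lit 84) (nat_lit 20396967369) (nat_lit 84) (nat_lit 1132703604) (nat_lit 9) (nat_lit 4) (nat_lit 10) (nat_lit 5) (nat_lit 10) (nat_lit 4) (nat_lit 426) (nat_lit 292) (nat_lit 227)) (XT.lf (nat_lit 0) (nat_lit 1762704396) (nat_lit 168) (nat_lit 15782216847) (nat_lit 84) (nat_lit 21458542797) (nat_lit 8) (nat_lit 5) (nat_lit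 10) (nat_lit 5) (nat_lit 9) (nat_lit 4) (nat_lit 427) (nat_lit 292) (nat_lit 226)))) (XT.nd (nat_lit 188) (nat_lit 84) (nat_lit 0) (XT.nd (nat_lit 94) (nat_lit 0) (nat_lit 0) (XT.lf (nat_lit 0) (nat_lit 4698919825) (nat_lit 168) (nat_lit 9915139337) (nat_lit 84) (nat_lit 25451305759) (nat_lit 8) (nat_lit 5) (nat_lit 10) (nat_lit 5) (nat_lit 9) (nat_lit 4) (nat_lit 428) (nat_lit 292) (nat_lit 225)) (XT.lf (nat_lit 0) (nat_lit 7700611435) (nat_lit 168) (nat_lit 3912423631) (nat_lit 84) (nat_lit 29546778711) (nat_lit 8) (nat_lit 5) (nat_lit 10) (nat_lit 5) (nat_lit 9) (nat_lit 4) (nat_lit 429) (nat_lit 292) (nat_lit 224))) (XT.nd (nat_lit 94) (nat_lit 0) (nat_lit 0) (XT.lf (nat_lit 0) (nat_lit 2275580124) (nat_lit 84) (nat_lit 8516696207) (nat_lit 168) (nat_lit 31494834363) (nat_lit 7) (nat_lit 5) (nat_lit 8) (nat_lit 5) (nat_lit 9) (nat_lit 4) (nat_lit 430) (nat_lit 292) (nat_lit 223)) (XT.lf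 (nat_lit 0) (nat_lit 8690610954) (nat_lit 84) (nat_lit 5303902566) (nat_lit 168) (nat_lit 29453190241) (nat_lit 7) (nat_lit 5) (nat_lit 8) (nat_lit 5) (nat_lit 9) (nat_lit 4) (nat_lit 431) (nat_lit 292) (nat_lit 222))))) (XT.nd (nat_lit 282) (nat_lit 84) (nat_lit 0) (XT.nd (nat_lit 94) (nat_lit 0) (nat_lit 0) (XT.lf (nat_lit 0) (nat_lit 15260409322) (nat_lit 84) (nat_lit 2011354657) (nat_lit 168) (nat_lit 27371993824) (nat_lit 7) (nat_lit 5) (nat_lit 8) (nat_lit 5) (nat_lit 9) (nat_lit 4) (nat_lit 432) (nat_lit 292) (nat_lit 221)) (XT.nd (nat_lit 94) (nat_lit 0) (nat_lit 0) (XT.lf (nat_lit 0) (nat_lit 20640001239) (nat_lit 168) (nat_lit 23898712001) (nat_lit 0) (nat_lit 1337211377) (nat_lit 7) (nat_lit 5) (nat_lit 9) (nat_lit 4) (nat_lit 7) (nat_lit 4) (nat_lit 433) (nat_lit 292) (nat_lit 220)) (XT.lf (nat_lit 0) (nat_lit 24109204072) (nat_lit 168) (nat_lit 18305426619) (nat_lit 0) (nat_lit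 4730439092) (nat_lit 7) (nat_lit 5) (nat_lit 9) (nat_lit 4) (nat_lit 7) (nat_lit 4) (nat_lit 434) (nat_lit 292) (nat_lit 219)))) (XT.nd (nat_lit 188) (nat_lit 84) (nat_lit 0) (XT.nd (nat_lit 94) (nat_lit 0) (nat_lit 0) (XT.lf (nat_lit 0) (nat_lit 27663069450) (nat_lit 168) (nat_lit 12579270627) (nat_lit 0) (nat_lit 8210542220) (nat_lit 7) (nat_lit 5) (nat_lit 9) (nat_lit 4) (nat_lit 7) (nat_lit 4) (nat_lit 435) (nat_lit 292) (nat_lit 218)) (XT.lf (nat_lit 0) (nat_lit 31304702691) (nat_lit 168) (nat_lit 6715240587) (nat_lit 0) (nat_lit 11780561627) (nat_lit 7) (nat_lit 5) (nat_lit 9) (nat_lit 4) (nat_lit 7) (nat_lit 4) (nat_lit 436) (nat_lit 292) (nat_lit 217))) (XT.nd (nat_lit 94) (nat_lit 84) (nat_lit 0) (XT.lf (nat_lit 0) (nat_lit 35037285806) (nat_lit 168) (nat_lit 708212590) (nat_lit 0) (nat_lit 15443616747) (nat_lit 7) (nat_lit 5) (nat_lit 9) (nat_lit 4) (nat_lit 7) (nat_lit 4) (nat_lit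 437) (nat_lit 292) (nat_lit 216)) (XT.lf (nat_lit 0) (nat_lit 5555469441) (nat_lit 84) (nat_lit 33362013404) (nat_lit 84) (nat_lit 13700841437) (nat_lit 6) (nat_lit 4) (nat_lit 7) (nat_lit 5) (nat_lit 7) (nat_lit 4) (nat_lit 438) (nat_lit 292) (nat_lit 215)))))) (XT.nd (nat_lit 658) (nat_lit 84) (nat_lit 0) (XT.nd (nat_lit 282) (nat_lit 84) (nat_lit 0) (XT.nd (nat_lit 94) (nat_lit 0) (nat_lit 0) (XT.lf (nat_lit 0) (nat_lit 11989928948) (nat_lit 84) (nat_lit 30913755482) (nat_lit 84) (nat_lit 11187046711) (nat_lit 6) (nat_lit 4) (nat_lit 7) (nat_lit 5) (nat_lit 7) (nat_lit 4) (nat_lit 439) (nat_lit 292) (nat_lit 214)) (XT.nd (nat_lit 94) (nat_lit 0) (nat_lit 0) (XT.lf (nat_lit 0) (nat_lit 18586693453) (nat_lit 84) (nat_lit 28405736934) (nat_lit 84) (nat_lit 8615400199) (nat_lit 6) (nat_lit 4) (nat_lit 7) (nat_lit 5) (nat_lit 7) (nat_lit 4) (nat_lit 440) (nat_lit 292) (nat_lit 213)) (XT.lf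 (nat_lit 0) (nat_lit 25351527119) (nat_lit 84) (nat_lit 25835766289) (nat_lit 84) (nat_lit 5983654831) (nat_lit 6) (nat_lit 4) (nat_lit 7) (nat_lit 5) (nat_lit 7) (nat_lit 4) (nat_lit 441) (nat_lit 292) (nat_lit 212)))) (XT.nd (nat_lit 188) (nat_lit 84) (nat_lit 0) (XT.nd (nat_lit 94) (nat_lit 0) (nat_lit 0) (XT.lf (nat_lit 0) (nat_lit 32290340966) (nat_lit 84) (nat_lit 23201597941) (nat_lit 84) (nat_lit 3289511023) (nat_lit 6) (nat_lit 4) (nat_lit 7) (nat_lit 5) (nat_lit 7) (nat_lit 4) (nat_lit 442) (nat_lit 292) (nat_lit 211)) (XT.lf (nat_lit 0) (nat_lit 39409198036) (nat_lit 84) (nat_lit 20500930189) (nat_lit 84) (nat_lit 530614670) (nat_lit 6) (nat_lit 4) (nat_lit 7) (nat_lit 5) (nat_lit 7) (nat_lit 4) (nat_lit 443) (nat_lit 292) (nat_lit 210))) (XT.nd (nat_lit 94) (nat_lit 0) (nat_lit 0) (XT.lf (nat_lit 0) (nat_lit 2250652516) (nat_lit 168) (nat_lit 15458023533) (nat_lit 84) (nat_lit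 44440938995) (nat_lit 5) (nat_lit 5) (nat_lit 7) (nat_lit 5) (nat_lit 6) (nat_lit 4) (nat_lit 444) (nat_lit 292) (nat_lit 209)) (XT.lf (nat_lit 0) (nat_lit 5089839321) (nat_lit 168) (nat_lit 9749360360) (nat_lit 84) (nat_lit 49070849322) (nat_lit 5) (nat_lit 5) (nat_lit 7) (nat_lit 5) (nat_lit 6) (nat_lit 4) (nat_lit 445) (nat_lit 292) (nat_lit 208))))) (XT.nd (nat_lit 282) (nat_lit 0) (nat_lit 0) (XT.nd (nat_lit 94) (nat_lit 84) (nat_lit 0) (XT.lf (nat_lit 0) (nat_lit 7999780789) (nat_lit 168) (nat_lit 3895466597) (nat_lit 84) (nat_lit 53828488646) (nat_lit 5) (nat_lit 5) (nat_lit 7) (nat_lit 5) (nat_lit 6) (nat_lit 4) (nat_lit 446) (nat_lit 292) (nat_lit 207)) (XT.nd (nat_lit 94) (nat_lit 0) (nat_lit 0) (XT.lf (nat_lit 0) (nat_lit 2150741522) (nat_lit 84) (nat_lit 8852952310) (nat_lit 168) (nat_lit 56587946849) (nat_lit 4) (nat_lit 5) (nat_lit 5) (nat_lit 5) (nat_lit 6) (nat_lit 4) (nat_lit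 447) (nat_lit 292) (nat_lit 206)) (XT.lf (nat_lit 0) (nat_lit 8433165720) (nat_lit 84) (nat_lit 5690061463) (nat_lit 168) (nat_lit 55391597198) (nat_lit 4) (nat_lit 5) (nat_lit 5) (nat_lit 5) (nat_lit 6) (nat_lit 4) (nat_lit 448) (nat_lit 292) (nat_lit 205)))) (XT.nd (nat_lit 188) (nat_lit 0) (nat_lit 0) (XT.nd (nat_lit 94) (nat_lit 0) (nat_lit 0) (XT.lf (nat_lit 0) (nat_lit 14879768068) (nat_lit 84) (nat_lit 2443147728) (nat_lit 168) (nat_lit 54173197511) (nat_lit 4) (nat_lit 5) (nat_lit 5) (nat_lit 5) (nat_lit 6) (nat_lit 4) (nat_lit 449) (nat_lit 292) (nat_lit 204)) (XT.lf (nat_lit 0) (nat_lit 20614116759) (nat_lit 168) (nat_lit 52049618406) (nat_lit 0) (nat_lit 873246681) (nat_lit 4) (nat_lit 5) (nat_lit 6) (nat_lit 4) (nat_lit 4) (nat_lit 4) (nat_lit 450) (nat_lit 292) (nat_lit 203))) (XT.nd (nat_lit 94) (nat_lit 0) (nat_lit 0) (XT.lf (nat_lit 0) (nat_lit 24015485139) (nat_lit 168)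 (nat_lit 47393267078) (nat_lit 0) (nat_lit 4229987686) (nat_lit 4) (nat_lit 5) (nat_lit 6) (nat_lit 4) (nat_lit 4) (nat_lit 4) (nat_lit 451) (nat_lit 292) (nat_lit 202)) (XT.lf (nat_lit 0) (nat_lit 27506507975) (nat_lit 168) (nat_lit 42619737569) (nat_lit 0) (nat_lit 7677682975) (nat_lit 4) (nat_lit 5) (nat_lit 6) (nat_lit 4) (nat_lit 4) (nat_lit 4) (nat_lit 452) (nat_lit 292) (nat_lit 201))))))) (XT.nd (nat_lit 51230) (nat_lit 0) (nat_lit 3108) (XT.nd (nat_lit 50572) (nat_lit 0) (nat_lit 5544) (XT.nd (nat_lit 282) (nat_lit 0) (nat_lit 0) (XT.nd (nat_lit 94) (nat_lit 0) (nat_lit 0) (XT.lf (nat_lit 0) (nat_lit 31090235675) (nat_lit 168) (nat_lit 37724858834) (nat_lit 0) (nat_lit 11219345095) (nat_lit 4) (nat_lit 5) (nat_lit 6) (nat_lit 4) (nat_lit 4) (nat_lit 4) (nat_lit 453) (nat_lit 292) (nat_lit 200)) (XT.nd (nat_lit 94) (nat_lit 0) (nat_lit 0) (XT.lf (nat_lit 0) (nat_lit 34769799653)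 (nat_lit 168) (nat_lit 32704353793) (nat_lit 0) (nat_lit 14858068703) (nat_lit 4) (nat_lit 5) (nat_lit 6) (nat_lit 4) (nat_lit 4) (nat_lit 4) (nat_lit 454) (nat_lit 292) (nat_lit 199)) (XT.lf (nat_lit 0) (nat_lit 38548415060) (nat_lit 168) (nat_lit 27553835598) (nat_lit 0) (nat_lit 18597033266) (nat_lit 4) (nat_lit 5) (nat_lit 6) (nat_lit 4) (nat_lit 4) (nat_lit 4) (nat_lit 455) (nat_lit 292) (nat_lit 198)))) (XT.nd (nat_lit 188) (nat_lit 0) (nat_lit 0) (XT.nd (nat_lit 94) (nat_lit 0) (nat_lit 0) (XT.lf (nat_lit 0) (nat_lit 42429383600) (nat_lit 168) (nat_lit 22268803796) (nat_lit 0) (nat_lit 22439505841) (nat_lit 4) (nat_lit 5) (nat_lit 6) (nat_lit 4) (nat_lit 4) (nat_lit 4) (nat_lit 456) (nat_lit 292) (nat_lit 197)) (XT.lf (nat_lit 0) (nat_lit 46416096410) (nat_lit 168) (nat_lit 16844640398) (nat_lit 0) (nat_lit 26388843928) (nat_lit 4) (nat_lit 5) (nat_lit 6) (nat_lit 4) (nat_lit 4)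 (nat_lit 4) (nat_lit 457) (nat_lit 292) (nat_lit 196))) (XT.nd (nat_lit 50008) (nat_lit 0) (nat_lit 7140) (XT.lf (nat_lit 0) (nat_lit 50512037026) (nat_lit 168) (nat_lit 11276605844) (nat_lit 0) (nat_lit 30448498405) (nat_lit 4) (nat_lit 5) (nat_lit 6) (nat_lit 4) (nat_lit 4) (nat_lit 4) (nat_lit 458) (nat_lit 292) (nat_lit 195)) (XT.lf (nat_lit 0) (nat_lit 945765385) (nat_lit 420) (nat_lit 2557782301) (nat_lit 0) (nat_lit 945765385) (nat_lit 89) (nat_lit 5) (nat_lit 94) (nat_lit 4) (nat_lit 89) (nat_lit 4) (nat_lit 359) (nat_lit 293) (nat_lit 293))))) (XT.nd (nat_lit 282) (nat_lit 756) (nat_lit 0) (XT.nd (nat_lit 94) (nat_lit 420) (nat_lit 0) (XT.lf (nat_lit 0) (nat_lit 755378043) (nat_lit 420) (nat_lit 4631716292) (nat_lit 420) (nat_lit 3637433486) (nat_lit 84) (nat_lit 4) (nat_lit 89) (nat_lit 5) (nat_lit 89) (nat_lit 4) (nat_lit 360) (nat_lit 293) (nat_lit 292)) (XT.nd (nat_lit 94)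 (nat_lit 420) (nat_lit 0) (XT.lf (nat_lit 0) (nat_lit 6788881411) (nat_lit 420) (nat_lit 2163068415) (nat_lit 420) (nat_lit 203462497) (nat_lit 84) (nat_lit 4) (nat_lit 89) (nat_lit 5) (nat_lit 89) (nat_lit 4) (nat_lit 361) (nat_lit 293) (nat_lit 291)) (XT.lf (nat_lit 0) (nat_lit 3221773933) (nat_lit 420) (nat_lit 5659685523) (nat_lit 0) (nat_lit 409334300) (nat_lit 79) (nat_lit 5) (nat_lit 84) (nat_lit 4) (nat_lit 79) (nat_lit 4) (nat_lit 362) (nat_lit 293) (nat_lit 290)))) (XT.nd (nat_lit 188) (nat_lit 336) (nat_lit 0) (XT.nd (nat_lit 94) (nat_lit 84) (nat_lit 0) (XT.lf (nat_lit 0) (nat_lit 291666616) (nat_lit 336) (nat_lit 6417785085) (nat_lit 336) (nat_lit 2721938057) (nat_lit 75) (nat_lit 4) (nat_lit 79) (nat_lit 5) (nat_lit 79) (nat_lit 4) (nat_lit 363) (nat_lit 293) (nat_lit 289)) (XT.lf (nat_lit 0) (nat_lit 684930303) (nat_lit 420) (nat_lit 3163115594) (nat_lit 84) (nat_lit 5728862032)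 (nat_lit 74) (nat_lit 5) (nat_lit 79) (nat_lit 5) (nat_lit 75) (nat_lit 4) (nat_lit 364) (nat_lit 293) (nat_lit 288))) (XT.nd (nat_lit 94) (nat_lit 0) (nat_lit 0) (XT.lf (nat_lit 0) (nat_lit 2907366221) (nat_lit 336) (nat_lit 1178144383) (nat_lit 420) (nat_lit 5642202133) (nat_lit 70) (nat_lit 5) (nat_lit 74) (nat_lit 5) (nat_lit 75) (nat_lit 4) (nat_lit 365) (nat_lit 293) (nat_lit 287)) (XT.lf (nat_lit 0) (nat_lit 7554702959) (nat_lit 420) (nat_lit 788986700) (nat_lit 0) (nat_lit 1540466826) (nat_lit 70) (nat_lit 5) (nat_lit 75) (nat_lit 4) (nat_lit 70) (nat_lit 4) (nat_lit 366) (nat_lit 293) (nat_lit 286)))))) (XT.nd (nat_lit 658) (nat_lit 840) (nat_lit 0) (XT.nd (nat_lit 282) (nat_lit 924) (nat_lit 0) (XT.nd (nat_lit 94) (nat_lit 252) (nat_lit 0) (XT.lf (nat_lit 0) (nat_lit 1046490256) (nat_lit 420) (nat_lit 4651895889) (nat_lit 84) (nat_lit 4347153158) (nat_lit 65) (nat_lit 5) (nat_lit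 70) (nat_lit 5) (nat_lit 66) (nat_lit 4) (nat_lit 367) (nat_lit 293) (nat_lit 285)) (XT.nd (nat_lit 94) (nat_lit 0) (nat_lit 0) (XT.lf (nat_lit 0) (nat_lit 1458270612) (nat_lit 252) (nat_lit 2962606978) (nat_lit 336) (nat_lit 5791977628) (nat_lit 62) (nat_lit 5) (nat_lit 65) (nat_lit 5) (nat_lit 66) (nat_lit 4) (nat_lit 368) (nat_lit 293) (nat_lit 284)) (XT.lf (nat_lit 0) (nat_lit 7734769592) (nat_lit 252) (nat_lit 131817374) (nat_lit 336) (nat_lit 2519601005) (nat_lit 62) (nat_lit 5) (nat_lit 65) (nat_lit 5) (nat_lit 66) (nat_lit 4) (nat_lit 369) (nat_lit 293) (nat_lit 283)))) (XT.nd (nat_lit 188) (nat_lit 504) (nat_lit 0) (XT.nd (nat_lit 94) (nat_lit 0) (nat_lit 0) (XT.lf (nat_lit 0) (nat_lit 820177605) (nat_lit 420) (nat_lit 7006662668) (nat_lit 84) (nat_lit 2738154296) (nat_lit 57) (nat_lit 5) (nat_lit 62) (nat_lit 5) (nat_lit 58) (nat_lit 4) (nat_lit 370) (nat_lit 293) (nat_lit 282))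 (XT.lf (nat_lit 0) (nat_lit 4163179299) (nat_lit 420) (nat_lit 877707297) (nat_lit 84) (nat_lit 5709011820) (nat_lit 57) (nat_lit 5) (nat_lit 62) (nat_lit 5) (nat_lit 58) (nat_lit 4) (nat_lit 371) (nat_lit 293) (nat_lit 281))) (XT.nd (nat_lit 94) (nat_lit 252) (nat_lit 0) (XT.lf (nat_lit 0) (nat_lit 5432825322) (nat_lit 252) (nat_lit 2153371178) (nat_lit 336) (nat_lit 3354850029) (nat_lit 54) (nat_lit 5) (nat_lit 57) (nat_lit 5) (nat_lit 58) (nat_lit 4) (nat_lit 372) (nat_lit 293) (nat_lit 280)) (XT.lf (nat_lit 0) (nat_lit 709747040) (nat_lit 252) (nat_lit 10354058455) (nat_lit 252) (nat_lit 75652876) (nat_lit 51) (nat_lit 4) (nat_lit 54) (nat_lit 5) (nat_lit 54) (nat_lit 4) (nat_lit 373) (nat_lit 293) (nat_lit 279))))) (XT.nd (nat_lit 282) (nat_lit 504) (nat_lit 0) (XT.nd (nat_lit 94) (nat_lit 252) (nat_lit 0) (XT.lf (nat_lit 0) (nat_lit 3243488581) (nat_lit 336) (nat_lit 4278160116)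 (nat_lit 84) (nat_lit 3821123017) (nat_lit 50) (nat_lit 5) (nat_lit 54) (nat_lit 5) (nat_lit 51) (nat_lit 4) (nat_lit 374) (nat_lit 293) (nat_lit 278)) (XT.nd (nat_lit 94) (nat_lit 0) (nat_lit 0) (XT.lf (nat_lit 0) (nat_lit 1989642441) (nat_lit 252) (nat_lit 4620756558) (nat_lit 336) (nat_lit 4943350529) (nat_lit 47) (nat_lit 5) (nat_lit 50) (nat_lit 5) (nat_lit 51) (nat_lit 4) (nat_lit 375) (nat_lit 293) (nat_lit 277)) (XT.lf (nat_lit 0) (nat_lit 8427848771) (nat_lit 252) (nat_lit 1625267771) (nat_lit 336) (nat_lit 1718772838) (nat_lit 47) (nat_lit 5) (nat_lit 50) (nat_lit 5) (nat_lit 51) (nat_lit 4) (nat_lit 376) (nat_lit 293) (nat_lit 276)))) (XT.nd (nat_lit 188) (nat_lit 168) (nat_lit 0) (XT.nd (nat_lit 94) (nat_lit 0) (nat_lit 0) (XT.lf (nat_lit 0) (nat_lit 1547112053) (nat_lit 336) (nat_lit 9009317688) (nat_lit 84) (nat_lit 1440478606) (nat_lit 43) (nat_lit 5) (nat_lit 47) (nat_lit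 5) (nat_lit 44) (nat_lit 4) (nat_lit 377) (nat_lit 293) (nat_lit 275)) (XT.lf (nat_lit 0) (nat_lit 4860100809) (nat_lit 336) (nat_lit 2787745406) (nat_lit 84) (nat_lit 4580881143) (nat_lit 43) (nat_lit 5) (nat_lit 47) (nat_lit 5) (nat_lit 44) (nat_lit 4) (nat_lit 378) (nat_lit 293) (nat_lit 274))) (XT.nd (nat_lit 94) (nat_lit 0) (nat_lit 0) (XT.lf (nat_lit 0) (nat_lit 3589194348) (nat_lit 168) (nat_lit 4653202525) (nat_lit 252) (nat_lit 4226074683) (nat_lit 41) (nat_lit 5) (nat_lit 43) (nat_lit 5) (nat_lit 44) (nat_lit 4) (nat_lit 379) (nat_lit 293) (nat_lit 273)) (XT.lf (nat_lit 0) (nat_lit 10114263851) (nat_lit 168) (nat_lit 1576381548) (nat_lit 252) (nat_lit 1025894335) (nat_lit 41) (nat_lit 5) (nat_lit 43) (nat_lit 5) (nat_lit 44) (nat_lit 4) (nat_lit 380) (nat_lit 293) (nat_lit 272))))))))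
noncomputable def xc40 : XT := (XT.nd (nat_lit 2538) (nat_lit 672) (nat_lit 0) (XT.nd (nat_lit 1222) (nat_lit 840) (nat_lit 0) (XT.nd (nat_lit 564) (nat_lit 588) (nat_lit 0) (XT.nd (nat_lit 282) (nat_lit 252) (nat_lit 0) (XT.nd (nat_lit 94) (nat_lit 168) (nat_lit 0) (XT.lf (nat_lit 0) (nat_lit 2215734895) (nat_lit 336) (nat_lit 9170786324) (nat_lit 84) (nat_lit 1585244048) (nat_lit 37) (nat_lit 5) (nat_lit 41) (nat_lit 5) (nat_lit 38) (nat_lit 4) (nat_lit 381) (nat_lit 293) (nat_lit 271)) (XT.nd (nat_lit 94) (nat_lit 168) (nat_lit 0) (XT.lf (nat_lit 0) (nat_lit 5514184707) (nat_lit 336) (nat_lit 2909511106) (nat_lit 84) (nat_lit 4811301842) (nat_lit 37) (nat_lit 5) (nat_lit 41) (nat_lit 5) (nat_lit 38) (nat_lit 4) (nat_lit 382) (nat_lit 293) (nat_lit 270)) (XT.lf (nat_lit 0) (nat_lit 3511718834) (nat_lit 168) (nat_lit 5373475839) (nat_lit 252) (nat_lit 4621782925) (nat_lit 35) (nat_lit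 5) (nat_lit 37) (nat_lit 5) (nat_lit 38) (nat_lit 4) (nat_lit 383) (nat_lit 293) (nat_lit 269)))) (XT.nd (nat_lit 94) (nat_lit 252) (nat_lit 0) (XT.lf (nat_lit 0) (nat_lit 10089763174) (nat_lit 168) (nat_lit 2237636273) (nat_lit 252) (nat_lit 1460672629) (nat_lit 35) (nat_lit 5) (nat_lit 37) (nat_lit 5) (nat_lit 38) (nat_lit 4) (nat_lit 384) (nat_lit 293) (nat_lit 268)) (XT.nd (nat_lit 94) (nat_lit 0) (nat_lit 0) (XT.lf (nat_lit 0) (nat_lit 1737891269) (nat_lit 252) (nat_lit 11358059408) (nat_lit 84) (nat_lit 981855213) (nat_lit 32) (nat_lit 5) (nat_lit 35) (nat_lit 5) (nat_lit 33) (nat_lit 4) (nat_lit 385) (nat_lit 293) (nat_lit 267)) (XT.lf (nat_lit 0) (nat_lit 5005171445) (nat_lit 252) (nat_lit 5100351365) (nat_lit 84) (nat_lit 4270263751) (nat_lit 32) (nat_lit 5) (nat_lit 35) (nat_lit 5) (nat_lit 33) (nat_lit 4) (nat_lit 386) (nat_lit 293) (nat_lit 266))))) (XT.nd (nat_lit 282) (nat_lit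 420) (nat_lit 0) (XT.nd (nat_lit 94) (nat_lit 0) (nat_lit 0) (XT.lf (nat_lit 0) (nat_lit 1278374807) (nat_lit 168) (nat_lit 7048313052) (nat_lit 252) (nat_lit 6357382963) (nat_lit 30) (nat_lit 5) (nat_lit 32) (nat_lit 5) (nat_lit 33) (nat_lit 4) (nat_lit 387) (nat_lit 293) (nat_lit 265)) (XT.nd (nat_lit 94) (nat_lit 0) (nat_lit 0) (XT.lf (nat_lit 0) (nat_lit 7862254775) (nat_lit 168) (nat_lit 3881788537) (nat_lit 252) (nat_lit 3257723724) (nat_lit 30) (nat_lit 5) (nat_lit 32) (nat_lit 5) (nat_lit 33) (nat_lit 4) (nat_lit 388) (nat_lit 293) (nat_lit 264)) (XT.lf (nat_lit 0) (nat_lit 14555534451) (nat_lit 168) (nat_lit 654685947) (nat_lit 252) (nat_lit 120432506) (nat_lit 30) (nat_lit 5) (nat_lit 32) (nat_lit 5) (nat_lit 33) (nat_lit 4) (nat_lit 389) (nat_lit 293) (nat_lit 263)))) (XT.nd (nat_lit 188) (nat_lit 168) (nat_lit 0) (XT.nd (nat_lit 94) (nat_lit 0) (nat_lit 0) (XT.lf (nat_lit 0)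 (nat_lit 3079278263) (nat_lit 252) (nat_lit 9918269720) (nat_lit 84) (nat_lit 2670135062) (nat_lit 27) (nat_lit 5) (nat_lit 30) (nat_lit 5) (nat_lit 28) (nat_lit 4) (nat_lit 390) (nat_lit 293) (nat_lit 262)) (XT.lf (nat_lit 0) (nat_lit 6334634986) (nat_lit 252) (nat_lit 3623843893) (nat_lit 84) (nat_lit 6057490923) (nat_lit 27) (nat_lit 5) (nat_lit 30) (nat_lit 5) (nat_lit 28) (nat_lit 4) (nat_lit 391) (nat_lit 293) (nat_lit 261))) (XT.nd (nat_lit 94) (nat_lit 0) (nat_lit 0) (XT.lf (nat_lit 0) (nat_lit 2830103417) (nat_lit 168) (nat_lit 6833965809) (nat_lit 252) (nat_lit 6711385899) (nat_lit 25) (nat_lit 5) (nat_lit 27) (nat_lit 5) (nat_lit 28) (nat_lit 4) (nat_lit 392) (nat_lit 293) (nat_lit 260)) (XT.lf (nat_lit 0) (nat_lit 9468246383) (nat_lit 168) (nat_lit 3611620562) (nat_lit 252) (nat_lit 3666304877) (nat_lit 25) (nat_lit 5) (nat_lit 27) (nat_lit 5) (nat_lit 28) (nat_lit 4) (nat_lit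 393) (nat_lit 293) (nat_lit 259)))))) (XT.nd (nat_lit 658) (nat_lit 336) (nat_lit 0) (XT.nd (nat_lit 282) (nat_lit 252) (nat_lit 0) (XT.nd (nat_lit 94) (nat_lit 252) (nat_lit 0) (XT.lf (nat_lit 0) (nat_lit 16224263724) (nat_lit 168) (nat_lit 325221215) (nat_lit 252) (nat_lit 580024718) (nat_lit 25) (nat_lit 5) (nat_lit 27) (nat_lit 5) (nat_lit 28) (nat_lit 4) (nat_lit 394) (nat_lit 293) (nat_lit 258)) (XT.nd (nat_lit 94) (nat_lit 0) (nat_lit 0) (XT.lf (nat_lit 0) (nat_lit 2584726924) (nat_lit 252) (nat_lit 11889052616) (nat_lit 84) (nat_lit 3048758493) (nat_lit 22) (nat_lit 5) (nat_lit 25) (nat_lit 5) (nat_lit 23) (nat_lit 4) (nat_lit 395) (nat_lit 293) (nat_lit 257)) (XT.lf (nat_lit 0) (nat_lit 5797795137) (nat_lit 252) (nat_lit 5629450921) (nat_lit 84) (nat_lit 6501024590) (nat_lit 22) (nat_lit 5) (nat_lit 25) (nat_lit 5) (nat_lit 23) (nat_lit 4) (nat_lit 396) (nat_lit 293) (nat_lit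 256)))) (XT.nd (nat_lit 188) (nat_lit 168) (nat_lit 0) (XT.nd (nat_lit 94) (nat_lit 0) (nat_lit 0) (XT.lf (nat_lit 0) (nat_lit 754754251) (nat_lit 84) (nat_lit 8313717677) (nat_lit 168) (nat_lit 9278902382) (nat_lit 21) (nat_lit 5) (nat_lit 22) (nat_lit 5) (nat_lit 23) (nat_lit 4) (nat_lit 397) (nat_lit 293) (nat_lit 255)) (XT.lf (nat_lit 0) (nat_lit 7368735105) (nat_lit 84) (nat_lit 5079941039) (nat_lit 168) (nat_lit 6330067254) (nat_lit 21) (nat_lit 5) (nat_lit 22) (nat_lit 5) (nat_lit 23) (nat_lit 4) (nat_lit 398) (nat_lit 293) (nat_lit 254))) (XT.nd (nat_lit 94) (nat_lit 168) (nat_lit 0) (XT.lf (nat_lit 0) (nat_lit 14106233735) (nat_lit 84) (nat_lit 1779936930) (nat_lit 168) (nat_lit 3338239891) (nat_lit 21) (nat_lit 5) (nat_lit 22) (nat_lit 5) (nat_lit 23) (nat_lit 4) (nat_lit 399) (nat_lit 293) (nat_lit 253)) (XT.lf (nat_lit 0) (nat_lit 1298433025) (nat_lit 168) (nat_lit 18113283586)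 (nat_lit 168) (nat_lit 272215866) (nat_lit 19) (nat_lit 4) (nat_lit 21) (nat_lit 5) (nat_lit 21) (nat_lit 4) (nat_lit 400) (nat_lit 293) (nat_lit 252))))) (XT.nd (nat_lit 282) (nat_lit 168) (nat_lit 0) (XT.nd (nat_lit 94) (nat_lit 84) (nat_lit 0) (XT.lf (nat_lit 0) (nat_lit 2856278420) (nat_lit 252) (nat_lit 12263019562) (nat_lit 84) (nat_lit 5036336504) (nat_lit 18) (nat_lit 5) (nat_lit 21) (nat_lit 5) (nat_lit 19) (nat_lit 4) (nat_lit 401) (nat_lit 293) (nat_lit 251)) (XT.nd (nat_lit 94) (nat_lit 84) (nat_lit 0) (XT.lf (nat_lit 0) (nat_lit 6031392450) (nat_lit 252) (nat_lit 6031321611) (nat_lit 84) (nat_lit 8579975336) (nat_lit 18) (nat_lit 5) (nat_lit 21) (nat_lit 5) (nat_lit 19) (nat_lit 4) (nat_lit 402) (nat_lit 293) (nat_lit 250)) (XT.lf (nat_lit 0) (nat_lit 323978261) (nat_lit 84) (nat_lit 8940348523) (nat_lit 168) (nat_lit 11881181084) (nat_lit 17) (nat_lit 5) (nat_lit 18) (nat_lit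 5) (nat_lit 19) (nat_lit 4) (nat_lit 403) (nat_lit 293) (nat_lit 249)))) (XT.nd (nat_lit 188) (nat_lit 168) (nat_lit 0) (XT.nd (nat_lit 94) (nat_lit 0) (nat_lit 0) (XT.lf (nat_lit 0) (nat_lit 6924585360) (nat_lit 84) (nat_lit 5690538754) (nat_lit 168) (nat_lit 9047688604) (nat_lit 17) (nat_lit 5) (nat_lit 18) (nat_lit 5) (nat_lit 19) (nat_lit 4) (nat_lit 404) (nat_lit 293) (nat_lit 248)) (XT.lf (nat_lit 0) (nat_lit 13656232079) (nat_lit 84) (nat_lit 2371349637) (nat_lit 168) (nat_lit 6169248164) (nat_lit 17) (nat_lit 5) (nat_lit 18) (nat_lit 5) (nat_lit 19) (nat_lit 4) (nat_lit 405) (nat_lit 293) (nat_lit 247))) (XT.nd (nat_lit 94) (nat_lit 168) (nat_lit 0) (XT.lf (nat_lit 0) (nat_lit 19514487361) (nat_lit 168) (nat_lit 2233031541) (nat_lit 0) (nat_lit 1000212890) (nat_lit 17) (nat_lit 5) (nat_lit 19) (nat_lit 4) (nat_lit 17) (nat_lit 4) (nat_lit 406) (nat_lit 293) (nat_lit 246)) (XT.lf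 (nat_lit 0) (nat_lit 4259395468) (nat_lit 168) (nat_lit 18874139871) (nat_lit 168) (nat_lit 180825059) (nat_lit 15) (nat_lit 4) (nat_lit 17) (nat_lit 5) (nat_lit 17) (nat_lit 4) (nat_lit 407) (nat_lit 293) (nat_lit 245))))))) (XT.nd (nat_lit 1316) (nat_lit 252) (nat_lit 0) (XT.nd (nat_lit 658) (nat_lit 252) (nat_lit 0) (XT.nd (nat_lit 282) (nat_lit 84) (nat_lit 0) (XT.nd (nat_lit 94) (nat_lit 0) (nat_lit 0) (XT.lf (nat_lit 0) (nat_lit 2891309982) (nat_lit 252) (nat_lit 12997781121) (nat_lit 84) (nat_lit 8008487511) (nat_lit 14) (nat_lit 5) (nat_lit 17) (nat_lit 5) (nat_lit 15) (nat_lit 4) (nat_lit 408) (nat_lit 293) (nat_lit 244)) (XT.nd (nat_lit 94) (nat_lit 0) (nat_lit 0) (XT.lf (nat_lit 0) (nat_lit 6016239378) (nat_lit 252) (nat_lit 6822937140) (nat_lit 84) (nat_lit 11660158718) (nat_lit 14) (nat_lit 5) (nat_lit 17) (nat_lit 5) (nat_lit 15) (nat_lit 4) (nat_lit 409) (nat_lit 293) (nat_lit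 243)) (XT.lf (nat_lit 0) (nat_lit 9200222197) (nat_lit 252) (nat_lit 523299293) (nat_lit 84) (nat_lit 15396686730) (nat_lit 14) (nat_lit 5) (nat_lit 17) (nat_lit 5) (nat_lit 15) (nat_lit 4) (nat_lit 410) (nat_lit 293) (nat_lit 242)))) (XT.nd (nat_lit 188) (nat_lit 0) (nat_lit 0) (XT.nd (nat_lit 94) (nat_lit 0) (nat_lit 0) (XT.lf (nat_lit 0) (nat_lit 6024190615) (nat_lit 84) (nat_lit 6479758149) (nat_lit 168) (nat_lit 13255054062) (nat_lit 13) (nat_lit 5) (nat_lit 14) (nat_lit 5) (nat_lit 15) (nat_lit 4) (nat_lit 411) (nat_lit 293) (nat_lit 241)) (XT.lf (nat_lit 0) (nat_lit 12720717012) (nat_lit 84) (nat_lit 3158092918) (nat_lit 168) (nat_lit 10539012173) (nat_lit 13) (nat_lit 5) (nat_lit 14) (nat_lit 5) (nat_lit 15) (nat_lit 4) (nat_lit 412) (nat_lit 293) (nat_lit 240))) (XT.nd (nat_lit 94) (nat_lit 0) (nat_lit 0) (XT.lf (nat_lit 0) (nat_lit 19324922520) (nat_lit 168) (nat_lit 7537977386)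 (nat_lit 0) (nat_lit 234426777) (nat_lit 13) (nat_lit 5) (nat_lit 15) (nat_lit 4) (nat_lit 13) (nat_lit 4) (nat_lit 413) (nat_lit 293) (nat_lit 239)) (XT.lf (nat_lit 0) (nat_lit 22874109388) (nat_lit 168) (nat_lit 1280859020) (nat_lit 0) (nat_lit 3642277547) (nat_lit 13) (nat_lit 5) (nat_lit 15) (nat_lit 4) (nat_lit 13) (nat_lit 4) (nat_lit 414) (nat_lit 293) (nat_lit 238))))) (XT.nd (nat_lit 282) (nat_lit 84) (nat_lit 0) (XT.nd (nat_lit 94) (nat_lit 84) (nat_lit 0) (XT.lf (nat_lit 0) (nat_lit 5211775422) (nat_lit 84) (nat_lit 21337437597) (nat_lit 84) (nat_lit 1968386243) (nat_lit 12) (nat_lit 4) (nat_lit 13) (nat_lit 5) (nat_lit 13) (nat_lit 4) (nat_lit 415) (nat_lit 293) (nat_lit 237)) (XT.nd (nat_lit 94) (nat_lit 0) (nat_lit 0) (XT.lf (nat_lit 0) (nat_lit 1036495344) (nat_lit 168) (nat_lit 17398188633) (nat_lit 84) (nat_lit 10825113763) (nat_lit 11) (nat_lit 5) (nat_lit 13) (nat_lit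 5) (nat_lit 12) (nat_lit 4) (nat_lit 416) (nat_lit 293) (nat_lit 236)) (XT.lf (nat_lit 0) (nat_lit 4062255696) (nat_lit 168) (nat_lit 11385237671) (nat_lit 84) (nat_lit 14577093309) (nat_lit 11) (nat_lit 5) (nat_lit 13) (nat_lit 5) (nat_lit 12) (nat_lit 4) (nat_lit 417) (nat_lit 293) (nat_lit 235)))) (XT.nd (nat_lit 188) (nat_lit 0) (nat_lit 0) (XT.nd (nat_lit 94) (nat_lit 84) (nat_lit 0) (XT.lf (nat_lit 0) (nat_lit 7149948984) (nat_lit 168) (nat_lit 5242795587) (nat_lit 84) (nat_lit 18420457399) (nat_lit 11) (nat_lit 5) (nat_lit 13) (nat_lit 5) (nat_lit 12) (nat_lit 4) (nat_lit 418) (nat_lit 293) (nat_lit 234)) (XT.lf (nat_lit 0) (nat_lit 1055093474) (nat_lit 84) (nat_lit 9257321925) (nat_lit 168) (nat_lit 21313613042) (nat_lit 10) (nat_lit 5) (nat_lit 11) (nat_lit 5) (nat_lit 12) (nat_lit 4) (nat_lit 419) (nat_lit 293) (nat_lit 233))) (XT.nd (nat_lit 94) (nat_lit 0) (nat_lit 0) (XT.lf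 (nat_lit 0) (nat_lit 7600460879) (nat_lit 84) (nat_lit 5994582186) (nat_lit 168) (nat_lit 18867454514) (nat_lit 10) (nat_lit 5) (nat_lit 11) (nat_lit 5) (nat_lit 12) (nat_lit 4) (nat_lit 420) (nat_lit 293) (nat_lit 232)) (XT.lf (nat_lit 0) (nat_lit 14294683969) (nat_lit 84) (nat_lit 2654616373) (nat_lit 168) (nat_lit 16375581937) (nat_lit 10) (nat_lit 5) (nat_lit 11) (nat_lit 5) (nat_lit 12) (nat_lit 4) (nat_lit 421) (nat_lit 293) (nat_lit 231)))))) (XT.nd (nat_lit 658) (nat_lit 84) (nat_lit 0) (XT.nd (nat_lit 282) (nat_lit 168) (nat_lit 0) (XT.nd (nat_lit 94) (nat_lit 0) (nat_lit 0) (XT.lf (nat_lit 0) (nat_lit 20385476529) (nat_lit 168) (nat_lit 13077682412) (nat_lit 0) (nat_lit 750556386) (nat_lit 10) (nat_lit 5) (nat_lit 12) (nat_lit 4) (nat_lit 10) (nat_lit 4) (nat_lit 422) (nat_lit 293) (nat_lit 230)) (XT.nd (nat_lit 94) (nat_lit 0) (nat_lit 0) (XT.lf (nat_lit 0) (nat_lit 23925526207)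 (nat_lit 168) (nat_lit 7018239874) (nat_lit 0) (nat_lit 4185438733) (nat_lit 10) (nat_lit 5) (nat_lit 12) (nat_lit 4) (nat_lit 10) (nat_lit 4) (nat_lit 423) (nat_lit 293) (nat_lit 229)) (XT.lf (nat_lit 0) (nat_lit 27547024825) (nat_lit 168) (nat_lit 821058242) (nat_lit 0) (nat_lit 7704833146) (nat_lit 10) (nat_lit 5) (nat_lit 12) (nat_lit 4) (nat_lit 10) (nat_lit 4) (nat_lit 424) (nat_lit 293) (nat_lit 228)))) (XT.nd (nat_lit 188) (nat_lit 84) (nat_lit 0) (XT.nd (nat_lit 94) (nat_lit 0) (nat_lit 0) (XT.lf (nat_lit 0) (nat_lit 5629121942) (nat_lit 84) (nat_lit 25678125422) (nat_lit 84) (nat_lit 5736803447) (nat_lit 9) (nat_lit 4) (nat_lit 10) (nat_lit 5) (nat_lit 10) (nat_lit 4) (nat_lit 425) (nat_lit 293) (nat_lit 227)) (XT.lf (nat_lit 0) (nat_lit 12247296309) (nat_lit 84) (nat_lit 22917532678) (nat_lit 84) (nat_lit 2879967698) (nat_lit 9) (nat_lit 4) (nat_lit 10) (nat_lit 5) (nat_lit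 10) (nat_lit 4) (nat_lit 426) (nat_lit 293) (nat_lit 226))) (XT.nd (nat_lit 94) (nat_lit 0) (nat_lit 0) (XT.lf (nat_lit 0) (nat_lit 38063505) (nat_lit 168) (nat_lit 20053735875) (nat_lit 84) (nat_lit 18984459188) (nat_lit 8) (nat_lit 5) (nat_lit 10) (nat_lit 5) (nat_lit 9) (nat_lit 4) (nat_lit 427) (nat_lit 293) (nat_lit 225)) (XT.lf (nat_lit 0) (nat_lit 2963140864) (nat_lit 168) (nat_lit 14206547099) (nat_lit 84) (nat_lit 22968811855) (nat_lit 8) (nat_lit 5) (nat_lit 10) (nat_lit 5) (nat_lit 9) (nat_lit 4) (nat_lit 428) (nat_lit 293) (nat_lit 224))))) (XT.nd (nat_lit 282) (nat_lit 0) (nat_lit 0) (XT.nd (nat_lit 94) (nat_lit 84) (nat_lit 0) (XT.lf (nat_lit 0) (nat_lit 5954018814) (nat_lit 168) (nat_lit 8223140844) (nat_lit 84) (nat_lit 27056119471) (nat_lit 8) (nat_lit 5) (nat_lit 10) (nat_lit 5) (nat_lit 9) (nat_lit 4) (nat_lit 429) (nat_lit 293) (nat_lit 223)) (XT.nd (nat_lit 94) (nat_lit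 84) (nat_lit 0) (XT.lf (nat_lit 0) (nat_lit 9013310744) (nat_lit 168) (nat_lit 2098288891) (nat_lit 84) (nat_lit 31249953469) (nat_lit 8) (nat_lit 5) (nat_lit 10) (nat_lit 5) (nat_lit 9) (nat_lit 4) (nat_lit 430) (nat_lit 293) (nat_lit 222)) (XT.lf (nat_lit 0) (nat_lit 4256418630) (nat_lit 84) (nat_lit 7928186490) (nat_lit 168) (nat_lit 31338475033) (nat_lit 7) (nat_lit 5) (nat_lit 8) (nat_lit 5) (nat_lit 9) (nat_lit 4) (nat_lit 431) (nat_lit 293) (nat_lit 221)))) (XT.nd (nat_lit 188) (nat_lit 0) (nat_lit 0) (XT.nd (nat_lit 94) (nat_lit 0) (nat_lit 0) (XT.lf (nat_lit 0) (nat_lit 10808194430) (nat_lit 84) (nat_lit 4643591873) (nat_lit 168) (nat_lit 29267655502) (nat_lit 7) (nat_lit 5) (nat_lit 8) (nat_lit 5) (nat_lit 9) (nat_lit 4) (nat_lit 432) (nat_lit 293) (nat_lit 220)) (XT.lf (nat_lit 0) (nat_lit 17521003298) (nat_lit 84) (nat_lit 1276134354) (nat_lit 168) (nat_lit 27155162914) (nat_lit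 7) (nat_lit 5) (nat_lit 8) (nat_lit 5) (nat_lit 9) (nat_lit 4) (nat_lit 433) (nat_lit 293) (nat_lit 219))) (XT.nd (nat_lit 94) (nat_lit 0) (nat_lit 0) (XT.lf (nat_lit 0) (nat_lit 22244510182) (nat_lit 168) (nat_lit 22842950790) (nat_lit 0) (nat_lit 2134644886) (nat_lit 7) (nat_lit 5) (nat_lit 9) (nat_lit 4) (nat_lit 7) (nat_lit 4) (nat_lit 434) (nat_lit 293) (nat_lit 218)) (XT.lf (nat_lit 0) (nat_lit 25789090782) (nat_lit 168) (nat_lit 17133499542) (nat_lit 0) (nat_lit 5607611651) (nat_lit 7) (nat_lit 5) (nat_lit 9) (nat_lit 4) (nat_lit 7) (nat_lit 4) (nat_lit 435) (nat_lit 293) (nat_lit 217))))))))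
noncomputable def xc41 : XT := (XT.nd (nat_lit 52358) (nat_lit 0) (nat_lit 2184) (XT.nd (nat_lit 1222) (nat_lit 0) (nat_lit 0) (XT.nd (nat_lit 564) (nat_lit 168) (nat_lit 0) (XT.nd (nat_lit 282) (nat_lit 0) (nat_lit 0) (XT.nd (nat_lit 94) (nat_lit 84) (nat_lit 0) (XT.lf (nat_lit 0) (nat_lit 29421709677) (nat_lit 168) (nat_lit 11285687702) (nat_lit 0) (nat_lit 9170702551) (nat_lit 7) (nat_lit 5) (nat_lit 9) (nat_lit 4) (nat_lit 7) (nat_lit 4) (nat_lit 436) (nat_lit 293) (nat_lit 216)) (XT.nd (nat_lit 94) (nat_lit 84) (nat_lit 0) (XT.lf (nat_lit 0) (nat_lit 33145540999) (nat_lit 168) (nat_lit 5294405529) (nat_lit 0) (nat_lit 12827030965) (nat_lit 7) (nat_lit 5) (nat_lit 9) (nat_lit 4) (nat_lit 7) (nat_lit 4) (nat_lit 437) (nat_lit 293) (nat_lit 215)) (XT.lf (nat_lit 0) (nat_lit 862410817) (nat_lit 84) (nat_lit 36109717784) (nat_lit 84) (nat_lit 15725670947) (nat_lit 6) (nat_lit 4) (nat_lit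 7) (nat_lit 5) (nat_lit 7) (nat_lit 4) (nat_lit 438) (nat_lit 293) (nat_lit 214)))) (XT.nd (nat_lit 94) (nat_lit 0) (nat_lit 0) (XT.lf (nat_lit 0) (nat_lit 7281732990) (nat_lit 84) (nat_lit 33668202282) (nat_lit 84) (nat_lit 13220527480) (nat_lit 6) (nat_lit 4) (nat_lit 7) (nat_lit 5) (nat_lit 7) (nat_lit 4) (nat_lit 439) (nat_lit 293) (nat_lit 213)) (XT.nd (nat_lit 94) (nat_lit 0) (nat_lit 0) (XT.lf (nat_lit 0) (nat_lit 13863801054) (nat_lit 84) (nat_lit 31166729773) (nat_lit 84) (nat_lit 10657280248) (nat_lit 6) (nat_lit 4) (nat_lit 7) (nat_lit 5) (nat_lit 7) (nat_lit 4) (nat_lit 440) (nat_lit 293) (nat_lit 212)) (XT.lf (nat_lit 0) (nat_lit 20614366332) (nat_lit 84) (nat_lit 28603114506) (nat_lit 84) (nat_lit 8033689521) (nat_lit 6) (nat_lit 4) (nat_lit 7) (nat_lit 5) (nat_lit 7) (nat_lit 4) (nat_lit 441) (nat_lit 293) (nat_lit 211))))) (XT.nd (nat_lit 282) (nat_lit 84) (nat_lit 0) (XT.nd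 (nat_lit 94) (nat_lit 84) (nat_lit 0) (XT.lf (nat_lit 0) (nat_lit 27539327375) (nat_lit 84) (nat_lit 25975116427) (nat_lit 84) (nat_lit 5347462841) (nat_lit 6) (nat_lit 4) (nat_lit 7) (nat_lit 5) (nat_lit 7) (nat_lit 4) (nat_lit 442) (nat_lit 293) (nat_lit 210)) (XT.nd (nat_lit 94) (nat_lit 84) (nat_lit 0) (XT.lf (nat_lit 0) (nat_lit 34644735120) (nat_lit 84) (nat_lit 23280439228) (nat_lit 84) (nat_lit 2596253020) (nat_lit 6) (nat_lit 4) (nat_lit 7) (nat_lit 5) (nat_lit 7) (nat_lit 4) (nat_lit 443) (nat_lit 293) (nat_lit 209)) (XT.lf (nat_lit 0) (nat_lit 218005182) (nat_lit 168) (nat_lit 20296521729) (nat_lit 84) (nat_lit 41716591569) (nat_lit 5) (nat_lit 5) (nat_lit 7) (nat_lit 5) (nat_lit 6) (nat_lit 4) (nat_lit 444) (nat_lit 293) (nat_lit 208)))) (XT.nd (nat_lit 188) (nat_lit 84) (nat_lit 0) (XT.nd (nat_lit 94) (nat_lit 0) (nat_lit 0) (XT.lf (nat_lit 0) (nat_lit 3050088075) (nat_lit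 168) (nat_lit 14600680874) (nat_lit 84) (nat_lit 46341000264) (nat_lit 5) (nat_lit 5) (nat_lit 7) (nat_lit 5) (nat_lit 6) (nat_lit 4) (nat_lit 445) (nat_lit 293) (nat_lit 207)) (XT.lf (nat_lit 0) (nat_lit 5953132543) (nat_lit 168) (nat_lit 8759235962) (nat_lit 84) (nat_lit 51093298198) (nat_lit 5) (nat_lit 5) (nat_lit 7) (nat_lit 5) (nat_lit 6) (nat_lit 4) (nat_lit 446) (nat_lit 293) (nat_lit 206))) (XT.nd (nat_lit 94) (nat_lit 84) (nat_lit 0) (XT.lf (nat_lit 0) (nat_lit 8929675225) (nat_lit 168) (nat_lit 2767082820) (nat_lit 84) (nat_lit 55977637865) (nat_lit 5) (nat_lit 5) (nat_lit 7) (nat_lit 5) (nat_lit 6) (nat_lit 4) (nat_lit 447) (nat_lit 293) (nat_lit 205)) (XT.lf (nat_lit 0) (nat_lit 3448303232) (nat_lit 84) (nat_lit 8567160953) (nat_lit 168) (nat_lit 57583131102) (nat_lit 4) (nat_lit 5) (nat_lit 5) (nat_lit 5) (nat_lit 6) (nat_lit 4) (nat_lit 448) (nat_lit 293) (nat_lit 204))))))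 (XT.nd (nat_lit 658) (nat_lit 0) (nat_lit 0) (XT.nd (nat_lit 282) (nat_lit 0) (nat_lit 0) (XT.nd (nat_lit 94) (nat_lit 0) (nat_lit 0) (XT.lf (nat_lit 0) (nat_lit 9883286384) (nat_lit 84) (nat_lit 5325442990) (nat_lit 168) (nat_lit 56371350791) (nat_lit 4) (nat_lit 5) (nat_lit 5) (nat_lit 5) (nat_lit 6) (nat_lit 4) (nat_lit 449) (nat_lit 293) (nat_lit 203)) (XT.nd (nat_lit 94) (nat_lit 0) (nat_lit 0) (XT.lf (nat_lit 0) (nat_lit 16488419064) (nat_lit 84) (nat_lit 1996713697) (nat_lit 168) (nat_lit 55136263026) (nat_lit 4) (nat_lit 5) (nat_lit 5) (nat_lit 5) (nat_lit 6) (nat_lit 4) (nat_lit 450) (nat_lit 293) (nat_lit 202)) (XT.lf (nat_lit 0) (nat_lit 21861205737) (nat_lit 168) (nat_lit 52468521594) (nat_lit 0) (nat_lit 1394188439) (nat_lit 4) (nat_lit 5) (nat_lit 6) (nat_lit 4) (nat_lit 4) (nat_lit 4) (nat_lit 451) (nat_lit 293) (nat_lit 201)))) (XT.nd (nat_lit 188) (nat_lit 0) (nat_lit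 0) (XT.nd (nat_lit 94) (nat_lit 0) (nat_lit 0) (XT.lf (nat_lit 0) (nat_lit 25346304523) (nat_lit 168) (nat_lit 47705758912) (nat_lit 0) (nat_lit 4837221645) (nat_lit 4) (nat_lit 5) (nat_lit 6) (nat_lit 4) (nat_lit 4) (nat_lit 4) (nat_lit 452) (nat_lit 293) (nat_lit 200)) (XT.lf (nat_lit 0) (nat_lit 28924280719) (nat_lit 168) (nat_lit 42821333407) (nat_lit 0) (nat_lit 8374357472) (nat_lit 4) (nat_lit 5) (nat_lit 6) (nat_lit 4) (nat_lit 4) (nat_lit 4) (nat_lit 453) (nat_lit 293) (nat_lit 199))) (XT.nd (nat_lit 94) (nat_lit 0) (nat_lit 0) (XT.lf (nat_lit 0) (nat_lit 32598260712) (nat_lit 168) (nat_lit 37810977133) (nat_lit 0) (nat_lit 12008686620) (nat_lit 4) (nat_lit 5) (nat_lit 6) (nat_lit 4) (nat_lit 4) (nat_lit 4) (nat_lit 454) (nat_lit 293) (nat_lit 198)) (XT.lf (nat_lit 0) (nat_lit 36371454775) (nat_lit 168) (nat_lit 32670312110) (nat_lit 0) (nat_lit 15743384718) (nat_lit 4) (nat_lit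 5) (nat_lit 6) (nat_lit 4) (nat_lit 4) (nat_lit 4) (nat_lit 455) (nat_lit 293) (nat_lit 197))))) (XT.nd (nat_lit 50102) (nat_lit 0) (nat_lit 6636) (XT.nd (nat_lit 94) (nat_lit 0) (nat_lit 0) (XT.lf (nat_lit 0) (nat_lit 40247159873) (nat_lit 168) (nat_lit 27394846494) (nat_lit 0) (nat_lit 19581715093) (nat_lit 4) (nat_lit 5) (nat_lit 6) (nat_lit 4) (nat_lit 4) (nat_lit 4) (nat_lit 456) (nat_lit 293) (nat_lit 196)) (XT.nd (nat_lit 49914) (nat_lit 0) (nat_lit 7560) (XT.lf (nat_lit 0) (nat_lit 44228762546) (nat_lit 168) (nat_lit 21979970656) (nat_lit 0) (nat_lit 23527031627) (nat_lit 4) (nat_lit 5) (nat_lit 6) (nat_lit 4) (nat_lit 4) (nat_lit 4) (nat_lit 457) (nat_lit 293) (nat_lit 195)) (XT.lf (nat_lit 0) (nat_lit 396183663) (nat_lit 420) (nat_lit 1966767924) (nat_lit 420) (nat_lit 1966767924) (nat_lit 94) (nat_lit 4) (nat_lit 99) (nat_lit 5) (nat_lit 99) (nat_lit 4) (nat_lit 357) (nat_lit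 294) (nat_lit 294)))) (XT.nd (nat_lit 188) (nat_lit 504) (nat_lit 0) (XT.nd (nat_lit 94) (nat_lit 420) (nat_lit 0) (XT.lf (nat_lit 0) (nat_lit 6660209326) (nat_lit 420) (nat_lit 1586143541) (nat_lit 420) (nat_lit 531308913) (nat_lit 94) (nat_lit 4) (nat_lit 99) (nat_lit 5) (nat_lit 99) (nat_lit 4) (nat_lit 358) (nat_lit 294) (nat_lit 293)) (XT.lf (nat_lit 0) (nat_lit 2871959043) (nat_lit 420) (nat_lit 5174482930) (nat_lit 0) (nat_lit 853564948) (nat_lit 89) (nat_lit 5) (nat_lit 94) (nat_lit 4) (nat_lit 89) (nat_lit 4) (nat_lit 359) (nat_lit 294) (nat_lit 292))) (XT.nd (nat_lit 94) (nat_lit 84) (nat_lit 0) (XT.lf (nat_lit 0) (nat_lit 636946427) (nat_lit 420) (nat_lit 5687027046) (nat_lit 420) (nat_lit 2703309838) (nat_lit 84) (nat_lit 4) (nat_lit 89) (nat_lit 5) (nat_lit 89) (nat_lit 4) (nat_lit 360) (nat_lit 294) (nat_lit 291)) (XT.lf (nat_lit 0) (nat_lit 674205386) (nat_lit 504) (nat_lit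 2552287178) (nat_lit 84) (nat_lit 5932794804) (nat_lit 83) (nat_lit 5) (nat_lit 89) (nat_lit 5) (nat_lit 84) (nat_lit 4) (nat_lit 361) (nat_lit 294) (nat_lit 290))))))) (XT.nd (nat_lit 1316) (nat_lit 1428) (nat_lit 0) (XT.nd (nat_lit 658) (nat_lit 1260) (nat_lit 0) (XT.nd (nat_lit 282) (nat_lit 1008) (nat_lit 0) (XT.nd (nat_lit 94) (nat_lit 420) (nat_lit 0) (XT.lf (nat_lit 0) (nat_lit 3386812373) (nat_lit 336) (nat_lit 661289154) (nat_lit 420) (nat_lit 5247992147) (nat_lit 79) (nat_lit 5) (nat_lit 83) (nat_lit 5) (nat_lit 84) (nat_lit 4) (nat_lit 362) (nat_lit 294) (nat_lit 289)) (XT.nd (nat_lit 94) (nat_lit 420) (nat_lit 0) (XT.lf (nat_lit 0) (nat_lit 7486167189) (nat_lit 420) (nat_lit 13711208) (nat_lit 0) (nat_lit 1938360273) (nat_lit 79) (nat_lit 5) (nat_lit 84) (nat_lit 4) (nat_lit 79) (nat_lit 4) (nat_lit 363) (nat_lit 294) (nat_lit 288)) (XT.lf (nat_lit 0) (nat_lit 1399375578) (nat_lit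 420) (nat_lit 3539770688) (nat_lit 84) (nat_lit 4645657664) (nat_lit 74) (nat_lit 5) (nat_lit 79) (nat_lit 5) (nat_lit 75) (nat_lit 4) (nat_lit 364) (nat_lit 294) (nat_lit 287)))) (XT.nd (nat_lit 188) (nat_lit 672) (nat_lit 0) (XT.nd (nat_lit 94) (nat_lit 0) (nat_lit 0) (XT.lf (nat_lit 0) (nat_lit 2467019001) (nat_lit 336) (nat_lit 2289614014) (nat_lit 420) (nat_lit 4980330894) (nat_lit 70) (nat_lit 5) (nat_lit 74) (nat_lit 5) (nat_lit 75) (nat_lit 4) (nat_lit 365) (nat_lit 294) (nat_lit 286)) (XT.lf (nat_lit 0) (nat_lit 8176510751) (nat_lit 420) (nat_lit 1283513685) (nat_lit 0) (nat_lit 434916528) (nat_lit 70) (nat_lit 5) (nat_lit 75) (nat_lit 4) (nat_lit 70) (nat_lit 4) (nat_lit 366) (nat_lit 294) (nat_lit 285))) (XT.nd (nat_lit 94) (nat_lit 252) (nat_lit 0) (XT.lf (nat_lit 0) (nat_lit 1602231462) (nat_lit 420) (nat_lit 5228904139) (nat_lit 84) (nat_lit 3226363518) (nat_lit 65) (nat_lit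 5) (nat_lit 70) (nat_lit 5) (nat_lit 66) (nat_lit 4) (nat_lit 367) (nat_lit 294) (nat_lit 284)) (XT.lf (nat_lit 0) (nat_lit 814442893) (nat_lit 252) (nat_lit 4118644769) (nat_lit 336) (nat_lit 5293082603) (nat_lit 62) (nat_lit 5) (nat_lit 65) (nat_lit 5) (nat_lit 66) (nat_lit 4) (nat_lit 368) (nat_lit 294) (nat_lit 283))))) (XT.nd (nat_lit 282) (nat_lit 840) (nat_lit 0) (XT.nd (nat_lit 94) (nat_lit 420) (nat_lit 0) (XT.lf (nat_lit 0) (nat_lit 7037217725) (nat_lit 252) (nat_lit 1304808256) (nat_lit 336) (nat_lit 2058628031) (nat_lit 62) (nat_lit 5) (nat_lit 65) (nat_lit 5) (nat_lit 66) (nat_lit 4) (nat_lit 369) (nat_lit 294) (nat_lit 282)) (XT.nd (nat_lit 94) (nat_lit 0) (nat_lit 0) (XT.lf (nat_lit 0) (nat_lit 1217045355) (nat_lit 420) (nat_lit 7795566108) (nat_lit 84) (nat_lit 1568414626) (nat_lit 57) (nat_lit 5) (nat_lit 62) (nat_lit 5) (nat_lit 58) (nat_lit 4) (nat_lit 370) (nat_lit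 294) (nat_lit 281)) (XT.lf (nat_lit 0) (nat_lit 4524333658) (nat_lit 420) (nat_lit 1719963152) (nat_lit 84) (nat_lit 4522748328) (nat_lit 57) (nat_lit 5) (nat_lit 62) (nat_lit 5) (nat_lit 58) (nat_lit 4) (nat_lit 371) (nat_lit 294) (nat_lit 280)))) (XT.nd (nat_lit 188) (nat_lit 504) (nat_lit 0) (XT.nd (nat_lit 94) (nat_lit 84) (nat_lit 0) (XT.lf (nat_lit 0) (nat_lit 4520977570) (nat_lit 252) (nat_lit 3382934853) (nat_lit 336) (nat_lit 3055626505) (nat_lit 54) (nat_lit 5) (nat_lit 57) (nat_lit 5) (nat_lit 58) (nat_lit 4) (nat_lit 372) (nat_lit 294) (nat_lit 279)) (XT.lf (nat_lit 0) (nat_lit 170074224) (nat_lit 336) (nat_lit 280833724) (nat_lit 84) (nat_lit 10708492447) (nat_lit 53) (nat_lit 5) (nat_lit 57) (nat_lit 5) (nat_lit 54) (nat_lit 5) (nat_lit 373) (nat_lit 294) (nat_lit 278))) (XT.nd (nat_lit 94) (nat_lit 252) (nat_lit 0) (XT.lf (nat_lit 0) (nat_lit 3446432173) (nat_lit 336) (nat_lit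 5343119831) (nat_lit 84) (nat_lit 2574418049) (nat_lit 50) (nat_lit 5) (nat_lit 54) (nat_lit 5) (nat_lit 51) (nat_lit 4) (nat_lit 374) (nat_lit 294) (nat_lit 277)) (XT.lf (nat_lit 0) (nat_lit 851602032) (nat_lit 252) (nat_lit 5917604597) (nat_lit 336) (nat_lit 4807103099) (nat_lit 47) (nat_lit 5) (nat_lit 50) (nat_lit 5) (nat_lit 51) (nat_lit 4) (nat_lit 375) (nat_lit 294) (nat_lit 276)))))) (XT.nd (nat_lit 658) (nat_lit 588) (nat_lit 0) (XT.nd (nat_lit 282) (nat_lit 504) (nat_lit 0) (XT.nd (nat_lit 94) (nat_lit 336) (nat_lit 0) (XT.lf (nat_lit 0) (nat_lit 7239433694) (nat_lit 252) (nat_lit 2939776710) (nat_lit 336) (nat_lit 1616257271) (nat_lit 47) (nat_lit 5) (nat_lit 50) (nat_lit 5) (nat_lit 51) (nat_lit 4) (nat_lit 376) (nat_lit 294) (nat_lit 275)) (XT.nd (nat_lit 94) (nat_lit 0) (nat_lit 0) (XT.lf (nat_lit 0) (nat_lit 1590222210) (nat_lit 336) (nat_lit 10309006358) (nat_lit 84) (nat_lit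 122985237) (nat_lit 43) (nat_lit 5) (nat_lit 47) (nat_lit 5) (nat_lit 44) (nat_lit 4) (nat_lit 377) (nat_lit 294) (nat_lit 274)) (XT.lf (nat_lit 0) (nat_lit 4871396244) (nat_lit 336) (nat_lit 4137344324) (nat_lit 84) (nat_lit 3246280259) (nat_lit 43) (nat_lit 5) (nat_lit 47) (nat_lit 5) (nat_lit 44) (nat_lit 4) (nat_lit 378) (nat_lit 294) (nat_lit 273)))) (XT.nd (nat_lit 188) (nat_lit 336) (nat_lit 0) (XT.nd (nat_lit 94) (nat_lit 0) (nat_lit 0) (XT.lf (nat_lit 0) (nat_lit 2163314833) (nat_lit 168) (nat_lit 6045782969) (nat_lit 252) (nat_lit 4287037651) (nat_lit 41) (nat_lit 5) (nat_lit 43) (nat_lit 5) (nat_lit 44) (nat_lit 4) (nat_lit 379) (nat_lit 294) (nat_lit 272)) (XT.lf (nat_lit 0) (nat_lit 8640402849) (nat_lit 168) (nat_lit 2986493825) (nat_lit 252) (nat_lit 1118252088) (nat_lit 41) (nat_lit 5) (nat_lit 43) (nat_lit 5) (nat_lit 44) (nat_lit 4) (nat_lit 380) (nat_lit 294) (nat_lit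 271))) (XT.nd (nat_lit 94) (nat_lit 0) (nat_lit 0) (XT.lf (nat_lit 0) (nat_lit 2066229047) (nat_lit 336) (nat_lit 10766538177) (nat_lit 84) (nat_lit 169432039) (nat_lit 37) (nat_lit 5) (nat_lit 41) (nat_lit 5) (nat_lit 38) (nat_lit 4) (nat_lit 381) (nat_lit 294) (nat_lit 270)) (XT.lf (nat_lit 0) (nat_lit 5335048253) (nat_lit 336) (nat_lit 4552755480) (nat_lit 84) (nat_lit 3378545794) (nat_lit 37) (nat_lit 5) (nat_lit 41) (nat_lit 5) (nat_lit 38) (nat_lit 4) (nat_lit 382) (nat_lit 294) (nat_lit 269))))) (XT.nd (nat_lit 282) (nat_lit 168) (nat_lit 0) (XT.nd (nat_lit 94) (nat_lit 252) (nat_lit 0) (XT.lf (nat_lit 0) (nat_lit 1788743766) (nat_lit 168) (nat_lit 6871984584) (nat_lit 252) (nat_lit 4878989130) (nat_lit 35) (nat_lit 5) (nat_lit 37) (nat_lit 5) (nat_lit 38) (nat_lit 4) (nat_lit 383) (nat_lit 294) (nat_lit 268)) (XT.nd (nat_lit 94) (nat_lit 252) (nat_lit 0) (XT.lf (nat_lit 0) (nat_lit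 8321130914) (nat_lit 168) (nat_lit 3753433638) (nat_lit 252) (nat_lit 1747125758) (nat_lit 35) (nat_lit 5) (nat_lit 37) (nat_lit 5) (nat_lit 38) (nat_lit 4) (nat_lit 384) (nat_lit 294) (nat_lit 267)) (XT.lf (nat_lit 0) (nat_lit 848549915) (nat_lit 168) (nat_lit 552928548) (nat_lit 252) (nat_lit 12711720478) (nat_lit 32) (nat_lit 5) (nat_lit 34) (nat_lit 5) (nat_lit 35) (nat_lit 5) (nat_lit 385) (nat_lit 294) (nat_lit 266)))) (XT.nd (nat_lit 188) (nat_lit 168) (nat_lit 0) (XT.nd (nat_lit 94) (nat_lit 0) (nat_lit 0) (XT.lf (nat_lit 0) (nat_lit 4635822525) (nat_lit 252) (nat_lit 7046778019) (nat_lit 84) (nat_lit 2729592131) (nat_lit 32) (nat_lit 5) (nat_lit 35) (nat_lit 5) (nat_lit 33) (nat_lit 4) (nat_lit 386) (nat_lit 294) (nat_lit 265)) (XT.lf (nat_lit 0) (nat_lit 7918233887) (nat_lit 252) (nat_lit 736834555) (nat_lit 84) (nat_lit 6066605898) (nat_lit 32) (nat_lit 5) (nat_lit 35) (nat_lit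 5) (nat_lit 33) (nat_lit 4) (nat_lit 387) (nat_lit 294) (nat_lit 264))) (XT.nd (nat_lit 94) (nat_lit 0) (nat_lit 0) (XT.lf (nat_lit 0) (nat_lit 5788973722) (nat_lit 168) (nat_lit 5512939024) (nat_lit 252) (nat_lit 3738491649) (nat_lit 30) (nat_lit 5) (nat_lit 32) (nat_lit 5) (nat_lit 33) (nat_lit 4) (nat_lit 388) (nat_lit 294) (nat_lit 263)) (XT.lf (nat_lit 0) (nat_lit 12440110449) (nat_lit 168) (nat_lit 2302297126) (nat_lit 252) (nat_lit 627676015) (nat_lit 30) (nat_lit 5) (nat_lit 32) (nat_lit 5) (nat_lit 33) (nat_lit 4) (nat_lit 389) (nat_lit 294) (nat_lit 262))))))))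
noncomputable def xc42 : XT := (XT.nd (nat_lit 2538) (nat_lit 504) (nat_lit 0) (XT.nd (nat_lit 1222) (nat_lit 504) (nat_lit 0) (XT.nd (nat_lit 564) (nat_lit 336) (nat_lit 0) (XT.nd (nat_lit 282) (nat_lit 252) (nat_lit 0) (XT.nd (nat_lit 94) (nat_lit 168) (nat_lit 0) (XT.lf (nat_lit 0) (nat_lit 2518990644) (nat_lit 252) (nat_lit 12178044816) (nat_lit 84) (nat_lit 1012134363) (nat_lit 27) (nat_lit 5) (nat_lit 30) (nat_lit 5) (nat_lit 28) (nat_lit 4) (nat_lit 390) (nat_lit 294) (nat_lit 261)) (XT.nd (nat_lit 94) (nat_lit 168) (nat_lit 0) (XT.lf (nat_lit 0) (nat_lit 5749328712) (nat_lit 252) (nat_lit 5925262734) (nat_lit 84) (nat_lit 4383636614) (nat_lit 27) (nat_lit 5) (nat_lit 30) (nat_lit 5) (nat_lit 28) (nat_lit 4) (nat_lit 391) (nat_lit 294) (nat_lit 260)) (XT.lf (nat_lit 0) (nat_lit 441646355) (nat_lit 168) (nat_lit 8589867329) (nat_lit 252) (nat_lit 7387637486) (nat_lit 25) (nat_lit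 5) (nat_lit 27) (nat_lit 5) (nat_lit 28) (nat_lit 4) (nat_lit 392) (nat_lit 294) (nat_lit 259)))) (XT.nd (nat_lit 94) (nat_lit 252) (nat_lit 0) (XT.lf (nat_lit 0) (nat_lit 7039754880) (nat_lit 168) (nat_lit 5383589204) (nat_lit 252) (nat_lit 4367262521) (nat_lit 25) (nat_lit 5) (nat_lit 27) (nat_lit 5) (nat_lit 28) (nat_lit 4) (nat_lit 393) (nat_lit 294) (nat_lit 258)) (XT.nd (nat_lit 94) (nat_lit 252) (nat_lit 0) (XT.lf (nat_lit 0) (nat_lit 13756903834) (nat_lit 168) (nat_lit 2112789005) (nat_lit 252) (nat_lit 1304968824) (nat_lit 25) (nat_lit 5) (nat_lit 27) (nat_lit 5) (nat_lit 28) (nat_lit 4) (nat_lit 394) (nat_lit 294) (nat_lit 257)) (XT.lf (nat_lit 0) (nat_lit 1808510038) (nat_lit 252) (nat_lit 14512595699) (nat_lit 84) (nat_lit 1248773976) (nat_lit 22) (nat_lit 5) (nat_lit 25) (nat_lit 5) (nat_lit 23) (nat_lit 4) (nat_lit 395) (nat_lit 294) (nat_lit 256))))) (XT.nd (nat_lit 282)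 (nat_lit 252) (nat_lit 0) (XT.nd (nat_lit 94) (nat_lit 84) (nat_lit 0) (XT.lf (nat_lit 0) (nat_lit 4998899124) (nat_lit 252) (nat_lit 8291374569) (nat_lit 84) (nat_lit 4686036528) (nat_lit 22) (nat_lit 5) (nat_lit 25) (nat_lit 5) (nat_lit 23) (nat_lit 4) (nat_lit 396) (nat_lit 294) (nat_lit 255)) (XT.nd (nat_lit 94) (nat_lit 84) (nat_lit 0) (XT.lf (nat_lit 0) (nat_lit 8240302188) (nat_lit 252) (nat_lit 1959160055) (nat_lit 84) (nat_lit 8196846862) (nat_lit 22) (nat_lit 5) (nat_lit 25) (nat_lit 5) (nat_lit 23) (nat_lit 4) (nat_lit 397) (nat_lit 294) (nat_lit 254)) (XT.lf (nat_lit 0) (nat_lit 4578932307) (nat_lit 84) (nat_lit 7000634712) (nat_lit 168) (nat_lit 7249355868) (nat_lit 21) (nat_lit 5) (nat_lit 22) (nat_lit 5) (nat_lit 23) (nat_lit 4) (nat_lit 398) (nat_lit 294) (nat_lit 253)))) (XT.nd (nat_lit 188) (nat_lit 252) (nat_lit 0) (XT.nd (nat_lit 94) (nat_lit 0) (nat_lit 0) (XT.lf (nat_lit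 0) (nat_lit 11280608254) (nat_lit 84) (nat_lit 3715354323) (nat_lit 168) (nat_lit 4279276470) (nat_lit 21) (nat_lit 5) (nat_lit 22) (nat_lit 5) (nat_lit 23) (nat_lit 4) (nat_lit 399) (nat_lit 294) (nat_lit 252)) (XT.lf (nat_lit 0) (nat_lit 18112732491) (nat_lit 84) (nat_lit 360534118) (nat_lit 168) (nat_lit 1262957183) (nat_lit 21) (nat_lit 5) (nat_lit 22) (nat_lit 5) (nat_lit 23) (nat_lit 4) (nat_lit 400) (nat_lit 294) (nat_lit 251))) (XT.nd (nat_lit 94) (nat_lit 0) (nat_lit 0) (XT.lf (nat_lit 0) (nat_lit 1844756880) (nat_lit 252) (nat_lit 15292226797) (nat_lit 84) (nat_lit 3072445899) (nat_lit 18) (nat_lit 5) (nat_lit 21) (nat_lit 5) (nat_lit 19) (nat_lit 4) (nat_lit 401) (nat_lit 294) (nat_lit 250)) (XT.lf (nat_lit 0) (nat_lit 4999896824) (nat_lit 252) (nat_lit 9094849535) (nat_lit 84) (nat_lit 6602351595) (nat_lit 18) (nat_lit 5) (nat_lit 21) (nat_lit 5) (nat_lit 19) (nat_lit 4) (nat_lit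 402) (nat_lit 294) (nat_lit 249)))))) (XT.nd (nat_lit 658) (nat_lit 168) (nat_lit 0) (XT.nd (nat_lit 282) (nat_lit 252) (nat_lit 0) (XT.nd (nat_lit 94) (nat_lit 84) (nat_lit 0) (XT.lf (nat_lit 0) (nat_lit 8210324565) (nat_lit 252) (nat_lit 2779192703) (nat_lit 84) (nat_lit 10211088185) (nat_lit 18) (nat_lit 5) (nat_lit 21) (nat_lit 5) (nat_lit 19) (nat_lit 4) (nat_lit 403) (nat_lit 294) (nat_lit 248)) (XT.nd (nat_lit 94) (nat_lit 0) (nat_lit 0) (XT.lf (nat_lit 0) (nat_lit 3733108631) (nat_lit 84) (nat_lit 7781621623) (nat_lit 168) (nat_lit 10204585226) (nat_lit 17) (nat_lit 5) (nat_lit 18) (nat_lit 5) (nat_lit 19) (nat_lit 4) (nat_lit 404) (nat_lit 294) (nat_lit 247)) (XT.lf (nat_lit 0) (nat_lit 10432721971) (nat_lit 84) (nat_lit 4475878843) (nat_lit 168) (nat_lit 7345302476) (nat_lit 17) (nat_lit 5) (nat_lit 18) (nat_lit 5) (nat_lit 19) (nat_lit 4) (nat_lit 405) (nat_lit 294) (nat_lit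 246)))) (XT.nd (nat_lit 188) (nat_lit 84) (nat_lit 0) (XT.nd (nat_lit 94) (nat_lit 168) (nat_lit 0) (XT.lf (nat_lit 0) (nat_lit 17270189965) (nat_lit 84) (nat_lit 1097464813) (nat_lit 168) (nat_lit 4437998631) (nat_lit 17) (nat_lit 5) (nat_lit 18) (nat_lit 5) (nat_lit 19) (nat_lit 4) (nat_lit 406) (nat_lit 294) (nat_lit 245)) (XT.lf (nat_lit 0) (nat_lit 870778355) (nat_lit 168) (nat_lit 21055159533) (nat_lit 168) (nat_lit 1448179362) (nat_lit 15) (nat_lit 4) (nat_lit 17) (nat_lit 5) (nat_lit 17) (nat_lit 4) (nat_lit 407) (nat_lit 294) (nat_lit 244))) (XT.nd (nat_lit 94) (nat_lit 0) (nat_lit 0) (XT.lf (nat_lit 0) (nat_lit 1631082734) (nat_lit 252) (nat_lit 16464644912) (nat_lit 84) (nat_lit 5862512986) (nat_lit 14) (nat_lit 5) (nat_lit 17) (nat_lit 5) (nat_lit 15) (nat_lit 4) (nat_lit 408) (nat_lit 294) (nat_lit 243)) (XT.lf (nat_lit 0) (nat_lit 4738921264) (nat_lit 252) (nat_lit 10319579972)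 (nat_lit 84) (nat_lit 9502019990) (nat_lit 14) (nat_lit 5) (nat_lit 17) (nat_lit 5) (nat_lit 15) (nat_lit 4) (nat_lit 409) (nat_lit 294) (nat_lit 242))))) (XT.nd (nat_lit 282) (nat_lit 84) (nat_lit 0) (XT.nd (nat_lit 94) (nat_lit 84) (nat_lit 0) (XT.lf (nat_lit 0) (nat_lit 7906311008) (nat_lit 252) (nat_lit 4048853815) (nat_lit 84) (nat_lit 13226738095) (nat_lit 14) (nat_lit 5) (nat_lit 17) (nat_lit 5) (nat_lit 15) (nat_lit 4) (nat_lit 410) (nat_lit 294) (nat_lit 241)) (XT.nd (nat_lit 94) (nat_lit 0) (nat_lit 0) (XT.lf (nat_lit 0) (nat_lit 2399842403) (nat_lit 84) (nat_lit 8759245939) (nat_lit 168) (nat_lit 14663148259) (nat_lit 13) (nat_lit 5) (nat_lit 14) (nat_lit 5) (nat_lit 15) (nat_lit 4) (nat_lit 411) (nat_lit 294) (nat_lit 240)) (XT.lf (nat_lit 0) (nat_lit 9068574390) (nat_lit 84) (nat_lit 5449467378) (nat_lit 168) (nat_lit 11963501635) (nat_lit 13) (nat_lit 5) (nat_lit 14) (nat_lit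 5) (nat_lit 15) (nat_lit 4) (nat_lit 412) (nat_lit 294) (nat_lit 239)))) (XT.nd (nat_lit 188) (nat_lit 84) (nat_lit 0) (XT.nd (nat_lit 94) (nat_lit 0) (nat_lit 0) (XT.lf (nat_lit 0) (nat_lit 15882589062) (nat_lit 84) (nat_lit 2063822584) (nat_lit 168) (nat_lit 9215178608) (nat_lit 13) (nat_lit 5) (nat_lit 14) (nat_lit 5) (nat_lit 15) (nat_lit 4) (nat_lit 413) (nat_lit 294) (nat_lit 238)) (XT.lf (nat_lit 0) (nat_lit 21460657516) (nat_lit 168) (nat_lit 5028594833) (nat_lit 0) (nat_lit 1373315108) (nat_lit 13) (nat_lit 5) (nat_lit 15) (nat_lit 4) (nat_lit 13) (nat_lit 4) (nat_lit 414) (nat_lit 294) (nat_lit 237))) (XT.nd (nat_lit 94) (nat_lit 0) (nat_lit 0) (XT.lf (nat_lit 0) (nat_lit 1363161887) (nat_lit 84) (nat_lit 23720941630) (nat_lit 84) (nat_lit 3500376394) (nat_lit 12) (nat_lit 4) (nat_lit 13) (nat_lit 5) (nat_lit 13) (nat_lit 4) (nat_lit 415) (nat_lit 294) (nat_lit 236)) (XT.lf (nat_lit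 0) (nat_lit 7997937454) (nat_lit 84) (nat_lit 20839698569) (nat_lit 84) (nat_lit 489790781) (nat_lit 12) (nat_lit 4) (nat_lit 13) (nat_lit 5) (nat_lit 13) (nat_lit 4) (nat_lit 416) (nat_lit 294) (nat_lit 235))))))) (XT.nd (nat_lit 1316) (nat_lit 168) (nat_lit 0) (XT.nd (nat_lit 658) (nat_lit 168) (nat_lit 0) (XT.nd (nat_lit 282) (nat_lit 84) (nat_lit 0) (XT.nd (nat_lit 94) (nat_lit 0) (nat_lit 0) (XT.lf (nat_lit 0) (nat_lit 2531320318) (nat_lit 168) (nat_lit 15336902835) (nat_lit 84) (nat_lit 12224568656) (nat_lit 11) (nat_lit 5) (nat_lit 13) (nat_lit 5) (nat_lit 12) (nat_lit 4) (nat_lit 417) (nat_lit 294) (nat_lit 234)) (XT.nd (nat_lit 94) (nat_lit 0) (nat_lit 0) (XT.lf (nat_lit 0) (nat_lit 5605220564) (nat_lit 168) (nat_lit 9218803095) (nat_lit 84) (nat_lit 16057805604) (nat_lit 11) (nat_lit 5) (nat_lit 13) (nat_lit 5) (nat_lit 12) (nat_lit 4) (nat_lit 418) (nat_lit 294) (nat_lit 233))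 (XT.lf (nat_lit 0) (nat_lit 8744153471) (nat_lit 168) (nat_lit 2965136051) (nat_lit 84) (nat_lit 19986080340) (nat_lit 11) (nat_lit 5) (nat_lit 13) (nat_lit 5) (nat_lit 12) (nat_lit 4) (nat_lit 419) (nat_lit 294) (nat_lit 232)))) (XT.nd (nat_lit 188) (nat_lit 0) (nat_lit 0) (XT.nd (nat_lit 94) (nat_lit 0) (nat_lit 0) (XT.lf (nat_lit 0) (nat_lit 3497817688) (nat_lit 84) (nat_lit 8486667271) (nat_lit 168) (nat_lit 20548630813) (nat_lit 10) (nat_lit 5) (nat_lit 11) (nat_lit 5) (nat_lit 12) (nat_lit 4) (nat_lit 420) (nat_lit 294) (nat_lit 231)) (XT.lf (nat_lit 0) (nat_lit 10169320734) (nat_lit 84) (nat_lit 5156580514) (nat_lit 168) (nat_lit 18069992110) (nat_lit 10) (nat_lit 5) (nat_lit 11) (nat_lit 5) (nat_lit 12) (nat_lit 4) (nat_lit 421) (nat_lit 294) (nat_lit 230))) (XT.nd (nat_lit 94) (nat_lit 0) (nat_lit 0) (XT.lf (nat_lit 0) (nat_lit 16996190535) (nat_lit 84) (nat_lit 1746061527) (nat_lit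 168) (nat_lit 15543076541) (nat_lit 10) (nat_lit 5) (nat_lit 11) (nat_lit 5) (nat_lit 12) (nat_lit 4) (nat_lit 422) (nat_lit 294) (nat_lit 229)) (XT.lf (nat_lit 0) (nat_lit 22253324154) (nat_lit 168) (nat_lit 11234607960) (nat_lit 0) (nat_lit 1713762520) (nat_lit 10) (nat_lit 5) (nat_lit 12) (nat_lit 4) (nat_lit 10) (nat_lit 4) (nat_lit 423) (nat_lit 294) (nat_lit 228))))) (XT.nd (nat_lit 282) (nat_lit 84) (nat_lit 0) (XT.nd (nat_lit 94) (nat_lit 84) (nat_lit 0) (XT.lf (nat_lit 0) (nat_lit 25862984545) (nat_lit 168) (nat_lit 5058491027) (nat_lit 0) (nat_lit 5224292616) (nat_lit 10) (nat_lit 5) (nat_lit 12) (nat_lit 4) (nat_lit 10) (nat_lit 4) (nat_lit 424) (nat_lit 294) (nat_lit 227)) (XT.nd (nat_lit 94) (nat_lit 0) (nat_lit 0) (XT.lf (nat_lit 0) (nat_lit 1286497752) (nat_lit 84) (nat_lit 28283471947) (nat_lit 84) (nat_lit 7548537012) (nat_lit 9) (nat_lit 4) (nat_lit 10) (nat_lit 5) (nat_lit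 10) (nat_lit 4) (nat_lit 425) (nat_lit 294) (nat_lit 226)) (XT.lf (nat_lit 0) (nat_lit 7884421456) (nat_lit 84) (nat_lit 25531776541) (nat_lit 84) (nat_lit 4703401795) (nat_lit 9) (nat_lit 4) (nat_lit 10) (nat_lit 5) (nat_lit 10) (nat_lit 4) (nat_lit 426) (nat_lit 294) (nat_lit 225)))) (XT.nd (nat_lit 188) (nat_lit 0) (nat_lit 0) (XT.nd (nat_lit 94) (nat_lit 84) (nat_lit 0) (XT.lf (nat_lit 0) (nat_lit 14640371369) (nat_lit 84) (nat_lit 22715065801) (nat_lit 84) (nat_lit 1795972791) (nat_lit 9) (nat_lit 4) (nat_lit 10) (nat_lit 5) (nat_lit 10) (nat_lit 4) (nat_lit 427) (nat_lit 294) (nat_lit 224)) (XT.lf (nat_lit 0) (nat_lit 1153336805) (nat_lit 168) (nat_lit 18665895278) (nat_lit 84) (nat_lit 20395267503) (nat_lit 8) (nat_lit 5) (nat_lit 10) (nat_lit 5) (nat_lit 9) (nat_lit 4) (nat_lit 428) (nat_lit 294) (nat_lit 223))) (XT.nd (nat_lit 94) (nat_lit 0) (nat_lit 0) (XT.lf (nat_lit 0) (nat_lit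 4133716056) (nat_lit 168) (nat_lit 12701236062) (nat_lit 84) (nat_lit 24474647608) (nat_lit 8) (nat_lit 5) (nat_lit 10) (nat_lit 5) (nat_lit 9) (nat_lit 4) (nat_lit 429) (nat_lit 294) (nat_lit 222)) (XT.lf (nat_lit 0) (nat_lit 7182815074) (nat_lit 168) (nat_lit 6594585118) (nat_lit 84) (nat_lit 28660784994) (nat_lit 8) (nat_lit 5) (nat_lit 10) (nat_lit 5) (nat_lit 9) (nat_lit 4) (nat_lit 430) (nat_lit 294) (nat_lit 221)))))) (XT.nd (nat_lit 658) (nat_lit 84) (nat_lit 0) (XT.nd (nat_lit 282) (nat_lit 0) (nat_lit 0) (XT.nd (nat_lit 94) (nat_lit 84) (nat_lit 0) (XT.lf (nat_lit 0) (nat_lit 10303298120) (nat_lit 168) (nat_lit 340606537) (nat_lit 84) (nat_lit 32957337450) (nat_lit 8) (nat_lit 5) (nat_lit 10) (nat_lit 5) (nat_lit 9) (nat_lit 4) (nat_lit 431) (nat_lit 294) (nat_lit 220)) (XT.nd (nat_lit 94) (nat_lit 0) (nat_lit 0) (XT.lf (nat_lit 0) (nat_lit 6186892886) (nat_lit 84) (nat_lit 7370471142)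 (nat_lit 168) (nat_lit 31240638560) (nat_lit 7) (nat_lit 5) (nat_lit 8) (nat_lit 5) (nat_lit 9) (nat_lit 4) (nat_lit 432) (nat_lit 294) (nat_lit 219)) (XT.lf (nat_lit 0) (nat_lit 12882713755) (nat_lit 84) (nat_lit 4010510365) (nat_lit 168) (nat_lit 29137927181) (nat_lit 7) (nat_lit 5) (nat_lit 8) (nat_lit 5) (nat_lit 9) (nat_lit 4) (nat_lit 433) (nat_lit 294) (nat_lit 218)))) (XT.nd (nat_lit 188) (nat_lit 0) (nat_lit 0) (XT.nd (nat_lit 94) (nat_lit 0) (nat_lit 0) (XT.lf (nat_lit 0) (nat_lit 19745928050) (nat_lit 84) (nat_lit 564525895) (nat_lit 168) (nat_lit 26991411991) (nat_lit 7) (nat_lit 5) (nat_lit 8) (nat_lit 5) (nat_lit 9) (nat_lit 4) (nat_lit 434) (nat_lit 294) (nat_lit 217)) (XT.lf (nat_lit 0) (nat_lit 23840593631) (nat_lit 168) (nat_lit 21857278270) (nat_lit 0) (nat_lit 2912528296) (nat_lit 7) (nat_lit 5) (nat_lit 9) (nat_lit 4) (nat_lit 7) (nat_lit 4) (nat_lit 435) (nat_lit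 294) (nat_lit 216))) (XT.nd (nat_lit 94) (nat_lit 0) (nat_lit 0) (XT.lf (nat_lit 0) (nat_lit 27464460733) (nat_lit 168) (nat_lit 16025212253) (nat_lit 0) (nat_lit 6468892490) (nat_lit 7) (nat_lit 5) (nat_lit 9) (nat_lit 4) (nat_lit 7) (nat_lit 4) (nat_lit 436) (nat_lit 294) (nat_lit 215)) (XT.lf (nat_lit 0) (nat_lit 31179795168) (nat_lit 168) (nat_lit 10049217289) (nat_lit 0) (nat_lit 10118690122) (nat_lit 7) (nat_lit 5) (nat_lit 9) (nat_lit 4) (nat_lit 7) (nat_lit 4) (nat_lit 437) (nat_lit 294) (nat_lit 214))))) (XT.nd (nat_lit 282) (nat_lit 0) (nat_lit 0) (XT.nd (nat_lit 94) (nat_lit 84) (nat_lit 0) (XT.lf (nat_lit 0) (nat_lit 34989843346) (nat_lit 168) (nat_lit 3924071633) (nat_lit 0) (nat_lit 13865110335) (nat_lit 7) (nat_lit 5) (nat_lit 9) (nat_lit 4) (nat_lit 7) (nat_lit 4) (nat_lit 438) (nat_lit 294) (nat_lit 213)) (XT.nd (nat_lit 94) (nat_lit 0) (nat_lit 0) (XT.lf (nat_lit 0) (nat_lit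 2402457379) (nat_lit 84) (nat_lit 36518570945) (nat_lit 84) (nat_lit 15332063211) (nat_lit 6) (nat_lit 4) (nat_lit 7) (nat_lit 5) (nat_lit 7) (nat_lit 4) (nat_lit 439) (nat_lit 294) (nat_lit 212)) (XT.lf (nat_lit 0) (nat_lit 8970257055) (nat_lit 84) (nat_lit 34023453814) (nat_lit 84) (nat_lit 12776970621) (nat_lit 6) (nat_lit 4) (nat_lit 7) (nat_lit 5) (nat_lit 7) (nat_lit 4) (nat_lit 440) (nat_lit 294) (nat_lit 211)))) (XT.nd (nat_lit 188) (nat_lit 0) (nat_lit 0) (XT.nd (nat_lit 94) (nat_lit 0) (nat_lit 0) (XT.lf (nat_lit 0) (nat_lit 15706969529) (nat_lit 84) (nat_lit 31466008816) (nat_lit 84) (nat_lit 10161297021) (nat_lit 6) (nat_lit 4) (nat_lit 7) (nat_lit 5) (nat_lit 7) (nat_lit 4) (nat_lit 441) (nat_lit 294) (nat_lit 210)) (XT.lf (nat_lit 0) (nat_lit 22618481247) (nat_lit 84) (nat_lit 28844001290) (nat_lit 84) (nat_lit 7482756873) (nat_lit 6) (nat_lit 4) (nat_lit 7) (nat_lit 5) (nat_lit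 7) (nat_lit 4) (nat_lit 442) (nat_lit 294) (nat_lit 209))) (XT.nd (nat_lit 94) (nat_lit 0) (nat_lit 0) (XT.lf (nat_lit 0) (nat_lit 29710831395) (nat_lit 84) (nat_lit 26155140161) (nat_lit 84) (nat_lit 4739009703) (nat_lit 6) (nat_lit 4) (nat_lit 7) (nat_lit 5) (nat_lit 7) (nat_lit 4) (nat_lit 443) (nat_lit 294) (nat_lit 208)) (XT.lf (nat_lit 0) (nat_lit 36990217173) (nat_lit 84) (nat_lit 23397075940) (nat_lit 84) (nat_lit 1927658063) (nat_lit 6) (nat_lit 4) (nat_lit 7) (nat_lit 5) (nat_lit 7) (nat_lit 4) (nat_lit 444) (nat_lit 294) (nat_lit 207))))))))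
noncomputable def xc43 : XT := (XT.nd (nat_lit 52264) (nat_lit 0) (nat_lit 1512) (XT.nd (nat_lit 50948) (nat_lit 0) (nat_lit 4872) (XT.nd (nat_lit 658) (nat_lit 0) (nat_lit 0) (XT.nd (nat_lit 282) (nat_lit 84) (nat_lit 0) (XT.nd (nat_lit 94) (nat_lit 0) (nat_lit 0) (XT.lf (nat_lit 0) (nat_lit 935143380) (nat_lit 168) (nat_lit 19622812172) (nat_lit 84) (nat_lit 43518412713) (nat_lit 5) (nat_lit 5) (nat_lit 7) (nat_lit 5) (nat_lit 6) (nat_lit 4) (nat_lit 445) (nat_lit 294) (nat_lit 206)) (XT.nd (nat_lit 94) (nat_lit 0) (nat_lit 0) (XT.lf (nat_lit 0) (nat_lit 3831491730) (nat_lit 168) (nat_lit 13793453524) (nat_lit 84) (nat_lit 48265524832) (nat_lit 5) (nat_lit 5) (nat_lit 7) (nat_lit 5) (nat_lit 6) (nat_lit 4) (nat_lit 446) (nat_lit 294) (nat_lit 205)) (XT.lf (nat_lit 0) (nat_lit 6801533327) (nat_lit 168) (nat_lit 7813034619) (nat_lit 84) (nat_lit 53144829726) (nat_lit 5) (nat_lit 5) (nat_lit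 7) (nat_lit 5) (nat_lit 6) (nat_lit 4) (nat_lit 447) (nat_lit 294) (nat_lit 204)))) (XT.nd (nat_lit 188) (nat_lit 0) (nat_lit 0) (XT.nd (nat_lit 94) (nat_lit 84) (nat_lit 0) (XT.lf (nat_lit 0) (nat_lit 9847863354) (nat_lit 168) (nat_lit 1676329845) (nat_lit 84) (nat_lit 58160590868) (nat_lit 5) (nat_lit 5) (nat_lit 7) (nat_lit 5) (nat_lit 6) (nat_lit 4) (nat_lit 448) (nat_lit 294) (nat_lit 203)) (XT.lf (nat_lit 0) (nat_lit 4714010283) (nat_lit 84) (nat_lit 8304447319) (nat_lit 168) (nat_lit 58648494626) (nat_lit 4) (nat_lit 5) (nat_lit 5) (nat_lit 5) (nat_lit 6) (nat_lit 4) (nat_lit 449) (nat_lit 294) (nat_lit 202))) (XT.nd (nat_lit 94) (nat_lit 0) (nat_lit 0) (XT.lf (nat_lit 0) (nat_lit 11308190757) (nat_lit 84) (nat_lit 4980615539) (nat_lit 168) (nat_lit 57419646257) (nat_lit 4) (nat_lit 5) (nat_lit 5) (nat_lit 5) (nat_lit 6) (nat_lit 4) (nat_lit 450) (nat_lit 294) (nat_lit 201)) (XT.lf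 (nat_lit 0) (nat_lit 18078611229) (nat_lit 84) (nat_lit 1566721185) (nat_lit 168) (nat_lit 56166229501) (nat_lit 4) (nat_lit 5) (nat_lit 5) (nat_lit 5) (nat_lit 6) (nat_lit 4) (nat_lit 451) (nat_lit 294) (nat_lit 200))))) (XT.nd (nat_lit 282) (nat_lit 0) (nat_lit 0) (XT.nd (nat_lit 94) (nat_lit 0) (nat_lit 0) (XT.lf (nat_lit 0) (nat_lit 23109619414) (nat_lit 168) (nat_lit 52965580952) (nat_lit 0) (nat_lit 1902358100) (nat_lit 4) (nat_lit 5) (nat_lit 6) (nat_lit 4) (nat_lit 4) (nat_lit 4) (nat_lit 452) (nat_lit 294) (nat_lit 199)) (XT.nd (nat_lit 94) (nat_lit 0) (nat_lit 0) (XT.lf (nat_lit 0) (nat_lit 26682011625) (nat_lit 168) (nat_lit 48091304214) (nat_lit 0) (nat_lit 5435099467) (nat_lit 4) (nat_lit 5) (nat_lit 6) (nat_lit 4) (nat_lit 4) (nat_lit 4) (nat_lit 453) (nat_lit 294) (nat_lit 198)) (XT.lf (nat_lit 0) (nat_lit 30350570273) (nat_lit 168) (nat_lit 43090801112) (nat_lit 0) (nat_lit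 9065162150) (nat_lit 4) (nat_lit 5) (nat_lit 6) (nat_lit 4) (nat_lit 4) (nat_lit 4) (nat_lit 454) (nat_lit 294) (nat_lit 197)))) (XT.nd (nat_lit 188) (nat_lit 0) (nat_lit 0) (XT.nd (nat_lit 94) (nat_lit 0) (nat_lit 0) (XT.lf (nat_lit 0) (nat_lit 34118500895) (nat_lit 168) (nat_lit 37959702275) (nat_lit 0) (nat_lit 12795718048) (nat_lit 4) (nat_lit 5) (nat_lit 6) (nat_lit 4) (nat_lit 4) (nat_lit 4) (nat_lit 455) (nat_lit 294) (nat_lit 196)) (XT.lf (nat_lit 0) (nat_lit 37989095856) (nat_lit 168) (nat_lit 32693524219) (nat_lit 0) (nat_lit 16630026870) (nat_lit 4) (nat_lit 5) (nat_lit 6) (nat_lit 4) (nat_lit 4) (nat_lit 4) (nat_lit 456) (nat_lit 294) (nat_lit 195))) (XT.nd (nat_lit 49726) (nat_lit 0) (nat_lit 8484) (XT.lf (nat_lit 0) (nat_lit 41965737231) (nat_lit 168) (nat_lit 27287665429) (nat_lit 0) (nat_lit 20571438983) (nat_lit 4) (nat_lit 5) (nat_lit 6) (nat_lit 4) (nat_lit 4) (nat_lit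 4) (nat_lit 457) (nat_lit 294) (nat_lit 194)) (XT.lf (nat_lit 0) (nat_lit 3193295536) (nat_lit 504) (nat_lit 512280335) (nat_lit 504) (nat_lit 512280335) (nat_lit 105) (nat_lit 4) (nat_lit 111) (nat_lit 5) (nat_lit 111) (nat_lit 4) (nat_lit 355) (nat_lit 295) (nat_lit 295)))))) (XT.nd (nat_lit 658) (nat_lit 1428) (nat_lit 0) (XT.nd (nat_lit 282) (nat_lit 1176) (nat_lit 0) (XT.nd (nat_lit 94) (nat_lit 504) (nat_lit 0) (XT.lf (nat_lit 0) (nat_lit 2356424703) (nat_lit 504) (nat_lit 4919578244) (nat_lit 0) (nat_lit 1269945036) (nat_lit 99) (nat_lit 5) (nat_lit 105) (nat_lit 4) (nat_lit 99) (nat_lit 4) (nat_lit 356) (nat_lit 295) (nat_lit 294)) (XT.nd (nat_lit 94) (nat_lit 84) (nat_lit 0) (XT.lf (nat_lit 0) (nat_lit 735072514) (nat_lit 420) (nat_lit 5033534326) (nat_lit 420) (nat_lit 2892220030) (nat_lit 94) (nat_lit 4) (nat_lit 99) (nat_lit 5) (nat_lit 99) (nat_lit 4) (nat_lit 357) (nat_lit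 295) (nat_lit 293)) (XT.lf (nat_lit 0) (nat_lit 457062075) (nat_lit 504) (nat_lit 2237589572) (nat_lit 84) (nat_lit 6085610974) (nat_lit 93) (nat_lit 5) (nat_lit 99) (nat_lit 5) (nat_lit 94) (nat_lit 4) (nat_lit 358) (nat_lit 295) (nat_lit 292)))) (XT.nd (nat_lit 188) (nat_lit 420) (nat_lit 0) (XT.nd (nat_lit 94) (nat_lit 420) (nat_lit 0) (XT.lf (nat_lit 0) (nat_lit 3550408802) (nat_lit 336) (nat_lit 247678485) (nat_lit 420) (nat_lit 5105991747) (nat_lit 89) (nat_lit 5) (nat_lit 93) (nat_lit 5) (nat_lit 94) (nat_lit 4) (nat_lit 359) (nat_lit 295) (nat_lit 291)) (XT.lf (nat_lit 0) (nat_lit 399979713) (nat_lit 420) (nat_lit 6804287864) (nat_lit 420) (nat_lit 1828529123) (nat_lit 84) (nat_lit 4) (nat_lit 89) (nat_lit 5) (nat_lit 89) (nat_lit 4) (nat_lit 360) (nat_lit 295) (nat_lit 290))) (XT.nd (nat_lit 94) (nat_lit 336) (nat_lit 0) (XT.lf (nat_lit 0) (nat_lit 1490947111) (nat_lit 504) (nat_lit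 2859045721) (nat_lit 84) (nat_lit 4815847172) (nat_lit 83) (nat_lit 5) (nat_lit 89) (nat_lit 5) (nat_lit 84) (nat_lit 4) (nat_lit 361) (nat_lit 295) (nat_lit 289)) (XT.lf (nat_lit 0) (nat_lit 3018626962) (nat_lit 336) (nat_lit 1802901468) (nat_lit 420) (nat_lit 4482477955) (nat_lit 79) (nat_lit 5) (nat_lit 83) (nat_lit 5) (nat_lit 84) (nat_lit 4) (nat_lit 362) (nat_lit 295) (nat_lit 288))))) (XT.nd (nat_lit 282) (nat_lit 672) (nat_lit 0) (XT.nd (nat_lit 94) (nat_lit 756) (nat_lit 0) (XT.lf (nat_lit 0) (nat_lit 8209346707) (nat_lit 420) (nat_lit 433638654) (nat_lit 0) (nat_lit 804732305) (nat_lit 79) (nat_lit 5) (nat_lit 84) (nat_lit 4) (nat_lit 79) (nat_lit 4) (nat_lit 363) (nat_lit 295) (nat_lit 287)) (XT.nd (nat_lit 94) (nat_lit 336) (nat_lit 0) (XT.lf (nat_lit 0) (nat_lit 2055901558) (nat_lit 420) (nat_lit 4039577147) (nat_lit 84) (nat_lit 3499951320) (nat_lit 74) (nat_lit 5) (nat_lit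 79) (nat_lit 5) (nat_lit 75) (nat_lit 4) (nat_lit 364) (nat_lit 295) (nat_lit 286)) (XT.lf (nat_lit 0) (nat_lit 1902706238) (nat_lit 336) (nat_lit 3467076804) (nat_lit 420) (nat_lit 4379162110) (nat_lit 70) (nat_lit 5) (nat_lit 74) (nat_lit 5) (nat_lit 75) (nat_lit 4) (nat_lit 365) (nat_lit 295) (nat_lit 285)))) (XT.nd (nat_lit 188) (nat_lit 252) (nat_lit 0) (XT.nd (nat_lit 94) (nat_lit 420) (nat_lit 0) (XT.lf (nat_lit 0) (nat_lit 7998536247) (nat_lit 336) (nat_lit 749505410) (nat_lit 420) (nat_lit 1160181424) (nat_lit 70) (nat_lit 5) (nat_lit 74) (nat_lit 5) (nat_lit 75) (nat_lit 4) (nat_lit 366) (nat_lit 295) (nat_lit 284)) (XT.lf (nat_lit 0) (nat_lit 2098840102) (nat_lit 420) (nat_lit 5933362460) (nat_lit 84) (nat_lit 2039989386) (nat_lit 65) (nat_lit 5) (nat_lit 70) (nat_lit 5) (nat_lit 66) (nat_lit 4) (nat_lit 367) (nat_lit 295) (nat_lit 283))) (XT.nd (nat_lit 94) (nat_lit 0) (nat_lit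 0) (XT.lf (nat_lit 0) (nat_lit 42240322) (nat_lit 252) (nat_lit 5343778468) (nat_lit 336) (nat_lit 4856202491) (nat_lit 62) (nat_lit 5) (nat_lit 65) (nat_lit 5) (nat_lit 66) (nat_lit 4) (nat_lit 368) (nat_lit 295) (nat_lit 282)) (XT.lf (nat_lit 0) (nat_lit 6212855787) (nat_lit 252) (nat_lit 2546401266) (nat_lit 336) (nat_lit 1658565444) (nat_lit 62) (nat_lit 5) (nat_lit 65) (nat_lit 5) (nat_lit 66) (nat_lit 4) (nat_lit 369) (nat_lit 295) (nat_lit 281))))))) (XT.nd (nat_lit 1316) (nat_lit 1260) (nat_lit 0) (XT.nd (nat_lit 658) (nat_lit 840) (nat_lit 0) (XT.nd (nat_lit 282) (nat_lit 588) (nat_lit 0) (XT.nd (nat_lit 94) (nat_lit 252) (nat_lit 0) (XT.lf (nat_lit 0) (nat_lit 1553320953) (nat_lit 420) (nat_lit 8716442055) (nat_lit 84) (nat_lit 330039408) (nat_lit 57) (nat_lit 5) (nat_lit 62) (nat_lit 5) (nat_lit 58) (nat_lit 4) (nat_lit 370) (nat_lit 295) (nat_lit 280)) (XT.nd (nat_lit 94) (nat_lit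 252) (nat_lit 0) (XT.lf (nat_lit 0) (nat_lit 4825936060) (nat_lit 420) (nat_lit 2692637561) (nat_lit 84) (nat_lit 3268330564) (nat_lit 57) (nat_lit 5) (nat_lit 62) (nat_lit 5) (nat_lit 58) (nat_lit 4) (nat_lit 371) (nat_lit 295) (nat_lit 279)) (XT.lf (nat_lit 0) (nat_lit 3477654400) (nat_lit 252) (nat_lit 4684168069) (nat_lit 336) (nat_lit 2818927563) (nat_lit 54) (nat_lit 5) (nat_lit 57) (nat_lit 5) (nat_lit 58) (nat_lit 4) (nat_lit 372) (nat_lit 295) (nat_lit 278)))) (XT.nd (nat_lit 188) (nat_lit 252) (nat_lit 0) (XT.nd (nat_lit 94) (nat_lit 252) (nat_lit 0) (XT.lf (nat_lit 0) (nat_lit 368625195) (nat_lit 336) (nat_lit 1398146235) (nat_lit 84) (nat_lit 9414816598) (nat_lit 53) (nat_lit 5) (nat_lit 57) (nat_lit 5) (nat_lit 54) (nat_lit 5) (nat_lit 373) (nat_lit 295) (nat_lit 277)) (XT.lf (nat_lit 0) (nat_lit 3588075338) (nat_lit 336) (nat_lit 6543301393) (nat_lit 84) (nat_lit 1256525972)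 (nat_lit 50) (nat_lit 5) (nat_lit 54) (nat_lit 5) (nat_lit 51) (nat_lit 4) (nat_lit 374) (nat_lit 295) (nat_lit 276))) (XT.nd (nat_lit 94) (nat_lit 252) (nat_lit 0) (XT.lf (nat_lit 0) (nat_lit 6870434140) (nat_lit 336) (nat_lit 414589029) (nat_lit 84) (nat_lit 4316468362) (nat_lit 50) (nat_lit 5) (nat_lit 54) (nat_lit 5) (nat_lit 51) (nat_lit 4) (nat_lit 375) (nat_lit 295) (nat_lit 275)) (XT.lf (nat_lit 0) (nat_lit 5916084054) (nat_lit 252) (nat_lit 4328528323) (nat_lit 336) (nat_lit 1577147480) (nat_lit 47) (nat_lit 5) (nat_lit 50) (nat_lit 5) (nat_lit 51) (nat_lit 4) (nat_lit 376) (nat_lit 295) (nat_lit 274))))) (XT.nd (nat_lit 282) (nat_lit 336) (nat_lit 0) (XT.nd (nat_lit 94) (nat_lit 168) (nat_lit 0) (XT.lf (nat_lit 0) (nat_lit 288468598) (nat_lit 252) (nat_lit 1294012022) (nat_lit 336) (nat_lit 10467430304) (nat_lit 43) (nat_lit 5) (nat_lit 46) (nat_lit 5) (nat_lit 47) (nat_lit 5)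 (nat_lit 377) (nat_lit 295) (nat_lit 273)) (XT.nd (nat_lit 94) (nat_lit 168) (nat_lit 0) (XT.lf (nat_lit 0) (nat_lit 4820327739) (nat_lit 336) (nat_lit 5625798010) (nat_lit 84) (nat_lit 1837924596) (nat_lit 43) (nat_lit 5) (nat_lit 47) (nat_lit 5) (nat_lit 44) (nat_lit 4) (nat_lit 378) (nat_lit 295) (nat_lit 272)) (XT.lf (nat_lit 0) (nat_lit 597256513) (nat_lit 168) (nat_lit 7515730447) (nat_lit 252) (nat_lit 4413560923) (nat_lit 41) (nat_lit 5) (nat_lit 43) (nat_lit 5) (nat_lit 44) (nat_lit 4) (nat_lit 379) (nat_lit 295) (nat_lit 271)))) (XT.nd (nat_lit 188) (nat_lit 0) (nat_lit 0) (XT.nd (nat_lit 94) (nat_lit 336) (nat_lit 0) (XT.lf (nat_lit 0) (nat_lit 7027760560) (nat_lit 168) (nat_lit 4473462501) (nat_lit 252) (nat_lit 1275255736) (nat_lit 41) (nat_lit 5) (nat_lit 43) (nat_lit 5) (nat_lit 44) (nat_lit 4) (nat_lit 380) (nat_lit 295) (nat_lit 270)) (XT.lf (nat_lit 0) (nat_lit 515474926)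 (nat_lit 252) (nat_lit 1349586013) (nat_lit 336) (nat_lit 11169959437) (nat_lit 37) (nat_lit 5) (nat_lit 40) (nat_lit 5) (nat_lit 41) (nat_lit 5) (nat_lit 381) (nat_lit 295) (nat_lit 269))) (XT.nd (nat_lit 94) (nat_lit 0) (nat_lit 0) (XT.lf (nat_lit 0) (nat_lit 5092139522) (nat_lit 336) (nat_lit 6338898951) (nat_lit 84) (nat_lit 1869412500) (nat_lit 37) (nat_lit 5) (nat_lit 41) (nat_lit 5) (nat_lit 38) (nat_lit 4) (nat_lit 382) (nat_lit 295) (nat_lit 268)) (XT.lf (nat_lit 0) (nat_lit 8372695432) (nat_lit 336) (nat_lit 77070793) (nat_lit 84) (nat_lit 5125433721) (nat_lit 37) (nat_lit 5) (nat_lit 41) (nat_lit 5) (nat_lit 38) (nat_lit 4) (nat_lit 383) (nat_lit 295) (nat_lit 267)))))) (XT.nd (nat_lit 658) (nat_lit 420) (nat_lit 0) (XT.nd (nat_lit 282) (nat_lit 420) (nat_lit 0) (XT.nd (nat_lit 94) (nat_lit 252) (nat_lit 0) (XT.lf (nat_lit 0) (nat_lit 6409455123) (nat_lit 168) (nat_lit 5348778611)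 (nat_lit 252) (nat_lit 2099814479) (nat_lit 35) (nat_lit 5) (nat_lit 37) (nat_lit 5) (nat_lit 38) (nat_lit 4) (nat_lit 384) (nat_lit 295) (nat_lit 266)) (XT.nd (nat_lit 94) (nat_lit 168) (nat_lit 0) (XT.lf (nat_lit 0) (nat_lit 1020485110) (nat_lit 252) (nat_lit 1156250996) (nat_lit 84) (nat_lit 11974003031) (nat_lit 34) (nat_lit 5) (nat_lit 37) (nat_lit 5) (nat_lit 35) (nat_lit 5) (nat_lit 385) (nat_lit 295) (nat_lit 265)) (XT.lf (nat_lit 0) (nat_lit 4200955577) (nat_lit 252) (nat_lit 9140586607) (nat_lit 84) (nat_lit 1109831145) (nat_lit 32) (nat_lit 5) (nat_lit 35) (nat_lit 5) (nat_lit 33) (nat_lit 4) (nat_lit 386) (nat_lit 295) (nat_lit 264)))) (XT.nd (nat_lit 188) (nat_lit 252) (nat_lit 0) (XT.nd (nat_lit 94) (nat_lit 168) (nat_lit 0) (XT.lf (nat_lit 0) (nat_lit 7457331471) (nat_lit 252) (nat_lit 2873203349) (nat_lit 84) (nat_lit 4431124782) (nat_lit 32) (nat_lit 5) (nat_lit 35) (nat_lit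 5) (nat_lit 33) (nat_lit 4) (nat_lit 387) (nat_lit 295) (nat_lit 263)) (XT.lf (nat_lit 0) (nat_lit 3567944052) (nat_lit 168) (nat_lit 7226439230) (nat_lit 252) (nat_lit 4287428048) (nat_lit 30) (nat_lit 5) (nat_lit 32) (nat_lit 5) (nat_lit 33) (nat_lit 4) (nat_lit 388) (nat_lit 295) (nat_lit 262))) (XT.nd (nat_lit 94) (nat_lit 252) (nat_lit 0) (XT.lf (nat_lit 0) (nat_lit 10178165293) (nat_lit 168) (nat_lit 4031778586) (nat_lit 252) (nat_lit 1202316865) (nat_lit 30) (nat_lit 5) (nat_lit 32) (nat_lit 5) (nat_lit 33) (nat_lit 4) (nat_lit 389) (nat_lit 295) (nat_lit 261)) (XT.lf (nat_lit 0) (nat_lit 1155968097) (nat_lit 168) (nat_lit 742273617) (nat_lit 252) (nat_lit 13855011539) (nat_lit 27) (nat_lit 5) (nat_lit 29) (nat_lit 5) (nat_lit 30) (nat_lit 5) (nat_lit 390) (nat_lit 295) (nat_lit 260))))) (XT.nd (nat_lit 282) (nat_lit 252) (nat_lit 0) (XT.nd (nat_lit 94) (nat_lit 168) (nat_lit 0)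 (XT.lf (nat_lit 0) (nat_lit 5097154637) (nat_lit 252) (nat_lit 8377798707) (nat_lit 84) (nat_lit 2628321210) (nat_lit 27) (nat_lit 5) (nat_lit 30) (nat_lit 5) (nat_lit 28) (nat_lit 4) (nat_lit 391) (nat_lit 295) (nat_lit 259)) (XT.nd (nat_lit 94) (nat_lit 168) (nat_lit 0) (XT.lf (nat_lit 0) (nat_lit 8351511751) (nat_lit 252) (nat_lit 2058760952) (nat_lit 84) (nat_lit 6054779514) (nat_lit 27) (nat_lit 5) (nat_lit 30) (nat_lit 5) (nat_lit 28) (nat_lit 4) (nat_lit 392) (nat_lit 295) (nat_lit 258)) (XT.lf (nat_lit 0) (nat_lit 4459505805) (nat_lit 168) (nat_lit 7240383175) (nat_lit 252) (nat_lit 5137941412) (nat_lit 25) (nat_lit 5) (nat_lit 27) (nat_lit 5) (nat_lit 28) (nat_lit 4) (nat_lit 393) (nat_lit 295) (nat_lit 257)))) (XT.nd (nat_lit 188) (nat_lit 0) (nat_lit 0) (XT.nd (nat_lit 94) (nat_lit 252) (nat_lit 0) (XT.lf (nat_lit 0) (nat_lit 11138918459) (nat_lit 168) (nat_lit 3984727780) (nat_lit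 252) (nat_lit 2098935542) (nat_lit 25) (nat_lit 5) (nat_lit 27) (nat_lit 5) (nat_lit 28) (nat_lit 4) (nat_lit 394) (nat_lit 295) (nat_lit 256)) (XT.lf (nat_lit 0) (nat_lit 320881752) (nat_lit 168) (nat_lit 648318298) (nat_lit 252) (nat_lit 16650671354) (nat_lit 22) (nat_lit 5) (nat_lit 24) (nat_lit 5) (nat_lit 25) (nat_lit 5) (nat_lit 395) (nat_lit 295) (nat_lit 255))) (XT.nd (nat_lit 94) (nat_lit 0) (nat_lit 0) (XT.lf (nat_lit 0) (nat_lit 4131338536) (nat_lit 252) (nat_lit 11108799176) (nat_lit 84) (nat_lit 2787028729) (nat_lit 22) (nat_lit 5) (nat_lit 25) (nat_lit 5) (nat_lit 23) (nat_lit 4) (nat_lit 396) (nat_lit 295) (nat_lit 254)) (XT.lf (nat_lit 0) (nat_lit 7351364348) (nat_lit 252) (nat_lit 4812762026) (nat_lit 84) (nat_lit 6283696783) (nat_lit 22) (nat_lit 5) (nat_lit 25) (nat_lit 5) (nat_lit 23) (nat_lit 4) (nat_lit 397) (nat_lit 295) (nat_lit 253))))))))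
noncomputable def xc44 : XT := (XT.nd (nat_lit 2538) (nat_lit 504) (nat_lit 0) (XT.nd (nat_lit 1222) (nat_lit 336) (nat_lit 0) (XT.nd (nat_lit 564) (nat_lit 336) (nat_lit 0) (XT.nd (nat_lit 282) (nat_lit 252) (nat_lit 0) (XT.nd (nat_lit 94) (nat_lit 0) (nat_lit 0) (XT.lf (nat_lit 0) (nat_lit 1632715378) (nat_lit 84) (nat_lit 9008838349) (nat_lit 168) (nat_lit 8240371509) (nat_lit 21) (nat_lit 5) (nat_lit 22) (nat_lit 5) (nat_lit 23) (nat_lit 4) (nat_lit 398) (nat_lit 295) (nat_lit 252)) (XT.nd (nat_lit 94) (nat_lit 0) (nat_lit 0) (XT.lf (nat_lit 0) (nat_lit 8299612020) (nat_lit 84) (nat_lit 5737852834) (nat_lit 168) (nat_lit 5291406639) (nat_lit 21) (nat_lit 5) (nat_lit 22) (nat_lit 5) (nat_lit 23) (nat_lit 4) (nat_lit 399) (nat_lit 295) (nat_lit 251)) (XT.lf (nat_lit 0) (nat_lit 15097969942) (nat_lit 84) (nat_lit 2396911148) (nat_lit 168) (nat_lit 2295586895) (nat_lit 21) (nat_lit 5)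 (nat_lit 22) (nat_lit 5) (nat_lit 23) (nat_lit 4) (nat_lit 400) (nat_lit 295) (nat_lit 250)))) (XT.nd (nat_lit 94) (nat_lit 0) (nat_lit 0) (XT.lf (nat_lit 0) (nat_lit 762342300) (nat_lit 252) (nat_lit 18481981248) (nat_lit 84) (nat_lit 1021760310) (nat_lit 18) (nat_lit 5) (nat_lit 21) (nat_lit 5) (nat_lit 19) (nat_lit 4) (nat_lit 401) (nat_lit 295) (nat_lit 249)) (XT.nd (nat_lit 94) (nat_lit 0) (nat_lit 0) (XT.lf (nat_lit 0) (nat_lit 3898089928) (nat_lit 252) (nat_lit 12317925044) (nat_lit 84) (nat_lit 4538332865) (nat_lit 18) (nat_lit 5) (nat_lit 21) (nat_lit 5) (nat_lit 19) (nat_lit 4) (nat_lit 402) (nat_lit 295) (nat_lit 248)) (XT.lf (nat_lit 0) (nat_lit 7089690178) (nat_lit 252) (nat_lit 6034618753) (nat_lit 84) (nat_lit 8134124657) (nat_lit 18) (nat_lit 5) (nat_lit 21) (nat_lit 5) (nat_lit 19) (nat_lit 4) (nat_lit 403) (nat_lit 295) (nat_lit 247))))) (XT.nd (nat_lit 282) (nat_lit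 252) (nat_lit 0) (XT.nd (nat_lit 94) (nat_lit 0) (nat_lit 0) (XT.lf (nat_lit 0) (nat_lit 380859840) (nat_lit 84) (nat_lit 9962733042) (nat_lit 168) (nat_lit 11435078857) (nat_lit 17) (nat_lit 5) (nat_lit 18) (nat_lit 5) (nat_lit 19) (nat_lit 4) (nat_lit 404) (nat_lit 295) (nat_lit 246)) (XT.nd (nat_lit 94) (nat_lit 0) (nat_lit 0) (XT.lf (nat_lit 0) (nat_lit 7049372813) (nat_lit 84) (nat_lit 6670044958) (nat_lit 168) (nat_lit 8594395806) (nat_lit 17) (nat_lit 5) (nat_lit 18) (nat_lit 5) (nat_lit 19) (nat_lit 4) (nat_lit 405) (nat_lit 295) (nat_lit 245)) (XT.lf (nat_lit 0) (nat_lit 13856646274) (nat_lit 84) (nat_lit 3304305389) (nat_lit 168) (nat_lit 5705149921) (nat_lit 17) (nat_lit 5) (nat_lit 18) (nat_lit 5) (nat_lit 19) (nat_lit 4) (nat_lit 406) (nat_lit 295) (nat_lit 244)))) (XT.nd (nat_lit 188) (nat_lit 0) (nat_lit 0) (XT.nd (nat_lit 94) (nat_lit 252) (nat_lit 0) (XT.lf (nat_lit 0)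 (nat_lit 20672522755) (nat_lit 168) (nat_lit 2628711049) (nat_lit 0) (nat_lit 134744912) (nat_lit 17) (nat_lit 5) (nat_lit 19) (nat_lit 4) (nat_lit 17) (nat_lit 4) (nat_lit 407) (nat_lit 295) (nat_lit 243)) (XT.lf (nat_lit 0) (nat_lit 298354210) (nat_lit 252) (nat_lit 20095966070) (nat_lit 84) (nat_lit 3627465893) (nat_lit 14) (nat_lit 5) (nat_lit 17) (nat_lit 5) (nat_lit 15) (nat_lit 4) (nat_lit 408) (nat_lit 295) (nat_lit 242))) (XT.nd (nat_lit 94) (nat_lit 0) (nat_lit 0) (XT.lf (nat_lit 0) (nat_lit 3389599665) (nat_lit 252) (nat_lit 13979812820) (nat_lit 84) (nat_lit 7255162991) (nat_lit 14) (nat_lit 5) (nat_lit 17) (nat_lit 5) (nat_lit 15) (nat_lit 4) (nat_lit 409) (nat_lit 295) (nat_lit 241)) (XT.lf (nat_lit 0) (nat_lit 6540879628) (nat_lit 252) (nat_lit 7737156265) (nat_lit 84) (nat_lit 10968415168) (nat_lit 14) (nat_lit 5) (nat_lit 17) (nat_lit 5) (nat_lit 15) (nat_lit 4) (nat_lit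 410) (nat_lit 295) (nat_lit 240)))))) (XT.nd (nat_lit 658) (nat_lit 84) (nat_lit 0) (XT.nd (nat_lit 282) (nat_lit 168) (nat_lit 0) (XT.nd (nat_lit 94) (nat_lit 84) (nat_lit 0) (XT.lf (nat_lit 0) (nat_lit 9754947646) (nat_lit 252) (nat_lit 1362541656) (nat_lit 84) (nat_lit 14770467013) (nat_lit 14) (nat_lit 5) (nat_lit 17) (nat_lit 5) (nat_lit 15) (nat_lit 4) (nat_lit 411) (nat_lit 295) (nat_lit 239)) (XT.nd (nat_lit 94) (nat_lit 0) (nat_lit 0) (XT.lf (nat_lit 0) (nat_lit 5252088215) (nat_lit 84) (nat_lit 7833010196) (nat_lit 168) (nat_lit 13463038777) (nat_lit 13) (nat_lit 5) (nat_lit 14) (nat_lit 5) (nat_lit 15) (nat_lit 4) (nat_lit 412) (nat_lit 295) (nat_lit 238)) (XT.lf (nat_lit 0) (nat_lit 12039903990) (nat_lit 84) (nat_lit 4458569728) (nat_lit 168) (nat_lit 10730169859) (nat_lit 13) (nat_lit 5) (nat_lit 14) (nat_lit 5) (nat_lit 15) (nat_lit 4) (nat_lit 413) (nat_lit 295) (nat_lit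 237)))) (XT.nd (nat_lit 188) (nat_lit 168) (nat_lit 0) (XT.nd (nat_lit 94) (nat_lit 0) (nat_lit 0) (XT.lf (nat_lit 0) (nat_lit 18979719520) (nat_lit 84) (nat_lit 1004978357) (nat_lit 168) (nat_lit 7945772971) (nat_lit 13) (nat_lit 5) (nat_lit 14) (nat_lit 5) (nat_lit 15) (nat_lit 4) (nat_lit 414) (nat_lit 295) (nat_lit 236)) (XT.lf (nat_lit 0) (nat_lit 23571144524) (nat_lit 168) (nat_lit 2600960950) (nat_lit 0) (nat_lit 2481396951) (nat_lit 13) (nat_lit 5) (nat_lit 15) (nat_lit 4) (nat_lit 13) (nat_lit 4) (nat_lit 415) (nat_lit 295) (nat_lit 235))) (XT.nd (nat_lit 94) (nat_lit 84) (nat_lit 0) (XT.lf (nat_lit 0) (nat_lit 3957269141) (nat_lit 84) (nat_lit 23327849339) (nat_lit 84) (nat_lit 2112526473) (nat_lit 12) (nat_lit 4) (nat_lit 13) (nat_lit 5) (nat_lit 13) (nat_lit 4) (nat_lit 416) (nat_lit 295) (nat_lit 234)) (XT.lf (nat_lit 0) (nat_lit 926457001) (nat_lit 168) (nat_lit 19456532912)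 (nat_lit 84) (nat_lit 9780910164) (nat_lit 11) (nat_lit 5) (nat_lit 13) (nat_lit 5) (nat_lit 12) (nat_lit 4) (nat_lit 417) (nat_lit 295) (nat_lit 233))))) (XT.nd (nat_lit 282) (nat_lit 84) (nat_lit 0) (XT.nd (nat_lit 94) (nat_lit 0) (nat_lit 0) (XT.lf (nat_lit 0) (nat_lit 3986965944) (nat_lit 168) (nat_lit 13362066516) (nat_lit 84) (nat_lit 13604314934) (nat_lit 11) (nat_lit 5) (nat_lit 13) (nat_lit 5) (nat_lit 12) (nat_lit 4) (nat_lit 418) (nat_lit 295) (nat_lit 232)) (XT.nd (nat_lit 94) (nat_lit 0) (nat_lit 0) (XT.lf (nat_lit 0) (nat_lit 7112897585) (nat_lit 168) (nat_lit 7131344465) (nat_lit 84) (nat_lit 17523043868) (nat_lit 11) (nat_lit 5) (nat_lit 13) (nat_lit 5) (nat_lit 12) (nat_lit 4) (nat_lit 419) (nat_lit 295) (nat_lit 231)) (XT.lf (nat_lit 0) (nat_lit 10306983322) (nat_lit 168) (nat_lit 758922441) (nat_lit 84) (nat_lit 21540521095) (nat_lit 11) (nat_lit 5) (nat_lit 13) (nat_lit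 5) (nat_lit 12) (nat_lit 4) (nat_lit 420) (nat_lit 295) (nat_lit 230)))) (XT.nd (nat_lit 188) (nat_lit 0) (nat_lit 0) (XT.nd (nat_lit 94) (nat_lit 0) (nat_lit 0) (XT.lf (nat_lit 0) (nat_lit 5875418266) (nat_lit 84) (nat_lit 7753073952) (nat_lit 168) (nat_lit 19841316884) (nat_lit 10) (nat_lit 5) (nat_lit 11) (nat_lit 5) (nat_lit 12) (nat_lit 4) (nat_lit 421) (nat_lit 295) (nat_lit 229)) (XT.lf (nat_lit 0) (nat_lit 12680872247) (nat_lit 84) (nat_lit 4351866922) (nat_lit 168) (nat_lit 17326875510) (nat_lit 10) (nat_lit 5) (nat_lit 11) (nat_lit 5) (nat_lit 12) (nat_lit 4) (nat_lit 422) (nat_lit 295) (nat_lit 228))) (XT.nd (nat_lit 94) (nat_lit 0) (nat_lit 0) (XT.lf (nat_lit 0) (nat_lit 19648281970) (nat_lit 84) (nat_lit 866976375) (nat_lit 168) (nat_lit 14761585961) (nat_lit 10) (nat_lit 5) (nat_lit 11) (nat_lit 5) (nat_lit 12) (nat_lit 4) (nat_lit 423) (nat_lit 295) (nat_lit 227)) (XT.lf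 (nat_lit 0) (nat_lit 24105091405) (nat_lit 168) (nat_lit 9464562662) (nat_lit 0) (nat_lit 2651865417) (nat_lit 10) (nat_lit 5) (nat_lit 12) (nat_lit 4) (nat_lit 10) (nat_lit 4) (nat_lit 424) (nat_lit 295) (nat_lit 226))))))) (XT.nd (nat_lit 1316) (nat_lit 252) (nat_lit 0) (XT.nd (nat_lit 658) (nat_lit 84) (nat_lit 0) (XT.nd (nat_lit 282) (nat_lit 84) (nat_lit 0) (XT.nd (nat_lit 94) (nat_lit 84) (nat_lit 0) (XT.lf (nat_lit 0) (nat_lit 27788551292) (nat_lit 168) (nat_lit 3164533586) (nat_lit 0) (nat_lit 6241885492) (nat_lit 10) (nat_lit 5) (nat_lit 12) (nat_lit 4) (nat_lit 10) (nat_lit 4) (nat_lit 425) (nat_lit 295) (nat_lit 225)) (XT.nd (nat_lit 94) (nat_lit 0) (nat_lit 0) (XT.lf (nat_lit 0) (nat_lit 3350748855) (nat_lit 84) (nat_lit 28241983248) (nat_lit 84) (nat_lit 6604599184) (nat_lit 9) (nat_lit 4) (nat_lit 10) (nat_lit 5) (nat_lit 10) (nat_lit 4) (nat_lit 426) (nat_lit 295) (nat_lit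 224)) (XT.lf (nat_lit 0) (nat_lit 10087610576) (nat_lit 84) (nat_lit 25433659102) (nat_lit 84) (nat_lit 3708199054) (nat_lit 9) (nat_lit 4) (nat_lit 10) (nat_lit 5) (nat_lit 10) (nat_lit 4) (nat_lit 427) (nat_lit 295) (nat_lit 223)))) (XT.nd (nat_lit 188) (nat_lit 0) (nat_lit 0) (XT.nd (nat_lit 94) (nat_lit 84) (nat_lit 0) (XT.lf (nat_lit 0) (nat_lit 16988957729) (nat_lit 84) (nat_lit 22557614148) (nat_lit 84) (nat_lit 746643437) (nat_lit 9) (nat_lit 4) (nat_lit 10) (nat_lit 5) (nat_lit 10) (nat_lit 4) (nat_lit 428) (nat_lit 295) (nat_lit 222)) (XT.lf (nat_lit 0) (nat_lit 2238112604) (nat_lit 168) (nat_lit 17350622185) (nat_lit 84) (nat_lit 21800107466) (nat_lit 8) (nat_lit 5) (nat_lit 10) (nat_lit 5) (nat_lit 9) (nat_lit 4) (nat_lit 429) (nat_lit 295) (nat_lit 221))) (XT.nd (nat_lit 94) (nat_lit 0) (nat_lit 0) (XT.lf (nat_lit 0) (nat_lit 5277315591) (nat_lit 168) (nat_lit 11261642124)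 (nat_lit 84) (nat_lit 25978772413) (nat_lit 8) (nat_lit 5) (nat_lit 10) (nat_lit 5) (nat_lit 9) (nat_lit 4) (nat_lit 430) (nat_lit 295) (nat_lit 220)) (XT.lf (nat_lit 0) (nat_lit 8388190840) (nat_lit 168) (nat_lit 5024819739) (nat_lit 84) (nat_lit 30268070075) (nat_lit 8) (nat_lit 5) (nat_lit 10) (nat_lit 5) (nat_lit 9) (nat_lit 4) (nat_lit 431) (nat_lit 295) (nat_lit 219))))) (XT.nd (nat_lit 282) (nat_lit 0) (nat_lit 0) (XT.nd (nat_lit 94) (nat_lit 0) (nat_lit 0) (XT.lf (nat_lit 0) (nat_lit 1392466657) (nat_lit 84) (nat_lit 10194375175) (nat_lit 168) (nat_lit 33292666964) (nat_lit 7) (nat_lit 5) (nat_lit 8) (nat_lit 5) (nat_lit 9) (nat_lit 4) (nat_lit 432) (nat_lit 295) (nat_lit 218)) (XT.nd (nat_lit 94) (nat_lit 0) (nat_lit 0) (XT.lf (nat_lit 0) (nat_lit 8071794325) (nat_lit 84) (nat_lit 6841692787) (nat_lit 168) (nat_lit 31199451906) (nat_lit 7) (nat_lit 5) (nat_lit 8) (nat_lit 5) (nat_lit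 9) (nat_lit 4) (nat_lit 433) (nat_lit 295) (nat_lit 217)) (XT.lf (nat_lit 0) (nat_lit 14918995801) (nat_lit 84) (nat_lit 3402774715) (nat_lit 168) (nat_lit 29062156443) (nat_lit 7) (nat_lit 5) (nat_lit 8) (nat_lit 5) (nat_lit 9) (nat_lit 4) (nat_lit 434) (nat_lit 295) (nat_lit 216)))) (XT.nd (nat_lit 188) (nat_lit 0) (nat_lit 0) (XT.nd (nat_lit 94) (nat_lit 0) (nat_lit 0) (XT.lf (nat_lit 0) (nat_lit 21815875426) (nat_lit 168) (nat_lit 26754734382) (nat_lit 0) (nat_lit 122937228) (nat_lit 7) (nat_lit 5) (nat_lit 9) (nat_lit 4) (nat_lit 7) (nat_lit 4) (nat_lit 435) (nat_lit 295) (nat_lit 215)) (XT.lf (nat_lit 0) (nat_lit 25431245641) (nat_lit 168) (nat_lit 20937955574) (nat_lit 0) (nat_lit 3672770640) (nat_lit 7) (nat_lit 5) (nat_lit 9) (nat_lit 4) (nat_lit 7) (nat_lit 4) (nat_lit 436) (nat_lit 295) (nat_lit 214))) (XT.nd (nat_lit 94) (nat_lit 0) (nat_lit 0) (XT.lf (nat_lit 0) (nat_lit 29138330672)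 (nat_lit 168) (nat_lit 14976802559) (nat_lit 0) (nat_lit 7316227706) (nat_lit 7) (nat_lit 5) (nat_lit 9) (nat_lit 4) (nat_lit 7) (nat_lit 4) (nat_lit 437) (nat_lit 295) (nat_lit 213)) (XT.lf (nat_lit 0) (nat_lit 32940369720) (nat_lit 168) (nat_lit 8866066562) (nat_lit 0) (nat_lit 11056492031) (nat_lit 7) (nat_lit 5) (nat_lit 9) (nat_lit 4) (nat_lit 7) (nat_lit 4) (nat_lit 438) (nat_lit 295) (nat_lit 212)))))) (XT.nd (nat_lit 658) (nat_lit 168) (nat_lit 0) (XT.nd (nat_lit 282) (nat_lit 0) (nat_lit 0) (XT.nd (nat_lit 94) (nat_lit 84) (nat_lit 0) (XT.lf (nat_lit 0) (nat_lit 36840684954) (nat_lit 168) (nat_lit 2600408107) (nat_lit 0) (nat_lit 14896831806) (nat_lit 7) (nat_lit 5) (nat_lit 9) (nat_lit 4) (nat_lit 7) (nat_lit 4) (nat_lit 439) (nat_lit 295) (nat_lit 211)) (XT.nd (nat_lit 94) (nat_lit 0) (nat_lit 0) (XT.lf (nat_lit 0) (nat_lit 3901785543) (nat_lit 84) (nat_lit 36978405223) (nat_lit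 84) (nat_lit 14976323473) (nat_lit 6) (nat_lit 4) (nat_lit 7) (nat_lit 5) (nat_lit 7) (nat_lit 4) (nat_lit 440) (nat_lit 295) (nat_lit 210)) (XT.lf (nat_lit 0) (nat_lit 10625048692) (nat_lit 84) (nat_lit 34426950777) (nat_lit 84) (nat_lit 12368336405) (nat_lit 6) (nat_lit 4) (nat_lit 7) (nat_lit 5) (nat_lit 7) (nat_lit 4) (nat_lit 441) (nat_lit 295) (nat_lit 209)))) (XT.nd (nat_lit 188) (nat_lit 0) (nat_lit 0) (XT.nd (nat_lit 94) (nat_lit 0) (nat_lit 0) (XT.lf (nat_lit 0) (nat_lit 17523502813) (nat_lit 84) (nat_lit 31810759322) (nat_lit 84) (nat_lit 9697258909) (nat_lit 6) (nat_lit 4) (nat_lit 7) (nat_lit 5) (nat_lit 7) (nat_lit 4) (nat_lit 442) (nat_lit 295) (nat_lit 208)) (XT.lf (nat_lit 0) (nat_lit 24603175683) (nat_lit 84) (nat_lit 29127544864) (nat_lit 84) (nat_lit 6960757032) (nat_lit 6) (nat_lit 4) (nat_lit 7) (nat_lit 5) (nat_lit 7) (nat_lit 4) (nat_lit 443) (nat_lit 295) (nat_lit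 207))) (XT.nd (nat_lit 94) (nat_lit 0) (nat_lit 0) (XT.lf (nat_lit 0) (nat_lit 31870253423) (nat_lit 84) (nat_lit 26374962847) (nat_lit 84) (nat_lit 4156439657) (nat_lit 6) (nat_lit 4) (nat_lit 7) (nat_lit 5) (nat_lit 7) (nat_lit 4) (nat_lit 444) (nat_lit 295) (nat_lit 206)) (XT.lf (nat_lit 0) (nat_lit 39331085908) (nat_lit 84) (nat_lit 23550608102) (nat_lit 84) (nat_lit 1281856410) (nat_lit 6) (nat_lit 4) (nat_lit 7) (nat_lit 5) (nat_lit 7) (nat_lit 4) (nat_lit 445) (nat_lit 295) (nat_lit 205))))) (XT.nd (nat_lit 282) (nat_lit 84) (nat_lit 0) (XT.nd (nat_lit 94) (nat_lit 0) (nat_lit 0) (XT.lf (nat_lit 0) (nat_lit 1633004490) (nat_lit 168) (nat_lit 19002518114) (nat_lit 84) (nat_lit 45342697677) (nat_lit 5) (nat_lit 5) (nat_lit 7) (nat_lit 5) (nat_lit 6) (nat_lit 4) (nat_lit 446) (nat_lit 295) (nat_lit 204)) (XT.nd (nat_lit 94) (nat_lit 0) (nat_lit 0) (XT.lf (nat_lit 0) (nat_lit 4596734354)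 (nat_lit 168) (nat_lit 13033491671) (nat_lit 84) (nat_lit 50217114443) (nat_lit 5) (nat_lit 5) (nat_lit 7) (nat_lit 5) (nat_lit 6) (nat_lit 4) (nat_lit 447) (nat_lit 295) (nat_lit 203)) (XT.lf (nat_lit 0) (nat_lit 7636936484) (nat_lit 168) (nat_lit 6907847542) (nat_lit 84) (nat_lit 55228129828) (nat_lit 5) (nat_lit 5) (nat_lit 7) (nat_lit 5) (nat_lit 6) (nat_lit 4) (nat_lit 448) (nat_lit 295) (nat_lit 202)))) (XT.nd (nat_lit 188) (nat_lit 0) (nat_lit 0) (XT.nd (nat_lit 94) (nat_lit 84) (nat_lit 0) (XT.lf (nat_lit 0) (nat_lit 10756267369) (nat_lit 168) (nat_lit 620233221) (nat_lit 84) (nat_lit 60380122390) (nat_lit 5) (nat_lit 5) (nat_lit 7) (nat_lit 5) (nat_lit 6) (nat_lit 4) (nat_lit 449) (nat_lit 295) (nat_lit 201)) (XT.lf (nat_lit 0) (nat_lit 5950970185) (nat_lit 84) (nat_lit 8063686816) (nat_lit 168) (nat_lit 59783828049) (nat_lit 4) (nat_lit 5) (nat_lit 5) (nat_lit 5) (nat_lit 6)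 (nat_lit 4) (nat_lit 450) (nat_lit 295) (nat_lit 200))) (XT.nd (nat_lit 94) (nat_lit 0) (nat_lit 0) (XT.lf (nat_lit 0) (nat_lit 12711067153) (nat_lit 84) (nat_lit 4654408837) (nat_lit 168) (nat_lit 58536292523) (nat_lit 4) (nat_lit 5) (nat_lit 5) (nat_lit 5) (nat_lit 6) (nat_lit 4) (nat_lit 451) (nat_lit 295) (nat_lit 199)) (XT.lf (nat_lit 0) (nat_lit 19653620705) (nat_lit 84) (nat_lit 1151950813) (nat_lit 168) (nat_lit 57262922093) (nat_lit 4) (nat_lit 5) (nat_lit 5) (nat_lit 5) (nat_lit 6) (nat_lit 4) (nat_lit 452) (nat_lit 295) (nat_lit 198))))))))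
noncomputable def xc45 : XT := (XT.nd (nat_lit 52076) (nat_lit 0) (nat_lit 1176) (XT.nd (nat_lit 50760) (nat_lit 0) (nat_lit 3864) (XT.nd (nat_lit 50102) (nat_lit 0) (nat_lit 6636) (XT.nd (nat_lit 282) (nat_lit 0) (nat_lit 0) (XT.nd (nat_lit 94) (nat_lit 0) (nat_lit 0) (XT.lf (nat_lit 0) (nat_lit 24361469129) (nat_lit 168) (nat_lit 53539376084) (nat_lit 0) (nat_lit 2399002797) (nat_lit 4) (nat_lit 5) (nat_lit 6) (nat_lit 4) (nat_lit 4) (nat_lit 4) (nat_lit 453) (nat_lit 295) (nat_lit 197)) (XT.nd (nat_lit 94) (nat_lit 0) (nat_lit 0) (XT.lf (nat_lit 0) (nat_lit 28024764336) (nat_lit 168) (nat_lit 48548439168) (nat_lit 0) (nat_lit 6024923280) (nat_lit 4) (nat_lit 5) (nat_lit 6) (nat_lit 4) (nat_lit 4) (nat_lit 4) (nat_lit 454) (nat_lit 295) (nat_lit 196)) (XT.lf (nat_lit 0) (nat_lit 31787584820) (nat_lit 168) (nat_lit 43426627891) (nat_lit 0) (nat_lit 9751457625) (nat_lit 4) (nat_lit 5)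 (nat_lit 6) (nat_lit 4) (nat_lit 4) (nat_lit 4) (nat_lit 455) (nat_lit 295) (nat_lit 195)))) (XT.nd (nat_lit 49632) (nat_lit 0) (nat_lit 8484) (XT.lf (nat_lit 0) (nat_lit 35653218483) (nat_lit 168) (nat_lit 38169466883) (nat_lit 0) (nat_lit 13581862027) (nat_lit 4) (nat_lit 5) (nat_lit 6) (nat_lit 4) (nat_lit 4) (nat_lit 4) (nat_lit 456) (nat_lit 295) (nat_lit 194)) (XT.nd (nat_lit 94) (nat_lit 504) (nat_lit 0) (XT.lf (nat_lit 0) (nat_lit 858737181) (nat_lit 504) (nat_lit 2395569478) (nat_lit 0) (nat_lit 858737181) (nat_lit 111) (nat_lit 5) (nat_lit 117) (nat_lit 4) (nat_lit 111) (nat_lit 4) (nat_lit 353) (nat_lit 296) (nat_lit 296)) (XT.lf (nat_lit 0) (nat_lit 694411943) (nat_lit 504) (nat_lit 4393800179) (nat_lit 504) (nat_lit 3241153900) (nat_lit 105) (nat_lit 4) (nat_lit 111) (nat_lit 5) (nat_lit 111) (nat_lit 4) (nat_lit 354) (nat_lit 296) (nat_lit 295))))) (XT.nd (nat_lit 282) (nat_lit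 924) (nat_lit 0) (XT.nd (nat_lit 94) (nat_lit 840) (nat_lit 0) (XT.lf (nat_lit 0) (nat_lit 81724911) (nat_lit 588) (nat_lit 2105818765) (nat_lit 84) (nat_lit 6249524445) (nat_lit 104) (nat_lit 5) (nat_lit 111) (nat_lit 5) (nat_lit 105) (nat_lit 4) (nat_lit 355) (nat_lit 296) (nat_lit 294)) (XT.nd (nat_lit 94) (nat_lit 420) (nat_lit 0) (XT.lf (nat_lit 0) (nat_lit 3387751504) (nat_lit 504) (nat_lit 5033617118) (nat_lit 0) (nat_lit 127363151) (nat_lit 99) (nat_lit 5) (nat_lit 105) (nat_lit 4) (nat_lit 99) (nat_lit 4) (nat_lit 356) (nat_lit 296) (nat_lit 293)) (XT.lf (nat_lit 0) (nat_lit 563138010) (nat_lit 420) (nat_lit 6193176628) (nat_lit 420) (nat_lit 1908676986) (nat_lit 94) (nat_lit 4) (nat_lit 99) (nat_lit 5) (nat_lit 99) (nat_lit 4) (nat_lit 357) (nat_lit 296) (nat_lit 292)))) (XT.nd (nat_lit 188) (nat_lit 504) (nat_lit 0) (XT.nd (nat_lit 94) (nat_lit 336) (nat_lit 0) (XT.lf (nat_lit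 0) (nat_lit 1379672110) (nat_lit 504) (nat_lit 2478048063) (nat_lit 84) (nat_lit 4927744025) (nat_lit 93) (nat_lit 5) (nat_lit 99) (nat_lit 5) (nat_lit 94) (nat_lit 4) (nat_lit 358) (nat_lit 296) (nat_lit 291)) (XT.lf (nat_lit 0) (nat_lit 3250798183) (nat_lit 336) (nat_lit 1426494301) (nat_lit 420) (nat_lit 4233356524) (nat_lit 89) (nat_lit 5) (nat_lit 93) (nat_lit 5) (nat_lit 94) (nat_lit 4) (nat_lit 359) (nat_lit 296) (nat_lit 290))) (XT.nd (nat_lit 94) (nat_lit 84) (nat_lit 0) (XT.lf (nat_lit 0) (nat_lit 44270841) (nat_lit 420) (nat_lit 7984474994) (nat_lit 420) (nat_lit 1012326970) (nat_lit 84) (nat_lit 4) (nat_lit 89) (nat_lit 5) (nat_lit 89) (nat_lit 4) (nat_lit 360) (nat_lit 296) (nat_lit 289)) (XT.lf (nat_lit 0) (nat_lit 2251446621) (nat_lit 504) (nat_lit 3285118777) (nat_lit 84) (nat_lit 3638569234) (nat_lit 83) (nat_lit 5) (nat_lit 89) (nat_lit 5) (nat_lit 84) (nat_lit 4) (nat_lit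 361) (nat_lit 296) (nat_lit 288)))))) (XT.nd (nat_lit 658) (nat_lit 1260) (nat_lit 0) (XT.nd (nat_lit 282) (nat_lit 756) (nat_lit 0) (XT.nd (nat_lit 94) (nat_lit 420) (nat_lit 0) (XT.lf (nat_lit 0) (nat_lit 2530363759) (nat_lit 336) (nat_lit 3008353610) (nat_lit 420) (nat_lit 3775941825) (nat_lit 79) (nat_lit 5) (nat_lit 83) (nat_lit 5) (nat_lit 84) (nat_lit 4) (nat_lit 362) (nat_lit 296) (nat_lit 287)) (XT.nd (nat_lit 94) (nat_lit 420) (nat_lit 0) (XT.lf (nat_lit 0) (nat_lit 8481795952) (nat_lit 336) (nat_lit 398856584) (nat_lit 420) (nat_lit 579151581) (nat_lit 79) (nat_lit 5) (nat_lit 83) (nat_lit 5) (nat_lit 84) (nat_lit 4) (nat_lit 363) (nat_lit 296) (nat_lit 286)) (XT.lf (nat_lit 0) (nat_lit 2655081907) (nat_lit 420) (nat_lit 4662971695) (nat_lit 84) (nat_lit 2290741898) (nat_lit 74) (nat_lit 5) (nat_lit 79) (nat_lit 5) (nat_lit 75) (nat_lit 4) (nat_lit 364) (nat_lit 296) (nat_lit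 285)))) (XT.nd (nat_lit 188) (nat_lit 420) (nat_lit 0) (XT.nd (nat_lit 94) (nat_lit 0) (nat_lit 0) (XT.lf (nat_lit 0) (nat_lit 1213934842) (nat_lit 336) (nat_lit 4711561605) (nat_lit 420) (nat_lit 3838170488) (nat_lit 70) (nat_lit 5) (nat_lit 74) (nat_lit 5) (nat_lit 75) (nat_lit 4) (nat_lit 365) (nat_lit 296) (nat_lit 284)) (XT.lf (nat_lit 0) (nat_lit 7258337596) (nat_lit 336) (nat_lit 2009150250) (nat_lit 420) (nat_lit 656595811) (nat_lit 70) (nat_lit 5) (nat_lit 74) (nat_lit 5) (nat_lit 75) (nat_lit 4) (nat_lit 366) (nat_lit 296) (nat_lit 283))) (XT.nd (nat_lit 94) (nat_lit 0) (nat_lit 0) (XT.lf (nat_lit 0) (nat_lit 2536750105) (nat_lit 420) (nat_lit 6765886397) (nat_lit 84) (nat_lit 786994124) (nat_lit 65) (nat_lit 5) (nat_lit 70) (nat_lit 5) (nat_lit 66) (nat_lit 4) (nat_lit 367) (nat_lit 296) (nat_lit 282)) (XT.lf (nat_lit 0) (nat_lit 5788324086) (nat_lit 420) (nat_lit 842249425)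 (nat_lit 84) (nat_lit 3630201058) (nat_lit 65) (nat_lit 5) (nat_lit 70) (nat_lit 5) (nat_lit 66) (nat_lit 4) (nat_lit 368) (nat_lit 296) (nat_lit 281))))) (XT.nd (nat_lit 282) (nat_lit 588) (nat_lit 0) (XT.nd (nat_lit 94) (nat_lit 420) (nat_lit 0) (XT.lf (nat_lit 0) (nat_lit 5260963461) (nat_lit 252) (nat_lit 3857681291) (nat_lit 336) (nat_lit 1319063675) (nat_lit 62) (nat_lit 5) (nat_lit 65) (nat_lit 5) (nat_lit 66) (nat_lit 4) (nat_lit 369) (nat_lit 296) (nat_lit 280)) (XT.nd (nat_lit 94) (nat_lit 0) (nat_lit 0) (XT.lf (nat_lit 0) (nat_lit 841368374) (nat_lit 336) (nat_lit 997518616) (nat_lit 420) (nat_lit 8782165301) (nat_lit 57) (nat_lit 5) (nat_lit 61) (nat_lit 5) (nat_lit 62) (nat_lit 5) (nat_lit 370) (nat_lit 296) (nat_lit 279)) (XT.lf (nat_lit 0) (nat_lit 5068250041) (nat_lit 420) (nat_lit 3796580433) (nat_lit 84) (nat_lit 1944662433) (nat_lit 57) (nat_lit 5) (nat_lit 62) (nat_lit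 5) (nat_lit 58) (nat_lit 4) (nat_lit 371) (nat_lit 296) (nat_lit 278)))) (XT.nd (nat_lit 188) (nat_lit 252) (nat_lit 0) (XT.nd (nat_lit 94) (nat_lit 84) (nat_lit 0) (XT.lf (nat_lit 0) (nat_lit 2301944168) (nat_lit 252) (nat_lit 6058207823) (nat_lit 336) (nat_lit 2644546380) (nat_lit 54) (nat_lit 5) (nat_lit 57) (nat_lit 5) (nat_lit 58) (nat_lit 4) (nat_lit 372) (nat_lit 296) (nat_lit 277)) (XT.lf (nat_lit 0) (nat_lit 507051027) (nat_lit 336) (nat_lit 2648513049) (nat_lit 84) (nat_lit 8050936362) (nat_lit 53) (nat_lit 5) (nat_lit 57) (nat_lit 5) (nat_lit 54) (nat_lit 5) (nat_lit 373) (nat_lit 296) (nat_lit 276))) (XT.nd (nat_lit 94) (nat_lit 0) (nat_lit 0) (XT.lf (nat_lit 0) (nat_lit 3533486917) (nat_lit 252) (nat_lit 136365756) (nat_lit 336) (nat_lit 7744698580) (nat_lit 50) (nat_lit 5) (nat_lit 53) (nat_lit 5) (nat_lit 54) (nat_lit 5) (nat_lit 374) (nat_lit 296) (nat_lit 275)) (XT.lf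 (nat_lit 0) (nat_lit 6919609832) (nat_lit 336) (nat_lit 1798994224) (nat_lit 84) (nat_lit 2910549685) (nat_lit 50) (nat_lit 5) (nat_lit 54) (nat_lit 5) (nat_lit 51) (nat_lit 4) (nat_lit 375) (nat_lit 296) (nat_lit 274))))))) (XT.nd (nat_lit 1316) (nat_lit 1008) (nat_lit 0) (XT.nd (nat_lit 658) (nat_lit 588) (nat_lit 0) (XT.nd (nat_lit 282) (nat_lit 504) (nat_lit 0) (XT.nd (nat_lit 94) (nat_lit 336) (nat_lit 0) (XT.lf (nat_lit 0) (nat_lit 4456643525) (nat_lit 252) (nat_lit 5792736082) (nat_lit 336) (nat_lit 1601409292) (nat_lit 47) (nat_lit 5) (nat_lit 50) (nat_lit 5) (nat_lit 51) (nat_lit 4) (nat_lit 376) (nat_lit 296) (nat_lit 273)) (XT.nd (nat_lit 94) (nat_lit 252) (nat_lit 0) (XT.lf (nat_lit 0) (nat_lit 1525652249) (nat_lit 336) (nat_lit 1252131736) (nat_lit 84) (nat_lit 9302186769) (nat_lit 46) (nat_lit 5) (nat_lit 50) (nat_lit 5) (nat_lit 47) (nat_lit 5) (nat_lit 377) (nat_lit 296)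 (nat_lit 272)) (XT.lf (nat_lit 0) (nat_lit 4706850673) (nat_lit 336) (nat_lit 7254407055) (nat_lit 84) (nat_lit 354583551) (nat_lit 43) (nat_lit 5) (nat_lit 47) (nat_lit 5) (nat_lit 44) (nat_lit 4) (nat_lit 378) (nat_lit 296) (nat_lit 271)))) (XT.nd (nat_lit 188) (nat_lit 336) (nat_lit 0) (XT.nd (nat_lit 94) (nat_lit 168) (nat_lit 0) (XT.lf (nat_lit 0) (nat_lit 7964653721) (nat_lit 336) (nat_lit 1088682104) (nat_lit 84) (nat_lit 3506079396) (nat_lit 43) (nat_lit 5) (nat_lit 47) (nat_lit 5) (nat_lit 44) (nat_lit 4) (nat_lit 379) (nat_lit 296) (nat_lit 270)) (XT.lf (nat_lit 0) (nat_lit 5274927879) (nat_lit 168) (nat_lit 6038586868) (nat_lit 252) (nat_lit 1497042465) (nat_lit 41) (nat_lit 5) (nat_lit 43) (nat_lit 5) (nat_lit 44) (nat_lit 4) (nat_lit 380) (nat_lit 296) (nat_lit 269))) (XT.nd (nat_lit 94) (nat_lit 252) (nat_lit 0) (XT.lf (nat_lit 0) (nat_lit 1614476971) (nat_lit 252) (nat_lit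 1323861603) (nat_lit 84) (nat_lit 10131846044) (nat_lit 40) (nat_lit 5) (nat_lit 43) (nat_lit 5) (nat_lit 41) (nat_lit 5) (nat_lit 381) (nat_lit 296) (nat_lit 268)) (XT.lf (nat_lit 0) (nat_lit 4785246262) (nat_lit 336) (nat_lit 8269502225) (nat_lit 84) (nat_lit 282583301) (nat_lit 37) (nat_lit 5) (nat_lit 41) (nat_lit 5) (nat_lit 38) (nat_lit 4) (nat_lit 382) (nat_lit 296) (nat_lit 267))))) (XT.nd (nat_lit 282) (nat_lit 336) (nat_lit 0) (XT.nd (nat_lit 94) (nat_lit 252) (nat_lit 0) (XT.lf (nat_lit 0) (nat_lit 8038685971) (nat_lit 336) (nat_lit 2051136452) (nat_lit 84) (nat_lit 3523098325) (nat_lit 37) (nat_lit 5) (nat_lit 41) (nat_lit 5) (nat_lit 38) (nat_lit 4) (nat_lit 383) (nat_lit 296) (nat_lit 266)) (XT.nd (nat_lit 94) (nat_lit 84) (nat_lit 0) (XT.lf (nat_lit 0) (nat_lit 4353065404) (nat_lit 168) (nat_lit 7025065183) (nat_lit 252) (nat_lit 2519046966) (nat_lit 35) (nat_lit 5) (nat_lit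 37) (nat_lit 5) (nat_lit 38) (nat_lit 4) (nat_lit 384) (nat_lit 296) (nat_lit 265)) (XT.lf (nat_lit 0) (nat_lit 583190563) (nat_lit 252) (nat_lit 3290069468) (nat_lit 84) (nat_lit 10317540878) (nat_lit 34) (nat_lit 5) (nat_lit 37) (nat_lit 5) (nat_lit 35) (nat_lit 5) (nat_lit 385) (nat_lit 296) (nat_lit 264)))) (XT.nd (nat_lit 188) (nat_lit 168) (nat_lit 0) (XT.nd (nat_lit 94) (nat_lit 0) (nat_lit 0) (XT.lf (nat_lit 0) (nat_lit 3103793857) (nat_lit 168) (nat_lit 602185337) (nat_lit 252) (nat_lit 10787209907) (nat_lit 32) (nat_lit 5) (nat_lit 34) (nat_lit 5) (nat_lit 35) (nat_lit 5) (nat_lit 386) (nat_lit 296) (nat_lit 263)) (XT.lf (nat_lit 0) (nat_lit 6931289361) (nat_lit 252) (nat_lit 5157544001) (nat_lit 84) (nat_lit 2715596844) (nat_lit 32) (nat_lit 5) (nat_lit 35) (nat_lit 5) (nat_lit 33) (nat_lit 4) (nat_lit 387) (nat_lit 296) (nat_lit 262))) (XT.nd (nat_lit 94) (nat_lit 0) (nat_lit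 0) (XT.lf (nat_lit 0) (nat_lit 1197225057) (nat_lit 168) (nat_lit 9023786387) (nat_lit 252) (nat_lit 4905012573) (nat_lit 30) (nat_lit 5) (nat_lit 32) (nat_lit 5) (nat_lit 33) (nat_lit 4) (nat_lit 388) (nat_lit 296) (nat_lit 261)) (XT.lf (nat_lit 0) (nat_lit 7767722528) (nat_lit 168) (nat_lit 5844641524) (nat_lit 252) (nat_lit 1844857167) (nat_lit 30) (nat_lit 5) (nat_lit 32) (nat_lit 5) (nat_lit 33) (nat_lit 4) (nat_lit 389) (nat_lit 296) (nat_lit 260)))))) (XT.nd (nat_lit 658) (nat_lit 336) (nat_lit 0) (XT.nd (nat_lit 282) (nat_lit 420) (nat_lit 0) (XT.nd (nat_lit 94) (nat_lit 168) (nat_lit 0) (XT.lf (nat_lit 0) (nat_lit 1233371698) (nat_lit 252) (nat_lit 1354875625) (nat_lit 84) (nat_lit 13211218048) (nat_lit 29) (nat_lit 5) (nat_lit 32) (nat_lit 5) (nat_lit 30) (nat_lit 5) (nat_lit 390) (nat_lit 296) (nat_lit 259)) (XT.nd (nat_lit 94) (nat_lit 0) (nat_lit 0) (XT.lf (nat_lit 0) (nat_lit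 4377542900) (nat_lit 252) (nat_lit 10983594803) (nat_lit 84) (nat_lit 790010940) (nat_lit 27) (nat_lit 5) (nat_lit 30) (nat_lit 5) (nat_lit 28) (nat_lit 4) (nat_lit 391) (nat_lit 296) (nat_lit 258)) (XT.lf (nat_lit 0) (nat_lit 7609004400) (nat_lit 252) (nat_lit 4702666975) (nat_lit 84) (nat_lit 4201960944) (nat_lit 27) (nat_lit 5) (nat_lit 30) (nat_lit 5) (nat_lit 28) (nat_lit 4) (nat_lit 392) (nat_lit 296) (nat_lit 257)))) (XT.nd (nat_lit 188) (nat_lit 252) (nat_lit 0) (XT.nd (nat_lit 94) (nat_lit 0) (nat_lit 0) (XT.lf (nat_lit 0) (nat_lit 1725244569) (nat_lit 168) (nat_lit 9183624917) (nat_lit 252) (nat_lit 5979014959) (nat_lit 25) (nat_lit 5) (nat_lit 27) (nat_lit 5) (nat_lit 28) (nat_lit 4) (nat_lit 393) (nat_lit 296) (nat_lit 256)) (XT.lf (nat_lit 0) (nat_lit 8368020039) (nat_lit 168) (nat_lit 5942673214) (nat_lit 252) (nat_lit 2962618631) (nat_lit 25) (nat_lit 5) (nat_lit 27) (nat_lit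 5) (nat_lit 28) (nat_lit 4) (nat_lit 394) (nat_lit 296) (nat_lit 255))) (XT.nd (nat_lit 94) (nat_lit 168) (nat_lit 0) (XT.lf (nat_lit 0) (nat_lit 97763352) (nat_lit 252) (nat_lit 2534721512) (nat_lit 84) (nat_lit 15039120937) (nat_lit 24) (nat_lit 5) (nat_lit 27) (nat_lit 5) (nat_lit 25) (nat_lit 5) (nat_lit 395) (nat_lit 296) (nat_lit 254)) (XT.lf (nat_lit 0) (nat_lit 3194355309) (nat_lit 252) (nat_lit 14084186570) (nat_lit 84) (nat_lit 802341867) (nat_lit 22) (nat_lit 5) (nat_lit 25) (nat_lit 5) (nat_lit 23) (nat_lit 4) (nat_lit 396) (nat_lit 296) (nat_lit 253))))) (XT.nd (nat_lit 282) (nat_lit 252) (nat_lit 0) (XT.nd (nat_lit 94) (nat_lit 84) (nat_lit 0) (XT.lf (nat_lit 0) (nat_lit 6393626507) (nat_lit 252) (nat_lit 7823273073) (nat_lit 84) (nat_lit 4285279551) (nat_lit 22) (nat_lit 5) (nat_lit 25) (nat_lit 5) (nat_lit 23) (nat_lit 4) (nat_lit 397) (nat_lit 296) (nat_lit 252)) (XT.nd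 (nat_lit 94) (nat_lit 84) (nat_lit 0) (XT.lf (nat_lit 0) (nat_lit 9647971118) (nat_lit 252) (nat_lit 1443756461) (nat_lit 84) (nat_lit 7845644541) (nat_lit 22) (nat_lit 5) (nat_lit 25) (nat_lit 5) (nat_lit 23) (nat_lit 4) (nat_lit 398) (nat_lit 296) (nat_lit 251)) (XT.lf (nat_lit 0) (nat_lit 5160640280) (nat_lit 84) (nat_lit 7849199694) (nat_lit 168) (nat_lit 6375514785) (nat_lit 21) (nat_lit 5) (nat_lit 22) (nat_lit 5) (nat_lit 23) (nat_lit 4) (nat_lit 399) (nat_lit 296) (nat_lit 250)))) (XT.nd (nat_lit 188) (nat_lit 252) (nat_lit 0) (XT.nd (nat_lit 94) (nat_lit 0) (nat_lit 0) (XT.lf (nat_lit 0) (nat_lit 11926215372) (nat_lit 84) (nat_lit 4521732298) (nat_lit 168) (nat_lit 3399597510) (nat_lit 21) (nat_lit 5) (nat_lit 22) (nat_lit 5) (nat_lit 23) (nat_lit 4) (nat_lit 400) (nat_lit 296) (nat_lit 249)) (XT.lf (nat_lit 0) (nat_lit 18830146896) (nat_lit 84) (nat_lit 1120997005) (nat_lit 168)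 (nat_lit 373627970) (nat_lit 21) (nat_lit 5) (nat_lit 22) (nat_lit 5) (nat_lit 23) (nat_lit 4) (nat_lit 401) (nat_lit 296) (nat_lit 248))) (XT.nd (nat_lit 94) (nat_lit 0) (nat_lit 0) (XT.lf (nat_lit 0) (nat_lit 2725009017) (nat_lit 252) (nat_lit 15703364417) (nat_lit 84) (nat_lit 2386115633) (nat_lit 18) (nat_lit 5) (nat_lit 21) (nat_lit 5) (nat_lit 19) (nat_lit 4) (nat_lit 402) (nat_lit 296) (nat_lit 247)) (XT.lf (nat_lit 0) (nat_lit 5898330149) (nat_lit 252) (nat_lit 9451466418) (nat_lit 84) (nat_lit 5969339660) (nat_lit 18) (nat_lit 5) (nat_lit 21) (nat_lit 5) (nat_lit 19) (nat_lit 4) (nat_lit 403) (nat_lit 296) (nat_lit 246))))))))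
noncomputable def xc46 : XT := (XT.nd (nat_lit 2538) (nat_lit 336) (nat_lit 0) (XT.nd (nat_lit 1222) (nat_lit 420) (nat_lit 0) (XT.nd (nat_lit 564) (nat_lit 84) (nat_lit 0) (XT.nd (nat_lit 282) (nat_lit 252) (nat_lit 0) (XT.nd (nat_lit 94) (nat_lit 84) (nat_lit 0) (XT.lf (nat_lit 0) (nat_lit 9130825080) (nat_lit 252) (nat_lit 3073913259) (nat_lit 84) (nat_lit 9635290930) (nat_lit 18) (nat_lit 5) (nat_lit 21) (nat_lit 5) (nat_lit 19) (nat_lit 4) (nat_lit 404) (nat_lit 296) (nat_lit 245)) (XT.nd (nat_lit 94) (nat_lit 0) (nat_lit 0) (XT.lf (nat_lit 0) (nat_lit 3503228279) (nat_lit 84) (nat_lit 8955765214) (nat_lit 168) (nat_lit 9917619595) (nat_lit 17) (nat_lit 5) (nat_lit 18) (nat_lit 5) (nat_lit 19) (nat_lit 4) (nat_lit 405) (nat_lit 296) (nat_lit 244)) (XT.lf (nat_lit 0) (nat_lit 10281186661) (nat_lit 84) (nat_lit 5602330948) (nat_lit 168) (nat_lit 7045905711) (nat_lit 17) (nat_lit 5)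 (nat_lit 18) (nat_lit 5) (nat_lit 19) (nat_lit 4) (nat_lit 406) (nat_lit 296) (nat_lit 243)))) (XT.nd (nat_lit 94) (nat_lit 252) (nat_lit 0) (XT.lf (nat_lit 0) (nat_lit 17204707472) (nat_lit 84) (nat_lit 2172545854) (nat_lit 168) (nat_lit 4122593769) (nat_lit 17) (nat_lit 5) (nat_lit 18) (nat_lit 5) (nat_lit 19) (nat_lit 4) (nat_lit 407) (nat_lit 296) (nat_lit 242)) (XT.nd (nat_lit 94) (nat_lit 84) (nat_lit 0) (XT.lf (nat_lit 0) (nat_lit 182164135) (nat_lit 168) (nat_lit 22775688451) (nat_lit 168) (nat_lit 1130092281) (nat_lit 15) (nat_lit 4) (nat_lit 17) (nat_lit 5) (nat_lit 17) (nat_lit 4) (nat_lit 408) (nat_lit 296) (nat_lit 241)) (XT.lf (nat_lit 0) (nat_lit 1967095563) (nat_lit 252) (nat_lit 17806833946) (nat_lit 84) (nat_lit 4917624448) (nat_lit 14) (nat_lit 5) (nat_lit 17) (nat_lit 5) (nat_lit 15) (nat_lit 4) (nat_lit 409) (nat_lit 296) (nat_lit 240))))) (XT.nd (nat_lit 282) (nat_lit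 0) (nat_lit 0) (XT.nd (nat_lit 94) (nat_lit 84) (nat_lit 0) (XT.lf (nat_lit 0) (nat_lit 5102734963) (nat_lit 252) (nat_lit 11591429432) (nat_lit 84) (nat_lit 8619744656) (nat_lit 14) (nat_lit 5) (nat_lit 17) (nat_lit 5) (nat_lit 15) (nat_lit 4) (nat_lit 410) (nat_lit 296) (nat_lit 239)) (XT.nd (nat_lit 94) (nat_lit 84) (nat_lit 0) (XT.lf (nat_lit 0) (nat_lit 8301617967) (nat_lit 252) (nat_lit 5243273115) (nat_lit 84) (nat_lit 12410988764) (nat_lit 14) (nat_lit 5) (nat_lit 17) (nat_lit 5) (nat_lit 15) (nat_lit 4) (nat_lit 411) (nat_lit 296) (nat_lit 238)) (XT.lf (nat_lit 0) (nat_lit 1267923694) (nat_lit 84) (nat_lit 10310804079) (nat_lit 168) (nat_lit 15038933873) (nat_lit 13) (nat_lit 5) (nat_lit 14) (nat_lit 5) (nat_lit 15) (nat_lit 4) (nat_lit 412) (nat_lit 296) (nat_lit 237)))) (XT.nd (nat_lit 188) (nat_lit 0) (nat_lit 0) (XT.nd (nat_lit 94) (nat_lit 0) (nat_lit 0) (XT.lf (nat_lit 0)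 (nat_lit 8030303647) (nat_lit 84) (nat_lit 6947241597) (nat_lit 168) (nat_lit 12321068944) (nat_lit 13) (nat_lit 5) (nat_lit 14) (nat_lit 5) (nat_lit 15) (nat_lit 4) (nat_lit 413) (nat_lit 296) (nat_lit 236)) (XT.lf (nat_lit 0) (nat_lit 14945424203) (nat_lit 84) (nat_lit 3504211378) (nat_lit 168) (nat_lit 9551239036) (nat_lit 13) (nat_lit 5) (nat_lit 14) (nat_lit 5) (nat_lit 15) (nat_lit 4) (nat_lit 414) (nat_lit 296) (nat_lit 235))) (XT.nd (nat_lit 94) (nat_lit 0) (nat_lit 0) (XT.lf (nat_lit 0) (nat_lit 21998237351) (nat_lit 168) (nat_lit 6705933561) (nat_lit 0) (nat_lit 20879506) (nat_lit 13) (nat_lit 5) (nat_lit 15) (nat_lit 4) (nat_lit 13) (nat_lit 4) (nat_lit 415) (nat_lit 296) (nat_lit 234)) (XT.lf (nat_lit 0) (nat_lit 25660753440) (nat_lit 168) (nat_lit 248514024) (nat_lit 0) (nat_lit 3561477835) (nat_lit 13) (nat_lit 5) (nat_lit 15) (nat_lit 4) (nat_lit 13) (nat_lit 4) (nat_lit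 416) (nat_lit 296) (nat_lit 233)))))) (XT.nd (nat_lit 658) (nat_lit 168) (nat_lit 0) (XT.nd (nat_lit 282) (nat_lit 84) (nat_lit 0) (XT.nd (nat_lit 94) (nat_lit 84) (nat_lit 0) (XT.lf (nat_lit 0) (nat_lit 6482634776) (nat_lit 84) (nat_lit 22986379757) (nat_lit 84) (nat_lit 768737395) (nat_lit 12) (nat_lit 4) (nat_lit 13) (nat_lit 5) (nat_lit 13) (nat_lit 4) (nat_lit 417) (nat_lit 296) (nat_lit 232)) (XT.nd (nat_lit 94) (nat_lit 0) (nat_lit 0) (XT.lf (nat_lit 0) (nat_lit 2293771116) (nat_lit 168) (nat_lit 17676206177) (nat_lit 84) (nat_lit 11057841565) (nat_lit 11) (nat_lit 5) (nat_lit 13) (nat_lit 5) (nat_lit 12) (nat_lit 4) (nat_lit 418) (nat_lit 296) (nat_lit 231)) (XT.lf (nat_lit 0) (nat_lit 5407080170) (nat_lit 168) (nat_lit 11467760820) (nat_lit 84) (nat_lit 14967302728) (nat_lit 11) (nat_lit 5) (nat_lit 13) (nat_lit 5) (nat_lit 12) (nat_lit 4) (nat_lit 419) (nat_lit 296) (nat_lit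 230)))) (XT.nd (nat_lit 188) (nat_lit 0) (nat_lit 0) (XT.nd (nat_lit 94) (nat_lit 84) (nat_lit 0) (XT.lf (nat_lit 0) (nat_lit 8588910967) (nat_lit 168) (nat_lit 5116966652) (nat_lit 84) (nat_lit 18975782121) (nat_lit 11) (nat_lit 5) (nat_lit 13) (nat_lit 5) (nat_lit 12) (nat_lit 4) (nat_lit 420) (nat_lit 296) (nat_lit 229)) (XT.lf (nat_lit 0) (nat_lit 1409224610) (nat_lit 84) (nat_lit 10446365467) (nat_lit 168) (nat_lit 21691104017) (nat_lit 10) (nat_lit 5) (nat_lit 11) (nat_lit 5) (nat_lit 12) (nat_lit 4) (nat_lit 421) (nat_lit 296) (nat_lit 228))) (XT.nd (nat_lit 94) (nat_lit 0) (nat_lit 0) (XT.lf (nat_lit 0) (nat_lit 8193886533) (nat_lit 84) (nat_lit 7054199173) (nat_lit 168) (nat_lit 19188773513) (nat_lit 10) (nat_lit 5) (nat_lit 11) (nat_lit 5) (nat_lit 12) (nat_lit 4) (nat_lit 422) (nat_lit 296) (nat_lit 227)) (XT.lf (nat_lit 0) (nat_lit 15141109792) (nat_lit 84) (nat_lit 3578086039)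 (nat_lit 168) (nat_lit 16635242089) (nat_lit 10) (nat_lit 5) (nat_lit 11) (nat_lit 5) (nat_lit 12) (nat_lit 4) (nat_lit 423) (nat_lit 296) (nat_lit 226))))) (XT.nd (nat_lit 282) (nat_lit 168) (nat_lit 0) (XT.nd (nat_lit 94) (nat_lit 0) (nat_lit 0) (XT.lf (nat_lit 0) (nat_lit 22256964777) (nat_lit 84) (nat_lit 14988685) (nat_lit 168) (nat_lit 14028278504) (nat_lit 10) (nat_lit 5) (nat_lit 11) (nat_lit 5) (nat_lit 12) (nat_lit 4) (nat_lit 424) (nat_lit 296) (nat_lit 225)) (XT.nd (nat_lit 94) (nat_lit 0) (nat_lit 0) (XT.lf (nat_lit 0) (nat_lit 25944435614) (nat_lit 168) (nat_lit 7762371219) (nat_lit 0) (nat_lit 3567211765) (nat_lit 10) (nat_lit 5) (nat_lit 12) (nat_lit 4) (nat_lit 10) (nat_lit 4) (nat_lit 425) (nat_lit 296) (nat_lit 224)) (XT.lf (nat_lit 0) (nat_lit 29705888866) (nat_lit 168) (nat_lit 1331189669) (nat_lit 0) (nat_lit 7240589033) (nat_lit 10) (nat_lit 5) (nat_lit 12) (nat_lit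 4) (nat_lit 10) (nat_lit 4) (nat_lit 426) (nat_lit 296) (nat_lit 223)))) (XT.nd (nat_lit 188) (nat_lit 84) (nat_lit 0) (XT.nd (nat_lit 94) (nat_lit 0) (nat_lit 0) (XT.lf (nat_lit 0) (nat_lit 5360646540) (nat_lit 84) (nat_lit 28250339119) (nat_lit 84) (nat_lit 5699528622) (nat_lit 9) (nat_lit 4) (nat_lit 10) (nat_lit 5) (nat_lit 10) (nat_lit 4) (nat_lit 427) (nat_lit 296) (nat_lit 222)) (XT.lf (nat_lit 0) (nat_lit 12244001242) (nat_lit 84) (nat_lit 25382199334) (nat_lit 84) (nat_lit 2748368775) (nat_lit 9) (nat_lit 4) (nat_lit 10) (nat_lit 5) (nat_lit 10) (nat_lit 4) (nat_lit 428) (nat_lit 296) (nat_lit 221))) (XT.nd (nat_lit 94) (nat_lit 0) (nat_lit 0) (XT.lf (nat_lit 0) (nat_lit 265552106) (nat_lit 168) (nat_lit 22175361783) (nat_lit 84) (nat_lit 19030162070) (nat_lit 8) (nat_lit 5) (nat_lit 10) (nat_lit 5) (nat_lit 9) (nat_lit 4) (nat_lit 429) (nat_lit 296) (nat_lit 220)) (XT.lf (nat_lit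 0) (nat_lit 3295147296) (nat_lit 168) (nat_lit 16103537918) (nat_lit 84) (nat_lit 23201572222) (nat_lit 8) (nat_lit 5) (nat_lit 10) (nat_lit 5) (nat_lit 9) (nat_lit 4) (nat_lit 430) (nat_lit 296) (nat_lit 219))))))) (XT.nd (nat_lit 1316) (nat_lit 168) (nat_lit 0) (XT.nd (nat_lit 658) (nat_lit 84) (nat_lit 0) (XT.nd (nat_lit 282) (nat_lit 0) (nat_lit 0) (XT.nd (nat_lit 94) (nat_lit 84) (nat_lit 0) (XT.lf (nat_lit 0) (nat_lit 6396694587) (nat_lit 168) (nat_lit 9883372036) (nat_lit 84) (nat_lit 27483826393) (nat_lit 8) (nat_lit 5) (nat_lit 10) (nat_lit 5) (nat_lit 9) (nat_lit 4) (nat_lit 431) (nat_lit 296) (nat_lit 218)) (XT.nd (nat_lit 94) (nat_lit 84) (nat_lit 0) (XT.lf (nat_lit 0) (nat_lit 9572904068) (nat_lit 168) (nat_lit 3509429038) (nat_lit 84) (nat_lit 31880666359) (nat_lit 8) (nat_lit 5) (nat_lit 10) (nat_lit 5) (nat_lit 9) (nat_lit 4) (nat_lit 432) (nat_lit 296) (nat_lit 217)) (XT.lf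 (nat_lit 0) (nat_lit 3084041291) (nat_lit 84) (nat_lit 9772155469) (nat_lit 168) (nat_lit 33341538419) (nat_lit 7) (nat_lit 5) (nat_lit 8) (nat_lit 5) (nat_lit 9) (nat_lit 4) (nat_lit 433) (nat_lit 296) (nat_lit 216)))) (XT.nd (nat_lit 188) (nat_lit 0) (nat_lit 0) (XT.nd (nat_lit 94) (nat_lit 0) (nat_lit 0) (XT.lf (nat_lit 0) (nat_lit 9915696342) (nat_lit 84) (nat_lit 6340097978) (nat_lit 168) (nat_lit 31213194148) (nat_lit 7) (nat_lit 5) (nat_lit 8) (nat_lit 5) (nat_lit 9) (nat_lit 4) (nat_lit 434) (nat_lit 296) (nat_lit 215)) (XT.lf (nat_lit 0) (nat_lit 16921661003) (nat_lit 84) (nat_lit 2818600099) (nat_lit 168) (nat_lit 29038641219) (nat_lit 7) (nat_lit 5) (nat_lit 8) (nat_lit 5) (nat_lit 9) (nat_lit 4) (nat_lit 435) (nat_lit 296) (nat_lit 214))) (XT.nd (nat_lit 94) (nat_lit 0) (nat_lit 0) (XT.lf (nat_lit 0) (nat_lit 23320287806) (nat_lit 168) (nat_lit 26028210351) (nat_lit 0) (nat_lit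 779893786) (nat_lit 7) (nat_lit 5) (nat_lit 9) (nat_lit 4) (nat_lit 7) (nat_lit 4) (nat_lit 436) (nat_lit 296) (nat_lit 213)) (XT.lf (nat_lit 0) (nat_lit 27019363707) (nat_lit 168) (nat_lit 20081466996) (nat_lit 0) (nat_lit 4417194964) (nat_lit 7) (nat_lit 5) (nat_lit 9) (nat_lit 4) (nat_lit 7) (nat_lit 4) (nat_lit 437) (nat_lit 296) (nat_lit 212))))) (XT.nd (nat_lit 282) (nat_lit 84) (nat_lit 0) (XT.nd (nat_lit 94) (nat_lit 0) (nat_lit 0) (XT.lf (nat_lit 0) (nat_lit 30813626900) (nat_lit 168) (nat_lit 13984720961) (nat_lit 0) (nat_lit 8151482698) (nat_lit 7) (nat_lit 5) (nat_lit 9) (nat_lit 4) (nat_lit 7) (nat_lit 4) (nat_lit 438) (nat_lit 296) (nat_lit 211)) (XT.nd (nat_lit 94) (nat_lit 0) (nat_lit 0) (XT.lf (nat_lit 0) (nat_lit 34706392761) (nat_lit 168) (nat_lit 7732644992) (nat_lit 0) (nat_lit 11986019957) (nat_lit 7) (nat_lit 5) (nat_lit 9) (nat_lit 4) (nat_lit 7) (nat_lit 4) (nat_lit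 439) (nat_lit 296) (nat_lit 210)) (XT.lf (nat_lit 0) (nat_lit 38701062735) (nat_lit 168) (nat_lit 1319776110) (nat_lit 0) (nat_lit 15924157309) (nat_lit 7) (nat_lit 5) (nat_lit 9) (nat_lit 4) (nat_lit 7) (nat_lit 4) (nat_lit 440) (nat_lit 296) (nat_lit 209)))) (XT.nd (nat_lit 188) (nat_lit 0) (nat_lit 0) (XT.nd (nat_lit 94) (nat_lit 0) (nat_lit 0) (XT.lf (nat_lit 0) (nat_lit 5364163309) (nat_lit 84) (nat_lit 37488527621) (nat_lit 84) (nat_lit 14656736154) (nat_lit 6) (nat_lit 4) (nat_lit 7) (nat_lit 5) (nat_lit 7) (nat_lit 4) (nat_lit 441) (nat_lit 296) (nat_lit 208)) (XT.lf (nat_lit 0) (nat_lit 12249940152) (nat_lit 84) (nat_lit 34877982836) (nat_lit 84) (nat_lit 11992903950) (nat_lit 6) (nat_lit 4) (nat_lit 7) (nat_lit 5) (nat_lit 7) (nat_lit 4) (nat_lit 442) (nat_lit 296) (nat_lit 207))) (XT.nd (nat_lit 94) (nat_lit 0) (nat_lit 0) (XT.lf (nat_lit 0) (nat_lit 19317304984) (nat_lit 84)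 (nat_lit 32200250582) (nat_lit 84) (nat_lit 9263436339) (nat_lit 6) (nat_lit 4) (nat_lit 7) (nat_lit 5) (nat_lit 7) (nat_lit 4) (nat_lit 443) (nat_lit 296) (nat_lit 206)) (XT.lf (nat_lit 0) (nat_lit 26572433174) (nat_lit 84) (nat_lit 29452991094) (nat_lit 84) (nat_lit 6465948347) (nat_lit 6) (nat_lit 4) (nat_lit 7) (nat_lit 5) (nat_lit 7) (nat_lit 4) (nat_lit 444) (nat_lit 296) (nat_lit 205)))))) (XT.nd (nat_lit 658) (nat_lit 0) (nat_lit 0) (XT.nd (nat_lit 282) (nat_lit 84) (nat_lit 0) (XT.nd (nat_lit 94) (nat_lit 84) (nat_lit 0) (XT.lf (nat_lit 0) (nat_lit 34021664152) (nat_lit 84) (nat_lit 26633803853) (nat_lit 84) (nat_lit 3597995570) (nat_lit 6) (nat_lit 4) (nat_lit 7) (nat_lit 5) (nat_lit 7) (nat_lit 4) (nat_lit 445) (nat_lit 296) (nat_lit 204)) (XT.nd (nat_lit 94) (nat_lit 84) (nat_lit 0) (XT.lf (nat_lit 0) (nat_lit 41671506957) (nat_lit 84) (nat_lit 23740225492) (nat_lit 84) (nat_lit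 657072027) (nat_lit 6) (nat_lit 4) (nat_lit 7) (nat_lit 5) (nat_lit 7) (nat_lit 4) (nat_lit 446) (nat_lit 296) (nat_lit 203)) (XT.lf (nat_lit 0) (nat_lit 2313351782) (nat_lit 168) (nat_lit 18433015542) (nat_lit 84) (nat_lit 47191933817) (nat_lit 5) (nat_lit 5) (nat_lit 7) (nat_lit 5) (nat_lit 6) (nat_lit 4) (nat_lit 447) (nat_lit 296) (nat_lit 202)))) (XT.nd (nat_lit 188) (nat_lit 84) (nat_lit 0) (XT.nd (nat_lit 94) (nat_lit 0) (nat_lit 0) (XT.lf (nat_lit 0) (nat_lit 5347604498) (nat_lit 168) (nat_lit 12318109901) (nat_lit 84) (nat_lit 52198341673) (nat_lit 5) (nat_lit 5) (nat_lit 7) (nat_lit 5) (nat_lit 6) (nat_lit 4) (nat_lit 448) (nat_lit 296) (nat_lit 201)) (XT.lf (nat_lit 0) (nat_lit 8461159253) (nat_lit 168) (nat_lit 6040921298) (nat_lit 84) (nat_lit 57345860904) (nat_lit 5) (nat_lit 5) (nat_lit 7) (nat_lit 5) (nat_lit 6) (nat_lit 4) (nat_lit 449) (nat_lit 296) (nat_lit 200))) (XT.nd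 (nat_lit 94) (nat_lit 0) (nat_lit 0) (XT.lf (nat_lit 0) (nat_lit 412076282) (nat_lit 84) (nat_lit 11248621473) (nat_lit 168) (nat_lit 62230874191) (nat_lit 4) (nat_lit 5) (nat_lit 5) (nat_lit 5) (nat_lit 6) (nat_lit 4) (nat_lit 450) (nat_lit 296) (nat_lit 199)) (XT.lf (nat_lit 0) (nat_lit 7162150429) (nat_lit 84) (nat_lit 7843825413) (nat_lit 168) (nat_lit 60989048597) (nat_lit 4) (nat_lit 5) (nat_lit 5) (nat_lit 5) (nat_lit 6) (nat_lit 4) (nat_lit 451) (nat_lit 296) (nat_lit 198))))) (XT.nd (nat_lit 282) (nat_lit 0) (nat_lit 0) (XT.nd (nat_lit 94) (nat_lit 0) (nat_lit 0) (XT.lf (nat_lit 0) (nat_lit 14094973089) (nat_lit 84) (nat_lit 4345718765) (nat_lit 168) (nat_lit 59721221791) (nat_lit 4) (nat_lit 5) (nat_lit 5) (nat_lit 5) (nat_lit 6) (nat_lit 4) (nat_lit 452) (nat_lit 296) (nat_lit 197)) (XT.nd (nat_lit 94) (nat_lit 0) (nat_lit 0) (XT.lf (nat_lit 0) (nat_lit 21216602065) (nat_lit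 84) (nat_lit 751244932) (nat_lit 168) (nat_lit 58426285962) (nat_lit 4) (nat_lit 5) (nat_lit 5) (nat_lit 5) (nat_lit 6) (nat_lit 4) (nat_lit 453) (nat_lit 296) (nat_lit 196)) (XT.lf (nat_lit 0) (nat_lit 25618810641) (nat_lit 168) (nat_lit 54188660112) (nat_lit 0) (nat_lit 2885313491) (nat_lit 4) (nat_lit 5) (nat_lit 6) (nat_lit 4) (nat_lit 4) (nat_lit 4) (nat_lit 454) (nat_lit 296) (nat_lit 195)))) (XT.nd (nat_lit 49538) (nat_lit 0) (nat_lit 9492) (XT.nd (nat_lit 94) (nat_lit 0) (nat_lit 0) (XT.lf (nat_lit 0) (nat_lit 29376669827) (nat_lit 168) (nat_lit 49075865883) (nat_lit 0) (nat_lit 6607943416) (nat_lit 4) (nat_lit 5) (nat_lit 6) (nat_lit 4) (nat_lit 4) (nat_lit 4) (nat_lit 455) (nat_lit 296) (nat_lit 194)) (XT.lf (nat_lit 0) (nat_lit 33237486696) (nat_lit 168) (nat_lit 43827459291) (nat_lit 0) (nat_lit 10434557118) (nat_lit 4) (nat_lit 5) (nat_lit 6) (nat_lit 4) (nat_lit 4) (nat_lit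 4) (nat_lit 456) (nat_lit 296) (nat_lit 193))) (XT.nd (nat_lit 94) (nat_lit 0) (nat_lit 0) (XT.lf (nat_lit 0) (nat_lit 304237740) (nat_lit 504) (nat_lit 1855531572) (nat_lit 504) (nat_lit 1855531572) (nat_lit 117) (nat_lit 4) (nat_lit 123) (nat_lit 5) (nat_lit 123) (nat_lit 4) (nat_lit 351) (nat_lit 297) (nat_lit 297)) (XT.lf (nat_lit 0) (nat_lit 6063736603) (nat_lit 504) (nat_lit 1643144932) (nat_lit 504) (nat_lit 420302494) (nat_lit 117) (nat_lit 4) (nat_lit 123) (nat_lit 5) (nat_lit 123) (nat_lit 4) (nat_lit 352) (nat_lit 297) (nat_lit 296))))))))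
noncomputable def xc47 : XT := (XT.nd (nat_lit 2632) (nat_lit 2016) (nat_lit 0) (XT.nd (nat_lit 1316) (nat_lit 2436) (nat_lit 0) (XT.nd (nat_lit 658) (nat_lit 1596) (nat_lit 0) (XT.nd (nat_lit 282) (nat_lit 1260) (nat_lit 0) (XT.nd (nat_lit 94) (nat_lit 588) (nat_lit 0) (XT.lf (nat_lit 0) (nat_lit 2860584695) (nat_lit 504) (nat_lit 4846195178) (nat_lit 0) (nat_lit 520712749) (nat_lit 111) (nat_lit 5) (nat_lit 117) (nat_lit 4) (nat_lit 111) (nat_lit 4) (nat_lit 353) (nat_lit 297) (nat_lit 295)) (XT.nd (nat_lit 94) (nat_lit 84) (nat_lit 0) (XT.lf (nat_lit 0) (nat_lit 583743540) (nat_lit 504) (nat_lit 5603684681) (nat_lit 504) (nat_lit 2144738678) (nat_lit 105) (nat_lit 4) (nat_lit 111) (nat_lit 5) (nat_lit 111) (nat_lit 4) (nat_lit 354) (nat_lit 297) (nat_lit 294)) (XT.lf (nat_lit 0) (nat_lit 1114161353) (nat_lit 588) (nat_lit 2283678122) (nat_lit 84) (nat_lit 5043065420) (nat_lit 104) (nat_lit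 5) (nat_lit 111) (nat_lit 5) (nat_lit 105) (nat_lit 4) (nat_lit 355) (nat_lit 297) (nat_lit 293)))) (XT.nd (nat_lit 188) (nat_lit 420) (nat_lit 0) (XT.nd (nat_lit 94) (nat_lit 420) (nat_lit 0) (XT.lf (nat_lit 0) (nat_lit 3281678948) (nat_lit 420) (nat_lit 1093660582) (nat_lit 504) (nat_lit 4178646865) (nat_lit 99) (nat_lit 5) (nat_lit 104) (nat_lit 5) (nat_lit 105) (nat_lit 4) (nat_lit 356) (nat_lit 297) (nat_lit 292)) (XT.lf (nat_lit 0) (nat_lit 276413581) (nat_lit 420) (nat_lit 7413476035) (nat_lit 420) (nat_lit 982047308) (nat_lit 94) (nat_lit 4) (nat_lit 99) (nat_lit 5) (nat_lit 99) (nat_lit 4) (nat_lit 357) (nat_lit 297) (nat_lit 291))) (XT.nd (nat_lit 94) (nat_lit 336) (nat_lit 0) (XT.lf (nat_lit 0) (nat_lit 2247695108) (nat_lit 504) (nat_lit 2833930769) (nat_lit 84) (nat_lit 3711798398) (nat_lit 93) (nat_lit 5) (nat_lit 99) (nat_lit 5) (nat_lit 94) (nat_lit 4) (nat_lit 358) (nat_lit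 297) (nat_lit 290)) (XT.lf (nat_lit 0) (nat_lit 2835049673) (nat_lit 336) (nat_lit 2666924916) (nat_lit 420) (nat_lit 3417999045) (nat_lit 89) (nat_lit 5) (nat_lit 93) (nat_lit 5) (nat_lit 94) (nat_lit 4) (nat_lit 359) (nat_lit 297) (nat_lit 289))))) (XT.nd (nat_lit 282) (nat_lit 756) (nat_lit 0) (XT.nd (nat_lit 94) (nat_lit 840) (nat_lit 0) (XT.lf (nat_lit 0) (nat_lit 8628163618) (nat_lit 336) (nat_lit 175793021) (nat_lit 420) (nat_lit 247987379) (nat_lit 89) (nat_lit 5) (nat_lit 93) (nat_lit 5) (nat_lit 94) (nat_lit 4) (nat_lit 360) (nat_lit 297) (nat_lit 288)) (XT.nd (nat_lit 94) (nat_lit 336) (nat_lit 0) (XT.lf (nat_lit 0) (nat_lit 2956368431) (nat_lit 504) (nat_lit 3830878643) (nat_lit 84) (nat_lit 2399932299) (nat_lit 83) (nat_lit 5) (nat_lit 89) (nat_lit 5) (nat_lit 84) (nat_lit 4) (nat_lit 361) (nat_lit 297) (nat_lit 287)) (XT.lf (nat_lit 0) (nat_lit 1921596126) (nat_lit 336) (nat_lit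 4278698889) (nat_lit 420) (nat_lit 3127766395) (nat_lit 79) (nat_lit 5) (nat_lit 83) (nat_lit 5) (nat_lit 84) (nat_lit 4) (nat_lit 362) (nat_lit 297) (nat_lit 286)))) (XT.nd (nat_lit 188) (nat_lit 336) (nat_lit 0) (XT.nd (nat_lit 94) (nat_lit 336) (nat_lit 0) (XT.lf (nat_lit 0) (nat_lit 30370356) (nat_lit 420) (nat_lit 1652265115) (nat_lit 84) (nat_lit 7791724023) (nat_lit 78) (nat_lit 5) (nat_lit 83) (nat_lit 5) (nat_lit 79) (nat_lit 5) (nat_lit 363) (nat_lit 297) (nat_lit 285)) (XT.lf (nat_lit 0) (nat_lit 3197440181) (nat_lit 420) (nat_lit 5410499046) (nat_lit 84) (nat_lit 1016972805) (nat_lit 74) (nat_lit 5) (nat_lit 79) (nat_lit 5) (nat_lit 75) (nat_lit 4) (nat_lit 364) (nat_lit 297) (nat_lit 284))) (XT.nd (nat_lit 94) (nat_lit 0) (nat_lit 0) (XT.lf (nat_lit 0) (nat_lit 400102976) (nat_lit 336) (nat_lit 6024155829) (nat_lit 420) (nat_lit 3356883316) (nat_lit 70) (nat_lit 5) (nat_lit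 74) (nat_lit 5) (nat_lit 75) (nat_lit 4) (nat_lit 365) (nat_lit 297) (nat_lit 283)) (XT.lf (nat_lit 0) (nat_lit 6394576355) (nat_lit 336) (nat_lit 3336462959) (nat_lit 420) (nat_lit 211625154) (nat_lit 70) (nat_lit 5) (nat_lit 74) (nat_lit 5) (nat_lit 75) (nat_lit 4) (nat_lit 366) (nat_lit 297) (nat_lit 282)))))) (XT.nd (nat_lit 658) (nat_lit 1008) (nat_lit 0) (XT.nd (nat_lit 282) (nat_lit 756) (nat_lit 0) (XT.nd (nat_lit 94) (nat_lit 252) (nat_lit 0) (XT.lf (nat_lit 0) (nat_lit 2377237500) (nat_lit 336) (nat_lit 544339133) (nat_lit 420) (nat_lit 7188096787) (nat_lit 65) (nat_lit 5) (nat_lit 69) (nat_lit 5) (nat_lit 70) (nat_lit 5) (nat_lit 367) (nat_lit 297) (nat_lit 281)) (XT.nd (nat_lit 94) (nat_lit 252) (nat_lit 0) (XT.lf (nat_lit 0) (nat_lit 6133744629) (nat_lit 420) (nat_lit 1853218418) (nat_lit 84) (nat_lit 2295081609) (nat_lit 65) (nat_lit 5) (nat_lit 70) (nat_lit 5) (nat_lit 66)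 (nat_lit 4) (nat_lit 368) (nat_lit 297) (nat_lit 280)) (XT.lf (nat_lit 0) (nat_lit 4180708997) (nat_lit 252) (nat_lit 5239794111) (nat_lit 336) (nat_lit 1039826072) (nat_lit 62) (nat_lit 5) (nat_lit 65) (nat_lit 5) (nat_lit 66) (nat_lit 4) (nat_lit 369) (nat_lit 297) (nat_lit 279)))) (XT.nd (nat_lit 188) (nat_lit 336) (nat_lit 0) (XT.nd (nat_lit 94) (nat_lit 336) (nat_lit 0) (XT.lf (nat_lit 0) (nat_lit 2071552140) (nat_lit 336) (nat_lit 329041145) (nat_lit 84) (nat_lit 8244274224) (nat_lit 61) (nat_lit 5) (nat_lit 65) (nat_lit 5) (nat_lit 62) (nat_lit 5) (nat_lit 370) (nat_lit 297) (nat_lit 278)) (XT.lf (nat_lit 0) (nat_lit 5251487333) (nat_lit 420) (nat_lit 5032756378) (nat_lit 84) (nat_lit 550587333) (nat_lit 57) (nat_lit 5) (nat_lit 62) (nat_lit 5) (nat_lit 58) (nat_lit 4) (nat_lit 371) (nat_lit 297) (nat_lit 277))) (XT.nd (nat_lit 94) (nat_lit 84) (nat_lit 0) (XT.lf (nat_lit 0) (nat_lit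 992819556) (nat_lit 252) (nat_lit 7506254735) (nat_lit 336) (nat_lit 2532330583) (nat_lit 54) (nat_lit 5) (nat_lit 57) (nat_lit 5) (nat_lit 58) (nat_lit 4) (nat_lit 372) (nat_lit 297) (nat_lit 276)) (XT.lf (nat_lit 0) (nat_lit 585472677) (nat_lit 336) (nat_lit 4033026719) (nat_lit 84) (nat_lit 6615660001) (nat_lit 53) (nat_lit 5) (nat_lit 57) (nat_lit 5) (nat_lit 54) (nat_lit 5) (nat_lit 373) (nat_lit 297) (nat_lit 275))))) (XT.nd (nat_lit 282) (nat_lit 504) (nat_lit 0) (XT.nd (nat_lit 94) (nat_lit 252) (nat_lit 0) (XT.lf (nat_lit 0) (nat_lit 2074281547) (nat_lit 252) (nat_lit 1629282104) (nat_lit 336) (nat_lit 7740023492) (nat_lit 50) (nat_lit 5) (nat_lit 53) (nat_lit 5) (nat_lit 54) (nat_lit 5) (nat_lit 374) (nat_lit 297) (nat_lit 274)) (XT.nd (nat_lit 94) (nat_lit 252) (nat_lit 0) (XT.lf (nat_lit 0) (nat_lit 6908590557) (nat_lit 336) (nat_lit 3319441051) (nat_lit 84) (nat_lit 1431534508)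 (nat_lit 50) (nat_lit 5) (nat_lit 54) (nat_lit 5) (nat_lit 51) (nat_lit 4) (nat_lit 375) (nat_lit 297) (nat_lit 273)) (XT.lf (nat_lit 0) (nat_lit 2859836868) (nat_lit 252) (nat_lit 7333679391) (nat_lit 336) (nat_lit 1689063905) (nat_lit 47) (nat_lit 5) (nat_lit 50) (nat_lit 5) (nat_lit 51) (nat_lit 4) (nat_lit 376) (nat_lit 297) (nat_lit 272)))) (XT.nd (nat_lit 188) (nat_lit 168) (nat_lit 0) (XT.nd (nat_lit 94) (nat_lit 252) (nat_lit 0) (XT.lf (nat_lit 0) (nat_lit 1410322598) (nat_lit 336) (nat_lit 2925260780) (nat_lit 84) (nat_lit 7777117126) (nat_lit 46) (nat_lit 5) (nat_lit 50) (nat_lit 5) (nat_lit 47) (nat_lit 5) (nat_lit 377) (nat_lit 297) (nat_lit 271)) (XT.lf (nat_lit 0) (nat_lit 3313658359) (nat_lit 252) (nat_lit 1229021638) (nat_lit 336) (nat_lit 7807386983) (nat_lit 43) (nat_lit 5) (nat_lit 46) (nat_lit 5) (nat_lit 47) (nat_lit 5) (nat_lit 378) (nat_lit 297) (nat_lit 270))) (XT.nd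 (nat_lit 94) (nat_lit 168) (nat_lit 0) (XT.lf (nat_lit 0) (nat_lit 7760401970) (nat_lit 336) (nat_lit 2903214173) (nat_lit 84) (nat_lit 1931257040) (nat_lit 43) (nat_lit 5) (nat_lit 47) (nat_lit 5) (nat_lit 44) (nat_lit 4) (nat_lit 379) (nat_lit 297) (nat_lit 269)) (XT.lf (nat_lit 0) (nat_lit 3380373207) (nat_lit 168) (nat_lit 7683234512) (nat_lit 252) (nat_lit 1783806070) (nat_lit 41) (nat_lit 5) (nat_lit 43) (nat_lit 5) (nat_lit 44) (nat_lit 4) (nat_lit 380) (nat_lit 297) (nat_lit 268))))))) (XT.nd (nat_lit 1316) (nat_lit 672) (nat_lit 0) (XT.nd (nat_lit 658) (nat_lit 588) (nat_lit 0) (XT.nd (nat_lit 282) (nat_lit 420) (nat_lit 0) (XT.nd (nat_lit 94) (nat_lit 252) (nat_lit 0) (XT.lf (nat_lit 0) (nat_lit 1305959605) (nat_lit 252) (nat_lit 3295718840) (nat_lit 84) (nat_lit 8506293228) (nat_lit 40) (nat_lit 5) (nat_lit 43) (nat_lit 5) (nat_lit 41) (nat_lit 5) (nat_lit 381) (nat_lit 297)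 (nat_lit 267)) (XT.nd (nat_lit 94) (nat_lit 0) (nat_lit 0) (XT.lf (nat_lit 0) (nat_lit 3016803058) (nat_lit 252) (nat_lit 1410859299) (nat_lit 336) (nat_lit 8948954981) (nat_lit 37) (nat_lit 5) (nat_lit 40) (nat_lit 5) (nat_lit 41) (nat_lit 5) (nat_lit 382) (nat_lit 297) (nat_lit 266)) (XT.lf (nat_lit 0) (nat_lit 7641213615) (nat_lit 336) (nat_lit 4170082954) (nat_lit 84) (nat_lit 1842132110) (nat_lit 37) (nat_lit 5) (nat_lit 41) (nat_lit 5) (nat_lit 38) (nat_lit 4) (nat_lit 383) (nat_lit 297) (nat_lit 265)))) (XT.nd (nat_lit 188) (nat_lit 168) (nat_lit 0) (XT.nd (nat_lit 94) (nat_lit 84) (nat_lit 0) (XT.lf (nat_lit 0) (nat_lit 2150164913) (nat_lit 168) (nat_lit 8783758070) (nat_lit 252) (nat_lit 3005189538) (nat_lit 35) (nat_lit 5) (nat_lit 37) (nat_lit 5) (nat_lit 38) (nat_lit 4) (nat_lit 384) (nat_lit 297) (nat_lit 264)) (XT.lf (nat_lit 0) (nat_lit 81055940) (nat_lit 252) (nat_lit 5571328268)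 (nat_lit 84) (nat_lit 8581279760) (nat_lit 34) (nat_lit 5) (nat_lit 37) (nat_lit 5) (nat_lit 35) (nat_lit 5) (nat_lit 385) (nat_lit 297) (nat_lit 263))) (XT.nd (nat_lit 94) (nat_lit 0) (nat_lit 0) (XT.lf (nat_lit 0) (nat_lit 736440001) (nat_lit 168) (nat_lit 2419911765) (nat_lit 252) (nat_lit 11381148037) (nat_lit 32) (nat_lit 5) (nat_lit 34) (nat_lit 5) (nat_lit 35) (nat_lit 5) (nat_lit 386) (nat_lit 297) (nat_lit 262)) (XT.lf (nat_lit 0) (nat_lit 6339647909) (nat_lit 252) (nat_lit 7591852536) (nat_lit 84) (nat_lit 918523076) (nat_lit 32) (nat_lit 5) (nat_lit 35) (nat_lit 5) (nat_lit 33) (nat_lit 4) (nat_lit 387) (nat_lit 297) (nat_lit 261))))) (XT.nd (nat_lit 282) (nat_lit 336) (nat_lit 0) (XT.nd (nat_lit 94) (nat_lit 252) (nat_lit 0) (XT.lf (nat_lit 0) (nat_lit 9594035392) (nat_lit 252) (nat_lit 1299394268) (nat_lit 84) (nat_lit 4279269259) (nat_lit 32) (nat_lit 5) (nat_lit 35) (nat_lit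 5) (nat_lit 33) (nat_lit 4) (nat_lit 388) (nat_lit 297) (nat_lit 260)) (XT.nd (nat_lit 94) (nat_lit 84) (nat_lit 0) (XT.lf (nat_lit 0) (nat_lit 5206675940) (nat_lit 168) (nat_lit 7742469996) (nat_lit 252) (nat_lit 2555858365) (nat_lit 30) (nat_lit 5) (nat_lit 32) (nat_lit 5) (nat_lit 33) (nat_lit 4) (nat_lit 389) (nat_lit 297) (nat_lit 259)) (XT.lf (nat_lit 0) (nat_lit 513180503) (nat_lit 252) (nat_lit 3994792922) (nat_lit 84) (nat_lit 11340191710) (nat_lit 29) (nat_lit 5) (nat_lit 32) (nat_lit 5) (nat_lit 30) (nat_lit 5) (nat_lit 390) (nat_lit 297) (nat_lit 258)))) (XT.nd (nat_lit 188) (nat_lit 168) (nat_lit 0) (XT.nd (nat_lit 94) (nat_lit 0) (nat_lit 0) (XT.lf (nat_lit 0) (nat_lit 2445524155) (nat_lit 168) (nat_lit 1155447426) (nat_lit 252) (nat_lit 12600587373) (nat_lit 27) (nat_lit 5) (nat_lit 29) (nat_lit 5) (nat_lit 30) (nat_lit 5) (nat_lit 391) (nat_lit 297) (nat_lit 257)) (XT.lf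 (nat_lit 0) (nat_lit 6799097463) (nat_lit 252) (nat_lit 7501000032) (nat_lit 84) (nat_lit 2264963791) (nat_lit 27) (nat_lit 5) (nat_lit 30) (nat_lit 5) (nat_lit 28) (nat_lit 4) (nat_lit 392) (nat_lit 297) (nat_lit 256))) (XT.nd (nat_lit 94) (nat_lit 168) (nat_lit 0) (XT.lf (nat_lit 0) (nat_lit 10060797130) (nat_lit 252) (nat_lit 1142676484) (nat_lit 84) (nat_lit 5737002804) (nat_lit 27) (nat_lit 5) (nat_lit 30) (nat_lit 5) (nat_lit 28) (nat_lit 4) (nat_lit 393) (nat_lit 297) (nat_lit 255)) (XT.lf (nat_lit 0) (nat_lit 5441787401) (nat_lit 168) (nat_lit 7988336134) (nat_lit 252) (nat_lit 3896772764) (nat_lit 25) (nat_lit 5) (nat_lit 27) (nat_lit 5) (nat_lit 28) (nat_lit 4) (nat_lit 394) (nat_lit 297) (nat_lit 254)))))) (XT.nd (nat_lit 658) (nat_lit 336) (nat_lit 0) (XT.nd (nat_lit 282) (nat_lit 84) (nat_lit 0) (XT.nd (nat_lit 94) (nat_lit 252) (nat_lit 0) (XT.lf (nat_lit 0) (nat_lit 12177104810)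 (nat_lit 168) (nat_lit 4692994642) (nat_lit 252) (nat_lit 855756759) (nat_lit 25) (nat_lit 5) (nat_lit 27) (nat_lit 5) (nat_lit 28) (nat_lit 4) (nat_lit 395) (nat_lit 297) (nat_lit 253)) (XT.nd (nat_lit 94) (nat_lit 0) (nat_lit 0) (XT.lf (nat_lit 0) (nat_lit 904550401) (nat_lit 168) (nat_lit 1295028929) (nat_lit 252) (nat_lit 15937556284) (nat_lit 22) (nat_lit 5) (nat_lit 24) (nat_lit 5) (nat_lit 25) (nat_lit 5) (nat_lit 396) (nat_lit 297) (nat_lit 252)) (XT.lf (nat_lit 0) (nat_lit 5366251809) (nat_lit 252) (nat_lit 10993323742) (nat_lit 84) (nat_lit 2199848977) (nat_lit 22) (nat_lit 5) (nat_lit 25) (nat_lit 5) (nat_lit 23) (nat_lit 4) (nat_lit 397) (nat_lit 297) (nat_lit 251)))) (XT.nd (nat_lit 188) (nat_lit 0) (nat_lit 0) (XT.nd (nat_lit 94) (nat_lit 84) (nat_lit 0) (XT.lf (nat_lit 0) (nat_lit 8601033205) (nat_lit 252) (nat_lit 4646914542) (nat_lit 84) (nat_lit 5747271777) (nat_lit 22)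 (nat_lit 5) (nat_lit 25) (nat_lit 5) (nat_lit 23) (nat_lit 4) (nat_lit 398) (nat_lit 297) (nat_lit 250)) (XT.lf (nat_lit 0) (nat_lit 1860950243) (nat_lit 84) (nat_lit 10051239768) (nat_lit 168) (nat_lit 7532548187) (nat_lit 21) (nat_lit 5) (nat_lit 22) (nat_lit 5) (nat_lit 23) (nat_lit 4) (nat_lit 399) (nat_lit 297) (nat_lit 249))) (XT.nd (nat_lit 94) (nat_lit 0) (nat_lit 0) (XT.lf (nat_lit 0) (nat_lit 8594697344) (nat_lit 84) (nat_lit 6736854207) (nat_lit 168) (nat_lit 4575953696) (nat_lit 21) (nat_lit 5) (nat_lit 22) (nat_lit 5) (nat_lit 23) (nat_lit 4) (nat_lit 400) (nat_lit 297) (nat_lit 248)) (XT.lf (nat_lit 0) (nat_lit 15467727906) (nat_lit 84) (nat_lit 3348819726) (nat_lit 168) (nat_lit 1568744141) (nat_lit 21) (nat_lit 5) (nat_lit 22) (nat_lit 5) (nat_lit 23) (nat_lit 4) (nat_lit 401) (nat_lit 297) (nat_lit 247))))) (XT.nd (nat_lit 282) (nat_lit 84) (nat_lit 0) (XT.nd (nat_lit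 94) (nat_lit 0) (nat_lit 0) (XT.lf (nat_lit 0) (nat_lit 1479629070) (nat_lit 252) (nat_lit 19254125804) (nat_lit 84) (nat_lit 143819321) (nat_lit 18) (nat_lit 5) (nat_lit 21) (nat_lit 5) (nat_lit 19) (nat_lit 4) (nat_lit 402) (nat_lit 297) (nat_lit 246)) (XT.nd (nat_lit 94) (nat_lit 0) (nat_lit 0) (XT.lf (nat_lit 0) (nat_lit 4635203485) (nat_lit 252) (nat_lit 13032721293) (nat_lit 84) (nat_lit 3714841635) (nat_lit 18) (nat_lit 5) (nat_lit 21) (nat_lit 5) (nat_lit 19) (nat_lit 4) (nat_lit 403) (nat_lit 297) (nat_lit 245)) (XT.lf (nat_lit 0) (nat_lit 7850468594) (nat_lit 252) (nat_lit 6684773463) (nat_lit 84) (nat_lit 7368946581) (nat_lit 18) (nat_lit 5) (nat_lit 21) (nat_lit 5) (nat_lit 19) (nat_lit 4) (nat_lit 404) (nat_lit 297) (nat_lit 244)))) (XT.nd (nat_lit 188) (nat_lit 0) (nat_lit 0) (XT.nd (nat_lit 94) (nat_lit 84) (nat_lit 0) (XT.lf (nat_lit 0) (nat_lit 11128233852) (nat_lit 252)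 (nat_lit 204735562) (nat_lit 84) (nat_lit 11109327067) (nat_lit 18) (nat_lit 5) (nat_lit 21) (nat_lit 5) (nat_lit 19) (nat_lit 4) (nat_lit 405) (nat_lit 297) (nat_lit 243)) (XT.lf (nat_lit 0) (nat_lit 6540686937) (nat_lit 84) (nat_lit 7993549473) (nat_lit 168) (nat_lit 8461437533) (nat_lit 17) (nat_lit 5) (nat_lit 18) (nat_lit 5) (nat_lit 19) (nat_lit 4) (nat_lit 406) (nat_lit 297) (nat_lit 242))) (XT.nd (nat_lit 94) (nat_lit 0) (nat_lit 0) (XT.lf (nat_lit 0) (nat_lit 13436575474) (nat_lit 84) (nat_lit 4575363306) (nat_lit 168) (nat_lit 5554651183) (nat_lit 17) (nat_lit 5) (nat_lit 18) (nat_lit 5) (nat_lit 19) (nat_lit 4) (nat_lit 407) (nat_lit 297) (nat_lit 241)) (XT.lf (nat_lit 0) (nat_lit 20484880941) (nat_lit 84) (nat_lit 1077491578) (nat_lit 168) (nat_lit 2593231098) (nat_lit 17) (nat_lit 5) (nat_lit 18) (nat_lit 5) (nat_lit 19) (nat_lit 4) (nat_lit 408) (nat_lit 297) (nat_lit 240))))))))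
noncomputable def xc48 : XT := (XT.nd (nat_lit 2538) (nat_lit 252) (nat_lit 0) (XT.nd (nat_lit 1222) (nat_lit 336) (nat_lit 0) (XT.nd (nat_lit 564) (nat_lit 168) (nat_lit 0) (XT.nd (nat_lit 282) (nat_lit 84) (nat_lit 0) (XT.nd (nat_lit 94) (nat_lit 0) (nat_lit 0) (XT.lf (nat_lit 0) (nat_lit 470165993) (nat_lit 252) (nat_lit 21803987349) (nat_lit 84) (nat_lit 2487361851) (nat_lit 14) (nat_lit 5) (nat_lit 17) (nat_lit 5) (nat_lit 15) (nat_lit 4) (nat_lit 409) (nat_lit 297) (nat_lit 239)) (XT.nd (nat_lit 94) (nat_lit 0) (nat_lit 0) (XT.lf (nat_lit 0) (nat_lit 3590620379) (nat_lit 252) (nat_lit 15615041127) (nat_lit 84) (nat_lit 6178674322) (nat_lit 14) (nat_lit 5) (nat_lit 17) (nat_lit 5) (nat_lit 15) (nat_lit 4) (nat_lit 410) (nat_lit 297) (nat_lit 238)) (XT.lf (nat_lit 0) (nat_lit 6774760652) (nat_lit 252) (nat_lit 9292572472) (nat_lit 84) (nat_lit 9959425481) (nat_lit 14) (nat_lit 5) (nat_lit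 17) (nat_lit 5) (nat_lit 15) (nat_lit 4) (nat_lit 411) (nat_lit 297) (nat_lit 237)))) (XT.nd (nat_lit 94) (nat_lit 84) (nat_lit 0) (XT.lf (nat_lit 0) (nat_lit 10025369069) (nat_lit 252) (nat_lit 2831056898) (nat_lit 84) (nat_lit 13832918898) (nat_lit 14) (nat_lit 5) (nat_lit 17) (nat_lit 5) (nat_lit 15) (nat_lit 4) (nat_lit 412) (nat_lit 297) (nat_lit 236)) (XT.nd (nat_lit 94) (nat_lit 0) (nat_lit 0) (XT.lf (nat_lit 0) (nat_lit 3850284497) (nat_lit 84) (nat_lit 9532012761) (nat_lit 168) (nat_lit 13989265972) (nat_lit 13) (nat_lit 5) (nat_lit 14) (nat_lit 5) (nat_lit 15) (nat_lit 4) (nat_lit 413) (nat_lit 297) (nat_lit 235)) (XT.lf (nat_lit 0) (nat_lit 10741429351) (nat_lit 84) (nat_lit 6099236087) (nat_lit 168) (nat_lit 11233578762) (nat_lit 13) (nat_lit 5) (nat_lit 14) (nat_lit 5) (nat_lit 15) (nat_lit 4) (nat_lit 414) (nat_lit 297) (nat_lit 234))))) (XT.nd (nat_lit 282) (nat_lit 84)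 (nat_lit 0) (XT.nd (nat_lit 94) (nat_lit 84) (nat_lit 0) (XT.lf (nat_lit 0) (nat_lit 17792055467) (nat_lit 84) (nat_lit 2583684556) (nat_lit 168) (nat_lit 8423094411) (nat_lit 13) (nat_lit 5) (nat_lit 14) (nat_lit 5) (nat_lit 15) (nat_lit 4) (nat_lit 415) (nat_lit 297) (nat_lit 233)) (XT.nd (nat_lit 94) (nat_lit 84) (nat_lit 0) (XT.lf (nat_lit 0) (nat_lit 24000392802) (nat_lit 168) (nat_lit 4547426369) (nat_lit 0) (nat_lit 997854412) (nat_lit 13) (nat_lit 5) (nat_lit 15) (nat_lit 4) (nat_lit 13) (nat_lit 4) (nat_lit 416) (nat_lit 297) (nat_lit 232)) (XT.lf (nat_lit 0) (nat_lit 2075487290) (nat_lit 84) (nat_lit 25678154490) (nat_lit 84) (nat_lit 2560696918) (nat_lit 12) (nat_lit 4) (nat_lit 13) (nat_lit 5) (nat_lit 13) (nat_lit 4) (nat_lit 417) (nat_lit 297) (nat_lit 231)))) (XT.nd (nat_lit 188) (nat_lit 0) (nat_lit 0) (XT.nd (nat_lit 94) (nat_lit 0) (nat_lit 0) (XT.lf (nat_lit 0) (nat_lit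 524156590) (nat_lit 168) (nat_lit 22164991715) (nat_lit 84) (nat_lit 8416160421) (nat_lit 11) (nat_lit 5) (nat_lit 13) (nat_lit 5) (nat_lit 12) (nat_lit 4) (nat_lit 418) (nat_lit 297) (nat_lit 230)) (XT.lf (nat_lit 0) (nat_lit 3625210703) (nat_lit 168) (nat_lit 15978174215) (nat_lit 84) (nat_lit 12316623749) (nat_lit 11) (nat_lit 5) (nat_lit 13) (nat_lit 5) (nat_lit 12) (nat_lit 4) (nat_lit 419) (nat_lit 297) (nat_lit 229))) (XT.nd (nat_lit 94) (nat_lit 0) (nat_lit 0) (XT.lf (nat_lit 0) (nat_lit 6795143501) (nat_lit 168) (nat_lit 9648377968) (nat_lit 84) (nat_lit 16316367380) (nat_lit 11) (nat_lit 5) (nat_lit 13) (nat_lit 5) (nat_lit 12) (nat_lit 4) (nat_lit 420) (nat_lit 297) (nat_lit 228)) (XT.lf (nat_lit 0) (nat_lit 10036724826) (nat_lit 168) (nat_lit 3170072082) (nat_lit 84) (nat_lit 20418886235) (nat_lit 11) (nat_lit 5) (nat_lit 13) (nat_lit 5) (nat_lit 12) (nat_lit 4) (nat_lit 421)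 (nat_lit 297) (nat_lit 227)))))) (XT.nd (nat_lit 658) (nat_lit 168) (nat_lit 0) (XT.nd (nat_lit 282) (nat_lit 84) (nat_lit 0) (XT.nd (nat_lit 94) (nat_lit 0) (nat_lit 0) (XT.lf (nat_lit 0) (nat_lit 3531312726) (nat_lit 84) (nat_lit 9855419540) (nat_lit 168) (nat_lit 21130397452) (nat_lit 10) (nat_lit 5) (nat_lit 11) (nat_lit 5) (nat_lit 12) (nat_lit 4) (nat_lit 422) (nat_lit 297) (nat_lit 226)) (XT.nd (nat_lit 94) (nat_lit 0) (nat_lit 0) (XT.lf (nat_lit 0) (nat_lit 10458937476) (nat_lit 84) (nat_lit 6387828167) (nat_lit 168) (nat_lit 18588281684) (nat_lit 10) (nat_lit 5) (nat_lit 11) (nat_lit 5) (nat_lit 12) (nat_lit 4) (nat_lit 423) (nat_lit 297) (nat_lit 225)) (XT.lf (nat_lit 0) (nat_lit 17555764783) (nat_lit 84) (nat_lit 2833004367) (nat_lit 168) (nat_lit 15992401260) (nat_lit 10) (nat_lit 5) (nat_lit 11) (nat_lit 5) (nat_lit 12) (nat_lit 4) (nat_lit 424) (nat_lit 297) (nat_lit 224))))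 (XT.nd (nat_lit 188) (nat_lit 84) (nat_lit 0) (XT.nd (nat_lit 94) (nat_lit 0) (nat_lit 0) (XT.lf (nat_lit 0) (nat_lit 24023644699) (nat_lit 168) (nat_lit 12536136879) (nat_lit 0) (nat_lit 796309887) (nat_lit 10) (nat_lit 5) (nat_lit 12) (nat_lit 4) (nat_lit 10) (nat_lit 4) (nat_lit 425) (nat_lit 297) (nat_lit 223)) (XT.lf (nat_lit 0) (nat_lit 27774886192) (nat_lit 168) (nat_lit 6123125924) (nat_lit 0) (nat_lit 4462040717) (nat_lit 10) (nat_lit 5) (nat_lit 12) (nat_lit 4) (nat_lit 10) (nat_lit 4) (nat_lit 426) (nat_lit 297) (nat_lit 222))) (XT.nd (nat_lit 94) (nat_lit 0) (nat_lit 0) (XT.lf (nat_lit 0) (nat_lit 455348906) (nat_lit 84) (nat_lit 31167567029) (nat_lit 84) (nat_lit 7771701491) (nat_lit 9) (nat_lit 4) (nat_lit 10) (nat_lit 5) (nat_lit 10) (nat_lit 4) (nat_lit 427) (nat_lit 297) (nat_lit 221)) (XT.lf (nat_lit 0) (nat_lit 7321235207) (nat_lit 84) (nat_lit 28307102165) (nat_lit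 84) (nat_lit 4830634626) (nat_lit 9) (nat_lit 4) (nat_lit 10) (nat_lit 5) (nat_lit 10) (nat_lit 4) (nat_lit 428) (nat_lit 297) (nat_lit 220))))) (XT.nd (nat_lit 282) (nat_lit 84) (nat_lit 0) (XT.nd (nat_lit 94) (nat_lit 84) (nat_lit 0) (XT.lf (nat_lit 0) (nat_lit 14358670086) (nat_lit 84) (nat_lit 25375949657) (nat_lit 84) (nat_lit 1821227746) (nat_lit 9) (nat_lit 4) (nat_lit 10) (nat_lit 5) (nat_lit 10) (nat_lit 4) (nat_lit 429) (nat_lit 297) (nat_lit 219)) (XT.nd (nat_lit 94) (nat_lit 0) (nat_lit 0) (XT.lf (nat_lit 0) (nat_lit 1234578198) (nat_lit 168) (nat_lit 21124503285) (nat_lit 84) (nat_lit 20326757739) (nat_lit 8) (nat_lit 5) (nat_lit 10) (nat_lit 5) (nat_lit 9) (nat_lit 4) (nat_lit 430) (nat_lit 297) (nat_lit 218)) (XT.lf (nat_lit 0) (nat_lit 4327069218) (nat_lit 168) (nat_lit 14920508763) (nat_lit 84) (nat_lit 24602173570) (nat_lit 8) (nat_lit 5) (nat_lit 10) (nat_lit 5) (nat_lit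 9) (nat_lit 4) (nat_lit 431) (nat_lit 297) (nat_lit 217)))) (XT.nd (nat_lit 188) (nat_lit 84) (nat_lit 0) (XT.nd (nat_lit 94) (nat_lit 0) (nat_lit 0) (XT.lf (nat_lit 0) (nat_lit 7494486205) (nat_lit 168) (nat_lit 8562266116) (nat_lit 84) (nat_lit 28992374371) (nat_lit 8) (nat_lit 5) (nat_lit 10) (nat_lit 5) (nat_lit 9) (nat_lit 4) (nat_lit 432) (nat_lit 297) (nat_lit 216)) (XT.lf (nat_lit 0) (nat_lit 10739596802) (nat_lit 168) (nat_lit 2044219598) (nat_lit 84) (nat_lit 33501196239) (nat_lit 8) (nat_lit 5) (nat_lit 10) (nat_lit 5) (nat_lit 9) (nat_lit 4) (nat_lit 433) (nat_lit 297) (nat_lit 215))) (XT.nd (nat_lit 94) (nat_lit 0) (nat_lit 0) (XT.lf (nat_lit 0) (nat_lit 4731657857) (nat_lit 84) (nat_lit 9379062276) (nat_lit 168) (nat_lit 33446404654) (nat_lit 7) (nat_lit 5) (nat_lit 8) (nat_lit 5) (nat_lit 9) (nat_lit 4) (nat_lit 434) (nat_lit 297) (nat_lit 214)) (XT.lf (nat_lit 0) (nat_lit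 11722968522) (nat_lit 84) (nat_lit 5864031153) (nat_lit 168) (nat_lit 31280289082) (nat_lit 7) (nat_lit 5) (nat_lit 8) (nat_lit 5) (nat_lit 9) (nat_lit 4) (nat_lit 435) (nat_lit 297) (nat_lit 213))))))) (XT.nd (nat_lit 1316) (nat_lit 84) (nat_lit 0) (XT.nd (nat_lit 658) (nat_lit 84) (nat_lit 0) (XT.nd (nat_lit 282) (nat_lit 84) (nat_lit 0) (XT.nd (nat_lit 94) (nat_lit 0) (nat_lit 0) (XT.lf (nat_lit 0) (nat_lit 18895137328) (nat_lit 84) (nat_lit 2256294254) (nat_lit 168) (nat_lit 29065819008) (nat_lit 7) (nat_lit 5) (nat_lit 8) (nat_lit 5) (nat_lit 9) (nat_lit 4) (nat_lit 436) (nat_lit 297) (nat_lit 212)) (XT.nd (nat_lit 94) (nat_lit 0) (nat_lit 0) (XT.lf (nat_lit 0) (nat_lit 24821042747) (nat_lit 168) (nat_lit 25367670987) (nat_lit 0) (nat_lit 1419058760) (nat_lit 7) (nat_lit 5) (nat_lit 9) (nat_lit 4) (nat_lit 7) (nat_lit 4) (nat_lit 437) (nat_lit 297) (nat_lit 211)) (XT.lf (nat_lit 0)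 (nat_lit 28607756567) (nat_lit 168) (nat_lit 19284507438) (nat_lit 0) (nat_lit 5147543979) (nat_lit 7) (nat_lit 5) (nat_lit 9) (nat_lit 4) (nat_lit 7) (nat_lit 4) (nat_lit 438) (nat_lit 297) (nat_lit 210)))) (XT.nd (nat_lit 188) (nat_lit 84) (nat_lit 0) (XT.nd (nat_lit 94) (nat_lit 0) (nat_lit 0) (XT.lf (nat_lit 0) (nat_lit 32493192939) (nat_lit 168) (nat_lit 13045618349) (nat_lit 0) (nat_lit 8976447728) (nat_lit 7) (nat_lit 5) (nat_lit 9) (nat_lit 4) (nat_lit 7) (nat_lit 4) (nat_lit 439) (nat_lit 297) (nat_lit 209)) (XT.lf (nat_lit 0) (nat_lit 36480746904) (nat_lit 168) (nat_lit 6645552263) (nat_lit 0) (nat_lit 12909115652) (nat_lit 7) (nat_lit 5) (nat_lit 9) (nat_lit 4) (nat_lit 7) (nat_lit 4) (nat_lit 440) (nat_lit 297) (nat_lit 208))) (XT.nd (nat_lit 94) (nat_lit 84) (nat_lit 0) (XT.lf (nat_lit 0) (nat_lit 40573902734) (nat_lit 168) (nat_lit 78716890) (nat_lit 0) (nat_lit 16948984063)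 (nat_lit 7) (nat_lit 5) (nat_lit 9) (nat_lit 4) (nat_lit 7) (nat_lit 4) (nat_lit 441) (nat_lit 297) (nat_lit 207)) (XT.lf (nat_lit 0) (nat_lit 6793185294) (nat_lit 84) (nat_lit 38048351930) (nat_lit 84) (nat_lit 14371697902) (nat_lit 6) (nat_lit 4) (nat_lit 7) (nat_lit 5) (nat_lit 7) (nat_lit 4) (nat_lit 442) (nat_lit 297) (nat_lit 206))))) (XT.nd (nat_lit 282) (nat_lit 84) (nat_lit 0) (XT.nd (nat_lit 94) (nat_lit 0) (nat_lit 0) (XT.lf (nat_lit 0) (nat_lit 13848600576) (nat_lit 84) (nat_lit 35375942205) (nat_lit 84) (nat_lit 11649059674) (nat_lit 6) (nat_lit 4) (nat_lit 7) (nat_lit 5) (nat_lit 7) (nat_lit 4) (nat_lit 443) (nat_lit 297) (nat_lit 205)) (XT.nd (nat_lit 94) (nat_lit 0) (nat_lit 0) (XT.lf (nat_lit 0) (nat_lit 21092127260) (nat_lit 84) (nat_lit 32633850221) (nat_lit 84) (nat_lit 8858202152) (nat_lit 6) (nat_lit 4) (nat_lit 7) (nat_lit 5) (nat_lit 7) (nat_lit 4) (nat_lit 444)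 (nat_lit 297) (nat_lit 204)) (XT.lf (nat_lit 0) (nat_lit 28530094641) (nat_lit 84) (nat_lit 29819679973) (nat_lit 84) (nat_lit 5996686723) (nat_lit 6) (nat_lit 4) (nat_lit 7) (nat_lit 5) (nat_lit 7) (nat_lit 4) (nat_lit 445) (nat_lit 297) (nat_lit 203)))) (XT.nd (nat_lit 188) (nat_lit 84) (nat_lit 0) (XT.nd (nat_lit 94) (nat_lit 0) (nat_lit 0) (XT.lf (nat_lit 0) (nat_lit 36169001913) (nat_lit 84) (nat_lit 26930972480) (nat_lit 84) (nat_lit 3062013034) (nat_lit 6) (nat_lit 4) (nat_lit 7) (nat_lit 5) (nat_lit 7) (nat_lit 4) (nat_lit 446) (nat_lit 297) (nat_lit 202)) (XT.lf (nat_lit 0) (nat_lit 44015523852) (nat_lit 84) (nat_lit 23965203627) (nat_lit 84) (nat_lit 51616807) (nat_lit 6) (nat_lit 4) (nat_lit 7) (nat_lit 5) (nat_lit 7) (nat_lit 4) (nat_lit 447) (nat_lit 297) (nat_lit 201))) (XT.nd (nat_lit 94) (nat_lit 0) (nat_lit 0) (XT.lf (nat_lit 0) (nat_lit 2977867009) (nat_lit 168) (nat_lit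 17911844338) (nat_lit 84) (nat_lit 49068579012) (nat_lit 5) (nat_lit 5) (nat_lit 7) (nat_lit 5) (nat_lit 6) (nat_lit 4) (nat_lit 448) (nat_lit 297) (nat_lit 200)) (XT.lf (nat_lit 0) (nat_lit 6085813870) (nat_lit 168) (nat_lit 11644777791) (nat_lit 84) (nat_lit 54211755205) (nat_lit 5) (nat_lit 5) (nat_lit 7) (nat_lit 5) (nat_lit 6) (nat_lit 4) (nat_lit 449) (nat_lit 297) (nat_lit 199)))))) (XT.nd (nat_lit 49914) (nat_lit 0) (nat_lit 7980) (XT.nd (nat_lit 282) (nat_lit 0) (nat_lit 0) (XT.nd (nat_lit 94) (nat_lit 84) (nat_lit 0) (XT.lf (nat_lit 0) (nat_lit 9275946687) (nat_lit 168) (nat_lit 5209648541) (nat_lit 84) (nat_lit 59500667103) (nat_lit 5) (nat_lit 5) (nat_lit 7) (nat_lit 5) (nat_lit 6) (nat_lit 4) (nat_lit 450) (nat_lit 297) (nat_lit 198)) (XT.nd (nat_lit 94) (nat_lit 0) (nat_lit 0) (XT.lf (nat_lit 0) (nat_lit 1427012491) (nat_lit 84) (nat_lit 11137757780) (nat_lit 168) (nat_lit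 63526640909) (nat_lit 4) (nat_lit 5) (nat_lit 5) (nat_lit 5) (nat_lit 6) (nat_lit 4) (nat_lit 451) (nat_lit 297) (nat_lit 197)) (XT.lf (nat_lit 0) (nat_lit 8350387681) (nat_lit 84) (nat_lit 7643875770) (nat_lit 168) (nat_lit 62264196261) (nat_lit 4) (nat_lit 5) (nat_lit 5) (nat_lit 5) (nat_lit 6) (nat_lit 4) (nat_lit 452) (nat_lit 297) (nat_lit 196)))) (XT.nd (nat_lit 188) (nat_lit 0) (nat_lit 0) (XT.nd (nat_lit 94) (nat_lit 0) (nat_lit 0) (XT.lf (nat_lit 0) (nat_lit 15462844358) (nat_lit 84) (nat_lit 4053503527) (nat_lit 168) (nat_lit 60974485829) (nat_lit 4) (nat_lit 5) (nat_lit 5) (nat_lit 5) (nat_lit 6) (nat_lit 4) (nat_lit 453) (nat_lit 297) (nat_lit 195)) (XT.lf (nat_lit 0) (nat_lit 22770597289) (nat_lit 84) (nat_lit 363503832) (nat_lit 168) (nat_lit 59656382681) (nat_lit 4) (nat_lit 5) (nat_lit 5) (nat_lit 5) (nat_lit 6) (nat_lit 4) (nat_lit 454) (nat_lit 297) (nat_lit 194))) (XT.nd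 (nat_lit 49350) (nat_lit 0) (nat_lit 10584) (XT.lf (nat_lit 0) (nat_lit 26883649292) (nat_lit 168) (nat_lit 54912352479) (nat_lit 0) (nat_lit 3362428661) (nat_lit 4) (nat_lit 5) (nat_lit 6) (nat_lit 4) (nat_lit 4) (nat_lit 4) (nat_lit 455) (nat_lit 297) (nat_lit 193)) (XT.lf (nat_lit 0) (nat_lit 2912493372) (nat_lit 588) (nat_lit 505906234) (nat_lit 588) (nat_lit 505906234) (nat_lit 130) (nat_lit 4) (nat_lit 137) (nat_lit 5) (nat_lit 137) (nat_lit 4) (nat_lit 349) (nat_lit 298) (nat_lit 298))))) (XT.nd (nat_lit 282) (nat_lit 1428) (nat_lit 0) (XT.nd (nat_lit 94) (nat_lit 588) (nat_lit 0) (XT.lf (nat_lit 0) (nat_lit 2249172376) (nat_lit 588) (nat_lit 4699422259) (nat_lit 0) (nat_lit 989644666) (nat_lit 123) (nat_lit 5) (nat_lit 130) (nat_lit 4) (nat_lit 123) (nat_lit 4) (nat_lit 350) (nat_lit 298) (nat_lit 297)) (XT.nd (nat_lit 94) (nat_lit 84) (nat_lit 0) (XT.lf (nat_lit 0) (nat_lit 555171491)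 (nat_lit 504) (nat_lit 4979607742) (nat_lit 504) (nat_lit 2497237594) (nat_lit 117) (nat_lit 4) (nat_lit 123) (nat_lit 5) (nat_lit 123) (nat_lit 4) (nat_lit 351) (nat_lit 298) (nat_lit 296)) (XT.lf (nat_lit 0) (nat_lit 734533373) (nat_lit 588) (nat_lit 2178493067) (nat_lit 84) (nat_lit 5216730449) (nat_lit 116) (nat_lit 5) (nat_lit 123) (nat_lit 5) (nat_lit 117) (nat_lit 4) (nat_lit 352) (nat_lit 298) (nat_lit 295)))) (XT.nd (nat_lit 188) (nat_lit 504) (nat_lit 0) (XT.nd (nat_lit 94) (nat_lit 504) (nat_lit 0) (XT.lf (nat_lit 0) (nat_lit 3212917625) (nat_lit 420) (nat_lit 745289132) (nat_lit 504) (nat_lit 4273286991) (nat_lit 111) (nat_lit 5) (nat_lit 116) (nat_lit 5) (nat_lit 117) (nat_lit 4) (nat_lit 353) (nat_lit 298) (nat_lit 294)) (XT.lf (nat_lit 0) (nat_lit 362310034) (nat_lit 504) (nat_lit 6871864587) (nat_lit 504) (nat_lit 1103596479) (nat_lit 105) (nat_lit 4) (nat_lit 111) (nat_lit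 5) (nat_lit 111) (nat_lit 4) (nat_lit 354) (nat_lit 298) (nat_lit 293))) (XT.nd (nat_lit 94) (nat_lit 420) (nat_lit 0) (XT.lf (nat_lit 0) (nat_lit 2093643651) (nat_lit 588) (nat_lit 2573006124) (nat_lit 84) (nat_lit 3780871778) (nat_lit 104) (nat_lit 5) (nat_lit 111) (nat_lit 5) (nat_lit 105) (nat_lit 4) (nat_lit 355) (nat_lit 298) (nat_lit 292)) (XT.lf (nat_lit 0) (nat_lit 2934823125) (nat_lit 420) (nat_lit 2376525225) (nat_lit 504) (nat_lit 3250629193) (nat_lit 99) (nat_lit 5) (nat_lit 104) (nat_lit 5) (nat_lit 105) (nat_lit 4) (nat_lit 356) (nat_lit 298) (nat_lit 291))))))))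
noncomputable def xc49 : XT := (XT.nd (nat_lit 2538) (nat_lit 1932) (nat_lit 0) (XT.nd (nat_lit 1222) (nat_lit 2100) (nat_lit 0) (XT.nd (nat_lit 564) (nat_lit 1428) (nat_lit 0) (XT.nd (nat_lit 282) (nat_lit 840) (nat_lit 0) (XT.nd (nat_lit 94) (nat_lit 840) (nat_lit 0) (XT.lf (nat_lit 0) (nat_lit 8558599952) (nat_lit 420) (nat_lit 12876296) (nat_lit 504) (nat_lit 110152730) (nat_lit 99) (nat_lit 5) (nat_lit 104) (nat_lit 5) (nat_lit 105) (nat_lit 4) (nat_lit 357) (nat_lit 298) (nat_lit 290)) (XT.nd (nat_lit 94) (nat_lit 336) (nat_lit 0) (XT.lf (nat_lit 0) (nat_lit 3061889534) (nat_lit 504) (nat_lit 3305548655) (nat_lit 84) (nat_lit 2436711615) (nat_lit 93) (nat_lit 5) (nat_lit 99) (nat_lit 5) (nat_lit 94) (nat_lit 4) (nat_lit 358) (nat_lit 298) (nat_lit 289)) (XT.lf (nat_lit 0) (nat_lit 2302799994) (nat_lit 336) (nat_lit 3970054203) (nat_lit 420) (nat_lit 2659206860) (nat_lit 89) (nat_lit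 5) (nat_lit 93) (nat_lit 5) (nat_lit 94) (nat_lit 4) (nat_lit 359) (nat_lit 298) (nat_lit 288)))) (XT.nd (nat_lit 94) (nat_lit 756) (nat_lit 0) (XT.lf (nat_lit 0) (nat_lit 462841606) (nat_lit 420) (nat_lit 1023595800) (nat_lit 84) (nat_lit 7578645462) (nat_lit 88) (nat_lit 5) (nat_lit 93) (nat_lit 5) (nat_lit 89) (nat_lit 5) (nat_lit 360) (nat_lit 298) (nat_lit 287)) (XT.nd (nat_lit 94) (nat_lit 336) (nat_lit 0) (XT.lf (nat_lit 0) (nat_lit 3606328491) (nat_lit 504) (nat_lit 4496802196) (nat_lit 84) (nat_lit 1098854065) (nat_lit 83) (nat_lit 5) (nat_lit 89) (nat_lit 5) (nat_lit 84) (nat_lit 4) (nat_lit 361) (nat_lit 298) (nat_lit 286)) (XT.lf (nat_lit 0) (nat_lit 1191792130) (nat_lit 336) (nat_lit 5615047314) (nat_lit 420) (nat_lit 2537385298) (nat_lit 79) (nat_lit 5) (nat_lit 83) (nat_lit 5) (nat_lit 84) (nat_lit 4) (nat_lit 362) (nat_lit 298) (nat_lit 285))))) (XT.nd (nat_lit 282) (nat_lit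 1008) (nat_lit 0) (XT.nd (nat_lit 94) (nat_lit 336) (nat_lit 0) (XT.lf (nat_lit 0) (nat_lit 573011004) (nat_lit 420) (nat_lit 2453833374) (nat_lit 84) (nat_lit 6464647096) (nat_lit 78) (nat_lit 5) (nat_lit 83) (nat_lit 5) (nat_lit 79) (nat_lit 5) (nat_lit 363) (nat_lit 298) (nat_lit 284)) (XT.nd (nat_lit 94) (nat_lit 0) (nat_lit 0) (XT.lf (nat_lit 0) (nat_lit 3357725021) (nat_lit 336) (nat_lit 328886722) (nat_lit 420) (nat_lit 5957087117) (nat_lit 74) (nat_lit 5) (nat_lit 78) (nat_lit 5) (nat_lit 79) (nat_lit 5) (nat_lit 364) (nat_lit 298) (nat_lit 283)) (XT.lf (nat_lit 0) (nat_lit 6871691936) (nat_lit 420) (nat_lit 528972879) (nat_lit 84) (nat_lit 2400565585) (nat_lit 74) (nat_lit 5) (nat_lit 79) (nat_lit 5) (nat_lit 75) (nat_lit 4) (nat_lit 365) (nat_lit 298) (nat_lit 282)))) (XT.nd (nat_lit 188) (nat_lit 252) (nat_lit 0) (XT.nd (nat_lit 94) (nat_lit 336) (nat_lit 0) (XT.lf (nat_lit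 0) (nat_lit 171702147) (nat_lit 420) (nat_lit 4559167323) (nat_lit 84) (nat_lit 5233061778) (nat_lit 69) (nat_lit 5) (nat_lit 74) (nat_lit 5) (nat_lit 70) (nat_lit 5) (nat_lit 366) (nat_lit 298) (nat_lit 281)) (XT.lf (nat_lit 0) (nat_lit 1295233908) (nat_lit 336) (nat_lit 1961575765) (nat_lit 420) (nat_lit 6875433553) (nat_lit 65) (nat_lit 5) (nat_lit 69) (nat_lit 5) (nat_lit 70) (nat_lit 5) (nat_lit 367) (nat_lit 298) (nat_lit 280))) (XT.nd (nat_lit 94) (nat_lit 252) (nat_lit 0) (XT.lf (nat_lit 0) (nat_lit 6422176204) (nat_lit 420) (nat_lit 2992374287) (nat_lit 84) (nat_lit 891511817) (nat_lit 65) (nat_lit 5) (nat_lit 70) (nat_lit 5) (nat_lit 66) (nat_lit 4) (nat_lit 368) (nat_lit 298) (nat_lit 279)) (XT.lf (nat_lit 0) (nat_lit 2971148483) (nat_lit 252) (nat_lit 6693947397) (nat_lit 336) (nat_lit 820608641) (nat_lit 62) (nat_lit 5) (nat_lit 65) (nat_lit 5) (nat_lit 66) (nat_lit 4) (nat_lit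 369) (nat_lit 298) (nat_lit 278)))))) (XT.nd (nat_lit 658) (nat_lit 840) (nat_lit 0) (XT.nd (nat_lit 282) (nat_lit 840) (nat_lit 0) (XT.nd (nat_lit 94) (nat_lit 336) (nat_lit 0) (XT.lf (nat_lit 0) (nat_lit 2254418282) (nat_lit 336) (nat_lit 1613105584) (nat_lit 84) (nat_lit 6803658056) (nat_lit 61) (nat_lit 5) (nat_lit 65) (nat_lit 5) (nat_lit 62) (nat_lit 5) (nat_lit 370) (nat_lit 298) (nat_lit 277)) (XT.nd (nat_lit 94) (nat_lit 0) (nat_lit 0) (XT.lf (nat_lit 0) (nat_lit 4451454341) (nat_lit 336) (nat_lit 933325399) (nat_lit 420) (nat_lit 5477891845) (nat_lit 57) (nat_lit 5) (nat_lit 61) (nat_lit 5) (nat_lit 62) (nat_lit 5) (nat_lit 371) (nat_lit 298) (nat_lit 276)) (XT.lf (nat_lit 0) (nat_lit 8583044731) (nat_lit 420) (nat_lit 442065363) (nat_lit 84) (nat_lit 2035652764) (nat_lit 57) (nat_lit 5) (nat_lit 62) (nat_lit 5) (nat_lit 58) (nat_lit 4) (nat_lit 372) (nat_lit 298) (nat_lit 275))))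 (XT.nd (nat_lit 188) (nat_lit 252) (nat_lit 0) (XT.nd (nat_lit 94) (nat_lit 252) (nat_lit 0) (XT.lf (nat_lit 0) (nat_lit 603958666) (nat_lit 336) (nat_lit 5552897013) (nat_lit 84) (nat_lit 5107733388) (nat_lit 53) (nat_lit 5) (nat_lit 57) (nat_lit 5) (nat_lit 54) (nat_lit 5) (nat_lit 373) (nat_lit 298) (nat_lit 274)) (XT.lf (nat_lit 0) (nat_lit 478398618) (nat_lit 252) (nat_lit 3198520229) (nat_lit 336) (nat_lit 7798486468) (nat_lit 50) (nat_lit 5) (nat_lit 53) (nat_lit 5) (nat_lit 54) (nat_lit 5) (nat_lit 374) (nat_lit 298) (nat_lit 273))) (XT.nd (nat_lit 94) (nat_lit 252) (nat_lit 0) (XT.lf (nat_lit 0) (nat_lit 6714266530) (nat_lit 252) (nat_lit 124294954) (nat_lit 336) (nat_lit 4854157900) (nat_lit 50) (nat_lit 5) (nat_lit 53) (nat_lit 5) (nat_lit 54) (nat_lit 5) (nat_lit 375) (nat_lit 298) (nat_lit 272)) (XT.lf (nat_lit 0) (nat_lit 1124268816) (nat_lit 252) (nat_lit 8952704706) (nat_lit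 336) (nat_lit 1840187913) (nat_lit 47) (nat_lit 5) (nat_lit 50) (nat_lit 5) (nat_lit 51) (nat_lit 4) (nat_lit 376) (nat_lit 298) (nat_lit 271))))) (XT.nd (nat_lit 282) (nat_lit 504) (nat_lit 0) (XT.nd (nat_lit 94) (nat_lit 252) (nat_lit 0) (XT.lf (nat_lit 0) (nat_lit 1233617959) (nat_lit 336) (nat_lit 4738009552) (nat_lit 84) (nat_lit 6176584453) (nat_lit 46) (nat_lit 5) (nat_lit 50) (nat_lit 5) (nat_lit 47) (nat_lit 5) (nat_lit 377) (nat_lit 298) (nat_lit 270)) (XT.nd (nat_lit 94) (nat_lit 0) (nat_lit 0) (XT.lf (nat_lit 0) (nat_lit 1421212069) (nat_lit 252) (nat_lit 2898873291) (nat_lit 336) (nat_lit 8066899606) (nat_lit 43) (nat_lit 5) (nat_lit 46) (nat_lit 5) (nat_lit 47) (nat_lit 5) (nat_lit 378) (nat_lit 298) (nat_lit 269)) (XT.lf (nat_lit 0) (nat_lit 7494312038) (nat_lit 336) (nat_lit 4859579831) (nat_lit 84) (nat_lit 279233114) (nat_lit 43) (nat_lit 5) (nat_lit 47) (nat_lit 5) (nat_lit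 44) (nat_lit 4) (nat_lit 379) (nat_lit 298) (nat_lit 268)))) (XT.nd (nat_lit 188) (nat_lit 252) (nat_lit 0) (XT.nd (nat_lit 94) (nat_lit 84) (nat_lit 0) (XT.lf (nat_lit 0) (nat_lit 1342441105) (nat_lit 168) (nat_lit 9408842503) (nat_lit 252) (nat_lit 2135797121) (nat_lit 41) (nat_lit 5) (nat_lit 43) (nat_lit 5) (nat_lit 44) (nat_lit 4) (nat_lit 380) (nat_lit 298) (nat_lit 267)) (XT.lf (nat_lit 0) (nat_lit 934284204) (nat_lit 252) (nat_lit 5411878537) (nat_lit 84) (nat_lit 6802400467) (nat_lit 40) (nat_lit 5) (nat_lit 43) (nat_lit 5) (nat_lit 41) (nat_lit 5) (nat_lit 381) (nat_lit 298) (nat_lit 266))) (XT.nd (nat_lit 94) (nat_lit 0) (nat_lit 0) (XT.lf (nat_lit 0) (nat_lit 816994643) (nat_lit 252) (nat_lit 3192066835) (nat_lit 336) (nat_lit 9409580889) (nat_lit 37) (nat_lit 5) (nat_lit 40) (nat_lit 5) (nat_lit 41) (nat_lit 5) (nat_lit 382) (nat_lit 298) (nat_lit 265)) (XT.lf (nat_lit 0)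 (nat_lit 7179931058) (nat_lit 336) (nat_lit 6435761807) (nat_lit 84) (nat_lit 81066272) (nat_lit 37) (nat_lit 5) (nat_lit 41) (nat_lit 5) (nat_lit 38) (nat_lit 4) (nat_lit 383) (nat_lit 298) (nat_lit 264))))))) (XT.nd (nat_lit 1316) (nat_lit 672) (nat_lit 0) (XT.nd (nat_lit 658) (nat_lit 672) (nat_lit 0) (XT.nd (nat_lit 282) (nat_lit 336) (nat_lit 0) (XT.nd (nat_lit 94) (nat_lit 252) (nat_lit 0) (XT.lf (nat_lit 0) (nat_lit 10427156560) (nat_lit 336) (nat_lit 197245640) (nat_lit 84) (nat_lit 3359429546) (nat_lit 37) (nat_lit 5) (nat_lit 41) (nat_lit 5) (nat_lit 38) (nat_lit 4) (nat_lit 384) (nat_lit 298) (nat_lit 263)) (XT.nd (nat_lit 94) (nat_lit 84) (nat_lit 0) (XT.lf (nat_lit 0) (nat_lit 6272433783) (nat_lit 168) (nat_lit 7510751954) (nat_lit 252) (nat_lit 496036983) (nat_lit 35) (nat_lit 5) (nat_lit 37) (nat_lit 5) (nat_lit 38) (nat_lit 4) (nat_lit 385) (nat_lit 298) (nat_lit 262))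 (XT.lf (nat_lit 0) (nat_lit 2557843322) (nat_lit 252) (nat_lit 1747360390) (nat_lit 84) (nat_lit 10278952932) (nat_lit 34) (nat_lit 5) (nat_lit 37) (nat_lit 5) (nat_lit 35) (nat_lit 5) (nat_lit 386) (nat_lit 298) (nat_lit 261)))) (XT.nd (nat_lit 188) (nat_lit 168) (nat_lit 0) (XT.nd (nat_lit 94) (nat_lit 0) (nat_lit 0) (XT.lf (nat_lit 0) (nat_lit 4710512420) (nat_lit 168) (nat_lit 980805831) (nat_lit 252) (nat_lit 9206878295) (nat_lit 32) (nat_lit 5) (nat_lit 34) (nat_lit 5) (nat_lit 35) (nat_lit 5) (nat_lit 387) (nat_lit 298) (nat_lit 260)) (XT.lf (nat_lit 0) (nat_lit 8913145453) (nat_lit 252) (nat_lit 3923611944) (nat_lit 84) (nat_lit 2385112274) (nat_lit 32) (nat_lit 5) (nat_lit 35) (nat_lit 5) (nat_lit 33) (nat_lit 4) (nat_lit 388) (nat_lit 298) (nat_lit 259))) (XT.nd (nat_lit 94) (nat_lit 0) (nat_lit 0) (XT.lf (nat_lit 0) (nat_lit 2492787721) (nat_lit 168) (nat_lit 9726922298) (nat_lit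 252) (nat_lit 3335941723) (nat_lit 30) (nat_lit 5) (nat_lit 32) (nat_lit 5) (nat_lit 33) (nat_lit 4) (nat_lit 389) (nat_lit 298) (nat_lit 258)) (XT.lf (nat_lit 0) (nat_lit 9108313234) (nat_lit 168) (nat_lit 6511806983) (nat_lit 252) (nat_lit 279527626) (nat_lit 30) (nat_lit 5) (nat_lit 32) (nat_lit 5) (nat_lit 33) (nat_lit 4) (nat_lit 390) (nat_lit 298) (nat_lit 257))))) (XT.nd (nat_lit 282) (nat_lit 420) (nat_lit 0) (XT.nd (nat_lit 94) (nat_lit 168) (nat_lit 0) (XT.lf (nat_lit 0) (nat_lit 2768469955) (nat_lit 252) (nat_lit 431796841) (nat_lit 84) (nat_lit 13054231504) (nat_lit 29) (nat_lit 5) (nat_lit 32) (nat_lit 5) (nat_lit 30) (nat_lit 5) (nat_lit 391) (nat_lit 298) (nat_lit 256)) (XT.nd (nat_lit 94) (nat_lit 0) (nat_lit 0) (XT.lf (nat_lit 0) (nat_lit 5921083253) (nat_lit 252) (nat_lit 10456205271) (nat_lit 84) (nat_lit 242095531) (nat_lit 27) (nat_lit 5) (nat_lit 30) (nat_lit 5) (nat_lit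 28) (nat_lit 4) (nat_lit 392) (nat_lit 298) (nat_lit 255)) (XT.lf (nat_lit 0) (nat_lit 9161830191) (nat_lit 252) (nat_lit 4132757703) (nat_lit 84) (nat_lit 3700857395) (nat_lit 27) (nat_lit 5) (nat_lit 30) (nat_lit 5) (nat_lit 28) (nat_lit 4) (nat_lit 393) (nat_lit 298) (nat_lit 254)))) (XT.nd (nat_lit 188) (nat_lit 252) (nat_lit 0) (XT.nd (nat_lit 94) (nat_lit 0) (nat_lit 0) (XT.lf (nat_lit 0) (nat_lit 2357663643) (nat_lit 168) (nat_lit 10123504011) (nat_lit 252) (nat_lit 4902214192) (nat_lit 25) (nat_lit 5) (nat_lit 27) (nat_lit 5) (nat_lit 28) (nat_lit 4) (nat_lit 394) (nat_lit 298) (nat_lit 253)) (XT.lf (nat_lit 0) (nat_lit 9059452838) (nat_lit 168) (nat_lit 6841618482) (nat_lit 252) (nat_lit 1881889121) (nat_lit 25) (nat_lit 5) (nat_lit 27) (nat_lit 5) (nat_lit 28) (nat_lit 4) (nat_lit 395) (nat_lit 298) (nat_lit 252))) (XT.nd (nat_lit 94) (nat_lit 168) (nat_lit 0) (XT.lf (nat_lit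 0) (nat_lit 1165079126) (nat_lit 252) (nat_lit 2310952247) (nat_lit 84) (nat_lit 14719371692) (nat_lit 24) (nat_lit 5) (nat_lit 27) (nat_lit 5) (nat_lit 25) (nat_lit 5) (nat_lit 396) (nat_lit 298) (nat_lit 251)) (XT.lf (nat_lit 0) (nat_lit 4268342545) (nat_lit 252) (nat_lit 14325683978) (nat_lit 84) (nat_lit 25582841) (nat_lit 22) (nat_lit 5) (nat_lit 25) (nat_lit 5) (nat_lit 23) (nat_lit 4) (nat_lit 397) (nat_lit 298) (nat_lit 250)))))) (XT.nd (nat_lit 658) (nat_lit 336) (nat_lit 0) (XT.nd (nat_lit 282) (nat_lit 252) (nat_lit 0) (XT.nd (nat_lit 94) (nat_lit 84) (nat_lit 0) (XT.lf (nat_lit 0) (nat_lit 7484130530) (nat_lit 252) (nat_lit 8011417897) (nat_lit 84) (nat_lit 3560440407) (nat_lit 22) (nat_lit 5) (nat_lit 25) (nat_lit 5) (nat_lit 23) (nat_lit 4) (nat_lit 398) (nat_lit 298) (nat_lit 249)) (XT.nd (nat_lit 94) (nat_lit 84) (nat_lit 0) (XT.lf (nat_lit 0) (nat_lit 10758958539) (nat_lit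 252) (nat_lit 1571073865) (nat_lit 84) (nat_lit 7176579213) (nat_lit 22) (nat_lit 5) (nat_lit 25) (nat_lit 5) (nat_lit 23) (nat_lit 4) (nat_lit 399) (nat_lit 298) (nat_lit 248)) (XT.lf (nat_lit 0) (nat_lit 5100504823) (nat_lit 84) (nat_lit 9044212420) (nat_lit 168) (nat_lit 5825683339) (nat_lit 21) (nat_lit 5) (nat_lit 22) (nat_lit 5) (nat_lit 23) (nat_lit 4) (nat_lit 400) (nat_lit 298) (nat_lit 247)))) (XT.nd (nat_lit 188) (nat_lit 168) (nat_lit 0) (XT.nd (nat_lit 94) (nat_lit 84) (nat_lit 0) (XT.lf (nat_lit 0) (nat_lit 11943534452) (nat_lit 84) (nat_lit 5668508823) (nat_lit 168) (nat_lit 2836687362) (nat_lit 21) (nat_lit 5) (nat_lit 22) (nat_lit 5) (nat_lit 23) (nat_lit 4) (nat_lit 401) (nat_lit 298) (nat_lit 246)) (XT.lf (nat_lit 0) (nat_lit 202060431) (nat_lit 168) (nat_lit 2011735888) (nat_lit 84) (nat_lit 18728626070) (nat_lit 20) (nat_lit 5) (nat_lit 22) (nat_lit 5) (nat_lit 21)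 (nat_lit 5) (nat_lit 402) (nat_lit 298) (nat_lit 245))) (XT.nd (nat_lit 94) (nat_lit 0) (nat_lit 0) (XT.lf (nat_lit 0) (nat_lit 3299206483) (nat_lit 252) (nat_lit 16781512631) (nat_lit 84) (nat_lit 1368660632) (nat_lit 18) (nat_lit 5) (nat_lit 21) (nat_lit 5) (nat_lit 19) (nat_lit 4) (nat_lit 403) (nat_lit 298) (nat_lit 244)) (XT.lf (nat_lit 0) (nat_lit 6497743609) (nat_lit 252) (nat_lit 10462307837) (nat_lit 84) (nat_lit 5011264293) (nat_lit 18) (nat_lit 5) (nat_lit 21) (nat_lit 5) (nat_lit 19) (nat_lit 4) (nat_lit 404) (nat_lit 298) (nat_lit 243))))) (XT.nd (nat_lit 282) (nat_lit 252) (nat_lit 0) (XT.nd (nat_lit 94) (nat_lit 84) (nat_lit 0) (XT.lf (nat_lit 0) (nat_lit 9759268108) (nat_lit 252) (nat_lit 4010175798) (nat_lit 84) (nat_lit 8740478483) (nat_lit 18) (nat_lit 5) (nat_lit 21) (nat_lit 5) (nat_lit 19) (nat_lit 4) (nat_lit 405) (nat_lit 298) (nat_lit 242)) (XT.nd (nat_lit 94)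 (nat_lit 0) (nat_lit 0) (XT.lf (nat_lit 0) (nat_lit 2631878705) (nat_lit 84) (nat_lit 10480050377) (nat_lit 168) (nat_lit 9952982260) (nat_lit 17) (nat_lit 5) (nat_lit 18) (nat_lit 5) (nat_lit 19) (nat_lit 4) (nat_lit 406) (nat_lit 298) (nat_lit 241)) (XT.lf (nat_lit 0) (nat_lit 9500939791) (nat_lit 84) (nat_lit 7073125306) (nat_lit 168) (nat_lit 7062240174) (nat_lit 17) (nat_lit 5) (nat_lit 18) (nat_lit 5) (nat_lit 19) (nat_lit 4) (nat_lit 407) (nat_lit 298) (nat_lit 240)))) (XT.nd (nat_lit 188) (nat_lit 252) (nat_lit 0) (XT.nd (nat_lit 94) (nat_lit 0) (nat_lit 0) (XT.lf (nat_lit 0) (nat_lit 16523199190) (nat_lit 84) (nat_lit 3586186680) (nat_lit 168) (nat_lit 4116397044) (nat_lit 17) (nat_lit 5) (nat_lit 18) (nat_lit 5) (nat_lit 19) (nat_lit 4) (nat_lit 408) (nat_lit 298) (nat_lit 239)) (XT.lf (nat_lit 0) (nat_lit 23704792857) (nat_lit 84) (nat_lit 16187660) (nat_lit 168) (nat_lit 1112878833)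 (nat_lit 17) (nat_lit 5) (nat_lit 18) (nat_lit 5) (nat_lit 19) (nat_lit 4) (nat_lit 409) (nat_lit 298) (nat_lit 238))) (XT.nd (nat_lit 94) (nat_lit 0) (nat_lit 0) (XT.lf (nat_lit 0) (nat_lit 2003214613) (nat_lit 252) (nat_lit 19811507126) (nat_lit 84) (nat_lit 3643071192) (nat_lit 14) (nat_lit 5) (nat_lit 17) (nat_lit 5) (nat_lit 15) (nat_lit 4) (nat_lit 410) (nat_lit 298) (nat_lit 237)) (XT.lf (nat_lit 0) (nat_lit 5173041554) (nat_lit 252) (nat_lit 13513977950) (nat_lit 84) (nat_lit 7413635023) (nat_lit 14) (nat_lit 5) (nat_lit 17) (nat_lit 5) (nat_lit 15) (nat_lit 4) (nat_lit 411) (nat_lit 298) (nat_lit 236))))))))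
noncomputable def xc50 : XT := (XT.nd (nat_lit 2538) (nat_lit 252) (nat_lit 0) (XT.nd (nat_lit 1222) (nat_lit 252) (nat_lit 0) (XT.nd (nat_lit 564) (nat_lit 252) (nat_lit 0) (XT.nd (nat_lit 282) (nat_lit 0) (nat_lit 0) (XT.nd (nat_lit 94) (nat_lit 84) (nat_lit 0) (XT.lf (nat_lit 0) (nat_lit 8409753532) (nat_lit 252) (nat_lit 7076675462) (nat_lit 84) (nat_lit 11277237830) (nat_lit 14) (nat_lit 5) (nat_lit 17) (nat_lit 5) (nat_lit 15) (nat_lit 4) (nat_lit 412) (nat_lit 298) (nat_lit 235)) (XT.nd (nat_lit 94) (nat_lit 84) (nat_lit 0) (XT.lf (nat_lit 0) (nat_lit 11716178744) (nat_lit 252) (nat_lit 493974834) (nat_lit 84) (nat_lit 15237255576) (nat_lit 14) (nat_lit 5) (nat_lit 17) (nat_lit 5) (nat_lit 15) (nat_lit 4) (nat_lit 413) (nat_lit 298) (nat_lit 234)) (XT.lf (nat_lit 0) (nat_lit 6364061570) (nat_lit 84) (nat_lit 8792319980) (nat_lit 168) (nat_lit 12994262154) (nat_lit 13) (nat_lit 5)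 (nat_lit 14) (nat_lit 5) (nat_lit 15) (nat_lit 4) (nat_lit 414) (nat_lit 298) (nat_lit 233)))) (XT.nd (nat_lit 94) (nat_lit 0) (nat_lit 0) (XT.lf (nat_lit 0) (nat_lit 13392088288) (nat_lit 84) (nat_lit 5286433399) (nat_lit 168) (nat_lit 10197108652) (nat_lit 13) (nat_lit 5) (nat_lit 14) (nat_lit 5) (nat_lit 15) (nat_lit 4) (nat_lit 415) (nat_lit 298) (nat_lit 232)) (XT.nd (nat_lit 94) (nat_lit 0) (nat_lit 0) (XT.lf (nat_lit 0) (nat_lit 20586415245) (nat_lit 84) (nat_lit 1694418617) (nat_lit 168) (nat_lit 7342313969) (nat_lit 13) (nat_lit 5) (nat_lit 14) (nat_lit 5) (nat_lit 15) (nat_lit 4) (nat_lit 416) (nat_lit 298) (nat_lit 231)) (XT.lf (nat_lit 0) (nat_lit 25985564668) (nat_lit 168) (nat_lit 2459619545) (nat_lit 0) (nat_lit 1948092165) (nat_lit 13) (nat_lit 5) (nat_lit 15) (nat_lit 4) (nat_lit 13) (nat_lit 4) (nat_lit 417) (nat_lit 298) (nat_lit 230))))) (XT.nd (nat_lit 282) (nat_lit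 84) (nat_lit 0) (XT.nd (nat_lit 94) (nat_lit 84) (nat_lit 0) (XT.lf (nat_lit 0) (nat_lit 4340175351) (nat_lit 84) (nat_lit 25495557483) (nat_lit 84) (nat_lit 1349762630) (nat_lit 12) (nat_lit 4) (nat_lit 13) (nat_lit 5) (nat_lit 13) (nat_lit 4) (nat_lit 418) (nat_lit 298) (nat_lit 229)) (XT.nd (nat_lit 94) (nat_lit 0) (nat_lit 0) (XT.lf (nat_lit 0) (nat_lit 1765732213) (nat_lit 168) (nat_lit 20666525789) (nat_lit 84) (nat_lit 9568690804) (nat_lit 11) (nat_lit 5) (nat_lit 13) (nat_lit 5) (nat_lit 12) (nat_lit 4) (nat_lit 419) (nat_lit 298) (nat_lit 228)) (XT.lf (nat_lit 0) (nat_lit 4924113554) (nat_lit 168) (nat_lit 14357115872) (nat_lit 84) (nat_lit 13559953112) (nat_lit 11) (nat_lit 5) (nat_lit 13) (nat_lit 5) (nat_lit 12) (nat_lit 4) (nat_lit 420) (nat_lit 298) (nat_lit 227)))) (XT.nd (nat_lit 188) (nat_lit 84) (nat_lit 0) (XT.nd (nat_lit 94) (nat_lit 0) (nat_lit 0) (XT.lf (nat_lit 0)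 (nat_lit 8154479874) (nat_lit 168) (nat_lit 7898602540) (nat_lit 84) (nat_lit 17654237674) (nat_lit 11) (nat_lit 5) (nat_lit 13) (nat_lit 5) (nat_lit 12) (nat_lit 4) (nat_lit 421) (nat_lit 298) (nat_lit 226)) (XT.lf (nat_lit 0) (nat_lit 11459653821) (nat_lit 168) (nat_lit 1285342432) (nat_lit 84) (nat_lit 21855122019) (nat_lit 11) (nat_lit 5) (nat_lit 13) (nat_lit 5) (nat_lit 12) (nat_lit 4) (nat_lit 422) (nat_lit 298) (nat_lit 225))) (XT.nd (nat_lit 94) (nat_lit 0) (nat_lit 0) (XT.lf (nat_lit 0) (nat_lit 5597673804) (nat_lit 84) (nat_lit 9298657873) (nat_lit 168) (nat_lit 20622411283) (nat_lit 10) (nat_lit 5) (nat_lit 11) (nat_lit 5) (nat_lit 12) (nat_lit 4) (nat_lit 423) (nat_lit 298) (nat_lit 224)) (XT.lf (nat_lit 0) (nat_lit 12676027636) (nat_lit 84) (nat_lit 5751866649) (nat_lit 168) (nat_lit 18037291210) (nat_lit 10) (nat_lit 5) (nat_lit 11) (nat_lit 5) (nat_lit 12) (nat_lit 4) (nat_lit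 424) (nat_lit 298) (nat_lit 223)))))) (XT.nd (nat_lit 658) (nat_lit 84) (nat_lit 0) (XT.nd (nat_lit 282) (nat_lit 168) (nat_lit 0) (XT.nd (nat_lit 94) (nat_lit 0) (nat_lit 0) (XT.lf (nat_lit 0) (nat_lit 19930323197) (nat_lit 84) (nat_lit 2114502884) (nat_lit 168) (nat_lit 15395824827) (nat_lit 10) (nat_lit 5) (nat_lit 11) (nat_lit 5) (nat_lit 12) (nat_lit 4) (nat_lit 425) (nat_lit 298) (nat_lit 222)) (XT.nd (nat_lit 94) (nat_lit 0) (nat_lit 0) (XT.lf (nat_lit 0) (nat_lit 25765827351) (nat_lit 168) (nat_lit 11094632216) (nat_lit 0) (nat_lit 1585065785) (nat_lit 10) (nat_lit 5) (nat_lit 12) (nat_lit 4) (nat_lit 10) (nat_lit 4) (nat_lit 426) (nat_lit 298) (nat_lit 221)) (XT.lf (nat_lit 0) (nat_lit 29599854439) (nat_lit 168) (nat_lit 4542170412) (nat_lit 0) (nat_lit 5338490871) (nat_lit 10) (nat_lit 5) (nat_lit 12) (nat_lit 4) (nat_lit 10) (nat_lit 4) (nat_lit 427) (nat_lit 298) (nat_lit 220))))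 (XT.nd (nat_lit 188) (nat_lit 84) (nat_lit 0) (XT.nd (nat_lit 94) (nat_lit 0) (nat_lit 0) (XT.lf (nat_lit 0) (nat_lit 2216358180) (nat_lit 84) (nat_lit 31334878382) (nat_lit 84) (nat_lit 6995260444) (nat_lit 9) (nat_lit 4) (nat_lit 10) (nat_lit 5) (nat_lit 10) (nat_lit 4) (nat_lit 428) (nat_lit 298) (nat_lit 219)) (XT.lf (nat_lit 0) (nat_lit 9237327416) (nat_lit 84) (nat_lit 28410960223) (nat_lit 84) (nat_lit 3995367167) (nat_lit 9) (nat_lit 4) (nat_lit 10) (nat_lit 5) (nat_lit 10) (nat_lit 4) (nat_lit 429) (nat_lit 298) (nat_lit 218))) (XT.nd (nat_lit 94) (nat_lit 84) (nat_lit 0) (XT.lf (nat_lit 0) (nat_lit 16436474025) (nat_lit 84) (nat_lit 25413582509) (nat_lit 84) (nat_lit 924227203) (nat_lit 9) (nat_lit 4) (nat_lit 10) (nat_lit 5) (nat_lit 10) (nat_lit 4) (nat_lit 430) (nat_lit 298) (nat_lit 217)) (XT.lf (nat_lit 0) (nat_lit 2177506323) (nat_lit 168) (nat_lit 20140631303) (nat_lit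 84) (nat_lit 21620593657) (nat_lit 8) (nat_lit 5) (nat_lit 10) (nat_lit 5) (nat_lit 9) (nat_lit 4) (nat_lit 431) (nat_lit 298) (nat_lit 216))))) (XT.nd (nat_lit 282) (nat_lit 84) (nat_lit 0) (XT.nd (nat_lit 94) (nat_lit 0) (nat_lit 0) (XT.lf (nat_lit 0) (nat_lit 5336386906) (nat_lit 168) (nat_lit 13797631714) (nat_lit 84) (nat_lit 26004348667) (nat_lit 8) (nat_lit 5) (nat_lit 10) (nat_lit 5) (nat_lit 9) (nat_lit 4) (nat_lit 432) (nat_lit 298) (nat_lit 215)) (XT.nd (nat_lit 94) (nat_lit 0) (nat_lit 0) (XT.lf (nat_lit 0) (nat_lit 8573209734) (nat_lit 168) (nat_lit 7294384283) (nat_lit 84) (nat_lit 30506912485) (nat_lit 8) (nat_lit 5) (nat_lit 10) (nat_lit 5) (nat_lit 9) (nat_lit 4) (nat_lit 433) (nat_lit 298) (nat_lit 214)) (XT.lf (nat_lit 0) (nat_lit 11890803097) (nat_lit 168) (nat_lit 625206558) (nat_lit 84) (nat_lit 35132219391) (nat_lit 8) (nat_lit 5) (nat_lit 10) (nat_lit 5) (nat_lit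 9) (nat_lit 4) (nat_lit 434) (nat_lit 298) (nat_lit 213)))) (XT.nd (nat_lit 188) (nat_lit 0) (nat_lit 0) (XT.nd (nat_lit 94) (nat_lit 0) (nat_lit 0) (XT.lf (nat_lit 0) (nat_lit 6339434087) (nat_lit 84) (nat_lit 9013570296) (nat_lit 168) (nat_lit 33605815347) (nat_lit 7) (nat_lit 5) (nat_lit 8) (nat_lit 5) (nat_lit 9) (nat_lit 4) (nat_lit 435) (nat_lit 298) (nat_lit 212)) (XT.lf (nat_lit 0) (nat_lit 13497790096) (nat_lit 84) (nat_lit 5411928933) (nat_lit 168) (nat_lit 31399298291) (nat_lit 7) (nat_lit 5) (nat_lit 8) (nat_lit 5) (nat_lit 9) (nat_lit 4) (nat_lit 436) (nat_lit 298) (nat_lit 211))) (XT.nd (nat_lit 94) (nat_lit 0) (nat_lit 0) (XT.lf (nat_lit 0) (nat_lit 20843673505) (nat_lit 84) (nat_lit 1714251864) (nat_lit 168) (nat_lit 29142260119) (nat_lit 7) (nat_lit 5) (nat_lit 8) (nat_lit 5) (nat_lit 9) (nat_lit 4) (nat_lit 437) (nat_lit 298) (nat_lit 210)) (XT.lf (nat_lit 0) (nat_lit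 26320831262) (nat_lit 168) (nat_lit 24770056876) (nat_lit 0) (nat_lit 2042051072) (nat_lit 7) (nat_lit 5) (nat_lit 9) (nat_lit 4) (nat_lit 7) (nat_lit 4) (nat_lit 438) (nat_lit 298) (nat_lit 209))))))) (XT.nd (nat_lit 1316) (nat_lit 0) (nat_lit 0) (XT.nd (nat_lit 658) (nat_lit 168) (nat_lit 0) (XT.nd (nat_lit 282) (nat_lit 84) (nat_lit 0) (XT.nd (nat_lit 94) (nat_lit 0) (nat_lit 0) (XT.lf (nat_lit 0) (nat_lit 30199151625) (nat_lit 168) (nat_lit 18543970583) (nat_lit 0) (nat_lit 5865485394) (nat_lit 7) (nat_lit 5) (nat_lit 9) (nat_lit 4) (nat_lit 7) (nat_lit 4) (nat_lit 439) (nat_lit 298) (nat_lit 208)) (XT.nd (nat_lit 94) (nat_lit 0) (nat_lit 0) (XT.lf (nat_lit 0) (nat_lit 34179796845) (nat_lit 168) (nat_lit 12156334396) (nat_lit 0) (nat_lit 9792843195) (nat_lit 7) (nat_lit 5) (nat_lit 9) (nat_lit 4) (nat_lit 7) (nat_lit 4) (nat_lit 440) (nat_lit 298) (nat_lit 207)) (XT.lf (nat_lit 0)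 (nat_lit 38266245154) (nat_lit 168) (nat_lit 5601566886) (nat_lit 0) (nat_lit 13827556146) (nat_lit 7) (nat_lit 5) (nat_lit 9) (nat_lit 4) (nat_lit 7) (nat_lit 4) (nat_lit 441) (nat_lit 298) (nat_lit 206)))) (XT.nd (nat_lit 188) (nat_lit 0) (nat_lit 0) (XT.nd (nat_lit 94) (nat_lit 0) (nat_lit 0) (XT.lf (nat_lit 0) (nat_lit 1148470203) (nat_lit 84) (nat_lit 41324636831) (nat_lit 84) (nat_lit 16835719320) (nat_lit 6) (nat_lit 4) (nat_lit 7) (nat_lit 5) (nat_lit 7) (nat_lit 4) (nat_lit 442) (nat_lit 298) (nat_lit 205)) (XT.lf (nat_lit 0) (nat_lit 8192283979) (nat_lit 84) (nat_lit 38657394609) (nat_lit 84) (nat_lit 14119711562) (nat_lit 6) (nat_lit 4) (nat_lit 7) (nat_lit 5) (nat_lit 7) (nat_lit 4) (nat_lit 443) (nat_lit 298) (nat_lit 204))) (XT.nd (nat_lit 94) (nat_lit 0) (nat_lit 0) (XT.lf (nat_lit 0) (nat_lit 15424547065) (nat_lit 84) (nat_lit 35920319618) (nat_lit 84) (nat_lit 11335291389)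 (nat_lit 6) (nat_lit 4) (nat_lit 7) (nat_lit 5) (nat_lit 7) (nat_lit 4) (nat_lit 444) (nat_lit 298) (nat_lit 203)) (XT.lf (nat_lit 0) (nat_lit 22851578914) (nat_lit 84) (nat_lit 33111020238) (nat_lit 84) (nat_lit 8480025814) (nat_lit 6) (nat_lit 4) (nat_lit 7) (nat_lit 5) (nat_lit 7) (nat_lit 4) (nat_lit 445) (nat_lit 298) (nat_lit 202))))) (XT.nd (nat_lit 282) (nat_lit 84) (nat_lit 0) (XT.nd (nat_lit 94) (nat_lit 84) (nat_lit 0) (XT.lf (nat_lit 0) (nat_lit 30479869166) (nat_lit 84) (nat_lit 30227041742) (nat_lit 84) (nat_lit 5551419944) (nat_lit 6) (nat_lit 4) (nat_lit 7) (nat_lit 5) (nat_lit 7) (nat_lit 4) (nat_lit 446) (nat_lit 298) (nat_lit 201)) (XT.nd (nat_lit 94) (nat_lit 84) (nat_lit 0) (XT.lf (nat_lit 0) (nat_lit 38316083317) (nat_lit 84) (nat_lit 27265864149) (nat_lit 84) (nat_lit 2546914803) (nat_lit 6) (nat_lit 4) (nat_lit 7) (nat_lit 5) (nat_lit 7) (nat_lit 4) (nat_lit 447)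 (nat_lit 298) (nat_lit 200)) (XT.lf (nat_lit 0) (nat_lit 525653371) (nat_lit 168) (nat_lit 23693938582) (nat_lit 84) (nat_lit 45836107104) (nat_lit 5) (nat_lit 5) (nat_lit 7) (nat_lit 5) (nat_lit 6) (nat_lit 4) (nat_lit 448) (nat_lit 298) (nat_lit 199)))) (XT.nd (nat_lit 188) (nat_lit 84) (nat_lit 0) (XT.nd (nat_lit 94) (nat_lit 0) (nat_lit 0) (XT.lf (nat_lit 0) (nat_lit 3628155676) (nat_lit 168) (nat_lit 17436699273) (nat_lit 84) (nat_lit 50975066754) (nat_lit 5) (nat_lit 5) (nat_lit 7) (nat_lit 5) (nat_lit 6) (nat_lit 4) (nat_lit 449) (nat_lit 298) (nat_lit 198)) (XT.lf (nat_lit 0) (nat_lit 6813002516) (nat_lit 168) (nat_lit 11011111032) (nat_lit 84) (nat_lit 56259884921) (nat_lit 5) (nat_lit 5) (nat_lit 7) (nat_lit 5) (nat_lit 6) (nat_lit 4) (nat_lit 450) (nat_lit 298) (nat_lit 197))) (XT.nd (nat_lit 94) (nat_lit 84) (nat_lit 0) (XT.lf (nat_lit 0) (nat_lit 10082976767) (nat_lit 168)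 (nat_lit 4411559267) (nat_lit 84) (nat_lit 61695179406) (nat_lit 5) (nat_lit 5) (nat_lit 7) (nat_lit 5) (nat_lit 6) (nat_lit 4) (nat_lit 451) (nat_lit 298) (nat_lit 196)) (XT.lf (nat_lit 0) (nat_lit 2414844943) (nat_lit 84) (nat_lit 11049303712) (nat_lit 168) (nat_lit 64894067521) (nat_lit 4) (nat_lit 5) (nat_lit 5) (nat_lit 5) (nat_lit 6) (nat_lit 4) (nat_lit 452) (nat_lit 298) (nat_lit 195)))))) (XT.nd (nat_lit 49726) (nat_lit 0) (nat_lit 7896) (XT.nd (nat_lit 49350) (nat_lit 0) (nat_lit 9996) (XT.nd (nat_lit 94) (nat_lit 0) (nat_lit 0) (XT.lf (nat_lit 0) (nat_lit 9518396474) (nat_lit 84) (nat_lit 7462913595) (nat_lit 168) (nat_lit 63609430289) (nat_lit 4) (nat_lit 5) (nat_lit 5) (nat_lit 5) (nat_lit 6) (nat_lit 4) (nat_lit 453) (nat_lit 298) (nat_lit 194)) (XT.nd (nat_lit 94) (nat_lit 0) (nat_lit 0) (XT.lf (nat_lit 0) (nat_lit 16817503632) (nat_lit 84) (nat_lit 3776780042) (nat_lit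 168) (nat_lit 62296252579) (nat_lit 4) (nat_lit 5) (nat_lit 5) (nat_lit 5) (nat_lit 6) (nat_lit 4) (nat_lit 454) (nat_lit 298) (nat_lit 193)) (XT.lf (nat_lit 0) (nat_lit 24306344847) (nat_lit 168) (nat_lit 60941187520) (nat_lit 0) (nat_lit 12077473) (nat_lit 4) (nat_lit 5) (nat_lit 6) (nat_lit 4) (nat_lit 4) (nat_lit 4) (nat_lit 455) (nat_lit 298) (nat_lit 192)))) (XT.nd (nat_lit 188) (nat_lit 588) (nat_lit 0) (XT.nd (nat_lit 94) (nat_lit 588) (nat_lit 0) (XT.lf (nat_lit 0) (nat_lit 790898185) (nat_lit 672) (nat_lit 2257745998) (nat_lit 0) (nat_lit 790898185) (nat_lit 137) (nat_lit 5) (nat_lit 145) (nat_lit 4) (nat_lit 137) (nat_lit 4) (nat_lit 347) (nat_lit 299) (nat_lit 299)) (XT.lf (nat_lit 0) (nat_lit 558347745) (nat_lit 588) (nat_lit 4270219262) (nat_lit 588) (nat_lit 2933986314) (nat_lit 130) (nat_lit 4) (nat_lit 137) (nat_lit 5) (nat_lit 137) (nat_lit 4) (nat_lit 348) (nat_lit 299)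 (nat_lit 298))) (XT.nd (nat_lit 94) (nat_lit 504) (nat_lit 0) (XT.lf (nat_lit 0) (nat_lit 273577817) (nat_lit 672) (nat_lit 2078183519) (nat_lit 84) (nat_lit 5498181186) (nat_lit 129) (nat_lit 5) (nat_lit 137) (nat_lit 5) (nat_lit 130) (nat_lit 4) (nat_lit 349) (nat_lit 299) (nat_lit 297)) (XT.lf (nat_lit 0) (nat_lit 3132310637) (nat_lit 504) (nat_lit 328470070) (nat_lit 588) (nat_lit 4480205231) (nat_lit 123) (nat_lit 5) (nat_lit 129) (nat_lit 5) (nat_lit 130) (nat_lit 4) (nat_lit 350) (nat_lit 299) (nat_lit 296))))) (XT.nd (nat_lit 282) (nat_lit 1092) (nat_lit 0) (XT.nd (nat_lit 94) (nat_lit 504) (nat_lit 0) (XT.lf (nat_lit 0) (nat_lit 395212948) (nat_lit 504) (nat_lit 6303979821) (nat_lit 504) (nat_lit 1337070464) (nat_lit 117) (nat_lit 4) (nat_lit 123) (nat_lit 5) (nat_lit 123) (nat_lit 4) (nat_lit 351) (nat_lit 299) (nat_lit 295)) (XT.nd (nat_lit 94) (nat_lit 420) (nat_lit 0) (XT.lf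 (nat_lit 0) (nat_lit 1829823415) (nat_lit 588) (nat_lit 2405014102) (nat_lit 84) (nat_lit 3900177460) (nat_lit 116) (nat_lit 5) (nat_lit 123) (nat_lit 5) (nat_lit 117) (nat_lit 4) (nat_lit 352) (nat_lit 299) (nat_lit 294)) (XT.lf (nat_lit 0) (nat_lit 2931226133) (nat_lit 420) (nat_lit 2078555062) (nat_lit 504) (nat_lit 3228358916) (nat_lit 111) (nat_lit 5) (nat_lit 116) (nat_lit 5) (nat_lit 117) (nat_lit 4) (nat_lit 353) (nat_lit 299) (nat_lit 293)))) (XT.nd (nat_lit 188) (nat_lit 504) (nat_lit 0) (XT.nd (nat_lit 94) (nat_lit 84) (nat_lit 0) (XT.lf (nat_lit 0) (nat_lit 29917938) (nat_lit 504) (nat_lit 8199448015) (nat_lit 504) (nat_lit 116817568) (nat_lit 105) (nat_lit 4) (nat_lit 111) (nat_lit 5) (nat_lit 111) (nat_lit 4) (nat_lit 354) (nat_lit 299) (nat_lit 292)) (XT.lf (nat_lit 0) (nat_lit 3021027663) (nat_lit 588) (nat_lit 2974055579) (nat_lit 84) (nat_lit 2461840632) (nat_lit 104)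 (nat_lit 5) (nat_lit 111) (nat_lit 5) (nat_lit 105) (nat_lit 4) (nat_lit 355) (nat_lit 299) (nat_lit 291))) (XT.nd (nat_lit 94) (nat_lit 84) (nat_lit 0) (XT.lf (nat_lit 0) (nat_lit 2475530224) (nat_lit 420) (nat_lit 3719816951) (nat_lit 504) (nat_lit 2377402485) (nat_lit 99) (nat_lit 5) (nat_lit 104) (nat_lit 5) (nat_lit 105) (nat_lit 4) (nat_lit 356) (nat_lit 299) (nat_lit 290)) (XT.lf (nat_lit 0) (nat_lit 709435244) (nat_lit 504) (nat_lit 650062509) (nat_lit 84) (nat_lit 7333910063) (nat_lit 98) (nat_lit 5) (nat_lit 104) (nat_lit 5) (nat_lit 99) (nat_lit 5) (nat_lit 357) (nat_lit 299) (nat_lit 289))))))))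
noncomputable def xc51 : XT := (XT.nd (nat_lit 2632) (nat_lit 1764) (nat_lit 0) (XT.nd (nat_lit 1316) (nat_lit 1848) (nat_lit 0) (XT.nd (nat_lit 658) (nat_lit 1428) (nat_lit 0) (XT.nd (nat_lit 282) (nat_lit 1176) (nat_lit 0) (XT.nd (nat_lit 94) (nat_lit 420) (nat_lit 0) (XT.lf (nat_lit 0) (nat_lit 3822966822) (nat_lit 504) (nat_lit 3893313816) (nat_lit 84) (nat_lit 1101369524) (nat_lit 93) (nat_lit 5) (nat_lit 99) (nat_lit 5) (nat_lit 94) (nat_lit 4) (nat_lit 358) (nat_lit 299) (nat_lit 288)) (XT.nd (nat_lit 94) (nat_lit 84) (nat_lit 0) (XT.lf (nat_lit 0) (nat_lit 1653584076) (nat_lit 336) (nat_lit 5337020818) (nat_lit 420) (nat_lit 1956316948) (nat_lit 89) (nat_lit 5) (nat_lit 93) (nat_lit 5) (nat_lit 94) (nat_lit 4) (nat_lit 359) (nat_lit 299) (nat_lit 287)) (XT.lf (nat_lit 0) (nat_lit 1115126714) (nat_lit 420) (nat_lit 1743524381) (nat_lit 84) (nat_lit 6222253675) (nat_lit 88) (nat_lit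 5) (nat_lit 93) (nat_lit 5) (nat_lit 89) (nat_lit 5) (nat_lit 360) (nat_lit 299) (nat_lit 286)))) (XT.nd (nat_lit 188) (nat_lit 420) (nat_lit 0) (XT.nd (nat_lit 94) (nat_lit 336) (nat_lit 0) (XT.lf (nat_lit 0) (nat_lit 3933408312) (nat_lit 420) (nat_lit 271092321) (nat_lit 504) (nat_lit 5014984895) (nat_lit 83) (nat_lit 5) (nat_lit 88) (nat_lit 5) (nat_lit 89) (nat_lit 5) (nat_lit 361) (nat_lit 299) (nat_lit 285)) (XT.lf (nat_lit 0) (nat_lit 340314079) (nat_lit 336) (nat_lit 7018566569) (nat_lit 420) (nat_lit 2004282667) (nat_lit 79) (nat_lit 5) (nat_lit 83) (nat_lit 5) (nat_lit 84) (nat_lit 4) (nat_lit 362) (nat_lit 299) (nat_lit 284))) (XT.nd (nat_lit 94) (nat_lit 336) (nat_lit 0) (XT.lf (nat_lit 0) (nat_lit 1060545845) (nat_lit 420) (nat_lit 3377846183) (nat_lit 84) (nat_lit 5072990012) (nat_lit 78) (nat_lit 5) (nat_lit 83) (nat_lit 5) (nat_lit 79) (nat_lit 5) (nat_lit 363) (nat_lit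 299) (nat_lit 283)) (XT.lf (nat_lit 0) (nat_lit 2367326082) (nat_lit 336) (nat_lit 1763159370) (nat_lit 420) (nat_lit 5534463106) (nat_lit 74) (nat_lit 5) (nat_lit 78) (nat_lit 5) (nat_lit 79) (nat_lit 5) (nat_lit 364) (nat_lit 299) (nat_lit 282))))) (XT.nd (nat_lit 282) (nat_lit 672) (nat_lit 0) (XT.nd (nat_lit 94) (nat_lit 756) (nat_lit 0) (XT.lf (nat_lit 0) (nat_lit 7268059181) (nat_lit 420) (nat_lit 1574363606) (nat_lit 84) (nat_lit 981530366) (nat_lit 74) (nat_lit 5) (nat_lit 79) (nat_lit 5) (nat_lit 75) (nat_lit 4) (nat_lit 365) (nat_lit 299) (nat_lit 281)) (XT.nd (nat_lit 94) (nat_lit 336) (nat_lit 0) (XT.lf (nat_lit 0) (nat_lit 494141274) (nat_lit 420) (nat_lit 5699660145) (nat_lit 84) (nat_lit 3794107371) (nat_lit 69) (nat_lit 5) (nat_lit 74) (nat_lit 5) (nat_lit 70) (nat_lit 5) (nat_lit 366) (nat_lit 299) (nat_lit 280)) (XT.lf (nat_lit 0) (nat_lit 84735114) (nat_lit 336) (nat_lit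 3450291406) (nat_lit 420) (nat_lit 6622564718) (nat_lit 65) (nat_lit 5) (nat_lit 69) (nat_lit 5) (nat_lit 70) (nat_lit 5) (nat_lit 367) (nat_lit 299) (nat_lit 279)))) (XT.nd (nat_lit 188) (nat_lit 420) (nat_lit 0) (XT.nd (nat_lit 94) (nat_lit 252) (nat_lit 0) (XT.lf (nat_lit 0) (nat_lit 6066261719) (nat_lit 336) (nat_lit 593312399) (nat_lit 420) (nat_lit 3673103293) (nat_lit 65) (nat_lit 5) (nat_lit 69) (nat_lit 5) (nat_lit 70) (nat_lit 5) (nat_lit 368) (nat_lit 299) (nat_lit 278)) (XT.lf (nat_lit 0) (nat_lit 1631225021) (nat_lit 252) (nat_lit 8221411767) (nat_lit 336) (nat_lit 661219832) (nat_lit 62) (nat_lit 5) (nat_lit 65) (nat_lit 5) (nat_lit 66) (nat_lit 4) (nat_lit 369) (nat_lit 299) (nat_lit 277))) (XT.nd (nat_lit 94) (nat_lit 336) (nat_lit 0) (XT.lf (nat_lit 0) (nat_lit 2379557455) (nat_lit 336) (nat_lit 3028365067) (nat_lit 84) (nat_lit 5292338633) (nat_lit 61) (nat_lit 5) (nat_lit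 65) (nat_lit 5) (nat_lit 62) (nat_lit 5) (nat_lit 370) (nat_lit 299) (nat_lit 276)) (XT.lf (nat_lit 0) (nat_lit 2962824206) (nat_lit 336) (nat_lit 2502552670) (nat_lit 420) (nat_lit 5427747987) (nat_lit 57) (nat_lit 5) (nat_lit 61) (nat_lit 5) (nat_lit 62) (nat_lit 5) (nat_lit 371) (nat_lit 299) (nat_lit 275)))))) (XT.nd (nat_lit 658) (nat_lit 924) (nat_lit 0) (XT.nd (nat_lit 282) (nat_lit 588) (nat_lit 0) (XT.nd (nat_lit 94) (nat_lit 336) (nat_lit 0) (XT.lf (nat_lit 0) (nat_lit 8618648091) (nat_lit 420) (nat_lit 1990746211) (nat_lit 84) (nat_lit 483208328) (nat_lit 57) (nat_lit 5) (nat_lit 62) (nat_lit 5) (nat_lit 58) (nat_lit 4) (nat_lit 372) (nat_lit 299) (nat_lit 274)) (XT.nd (nat_lit 94) (nat_lit 0) (nat_lit 0) (XT.lf (nat_lit 0) (nat_lit 562525148) (nat_lit 336) (nat_lit 7209451975) (nat_lit 84) (nat_lit 3525838918) (nat_lit 53) (nat_lit 5) (nat_lit 57) (nat_lit 5) (nat_lit 54) (nat_lit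 5) (nat_lit 373) (nat_lit 299) (nat_lit 273)) (XT.lf (nat_lit 0) (nat_lit 3601964154) (nat_lit 336) (nat_lit 1231055906) (nat_lit 84) (nat_lit 6676651433) (nat_lit 53) (nat_lit 5) (nat_lit 57) (nat_lit 5) (nat_lit 54) (nat_lit 5) (nat_lit 374) (nat_lit 299) (nat_lit 272)))) (XT.nd (nat_lit 188) (nat_lit 336) (nat_lit 0) (XT.nd (nat_lit 94) (nat_lit 0) (nat_lit 0) (XT.lf (nat_lit 0) (nat_lit 4937174398) (nat_lit 252) (nat_lit 1785868445) (nat_lit 336) (nat_lit 5005192230) (nat_lit 50) (nat_lit 5) (nat_lit 53) (nat_lit 5) (nat_lit 54) (nat_lit 5) (nat_lit 375) (nat_lit 299) (nat_lit 271)) (XT.lf (nat_lit 0) (nat_lit 9906874180) (nat_lit 336) (nat_lit 736911170) (nat_lit 84) (nat_lit 1310560835) (nat_lit 50) (nat_lit 5) (nat_lit 54) (nat_lit 5) (nat_lit 51) (nat_lit 4) (nat_lit 376) (nat_lit 299) (nat_lit 270))) (XT.nd (nat_lit 94) (nat_lit 0) (nat_lit 0) (XT.lf (nat_lit 0) (nat_lit 995383928)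 (nat_lit 336) (nat_lit 6691962009) (nat_lit 84) (nat_lit 4499190225) (nat_lit 46) (nat_lit 5) (nat_lit 50) (nat_lit 5) (nat_lit 47) (nat_lit 5) (nat_lit 377) (nat_lit 299) (nat_lit 269)) (XT.lf (nat_lit 0) (nat_lit 4041297881) (nat_lit 336) (nat_lit 601996725) (nat_lit 84) (nat_lit 7783260118) (nat_lit 46) (nat_lit 5) (nat_lit 50) (nat_lit 5) (nat_lit 47) (nat_lit 5) (nat_lit 378) (nat_lit 299) (nat_lit 268))))) (XT.nd (nat_lit 282) (nat_lit 420) (nat_lit 0) (XT.nd (nat_lit 94) (nat_lit 252) (nat_lit 0) (XT.lf (nat_lit 0) (nat_lit 5700058868) (nat_lit 252) (nat_lit 1480322316) (nat_lit 336) (nat_lit 5493395973) (nat_lit 43) (nat_lit 5) (nat_lit 46) (nat_lit 5) (nat_lit 47) (nat_lit 5) (nat_lit 379) (nat_lit 299) (nat_lit 267)) (XT.nd (nat_lit 94) (nat_lit 252) (nat_lit 0) (XT.lf (nat_lit 0) (nat_lit 10384350345) (nat_lit 336) (nat_lit 824245048) (nat_lit 84) (nat_lit 1720754876) (nat_lit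 43) (nat_lit 5) (nat_lit 47) (nat_lit 5) (nat_lit 44) (nat_lit 4) (nat_lit 380) (nat_lit 299) (nat_lit 266)) (XT.lf (nat_lit 0) (nat_lit 499126004) (nat_lit 252) (nat_lit 7674189766) (nat_lit 84) (nat_lit 5018678923) (nat_lit 40) (nat_lit 5) (nat_lit 43) (nat_lit 5) (nat_lit 41) (nat_lit 5) (nat_lit 381) (nat_lit 299) (nat_lit 265)))) (XT.nd (nat_lit 188) (nat_lit 168) (nat_lit 0) (XT.nd (nat_lit 94) (nat_lit 252) (nat_lit 0) (XT.lf (nat_lit 0) (nat_lit 3541021112) (nat_lit 252) (nat_lit 1500795533) (nat_lit 84) (nat_lit 8421268651) (nat_lit 40) (nat_lit 5) (nat_lit 43) (nat_lit 5) (nat_lit 41) (nat_lit 5) (nat_lit 382) (nat_lit 299) (nat_lit 264)) (XT.lf (nat_lit 0) (nat_lit 4875008162) (nat_lit 252) (nat_lit 1796698035) (nat_lit 336) (nat_lit 7070725655) (nat_lit 37) (nat_lit 5) (nat_lit 40) (nat_lit 5) (nat_lit 41) (nat_lit 5) (nat_lit 383) (nat_lit 299) (nat_lit 263))) (XT.nd (nat_lit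 94) (nat_lit 168) (nat_lit 0) (XT.lf (nat_lit 0) (nat_lit 9877568345) (nat_lit 336) (nat_lit 2650252328) (nat_lit 84) (nat_lit 1502948233) (nat_lit 37) (nat_lit 5) (nat_lit 41) (nat_lit 5) (nat_lit 38) (nat_lit 4) (nat_lit 384) (nat_lit 299) (nat_lit 262)) (XT.lf (nat_lit 0) (nat_lit 3732370272) (nat_lit 168) (nat_lit 9453419933) (nat_lit 252) (nat_lit 1141826755) (nat_lit 35) (nat_lit 5) (nat_lit 37) (nat_lit 5) (nat_lit 38) (nat_lit 4) (nat_lit 385) (nat_lit 299) (nat_lit 261))))))) (XT.nd (nat_lit 1316) (nat_lit 672) (nat_lit 0) (XT.nd (nat_lit 658) (nat_lit 420) (nat_lit 0) (XT.nd (nat_lit 282) (nat_lit 420) (nat_lit 0) (XT.nd (nat_lit 94) (nat_lit 168) (nat_lit 0) (XT.lf (nat_lit 0) (nat_lit 1901338850) (nat_lit 252) (nat_lit 4367219478) (nat_lit 84) (nat_lit 8364899826) (nat_lit 34) (nat_lit 5) (nat_lit 37) (nat_lit 5) (nat_lit 35) (nat_lit 5) (nat_lit 386) (nat_lit 299) (nat_lit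 260)) (XT.nd (nat_lit 94) (nat_lit 0) (nat_lit 0) (XT.lf (nat_lit 0) (nat_lit 2001272651) (nat_lit 168) (nat_lit 2984860992) (nat_lit 252) (nat_lit 9962845737) (nat_lit 32) (nat_lit 5) (nat_lit 34) (nat_lit 5) (nat_lit 35) (nat_lit 5) (nat_lit 387) (nat_lit 299) (nat_lit 259)) (XT.lf (nat_lit 0) (nat_lit 8166238217) (nat_lit 252) (nat_lit 6701083151) (nat_lit 84) (nat_lit 406603126) (nat_lit 32) (nat_lit 5) (nat_lit 35) (nat_lit 5) (nat_lit 33) (nat_lit 4) (nat_lit 388) (nat_lit 299) (nat_lit 258)))) (XT.nd (nat_lit 188) (nat_lit 252) (nat_lit 0) (XT.nd (nat_lit 94) (nat_lit 168) (nat_lit 0) (XT.lf (nat_lit 0) (nat_lit 11427036288) (nat_lit 252) (nat_lit 368970253) (nat_lit 84) (nat_lit 3813092737) (nat_lit 32) (nat_lit 5) (nat_lit 35) (nat_lit 5) (nat_lit 33) (nat_lit 4) (nat_lit 389) (nat_lit 299) (nat_lit 257)) (XT.lf (nat_lit 0) (nat_lit 6203917971) (nat_lit 168) (nat_lit 8598402673)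 (nat_lit 252) (nat_lit 1151547655) (nat_lit 30) (nat_lit 5) (nat_lit 32) (nat_lit 5) (nat_lit 33) (nat_lit 4) (nat_lit 390) (nat_lit 299) (nat_lit 256))) (XT.nd (nat_lit 94) (nat_lit 168) (nat_lit 0) (XT.lf (nat_lit 0) (nat_lit 1892359177) (nat_lit 252) (nat_lit 3416734359) (nat_lit 84) (nat_lit 11000527946) (nat_lit 29) (nat_lit 5) (nat_lit 32) (nat_lit 5) (nat_lit 30) (nat_lit 5) (nat_lit 391) (nat_lit 299) (nat_lit 255)) (XT.lf (nat_lit 0) (nat_lit 3086915895) (nat_lit 168) (nat_lit 1905596439) (nat_lit 252) (nat_lit 11683586227) (nat_lit 27) (nat_lit 5) (nat_lit 29) (nat_lit 5) (nat_lit 30) (nat_lit 5) (nat_lit 392) (nat_lit 299) (nat_lit 254))))) (XT.nd (nat_lit 282) (nat_lit 252) (nat_lit 0) (XT.nd (nat_lit 94) (nat_lit 168) (nat_lit 0) (XT.lf (nat_lit 0) (nat_lit 8194599056) (nat_lit 252) (nat_lit 7281277516) (nat_lit 84) (nat_lit 1577460039) (nat_lit 27) (nat_lit 5) (nat_lit 30)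 (nat_lit 5) (nat_lit 28) (nat_lit 4) (nat_lit 393) (nat_lit 299) (nat_lit 253)) (XT.nd (nat_lit 94) (nat_lit 168) (nat_lit 0) (XT.lf (nat_lit 0) (nat_lit 11471523256) (nat_lit 252) (nat_lit 869736636) (nat_lit 84) (nat_lit 5101302187) (nat_lit 27) (nat_lit 5) (nat_lit 30) (nat_lit 5) (nat_lit 28) (nat_lit 4) (nat_lit 394) (nat_lit 299) (nat_lit 252)) (XT.lf (nat_lit 0) (nat_lit 5782191431) (nat_lit 168) (nat_lit 9081221039) (nat_lit 252) (nat_lit 2979584671) (nat_lit 25) (nat_lit 5) (nat_lit 27) (nat_lit 5) (nat_lit 28) (nat_lit 4) (nat_lit 395) (nat_lit 299) (nat_lit 251)))) (XT.nd (nat_lit 188) (nat_lit 0) (nat_lit 0) (XT.nd (nat_lit 94) (nat_lit 168) (nat_lit 0) (XT.lf (nat_lit 0) (nat_lit 69680959) (nat_lit 252) (nat_lit 5669697880) (nat_lit 84) (nat_lit 12516966269) (nat_lit 24) (nat_lit 5) (nat_lit 27) (nat_lit 5) (nat_lit 25) (nat_lit 5) (nat_lit 396) (nat_lit 299) (nat_lit 250))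 (XT.lf (nat_lit 0) (nat_lit 836906938) (nat_lit 168) (nat_lit 2283987525) (nat_lit 252) (nat_lit 15561233112) (nat_lit 22) (nat_lit 5) (nat_lit 24) (nat_lit 5) (nat_lit 25) (nat_lit 5) (nat_lit 397) (nat_lit 299) (nat_lit 249))) (XT.nd (nat_lit 94) (nat_lit 0) (nat_lit 0) (XT.lf (nat_lit 0) (nat_lit 6296287159) (nat_lit 252) (nat_lit 11540206384) (nat_lit 84) (nat_lit 1283239608) (nat_lit 22) (nat_lit 5) (nat_lit 25) (nat_lit 5) (nat_lit 23) (nat_lit 4) (nat_lit 398) (nat_lit 299) (nat_lit 248)) (XT.lf (nat_lit 0) (nat_lit 9553212056) (nat_lit 252) (nat_lit 5130160324) (nat_lit 84) (nat_lit 4887534476) (nat_lit 22) (nat_lit 5) (nat_lit 25) (nat_lit 5) (nat_lit 23) (nat_lit 4) (nat_lit 399) (nat_lit 299) (nat_lit 247)))))) (XT.nd (nat_lit 658) (nat_lit 336) (nat_lit 0) (XT.nd (nat_lit 282) (nat_lit 252) (nat_lit 0) (XT.nd (nat_lit 94) (nat_lit 0) (nat_lit 0) (XT.lf (nat_lit 0) (nat_lit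 1440584631) (nat_lit 84) (nat_lit 11445823075) (nat_lit 168) (nat_lit 7149878434) (nat_lit 21) (nat_lit 5) (nat_lit 22) (nat_lit 5) (nat_lit 23) (nat_lit 4) (nat_lit 400) (nat_lit 299) (nat_lit 246)) (XT.nd (nat_lit 94) (nat_lit 0) (nat_lit 0) (XT.lf (nat_lit 0) (nat_lit 8254487140) (nat_lit 84) (nat_lit 8082091210) (nat_lit 168) (nat_lit 4178565542) (nat_lit 21) (nat_lit 5) (nat_lit 22) (nat_lit 5) (nat_lit 23) (nat_lit 4) (nat_lit 401) (nat_lit 299) (nat_lit 245)) (XT.lf (nat_lit 0) (nat_lit 15215400846) (nat_lit 84) (nat_lit 4641042162) (nat_lit 168) (nat_lit 1152964394) (nat_lit 21) (nat_lit 5) (nat_lit 22) (nat_lit 5) (nat_lit 23) (nat_lit 4) (nat_lit 402) (nat_lit 299) (nat_lit 244)))) (XT.nd (nat_lit 188) (nat_lit 0) (nat_lit 0) (XT.nd (nat_lit 94) (nat_lit 0) (nat_lit 0) (XT.lf (nat_lit 0) (nat_lit 807100798) (nat_lit 168) (nat_lit 1092573452) (nat_lit 252) (nat_lit 19619045106)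 (nat_lit 18) (nat_lit 5) (nat_lit 20) (nat_lit 5) (nat_lit 21) (nat_lit 5) (nat_lit 403) (nat_lit 299) (nat_lit 243)) (XT.lf (nat_lit 0) (nat_lit 5071468133) (nat_lit 252) (nat_lit 14409817141) (nat_lit 84) (nat_lit 2560183955) (nat_lit 18) (nat_lit 5) (nat_lit 21) (nat_lit 5) (nat_lit 19) (nat_lit 4) (nat_lit 404) (nat_lit 299) (nat_lit 242))) (XT.nd (nat_lit 94) (nat_lit 0) (nat_lit 0) (XT.lf (nat_lit 0) (nat_lit 8317224904) (nat_lit 252) (nat_lit 7984778171) (nat_lit 84) (nat_lit 6278557080) (nat_lit 18) (nat_lit 5) (nat_lit 21) (nat_lit 5) (nat_lit 19) (nat_lit 4) (nat_lit 405) (nat_lit 299) (nat_lit 241)) (XT.lf (nat_lit 0) (nat_lit 11629278177) (nat_lit 252) (nat_lit 1420385051) (nat_lit 84) (nat_lit 10087115030) (nat_lit 18) (nat_lit 5) (nat_lit 21) (nat_lit 5) (nat_lit 19) (nat_lit 4) (nat_lit 406) (nat_lit 299) (nat_lit 240))))) (XT.nd (nat_lit 282) (nat_lit 252) (nat_lit 0) (XT.nd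 (nat_lit 94) (nat_lit 0) (nat_lit 0) (XT.lf (nat_lit 0) (nat_lit 5394361518) (nat_lit 84) (nat_lit 9668014364) (nat_lit 168) (nat_lit 8646678054) (nat_lit 17) (nat_lit 5) (nat_lit 18) (nat_lit 5) (nat_lit 19) (nat_lit 4) (nat_lit 407) (nat_lit 299) (nat_lit 239)) (XT.nd (nat_lit 94) (nat_lit 0) (nat_lit 0) (XT.lf (nat_lit 0) (nat_lit 12391333472) (nat_lit 84) (nat_lit 6191690400) (nat_lit 168) (nat_lit 5715958181) (nat_lit 17) (nat_lit 5) (nat_lit 18) (nat_lit 5) (nat_lit 19) (nat_lit 4) (nat_lit 408) (nat_lit 299) (nat_lit 238)) (XT.lf (nat_lit 0) (nat_lit 19548376221) (nat_lit 84) (nat_lit 2631996878) (nat_lit 168) (nat_lit 2727122744) (nat_lit 17) (nat_lit 5) (nat_lit 18) (nat_lit 5) (nat_lit 19) (nat_lit 4) (nat_lit 409) (nat_lit 299) (nat_lit 237)))) (XT.nd (nat_lit 188) (nat_lit 0) (nat_lit 0) (XT.nd (nat_lit 94) (nat_lit 0) (nat_lit 0) (XT.lf (nat_lit 0) (nat_lit 339130611) (nat_lit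 252) (nat_lit 24184494247) (nat_lit 84) (nat_lit 1010719692) (nat_lit 14) (nat_lit 5) (nat_lit 17) (nat_lit 5) (nat_lit 15) (nat_lit 4) (nat_lit 410) (nat_lit 299) (nat_lit 236)) (XT.lf (nat_lit 0) (nat_lit 3495061113) (nat_lit 252) (nat_lit 17911178156) (nat_lit 84) (nat_lit 4771392912) (nat_lit 14) (nat_lit 5) (nat_lit 17) (nat_lit 5) (nat_lit 15) (nat_lit 4) (nat_lit 411) (nat_lit 299) (nat_lit 235))) (XT.nd (nat_lit 94) (nat_lit 0) (nat_lit 0) (XT.lf (nat_lit 0) (nat_lit 6718281404) (nat_lit 252) (nat_lit 11497383517) (nat_lit 84) (nat_lit 8625393185) (nat_lit 14) (nat_lit 5) (nat_lit 17) (nat_lit 5) (nat_lit 15) (nat_lit 4) (nat_lit 412) (nat_lit 299) (nat_lit 234)) (XT.lf (nat_lit 0) (nat_lit 10011607889) (nat_lit 252) (nat_lit 4937506044) (nat_lit 84) (nat_lit 12576088082) (nat_lit 14) (nat_lit 5) (nat_lit 17) (nat_lit 5) (nat_lit 15) (nat_lit 4) (nat_lit 413) (nat_lit 299) (nat_lit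 233))))))))
noncomputable def xc52 : XT := (XT.nd (nat_lit 2538) (nat_lit 252) (nat_lit 0) (XT.nd (nat_lit 1222) (nat_lit 252) (nat_lit 0) (XT.nd (nat_lit 564) (nat_lit 168) (nat_lit 0) (XT.nd (nat_lit 282) (nat_lit 84) (nat_lit 0) (XT.nd (nat_lit 94) (nat_lit 0) (nat_lit 0) (XT.lf (nat_lit 0) (nat_lit 1809495977) (nat_lit 84) (nat_lit 11585816238) (nat_lit 168) (nat_lit 14834827673) (nat_lit 13) (nat_lit 5) (nat_lit 14) (nat_lit 5) (nat_lit 15) (nat_lit 4) (nat_lit 414) (nat_lit 299) (nat_lit 232)) (XT.nd (nat_lit 94) (nat_lit 0) (nat_lit 0) (XT.lf (nat_lit 0) (nat_lit 8815581531) (nat_lit 84) (nat_lit 8089313103) (nat_lit 168) (nat_lit 12050616744) (nat_lit 13) (nat_lit 5) (nat_lit 14) (nat_lit 5) (nat_lit 15) (nat_lit 4) (nat_lit 415) (nat_lit 299) (nat_lit 231)) (XT.lf (nat_lit 0) (nat_lit 15988606387) (nat_lit 84) (nat_lit 4506408463) (nat_lit 168) (nat_lit 9208387665) (nat_lit 13)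 (nat_lit 5) (nat_lit 14) (nat_lit 5) (nat_lit 15) (nat_lit 4) (nat_lit 416) (nat_lit 299) (nat_lit 230)))) (XT.nd (nat_lit 94) (nat_lit 84) (nat_lit 0) (XT.lf (nat_lit 0) (nat_lit 23334838236) (nat_lit 84) (nat_lit 833971624) (nat_lit 168) (nat_lit 6305656934) (nat_lit 13) (nat_lit 5) (nat_lit 14) (nat_lit 5) (nat_lit 15) (nat_lit 4) (nat_lit 417) (nat_lit 299) (nat_lit 229)) (XT.nd (nat_lit 94) (nat_lit 84) (nat_lit 0) (XT.lf (nat_lit 0) (nat_lit 27957666326) (nat_lit 168) (nat_lit 436858395) (nat_lit 0) (nat_lit 2874007945) (nat_lit 13) (nat_lit 5) (nat_lit 15) (nat_lit 4) (nat_lit 13) (nat_lit 4) (nat_lit 418) (nat_lit 299) (nat_lit 228)) (XT.lf (nat_lit 0) (nat_lit 6546375939) (nat_lit 84) (nat_lit 25362185314) (nat_lit 84) (nat_lit 176422729) (nat_lit 12) (nat_lit 4) (nat_lit 13) (nat_lit 5) (nat_lit 13) (nat_lit 4) (nat_lit 419) (nat_lit 299) (nat_lit 227))))) (XT.nd (nat_lit 282)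 (nat_lit 84) (nat_lit 0) (XT.nd (nat_lit 94) (nat_lit 0) (nat_lit 0) (XT.lf (nat_lit 0) (nat_lit 2974186248) (nat_lit 168) (nat_lit 19247294796) (nat_lit 84) (nat_lit 10704130800) (nat_lit 11) (nat_lit 5) (nat_lit 13) (nat_lit 5) (nat_lit 12) (nat_lit 4) (nat_lit 420) (nat_lit 299) (nat_lit 226)) (XT.nd (nat_lit 94) (nat_lit 0) (nat_lit 0) (XT.lf (nat_lit 0) (nat_lit 6193664212) (nat_lit 168) (nat_lit 12807997536) (nat_lit 84) (nat_lit 14790420902) (nat_lit 11) (nat_lit 5) (nat_lit 13) (nat_lit 5) (nat_lit 12) (nat_lit 4) (nat_lit 421) (nat_lit 299) (nat_lit 225)) (XT.lf (nat_lit 0) (nat_lit 9488266940) (nat_lit 168) (nat_lit 6213393808) (nat_lit 84) (nat_lit 18983543636) (nat_lit 11) (nat_lit 5) (nat_lit 13) (nat_lit 5) (nat_lit 12) (nat_lit 4) (nat_lit 422) (nat_lit 299) (nat_lit 224)))) (XT.nd (nat_lit 188) (nat_lit 0) (nat_lit 0) (XT.nd (nat_lit 94) (nat_lit 0) (nat_lit 0) (XT.lf (nat_lit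 0) (nat_lit 553071069) (nat_lit 84) (nat_lit 12313118600) (nat_lit 168) (nat_lit 22739408282) (nat_lit 10) (nat_lit 5) (nat_lit 11) (nat_lit 5) (nat_lit 12) (nat_lit 4) (nat_lit 423) (nat_lit 299) (nat_lit 223)) (XT.lf (nat_lit 0) (nat_lit 7613489490) (nat_lit 84) (nat_lit 8774125995) (nat_lit 168) (nat_lit 20164735151) (nat_lit 10) (nat_lit 5) (nat_lit 11) (nat_lit 5) (nat_lit 12) (nat_lit 4) (nat_lit 424) (nat_lit 299) (nat_lit 222))) (XT.nd (nat_lit 94) (nat_lit 0) (nat_lit 0) (XT.lf (nat_lit 0) (nat_lit 14850372030) (nat_lit 84) (nat_lit 5144333703) (nat_lit 168) (nat_lit 17533411431) (nat_lit 10) (nat_lit 5) (nat_lit 11) (nat_lit 5) (nat_lit 12) (nat_lit 4) (nat_lit 425) (nat_lit 299) (nat_lit 221)) (XT.lf (nat_lit 0) (nat_lit 22270042179) (nat_lit 84) (nat_lit 1420570062) (nat_lit 168) (nat_lit 14843137907) (nat_lit 10) (nat_lit 5) (nat_lit 11) (nat_lit 5) (nat_lit 12) (nat_lit 4)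 (nat_lit 426) (nat_lit 299) (nat_lit 220)))))) (XT.nd (nat_lit 658) (nat_lit 84) (nat_lit 0) (XT.nd (nat_lit 282) (nat_lit 84) (nat_lit 0) (XT.nd (nat_lit 94) (nat_lit 84) (nat_lit 0) (XT.lf (nat_lit 0) (nat_lit 27501638735) (nat_lit 168) (nat_lit 9714219445) (nat_lit 0) (nat_lit 2353577887) (nat_lit 10) (nat_lit 5) (nat_lit 12) (nat_lit 4) (nat_lit 10) (nat_lit 4) (nat_lit 427) (nat_lit 299) (nat_lit 219)) (XT.nd (nat_lit 94) (nat_lit 84) (nat_lit 0) (XT.lf (nat_lit 0) (nat_lit 31422642853) (nat_lit 168) (nat_lit 3015084322) (nat_lit 0) (nat_lit 6198606887) (nat_lit 10) (nat_lit 5) (nat_lit 12) (nat_lit 4) (nat_lit 10) (nat_lit 4) (nat_lit 428) (nat_lit 299) (nat_lit 218)) (XT.lf (nat_lit 0) (nat_lit 3929892762) (nat_lit 84) (nat_lit 31551279096) (nat_lit 84) (nat_lit 6253480881) (nat_lit 9) (nat_lit 4) (nat_lit 10) (nat_lit 5) (nat_lit 10) (nat_lit 4) (nat_lit 429) (nat_lit 299) (nat_lit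 217)))) (XT.nd (nat_lit 188) (nat_lit 84) (nat_lit 0) (XT.nd (nat_lit 94) (nat_lit 0) (nat_lit 0) (XT.lf (nat_lit 0) (nat_lit 11113518925) (nat_lit 84) (nat_lit 28560720450) (nat_lit 84) (nat_lit 3191308400) (nat_lit 9) (nat_lit 4) (nat_lit 10) (nat_lit 5) (nat_lit 10) (nat_lit 4) (nat_lit 430) (nat_lit 299) (nat_lit 216)) (XT.lf (nat_lit 0) (nat_lit 18482065029) (nat_lit 84) (nat_lit 25493884566) (nat_lit 84) (nat_lit 54944521) (nat_lit 9) (nat_lit 4) (nat_lit 10) (nat_lit 5) (nat_lit 10) (nat_lit 4) (nat_lit 431) (nat_lit 299) (nat_lit 215))) (XT.nd (nat_lit 94) (nat_lit 0) (nat_lit 0) (XT.lf (nat_lit 0) (nat_lit 3096720456) (nat_lit 168) (nat_lit 19220100425) (nat_lit 84) (nat_lit 22913978350) (nat_lit 8) (nat_lit 5) (nat_lit 10) (nat_lit 5) (nat_lit 9) (nat_lit 4) (nat_lit 432) (nat_lit 299) (nat_lit 214)) (XT.lf (nat_lit 0) (nat_lit 6325496905) (nat_lit 168) (nat_lit 12731221038)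 (nat_lit 84) (nat_lit 27410466392) (nat_lit 8) (nat_lit 5) (nat_lit 10) (nat_lit 5) (nat_lit 9) (nat_lit 4) (nat_lit 433) (nat_lit 299) (nat_lit 213))))) (XT.nd (nat_lit 282) (nat_lit 0) (nat_lit 0) (XT.nd (nat_lit 94) (nat_lit 84) (nat_lit 0) (XT.lf (nat_lit 0) (nat_lit 9635278250) (nat_lit 168) (nat_lit 6075992871) (nat_lit 84) (nat_lit 32029874486) (nat_lit 8) (nat_lit 5) (nat_lit 10) (nat_lit 5) (nat_lit 9) (nat_lit 4) (nat_lit 434) (nat_lit 299) (nat_lit 212)) (XT.nd (nat_lit 94) (nat_lit 0) (nat_lit 0) (XT.lf (nat_lit 0) (nat_lit 766353641) (nat_lit 84) (nat_lit 12269969553) (nat_lit 168) (nat_lit 36017252026) (nat_lit 7) (nat_lit 5) (nat_lit 8) (nat_lit 5) (nat_lit 9) (nat_lit 4) (nat_lit 435) (nat_lit 299) (nat_lit 211)) (XT.lf (nat_lit 0) (nat_lit 7911299167) (nat_lit 84) (nat_lit 8674246187) (nat_lit 168) (nat_lit 33818456348) (nat_lit 7) (nat_lit 5) (nat_lit 8) (nat_lit 5) (nat_lit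 9) (nat_lit 4) (nat_lit 436) (nat_lit 299) (nat_lit 210)))) (XT.nd (nat_lit 188) (nat_lit 0) (nat_lit 0) (XT.nd (nat_lit 94) (nat_lit 0) (nat_lit 0) (XT.lf (nat_lit 0) (nat_lit 15244162689) (nat_lit 84) (nat_lit 4982314745) (nat_lit 168) (nat_lit 31568914658) (nat_lit 7) (nat_lit 5) (nat_lit 8) (nat_lit 5) (nat_lit 9) (nat_lit 4) (nat_lit 437) (nat_lit 299) (nat_lit 209)) (XT.lf (nat_lit 0) (nat_lit 22771351564) (nat_lit 84) (nat_lit 1190949268) (nat_lit 168) (nat_lit 29266661338) (nat_lit 7) (nat_lit 5) (nat_lit 8) (nat_lit 5) (nat_lit 9) (nat_lit 4) (nat_lit 438) (nat_lit 299) (nat_lit 208))) (XT.nd (nat_lit 94) (nat_lit 0) (nat_lit 0) (XT.lf (nat_lit 0) (nat_lit 27822264317) (nat_lit 168) (nat_lit 24232506079) (nat_lit 0) (nat_lit 2650414639) (nat_lit 7) (nat_lit 5) (nat_lit 9) (nat_lit 4) (nat_lit 7) (nat_lit 4) (nat_lit 439) (nat_lit 299) (nat_lit 207)) (XT.lf (nat_lit 0) (nat_lit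 31796202016) (nat_lit 168) (nat_lit 17856937756) (nat_lit 0) (nat_lit 6572616980) (nat_lit 7) (nat_lit 5) (nat_lit 9) (nat_lit 4) (nat_lit 7) (nat_lit 4) (nat_lit 440) (nat_lit 299) (nat_lit 206))))))) (XT.nd (nat_lit 1316) (nat_lit 0) (nat_lit 0) (XT.nd (nat_lit 658) (nat_lit 168) (nat_lit 0) (XT.nd (nat_lit 282) (nat_lit 0) (nat_lit 0) (XT.nd (nat_lit 94) (nat_lit 84) (nat_lit 0) (XT.lf (nat_lit 0) (nat_lit 35876138170) (nat_lit 168) (nat_lit 11313886618) (nat_lit 0) (nat_lit 10602324631) (nat_lit 7) (nat_lit 5) (nat_lit 9) (nat_lit 4) (nat_lit 7) (nat_lit 4) (nat_lit 441) (nat_lit 299) (nat_lit 205)) (XT.nd (nat_lit 94) (nat_lit 84) (nat_lit 0) (XT.lf (nat_lit 0) (nat_lit 40065637770) (nat_lit 168) (nat_lit 4597635436) (nat_lit 0) (nat_lit 14743058695) (nat_lit 7) (nat_lit 5) (nat_lit 9) (nat_lit 4) (nat_lit 7) (nat_lit 4) (nat_lit 442) (nat_lit 299) (nat_lit 204)) (XT.lf (nat_lit 0)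 (nat_lit 2343412781) (nat_lit 84) (nat_lit 42047475082) (nat_lit 84) (nat_lit 16677550825) (nat_lit 6) (nat_lit 4) (nat_lit 7) (nat_lit 5) (nat_lit 7) (nat_lit 4) (nat_lit 443) (nat_lit 299) (nat_lit 203)))) (XT.nd (nat_lit 188) (nat_lit 0) (nat_lit 0) (XT.nd (nat_lit 94) (nat_lit 0) (nat_lit 0) (XT.lf (nat_lit 0) (nat_lit 9564740335) (nat_lit 84) (nat_lit 39315270958) (nat_lit 84) (nat_lit 13899380506) (nat_lit 6) (nat_lit 4) (nat_lit 7) (nat_lit 5) (nat_lit 7) (nat_lit 4) (nat_lit 444) (nat_lit 299) (nat_lit 202)) (XT.lf (nat_lit 0) (nat_lit 16981155163) (nat_lit 84) (nat_lit 36510700576) (nat_lit 84) (nat_lit 11050182750) (nat_lit 6) (nat_lit 4) (nat_lit 7) (nat_lit 5) (nat_lit 7) (nat_lit 4) (nat_lit 445) (nat_lit 299) (nat_lit 201))) (XT.nd (nat_lit 94) (nat_lit 0) (nat_lit 0) (XT.lf (nat_lit 0) (nat_lit 24599137627) (nat_lit 84) (nat_lit 33631313340) (nat_lit 84) (nat_lit 8127467966)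 (nat_lit 6) (nat_lit 4) (nat_lit 7) (nat_lit 5) (nat_lit 7) (nat_lit 4) (nat_lit 446) (nat_lit 299) (nat_lit 200)) (XT.lf (nat_lit 0) (nat_lit 32425344217) (nat_lit 84) (nat_lit 30674593281) (nat_lit 84) (nat_lit 5128682326) (nat_lit 6) (nat_lit 4) (nat_lit 7) (nat_lit 5) (nat_lit 7) (nat_lit 4) (nat_lit 447) (nat_lit 299) (nat_lit 199))))) (XT.nd (nat_lit 282) (nat_lit 84) (nat_lit 0) (XT.nd (nat_lit 94) (nat_lit 84) (nat_lit 0) (XT.lf (nat_lit 0) (nat_lit 40466613366) (nat_lit 84) (nat_lit 27637956857) (nat_lit 84) (nat_lit 2051205532) (nat_lit 6) (nat_lit 4) (nat_lit 7) (nat_lit 5) (nat_lit 7) (nat_lit 4) (nat_lit 448) (nat_lit 299) (nat_lit 198)) (XT.nd (nat_lit 94) (nat_lit 0) (nat_lit 0) (XT.lf (nat_lit 0) (nat_lit 1086037202) (nat_lit 168) (nat_lit 23421746646) (nat_lit 84) (nat_lit 47632967376) (nat_lit 5) (nat_lit 5) (nat_lit 7) (nat_lit 5) (nat_lit 6) (nat_lit 4) (nat_lit 449)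 (nat_lit 299) (nat_lit 197)) (XT.lf (nat_lit 0) (nat_lit 4265752025) (nat_lit 168) (nat_lit 17005421520) (nat_lit 84) (nat_lit 52913811047) (nat_lit 5) (nat_lit 5) (nat_lit 7) (nat_lit 5) (nat_lit 6) (nat_lit 4) (nat_lit 450) (nat_lit 299) (nat_lit 196)))) (XT.nd (nat_lit 188) (nat_lit 84) (nat_lit 0) (XT.nd (nat_lit 94) (nat_lit 0) (nat_lit 0) (XT.lf (nat_lit 0) (nat_lit 7530743736) (nat_lit 168) (nat_lit 10414863070) (nat_lit 84) (nat_lit 58345246799) (nat_lit 5) (nat_lit 5) (nat_lit 7) (nat_lit 5) (nat_lit 6) (nat_lit 4) (nat_lit 451) (nat_lit 299) (nat_lit 195)) (XT.lf (nat_lit 0) (nat_lit 10883865240) (nat_lit 168) (nat_lit 3644312557) (nat_lit 84) (nat_lit 63932020547) (nat_lit 5) (nat_lit 5) (nat_lit 7) (nat_lit 5) (nat_lit 6) (nat_lit 4) (nat_lit 452) (nat_lit 299) (nat_lit 194))) (XT.nd (nat_lit 94) (nat_lit 0) (nat_lit 0) (XT.lf (nat_lit 0) (nat_lit 3378064235) (nat_lit 84) (nat_lit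 10982454233) (nat_lit 168) (nat_lit 66333421721) (nat_lit 4) (nat_lit 5) (nat_lit 5) (nat_lit 5) (nat_lit 6) (nat_lit 4) (nat_lit 453) (nat_lit 299) (nat_lit 193)) (XT.lf (nat_lit 0) (nat_lit 10668777439) (nat_lit 84) (nat_lit 7300074216) (nat_lit 168) (nat_lit 65025025989) (nat_lit 4) (nat_lit 5) (nat_lit 5) (nat_lit 5) (nat_lit 6) (nat_lit 4) (nat_lit 454) (nat_lit 299) (nat_lit 192)))))) (XT.nd (nat_lit 49538) (nat_lit 0) (nat_lit 7896) (XT.nd (nat_lit 49162) (nat_lit 0) (nat_lit 9996) (XT.nd (nat_lit 48974) (nat_lit 0) (nat_lit 11844) (XT.lf (nat_lit 0) (nat_lit 18161668617) (nat_lit 84) (nat_lit 3514620544) (nat_lit 168) (nat_lit 63686803060) (nat_lit 4) (nat_lit 5) (nat_lit 5) (nat_lit 5) (nat_lit 6) (nat_lit 4) (nat_lit 455) (nat_lit 299) (nat_lit 191)) (XT.nd (nat_lit 94) (nat_lit 0) (nat_lit 0) (XT.lf (nat_lit 0) (nat_lit 331926992) (nat_lit 588) (nat_lit 1714555020) (nat_lit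 588) (nat_lit 1714555020) (nat_lit 145) (nat_lit 4) (nat_lit 152) (nat_lit 5) (nat_lit 152) (nat_lit 4) (nat_lit 345) (nat_lit 300) (nat_lit 300)) (XT.lf (nat_lit 0) (nat_lit 5687844762) (nat_lit 588) (nat_lit 1664685987) (nat_lit 588) (nat_lit 247076452) (nat_lit 145) (nat_lit 4) (nat_lit 152) (nat_lit 5) (nat_lit 152) (nat_lit 4) (nat_lit 346) (nat_lit 300) (nat_lit 299)))) (XT.nd (nat_lit 188) (nat_lit 588) (nat_lit 0) (XT.nd (nat_lit 94) (nat_lit 588) (nat_lit 0) (XT.lf (nat_lit 0) (nat_lit 2913309743) (nat_lit 672) (nat_lit 4566456792) (nat_lit 0) (nat_lit 200756859) (nat_lit 137) (nat_lit 5) (nat_lit 145) (nat_lit 4) (nat_lit 137) (nat_lit 4) (nat_lit 347) (nat_lit 300) (nat_lit 298)) (XT.lf (nat_lit 0) (nat_lit 455903510) (nat_lit 588) (nat_lit 5659690595) (nat_lit 588) (nat_lit 1649824169) (nat_lit 130) (nat_lit 4) (nat_lit 137) (nat_lit 5) (nat_lit 137) (nat_lit 4) (nat_lit 348)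 (nat_lit 300) (nat_lit 297))) (XT.nd (nat_lit 94) (nat_lit 504) (nat_lit 0) (XT.lf (nat_lit 0) (nat_lit 1489465752) (nat_lit 672) (nat_lit 2245778660) (nat_lit 84) (nat_lit 4118575651) (nat_lit 129) (nat_lit 5) (nat_lit 137) (nat_lit 5) (nat_lit 130) (nat_lit 4) (nat_lit 349) (nat_lit 300) (nat_lit 296)) (XT.lf (nat_lit 0) (nat_lit 2911927850) (nat_lit 504) (nat_lit 1720665462) (nat_lit 588) (nat_lit 3313676352) (nat_lit 123) (nat_lit 5) (nat_lit 129) (nat_lit 5) (nat_lit 130) (nat_lit 4) (nat_lit 350) (nat_lit 300) (nat_lit 295))))) (XT.nd (nat_lit 282) (nat_lit 1092) (nat_lit 0) (XT.nd (nat_lit 94) (nat_lit 504) (nat_lit 0) (XT.lf (nat_lit 0) (nat_lit 128460082) (nat_lit 504) (nat_lit 7685336602) (nat_lit 504) (nat_lit 229548017) (nat_lit 117) (nat_lit 4) (nat_lit 123) (nat_lit 5) (nat_lit 123) (nat_lit 4) (nat_lit 351) (nat_lit 300) (nat_lit 294)) (XT.nd (nat_lit 94) (nat_lit 420) (nat_lit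 0) (XT.lf (nat_lit 0) (nat_lit 2874726295) (nat_lit 588) (nat_lit 2739168260) (nat_lit 84) (nat_lit 2529189543) (nat_lit 116) (nat_lit 5) (nat_lit 123) (nat_lit 5) (nat_lit 117) (nat_lit 4) (nat_lit 352) (nat_lit 300) (nat_lit 293)) (XT.lf (nat_lit 0) (nat_lit 2541235008) (nat_lit 420) (nat_lit 3469886822) (nat_lit 504) (nat_lit 2236468836) (nat_lit 111) (nat_lit 5) (nat_lit 116) (nat_lit 5) (nat_lit 117) (nat_lit 4) (nat_lit 353) (nat_lit 300) (nat_lit 292)))) (XT.nd (nat_lit 188) (nat_lit 504) (nat_lit 0) (XT.nd (nat_lit 94) (nat_lit 504) (nat_lit 0) (XT.lf (nat_lit 0) (nat_lit 816685202) (nat_lit 504) (nat_lit 425678305) (nat_lit 84) (nat_lit 7114327850) (nat_lit 110) (nat_lit 5) (nat_lit 116) (nat_lit 5) (nat_lit 111) (nat_lit 5) (nat_lit 354) (nat_lit 300) (nat_lit 291)) (XT.lf (nat_lit 0) (nat_lit 3897123725) (nat_lit 588) (nat_lit 3487176921) (nat_lit 84) (nat_lit 1084819430) (nat_lit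 104) (nat_lit 5) (nat_lit 111) (nat_lit 5) (nat_lit 105) (nat_lit 4) (nat_lit 355) (nat_lit 300) (nat_lit 290))) (XT.nd (nat_lit 94) (nat_lit 84) (nat_lit 0) (XT.lf (nat_lit 0) (nat_lit 1903398922) (nat_lit 420) (nat_lit 5124709510) (nat_lit 504) (nat_lit 1558203725) (nat_lit 99) (nat_lit 5) (nat_lit 104) (nat_lit 5) (nat_lit 105) (nat_lit 4) (nat_lit 356) (nat_lit 300) (nat_lit 289)) (XT.lf (nat_lit 0) (nat_lit 1475028668) (nat_lit 504) (nat_lit 1291818647) (nat_lit 84) (nat_lit 5941077802) (nat_lit 98) (nat_lit 5) (nat_lit 104) (nat_lit 5) (nat_lit 99) (nat_lit 5) (nat_lit 357) (nat_lit 300) (nat_lit 288))))))))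
noncomputable def xc53 : XT := (XT.nd (nat_lit 2538) (nat_lit 1932) (nat_lit 0) (XT.nd (nat_lit 1222) (nat_lit 2016) (nat_lit 0) (XT.nd (nat_lit 564) (nat_lit 1428) (nat_lit 0) (XT.nd (nat_lit 282) (nat_lit 840) (nat_lit 0) (XT.nd (nat_lit 94) (nat_lit 420) (nat_lit 0) (XT.lf (nat_lit 0) (nat_lit 4233214403) (nat_lit 420) (nat_lit 301273612) (nat_lit 504) (nat_lit 4299362246) (nat_lit 93) (nat_lit 5) (nat_lit 98) (nat_lit 5) (nat_lit 99) (nat_lit 5) (nat_lit 358) (nat_lit 300) (nat_lit 287)) (XT.nd (nat_lit 94) (nat_lit 84) (nat_lit 0) (XT.lf (nat_lit 0) (nat_lit 886834641) (nat_lit 336) (nat_lit 6769019197) (nat_lit 420) (nat_lit 1308715133) (nat_lit 89) (nat_lit 5) (nat_lit 93) (nat_lit 5) (nat_lit 94) (nat_lit 4) (nat_lit 359) (nat_lit 300) (nat_lit 286)) (XT.lf (nat_lit 0) (nat_lit 1714277029) (nat_lit 420) (nat_lit 2581811402) (nat_lit 84) (nat_lit 4803406634) (nat_lit 88) (nat_lit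 5) (nat_lit 93) (nat_lit 5) (nat_lit 89) (nat_lit 5) (nat_lit 360) (nat_lit 300) (nat_lit 285)))) (XT.nd (nat_lit 94) (nat_lit 420) (nat_lit 0) (XT.lf (nat_lit 0) (nat_lit 3031239731) (nat_lit 420) (nat_lit 1728967703) (nat_lit 504) (nat_lit 4479225562) (nat_lit 83) (nat_lit 5) (nat_lit 88) (nat_lit 5) (nat_lit 89) (nat_lit 5) (nat_lit 361) (nat_lit 300) (nat_lit 284)) (XT.nd (nat_lit 94) (nat_lit 420) (nat_lit 0) (XT.lf (nat_lit 0) (nat_lit 7862991372) (nat_lit 504) (nat_lit 621218569) (nat_lit 84) (nat_lit 900501025) (nat_lit 83) (nat_lit 5) (nat_lit 89) (nat_lit 5) (nat_lit 84) (nat_lit 4) (nat_lit 362) (nat_lit 300) (nat_lit 283)) (XT.lf (nat_lit 0) (nat_lit 1493400882) (nat_lit 420) (nat_lit 4425110931) (nat_lit 84) (nat_lit 3615536758) (nat_lit 78) (nat_lit 5) (nat_lit 83) (nat_lit 5) (nat_lit 79) (nat_lit 5) (nat_lit 363) (nat_lit 300) (nat_lit 282))))) (XT.nd (nat_lit 282) (nat_lit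 672) (nat_lit 0) (XT.nd (nat_lit 94) (nat_lit 420) (nat_lit 0) (XT.lf (nat_lit 0) (nat_lit 1252620203) (nat_lit 336) (nat_lit 3266858631) (nat_lit 420) (nat_lit 5169499967) (nat_lit 74) (nat_lit 5) (nat_lit 78) (nat_lit 5) (nat_lit 79) (nat_lit 5) (nat_lit 364) (nat_lit 300) (nat_lit 281)) (XT.nd (nat_lit 94) (nat_lit 420) (nat_lit 0) (XT.lf (nat_lit 0) (nat_lit 7099553930) (nat_lit 336) (nat_lit 515259908) (nat_lit 420) (nat_lit 2234483188) (nat_lit 74) (nat_lit 5) (nat_lit 78) (nat_lit 5) (nat_lit 79) (nat_lit 5) (nat_lit 365) (nat_lit 300) (nat_lit 280)) (XT.lf (nat_lit 0) (nat_lit 760103537) (nat_lit 420) (nat_lit 6968528857) (nat_lit 84) (nat_lit 2286046681) (nat_lit 69) (nat_lit 5) (nat_lit 74) (nat_lit 5) (nat_lit 70) (nat_lit 5) (nat_lit 366) (nat_lit 300) (nat_lit 279)))) (XT.nd (nat_lit 188) (nat_lit 336) (nat_lit 0) (XT.nd (nat_lit 94) (nat_lit 336) (nat_lit 0) (XT.lf (nat_lit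 0) (nat_lit 3768537146) (nat_lit 420) (nat_lit 1230820853) (nat_lit 84) (nat_lit 5186019598) (nat_lit 69) (nat_lit 5) (nat_lit 74) (nat_lit 5) (nat_lit 70) (nat_lit 5) (nat_lit 367) (nat_lit 300) (nat_lit 278)) (XT.lf (nat_lit 0) (nat_lit 4681617743) (nat_lit 336) (nat_lit 2168255839) (nat_lit 420) (nat_lit 3511927808) (nat_lit 65) (nat_lit 5) (nat_lit 69) (nat_lit 5) (nat_lit 70) (nat_lit 5) (nat_lit 368) (nat_lit 300) (nat_lit 277))) (XT.nd (nat_lit 94) (nat_lit 84) (nat_lit 0) (XT.lf (nat_lit 0) (nat_lit 159767805) (nat_lit 252) (nat_lit 9823521900) (nat_lit 336) (nat_lit 561520375) (nat_lit 62) (nat_lit 5) (nat_lit 65) (nat_lit 5) (nat_lit 66) (nat_lit 4) (nat_lit 369) (nat_lit 300) (nat_lit 276)) (XT.lf (nat_lit 0) (nat_lit 2447079003) (nat_lit 336) (nat_lit 4576056231) (nat_lit 84) (nat_lit 3708995385) (nat_lit 61) (nat_lit 5) (nat_lit 65) (nat_lit 5) (nat_lit 62) (nat_lit 5) (nat_lit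 370) (nat_lit 300) (nat_lit 275)))))) (XT.nd (nat_lit 658) (nat_lit 756) (nat_lit 0) (XT.nd (nat_lit 282) (nat_lit 588) (nat_lit 0) (XT.nd (nat_lit 94) (nat_lit 336) (nat_lit 0) (XT.lf (nat_lit 0) (nat_lit 1340443368) (nat_lit 336) (nat_lit 4147507881) (nat_lit 420) (nat_lit 5438428174) (nat_lit 57) (nat_lit 5) (nat_lit 61) (nat_lit 5) (nat_lit 62) (nat_lit 5) (nat_lit 371) (nat_lit 300) (nat_lit 274)) (XT.nd (nat_lit 94) (nat_lit 336) (nat_lit 0) (XT.lf (nat_lit 0) (nat_lit 7441745732) (nat_lit 336) (nat_lit 1165832859) (nat_lit 420) (nat_lit 2519323529) (nat_lit 57) (nat_lit 5) (nat_lit 61) (nat_lit 5) (nat_lit 62) (nat_lit 5) (nat_lit 372) (nat_lit 300) (nat_lit 273)) (XT.lf (nat_lit 0) (nat_lit 461135919) (nat_lit 336) (nat_lit 9004139079) (nat_lit 84) (nat_lit 1868594353) (nat_lit 53) (nat_lit 5) (nat_lit 57) (nat_lit 5) (nat_lit 54) (nat_lit 5) (nat_lit 373) (nat_lit 300) (nat_lit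 272)))) (XT.nd (nat_lit 188) (nat_lit 336) (nat_lit 0) (XT.nd (nat_lit 94) (nat_lit 252) (nat_lit 0) (XT.lf (nat_lit 0) (nat_lit 3472494813) (nat_lit 336) (nat_lit 3068038429) (nat_lit 84) (nat_lit 5006066555) (nat_lit 53) (nat_lit 5) (nat_lit 57) (nat_lit 5) (nat_lit 54) (nat_lit 5) (nat_lit 374) (nat_lit 300) (nat_lit 271)) (XT.lf (nat_lit 0) (nat_lit 3021751562) (nat_lit 252) (nat_lit 3526147480) (nat_lit 336) (nat_lit 5218666211) (nat_lit 50) (nat_lit 5) (nat_lit 53) (nat_lit 5) (nat_lit 54) (nat_lit 5) (nat_lit 375) (nat_lit 300) (nat_lit 270))) (XT.nd (nat_lit 94) (nat_lit 336) (nat_lit 0) (XT.lf (nat_lit 0) (nat_lit 9274585344) (nat_lit 252) (nat_lit 417437343) (nat_lit 336) (nat_lit 2301875632) (nat_lit 50) (nat_lit 5) (nat_lit 53) (nat_lit 5) (nat_lit 54) (nat_lit 5) (nat_lit 376) (nat_lit 300) (nat_lit 269)) (XT.lf (nat_lit 0) (nat_lit 695412341) (nat_lit 336) (nat_lit 8788825485)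 (nat_lit 84) (nat_lit 2743468758) (nat_lit 46) (nat_lit 5) (nat_lit 50) (nat_lit 5) (nat_lit 47) (nat_lit 5) (nat_lit 377) (nat_lit 300) (nat_lit 268))))) (XT.nd (nat_lit 282) (nat_lit 504) (nat_lit 0) (XT.nd (nat_lit 94) (nat_lit 252) (nat_lit 0) (XT.lf (nat_lit 0) (nat_lit 3715217662) (nat_lit 336) (nat_lit 2739174156) (nat_lit 84) (nat_lit 6014144700) (nat_lit 46) (nat_lit 5) (nat_lit 50) (nat_lit 5) (nat_lit 47) (nat_lit 5) (nat_lit 378) (nat_lit 300) (nat_lit 267)) (XT.nd (nat_lit 94) (nat_lit 0) (nat_lit 0) (XT.lf (nat_lit 0) (nat_lit 3480428696) (nat_lit 252) (nat_lit 3327187642) (nat_lit 336) (nat_lit 5909570448) (nat_lit 43) (nat_lit 5) (nat_lit 46) (nat_lit 5) (nat_lit 47) (nat_lit 5) (nat_lit 379) (nat_lit 300) (nat_lit 266)) (XT.lf (nat_lit 0) (nat_lit 9864095262) (nat_lit 252) (nat_lit 105637656) (nat_lit 336) (nat_lit 3004309058) (nat_lit 43) (nat_lit 5) (nat_lit 46) (nat_lit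 5) (nat_lit 47) (nat_lit 5) (nat_lit 380) (nat_lit 300) (nat_lit 265)))) (XT.nd (nat_lit 188) (nat_lit 252) (nat_lit 0) (XT.nd (nat_lit 94) (nat_lit 0) (nat_lit 0) (XT.lf (nat_lit 0) (nat_lit 104769) (nat_lit 252) (nat_lit 10084629305) (nat_lit 84) (nat_lit 3153570006) (nat_lit 40) (nat_lit 5) (nat_lit 43) (nat_lit 5) (nat_lit 41) (nat_lit 5) (nat_lit 381) (nat_lit 300) (nat_lit 264)) (XT.lf (nat_lit 0) (nat_lit 3017700155) (nat_lit 252) (nat_lit 3949619964) (nat_lit 84) (nat_lit 6542827806) (nat_lit 40) (nat_lit 5) (nat_lit 43) (nat_lit 5) (nat_lit 41) (nat_lit 5) (nat_lit 382) (nat_lit 300) (nat_lit 263))) (XT.nd (nat_lit 94) (nat_lit 0) (nat_lit 0) (XT.lf (nat_lit 0) (nat_lit 2339438753) (nat_lit 252) (nat_lit 3760981080) (nat_lit 336) (nat_lit 7690537156) (nat_lit 37) (nat_lit 5) (nat_lit 40) (nat_lit 5) (nat_lit 41) (nat_lit 5) (nat_lit 383) (nat_lit 300) (nat_lit 262)) (XT.lf (nat_lit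 0) (nat_lit 8823222475) (nat_lit 252) (nat_lit 445065180) (nat_lit 336) (nat_lit 4812169076) (nat_lit 37) (nat_lit 5) (nat_lit 40) (nat_lit 5) (nat_lit 41) (nat_lit 5) (nat_lit 384) (nat_lit 300) (nat_lit 261))))))) (XT.nd (nat_lit 1316) (nat_lit 672) (nat_lit 0) (XT.nd (nat_lit 658) (nat_lit 588) (nat_lit 0) (XT.nd (nat_lit 282) (nat_lit 420) (nat_lit 0) (XT.nd (nat_lit 94) (nat_lit 84) (nat_lit 0) (XT.lf (nat_lit 0) (nat_lit 1040744200) (nat_lit 168) (nat_lit 11482904127) (nat_lit 252) (nat_lit 1855264486) (nat_lit 35) (nat_lit 5) (nat_lit 37) (nat_lit 5) (nat_lit 38) (nat_lit 4) (nat_lit 385) (nat_lit 300) (nat_lit 260)) (XT.nd (nat_lit 94) (nat_lit 0) (nat_lit 0) (XT.lf (nat_lit 0) (nat_lit 1179185592) (nat_lit 252) (nat_lit 7139797058) (nat_lit 84) (nat_lit 6366677135) (nat_lit 34) (nat_lit 5) (nat_lit 37) (nat_lit 5) (nat_lit 35) (nat_lit 5) (nat_lit 386) (nat_lit 300) (nat_lit 259))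 (XT.lf (nat_lit 0) (nat_lit 4222765000) (nat_lit 252) (nat_lit 845807116) (nat_lit 84) (nat_lit 9933865667) (nat_lit 34) (nat_lit 5) (nat_lit 37) (nat_lit 5) (nat_lit 35) (nat_lit 5) (nat_lit 387) (nat_lit 300) (nat_lit 258)))) (XT.nd (nat_lit 188) (nat_lit 252) (nat_lit 0) (XT.nd (nat_lit 94) (nat_lit 0) (nat_lit 0) (XT.lf (nat_lit 0) (nat_lit 5677931651) (nat_lit 168) (nat_lit 1690984168) (nat_lit 252) (nat_lit 7959505408) (nat_lit 32) (nat_lit 5) (nat_lit 34) (nat_lit 5) (nat_lit 35) (nat_lit 5) (nat_lit 388) (nat_lit 300) (nat_lit 257)) (XT.lf (nat_lit 0) (nat_lit 10592289898) (nat_lit 252) (nat_lit 3336727247) (nat_lit 84) (nat_lit 1735720730) (nat_lit 32) (nat_lit 5) (nat_lit 35) (nat_lit 5) (nat_lit 33) (nat_lit 4) (nat_lit 389) (nat_lit 300) (nat_lit 256))) (XT.nd (nat_lit 94) (nat_lit 84) (nat_lit 0) (XT.lf (nat_lit 0) (nat_lit 3142830719) (nat_lit 168) (nat_lit 10774765852) (nat_lit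 252) (nat_lit 2093428241) (nat_lit 30) (nat_lit 5) (nat_lit 32) (nat_lit 5) (nat_lit 33) (nat_lit 4) (nat_lit 390) (nat_lit 300) (nat_lit 255)) (XT.lf (nat_lit 0) (nat_lit 948365839) (nat_lit 252) (nat_lit 6559617581) (nat_lit 84) (nat_lit 8859698482) (nat_lit 29) (nat_lit 5) (nat_lit 32) (nat_lit 5) (nat_lit 30) (nat_lit 5) (nat_lit 391) (nat_lit 300) (nat_lit 254))))) (XT.nd (nat_lit 282) (nat_lit 420) (nat_lit 0) (XT.nd (nat_lit 94) (nat_lit 168) (nat_lit 0) (XT.lf (nat_lit 0) (nat_lit 3998950298) (nat_lit 252) (nat_lit 148916201) (nat_lit 84) (nat_lit 12587796551) (nat_lit 29) (nat_lit 5) (nat_lit 32) (nat_lit 5) (nat_lit 30) (nat_lit 5) (nat_lit 392) (nat_lit 300) (nat_lit 253)) (XT.nd (nat_lit 94) (nat_lit 0) (nat_lit 0) (XT.lf (nat_lit 0) (nat_lit 6516801206) (nat_lit 168) (nat_lit 647683294) (nat_lit 252) (nat_lit 9949529689) (nat_lit 27) (nat_lit 5) (nat_lit 29) (nat_lit 5) (nat_lit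 30) (nat_lit 5) (nat_lit 393) (nat_lit 300) (nat_lit 252)) (XT.lf (nat_lit 0) (nat_lit 10416008057) (nat_lit 252) (nat_lit 4211362639) (nat_lit 84) (nat_lit 2876647014) (nat_lit 27) (nat_lit 5) (nat_lit 30) (nat_lit 5) (nat_lit 28) (nat_lit 4) (nat_lit 394) (nat_lit 300) (nat_lit 251)))) (XT.nd (nat_lit 188) (nat_lit 252) (nat_lit 0) (XT.nd (nat_lit 94) (nat_lit 0) (nat_lit 0) (XT.lf (nat_lit 0) (nat_lit 2342456961) (nat_lit 168) (nat_lit 11413759247) (nat_lit 252) (nat_lit 4149802560) (nat_lit 25) (nat_lit 5) (nat_lit 27) (nat_lit 5) (nat_lit 28) (nat_lit 4) (nat_lit 395) (nat_lit 300) (nat_lit 250)) (XT.lf (nat_lit 0) (nat_lit 9116933335) (nat_lit 168) (nat_lit 8084934799) (nat_lit 252) (nat_lit 1118085277) (nat_lit 25) (nat_lit 5) (nat_lit 27) (nat_lit 5) (nat_lit 28) (nat_lit 4) (nat_lit 396) (nat_lit 300) (nat_lit 249))) (XT.nd (nat_lit 94) (nat_lit 168) (nat_lit 0) (XT.lf (nat_lit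 0) (nat_lit 1928876341) (nat_lit 252) (nat_lit 2732160967) (nat_lit 84) (nat_lit 14085817341) (nat_lit 24) (nat_lit 5) (nat_lit 27) (nat_lit 5) (nat_lit 25) (nat_lit 5) (nat_lit 397) (nat_lit 300) (nat_lit 248)) (XT.lf (nat_lit 0) (nat_lit 3939175056) (nat_lit 168) (nat_lit 1107940313) (nat_lit 252) (nat_lit 14139073296) (nat_lit 22) (nat_lit 5) (nat_lit 24) (nat_lit 5) (nat_lit 25) (nat_lit 5) (nat_lit 398) (nat_lit 300) (nat_lit 247)))))) (XT.nd (nat_lit 658) (nat_lit 336) (nat_lit 0) (XT.nd (nat_lit 282) (nat_lit 252) (nat_lit 0) (XT.nd (nat_lit 94) (nat_lit 84) (nat_lit 0) (XT.lf (nat_lit 0) (nat_lit 8276008404) (nat_lit 252) (nat_lit 8855732857) (nat_lit 84) (nat_lit 2506475492) (nat_lit 22) (nat_lit 5) (nat_lit 25) (nat_lit 5) (nat_lit 23) (nat_lit 4) (nat_lit 399) (nat_lit 300) (nat_lit 246)) (XT.nd (nat_lit 94) (nat_lit 84) (nat_lit 0) (XT.lf (nat_lit 0) (nat_lit 11578480874) (nat_lit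 252) (nat_lit 2341657640) (nat_lit 84) (nat_lit 6184392254) (nat_lit 22) (nat_lit 5) (nat_lit 25) (nat_lit 5) (nat_lit 23) (nat_lit 4) (nat_lit 400) (nat_lit 300) (nat_lit 245)) (XT.lf (nat_lit 0) (nat_lit 4397362532) (nat_lit 84) (nat_lit 10591675841) (nat_lit 168) (nat_lit 5595551198) (nat_lit 21) (nat_lit 5) (nat_lit 22) (nat_lit 5) (nat_lit 23) (nat_lit 4) (nat_lit 401) (nat_lit 300) (nat_lit 244)))) (XT.nd (nat_lit 188) (nat_lit 168) (nat_lit 0) (XT.nd (nat_lit 94) (nat_lit 84) (nat_lit 0) (XT.lf (nat_lit 0) (nat_lit 11330821134) (nat_lit 84) (nat_lit 7161911300) (nat_lit 168) (nat_lit 2586618053) (nat_lit 21) (nat_lit 5) (nat_lit 22) (nat_lit 5) (nat_lit 23) (nat_lit 4) (nat_lit 402) (nat_lit 300) (nat_lit 243)) (XT.lf (nat_lit 0) (nat_lit 470371242) (nat_lit 168) (nat_lit 3176373089) (nat_lit 84) (nat_lit 17943051880) (nat_lit 20) (nat_lit 5) (nat_lit 22) (nat_lit 5) (nat_lit 21)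 (nat_lit 5) (nat_lit 403) (nat_lit 300) (nat_lit 242))) (XT.nd (nat_lit 94) (nat_lit 0) (nat_lit 0) (XT.lf (nat_lit 0) (nat_lit 3570395906) (nat_lit 252) (nat_lit 18530750654) (nat_lit 84) (nat_lit 13563846) (nat_lit 18) (nat_lit 5) (nat_lit 21) (nat_lit 5) (nat_lit 19) (nat_lit 4) (nat_lit 404) (nat_lit 300) (nat_lit 241)) (XT.lf (nat_lit 0) (nat_lit 6800844203) (nat_lit 252) (nat_lit 12132015635) (nat_lit 84) (nat_lit 3721411666) (nat_lit 18) (nat_lit 5) (nat_lit 21) (nat_lit 5) (nat_lit 19) (nat_lit 4) (nat_lit 405) (nat_lit 300) (nat_lit 240))))) (XT.nd (nat_lit 282) (nat_lit 252) (nat_lit 0) (XT.nd (nat_lit 94) (nat_lit 84) (nat_lit 0) (XT.lf (nat_lit 0) (nat_lit 10098034880) (nat_lit 252) (nat_lit 5593160331) (nat_lit 84) (nat_lit 7519750873) (nat_lit 18) (nat_lit 5) (nat_lit 21) (nat_lit 5) (nat_lit 19) (nat_lit 4) (nat_lit 406) (nat_lit 300) (nat_lit 239)) (XT.nd (nat_lit 94) (nat_lit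 0) (nat_lit 0) (XT.lf (nat_lit 0) (nat_lit 1113252383) (nat_lit 84) (nat_lit 12362297857) (nat_lit 168) (nat_lit 10309349283) (nat_lit 17) (nat_lit 5) (nat_lit 18) (nat_lit 5) (nat_lit 19) (nat_lit 4) (nat_lit 407) (nat_lit 300) (nat_lit 238)) (XT.lf (nat_lit 0) (nat_lit 8085673419) (nat_lit 84) (nat_lit 8896279391) (nat_lit 168) (nat_lit 7393312184) (nat_lit 17) (nat_lit 5) (nat_lit 18) (nat_lit 5) (nat_lit 19) (nat_lit 4) (nat_lit 408) (nat_lit 300) (nat_lit 237)))) (XT.nd (nat_lit 188) (nat_lit 252) (nat_lit 0) (XT.nd (nat_lit 94) (nat_lit 0) (nat_lit 0) (XT.lf (nat_lit 0) (nat_lit 15218880326) (nat_lit 84) (nat_lit 5346591206) (nat_lit 168) (nat_lit 4418731867) (nat_lit 17) (nat_lit 5) (nat_lit 18) (nat_lit 5) (nat_lit 19) (nat_lit 4) (nat_lit 409) (nat_lit 300) (nat_lit 236)) (XT.lf (nat_lit 0) (nat_lit 22519106003) (nat_lit 84) (nat_lit 1710131633) (nat_lit 168) (nat_lit 1383009184)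 (nat_lit 17) (nat_lit 5) (nat_lit 18) (nat_lit 5) (nat_lit 19) (nat_lit 4) (nat_lit 410) (nat_lit 300) (nat_lit 235))) (XT.nd (nat_lit 94) (nat_lit 0) (nat_lit 0) (XT.lf (nat_lit 0) (nat_lit 1739353132) (nat_lit 252) (nat_lit 22488015303) (nat_lit 84) (nat_lit 2030390394) (nat_lit 14) (nat_lit 5) (nat_lit 17) (nat_lit 5) (nat_lit 15) (nat_lit 4) (nat_lit 411) (nat_lit 300) (nat_lit 234)) (XT.lf (nat_lit 0) (nat_lit 4949474697) (nat_lit 252) (nat_lit 16097043819) (nat_lit 84) (nat_lit 5875067817) (nat_lit 14) (nat_lit 5) (nat_lit 17) (nat_lit 5) (nat_lit 15) (nat_lit 4) (nat_lit 412) (nat_lit 300) (nat_lit 233))))))))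
noncomputable def xc54 : XT := (XT.nd (nat_lit 2538) (nat_lit 252) (nat_lit 0) (XT.nd (nat_lit 1222) (nat_lit 252) (nat_lit 0) (XT.nd (nat_lit 564) (nat_lit 252) (nat_lit 0) (XT.nd (nat_lit 282) (nat_lit 0) (nat_lit 0) (XT.nd (nat_lit 94) (nat_lit 84) (nat_lit 0) (XT.lf (nat_lit 0) (nat_lit 8230083973) (nat_lit 252) (nat_lit 9559324750) (nat_lit 84) (nat_lit 9816711405) (nat_lit 14) (nat_lit 5) (nat_lit 17) (nat_lit 5) (nat_lit 15) (nat_lit 4) (nat_lit 413) (nat_lit 300) (nat_lit 232)) (XT.nd (nat_lit 94) (nat_lit 84) (nat_lit 0) (XT.lf (nat_lit 0) (nat_lit 11584047511) (nat_lit 252) (nat_lit 2869145524) (nat_lit 84) (nat_lit 13858765312) (nat_lit 14) (nat_lit 5) (nat_lit 17) (nat_lit 5) (nat_lit 15) (nat_lit 4) (nat_lit 414) (nat_lit 300) (nat_lit 231)) (XT.lf (nat_lit 0) (nat_lit 4058536306) (nat_lit 84) (nat_lit 10994772787) (nat_lit 168) (nat_lit 13985238256) (nat_lit 13) (nat_lit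 5) (nat_lit 14) (nat_lit 5) (nat_lit 15) (nat_lit 4) (nat_lit 415) (nat_lit 300) (nat_lit 230)))) (XT.nd (nat_lit 94) (nat_lit 0) (nat_lit 0) (XT.lf (nat_lit 0) (nat_lit 11210879511) (nat_lit 84) (nat_lit 7420712945) (nat_lit 168) (nat_lit 11155208793) (nat_lit 13) (nat_lit 5) (nat_lit 14) (nat_lit 5) (nat_lit 15) (nat_lit 4) (nat_lit 416) (nat_lit 300) (nat_lit 229)) (XT.nd (nat_lit 94) (nat_lit 0) (nat_lit 0) (XT.lf (nat_lit 0) (nat_lit 18537032087) (nat_lit 84) (nat_lit 3756863288) (nat_lit 168) (nat_lit 8264322350) (nat_lit 13) (nat_lit 5) (nat_lit 14) (nat_lit 5) (nat_lit 15) (nat_lit 4) (nat_lit 417) (nat_lit 300) (nat_lit 228)) (XT.lf (nat_lit 0) (nat_lit 26043395527) (nat_lit 84) (nat_lit 22396) (nat_lit 168) (nat_lit 5310052910) (nat_lit 13) (nat_lit 5) (nat_lit 14) (nat_lit 5) (nat_lit 15) (nat_lit 4) (nat_lit 418) (nat_lit 300) (nat_lit 227))))) (XT.nd (nat_lit 282) (nat_lit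 84) (nat_lit 0) (XT.nd (nat_lit 94) (nat_lit 84) (nat_lit 0) (XT.lf (nat_lit 0) (nat_lit 1556610127) (nat_lit 84) (nat_lit 28378827623) (nat_lit 84) (nat_lit 2236257660) (nat_lit 12) (nat_lit 4) (nat_lit 13) (nat_lit 5) (nat_lit 13) (nat_lit 4) (nat_lit 419) (nat_lit 300) (nat_lit 226)) (XT.nd (nat_lit 94) (nat_lit 0) (nat_lit 0) (XT.lf (nat_lit 0) (nat_lit 943657761) (nat_lit 168) (nat_lit 24323187713) (nat_lit 84) (nat_lit 7746405065) (nat_lit 11) (nat_lit 5) (nat_lit 13) (nat_lit 5) (nat_lit 12) (nat_lit 4) (nat_lit 420) (nat_lit 300) (nat_lit 225)) (XT.lf (nat_lit 0) (nat_lit 4152564506) (nat_lit 168) (nat_lit 17902546832) (nat_lit 84) (nat_lit 11824933556) (nat_lit 11) (nat_lit 5) (nat_lit 13) (nat_lit 5) (nat_lit 12) (nat_lit 4) (nat_lit 421) (nat_lit 300) (nat_lit 224)))) (XT.nd (nat_lit 188) (nat_lit 84) (nat_lit 0) (XT.nd (nat_lit 94) (nat_lit 0) (nat_lit 0) (XT.lf (nat_lit 0)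 (nat_lit 7436903915) (nat_lit 168) (nat_lit 11326056095) (nat_lit 84) (nat_lit 16010520744) (nat_lit 11) (nat_lit 5) (nat_lit 13) (nat_lit 5) (nat_lit 12) (nat_lit 4) (nat_lit 422) (nat_lit 300) (nat_lit 223)) (XT.lf (nat_lit 0) (nat_lit 10799545800) (nat_lit 168) (nat_lit 4587969052) (nat_lit 84) (nat_lit 20306823940) (nat_lit 11) (nat_lit 5) (nat_lit 13) (nat_lit 5) (nat_lit 12) (nat_lit 4) (nat_lit 423) (nat_lit 300) (nat_lit 222))) (XT.nd (nat_lit 94) (nat_lit 0) (nat_lit 0) (XT.lf (nat_lit 0) (nat_lit 2363726766) (nat_lit 84) (nat_lit 11902423212) (nat_lit 168) (nat_lit 22376592016) (nat_lit 10) (nat_lit 5) (nat_lit 11) (nat_lit 5) (nat_lit 12) (nat_lit 4) (nat_lit 424) (nat_lit 300) (nat_lit 221)) (XT.lf (nat_lit 0) (nat_lit 9583703460) (nat_lit 84) (nat_lit 8279981866) (nat_lit 168) (nat_lit 19755115541) (nat_lit 10) (nat_lit 5) (nat_lit 11) (nat_lit 5) (nat_lit 12) (nat_lit 4)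 (nat_lit 425) (nat_lit 300) (nat_lit 220)))))) (XT.nd (nat_lit 658) (nat_lit 84) (nat_lit 0) (XT.nd (nat_lit 282) (nat_lit 168) (nat_lit 0) (XT.nd (nat_lit 94) (nat_lit 0) (nat_lit 0) (XT.lf (nat_lit 0) (nat_lit 16986960167) (nat_lit 84) (nat_lit 4563355065) (nat_lit 168) (nat_lit 17074402449) (nat_lit 10) (nat_lit 5) (nat_lit 11) (nat_lit 5) (nat_lit 12) (nat_lit 4) (nat_lit 426) (nat_lit 300) (nat_lit 219)) (XT.nd (nat_lit 94) (nat_lit 0) (nat_lit 0) (XT.lf (nat_lit 0) (nat_lit 24579965752) (nat_lit 84) (nat_lit 749295271) (nat_lit 168) (nat_lit 14332110369) (nat_lit 10) (nat_lit 5) (nat_lit 11) (nat_lit 5) (nat_lit 12) (nat_lit 4) (nat_lit 427) (nat_lit 300) (nat_lit 218)) (XT.lf (nat_lit 0) (nat_lit 29234253704) (nat_lit 168) (nat_lit 8390741949) (nat_lit 0) (nat_lit 3103759292) (nat_lit 10) (nat_lit 5) (nat_lit 12) (nat_lit 4) (nat_lit 10) (nat_lit 4) (nat_lit 428) (nat_lit 300) (nat_lit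 217)))) (XT.nd (nat_lit 188) (nat_lit 84) (nat_lit 0) (XT.nd (nat_lit 94) (nat_lit 84) (nat_lit 0) (XT.lf (nat_lit 0) (nat_lit 33246453989) (nat_lit 168) (nat_lit 1537668814) (nat_lit 0) (nat_lit 7044345743) (nat_lit 10) (nat_lit 5) (nat_lit 12) (nat_lit 4) (nat_lit 10) (nat_lit 4) (nat_lit 429) (nat_lit 300) (nat_lit 216)) (XT.lf (nat_lit 0) (nat_lit 5600286328) (nat_lit 84) (nat_lit 31815712051) (nat_lit 84) (nat_lit 5544075810) (nat_lit 9) (nat_lit 4) (nat_lit 10) (nat_lit 5) (nat_lit 10) (nat_lit 4) (nat_lit 430) (nat_lit 300) (nat_lit 215))) (XT.nd (nat_lit 94) (nat_lit 84) (nat_lit 0) (XT.lf (nat_lit 0) (nat_lit 12954202922) (nat_lit 84) (nat_lit 28755303794) (nat_lit 84) (nat_lit 2416164645) (nat_lit 9) (nat_lit 4) (nat_lit 10) (nat_lit 5) (nat_lit 10) (nat_lit 4) (nat_lit 431) (nat_lit 300) (nat_lit 214)) (XT.lf (nat_lit 0) (nat_lit 773529864) (nat_lit 168) (nat_lit 24834410328)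 (nat_lit 84) (nat_lit 19718563098) (nat_lit 8) (nat_lit 5) (nat_lit 10) (nat_lit 5) (nat_lit 9) (nat_lit 4) (nat_lit 432) (nat_lit 300) (nat_lit 213))))) (XT.nd (nat_lit 282) (nat_lit 84) (nat_lit 0) (XT.nd (nat_lit 94) (nat_lit 0) (nat_lit 0) (XT.lf (nat_lit 0) (nat_lit 3994494294) (nat_lit 168) (nat_lit 18359480498) (nat_lit 84) (nat_lit 24209152327) (nat_lit 8) (nat_lit 5) (nat_lit 10) (nat_lit 5) (nat_lit 9) (nat_lit 4) (nat_lit 433) (nat_lit 300) (nat_lit 212)) (XT.nd (nat_lit 94) (nat_lit 0) (nat_lit 0) (XT.lf (nat_lit 0) (nat_lit 7296691156) (nat_lit 168) (nat_lit 11717795592) (nat_lit 84) (nat_lit 28822833419) (nat_lit 8) (nat_lit 5) (nat_lit 10) (nat_lit 5) (nat_lit 9) (nat_lit 4) (nat_lit 434) (nat_lit 300) (nat_lit 211)) (XT.lf (nat_lit 0) (nat_lit 10683005864) (nat_lit 168) (nat_lit 4903552194) (nat_lit 84) (nat_lit 33563637745) (nat_lit 8) (nat_lit 5) (nat_lit 10) (nat_lit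 5) (nat_lit 9) (nat_lit 4) (nat_lit 435) (nat_lit 300) (nat_lit 210)))) (XT.nd (nat_lit 188) (nat_lit 0) (nat_lit 0) (XT.nd (nat_lit 94) (nat_lit 0) (nat_lit 0) (XT.lf (nat_lit 0) (nat_lit 2130783141) (nat_lit 84) (nat_lit 12046096583) (nat_lit 168) (nat_lit 36325407005) (nat_lit 7) (nat_lit 5) (nat_lit 8) (nat_lit 5) (nat_lit 9) (nat_lit 4) (nat_lit 436) (nat_lit 300) (nat_lit 209)) (XT.lf (nat_lit 0) (nat_lit 9451005997) (nat_lit 84) (nat_lit 8359743421) (nat_lit 168) (nat_lit 34083143454) (nat_lit 7) (nat_lit 5) (nat_lit 8) (nat_lit 5) (nat_lit 9) (nat_lit 4) (nat_lit 437) (nat_lit 300) (nat_lit 208))) (XT.nd (nat_lit 94) (nat_lit 0) (nat_lit 0) (XT.lf (nat_lit 0) (nat_lit 16965922380) (nat_lit 84) (nat_lit 4573793749) (nat_lit 168) (nat_lit 31787956287) (nat_lit 7) (nat_lit 5) (nat_lit 8) (nat_lit 5) (nat_lit 9) (nat_lit 4) (nat_lit 438) (nat_lit 300) (nat_lit 207)) (XT.lf (nat_lit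 0) (nat_lit 24682098723) (nat_lit 84) (nat_lit 684939456) (nat_lit 168) (nat_lit 29437840003) (nat_lit 7) (nat_lit 5) (nat_lit 8) (nat_lit 5) (nat_lit 9) (nat_lit 4) (nat_lit 439) (nat_lit 300) (nat_lit 206))))))) (XT.nd (nat_lit 1316) (nat_lit 84) (nat_lit 0) (XT.nd (nat_lit 658) (nat_lit 84) (nat_lit 0) (XT.nd (nat_lit 282) (nat_lit 84) (nat_lit 0) (XT.nd (nat_lit 94) (nat_lit 0) (nat_lit 0) (XT.lf (nat_lit 0) (nat_lit 29327879666) (nat_lit 168) (nat_lit 23752343451) (nat_lit 0) (nat_lit 3245623219) (nat_lit 7) (nat_lit 5) (nat_lit 9) (nat_lit 4) (nat_lit 7) (nat_lit 4) (nat_lit 440) (nat_lit 300) (nat_lit 205)) (XT.nd (nat_lit 94) (nat_lit 0) (nat_lit 0) (XT.lf (nat_lit 0) (nat_lit 33401493339) (nat_lit 168) (nat_lit 17220667432) (nat_lit 0) (nat_lit 7270471354) (nat_lit 7) (nat_lit 5) (nat_lit 9) (nat_lit 4) (nat_lit 7) (nat_lit 4) (nat_lit 441) (nat_lit 300) (nat_lit 204)) (XT.lf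 (nat_lit 0) (nat_lit 37584854608) (nat_lit 168) (nat_lit 10515460055) (nat_lit 0) (nat_lit 11406487442) (nat_lit 7) (nat_lit 5) (nat_lit 9) (nat_lit 4) (nat_lit 7) (nat_lit 4) (nat_lit 442) (nat_lit 300) (nat_lit 203)))) (XT.nd (nat_lit 188) (nat_lit 0) (nat_lit 0) (XT.nd (nat_lit 94) (nat_lit 84) (nat_lit 0) (XT.lf (nat_lit 0) (nat_lit 41881618839) (nat_lit 168) (nat_lit 3630862401) (nat_lit 0) (nat_lit 15657285477) (nat_lit 7) (nat_lit 5) (nat_lit 9) (nat_lit 4) (nat_lit 7) (nat_lit 4) (nat_lit 443) (nat_lit 300) (nat_lit 202)) (XT.lf (nat_lit 0) (nat_lit 3507586850) (nat_lit 84) (nat_lit 42821670705) (nat_lit 84) (nat_lit 16552709969) (nat_lit 6) (nat_lit 4) (nat_lit 7) (nat_lit 5) (nat_lit 7) (nat_lit 4) (nat_lit 444) (nat_lit 300) (nat_lit 201))) (XT.nd (nat_lit 94) (nat_lit 0) (nat_lit 0) (XT.lf (nat_lit 0) (nat_lit 10913693891) (nat_lit 84) (nat_lit 40021691582) (nat_lit 84) (nat_lit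 13709403299) (nat_lit 6) (nat_lit 4) (nat_lit 7) (nat_lit 5) (nat_lit 7) (nat_lit 4) (nat_lit 445) (nat_lit 300) (nat_lit 200)) (XT.lf (nat_lit 0) (nat_lit 18521668795) (nat_lit 84) (nat_lit 37146761880) (nat_lit 84) (nat_lit 10792408016) (nat_lit 6) (nat_lit 4) (nat_lit 7) (nat_lit 5) (nat_lit 7) (nat_lit 4) (nat_lit 446) (nat_lit 300) (nat_lit 199))))) (XT.nd (nat_lit 282) (nat_lit 84) (nat_lit 0) (XT.nd (nat_lit 94) (nat_lit 0) (nat_lit 0) (XT.lf (nat_lit 0) (nat_lit 26338159306) (nat_lit 84) (nat_lit 34194369524) (nat_lit 84) (nat_lit 7799175290) (nat_lit 6) (nat_lit 4) (nat_lit 7) (nat_lit 5) (nat_lit 7) (nat_lit 4) (nat_lit 447) (nat_lit 300) (nat_lit 198)) (XT.nd (nat_lit 94) (nat_lit 0) (nat_lit 0) (XT.lf (nat_lit 0) (nat_lit 34369995369) (nat_lit 84) (nat_lit 31161934752) (nat_lit 84) (nat_lit 4727089675) (nat_lit 6) (nat_lit 4) (nat_lit 7) (nat_lit 5) (nat_lit 7) (nat_lit 4)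 (nat_lit 448) (nat_lit 300) (nat_lit 197)) (XT.lf (nat_lit 0) (nat_lit 42624195093) (nat_lit 84) (nat_lit 28046807866) (nat_lit 84) (nat_lit 1573466824) (nat_lit 6) (nat_lit 4) (nat_lit 7) (nat_lit 5) (nat_lit 7) (nat_lit 4) (nat_lit 449) (nat_lit 300) (nat_lit 196)))) (XT.nd (nat_lit 188) (nat_lit 0) (nat_lit 0) (XT.nd (nat_lit 94) (nat_lit 0) (nat_lit 0) (XT.lf (nat_lit 0) (nat_lit 1631969463) (nat_lit 168) (nat_lit 23197817754) (nat_lit 84) (nat_lit 49459521728) (nat_lit 5) (nat_lit 5) (nat_lit 7) (nat_lit 5) (nat_lit 6) (nat_lit 4) (nat_lit 450) (nat_lit 300) (nat_lit 195)) (XT.lf (nat_lit 0) (nat_lit 4892123756) (nat_lit 168) (nat_lit 16615990678) (nat_lit 84) (nat_lit 54887211137) (nat_lit 5) (nat_lit 5) (nat_lit 7) (nat_lit 5) (nat_lit 6) (nat_lit 4) (nat_lit 451) (nat_lit 300) (nat_lit 194))) (XT.nd (nat_lit 94) (nat_lit 0) (nat_lit 0) (XT.lf (nat_lit 0) (nat_lit 8240548738) (nat_lit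 168) (nat_lit 9853917227) (nat_lit 84) (nat_lit 60470347658) (nat_lit 5) (nat_lit 5) (nat_lit 7) (nat_lit 5) (nat_lit 6) (nat_lit 4) (nat_lit 452) (nat_lit 300) (nat_lit 193)) (XT.lf (nat_lit 0) (nat_lit 11680170216) (nat_lit 168) (nat_lit 2905688792) (nat_lit 84) (nat_lit 66213809760) (nat_lit 5) (nat_lit 5) (nat_lit 7) (nat_lit 5) (nat_lit 6) (nat_lit 4) (nat_lit 453) (nat_lit 300) (nat_lit 192)))))) (XT.nd (nat_lit 49350) (nat_lit 0) (nat_lit 8904) (XT.nd (nat_lit 48974) (nat_lit 0) (nat_lit 11172) (XT.nd (nat_lit 94) (nat_lit 0) (nat_lit 0) (XT.lf (nat_lit 0) (nat_lit 4319046037) (nat_lit 84) (nat_lit 10936464961) (nat_lit 168) (nat_lit 67845087277) (nat_lit 4) (nat_lit 5) (nat_lit 5) (nat_lit 5) (nat_lit 6) (nat_lit 4) (nat_lit 454) (nat_lit 300) (nat_lit 191)) (XT.nd (nat_lit 48786) (nat_lit 0) (nat_lit 13104) (XT.lf (nat_lit 0) (nat_lit 11804025108) (nat_lit 84) (nat_lit 7154549356)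 (nat_lit 168) (nat_lit 66511371821) (nat_lit 4) (nat_lit 5) (nat_lit 5) (nat_lit 5) (nat_lit 6) (nat_lit 4) (nat_lit 455) (nat_lit 300) (nat_lit 190)) (XT.lf (nat_lit 0) (nat_lit 2880828596) (nat_lit 1260) (nat_lit 403889292) (nat_lit 1260) (nat_lit 403889292) (nat_lit 160) (nat_lit 4) (nat_lit 175) (nat_lit 5) (nat_lit 175) (nat_lit 4) (nat_lit 343) (nat_lit 301) (nat_lit 301)))) (XT.nd (nat_lit 188) (nat_lit 672) (nat_lit 0) (XT.nd (nat_lit 94) (nat_lit 588) (nat_lit 0) (XT.lf (nat_lit 0) (nat_lit 2341086152) (nat_lit 672) (nat_lit 4226383838) (nat_lit 0) (nat_lit 880948332) (nat_lit 152) (nat_lit 5) (nat_lit 160) (nat_lit 4) (nat_lit 152) (nat_lit 4) (nat_lit 344) (nat_lit 301) (nat_lit 300)) (XT.lf (nat_lit 0) (nat_lit 614794425) (nat_lit 588) (nat_lit 4893239622) (nat_lit 588) (nat_lit 2015492267) (nat_lit 145) (nat_lit 4) (nat_lit 152) (nat_lit 5) (nat_lit 152) (nat_lit 4) (nat_lit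 345) (nat_lit 301) (nat_lit 299))) (XT.nd (nat_lit 94) (nat_lit 588) (nat_lit 0) (XT.lf (nat_lit 0) (nat_lit 1099494139) (nat_lit 672) (nat_lit 2022094189) (nat_lit 84) (nat_lit 4480557686) (nat_lit 144) (nat_lit 5) (nat_lit 152) (nat_lit 5) (nat_lit 145) (nat_lit 4) (nat_lit 346) (nat_lit 301) (nat_lit 298)) (XT.lf (nat_lit 0) (nat_lit 2953014067) (nat_lit 588) (nat_lit 1255515148) (nat_lit 672) (nat_lit 3475949342) (nat_lit 137) (nat_lit 5) (nat_lit 144) (nat_lit 5) (nat_lit 145) (nat_lit 4) (nat_lit 347) (nat_lit 301) (nat_lit 297))))) (XT.nd (nat_lit 282) (nat_lit 1092) (nat_lit 0) (XT.nd (nat_lit 94) (nat_lit 588) (nat_lit 0) (XT.lf (nat_lit 0) (nat_lit 250925525) (nat_lit 588) (nat_lit 7103614415) (nat_lit 588) (nat_lit 416610743) (nat_lit 130) (nat_lit 4) (nat_lit 137) (nat_lit 5) (nat_lit 137) (nat_lit 4) (nat_lit 348) (nat_lit 301) (nat_lit 296)) (XT.nd (nat_lit 94) (nat_lit 504)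 (nat_lit 0) (XT.lf (nat_lit 0) (nat_lit 2656657866) (nat_lit 672) (nat_lit 2516830640) (nat_lit 84) (nat_lit 2687050965) (nat_lit 129) (nat_lit 5) (nat_lit 137) (nat_lit 5) (nat_lit 130) (nat_lit 4) (nat_lit 349) (nat_lit 301) (nat_lit 295)) (XT.lf (nat_lit 0) (nat_lit 2587469583) (nat_lit 504) (nat_lit 3168462120) (nat_lit 588) (nat_lit 2198454462) (nat_lit 123) (nat_lit 5) (nat_lit 129) (nat_lit 5) (nat_lit 130) (nat_lit 4) (nat_lit 350) (nat_lit 301) (nat_lit 294)))) (XT.nd (nat_lit 188) (nat_lit 504) (nat_lit 0) (XT.nd (nat_lit 94) (nat_lit 504) (nat_lit 0) (XT.lf (nat_lit 0) (nat_lit 823141687) (nat_lit 588) (nat_lit 259086064) (nat_lit 84) (nat_lit 6970412331) (nat_lit 122) (nat_lit 5) (nat_lit 129) (nat_lit 5) (nat_lit 123) (nat_lit 5) (nat_lit 351) (nat_lit 301) (nat_lit 293)) (XT.lf (nat_lit 0) (nat_lit 3870155037) (nat_lit 588) (nat_lit 3181247519) (nat_lit 84) (nat_lit 1102568744)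 (nat_lit 116) (nat_lit 5) (nat_lit 123) (nat_lit 5) (nat_lit 117) (nat_lit 4) (nat_lit 352) (nat_lit 301) (nat_lit 292))) (XT.nd (nat_lit 94) (nat_lit 84) (nat_lit 0) (XT.lf (nat_lit 0) (nat_lit 2042603481) (nat_lit 420) (nat_lit 4920500141) (nat_lit 504) (nat_lit 1296750049) (nat_lit 111) (nat_lit 5) (nat_lit 116) (nat_lit 5) (nat_lit 117) (nat_lit 4) (nat_lit 353) (nat_lit 301) (nat_lit 291)) (XT.lf (nat_lit 0) (nat_lit 1699648168) (nat_lit 504) (nat_lit 992801962) (nat_lit 84) (nat_lit 5677454032) (nat_lit 110) (nat_lit 5) (nat_lit 116) (nat_lit 5) (nat_lit 111) (nat_lit 5) (nat_lit 354) (nat_lit 301) (nat_lit 290))))))))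
noncomputable def xc55 : XT := (XT.nd (nat_lit 2632) (nat_lit 1932) (nat_lit 0) (XT.nd (nat_lit 1316) (nat_lit 2100) (nat_lit 0) (XT.nd (nat_lit 658) (nat_lit 1512) (nat_lit 0) (XT.nd (nat_lit 282) (nat_lit 1260) (nat_lit 0) (XT.nd (nat_lit 94) (nat_lit 504) (nat_lit 0) (XT.lf (nat_lit 0) (nat_lit 4367753907) (nat_lit 504) (nat_lit 358388500) (nat_lit 588) (nat_lit 3757875056) (nat_lit 104) (nat_lit 5) (nat_lit 110) (nat_lit 5) (nat_lit 111) (nat_lit 5) (nat_lit 355) (nat_lit 301) (nat_lit 289)) (XT.nd (nat_lit 94) (nat_lit 84) (nat_lit 0) (XT.lf (nat_lit 0) (nat_lit 1217929299) (nat_lit 420) (nat_lit 6592430478) (nat_lit 504) (nat_lit 792317110) (nat_lit 99) (nat_lit 5) (nat_lit 104) (nat_lit 5) (nat_lit 105) (nat_lit 4) (nat_lit 356) (nat_lit 301) (nat_lit 288)) (XT.lf (nat_lit 0) (nat_lit 2189445982) (nat_lit 504) (nat_lit 2047799345) (nat_lit 84) (nat_lit 4487980006) (nat_lit 98) (nat_lit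 5) (nat_lit 104) (nat_lit 5) (nat_lit 99) (nat_lit 5) (nat_lit 357) (nat_lit 301) (nat_lit 287)))) (XT.nd (nat_lit 188) (nat_lit 504) (nat_lit 0) (XT.nd (nat_lit 94) (nat_lit 336) (nat_lit 0) (XT.lf (nat_lit 0) (nat_lit 3415862701) (nat_lit 420) (nat_lit 1789725458) (nat_lit 504) (nat_lit 3646920698) (nat_lit 93) (nat_lit 5) (nat_lit 98) (nat_lit 5) (nat_lit 99) (nat_lit 5) (nat_lit 358) (nat_lit 301) (nat_lit 286)) (XT.lf (nat_lit 0) (nat_lit 1881716) (nat_lit 336) (nat_lit 8267300602) (nat_lit 420) (nat_lit 715835549) (nat_lit 89) (nat_lit 5) (nat_lit 93) (nat_lit 5) (nat_lit 94) (nat_lit 4) (nat_lit 359) (nat_lit 301) (nat_lit 285))) (XT.nd (nat_lit 94) (nat_lit 420) (nat_lit 0) (XT.lf (nat_lit 0) (nat_lit 2260816079) (nat_lit 420) (nat_lit 3539189345) (nat_lit 84) (nat_lit 3320864570) (nat_lit 88) (nat_lit 5) (nat_lit 93) (nat_lit 5) (nat_lit 89) (nat_lit 5) (nat_lit 360) (nat_lit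 301) (nat_lit 284)) (XT.lf (nat_lit 0) (nat_lit 2008984784) (nat_lit 420) (nat_lit 3254176600) (nat_lit 504) (nat_lit 3999006395) (nat_lit 83) (nat_lit 5) (nat_lit 88) (nat_lit 5) (nat_lit 89) (nat_lit 5) (nat_lit 361) (nat_lit 301) (nat_lit 283))))) (XT.nd (nat_lit 282) (nat_lit 756) (nat_lit 0) (XT.nd (nat_lit 94) (nat_lit 756) (nat_lit 0) (XT.lf (nat_lit 0) (nat_lit 7705842099) (nat_lit 420) (nat_lit 618071828) (nat_lit 504) (nat_lit 1084843540) (nat_lit 83) (nat_lit 5) (nat_lit 88) (nat_lit 5) (nat_lit 89) (nat_lit 5) (nat_lit 362) (nat_lit 301) (nat_lit 282)) (XT.nd (nat_lit 94) (nat_lit 336) (nat_lit 0) (XT.lf (nat_lit 0) (nat_lit 1871954337) (nat_lit 420) (nat_lit 5596542706) (nat_lit 84) (nat_lit 2091013833) (nat_lit 78) (nat_lit 5) (nat_lit 83) (nat_lit 5) (nat_lit 79) (nat_lit 5) (nat_lit 363) (nat_lit 301) (nat_lit 281)) (XT.lf (nat_lit 0) (nat_lit 12633369) (nat_lit 336) (nat_lit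 4841298418) (nat_lit 420) (nat_lit 4861878802) (nat_lit 74) (nat_lit 5) (nat_lit 78) (nat_lit 5) (nat_lit 79) (nat_lit 5) (nat_lit 364) (nat_lit 301) (nat_lit 280)))) (XT.nd (nat_lit 188) (nat_lit 336) (nat_lit 0) (XT.nd (nat_lit 94) (nat_lit 420) (nat_lit 0) (XT.lf (nat_lit 0) (nat_lit 5815643533) (nat_lit 336) (nat_lit 2101957358) (nat_lit 420) (nat_lit 1959523014) (nat_lit 74) (nat_lit 5) (nat_lit 78) (nat_lit 5) (nat_lit 79) (nat_lit 5) (nat_lit 365) (nat_lit 301) (nat_lit 279)) (XT.lf (nat_lit 0) (nat_lit 969821331) (nat_lit 420) (nat_lit 8366882179) (nat_lit 84) (nat_lit 707561983) (nat_lit 69) (nat_lit 5) (nat_lit 74) (nat_lit 5) (nat_lit 70) (nat_lit 5) (nat_lit 366) (nat_lit 301) (nat_lit 278))) (XT.nd (nat_lit 94) (nat_lit 336) (nat_lit 0) (XT.lf (nat_lit 0) (nat_lit 3947539298) (nat_lit 420) (nat_lit 2672896280) (nat_lit 84) (nat_lit 3595491193) (nat_lit 69) (nat_lit 5) (nat_lit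 74) (nat_lit 5) (nat_lit 70) (nat_lit 5) (nat_lit 367) (nat_lit 301) (nat_lit 277)) (XT.lf (nat_lit 0) (nat_lit 3167548731) (nat_lit 336) (nat_lit 3816951833) (nat_lit 420) (nat_lit 3409221339) (nat_lit 65) (nat_lit 5) (nat_lit 69) (nat_lit 5) (nat_lit 70) (nat_lit 5) (nat_lit 368) (nat_lit 301) (nat_lit 276)))))) (XT.nd (nat_lit 658) (nat_lit 840) (nat_lit 0) (XT.nd (nat_lit 282) (nat_lit 924) (nat_lit 0) (XT.nd (nat_lit 94) (nat_lit 336) (nat_lit 0) (XT.lf (nat_lit 0) (nat_lit 9152672908) (nat_lit 336) (nat_lit 927295116) (nat_lit 420) (nat_lit 497939944) (nat_lit 65) (nat_lit 5) (nat_lit 69) (nat_lit 5) (nat_lit 70) (nat_lit 5) (nat_lit 369) (nat_lit 301) (nat_lit 275)) (XT.nd (nat_lit 94) (nat_lit 0) (nat_lit 0) (XT.lf (nat_lit 0) (nat_lit 2457041927) (nat_lit 336) (nat_lit 6257531425) (nat_lit 84) (nat_lit 2052244806) (nat_lit 61) (nat_lit 5) (nat_lit 65) (nat_lit 5) (nat_lit 62)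 (nat_lit 5) (nat_lit 370) (nat_lit 301) (nat_lit 274)) (XT.lf (nat_lit 0) (nat_lit 5456532063) (nat_lit 336) (nat_lit 408966548) (nat_lit 84) (nat_lit 5096845429) (nat_lit 61) (nat_lit 5) (nat_lit 65) (nat_lit 5) (nat_lit 62) (nat_lit 5) (nat_lit 371) (nat_lit 301) (nat_lit 273)))) (XT.nd (nat_lit 188) (nat_lit 252) (nat_lit 0) (XT.nd (nat_lit 94) (nat_lit 336) (nat_lit 0) (XT.lf (nat_lit 0) (nat_lit 5642828320) (nat_lit 336) (nat_lit 2901257010) (nat_lit 420) (nat_lit 2619778206) (nat_lit 57) (nat_lit 5) (nat_lit 61) (nat_lit 5) (nat_lit 62) (nat_lit 5) (nat_lit 372) (nat_lit 301) (nat_lit 272)) (XT.lf (nat_lit 0) (nat_lit 299702386) (nat_lit 336) (nat_lit 10938526498) (nat_lit 84) (nat_lit 134551615) (nat_lit 53) (nat_lit 5) (nat_lit 57) (nat_lit 5) (nat_lit 54) (nat_lit 5) (nat_lit 373) (nat_lit 301) (nat_lit 271))) (XT.nd (nat_lit 94) (nat_lit 252) (nat_lit 0) (XT.lf (nat_lit 0) (nat_lit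 3283799036) (nat_lit 336) (nat_lit 5043489363) (nat_lit 84) (nat_lit 3259072056) (nat_lit 53) (nat_lit 5) (nat_lit 57) (nat_lit 5) (nat_lit 54) (nat_lit 5) (nat_lit 374) (nat_lit 301) (nat_lit 270)) (XT.lf (nat_lit 0) (nat_lit 966324350) (nat_lit 252) (nat_lit 5346652692) (nat_lit 336) (nat_lit 5494766376) (nat_lit 50) (nat_lit 5) (nat_lit 53) (nat_lit 5) (nat_lit 54) (nat_lit 5) (nat_lit 375) (nat_lit 301) (nat_lit 269))))) (XT.nd (nat_lit 282) (nat_lit 504) (nat_lit 0) (XT.nd (nat_lit 94) (nat_lit 336) (nat_lit 0) (XT.lf (nat_lit 0) (nat_lit 7179681500) (nat_lit 252) (nat_lit 2251342434) (nat_lit 336) (nat_lit 2604864678) (nat_lit 50) (nat_lit 5) (nat_lit 53) (nat_lit 5) (nat_lit 54) (nat_lit 5) (nat_lit 376) (nat_lit 301) (nat_lit 268)) (XT.nd (nat_lit 94) (nat_lit 0) (nat_lit 0) (XT.lf (nat_lit 0) (nat_lit 333441086) (nat_lit 336) (nat_lit 11030432194) (nat_lit 84) (nat_lit 907885926)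 (nat_lit 46) (nat_lit 5) (nat_lit 50) (nat_lit 5) (nat_lit 47) (nat_lit 5) (nat_lit 377) (nat_lit 301) (nat_lit 267)) (XT.lf (nat_lit 0) (nat_lit 3327898222) (nat_lit 336) (nat_lit 5019920626) (nat_lit 84) (nat_lit 4165558033) (nat_lit 46) (nat_lit 5) (nat_lit 50) (nat_lit 5) (nat_lit 47) (nat_lit 5) (nat_lit 378) (nat_lit 301) (nat_lit 266)))) (XT.nd (nat_lit 188) (nat_lit 252) (nat_lit 0) (XT.nd (nat_lit 94) (nat_lit 0) (nat_lit 0) (XT.lf (nat_lit 0) (nat_lit 1115534861) (nat_lit 252) (nat_lit 5257419342) (nat_lit 336) (nat_lit 6390519726) (nat_lit 43) (nat_lit 5) (nat_lit 46) (nat_lit 5) (nat_lit 47) (nat_lit 5) (nat_lit 379) (nat_lit 301) (nat_lit 265)) (XT.lf (nat_lit 0) (nat_lit 7461574205) (nat_lit 252) (nat_lit 2049241786) (nat_lit 336) (nat_lit 3510266500) (nat_lit 43) (nat_lit 5) (nat_lit 46) (nat_lit 5) (nat_lit 47) (nat_lit 5) (nat_lit 380) (nat_lit 301) (nat_lit 264))) (XT.nd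 (nat_lit 94) (nat_lit 84) (nat_lit 0) (XT.lf (nat_lit 0) (nat_lit 636541097) (nat_lit 168) (nat_lit 12076400451) (nat_lit 252) (nat_lit 574424631) (nat_lit 41) (nat_lit 5) (nat_lit 43) (nat_lit 5) (nat_lit 44) (nat_lit 4) (nat_lit 381) (nat_lit 301) (nat_lit 263)) (XT.lf (nat_lit 0) (nat_lit 2430787883) (nat_lit 252) (nat_lit 6547560907) (nat_lit 84) (nat_lit 4581758189) (nat_lit 40) (nat_lit 5) (nat_lit 43) (nat_lit 5) (nat_lit 41) (nat_lit 5) (nat_lit 382) (nat_lit 301) (nat_lit 262))))))) (XT.nd (nat_lit 1316) (nat_lit 672) (nat_lit 0) (XT.nd (nat_lit 658) (nat_lit 588) (nat_lit 0) (XT.nd (nat_lit 282) (nat_lit 420) (nat_lit 0) (XT.nd (nat_lit 94) (nat_lit 252) (nat_lit 0) (XT.lf (nat_lit 0) (nat_lit 5468114627) (nat_lit 252) (nat_lit 340334508) (nat_lit 84) (nat_lit 8033851555) (nat_lit 40) (nat_lit 5) (nat_lit 43) (nat_lit 5) (nat_lit 41) (nat_lit 5) (nat_lit 383) (nat_lit 301) (nat_lit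 261)) (XT.nd (nat_lit 94) (nat_lit 0) (nat_lit 0) (XT.lf (nat_lit 0) (nat_lit 6100849166) (nat_lit 252) (nat_lit 2509214593) (nat_lit 336) (nat_lit 5522536428) (nat_lit 37) (nat_lit 5) (nat_lit 40) (nat_lit 5) (nat_lit 41) (nat_lit 5) (nat_lit 384) (nat_lit 301) (nat_lit 260)) (XT.lf (nat_lit 0) (nat_lit 11813530342) (nat_lit 336) (nat_lit 1769578260) (nat_lit 84) (nat_lit 849526037) (nat_lit 37) (nat_lit 5) (nat_lit 41) (nat_lit 5) (nat_lit 38) (nat_lit 4) (nat_lit 385) (nat_lit 301) (nat_lit 259)))) (XT.nd (nat_lit 188) (nat_lit 168) (nat_lit 0) (XT.nd (nat_lit 94) (nat_lit 0) (nat_lit 0) (XT.lf (nat_lit 0) (nat_lit 390752542) (nat_lit 252) (nat_lit 10067515770) (nat_lit 84) (nat_lit 4282538838) (nat_lit 34) (nat_lit 5) (nat_lit 37) (nat_lit 5) (nat_lit 35) (nat_lit 5) (nat_lit 386) (nat_lit 301) (nat_lit 258)) (XT.lf (nat_lit 0) (nat_lit 3412994155) (nat_lit 252) (nat_lit 3807943449)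 (nat_lit 84) (nat_lit 7837307396) (nat_lit 34) (nat_lit 5) (nat_lit 37) (nat_lit 5) (nat_lit 35) (nat_lit 5) (nat_lit 387) (nat_lit 301) (nat_lit 257))) (XT.nd (nat_lit 94) (nat_lit 0) (nat_lit 0) (XT.lf (nat_lit 0) (nat_lit 2622762803) (nat_lit 168) (nat_lit 3886297713) (nat_lit 252) (nat_lit 8876689606) (nat_lit 32) (nat_lit 5) (nat_lit 34) (nat_lit 5) (nat_lit 35) (nat_lit 5) (nat_lit 388) (nat_lit 301) (nat_lit 256)) (XT.lf (nat_lit 0) (nat_lit 9257281590) (nat_lit 168) (nat_lit 437705159) (nat_lit 252) (nat_lit 6028222043) (nat_lit 32) (nat_lit 5) (nat_lit 34) (nat_lit 5) (nat_lit 35) (nat_lit 5) (nat_lit 389) (nat_lit 301) (nat_lit 255))))) (XT.nd (nat_lit 282) (nat_lit 336) (nat_lit 0) (XT.nd (nat_lit 94) (nat_lit 252) (nat_lit 0) (XT.lf (nat_lit 0) (nat_lit 12965921104) (nat_lit 252) (nat_lit 76108547) (nat_lit 84) (nat_lit 3029115294) (nat_lit 32) (nat_lit 5) (nat_lit 35) (nat_lit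 5) (nat_lit 33) (nat_lit 4) (nat_lit 390) (nat_lit 301) (nat_lit 254)) (XT.nd (nat_lit 94) (nat_lit 84) (nat_lit 0) (XT.lf (nat_lit 0) (nat_lit 6564887919) (nat_lit 168) (nat_lit 9798208151) (nat_lit 252) (nat_lit 65615298) (nat_lit 30) (nat_lit 5) (nat_lit 32) (nat_lit 5) (nat_lit 33) (nat_lit 4) (nat_lit 391) (nat_lit 301) (nat_lit 253)) (XT.lf (nat_lit 0) (nat_lit 2966933654) (nat_lit 252) (nat_lit 3484250586) (nat_lit 84) (nat_lit 10346123190) (nat_lit 29) (nat_lit 5) (nat_lit 32) (nat_lit 5) (nat_lit 30) (nat_lit 5) (nat_lit 392) (nat_lit 301) (nat_lit 252)))) (XT.nd (nat_lit 188) (nat_lit 168) (nat_lit 0) (XT.nd (nat_lit 94) (nat_lit 0) (nat_lit 0) (XT.lf (nat_lit 0) (nat_lit 3083639243) (nat_lit 168) (nat_lit 2997073663) (nat_lit 252) (nat_lit 11096514345) (nat_lit 27) (nat_lit 5) (nat_lit 29) (nat_lit 5) (nat_lit 30) (nat_lit 5) (nat_lit 393) (nat_lit 301) (nat_lit 251)) (XT.lf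 (nat_lit 0) (nat_lit 9291036455) (nat_lit 252) (nat_lit 7716140743) (nat_lit 84) (nat_lit 561305139) (nat_lit 27) (nat_lit 5) (nat_lit 30) (nat_lit 5) (nat_lit 28) (nat_lit 4) (nat_lit 394) (nat_lit 301) (nat_lit 250))) (XT.nd (nat_lit 94) (nat_lit 168) (nat_lit 0) (XT.lf (nat_lit 0) (nat_lit 12590653469) (nat_lit 252) (nat_lit 1238115242) (nat_lit 84) (nat_lit 4142947532) (nat_lit 27) (nat_lit 5) (nat_lit 30) (nat_lit 5) (nat_lit 28) (nat_lit 4) (nat_lit 395) (nat_lit 301) (nat_lit 249)) (XT.lf (nat_lit 0) (nat_lit 5481930826) (nat_lit 168) (nat_lit 10524402247) (nat_lit 252) (nat_lit 2380231653) (nat_lit 25) (nat_lit 5) (nat_lit 27) (nat_lit 5) (nat_lit 28) (nat_lit 4) (nat_lit 396) (nat_lit 301) (nat_lit 248)))))) (XT.nd (nat_lit 658) (nat_lit 336) (nat_lit 0) (XT.nd (nat_lit 282) (nat_lit 84) (nat_lit 0) (XT.nd (nat_lit 94) (nat_lit 168) (nat_lit 0) (XT.lf (nat_lit 0) (nat_lit 673859089)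 (nat_lit 252) (nat_lit 6450926111) (nat_lit 84) (nat_lit 11689583567) (nat_lit 24) (nat_lit 5) (nat_lit 27) (nat_lit 5) (nat_lit 25) (nat_lit 5) (nat_lit 397) (nat_lit 301) (nat_lit 247)) (XT.nd (nat_lit 94) (nat_lit 0) (nat_lit 0) (XT.lf (nat_lit 0) (nat_lit 117402446) (nat_lit 168) (nat_lit 3620968262) (nat_lit 252) (nat_lit 15516957325) (nat_lit 22) (nat_lit 5) (nat_lit 24) (nat_lit 5) (nat_lit 25) (nat_lit 5) (nat_lit 398) (nat_lit 301) (nat_lit 246)) (XT.lf (nat_lit 0) (nat_lit 6926231581) (nat_lit 252) (nat_lit 12751046817) (nat_lit 84) (nat_lit 31321723) (nat_lit 22) (nat_lit 5) (nat_lit 25) (nat_lit 5) (nat_lit 23) (nat_lit 4) (nat_lit 399) (nat_lit 301) (nat_lit 245)))) (XT.nd (nat_lit 188) (nat_lit 0) (nat_lit 0) (XT.nd (nat_lit 94) (nat_lit 84) (nat_lit 0) (XT.lf (nat_lit 0) (nat_lit 10212320168) (nat_lit 252) (nat_lit 6264698538) (nat_lit 84) (nat_lit 3698399605) (nat_lit 22)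 (nat_lit 5) (nat_lit 25) (nat_lit 5) (nat_lit 23) (nat_lit 4) (nat_lit 400) (nat_lit 301) (nat_lit 244)) (XT.lf (nat_lit 0) (nat_lit 368790324) (nat_lit 84) (nat_lit 13199455559) (nat_lit 168) (nat_lit 7088882471) (nat_lit 21) (nat_lit 5) (nat_lit 22) (nat_lit 5) (nat_lit 23) (nat_lit 4) (nat_lit 401) (nat_lit 301) (nat_lit 243))) (XT.nd (nat_lit 94) (nat_lit 0) (nat_lit 0) (XT.lf (nat_lit 0) (nat_lit 7275593485) (nat_lit 84) (nat_lit 9780646849) (nat_lit 168) (nat_lit 4096131855) (nat_lit 21) (nat_lit 5) (nat_lit 22) (nat_lit 5) (nat_lit 23) (nat_lit 4) (nat_lit 402) (nat_lit 301) (nat_lit 242)) (XT.lf (nat_lit 0) (nat_lit 14337066232) (nat_lit 84) (nat_lit 6280866437) (nat_lit 168) (nat_lit 1045492441) (nat_lit 21) (nat_lit 5) (nat_lit 22) (nat_lit 5) (nat_lit 23) (nat_lit 4) (nat_lit 403) (nat_lit 301) (nat_lit 241))))) (XT.nd (nat_lit 282) (nat_lit 84) (nat_lit 0) (XT.nd (nat_lit 94)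 (nat_lit 168) (nat_lit 0) (XT.lf (nat_lit 0) (nat_lit 2025392103) (nat_lit 168) (nat_lit 651211670) (nat_lit 84) (nat_lit 19513534190) (nat_lit 20) (nat_lit 5) (nat_lit 22) (nat_lit 5) (nat_lit 21) (nat_lit 5) (nat_lit 404) (nat_lit 301) (nat_lit 240)) (XT.nd (nat_lit 94) (nat_lit 0) (nat_lit 0) (XT.lf (nat_lit 0) (nat_lit 5208801012) (nat_lit 252) (nat_lit 16455511989) (nat_lit 84) (nat_lit 1066807842) (nat_lit 18) (nat_lit 5) (nat_lit 21) (nat_lit 5) (nat_lit 19) (nat_lit 4) (nat_lit 405) (nat_lit 301) (nat_lit 239)) (XT.lf (nat_lit 0) (nat_lit 8491561985) (nat_lit 252) (nat_lit 9941450681) (nat_lit 84) (nat_lit 4855225939) (nat_lit 18) (nat_lit 5) (nat_lit 21) (nat_lit 5) (nat_lit 19) (nat_lit 4) (nat_lit 406) (nat_lit 301) (nat_lit 238)))) (XT.nd (nat_lit 188) (nat_lit 0) (nat_lit 0) (XT.nd (nat_lit 94) (nat_lit 84) (nat_lit 0) (XT.lf (nat_lit 0) (nat_lit 11844366660) (nat_lit 252)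 (nat_lit 3280833371) (nat_lit 84) (nat_lit 8737743324) (nat_lit 18) (nat_lit 5) (nat_lit 21) (nat_lit 5) (nat_lit 19) (nat_lit 4) (nat_lit 407) (nat_lit 301) (nat_lit 237)) (XT.lf (nat_lit 0) (nat_lit 3602456805) (nat_lit 84) (nat_lit 11702316887) (nat_lit 168) (nat_lit 9149924701) (nat_lit 17) (nat_lit 5) (nat_lit 18) (nat_lit 5) (nat_lit 19) (nat_lit 4) (nat_lit 408) (nat_lit 301) (nat_lit 236))) (XT.nd (nat_lit 94) (nat_lit 0) (nat_lit 0) (XT.lf (nat_lit 0) (nat_lit 10712522117) (nat_lit 84) (nat_lit 8162342622) (nat_lit 168) (nat_lit 6189184307) (nat_lit 17) (nat_lit 5) (nat_lit 18) (nat_lit 5) (nat_lit 19) (nat_lit 4) (nat_lit 409) (nat_lit 301) (nat_lit 235)) (XT.lf (nat_lit 0) (nat_lit 17990280227) (nat_lit 84) (nat_lit 4535314038) (nat_lit 168) (nat_lit 3166898442) (nat_lit 17) (nat_lit 5) (nat_lit 18) (nat_lit 5) (nat_lit 19) (nat_lit 4) (nat_lit 410) (nat_lit 301) (nat_lit 234))))))))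
noncomputable def xc56 : XT := (XT.nd (nat_lit 2538) (nat_lit 252) (nat_lit 0) (XT.nd (nat_lit 1222) (nat_lit 336) (nat_lit 0) (XT.nd (nat_lit 564) (nat_lit 168) (nat_lit 0) (XT.nd (nat_lit 282) (nat_lit 84) (nat_lit 0) (XT.nd (nat_lit 94) (nat_lit 252) (nat_lit 0) (XT.lf (nat_lit 0) (nat_lit 25442090340) (nat_lit 84) (nat_lit 818061888) (nat_lit 168) (nat_lit 80426273) (nat_lit 17) (nat_lit 5) (nat_lit 18) (nat_lit 5) (nat_lit 19) (nat_lit 4) (nat_lit 411) (nat_lit 301) (nat_lit 233)) (XT.nd (nat_lit 94) (nat_lit 0) (nat_lit 0) (XT.lf (nat_lit 0) (nat_lit 3101787853) (nat_lit 252) (nat_lit 20879675489) (nat_lit 84) (nat_lit 3023858530) (nat_lit 14) (nat_lit 5) (nat_lit 17) (nat_lit 5) (nat_lit 15) (nat_lit 4) (nat_lit 412) (nat_lit 301) (nat_lit 232)) (XT.lf (nat_lit 0) (nat_lit 6370050323) (nat_lit 252) (nat_lit 14363469432) (nat_lit 84) (nat_lit 6956714439) (nat_lit 14) (nat_lit 5)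 (nat_lit 17) (nat_lit 5) (nat_lit 15) (nat_lit 4) (nat_lit 413) (nat_lit 301) (nat_lit 231)))) (XT.nd (nat_lit 94) (nat_lit 84) (nat_lit 0) (XT.lf (nat_lit 0) (nat_lit 9712026672) (nat_lit 252) (nat_lit 7694176626) (nat_lit 84) (nat_lit 10990236618) (nat_lit 14) (nat_lit 5) (nat_lit 17) (nat_lit 5) (nat_lit 15) (nat_lit 4) (nat_lit 414) (nat_lit 301) (nat_lit 230)) (XT.nd (nat_lit 94) (nat_lit 84) (nat_lit 0) (XT.lf (nat_lit 0) (nat_lit 13130637072) (nat_lit 252) (nat_lit 865969534) (nat_lit 84) (nat_lit 15127949505) (nat_lit 14) (nat_lit 5) (nat_lit 17) (nat_lit 5) (nat_lit 15) (nat_lit 4) (nat_lit 415) (nat_lit 301) (nat_lit 229)) (XT.lf (nat_lit 0) (nat_lit 6249059904) (nat_lit 84) (nat_lit 10439878542) (nat_lit 168) (nat_lit 13184478459) (nat_lit 13) (nat_lit 5) (nat_lit 14) (nat_lit 5) (nat_lit 15) (nat_lit 4) (nat_lit 416) (nat_lit 301) (nat_lit 228))))) (XT.nd (nat_lit 282) (nat_lit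 168) (nat_lit 0) (XT.nd (nat_lit 94) (nat_lit 0) (nat_lit 0) (XT.lf (nat_lit 0) (nat_lit 13555718040) (nat_lit 84) (nat_lit 6784365956) (nat_lit 168) (nat_lit 10305091324) (nat_lit 13) (nat_lit 5) (nat_lit 14) (nat_lit 5) (nat_lit 15) (nat_lit 4) (nat_lit 417) (nat_lit 301) (nat_lit 227)) (XT.nd (nat_lit 94) (nat_lit 0) (nat_lit 0) (XT.lf (nat_lit 0) (nat_lit 21043154840) (nat_lit 84) (nat_lit 3035619306) (nat_lit 168) (nat_lit 7361986260) (nat_lit 13) (nat_lit 5) (nat_lit 14) (nat_lit 5) (nat_lit 15) (nat_lit 4) (nat_lit 418) (nat_lit 301) (nat_lit 226)) (XT.lf (nat_lit 0) (nat_lit 27916058439) (nat_lit 168) (nat_lit 3550737339) (nat_lit 0) (nat_lit 793838076) (nat_lit 13) (nat_lit 5) (nat_lit 15) (nat_lit 4) (nat_lit 13) (nat_lit 4) (nat_lit 419) (nat_lit 301) (nat_lit 225)))) (XT.nd (nat_lit 188) (nat_lit 0) (nat_lit 0) (XT.nd (nat_lit 94) (nat_lit 84) (nat_lit 0) (XT.lf (nat_lit 0)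 (nat_lit 3503138239) (nat_lit 84) (nat_lit 28408176620) (nat_lit 84) (nat_lit 1192516445) (nat_lit 12) (nat_lit 4) (nat_lit 13) (nat_lit 5) (nat_lit 13) (nat_lit 4) (nat_lit 420) (nat_lit 301) (nat_lit 224)) (XT.lf (nat_lit 0) (nat_lit 2029397270) (nat_lit 168) (nat_lit 23186701978) (nat_lit 84) (nat_lit 8755184433) (nat_lit 11) (nat_lit 5) (nat_lit 13) (nat_lit 5) (nat_lit 12) (nat_lit 4) (nat_lit 421) (nat_lit 301) (nat_lit 223))) (XT.nd (nat_lit 94) (nat_lit 0) (nat_lit 0) (XT.lf (nat_lit 0) (nat_lit 5303772292) (nat_lit 168) (nat_lit 16627796667) (nat_lit 84) (nat_lit 12933455558) (nat_lit 11) (nat_lit 5) (nat_lit 13) (nat_lit 5) (nat_lit 12) (nat_lit 4) (nat_lit 422) (nat_lit 301) (nat_lit 222)) (XT.lf (nat_lit 0) (nat_lit 8656740014) (nat_lit 168) (nat_lit 9906782855) (nat_lit 84) (nat_lit 17222655779) (nat_lit 11) (nat_lit 5) (nat_lit 13) (nat_lit 5) (nat_lit 12) (nat_lit 4) (nat_lit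 423) (nat_lit 301) (nat_lit 221)))))) (XT.nd (nat_lit 658) (nat_lit 252) (nat_lit 0) (XT.nd (nat_lit 282) (nat_lit 0) (nat_lit 0) (XT.nd (nat_lit 94) (nat_lit 84) (nat_lit 0) (XT.lf (nat_lit 0) (nat_lit 12091230215) (nat_lit 168) (nat_lit 3017787811) (nat_lit 84) (nat_lit 21626532943) (nat_lit 11) (nat_lit 5) (nat_lit 13) (nat_lit 5) (nat_lit 12) (nat_lit 4) (nat_lit 424) (nat_lit 301) (nat_lit 220)) (XT.nd (nat_lit 94) (nat_lit 0) (nat_lit 0) (XT.lf (nat_lit 0) (nat_lit 4125715545) (nat_lit 84) (nat_lit 11524187260) (nat_lit 168) (nat_lit 22062878451) (nat_lit 10) (nat_lit 5) (nat_lit 11) (nat_lit 5) (nat_lit 12) (nat_lit 4) (nat_lit 425) (nat_lit 301) (nat_lit 219)) (XT.lf (nat_lit 0) (nat_lit 11513036871) (nat_lit 84) (nat_lit 7814489430) (nat_lit 168) (nat_lit 19391447332) (nat_lit 10) (nat_lit 5) (nat_lit 11) (nat_lit 5) (nat_lit 12) (nat_lit 4) (nat_lit 426) (nat_lit 301) (nat_lit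 218)))) (XT.nd (nat_lit 188) (nat_lit 0) (nat_lit 0) (XT.nd (nat_lit 94) (nat_lit 0) (nat_lit 0) (XT.lf (nat_lit 0) (nat_lit 19090571212) (nat_lit 84) (nat_lit 4007156792) (nat_lit 168) (nat_lit 16658166877) (nat_lit 10) (nat_lit 5) (nat_lit 11) (nat_lit 5) (nat_lit 12) (nat_lit 4) (nat_lit 427) (nat_lit 301) (nat_lit 217)) (XT.lf (nat_lit 0) (nat_lit 26864939715) (nat_lit 84) (nat_lit 98862552) (nat_lit 168) (nat_lit 13860648782) (nat_lit 10) (nat_lit 5) (nat_lit 11) (nat_lit 5) (nat_lit 12) (nat_lit 4) (nat_lit 428) (nat_lit 301) (nat_lit 216))) (XT.nd (nat_lit 94) (nat_lit 0) (nat_lit 0) (XT.lf (nat_lit 0) (nat_lit 30966749131) (nat_lit 168) (nat_lit 7120262229) (nat_lit 0) (nat_lit 3837435808) (nat_lit 10) (nat_lit 5) (nat_lit 12) (nat_lit 4) (nat_lit 10) (nat_lit 4) (nat_lit 429) (nat_lit 301) (nat_lit 215)) (XT.lf (nat_lit 0) (nat_lit 35074398887) (nat_lit 168) (nat_lit 105932879)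 (nat_lit 0) (nat_lit 7877582656) (nat_lit 10) (nat_lit 5) (nat_lit 12) (nat_lit 4) (nat_lit 10) (nat_lit 4) (nat_lit 430) (nat_lit 301) (nat_lit 214))))) (XT.nd (nat_lit 282) (nat_lit 84) (nat_lit 0) (XT.nd (nat_lit 94) (nat_lit 84) (nat_lit 0) (XT.lf (nat_lit 0) (nat_lit 7231672034) (nat_lit 84) (nat_lit 32127233636) (nat_lit 84) (nat_lit 4864880602) (nat_lit 9) (nat_lit 4) (nat_lit 10) (nat_lit 5) (nat_lit 10) (nat_lit 4) (nat_lit 431) (nat_lit 301) (nat_lit 213)) (XT.nd (nat_lit 94) (nat_lit 84) (nat_lit 0) (XT.lf (nat_lit 0) (nat_lit 14763583492) (nat_lit 84) (nat_lit 28993739823) (nat_lit 84) (nat_lit 1667758824) (nat_lit 9) (nat_lit 4) (nat_lit 10) (nat_lit 5) (nat_lit 10) (nat_lit 4) (nat_lit 432) (nat_lit 301) (nat_lit 212)) (XT.lf (nat_lit 0) (nat_lit 1578165104) (nat_lit 168) (nat_lit 24184080560) (nat_lit 84) (nat_lit 20900173026) (nat_lit 8) (nat_lit 5) (nat_lit 10) (nat_lit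 5) (nat_lit 9) (nat_lit 4) (nat_lit 433) (nat_lit 301) (nat_lit 211)))) (XT.nd (nat_lit 188) (nat_lit 84) (nat_lit 0) (XT.nd (nat_lit 94) (nat_lit 0) (nat_lit 0) (XT.lf (nat_lit 0) (nat_lit 4872998389) (nat_lit 168) (nat_lit 17555544450) (nat_lit 84) (nat_lit 25508293921) (nat_lit 8) (nat_lit 5) (nat_lit 10) (nat_lit 5) (nat_lit 9) (nat_lit 4) (nat_lit 434) (nat_lit 301) (nat_lit 210)) (XT.lf (nat_lit 0) (nat_lit 8252163994) (nat_lit 168) (nat_lit 10754066873) (nat_lit 84) (nat_lit 30243699998) (nat_lit 8) (nat_lit 5) (nat_lit 10) (nat_lit 5) (nat_lit 9) (nat_lit 4) (nat_lit 435) (nat_lit 301) (nat_lit 209))) (XT.nd (nat_lit 94) (nat_lit 84) (nat_lit 0) (XT.lf (nat_lit 0) (nat_lit 11718614587) (nat_lit 168) (nat_lit 3773704793) (nat_lit 84) (nat_lit 35110528991) (nat_lit 8) (nat_lit 5) (nat_lit 10) (nat_lit 5) (nat_lit 9) (nat_lit 4) (nat_lit 436) (nat_lit 301) (nat_lit 208)) (XT.lf (nat_lit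 0) (nat_lit 3459141446) (nat_lit 84) (nat_lit 11849489043) (nat_lit 168) (nat_lit 36687143405) (nat_lit 7) (nat_lit 5) (nat_lit 8) (nat_lit 5) (nat_lit 9) (nat_lit 4) (nat_lit 437) (nat_lit 301) (nat_lit 207))))))) (XT.nd (nat_lit 1316) (nat_lit 84) (nat_lit 0) (XT.nd (nat_lit 658) (nat_lit 168) (nat_lit 0) (XT.nd (nat_lit 282) (nat_lit 0) (nat_lit 0) (XT.nd (nat_lit 94) (nat_lit 0) (nat_lit 0) (XT.lf (nat_lit 0) (nat_lit 10962142789) (nat_lit 84) (nat_lit 8068797434) (nat_lit 168) (nat_lit 34398816582) (nat_lit 7) (nat_lit 5) (nat_lit 8) (nat_lit 5) (nat_lit 9) (nat_lit 4) (nat_lit 438) (nat_lit 301) (nat_lit 206)) (XT.nd (nat_lit 94) (nat_lit 0) (nat_lit 0) (XT.lf (nat_lit 0) (nat_lit 18666751131) (nat_lit 84) (nat_lit 4185048057) (nat_lit 168) (nat_lit 32055360825) (nat_lit 7) (nat_lit 5) (nat_lit 8) (nat_lit 5) (nat_lit 9) (nat_lit 4) (nat_lit 439) (nat_lit 301) (nat_lit 205)) (XT.lf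 (nat_lit 0) (nat_lit 26579698656) (nat_lit 84) (nat_lit 194847345) (nat_lit 168) (nat_lit 29654728455) (nat_lit 7) (nat_lit 5) (nat_lit 8) (nat_lit 5) (nat_lit 9) (nat_lit 4) (nat_lit 440) (nat_lit 301) (nat_lit 204)))) (XT.nd (nat_lit 188) (nat_lit 0) (nat_lit 0) (XT.nd (nat_lit 94) (nat_lit 0) (nat_lit 0) (XT.lf (nat_lit 0) (nat_lit 30840148350) (nat_lit 168) (nat_lit 23327070593) (nat_lit 0) (nat_lit 3829084987) (nat_lit 7) (nat_lit 5) (nat_lit 9) (nat_lit 4) (nat_lit 7) (nat_lit 4) (nat_lit 441) (nat_lit 301) (nat_lit 203)) (XT.lf (nat_lit 0) (nat_lit 35017550074) (nat_lit 168) (nat_lit 16632585356) (nat_lit 0) (nat_lit 7960520516) (nat_lit 7) (nat_lit 5) (nat_lit 9) (nat_lit 4) (nat_lit 7) (nat_lit 4) (nat_lit 442) (nat_lit 301) (nat_lit 202))) (XT.nd (nat_lit 94) (nat_lit 0) (nat_lit 0) (XT.lf (nat_lit 0) (nat_lit 39308528338) (nat_lit 168) (nat_lit 9758397547) (nat_lit 0) (nat_lit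 12206871406) (nat_lit 7) (nat_lit 5) (nat_lit 9) (nat_lit 4) (nat_lit 7) (nat_lit 4) (nat_lit 443) (nat_lit 301) (nat_lit 201)) (XT.lf (nat_lit 0) (nat_lit 43716832542) (nat_lit 168) (nat_lit 2698500593) (nat_lit 0) (nat_lit 16571848062) (nat_lit 7) (nat_lit 5) (nat_lit 9) (nat_lit 4) (nat_lit 7) (nat_lit 4) (nat_lit 444) (nat_lit 301) (nat_lit 200))))) (XT.nd (nat_lit 282) (nat_lit 84) (nat_lit 0) (XT.nd (nat_lit 94) (nat_lit 0) (nat_lit 0) (XT.lf (nat_lit 0) (nat_lit 4643893432) (nat_lit 84) (nat_lit 43647061112) (nat_lit 84) (nat_lit 16460011052) (nat_lit 6) (nat_lit 4) (nat_lit 7) (nat_lit 5) (nat_lit 7) (nat_lit 4) (nat_lit 445) (nat_lit 301) (nat_lit 199)) (XT.nd (nat_lit 94) (nat_lit 0) (nat_lit 0) (XT.lf (nat_lit 0) (nat_lit 12242152258) (nat_lit 84) (nat_lit 40776459113) (nat_lit 84) (nat_lit 13548568683) (nat_lit 6) (nat_lit 4) (nat_lit 7) (nat_lit 5) (nat_lit 7) (nat_lit 4)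 (nat_lit 446) (nat_lit 301) (nat_lit 198)) (XT.lf (nat_lit 0) (nat_lit 20049209684) (nat_lit 84) (nat_lit 37828268409) (nat_lit 84) (nat_lit 10560727136) (nat_lit 6) (nat_lit 4) (nat_lit 7) (nat_lit 5) (nat_lit 7) (nat_lit 4) (nat_lit 447) (nat_lit 301) (nat_lit 197)))) (XT.nd (nat_lit 188) (nat_lit 84) (nat_lit 0) (XT.nd (nat_lit 94) (nat_lit 0) (nat_lit 0) (XT.lf (nat_lit 0) (nat_lit 28071887411) (nat_lit 84) (nat_lit 34799912913) (nat_lit 84) (nat_lit 7493875674) (nat_lit 6) (nat_lit 4) (nat_lit 7) (nat_lit 5) (nat_lit 7) (nat_lit 4) (nat_lit 448) (nat_lit 301) (nat_lit 196)) (XT.lf (nat_lit 0) (nat_lit 36317195546) (nat_lit 84) (nat_lit 31688746488) (nat_lit 84) (nat_lit 4345334526) (nat_lit 6) (nat_lit 4) (nat_lit 7) (nat_lit 5) (nat_lit 7) (nat_lit 4) (nat_lit 449) (nat_lit 301) (nat_lit 195))) (XT.nd (nat_lit 94) (nat_lit 84) (nat_lit 0) (XT.lf (nat_lit 0) (nat_lit 44792338728)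 (nat_lit 84) (nat_lit 28492050639) (nat_lit 84) (nat_lit 1112352538) (nat_lit 6) (nat_lit 4) (nat_lit 7) (nat_lit 5) (nat_lit 7) (nat_lit 4) (nat_lit 450) (nat_lit 301) (nat_lit 194)) (XT.lf (nat_lit 0) (nat_lit 2164811237) (nat_lit 168) (nat_lit 23020360551) (nat_lit 84) (nat_lit 51318050835) (nat_lit 5) (nat_lit 5) (nat_lit 7) (nat_lit 5) (nat_lit 6) (nat_lit 4) (nat_lit 451) (nat_lit 301) (nat_lit 193)))))) (XT.nd (nat_lit 49162) (nat_lit 0) (nat_lit 9996) (XT.nd (nat_lit 282) (nat_lit 84) (nat_lit 0) (XT.nd (nat_lit 94) (nat_lit 0) (nat_lit 0) (XT.lf (nat_lit 0) (nat_lit 5508676488) (nat_lit 168) (nat_lit 16266517257) (nat_lit 84) (nat_lit 56897656068) (nat_lit 5) (nat_lit 5) (nat_lit 7) (nat_lit 5) (nat_lit 6) (nat_lit 4) (nat_lit 452) (nat_lit 301) (nat_lit 192)) (XT.nd (nat_lit 94) (nat_lit 0) (nat_lit 0) (XT.lf (nat_lit 0) (nat_lit 8943871043) (nat_lit 168) (nat_lit 9326279267)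 (nat_lit 84) (nat_lit 62637689735) (nat_lit 5) (nat_lit 5) (nat_lit 7) (nat_lit 5) (nat_lit 6) (nat_lit 4) (nat_lit 453) (nat_lit 301) (nat_lit 191)) (XT.lf (nat_lit 0) (nat_lit 12473396530) (nat_lit 168) (nat_lit 2193582294) (nat_lit 84) (nat_lit 68543167399) (nat_lit 5) (nat_lit 5) (nat_lit 7) (nat_lit 5) (nat_lit 6) (nat_lit 4) (nat_lit 454) (nat_lit 301) (nat_lit 190)))) (XT.nd (nat_lit 48692) (nat_lit 0) (nat_lit 13020) (XT.nd (nat_lit 48598) (nat_lit 0) (nat_lit 14364) (XT.lf (nat_lit 0) (nat_lit 5240058530) (nat_lit 84) (nat_lit 10910649117) (nat_lit 168) (nat_lit 69429561305) (nat_lit 4) (nat_lit 5) (nat_lit 5) (nat_lit 5) (nat_lit 6) (nat_lit 4) (nat_lit 455) (nat_lit 301) (nat_lit 189)) (XT.lf (nat_lit 0) (nat_lit 879469172) (nat_lit 1260) (nat_lit 1862760152) (nat_lit 0) (nat_lit 879469172) (nat_lit 175) (nat_lit 5) (nat_lit 190) (nat_lit 4) (nat_lit 175) (nat_lit 4) (nat_lit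 341) (nat_lit 302) (nat_lit 302))) (XT.nd (nat_lit 94) (nat_lit 84) (nat_lit 0) (XT.lf (nat_lit 0) (nat_lit 933756359) (nat_lit 1260) (nat_lit 3962219636) (nat_lit 1260) (nat_lit 2413159422) (nat_lit 160) (nat_lit 4) (nat_lit 175) (nat_lit 5) (nat_lit 175) (nat_lit 4) (nat_lit 342) (nat_lit 302) (nat_lit 301)) (XT.lf (nat_lit 0) (nat_lit 681365569) (nat_lit 1344) (nat_lit 1669830064) (nat_lit 84) (nat_lit 5027271707) (nat_lit 159) (nat_lit 5) (nat_lit 175) (nat_lit 5) (nat_lit 160) (nat_lit 4) (nat_lit 343) (nat_lit 302) (nat_lit 300))))) (XT.nd (nat_lit 282) (nat_lit 1764) (nat_lit 0) (XT.nd (nat_lit 94) (nat_lit 672) (nat_lit 0) (XT.lf (nat_lit 0) (nat_lit 3120972889) (nat_lit 588) (nat_lit 639673849) (nat_lit 672) (nat_lit 3690506455) (nat_lit 152) (nat_lit 5) (nat_lit 159) (nat_lit 5) (nat_lit 160) (nat_lit 4) (nat_lit 344) (nat_lit 302) (nat_lit 299)) (XT.nd (nat_lit 94) (nat_lit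 84) (nat_lit 0) (XT.lf (nat_lit 0) (nat_lit 467572876) (nat_lit 588) (nat_lit 6409160346) (nat_lit 588) (nat_lit 651151099) (nat_lit 145) (nat_lit 4) (nat_lit 152) (nat_lit 5) (nat_lit 152) (nat_lit 4) (nat_lit 345) (nat_lit 302) (nat_lit 298)) (XT.lf (nat_lit 0) (nat_lit 2394218155) (nat_lit 672) (nat_lit 2233979339) (nat_lit 84) (nat_lit 2979294606) (nat_lit 144) (nat_lit 5) (nat_lit 152) (nat_lit 5) (nat_lit 145) (nat_lit 4) (nat_lit 346) (nat_lit 302) (nat_lit 297)))) (XT.nd (nat_lit 188) (nat_lit 1092) (nat_lit 0) (XT.nd (nat_lit 94) (nat_lit 84) (nat_lit 0) (XT.lf (nat_lit 0) (nat_lit 2690183928) (nat_lit 588) (nat_lit 2768801128) (nat_lit 672) (nat_lit 2232256670) (nat_lit 137) (nat_lit 5) (nat_lit 144) (nat_lit 5) (nat_lit 145) (nat_lit 4) (nat_lit 347) (nat_lit 302) (nat_lit 296)) (XT.lf (nat_lit 0) (nat_lit 760468931) (nat_lit 672) (nat_lit 71181346) (nat_lit 84) (nat_lit 6947623198)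 (nat_lit 136) (nat_lit 5) (nat_lit 144) (nat_lit 5) (nat_lit 137) (nat_lit 5) (nat_lit 348) (nat_lit 302) (nat_lit 295))) (XT.nd (nat_lit 94) (nat_lit 504) (nat_lit 0) (XT.lf (nat_lit 0) (nat_lit 3776174036) (nat_lit 672) (nat_lit 2891576302) (nat_lit 84) (nat_lit 1202356283) (nat_lit 129) (nat_lit 5) (nat_lit 137) (nat_lit 5) (nat_lit 130) (nat_lit 4) (nat_lit 349) (nat_lit 302) (nat_lit 294)) (XT.lf (nat_lit 0) (nat_lit 2158652330) (nat_lit 504) (nat_lit 4673125111) (nat_lit 588) (nat_lit 1133565096) (nat_lit 123) (nat_lit 5) (nat_lit 129) (nat_lit 5) (nat_lit 130) (nat_lit 4) (nat_lit 350) (nat_lit 302) (nat_lit 293))))))))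
noncomputable def xc57 : XT := (XT.nd (nat_lit 2538) (nat_lit 2688) (nat_lit 0) (XT.nd (nat_lit 1222) (nat_lit 2352) (nat_lit 0) (XT.nd (nat_lit 564) (nat_lit 1764) (nat_lit 0) (XT.nd (nat_lit 282) (nat_lit 1008) (nat_lit 0) (XT.nd (nat_lit 94) (nat_lit 924) (nat_lit 0) (XT.lf (nat_lit 0) (nat_lit 1827959939) (nat_lit 588) (nat_lit 755208343) (nat_lit 84) (nat_lit 5481374386) (nat_lit 122) (nat_lit 5) (nat_lit 129) (nat_lit 5) (nat_lit 123) (nat_lit 5) (nat_lit 351) (nat_lit 302) (nat_lit 292)) (XT.nd (nat_lit 94) (nat_lit 420) (nat_lit 0) (XT.lf (nat_lit 0) (nat_lit 4432201274) (nat_lit 504) (nat_lit 388512779) (nat_lit 588) (nat_lit 3346860006) (nat_lit 116) (nat_lit 5) (nat_lit 122) (nat_lit 5) (nat_lit 123) (nat_lit 5) (nat_lit 352) (nat_lit 302) (nat_lit 291)) (XT.lf (nat_lit 0) (nat_lit 1434895855) (nat_lit 420) (nat_lit 6431662545) (nat_lit 504) (nat_lit 408381444) (nat_lit 111)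 (nat_lit 5) (nat_lit 116) (nat_lit 5) (nat_lit 117) (nat_lit 4) (nat_lit 353) (nat_lit 302) (nat_lit 290)))) (XT.nd (nat_lit 94) (nat_lit 924) (nat_lit 0) (XT.lf (nat_lit 0) (nat_lit 2533381967) (nat_lit 504) (nat_lit 1669956636) (nat_lit 84) (nat_lit 4182580783) (nat_lit 110) (nat_lit 5) (nat_lit 116) (nat_lit 5) (nat_lit 111) (nat_lit 5) (nat_lit 354) (nat_lit 302) (nat_lit 289)) (XT.nd (nat_lit 94) (nat_lit 420) (nat_lit 0) (XT.lf (nat_lit 0) (nat_lit 3631750423) (nat_lit 504) (nat_lit 1884837726) (nat_lit 588) (nat_lit 2984807501) (nat_lit 104) (nat_lit 5) (nat_lit 110) (nat_lit 5) (nat_lit 111) (nat_lit 5) (nat_lit 355) (nat_lit 302) (nat_lit 288)) (XT.lf (nat_lit 0) (nat_lit 418522400) (nat_lit 420) (nat_lit 8124262330) (nat_lit 504) (nat_lit 79073417) (nat_lit 99) (nat_lit 5) (nat_lit 104) (nat_lit 5) (nat_lit 105) (nat_lit 4) (nat_lit 356) (nat_lit 302) (nat_lit 287))))) (XT.nd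 (nat_lit 282) (nat_lit 1260) (nat_lit 0) (XT.nd (nat_lit 94) (nat_lit 420) (nat_lit 0) (XT.lf (nat_lit 0) (nat_lit 2853311435) (nat_lit 504) (nat_lit 2918665168) (nat_lit 84) (nat_lit 2973346979) (nat_lit 98) (nat_lit 5) (nat_lit 104) (nat_lit 5) (nat_lit 99) (nat_lit 5) (nat_lit 357) (nat_lit 302) (nat_lit 286)) (XT.nd (nat_lit 94) (nat_lit 0) (nat_lit 0) (XT.lf (nat_lit 0) (nat_lit 2482688721) (nat_lit 420) (nat_lit 3343367190) (nat_lit 504) (nat_lit 3047910275) (nat_lit 93) (nat_lit 5) (nat_lit 98) (nat_lit 5) (nat_lit 99) (nat_lit 5) (nat_lit 358) (nat_lit 302) (nat_lit 285)) (XT.lf (nat_lit 0) (nat_lit 8017270549) (nat_lit 420) (nat_lit 831480699) (nat_lit 504) (nat_lit 159006398) (nat_lit 93) (nat_lit 5) (nat_lit 98) (nat_lit 5) (nat_lit 99) (nat_lit 5) (nat_lit 359) (nat_lit 302) (nat_lit 284)))) (XT.nd (nat_lit 188) (nat_lit 420) (nat_lit 0) (XT.nd (nat_lit 94) (nat_lit 420) (nat_lit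 0) (XT.lf (nat_lit 0) (nat_lit 2755221424) (nat_lit 420) (nat_lit 4616494756) (nat_lit 84) (nat_lit 1773332058) (nat_lit 88) (nat_lit 5) (nat_lit 93) (nat_lit 5) (nat_lit 89) (nat_lit 5) (nat_lit 360) (nat_lit 302) (nat_lit 283)) (XT.lf (nat_lit 0) (nat_lit 865750238) (nat_lit 420) (nat_lit 4848051721) (nat_lit 504) (nat_lit 3573907784) (nat_lit 83) (nat_lit 5) (nat_lit 88) (nat_lit 5) (nat_lit 89) (nat_lit 5) (nat_lit 361) (nat_lit 302) (nat_lit 282))) (XT.nd (nat_lit 94) (nat_lit 420) (nat_lit 0) (XT.lf (nat_lit 0) (nat_lit 6519414693) (nat_lit 420) (nat_lit 2222903931) (nat_lit 504) (nat_lit 692997180) (nat_lit 83) (nat_lit 5) (nat_lit 88) (nat_lit 5) (nat_lit 89) (nat_lit 5) (nat_lit 362) (nat_lit 302) (nat_lit 281)) (XT.lf (nat_lit 0) (nat_lit 2196536985) (nat_lit 420) (nat_lit 6893165087) (nat_lit 84) (nat_lit 498089129) (nat_lit 78) (nat_lit 5) (nat_lit 83) (nat_lit 5) (nat_lit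 79) (nat_lit 5) (nat_lit 363) (nat_lit 302) (nat_lit 280)))))) (XT.nd (nat_lit 658) (nat_lit 924) (nat_lit 0) (XT.nd (nat_lit 282) (nat_lit 672) (nat_lit 0) (XT.nd (nat_lit 94) (nat_lit 756) (nat_lit 0) (XT.lf (nat_lit 0) (nat_lit 5147149316) (nat_lit 420) (nat_lit 1327301990) (nat_lit 84) (nat_lit 3270625677) (nat_lit 78) (nat_lit 5) (nat_lit 83) (nat_lit 5) (nat_lit 79) (nat_lit 5) (nat_lit 364) (nat_lit 302) (nat_lit 279)) (XT.nd (nat_lit 94) (nat_lit 420) (nat_lit 0) (XT.lf (nat_lit 0) (nat_lit 4406648024) (nat_lit 336) (nat_lit 3760414038) (nat_lit 420) (nat_lit 1740684727) (nat_lit 74) (nat_lit 5) (nat_lit 78) (nat_lit 5) (nat_lit 79) (nat_lit 5) (nat_lit 365) (nat_lit 302) (nat_lit 278)) (XT.lf (nat_lit 0) (nat_lit 171232240) (nat_lit 336) (nat_lit 961488075) (nat_lit 420) (nat_lit 8943696309) (nat_lit 69) (nat_lit 5) (nat_lit 73) (nat_lit 5) (nat_lit 74) (nat_lit 5) (nat_lit 366)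 (nat_lit 302) (nat_lit 277)))) (XT.nd (nat_lit 188) (nat_lit 336) (nat_lit 0) (XT.nd (nat_lit 94) (nat_lit 336) (nat_lit 0) (XT.lf (nat_lit 0) (nat_lit 4071374859) (nat_lit 420) (nat_lit 4244404719) (nat_lit 84) (nat_lit 1933510310) (nat_lit 69) (nat_lit 5) (nat_lit 74) (nat_lit 5) (nat_lit 70) (nat_lit 5) (nat_lit 367) (nat_lit 302) (nat_lit 276)) (XT.lf (nat_lit 0) (nat_lit 1522731710) (nat_lit 336) (nat_lit 5540840989) (nat_lit 420) (nat_lit 3364894141) (nat_lit 65) (nat_lit 5) (nat_lit 69) (nat_lit 5) (nat_lit 70) (nat_lit 5) (nat_lit 368) (nat_lit 302) (nat_lit 275))) (XT.nd (nat_lit 94) (nat_lit 336) (nat_lit 0) (XT.lf (nat_lit 0) (nat_lit 7467047652) (nat_lit 336) (nat_lit 2663491069) (nat_lit 420) (nat_lit 483007010) (nat_lit 65) (nat_lit 5) (nat_lit 69) (nat_lit 5) (nat_lit 70) (nat_lit 5) (nat_lit 369) (nat_lit 302) (nat_lit 274)) (XT.lf (nat_lit 0) (nat_lit 2409454931) (nat_lit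 336) (nat_lit 8074259901) (nat_lit 84) (nat_lit 320639252) (nat_lit 61) (nat_lit 5) (nat_lit 65) (nat_lit 5) (nat_lit 62) (nat_lit 5) (nat_lit 370) (nat_lit 302) (nat_lit 273))))) (XT.nd (nat_lit 282) (nat_lit 504) (nat_lit 0) (XT.nd (nat_lit 94) (nat_lit 420) (nat_lit 0) (XT.lf (nat_lit 0) (nat_lit 5381278126) (nat_lit 336) (nat_lit 2266256038) (nat_lit 84) (nat_lit 3353210387) (nat_lit 61) (nat_lit 5) (nat_lit 65) (nat_lit 5) (nat_lit 62) (nat_lit 5) (nat_lit 371) (nat_lit 302) (nat_lit 272)) (XT.nd (nat_lit 94) (nat_lit 84) (nat_lit 0) (XT.lf (nat_lit 0) (nat_lit 3708411770) (nat_lit 336) (nat_lit 4714963720) (nat_lit 420) (nat_lit 2780285803) (nat_lit 57) (nat_lit 5) (nat_lit 61) (nat_lit 5) (nat_lit 62) (nat_lit 5) (nat_lit 372) (nat_lit 302) (nat_lit 271)) (XT.lf (nat_lit 0) (nat_lit 110072913) (nat_lit 420) (nat_lit 1585116593) (nat_lit 84) (nat_lit 9718434297) (nat_lit 56) (nat_lit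 5) (nat_lit 61) (nat_lit 5) (nat_lit 57) (nat_lit 5) (nat_lit 373) (nat_lit 302) (nat_lit 270)))) (XT.nd (nat_lit 188) (nat_lit 252) (nat_lit 0) (XT.nd (nat_lit 94) (nat_lit 0) (nat_lit 0) (XT.lf (nat_lit 0) (nat_lit 3035711943) (nat_lit 336) (nat_lit 7159134828) (nat_lit 84) (nat_lit 1434141438) (nat_lit 53) (nat_lit 5) (nat_lit 57) (nat_lit 5) (nat_lit 54) (nat_lit 5) (nat_lit 374) (nat_lit 302) (nat_lit 269)) (XT.lf (nat_lit 0) (nat_lit 6029903769) (nat_lit 336) (nat_lit 1206883884) (nat_lit 84) (nat_lit 4614662932) (nat_lit 53) (nat_lit 5) (nat_lit 57) (nat_lit 5) (nat_lit 54) (nat_lit 5) (nat_lit 375) (nat_lit 302) (nat_lit 268))) (XT.nd (nat_lit 94) (nat_lit 0) (nat_lit 0) (XT.lf (nat_lit 0) (nat_lit 4944127082) (nat_lit 252) (nat_lit 4166674146) (nat_lit 336) (nat_lit 2969937990) (nat_lit 50) (nat_lit 5) (nat_lit 53) (nat_lit 5) (nat_lit 54) (nat_lit 5) (nat_lit 376) (nat_lit 302)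 (nat_lit 267)) (XT.lf (nat_lit 0) (nat_lit 11228870976) (nat_lit 252) (nat_lit 1017544719) (nat_lit 336) (nat_lit 71679184) (nat_lit 50) (nat_lit 5) (nat_lit 53) (nat_lit 5) (nat_lit 54) (nat_lit 5) (nat_lit 377) (nat_lit 302) (nat_lit 266))))))) (XT.nd (nat_lit 1316) (nat_lit 1008) (nat_lit 0) (XT.nd (nat_lit 658) (nat_lit 588) (nat_lit 0) (XT.nd (nat_lit 282) (nat_lit 504) (nat_lit 0) (XT.nd (nat_lit 94) (nat_lit 252) (nat_lit 0) (XT.lf (nat_lit 0) (nat_lit 2879001125) (nat_lit 336) (nat_lit 7446229020) (nat_lit 84) (nat_lit 2235884846) (nat_lit 46) (nat_lit 5) (nat_lit 50) (nat_lit 5) (nat_lit 47) (nat_lit 5) (nat_lit 378) (nat_lit 302) (nat_lit 265)) (XT.nd (nat_lit 94) (nat_lit 252) (nat_lit 0) (XT.lf (nat_lit 0) (nat_lit 5889440807) (nat_lit 336) (nat_lit 1369434614) (nat_lit 84) (nat_lit 5553400834) (nat_lit 46) (nat_lit 5) (nat_lit 50) (nat_lit 5) (nat_lit 47) (nat_lit 5) (nat_lit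 379) (nat_lit 302) (nat_lit 264)) (XT.lf (nat_lit 0) (nat_lit 4912819012) (nat_lit 252) (nat_lit 4077509413) (nat_lit 336) (nat_lit 4080690597) (nat_lit 43) (nat_lit 5) (nat_lit 46) (nat_lit 5) (nat_lit 47) (nat_lit 5) (nat_lit 380) (nat_lit 302) (nat_lit 263)))) (XT.nd (nat_lit 188) (nat_lit 252) (nat_lit 0) (XT.nd (nat_lit 94) (nat_lit 252) (nat_lit 0) (XT.lf (nat_lit 0) (nat_lit 11339613766) (nat_lit 252) (nat_lit 812046701) (nat_lit 336) (nat_lit 1186890300) (nat_lit 43) (nat_lit 5) (nat_lit 46) (nat_lit 5) (nat_lit 47) (nat_lit 5) (nat_lit 381) (nat_lit 302) (nat_lit 262)) (XT.lf (nat_lit 0) (nat_lit 1779771462) (nat_lit 252) (nat_lit 9296888408) (nat_lit 84) (nat_lit 2536346243) (nat_lit 40) (nat_lit 5) (nat_lit 43) (nat_lit 5) (nat_lit 41) (nat_lit 5) (nat_lit 382) (nat_lit 302) (nat_lit 261))) (XT.nd (nat_lit 94) (nat_lit 252) (nat_lit 0) (XT.lf (nat_lit 0) (nat_lit 4794860517)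 (nat_lit 252) (nat_lit 3124789623) (nat_lit 84) (nat_lit 5976239007) (nat_lit 40) (nat_lit 5) (nat_lit 43) (nat_lit 5) (nat_lit 41) (nat_lit 5) (nat_lit 383) (nat_lit 302) (nat_lit 260)) (XT.lf (nat_lit 0) (nat_lit 3226194709) (nat_lit 252) (nat_lit 4661392015) (nat_lit 336) (nat_lit 6300100154) (nat_lit 37) (nat_lit 5) (nat_lit 40) (nat_lit 5) (nat_lit 41) (nat_lit 5) (nat_lit 384) (nat_lit 302) (nat_lit 259))))) (XT.nd (nat_lit 282) (nat_lit 336) (nat_lit 0) (XT.nd (nat_lit 94) (nat_lit 252) (nat_lit 0) (XT.lf (nat_lit 0) (nat_lit 9763210347) (nat_lit 252) (nat_lit 1298228500) (nat_lit 336) (nat_lit 3427191837) (nat_lit 37) (nat_lit 5) (nat_lit 40) (nat_lit 5) (nat_lit 41) (nat_lit 5) (nat_lit 385) (nat_lit 302) (nat_lit 258)) (XT.nd (nat_lit 94) (nat_lit 84) (nat_lit 0) (XT.lf (nat_lit 0) (nat_lit 1641322576) (nat_lit 168) (nat_lit 12683592545) (nat_lit 252) (nat_lit 473896653) (nat_lit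 35) (nat_lit 5) (nat_lit 37) (nat_lit 5) (nat_lit 38) (nat_lit 4) (nat_lit 386) (nat_lit 302) (nat_lit 257)) (XT.lf (nat_lit 0) (nat_lit 2536876084) (nat_lit 252) (nat_lit 6926776659) (nat_lit 84) (nat_lit 5653374176) (nat_lit 34) (nat_lit 5) (nat_lit 37) (nat_lit 5) (nat_lit 35) (nat_lit 5) (nat_lit 387) (nat_lit 302) (nat_lit 256)))) (XT.nd (nat_lit 188) (nat_lit 168) (nat_lit 0) (XT.nd (nat_lit 94) (nat_lit 168) (nat_lit 0) (XT.lf (nat_lit 0) (nat_lit 5587617927) (nat_lit 252) (nat_lit 579691865) (nat_lit 84) (nat_lit 9278600572) (nat_lit 34) (nat_lit 5) (nat_lit 37) (nat_lit 5) (nat_lit 35) (nat_lit 5) (nat_lit 388) (nat_lit 302) (nat_lit 255)) (XT.lf (nat_lit 0) (nat_lit 6011166066) (nat_lit 168) (nat_lit 2736858942) (nat_lit 252) (nat_lit 7036127646) (nat_lit 32) (nat_lit 5) (nat_lit 34) (nat_lit 5) (nat_lit 35) (nat_lit 5) (nat_lit 389) (nat_lit 302) (nat_lit 254))) (XT.nd (nat_lit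 94) (nat_lit 168) (nat_lit 0) (XT.lf (nat_lit 0) (nat_lit 11977485656) (nat_lit 252) (nat_lit 3392735850) (nat_lit 84) (nat_lit 763129031) (nat_lit 32) (nat_lit 5) (nat_lit 35) (nat_lit 5) (nat_lit 33) (nat_lit 4) (nat_lit 390) (nat_lit 302) (nat_lit 253)) (XT.lf (nat_lit 0) (nat_lit 3150894917) (nat_lit 168) (nat_lit 12172139739) (nat_lit 252) (nat_lit 1169448092) (nat_lit 30) (nat_lit 5) (nat_lit 32) (nat_lit 5) (nat_lit 33) (nat_lit 4) (nat_lit 391) (nat_lit 302) (nat_lit 252)))))) (XT.nd (nat_lit 658) (nat_lit 504) (nat_lit 0) (XT.nd (nat_lit 282) (nat_lit 252) (nat_lit 0) (XT.nd (nat_lit 94) (nat_lit 168) (nat_lit 0) (XT.lf (nat_lit 0) (nat_lit 1865887317) (nat_lit 252) (nat_lit 6982238474) (nat_lit 84) (nat_lit 8013849972) (nat_lit 29) (nat_lit 5) (nat_lit 32) (nat_lit 5) (nat_lit 30) (nat_lit 5) (nat_lit 392) (nat_lit 302) (nat_lit 251)) (XT.nd (nat_lit 94) (nat_lit 168) (nat_lit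 0) (XT.lf (nat_lit 0) (nat_lit 4931817656) (nat_lit 252) (nat_lit 504457693) (nat_lit 84) (nat_lit 11807071268) (nat_lit 29) (nat_lit 5) (nat_lit 32) (nat_lit 5) (nat_lit 30) (nat_lit 5) (nat_lit 393) (nat_lit 302) (nat_lit 250)) (XT.lf (nat_lit 0) (nat_lit 6230230395) (nat_lit 168) (nat_lit 1883500430) (nat_lit 252) (nat_lit 9521738303) (nat_lit 27) (nat_lit 5) (nat_lit 29) (nat_lit 5) (nat_lit 30) (nat_lit 5) (nat_lit 394) (nat_lit 302) (nat_lit 249)))) (XT.nd (nat_lit 188) (nat_lit 84) (nat_lit 0) (XT.nd (nat_lit 94) (nat_lit 168) (nat_lit 0) (XT.lf (nat_lit 0) (nat_lit 11377694899) (nat_lit 252) (nat_lit 4938315959) (nat_lit 84) (nat_lit 1723776436) (nat_lit 27) (nat_lit 5) (nat_lit 30) (nat_lit 5) (nat_lit 28) (nat_lit 4) (nat_lit 395) (nat_lit 302) (nat_lit 248)) (XT.lf (nat_lit 0) (nat_lit 1679167128) (nat_lit 168) (nat_lit 13060616397) (nat_lit 252) (nat_lit 3716474227) (nat_lit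 25) (nat_lit 5) (nat_lit 27) (nat_lit 5) (nat_lit 28) (nat_lit 4) (nat_lit 396) (nat_lit 302) (nat_lit 247))) (XT.nd (nat_lit 94) (nat_lit 84) (nat_lit 0) (XT.lf (nat_lit 0) (nat_lit 8539404263) (nat_lit 168) (nat_lit 9679073162) (nat_lit 252) (nat_lit 666300697) (nat_lit 25) (nat_lit 5) (nat_lit 27) (nat_lit 5) (nat_lit 28) (nat_lit 4) (nat_lit 397) (nat_lit 302) (nat_lit 246)) (XT.lf (nat_lit 0) (nat_lit 2393588971) (nat_lit 252) (nat_lit 3800534188) (nat_lit 84) (nat_lit 13132348128) (nat_lit 24) (nat_lit 5) (nat_lit 27) (nat_lit 5) (nat_lit 25) (nat_lit 5) (nat_lit 398) (nat_lit 302) (nat_lit 245))))) (XT.nd (nat_lit 282) (nat_lit 336) (nat_lit 0) (XT.nd (nat_lit 94) (nat_lit 0) (nat_lit 0) (XT.lf (nat_lit 0) (nat_lit 2936962660) (nat_lit 168) (nat_lit 2590642348) (nat_lit 252) (nat_lit 14253766370) (nat_lit 22) (nat_lit 5) (nat_lit 24) (nat_lit 5) (nat_lit 25) (nat_lit 5) (nat_lit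 399) (nat_lit 302) (nat_lit 244)) (XT.nd (nat_lit 94) (nat_lit 0) (nat_lit 0) (XT.lf (nat_lit 0) (nat_lit 8772884073) (nat_lit 252) (nat_lit 10360076955) (nat_lit 84) (nat_lit 1116465111) (nat_lit 22) (nat_lit 5) (nat_lit 25) (nat_lit 5) (nat_lit 23) (nat_lit 4) (nat_lit 400) (nat_lit 302) (nat_lit 243)) (XT.lf (nat_lit 0) (nat_lit 12109821370) (nat_lit 252) (nat_lit 3759919818) (nat_lit 84) (nat_lit 4861976579) (nat_lit 22) (nat_lit 5) (nat_lit 25) (nat_lit 5) (nat_lit 23) (nat_lit 4) (nat_lit 401) (nat_lit 302) (nat_lit 242)))) (XT.nd (nat_lit 188) (nat_lit 252) (nat_lit 0) (XT.nd (nat_lit 94) (nat_lit 0) (nat_lit 0) (XT.lf (nat_lit 0) (nat_lit 3046174497) (nat_lit 84) (nat_lit 12499537024) (nat_lit 168) (nat_lit 5682824791) (nat_lit 21) (nat_lit 5) (nat_lit 22) (nat_lit 5) (nat_lit 23) (nat_lit 4) (nat_lit 402) (nat_lit 302) (nat_lit 241)) (XT.lf (nat_lit 0) (nat_lit 10082521934) (nat_lit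 84) (nat_lit 9010083534) (nat_lit 168) (nat_lit 2647438962) (nat_lit 21) (nat_lit 5) (nat_lit 22) (nat_lit 5) (nat_lit 23) (nat_lit 4) (nat_lit 403) (nat_lit 302) (nat_lit 240))) (XT.nd (nat_lit 94) (nat_lit 168) (nat_lit 0) (XT.lf (nat_lit 0) (nat_lit 440185006) (nat_lit 168) (nat_lit 4991669486) (nat_lit 84) (nat_lit 16835810968) (nat_lit 20) (nat_lit 5) (nat_lit 22) (nat_lit 5) (nat_lit 21) (nat_lit 5) (nat_lit 404) (nat_lit 302) (nat_lit 239)) (XT.lf (nat_lit 0) (nat_lit 1835089088) (nat_lit 168) (nat_lit 1721159979) (nat_lit 252) (nat_lit 19254429908) (nat_lit 18) (nat_lit 5) (nat_lit 20) (nat_lit 5) (nat_lit 21) (nat_lit 5) (nat_lit 405) (nat_lit 302) (nat_lit 238))))))))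
noncomputable def xc58 : XT := (XT.nd (nat_lit 2538) (nat_lit 336) (nat_lit 0) (XT.nd (nat_lit 1222) (nat_lit 336) (nat_lit 0) (XT.nd (nat_lit 564) (nat_lit 336) (nat_lit 0) (XT.nd (nat_lit 282) (nat_lit 84) (nat_lit 0) (XT.nd (nat_lit 94) (nat_lit 0) (nat_lit 0) (XT.lf (nat_lit 0) (nat_lit 6808455776) (nat_lit 252) (nat_lit 14469055579) (nat_lit 84) (nat_lit 2091212002) (nat_lit 18) (nat_lit 5) (nat_lit 21) (nat_lit 5) (nat_lit 19) (nat_lit 4) (nat_lit 406) (nat_lit 302) (nat_lit 237)) (XT.nd (nat_lit 94) (nat_lit 0) (nat_lit 0) (XT.lf (nat_lit 0) (nat_lit 10147659071) (nat_lit 252) (nat_lit 7831808988) (nat_lit 84) (nat_lit 5964377789) (nat_lit 18) (nat_lit 5) (nat_lit 21) (nat_lit 5) (nat_lit 19) (nat_lit 4) (nat_lit 407) (nat_lit 302) (nat_lit 236)) (XT.lf (nat_lit 0) (nat_lit 13560231860) (nat_lit 252) (nat_lit 1041505738) (nat_lit 84) (nat_lit 9935307733) (nat_lit 18) (nat_lit 5)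 (nat_lit 21) (nat_lit 5) (nat_lit 19) (nat_lit 4) (nat_lit 408) (nat_lit 302) (nat_lit 235)))) (XT.nd (nat_lit 94) (nat_lit 0) (nat_lit 0) (XT.lf (nat_lit 0) (nat_lit 6025364000) (nat_lit 84) (nat_lit 11081711489) (nat_lit 168) (nat_lit 8040027061) (nat_lit 17) (nat_lit 5) (nat_lit 18) (nat_lit 5) (nat_lit 19) (nat_lit 4) (nat_lit 409) (nat_lit 302) (nat_lit 234)) (XT.nd (nat_lit 94) (nat_lit 0) (nat_lit 0) (XT.lf (nat_lit 0) (nat_lit 13281308937) (nat_lit 84) (nat_lit 7463839207) (nat_lit 168) (nat_lit 5030786650) (nat_lit 17) (nat_lit 5) (nat_lit 18) (nat_lit 5) (nat_lit 19) (nat_lit 4) (nat_lit 410) (nat_lit 302) (nat_lit 233)) (XT.lf (nat_lit 0) (nat_lit 20711941212) (nat_lit 84) (nat_lit 3755476669) (nat_lit 168) (nat_lit 1956979972) (nat_lit 17) (nat_lit 5) (nat_lit 18) (nat_lit 5) (nat_lit 19) (nat_lit 4) (nat_lit 411) (nat_lit 302) (nat_lit 232))))) (XT.nd (nat_lit 282) (nat_lit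 84) (nat_lit 0) (XT.nd (nat_lit 94) (nat_lit 0) (nat_lit 0) (XT.lf (nat_lit 0) (nat_lit 1173606389) (nat_lit 252) (nat_lit 25849457524) (nat_lit 84) (nat_lit 69273976) (nat_lit 14) (nat_lit 5) (nat_lit 17) (nat_lit 5) (nat_lit 15) (nat_lit 4) (nat_lit 412) (nat_lit 302) (nat_lit 231)) (XT.nd (nat_lit 94) (nat_lit 0) (nat_lit 0) (XT.lf (nat_lit 0) (nat_lit 4429881669) (nat_lit 252) (nat_lit 19354137887) (nat_lit 84) (nat_lit 3993598157) (nat_lit 14) (nat_lit 5) (nat_lit 17) (nat_lit 5) (nat_lit 15) (nat_lit 4) (nat_lit 413) (nat_lit 302) (nat_lit 230)) (XT.lf (nat_lit 0) (nat_lit 7760219969) (nat_lit 252) (nat_lit 12705123160) (nat_lit 84) (nat_lit 8018837106) (nat_lit 14) (nat_lit 5) (nat_lit 17) (nat_lit 5) (nat_lit 15) (nat_lit 4) (nat_lit 414) (nat_lit 302) (nat_lit 229)))) (XT.nd (nat_lit 188) (nat_lit 0) (nat_lit 0) (XT.nd (nat_lit 94) (nat_lit 84) (nat_lit 0) (XT.lf (nat_lit 0) (nat_lit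 11167531293) (nat_lit 252) (nat_lit 5896603522) (nat_lit 84) (nat_lit 12148508022) (nat_lit 14) (nat_lit 5) (nat_lit 17) (nat_lit 5) (nat_lit 15) (nat_lit 4) (nat_lit 415) (nat_lit 302) (nat_lit 228)) (XT.lf (nat_lit 0) (nat_lit 1098811996) (nat_lit 84) (nat_lit 13566543360) (nat_lit 168) (nat_lit 15297969810) (nat_lit 13) (nat_lit 5) (nat_lit 14) (nat_lit 5) (nat_lit 15) (nat_lit 4) (nat_lit 416) (nat_lit 302) (nat_lit 227))) (XT.nd (nat_lit 94) (nat_lit 0) (nat_lit 0) (XT.lf (nat_lit 0) (nat_lit 8386543492) (nat_lit 84) (nat_lit 9919125017) (nat_lit 168) (nat_lit 12429747053) (nat_lit 13) (nat_lit 5) (nat_lit 14) (nat_lit 5) (nat_lit 15) (nat_lit 4) (nat_lit 417) (nat_lit 302) (nat_lit 226)) (XT.lf (nat_lit 0) (nat_lit 15855604912) (nat_lit 84) (nat_lit 6178236856) (nat_lit 168) (nat_lit 9497481190) (nat_lit 13) (nat_lit 5) (nat_lit 14) (nat_lit 5) (nat_lit 15) (nat_lit 4) (nat_lit 418)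 (nat_lit 302) (nat_lit 225)))))) (XT.nd (nat_lit 658) (nat_lit 168) (nat_lit 0) (XT.nd (nat_lit 282) (nat_lit 84) (nat_lit 0) (XT.nd (nat_lit 94) (nat_lit 84) (nat_lit 0) (XT.lf (nat_lit 0) (nat_lit 23512522622) (nat_lit 84) (nat_lit 2340610139) (nat_lit 168) (nat_lit 6498610048) (nat_lit 13) (nat_lit 5) (nat_lit 14) (nat_lit 5) (nat_lit 15) (nat_lit 4) (nat_lit 419) (nat_lit 302) (nat_lit 224)) (XT.nd (nat_lit 94) (nat_lit 84) (nat_lit 0) (XT.lf (nat_lit 0) (nat_lit 29782231116) (nat_lit 168) (nat_lit 1848757239) (nat_lit 0) (nat_lit 1565943061) (nat_lit 13) (nat_lit 5) (nat_lit 15) (nat_lit 4) (nat_lit 13) (nat_lit 4) (nat_lit 420) (nat_lit 302) (nat_lit 223)) (XT.lf (nat_lit 0) (nat_lit 5399004192) (nat_lit 84) (nat_lit 28485593159) (nat_lit 84) (nat_lit 181229120) (nat_lit 12) (nat_lit 4) (nat_lit 13) (nat_lit 5) (nat_lit 13) (nat_lit 4) (nat_lit 421) (nat_lit 302) (nat_lit 222))))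 (XT.nd (nat_lit 188) (nat_lit 0) (nat_lit 0) (XT.nd (nat_lit 94) (nat_lit 0) (nat_lit 0) (XT.lf (nat_lit 0) (nat_lit 3087008171) (nat_lit 168) (nat_lit 22123248115) (nat_lit 84) (nat_lit 9749659379) (nat_lit 11) (nat_lit 5) (nat_lit 13) (nat_lit 5) (nat_lit 12) (nat_lit 4) (nat_lit 422) (nat_lit 302) (nat_lit 221)) (XT.lf (nat_lit 0) (nat_lit 6430583502) (nat_lit 168) (nat_lit 15418810254) (nat_lit 84) (nat_lit 14031963509) (nat_lit 11) (nat_lit 5) (nat_lit 13) (nat_lit 5) (nat_lit 12) (nat_lit 4) (nat_lit 423) (nat_lit 302) (nat_lit 220))) (XT.nd (nat_lit 94) (nat_lit 0) (nat_lit 0) (XT.lf (nat_lit 0) (nat_lit 9855954876) (nat_lit 168) (nat_lit 8545908367) (nat_lit 84) (nat_lit 18429145438) (nat_lit 11) (nat_lit 5) (nat_lit 13) (nat_lit 5) (nat_lit 12) (nat_lit 4) (nat_lit 424) (nat_lit 302) (nat_lit 219)) (XT.lf (nat_lit 0) (nat_lit 13366115336) (nat_lit 168) (nat_lit 1498537005) (nat_lit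 84) (nat_lit 22945047363) (nat_lit 11) (nat_lit 5) (nat_lit 13) (nat_lit 5) (nat_lit 12) (nat_lit 4) (nat_lit 425) (nat_lit 302) (nat_lit 218))))) (XT.nd (nat_lit 282) (nat_lit 84) (nat_lit 0) (XT.nd (nat_lit 94) (nat_lit 0) (nat_lit 0) (XT.lf (nat_lit 0) (nat_lit 5843489252) (nat_lit 84) (nat_lit 11176813953) (nat_lit 168) (nat_lit 21796297159) (nat_lit 10) (nat_lit 5) (nat_lit 11) (nat_lit 5) (nat_lit 12) (nat_lit 4) (nat_lit 426) (nat_lit 302) (nat_lit 217)) (XT.nd (nat_lit 94) (nat_lit 0) (nat_lit 0) (XT.lf (nat_lit 0) (nat_lit 13406002968) (nat_lit 84) (nat_lit 7376012535) (nat_lit 168) (nat_lit 19071765853) (nat_lit 10) (nat_lit 5) (nat_lit 11) (nat_lit 5) (nat_lit 12) (nat_lit 4) (nat_lit 427) (nat_lit 302) (nat_lit 216)) (XT.lf (nat_lit 0) (nat_lit 21165788339) (nat_lit 84) (nat_lit 3474059285) (nat_lit 168) (nat_lit 16282742079) (nat_lit 10) (nat_lit 5) (nat_lit 11) (nat_lit 5)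 (nat_lit 12) (nat_lit 4) (nat_lit 428) (nat_lit 302) (nat_lit 215)))) (XT.nd (nat_lit 188) (nat_lit 84) (nat_lit 0) (XT.nd (nat_lit 94) (nat_lit 0) (nat_lit 0) (XT.lf (nat_lit 0) (nat_lit 28602288776) (nat_lit 168) (nat_lit 12899451838) (nat_lit 0) (nat_lit 522065150) (nat_lit 10) (nat_lit 5) (nat_lit 12) (nat_lit 4) (nat_lit 10) (nat_lit 4) (nat_lit 429) (nat_lit 302) (nat_lit 214)) (XT.lf (nat_lit 0) (nat_lit 32702112069) (nat_lit 168) (nat_lit 5899048737) (nat_lit 0) (nat_lit 4556351639) (nat_lit 10) (nat_lit 5) (nat_lit 12) (nat_lit 4) (nat_lit 10) (nat_lit 4) (nat_lit 430) (nat_lit 302) (nat_lit 213))) (XT.nd (nat_lit 94) (nat_lit 0) (nat_lit 0) (XT.lf (nat_lit 0) (nat_lit 1309472095) (nat_lit 84) (nat_lit 35612620441) (nat_lit 84) (nat_lit 7403232047) (nat_lit 9) (nat_lit 4) (nat_lit 10) (nat_lit 5) (nat_lit 10) (nat_lit 4) (nat_lit 431) (nat_lit 302) (nat_lit 212)) (XT.lf (nat_lit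 0) (nat_lit 8827995479) (nat_lit 84) (nat_lit 32485008816) (nat_lit 84) (nat_lit 4213845699) (nat_lit 9) (nat_lit 4) (nat_lit 10) (nat_lit 5) (nat_lit 10) (nat_lit 4) (nat_lit 432) (nat_lit 302) (nat_lit 211))))))) (XT.nd (nat_lit 1316) (nat_lit 84) (nat_lit 0) (XT.nd (nat_lit 658) (nat_lit 84) (nat_lit 0) (XT.nd (nat_lit 282) (nat_lit 84) (nat_lit 0) (XT.nd (nat_lit 94) (nat_lit 84) (nat_lit 0) (XT.lf (nat_lit 0) (nat_lit 16545688360) (nat_lit 84) (nat_lit 29275161893) (nat_lit 84) (nat_lit 944023316) (nat_lit 9) (nat_lit 4) (nat_lit 10) (nat_lit 5) (nat_lit 10) (nat_lit 4) (nat_lit 433) (nat_lit 302) (nat_lit 210)) (XT.nd (nat_lit 94) (nat_lit 0) (nat_lit 0) (XT.lf (nat_lit 0) (nat_lit 2362082160) (nat_lit 168) (nat_lit 23594340391) (nat_lit 84) (nat_lit 22083359794) (nat_lit 8) (nat_lit 5) (nat_lit 10) (nat_lit 5) (nat_lit 9) (nat_lit 4) (nat_lit 434) (nat_lit 302) (nat_lit 209)) (XT.lf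 (nat_lit 0) (nat_lit 5734306888) (nat_lit 168) (nat_lit 16805256816) (nat_lit 84) (nat_lit 26813524853) (nat_lit 8) (nat_lit 5) (nat_lit 10) (nat_lit 5) (nat_lit 9) (nat_lit 4) (nat_lit 435) (nat_lit 302) (nat_lit 208)))) (XT.nd (nat_lit 188) (nat_lit 84) (nat_lit 0) (XT.nd (nat_lit 94) (nat_lit 0) (nat_lit 0) (XT.lf (nat_lit 0) (nat_lit 9194018765) (nat_lit 168) (nat_lit 9836927747) (nat_lit 84) (nat_lit 31675265478) (nat_lit 8) (nat_lit 5) (nat_lit 10) (nat_lit 5) (nat_lit 9) (nat_lit 4) (nat_lit 436) (nat_lit 302) (nat_lit 207)) (XT.lf (nat_lit 0) (nat_lit 12744240841) (nat_lit 168) (nat_lit 2683264351) (nat_lit 84) (nat_lit 36672829792) (nat_lit 8) (nat_lit 5) (nat_lit 10) (nat_lit 5) (nat_lit 9) (nat_lit 4) (nat_lit 437) (nat_lit 302) (nat_lit 206))) (XT.nd (nat_lit 94) (nat_lit 0) (nat_lit 0) (XT.lf (nat_lit 0) (nat_lit 4754766769) (nat_lit 84) (nat_lit 11679014209) (nat_lit 168)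 (nat_lit 37101523557) (nat_lit 7) (nat_lit 5) (nat_lit 8) (nat_lit 5) (nat_lit 9) (nat_lit 4) (nat_lit 438) (nat_lit 302) (nat_lit 205)) (XT.lf (nat_lit 0) (nat_lit 12448144043) (nat_lit 84) (nat_lit 7800221062) (nat_lit 168) (nat_lit 34764534332) (nat_lit 7) (nat_lit 5) (nat_lit 8) (nat_lit 5) (nat_lit 9) (nat_lit 4) (nat_lit 439) (nat_lit 302) (nat_lit 204))))) (XT.nd (nat_lit 282) (nat_lit 84) (nat_lit 0) (XT.nd (nat_lit 94) (nat_lit 0) (nat_lit 0) (XT.lf (nat_lit 0) (nat_lit 20350187617) (nat_lit 84) (nat_lit 3814832222) (nat_lit 168) (nat_lit 32370180147) (nat_lit 7) (nat_lit 5) (nat_lit 8) (nat_lit 5) (nat_lit 9) (nat_lit 4) (nat_lit 440) (nat_lit 302) (nat_lit 203)) (XT.nd (nat_lit 94) (nat_lit 0) (nat_lit 0) (XT.lf (nat_lit 0) (nat_lit 28189865134) (nat_lit 168) (nat_lit 29638431794) (nat_lit 0) (nat_lit 275158494) (nat_lit 7) (nat_lit 5) (nat_lit 9) (nat_lit 4) (nat_lit 7) (nat_lit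 4) (nat_lit 441) (nat_lit 302) (nat_lit 202)) (XT.lf (nat_lit 0) (nat_lit 32361480892) (nat_lit 168) (nat_lit 22954356401) (nat_lit 0) (nat_lit 4402146878) (nat_lit 7) (nat_lit 5) (nat_lit 9) (nat_lit 4) (nat_lit 7) (nat_lit 4) (nat_lit 442) (nat_lit 302) (nat_lit 201)))) (XT.nd (nat_lit 188) (nat_lit 84) (nat_lit 0) (XT.nd (nat_lit 94) (nat_lit 0) (nat_lit 0) (XT.lf (nat_lit 0) (nat_lit 36646841714) (nat_lit 168) (nat_lit 16090275237) (nat_lit 0) (nat_lit 8644180152) (nat_lit 7) (nat_lit 5) (nat_lit 9) (nat_lit 4) (nat_lit 7) (nat_lit 4) (nat_lit 443) (nat_lit 302) (nat_lit 200)) (XT.lf (nat_lit 0) (nat_lit 41049692090) (nat_lit 168) (nat_lit 9040190561) (nat_lit 0) (nat_lit 13004964947) (nat_lit 7) (nat_lit 5) (nat_lit 9) (nat_lit 4) (nat_lit 7) (nat_lit 4) (nat_lit 444) (nat_lit 302) (nat_lit 199))) (XT.nd (nat_lit 94) (nat_lit 84) (nat_lit 0) (XT.lf (nat_lit 0) (nat_lit 45573879170)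 (nat_lit 168) (nat_lit 1797942105) (nat_lit 0) (nat_lit 17488311658) (nat_lit 7) (nat_lit 5) (nat_lit 9) (nat_lit 4) (nat_lit 7) (nat_lit 4) (nat_lit 445) (nat_lit 302) (nat_lit 198)) (XT.lf (nat_lit 0) (nat_lit 5755101061) (nat_lit 84) (nat_lit 44523576618) (nat_lit 84) (nat_lit 16398358262) (nat_lit 6) (nat_lit 4) (nat_lit 7) (nat_lit 5) (nat_lit 7) (nat_lit 4) (nat_lit 446) (nat_lit 302) (nat_lit 197)))))) (XT.nd (nat_lit 658) (nat_lit 0) (nat_lit 0) (XT.nd (nat_lit 282) (nat_lit 84) (nat_lit 0) (XT.nd (nat_lit 94) (nat_lit 0) (nat_lit 0) (XT.lf (nat_lit 0) (nat_lit 13553000151) (nat_lit 84) (nat_lit 41579465190) (nat_lit 84) (nat_lit 13415750869) (nat_lit 6) (nat_lit 4) (nat_lit 7) (nat_lit 5) (nat_lit 7) (nat_lit 4) (nat_lit 447) (nat_lit 302) (nat_lit 196)) (XT.nd (nat_lit 94) (nat_lit 0) (nat_lit 0) (XT.lf (nat_lit 0) (nat_lit 21566786290) (nat_lit 84) (nat_lit 38555070155) (nat_lit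 84) (nat_lit 10353981110) (nat_lit 6) (nat_lit 4) (nat_lit 7) (nat_lit 5) (nat_lit 7) (nat_lit 4) (nat_lit 448) (nat_lit 302) (nat_lit 195)) (XT.lf (nat_lit 0) (nat_lit 29803461816) (nat_lit 84) (nat_lit 35447748837) (nat_lit 84) (nat_lit 7210373654) (nat_lit 6) (nat_lit 4) (nat_lit 7) (nat_lit 5) (nat_lit 7) (nat_lit 4) (nat_lit 449) (nat_lit 302) (nat_lit 194)))) (XT.nd (nat_lit 188) (nat_lit 84) (nat_lit 0) (XT.nd (nat_lit 94) (nat_lit 0) (nat_lit 0) (XT.lf (nat_lit 0) (nat_lit 38270223823) (nat_lit 84) (nat_lit 32254786103) (nat_lit 84) (nat_lit 3982181658) (nat_lit 6) (nat_lit 4) (nat_lit 7) (nat_lit 5) (nat_lit 7) (nat_lit 4) (nat_lit 450) (nat_lit 302) (nat_lit 193)) (XT.lf (nat_lit 0) (nat_lit 46974470453) (nat_lit 84) (nat_lit 28973391983) (nat_lit 84) (nat_lit 666584372) (nat_lit 6) (nat_lit 4) (nat_lit 7) (nat_lit 5) (nat_lit 7) (nat_lit 4) (nat_lit 451) (nat_lit 302) (nat_lit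 192))) (XT.nd (nat_lit 94) (nat_lit 0) (nat_lit 0) (XT.lf (nat_lit 0) (nat_lit 2685861417) (nat_lit 168) (nat_lit 22887715890) (nat_lit 84) (nat_lit 53210824007) (nat_lit 5) (nat_lit 5) (nat_lit 7) (nat_lit 5) (nat_lit 6) (nat_lit 4) (nat_lit 452) (nat_lit 302) (nat_lit 191)) (XT.lf (nat_lit 0) (nat_lit 6116757990) (nat_lit 168) (nat_lit 15955235613) (nat_lit 84) (nat_lit 58947529096) (nat_lit 5) (nat_lit 5) (nat_lit 7) (nat_lit 5) (nat_lit 6) (nat_lit 4) (nat_lit 453) (nat_lit 302) (nat_lit 190))))) (XT.nd (nat_lit 48692) (nat_lit 0) (nat_lit 12348) (XT.nd (nat_lit 48504) (nat_lit 0) (nat_lit 15456) (XT.lf (nat_lit 0) (nat_lit 9642110677) (nat_lit 168) (nat_lit 8830070400) (nat_lit 84) (nat_lit 64849775132) (nat_lit 5) (nat_lit 5) (nat_lit 7) (nat_lit 5) (nat_lit 6) (nat_lit 4) (nat_lit 454) (nat_lit 302) (nat_lit 189)) (XT.nd (nat_lit 94) (nat_lit 84) (nat_lit 0) (XT.lf (nat_lit 0) (nat_lit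 733854059) (nat_lit 1092) (nat_lit 1413330119) (nat_lit 1092) (nat_lit 1413330119) (nat_lit 190) (nat_lit 4) (nat_lit 203) (nat_lit 5) (nat_lit 203) (nat_lit 4) (nat_lit 339) (nat_lit 303) (nat_lit 303)) (XT.lf (nat_lit 0) (nat_lit 251781265) (nat_lit 1176) (nat_lit 1132282011) (nat_lit 84) (nat_lit 5797436469) (nat_lit 189) (nat_lit 5) (nat_lit 203) (nat_lit 5) (nat_lit 190) (nat_lit 4) (nat_lit 340) (nat_lit 303) (nat_lit 302)))) (XT.nd (nat_lit 188) (nat_lit 672) (nat_lit 0) (XT.nd (nat_lit 94) (nat_lit 1260) (nat_lit 0) (XT.lf (nat_lit 0) (nat_lit 3308677956) (nat_lit 1260) (nat_lit 3772116593) (nat_lit 0) (nat_lit 164085722) (nat_lit 175) (nat_lit 5) (nat_lit 190) (nat_lit 4) (nat_lit 175) (nat_lit 4) (nat_lit 341) (nat_lit 303) (nat_lit 301)) (XT.lf (nat_lit 0) (nat_lit 840093253) (nat_lit 1260) (nat_lit 5560263357) (nat_lit 1260) (nat_lit 911729168) (nat_lit 160) (nat_lit 4) (nat_lit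 175) (nat_lit 5) (nat_lit 175) (nat_lit 4) (nat_lit 342) (nat_lit 303) (nat_lit 300))) (XT.nd (nat_lit 94) (nat_lit 588) (nat_lit 0) (XT.lf (nat_lit 0) (nat_lit 2109370339) (nat_lit 1344) (nat_lit 1826650220) (nat_lit 84) (nat_lit 3446388188) (nat_lit 159) (nat_lit 5) (nat_lit 175) (nat_lit 5) (nat_lit 160) (nat_lit 4) (nat_lit 343) (nat_lit 303) (nat_lit 299)) (XT.lf (nat_lit 0) (nat_lit 2915706447) (nat_lit 588) (nat_lit 2228130002) (nat_lit 672) (nat_lit 2312699898) (nat_lit 152) (nat_lit 5) (nat_lit 159) (nat_lit 5) (nat_lit 160) (nat_lit 4) (nat_lit 344) (nat_lit 303) (nat_lit 298))))))))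
noncomputable def xc59 : XT := (XT.nd (nat_lit 2632) (nat_lit 2940) (nat_lit 0) (XT.nd (nat_lit 1316) (nat_lit 3024) (nat_lit 0) (XT.nd (nat_lit 658) (nat_lit 2436) (nat_lit 0) (XT.nd (nat_lit 282) (nat_lit 1260) (nat_lit 0) (XT.nd (nat_lit 94) (nat_lit 588) (nat_lit 0) (XT.lf (nat_lit 0) (nat_lit 211066171) (nat_lit 588) (nat_lit 445341724) (nat_lit 672) (nat_lit 6878423772) (nat_lit 144) (nat_lit 5) (nat_lit 151) (nat_lit 5) (nat_lit 152) (nat_lit 5) (nat_lit 345) (nat_lit 303) (nat_lit 297)) (XT.nd (nat_lit 94) (nat_lit 588) (nat_lit 0) (XT.lf (nat_lit 0) (nat_lit 3643048259) (nat_lit 672) (nat_lit 2545227983) (nat_lit 84) (nat_lit 1427445142) (nat_lit 144) (nat_lit 5) (nat_lit 152) (nat_lit 5) (nat_lit 145) (nat_lit 4) (nat_lit 346) (nat_lit 303) (nat_lit 296)) (XT.lf (nat_lit 0) (nat_lit 2327373779) (nat_lit 588) (nat_lit 4336427915) (nat_lit 672) (nat_lit 1037076163) (nat_lit 137)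 (nat_lit 5) (nat_lit 144) (nat_lit 5) (nat_lit 145) (nat_lit 4) (nat_lit 347) (nat_lit 303) (nat_lit 295)))) (XT.nd (nat_lit 188) (nat_lit 588) (nat_lit 0) (XT.nd (nat_lit 94) (nat_lit 588) (nat_lit 0) (XT.lf (nat_lit 0) (nat_lit 1892082180) (nat_lit 672) (nat_lit 500044545) (nat_lit 84) (nat_lit 5397727047) (nat_lit 136) (nat_lit 5) (nat_lit 144) (nat_lit 5) (nat_lit 137) (nat_lit 5) (nat_lit 348) (nat_lit 303) (nat_lit 294)) (XT.lf (nat_lit 0) (nat_lit 4508785701) (nat_lit 588) (nat_lit 343508796) (nat_lit 672) (nat_lit 3030136313) (nat_lit 129) (nat_lit 5) (nat_lit 136) (nat_lit 5) (nat_lit 137) (nat_lit 5) (nat_lit 349) (nat_lit 303) (nat_lit 293))) (XT.nd (nat_lit 94) (nat_lit 84) (nat_lit 0) (XT.lf (nat_lit 0) (nat_lit 1625101395) (nat_lit 504) (nat_lit 6235969187) (nat_lit 588) (nat_lit 118077768) (nat_lit 123) (nat_lit 5) (nat_lit 129) (nat_lit 5) (nat_lit 130) (nat_lit 4) (nat_lit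 350) (nat_lit 303) (nat_lit 292)) (XT.lf (nat_lit 0) (nat_lit 2785484572) (nat_lit 588) (nat_lit 1357095787) (nat_lit 84) (nat_lit 3936692081) (nat_lit 122) (nat_lit 5) (nat_lit 129) (nat_lit 5) (nat_lit 123) (nat_lit 5) (nat_lit 351) (nat_lit 303) (nat_lit 291))))) (XT.nd (nat_lit 282) (nat_lit 1428) (nat_lit 0) (XT.nd (nat_lit 94) (nat_lit 504) (nat_lit 0) (XT.lf (nat_lit 0) (nat_lit 3774004794) (nat_lit 504) (nat_lit 1960871098) (nat_lit 588) (nat_lit 2448799108) (nat_lit 116) (nat_lit 5) (nat_lit 122) (nat_lit 5) (nat_lit 123) (nat_lit 5) (nat_lit 352) (nat_lit 303) (nat_lit 290)) (XT.nd (nat_lit 94) (nat_lit 0) (nat_lit 0) (XT.lf (nat_lit 0) (nat_lit 421033826) (nat_lit 504) (nat_lit 7579409023) (nat_lit 84) (nat_lit 292295681) (nat_lit 110) (nat_lit 5) (nat_lit 116) (nat_lit 5) (nat_lit 111) (nat_lit 5) (nat_lit 353) (nat_lit 303) (nat_lit 289)) (XT.lf (nat_lit 0) (nat_lit 3318615104)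 (nat_lit 504) (nat_lit 2457734014) (nat_lit 84) (nat_lit 2628401903) (nat_lit 110) (nat_lit 5) (nat_lit 116) (nat_lit 5) (nat_lit 111) (nat_lit 5) (nat_lit 354) (nat_lit 303) (nat_lit 288)))) (XT.nd (nat_lit 188) (nat_lit 840) (nat_lit 0) (XT.nd (nat_lit 94) (nat_lit 84) (nat_lit 0) (XT.lf (nat_lit 0) (nat_lit 2784244144) (nat_lit 504) (nat_lit 3474272003) (nat_lit 588) (nat_lit 2263072741) (nat_lit 104) (nat_lit 5) (nat_lit 110) (nat_lit 5) (nat_lit 111) (nat_lit 5) (nat_lit 355) (nat_lit 303) (nat_lit 287)) (XT.lf (nat_lit 0) (nat_lit 586223973) (nat_lit 588) (nat_lit 502116895) (nat_lit 84) (nat_lit 7554900953) (nat_lit 103) (nat_lit 5) (nat_lit 110) (nat_lit 5) (nat_lit 104) (nat_lit 5) (nat_lit 356) (nat_lit 303) (nat_lit 286))) (XT.nd (nat_lit 94) (nat_lit 420) (nat_lit 0) (XT.lf (nat_lit 0) (nat_lit 3467205104) (nat_lit 504) (nat_lit 3905177066) (nat_lit 84) (nat_lit 1395855254)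 (nat_lit 98) (nat_lit 5) (nat_lit 104) (nat_lit 5) (nat_lit 99) (nat_lit 5) (nat_lit 357) (nat_lit 303) (nat_lit 285)) (XT.lf (nat_lit 0) (nat_lit 1432877069) (nat_lit 420) (nat_lit 4963556358) (nat_lit 504) (nat_lit 2501807570) (nat_lit 93) (nat_lit 5) (nat_lit 98) (nat_lit 5) (nat_lit 99) (nat_lit 5) (nat_lit 358) (nat_lit 303) (nat_lit 284)))))) (XT.nd (nat_lit 658) (nat_lit 1428) (nat_lit 0) (XT.nd (nat_lit 282) (nat_lit 1176) (nat_lit 0) (XT.nd (nat_lit 94) (nat_lit 336) (nat_lit 0) (XT.lf (nat_lit 0) (nat_lit 346305806) (nat_lit 504) (nat_lit 2111402746) (nat_lit 84) (nat_lit 6575261681) (nat_lit 92) (nat_lit 5) (nat_lit 98) (nat_lit 5) (nat_lit 93) (nat_lit 5) (nat_lit 359) (nat_lit 303) (nat_lit 283)) (XT.nd (nat_lit 94) (nat_lit 0) (nat_lit 0) (XT.lf (nat_lit 0) (nat_lit 3197925068) (nat_lit 420) (nat_lit 5814668969) (nat_lit 84) (nat_lit 159456884) (nat_lit 88) (nat_lit 5) (nat_lit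 93) (nat_lit 5) (nat_lit 89) (nat_lit 5) (nat_lit 360) (nat_lit 303) (nat_lit 282)) (XT.lf (nat_lit 0) (nat_lit 6116362801) (nat_lit 420) (nat_lit 391667891) (nat_lit 84) (nat_lit 2807935314) (nat_lit 88) (nat_lit 5) (nat_lit 93) (nat_lit 5) (nat_lit 89) (nat_lit 5) (nat_lit 361) (nat_lit 303) (nat_lit 281)))) (XT.nd (nat_lit 188) (nat_lit 336) (nat_lit 0) (XT.nd (nat_lit 94) (nat_lit 420) (nat_lit 0) (XT.lf (nat_lit 0) (nat_lit 5212266789) (nat_lit 420) (nat_lit 3897475829) (nat_lit 504) (nat_lit 354931418) (nat_lit 83) (nat_lit 5) (nat_lit 88) (nat_lit 5) (nat_lit 89) (nat_lit 5) (nat_lit 362) (nat_lit 303) (nat_lit 280)) (XT.lf (nat_lit 0) (nat_lit 1291042742) (nat_lit 336) (nat_lit 1187807634) (nat_lit 420) (nat_lit 7139721346) (nat_lit 78) (nat_lit 5) (nat_lit 82) (nat_lit 5) (nat_lit 83) (nat_lit 5) (nat_lit 363) (nat_lit 303) (nat_lit 279))) (XT.nd (nat_lit 94) (nat_lit 336) (nat_lit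 0) (XT.lf (nat_lit 0) (nat_lit 5387711103) (nat_lit 420) (nat_lit 2792060043) (nat_lit 84) (nat_lit 1597382705) (nat_lit 78) (nat_lit 5) (nat_lit 83) (nat_lit 5) (nat_lit 79) (nat_lit 5) (nat_lit 364) (nat_lit 303) (nat_lit 278)) (XT.lf (nat_lit 0) (nat_lit 2871336243) (nat_lit 336) (nat_lit 5492079086) (nat_lit 420) (nat_lit 1577777109) (nat_lit 74) (nat_lit 5) (nat_lit 78) (nat_lit 5) (nat_lit 79) (nat_lit 5) (nat_lit 365) (nat_lit 303) (nat_lit 277))))) (XT.nd (nat_lit 282) (nat_lit 1008) (nat_lit 0) (XT.nd (nat_lit 94) (nat_lit 336) (nat_lit 0) (XT.lf (nat_lit 0) (nat_lit 1261496848) (nat_lit 420) (nat_lit 1443252130) (nat_lit 84) (nat_lit 7406034966) (nat_lit 73) (nat_lit 5) (nat_lit 78) (nat_lit 5) (nat_lit 74) (nat_lit 5) (nat_lit 366) (nat_lit 303) (nat_lit 276)) (XT.nd (nat_lit 94) (nat_lit 0) (nat_lit 0) (XT.lf (nat_lit 0) (nat_lit 4140152036) (nat_lit 420) (nat_lit 5946719334)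 (nat_lit 84) (nat_lit 198624733) (nat_lit 69) (nat_lit 5) (nat_lit 74) (nat_lit 5) (nat_lit 70) (nat_lit 5) (nat_lit 367) (nat_lit 303) (nat_lit 275)) (XT.lf (nat_lit 0) (nat_lit 7089603284) (nat_lit 420) (nat_lit 249308804) (nat_lit 84) (nat_lit 3127081147) (nat_lit 69) (nat_lit 5) (nat_lit 74) (nat_lit 5) (nat_lit 70) (nat_lit 5) (nat_lit 368) (nat_lit 303) (nat_lit 274)))) (XT.nd (nat_lit 188) (nat_lit 336) (nat_lit 0) (XT.nd (nat_lit 94) (nat_lit 336) (nat_lit 0) (XT.lf (nat_lit 0) (nat_lit 5650425757) (nat_lit 336) (nat_lit 4476028045) (nat_lit 420) (nat_lit 525558470) (nat_lit 65) (nat_lit 5) (nat_lit 69) (nat_lit 5) (nat_lit 70) (nat_lit 5) (nat_lit 369) (nat_lit 303) (nat_lit 273)) (XT.lf (nat_lit 0) (nat_lit 801922944) (nat_lit 252) (nat_lit 1516935199) (nat_lit 336) (nat_lit 8525475600) (nat_lit 61) (nat_lit 5) (nat_lit 64) (nat_lit 5) (nat_lit 65) (nat_lit 5) (nat_lit 370) (nat_lit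 303) (nat_lit 272))) (XT.nd (nat_lit 94) (nat_lit 336) (nat_lit 0) (XT.lf (nat_lit 0) (nat_lit 5249238522) (nat_lit 336) (nat_lit 4259204854) (nat_lit 84) (nat_lit 1533557688) (nat_lit 61) (nat_lit 5) (nat_lit 65) (nat_lit 5) (nat_lit 62) (nat_lit 5) (nat_lit 371) (nat_lit 303) (nat_lit 271)) (XT.lf (nat_lit 0) (nat_lit 1636805814) (nat_lit 336) (nat_lit 6608537782) (nat_lit 420) (nat_lit 3000986570) (nat_lit 57) (nat_lit 5) (nat_lit 61) (nat_lit 5) (nat_lit 62) (nat_lit 5) (nat_lit 372) (nat_lit 303) (nat_lit 270))))))) (XT.nd (nat_lit 1316) (nat_lit 1260) (nat_lit 0) (XT.nd (nat_lit 658) (nat_lit 756) (nat_lit 0) (XT.nd (nat_lit 282) (nat_lit 588) (nat_lit 0) (XT.nd (nat_lit 94) (nat_lit 336) (nat_lit 0) (XT.lf (nat_lit 0) (nat_lit 7720154959) (nat_lit 336) (nat_lit 3602049824) (nat_lit 420) (nat_lit 134922403) (nat_lit 57) (nat_lit 5) (nat_lit 61) (nat_lit 5) (nat_lit 62) (nat_lit 5)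 (nat_lit 373) (nat_lit 303) (nat_lit 269)) (XT.nd (nat_lit 94) (nat_lit 0) (nat_lit 0) (XT.lf (nat_lit 0) (nat_lit 2252947550) (nat_lit 252) (nat_lit 479680187) (nat_lit 336) (nat_lit 8941754240) (nat_lit 53) (nat_lit 5) (nat_lit 56) (nat_lit 5) (nat_lit 57) (nat_lit 5) (nat_lit 374) (nat_lit 303) (nat_lit 268)) (XT.lf (nat_lit 0) (nat_lit 5697259769) (nat_lit 336) (nat_lit 3502151436) (nat_lit 84) (nat_lit 2698348898) (nat_lit 53) (nat_lit 5) (nat_lit 57) (nat_lit 5) (nat_lit 54) (nat_lit 5) (nat_lit 375) (nat_lit 303) (nat_lit 267)))) (XT.nd (nat_lit 188) (nat_lit 336) (nat_lit 0) (XT.nd (nat_lit 94) (nat_lit 0) (nat_lit 0) (XT.lf (nat_lit 0) (nat_lit 2565968693) (nat_lit 252) (nat_lit 6165106071) (nat_lit 336) (nat_lit 3397414561) (nat_lit 50) (nat_lit 5) (nat_lit 53) (nat_lit 5) (nat_lit 54) (nat_lit 5) (nat_lit 376) (nat_lit 303) (nat_lit 266)) (XT.lf (nat_lit 0) (nat_lit 8814585876)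 (nat_lit 252) (nat_lit 3028239431) (nat_lit 336) (nat_lit 523762891) (nat_lit 50) (nat_lit 5) (nat_lit 53) (nat_lit 5) (nat_lit 54) (nat_lit 5) (nat_lit 377) (nat_lit 303) (nat_lit 265))) (XT.nd (nat_lit 94) (nat_lit 0) (nat_lit 0) (XT.lf (nat_lit 0) (nat_lit 2368134131) (nat_lit 336) (nat_lit 10020219413) (nat_lit 84) (nat_lit 223439018) (nat_lit 46) (nat_lit 5) (nat_lit 50) (nat_lit 5) (nat_lit 47) (nat_lit 5) (nat_lit 378) (nat_lit 303) (nat_lit 264)) (XT.lf (nat_lit 0) (nat_lit 5355376632) (nat_lit 336) (nat_lit 3979243434) (nat_lit 84) (nat_lit 3529054654) (nat_lit 46) (nat_lit 5) (nat_lit 50) (nat_lit 5) (nat_lit 47) (nat_lit 5) (nat_lit 379) (nat_lit 303) (nat_lit 263))))) (XT.nd (nat_lit 282) (nat_lit 252) (nat_lit 0) (XT.nd (nat_lit 94) (nat_lit 252) (nat_lit 0) (XT.lf (nat_lit 0) (nat_lit 2215602614) (nat_lit 252) (nat_lit 6192212808) (nat_lit 336) (nat_lit 4716079781) (nat_lit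 43) (nat_lit 5) (nat_lit 46) (nat_lit 5) (nat_lit 47) (nat_lit 5) (nat_lit 380) (nat_lit 303) (nat_lit 262)) (XT.nd (nat_lit 94) (nat_lit 252) (nat_lit 0) (XT.lf (nat_lit 0) (nat_lit 8607963130) (nat_lit 252) (nat_lit 2938987764) (nat_lit 336) (nat_lit 1845165496) (nat_lit 43) (nat_lit 5) (nat_lit 46) (nat_lit 5) (nat_lit 47) (nat_lit 5) (nat_lit 381) (nat_lit 303) (nat_lit 261)) (XT.lf (nat_lit 0) (nat_lit 1064082041) (nat_lit 252) (nat_lit 12200004790) (nat_lit 84) (nat_lit 404804716) (nat_lit 40) (nat_lit 5) (nat_lit 43) (nat_lit 5) (nat_lit 41) (nat_lit 5) (nat_lit 382) (nat_lit 303) (nat_lit 260)))) (XT.nd (nat_lit 188) (nat_lit 0) (nat_lit 0) (XT.nd (nat_lit 94) (nat_lit 252) (nat_lit 0) (XT.lf (nat_lit 0) (nat_lit 4057581108) (nat_lit 252) (nat_lit 6062010485) (nat_lit 84) (nat_lit 3832852235) (nat_lit 40) (nat_lit 5) (nat_lit 43) (nat_lit 5) (nat_lit 41) (nat_lit 5) (nat_lit 383)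 (nat_lit 303) (nat_lit 259)) (XT.lf (nat_lit 0) (nat_lit 196747270) (nat_lit 252) (nat_lit 6903477990) (nat_lit 336) (nat_lit 7145539682) (nat_lit 37) (nat_lit 5) (nat_lit 40) (nat_lit 5) (nat_lit 41) (nat_lit 5) (nat_lit 384) (nat_lit 303) (nat_lit 258))) (XT.nd (nat_lit 94) (nat_lit 0) (nat_lit 0) (XT.lf (nat_lit 0) (nat_lit 6700976381) (nat_lit 252) (nat_lit 3552435202) (nat_lit 336) (nat_lit 4293937447) (nat_lit 37) (nat_lit 5) (nat_lit 40) (nat_lit 5) (nat_lit 41) (nat_lit 5) (nat_lit 385) (nat_lit 303) (nat_lit 257)) (XT.lf (nat_lit 0) (nat_lit 13335714261) (nat_lit 252) (nat_lit 124749556) (nat_lit 336) (nat_lit 1398778745) (nat_lit 37) (nat_lit 5) (nat_lit 40) (nat_lit 5) (nat_lit 41) (nat_lit 5) (nat_lit 386) (nat_lit 303) (nat_lit 256)))))) (XT.nd (nat_lit 658) (nat_lit 588) (nat_lit 0) (XT.nd (nat_lit 282) (nat_lit 252) (nat_lit 0) (XT.nd (nat_lit 94) (nat_lit 168) (nat_lit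 0) (XT.lf (nat_lit 0) (nat_lit 1593645247) (nat_lit 252) (nat_lit 10205031942) (nat_lit 84) (nat_lit 3380157714) (nat_lit 34) (nat_lit 5) (nat_lit 37) (nat_lit 5) (nat_lit 35) (nat_lit 5) (nat_lit 387) (nat_lit 303) (nat_lit 255)) (XT.nd (nat_lit 94) (nat_lit 168) (nat_lit 0) (XT.lf (nat_lit 0) (nat_lit 4624859985) (nat_lit 252) (nat_lit 3889444146) (nat_lit 84) (nat_lit 6994018075) (nat_lit 34) (nat_lit 5) (nat_lit 37) (nat_lit 5) (nat_lit 35) (nat_lit 5) (nat_lit 388) (nat_lit 303) (nat_lit 254)) (XT.lf (nat_lit 0) (nat_lit 2604355019) (nat_lit 168) (nat_lit 5129205340) (nat_lit 252) (nat_lit 8114572857) (nat_lit 32) (nat_lit 5) (nat_lit 34) (nat_lit 5) (nat_lit 35) (nat_lit 5) (nat_lit 389) (nat_lit 303) (nat_lit 253)))) (XT.nd (nat_lit 188) (nat_lit 252) (nat_lit 0) (XT.nd (nat_lit 94) (nat_lit 0) (nat_lit 0) (XT.lf (nat_lit 0) (nat_lit 9311229937) (nat_lit 168) (nat_lit 1625612176)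 (nat_lit 252) (nat_lit 5261291362) (nat_lit 32) (nat_lit 5) (nat_lit 34) (nat_lit 5) (nat_lit 35) (nat_lit 5) (nat_lit 390) (nat_lit 303) (nat_lit 252)) (XT.lf (nat_lit 0) (nat_lit 14218215653) (nat_lit 252) (nat_lit 418982574) (nat_lit 84) (nat_lit 1922009239) (nat_lit 32) (nat_lit 5) (nat_lit 35) (nat_lit 5) (nat_lit 33) (nat_lit 4) (nat_lit 391) (nat_lit 303) (nat_lit 251))) (XT.nd (nat_lit 94) (nat_lit 0) (nat_lit 0) (XT.lf (nat_lit 0) (nat_lit 694849206) (nat_lit 252) (nat_lit 10645936362) (nat_lit 84) (nat_lit 5588938988) (nat_lit 29) (nat_lit 5) (nat_lit 32) (nat_lit 5) (nat_lit 30) (nat_lit 5) (nat_lit 392) (nat_lit 303) (nat_lit 250)) (XT.lf (nat_lit 0) (nat_lit 3743102764) (nat_lit 252) (nat_lit 4197219794) (nat_lit 84) (nat_lit 9371318269) (nat_lit 29) (nat_lit 5) (nat_lit 32) (nat_lit 5) (nat_lit 30) (nat_lit 5) (nat_lit 393) (nat_lit 303) (nat_lit 249))))) (XT.nd (nat_lit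 282) (nat_lit 420) (nat_lit 0) (XT.nd (nat_lit 94) (nat_lit 0) (nat_lit 0) (XT.lf (nat_lit 0) (nat_lit 2435195818) (nat_lit 168) (nat_lit 4436177996) (nat_lit 252) (nat_lit 10834013459) (nat_lit 27) (nat_lit 5) (nat_lit 29) (nat_lit 5) (nat_lit 30) (nat_lit 5) (nat_lit 394) (nat_lit 303) (nat_lit 248)) (XT.nd (nat_lit 94) (nat_lit 0) (nat_lit 0) (XT.lf (nat_lit 0) (nat_lit 9295902482) (nat_lit 168) (nat_lit 805604988) (nat_lit 252) (nat_lit 8009227127) (nat_lit 27) (nat_lit 5) (nat_lit 29) (nat_lit 5) (nat_lit 30) (nat_lit 5) (nat_lit 395) (nat_lit 303) (nat_lit 247)) (XT.lf (nat_lit 0) (nat_lit 13423170669) (nat_lit 252) (nat_lit 2249903079) (nat_lit 84) (nat_lit 2855357900) (nat_lit 27) (nat_lit 5) (nat_lit 30) (nat_lit 5) (nat_lit 28) (nat_lit 4) (nat_lit 396) (nat_lit 303) (nat_lit 246)))) (XT.nd (nat_lit 188) (nat_lit 168) (nat_lit 0) (XT.nd (nat_lit 94) (nat_lit 84) (nat_lit 0) (XT.lf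 (nat_lit 0) (nat_lit 4538295066) (nat_lit 168) (nat_lit 12325191052) (nat_lit 252) (nat_lit 2094630682) (nat_lit 25) (nat_lit 5) (nat_lit 27) (nat_lit 5) (nat_lit 28) (nat_lit 4) (nat_lit 397) (nat_lit 303) (nat_lit 245)) (XT.lf (nat_lit 0) (nat_lit 977115963) (nat_lit 252) (nat_lit 7888050945) (nat_lit 84) (nat_lit 10535548058) (nat_lit 24) (nat_lit 5) (nat_lit 27) (nat_lit 5) (nat_lit 25) (nat_lit 5) (nat_lit 398) (nat_lit 303) (nat_lit 244))) (XT.nd (nat_lit 94) (nat_lit 168) (nat_lit 0) (XT.lf (nat_lit 0) (nat_lit 4067351687) (nat_lit 252) (nat_lit 1233883132) (nat_lit 84) (nat_lit 14555705936) (nat_lit 24) (nat_lit 5) (nat_lit 27) (nat_lit 5) (nat_lit 25) (nat_lit 5) (nat_lit 399) (nat_lit 303) (nat_lit 243)) (XT.lf (nat_lit 0) (nat_lit 5679457572) (nat_lit 168) (nat_lit 1594787331) (nat_lit 252) (nat_lit 13051914119) (nat_lit 22) (nat_lit 5) (nat_lit 24) (nat_lit 5) (nat_lit 25)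 (nat_lit 5) (nat_lit 400) (nat_lit 303) (nat_lit 242))))))))
noncomputable def xc60 : XT := (XT.nd (nat_lit 2538) (nat_lit 420) (nat_lit 0) (XT.nd (nat_lit 1222) (nat_lit 336) (nat_lit 0) (XT.nd (nat_lit 564) (nat_lit 336) (nat_lit 0) (XT.nd (nat_lit 282) (nat_lit 252) (nat_lit 0) (XT.nd (nat_lit 94) (nat_lit 84) (nat_lit 0) (XT.lf (nat_lit 0) (nat_lit 10580858554) (nat_lit 252) (nat_lit 8056588316) (nat_lit 84) (nat_lit 2171925070) (nat_lit 22) (nat_lit 5) (nat_lit 25) (nat_lit 5) (nat_lit 23) (nat_lit 4) (nat_lit 401) (nat_lit 303) (nat_lit 241)) (XT.nd (nat_lit 94) (nat_lit 84) (nat_lit 0) (XT.lf (nat_lit 0) (nat_lit 13972910145) (nat_lit 252) (nat_lit 1334570861) (nat_lit 84) (nat_lit 6000035883) (nat_lit 22) (nat_lit 5) (nat_lit 25) (nat_lit 5) (nat_lit 23) (nat_lit 4) (nat_lit 402) (nat_lit 303) (nat_lit 240)) (XT.lf (nat_lit 0) (nat_lit 5650822494) (nat_lit 84) (nat_lit 11841530202)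 (nat_lit 168) (nat_lit 4327506769) (nat_lit 21) (nat_lit 5) (nat_lit 22) (nat_lit 5) (nat_lit 23) (nat_lit 4) (nat_lit 403) (nat_lit 303) (nat_lit 239)))) (XT.nd (nat_lit 94) (nat_lit 252) (nat_lit 0) (XT.lf (nat_lit 0) (nat_lit 12825058526) (nat_lit 84) (nat_lit 8277480280) (nat_lit 168) (nat_lit 1245500222) (nat_lit 21) (nat_lit 5) (nat_lit 22) (nat_lit 5) (nat_lit 23) (nat_lit 4) (nat_lit 404) (nat_lit 303) (nat_lit 238)) (XT.nd (nat_lit 94) (nat_lit 168) (nat_lit 0) (XT.lf (nat_lit 0) (nat_lit 1863541238) (nat_lit 168) (nat_lit 2743334219) (nat_lit 84) (nat_lit 18285486057) (nat_lit 20) (nat_lit 5) (nat_lit 22) (nat_lit 5) (nat_lit 21) (nat_lit 5) (nat_lit 405) (nat_lit 303) (nat_lit 237)) (XT.lf (nat_lit 0) (nat_lit 4264716470) (nat_lit 168) (nat_lit 790124265) (nat_lit 252) (nat_lit 18397402076) (nat_lit 18) (nat_lit 5) (nat_lit 20) (nat_lit 5) (nat_lit 21) (nat_lit 5) (nat_lit 406)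 (nat_lit 303) (nat_lit 236))))) (XT.nd (nat_lit 282) (nat_lit 252) (nat_lit 0) (XT.nd (nat_lit 94) (nat_lit 84) (nat_lit 0) (XT.lf (nat_lit 0) (nat_lit 8373243649) (nat_lit 252) (nat_lit 12565374612) (nat_lit 84) (nat_lit 3089380471) (nat_lit 18) (nat_lit 5) (nat_lit 21) (nat_lit 5) (nat_lit 19) (nat_lit 4) (nat_lit 407) (nat_lit 303) (nat_lit 235)) (XT.nd (nat_lit 94) (nat_lit 84) (nat_lit 0) (XT.lf (nat_lit 0) (nat_lit 11772995834) (nat_lit 252) (nat_lit 5797100506) (nat_lit 84) (nat_lit 7051495637) (nat_lit 18) (nat_lit 5) (nat_lit 21) (nat_lit 5) (nat_lit 19) (nat_lit 4) (nat_lit 408) (nat_lit 303) (nat_lit 234)) (XT.lf (nat_lit 0) (nat_lit 1153310398) (nat_lit 84) (nat_lit 14107248714) (nat_lit 168) (nat_lit 9972877370) (nat_lit 17) (nat_lit 5) (nat_lit 18) (nat_lit 5) (nat_lit 19) (nat_lit 4) (nat_lit 409) (nat_lit 303) (nat_lit 233)))) (XT.nd (nat_lit 188) (nat_lit 252) (nat_lit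 0) (XT.nd (nat_lit 94) (nat_lit 0) (nat_lit 0) (XT.lf (nat_lit 0) (nat_lit 8388077498) (nat_lit 84) (nat_lit 10498266044) (nat_lit 168) (nat_lit 6976302450) (nat_lit 17) (nat_lit 5) (nat_lit 18) (nat_lit 5) (nat_lit 19) (nat_lit 4) (nat_lit 410) (nat_lit 303) (nat_lit 232)) (XT.lf (nat_lit 0) (nat_lit 15798148767) (nat_lit 84) (nat_lit 6798534199) (nat_lit 168) (nat_lit 3914792363) (nat_lit 17) (nat_lit 5) (nat_lit 18) (nat_lit 5) (nat_lit 19) (nat_lit 4) (nat_lit 411) (nat_lit 303) (nat_lit 231))) (XT.nd (nat_lit 94) (nat_lit 252) (nat_lit 0) (XT.lf (nat_lit 0) (nat_lit 23389999023) (nat_lit 84) (nat_lit 3004820402) (nat_lit 168) (nat_lit 785672006) (nat_lit 17) (nat_lit 5) (nat_lit 18) (nat_lit 5) (nat_lit 19) (nat_lit 4) (nat_lit 412) (nat_lit 303) (nat_lit 230)) (XT.lf (nat_lit 0) (nat_lit 2407882716) (nat_lit 252) (nat_lit 24535690895) (nat_lit 84) (nat_lit 924773429) (nat_lit 14)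 (nat_lit 5) (nat_lit 17) (nat_lit 5) (nat_lit 15) (nat_lit 4) (nat_lit 413) (nat_lit 303) (nat_lit 229)))))) (XT.nd (nat_lit 658) (nat_lit 252) (nat_lit 0) (XT.nd (nat_lit 282) (nat_lit 84) (nat_lit 0) (XT.nd (nat_lit 94) (nat_lit 0) (nat_lit 0) (XT.lf (nat_lit 0) (nat_lit 5726921940) (nat_lit 252) (nat_lit 17906363621) (nat_lit 84) (nat_lit 4941970406) (nat_lit 14) (nat_lit 5) (nat_lit 17) (nat_lit 5) (nat_lit 15) (nat_lit 4) (nat_lit 414) (nat_lit 303) (nat_lit 228)) (XT.nd (nat_lit 94) (nat_lit 0) (nat_lit 0) (XT.lf (nat_lit 0) (nat_lit 9123263287) (nat_lit 252) (nat_lit 11116958016) (nat_lit 84) (nat_lit 9063833583) (nat_lit 14) (nat_lit 5) (nat_lit 17) (nat_lit 5) (nat_lit 15) (nat_lit 4) (nat_lit 415) (nat_lit 303) (nat_lit 227)) (XT.lf (nat_lit 0) (nat_lit 12599874435) (nat_lit 252) (nat_lit 4161541591) (nat_lit 84) (nat_lit 13293964586) (nat_lit 14) (nat_lit 5) (nat_lit 17) (nat_lit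 5) (nat_lit 15) (nat_lit 4) (nat_lit 416) (nat_lit 303) (nat_lit 226)))) (XT.nd (nat_lit 188) (nat_lit 0) (nat_lit 0) (XT.nd (nat_lit 94) (nat_lit 0) (nat_lit 0) (XT.lf (nat_lit 0) (nat_lit 3024991687) (nat_lit 84) (nat_lit 13163879583) (nat_lit 168) (nat_lit 14640146031) (nat_lit 13) (nat_lit 5) (nat_lit 14) (nat_lit 5) (nat_lit 15) (nat_lit 4) (nat_lit 417) (nat_lit 303) (nat_lit 225)) (XT.lf (nat_lit 0) (nat_lit 10476212933) (nat_lit 84) (nat_lit 9430621022) (nat_lit 168) (nat_lit 11718403664) (nat_lit 13) (nat_lit 5) (nat_lit 14) (nat_lit 5) (nat_lit 15) (nat_lit 4) (nat_lit 418) (nat_lit 303) (nat_lit 224))) (XT.nd (nat_lit 94) (nat_lit 0) (nat_lit 0) (XT.lf (nat_lit 0) (nat_lit 18115810085) (nat_lit 84) (nat_lit 5600401684) (nat_lit 168) (nat_lit 8729749509) (nat_lit 13) (nat_lit 5) (nat_lit 14) (nat_lit 5) (nat_lit 15) (nat_lit 4) (nat_lit 419) (nat_lit 303) (nat_lit 223)) (XT.lf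 (nat_lit 0) (nat_lit 25950458520) (nat_lit 84) (nat_lit 1669874776) (nat_lit 168) (nat_lit 5671572120) (nat_lit 13) (nat_lit 5) (nat_lit 14) (nat_lit 5) (nat_lit 15) (nat_lit 4) (nat_lit 420) (nat_lit 303) (nat_lit 222))))) (XT.nd (nat_lit 282) (nat_lit 84) (nat_lit 0) (XT.nd (nat_lit 94) (nat_lit 168) (nat_lit 0) (XT.lf (nat_lit 0) (nat_lit 31645337905) (nat_lit 168) (nat_lit 199533163) (nat_lit 0) (nat_lit 2318256297) (nat_lit 13) (nat_lit 5) (nat_lit 15) (nat_lit 4) (nat_lit 13) (nat_lit 4) (nat_lit 421) (nat_lit 303) (nat_lit 221)) (XT.nd (nat_lit 94) (nat_lit 0) (nat_lit 0) (XT.lf (nat_lit 0) (nat_lit 784674572) (nat_lit 168) (nat_lit 27817212288) (nat_lit 84) (nat_lit 6456350249) (nat_lit 11) (nat_lit 5) (nat_lit 13) (nat_lit 5) (nat_lit 12) (nat_lit 4) (nat_lit 422) (nat_lit 303) (nat_lit 220)) (XT.lf (nat_lit 0) (nat_lit 4119131077) (nat_lit 168) (nat_lit 21128867584) (nat_lit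 84) (nat_lit 10731959145) (nat_lit 11) (nat_lit 5) (nat_lit 13) (nat_lit 5) (nat_lit 12) (nat_lit 4) (nat_lit 423) (nat_lit 303) (nat_lit 219)))) (XT.nd (nat_lit 188) (nat_lit 84) (nat_lit 0) (XT.nd (nat_lit 94) (nat_lit 0) (nat_lit 0) (XT.lf (nat_lit 0) (nat_lit 7535649221) (nat_lit 168) (nat_lit 14271590122) (nat_lit 84) (nat_lit 15122640846) (nat_lit 11) (nat_lit 5) (nat_lit 13) (nat_lit 5) (nat_lit 12) (nat_lit 4) (nat_lit 424) (nat_lit 303) (nat_lit 218)) (XT.lf (nat_lit 0) (nat_lit 11037214313) (nat_lit 168) (nat_lit 7239388103) (nat_lit 84) (nat_lit 19632231871) (nat_lit 11) (nat_lit 5) (nat_lit 13) (nat_lit 5) (nat_lit 12) (nat_lit 4) (nat_lit 425) (nat_lit 303) (nat_lit 217))) (XT.nd (nat_lit 94) (nat_lit 84) (nat_lit 0) (XT.lf (nat_lit 0) (nat_lit 14626885971) (nat_lit 168) (nat_lit 26116887) (nat_lit 84) (nat_lit 24264672638) (nat_lit 11) (nat_lit 5) (nat_lit 13) (nat_lit 5)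 (nat_lit 12) (nat_lit 4) (nat_lit 426) (nat_lit 303) (nat_lit 216)) (XT.lf (nat_lit 0) (nat_lit 7521293920) (nat_lit 84) (nat_lit 10858806160) (nat_lit 168) (nat_lit 21575016269) (nat_lit 10) (nat_lit 5) (nat_lit 11) (nat_lit 5) (nat_lit 12) (nat_lit 4) (nat_lit 427) (nat_lit 303) (nat_lit 215))))))) (XT.nd (nat_lit 1316) (nat_lit 168) (nat_lit 0) (XT.nd (nat_lit 658) (nat_lit 168) (nat_lit 0) (XT.nd (nat_lit 282) (nat_lit 84) (nat_lit 0) (XT.nd (nat_lit 94) (nat_lit 0) (nat_lit 0) (XT.lf (nat_lit 0) (nat_lit 15266920912) (nat_lit 84) (nat_lit 6963009211) (nat_lit 168) (nat_lit 18794239407) (nat_lit 10) (nat_lit 5) (nat_lit 11) (nat_lit 5) (nat_lit 12) (nat_lit 4) (nat_lit 428) (nat_lit 303) (nat_lit 214)) (XT.nd (nat_lit 94) (nat_lit 0) (nat_lit 0) (XT.lf (nat_lit 0) (nat_lit 23217012334) (nat_lit 84) (nat_lit 2962471646) (nat_lit 168) (nat_lit 15946292863) (nat_lit 10) (nat_lit 5) (nat_lit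 11) (nat_lit 5) (nat_lit 12) (nat_lit 4) (nat_lit 429) (nat_lit 303) (nat_lit 213)) (XT.lf (nat_lit 0) (nat_lit 30243231676) (nat_lit 168) (nat_lit 11893404949) (nat_lit 0) (nat_lit 1123933666) (nat_lit 10) (nat_lit 5) (nat_lit 12) (nat_lit 4) (nat_lit 10) (nat_lit 4) (nat_lit 430) (nat_lit 303) (nat_lit 212)))) (XT.nd (nat_lit 188) (nat_lit 0) (nat_lit 0) (XT.nd (nat_lit 94) (nat_lit 84) (nat_lit 0) (XT.lf (nat_lit 0) (nat_lit 34443247506) (nat_lit 168) (nat_lit 4723563457) (nat_lit 0) (nat_lit 5262174772) (nat_lit 10) (nat_lit 5) (nat_lit 12) (nat_lit 4) (nat_lit 10) (nat_lit 4) (nat_lit 431) (nat_lit 303) (nat_lit 211)) (XT.lf (nat_lit 0) (nat_lit 2687953621) (nat_lit 84) (nat_lit 36092608929) (nat_lit 84) (nat_lit 6851560736) (nat_lit 9) (nat_lit 4) (nat_lit 10) (nat_lit 5) (nat_lit 10) (nat_lit 4) (nat_lit 432) (nat_lit 303) (nat_lit 210))) (XT.nd (nat_lit 94) (nat_lit 0) (nat_lit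 0) (XT.lf (nat_lit 0) (nat_lit 10393026958) (nat_lit 84) (nat_lit 32888306532) (nat_lit 84) (nat_lit 3589029738) (nat_lit 9) (nat_lit 4) (nat_lit 10) (nat_lit 5) (nat_lit 10) (nat_lit 4) (nat_lit 433) (nat_lit 303) (nat_lit 209)) (XT.lf (nat_lit 0) (nat_lit 18304380966) (nat_lit 84) (nat_lit 29598802625) (nat_lit 84) (nat_lit 242993208) (nat_lit 9) (nat_lit 4) (nat_lit 10) (nat_lit 5) (nat_lit 10) (nat_lit 4) (nat_lit 434) (nat_lit 303) (nat_lit 208))))) (XT.nd (nat_lit 282) (nat_lit 84) (nat_lit 0) (XT.nd (nat_lit 94) (nat_lit 0) (nat_lit 0) (XT.lf (nat_lit 0) (nat_lit 3127234476) (nat_lit 168) (nat_lit 23062409470) (nat_lit 84) (nat_lit 23270115067) (nat_lit 8) (nat_lit 5) (nat_lit 10) (nat_lit 5) (nat_lit 9) (nat_lit 4) (nat_lit 435) (nat_lit 303) (nat_lit 207)) (XT.nd (nat_lit 94) (nat_lit 0) (nat_lit 0) (XT.lf (nat_lit 0) (nat_lit 6580403911) (nat_lit 168) (nat_lit 16105762935) (nat_lit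 84) (nat_lit 28126915529) (nat_lit 8) (nat_lit 5) (nat_lit 10) (nat_lit 5) (nat_lit 9) (nat_lit 4) (nat_lit 436) (nat_lit 303) (nat_lit 206)) (XT.lf (nat_lit 0) (nat_lit 10124274102) (nat_lit 168) (nat_lit 8963441807) (nat_lit 84) (nat_lit 33119683570) (nat_lit 8) (nat_lit 5) (nat_lit 10) (nat_lit 5) (nat_lit 9) (nat_lit 4) (nat_lit 437) (nat_lit 303) (nat_lit 205)))) (XT.nd (nat_lit 188) (nat_lit 0) (nat_lit 0) (XT.nd (nat_lit 94) (nat_lit 84) (nat_lit 0) (XT.lf (nat_lit 0) (nat_lit 13761941633) (nat_lit 168) (nat_lit 1629205221) (nat_lit 84) (nat_lit 38252781800) (nat_lit 8) (nat_lit 5) (nat_lit 10) (nat_lit 5) (nat_lit 9) (nat_lit 4) (nat_lit 438) (nat_lit 303) (nat_lit 204)) (XT.lf (nat_lit 0) (nat_lit 6020843724) (nat_lit 84) (nat_lit 11533617358) (nat_lit 168) (nat_lit 37567727761) (nat_lit 7) (nat_lit 5) (nat_lit 8) (nat_lit 5) (nat_lit 9) (nat_lit 4) (nat_lit 439) (nat_lit 303)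 (nat_lit 203))) (XT.nd (nat_lit 94) (nat_lit 0) (nat_lit 0) (XT.lf (nat_lit 0) (nat_lit 13912300939) (nat_lit 84) (nat_lit 7552900240) (nat_lit 168) (nat_lit 35179468903) (nat_lit 7) (nat_lit 5) (nat_lit 8) (nat_lit 5) (nat_lit 9) (nat_lit 4) (nat_lit 440) (nat_lit 303) (nat_lit 202)) (XT.lf (nat_lit 0) (nat_lit 22019637493) (nat_lit 84) (nat_lit 3461968981) (nat_lit 168) (nat_lit 32731575397) (nat_lit 7) (nat_lit 5) (nat_lit 8) (nat_lit 5) (nat_lit 9) (nat_lit 4) (nat_lit 441) (nat_lit 303) (nat_lit 201)))))) (XT.nd (nat_lit 658) (nat_lit 84) (nat_lit 0) (XT.nd (nat_lit 282) (nat_lit 84) (nat_lit 0) (XT.nd (nat_lit 94) (nat_lit 0) (nat_lit 0) (XT.lf (nat_lit 0) (nat_lit 29614326226) (nat_lit 168) (nat_lit 29486297068) (nat_lit 0) (nat_lit 728257270) (nat_lit 7) (nat_lit 5) (nat_lit 9) (nat_lit 4) (nat_lit 7) (nat_lit 4) (nat_lit 442) (nat_lit 303) (nat_lit 200)) (XT.nd (nat_lit 94) (nat_lit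 0) (nat_lit 0) (XT.lf (nat_lit 0) (nat_lit 33894233220) (nat_lit 168) (nat_lit 22632028182) (nat_lit 0) (nat_lit 4966098683) (nat_lit 7) (nat_lit 5) (nat_lit 9) (nat_lit 4) (nat_lit 7) (nat_lit 4) (nat_lit 443) (nat_lit 303) (nat_lit 199)) (XT.lf (nat_lit 0) (nat_lit 38291788617) (nat_lit 168) (nat_lit 15591469988) (nat_lit 0) (nat_lit 9322813710) (nat_lit 7) (nat_lit 5) (nat_lit 9) (nat_lit 4) (nat_lit 7) (nat_lit 4) (nat_lit 444) (nat_lit 303) (nat_lit 198)))) (XT.nd (nat_lit 188) (nat_lit 84) (nat_lit 0) (XT.nd (nat_lit 94) (nat_lit 0) (nat_lit 0) (XT.lf (nat_lit 0) (nat_lit 42810834941) (nat_lit 168) (nat_lit 8358470544) (nat_lit 0) (nat_lit 13802209190) (nat_lit 7) (nat_lit 5) (nat_lit 9) (nat_lit 4) (nat_lit 7) (nat_lit 4) (nat_lit 445) (nat_lit 303) (nat_lit 197)) (XT.lf (nat_lit 0) (nat_lit 47455320874) (nat_lit 168) (nat_lit 926709752) (nat_lit 0) (nat_lit 18408199158) (nat_lit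 7) (nat_lit 5) (nat_lit 9) (nat_lit 4) (nat_lit 7) (nat_lit 4) (nat_lit 446) (nat_lit 303) (nat_lit 196))) (XT.nd (nat_lit 94) (nat_lit 0) (nat_lit 0) (XT.lf (nat_lit 0) (nat_lit 6843854409) (nat_lit 84) (nat_lit 45451237610) (nat_lit 84) (nat_lit 16366741171) (nat_lit 6) (nat_lit 4) (nat_lit 7) (nat_lit 5) (nat_lit 7) (nat_lit 4) (nat_lit 447) (nat_lit 303) (nat_lit 195)) (XT.lf (nat_lit 0) (nat_lit 14849007938) (nat_lit 84) (nat_lit 42430687682) (nat_lit 84) (nat_lit 13309905104) (nat_lit 6) (nat_lit 4) (nat_lit 7) (nat_lit 5) (nat_lit 7) (nat_lit 4) (nat_lit 448) (nat_lit 303) (nat_lit 194))))) (XT.nd (nat_lit 282) (nat_lit 84) (nat_lit 0) (XT.nd (nat_lit 94) (nat_lit 0) (nat_lit 0) (XT.lf (nat_lit 0) (nat_lit 23077302289) (nat_lit 84) (nat_lit 39327099480) (nat_lit 84) (nat_lit 10171087640) (nat_lit 6) (nat_lit 4) (nat_lit 7) (nat_lit 5) (nat_lit 7) (nat_lit 4) (nat_lit 449) (nat_lit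 303) (nat_lit 193)) (XT.nd (nat_lit 94) (nat_lit 0) (nat_lit 0) (XT.lf (nat_lit 0) (nat_lit 31535927234) (nat_lit 84) (nat_lit 36137761128) (nat_lit 84) (nat_lit 6947546122) (nat_lit 6) (nat_lit 4) (nat_lit 7) (nat_lit 5) (nat_lit 7) (nat_lit 4) (nat_lit 450) (nat_lit 303) (nat_lit 192)) (XT.lf (nat_lit 0) (nat_lit 40232273803) (nat_lit 84) (nat_lit 32859885827) (nat_lit 84) (nat_lit 3636463863) (nat_lit 6) (nat_lit 4) (nat_lit 7) (nat_lit 5) (nat_lit 7) (nat_lit 4) (nat_lit 451) (nat_lit 303) (nat_lit 191)))) (XT.nd (nat_lit 48504) (nat_lit 0) (nat_lit 16632) (XT.nd (nat_lit 94) (nat_lit 84) (nat_lit 0) (XT.lf (nat_lit 0) (nat_lit 49173940747) (nat_lit 84) (nat_lit 29490609414) (nat_lit 84) (nat_lit 234947686) (nat_lit 6) (nat_lit 4) (nat_lit 7) (nat_lit 5) (nat_lit 7) (nat_lit 4) (nat_lit 452) (nat_lit 303) (nat_lit 190)) (XT.lf (nat_lit 0) (nat_lit 3196360762) (nat_lit 168) (nat_lit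 22798350122) (nat_lit 84) (nat_lit 55140103433) (nat_lit 5) (nat_lit 5) (nat_lit 7) (nat_lit 5) (nat_lit 6) (nat_lit 4) (nat_lit 453) (nat_lit 303) (nat_lit 189))) (XT.nd (nat_lit 94) (nat_lit 1092) (nat_lit 0) (XT.lf (nat_lit 0) (nat_lit 3324830676) (nat_lit 924) (nat_lit 90116624) (nat_lit 924) (nat_lit 90116624) (nat_lit 216) (nat_lit 4) (nat_lit 227) (nat_lit 5) (nat_lit 227) (nat_lit 4) (nat_lit 337) (nat_lit 304) (nat_lit 304)) (XT.lf (nat_lit 0) (nat_lit 2873192625) (nat_lit 1092) (nat_lit 3010634003) (nat_lit 0) (nat_lit 1180492704) (nat_lit 203) (nat_lit 5) (nat_lit 216) (nat_lit 4) (nat_lit 203) (nat_lit 4) (nat_lit 338) (nat_lit 304) (nat_lit 303))))))))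
noncomputable def xc61 : XT := (XT.nd (nat_lit 2632) (nat_lit 3696) (nat_lit 0) (XT.nd (nat_lit 1316) (nat_lit 3612) (nat_lit 0) (XT.nd (nat_lit 658) (nat_lit 2940) (nat_lit 0) (XT.nd (nat_lit 282) (nat_lit 2016) (nat_lit 0) (XT.nd (nat_lit 94) (nat_lit 1260) (nat_lit 0) (XT.lf (nat_lit 0) (nat_lit 1423198110) (nat_lit 1092) (nat_lit 4517714614) (nat_lit 1092) (nat_lit 1181616713) (nat_lit 190) (nat_lit 4) (nat_lit 203) (nat_lit 5) (nat_lit 203) (nat_lit 4) (nat_lit 339) (nat_lit 304) (nat_lit 302)) (XT.nd (nat_lit 94) (nat_lit 1176) (nat_lit 0) (XT.lf (nat_lit 0) (nat_lit 1819358586) (nat_lit 1176) (nat_lit 1238331991) (nat_lit 84) (nat_lit 4126306082) (nat_lit 189) (nat_lit 5) (nat_lit 203) (nat_lit 5) (nat_lit 190) (nat_lit 4) (nat_lit 340) (nat_lit 304) (nat_lit 301)) (XT.lf (nat_lit 0) (nat_lit 3322467661) (nat_lit 1176) (nat_lit 1506674110) (nat_lit 1260) (nat_lit 2419755133) (nat_lit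 175) (nat_lit 5) (nat_lit 189) (nat_lit 5) (nat_lit 190) (nat_lit 4) (nat_lit 341) (nat_lit 304) (nat_lit 300)))) (XT.nd (nat_lit 188) (nat_lit 672) (nat_lit 0) (XT.nd (nat_lit 94) (nat_lit 0) (nat_lit 0) (XT.lf (nat_lit 0) (nat_lit 532779694) (nat_lit 1344) (nat_lit 6670527211) (nat_lit 84) (nat_lit 114525474) (nat_lit 159) (nat_lit 5) (nat_lit 175) (nat_lit 5) (nat_lit 160) (nat_lit 4) (nat_lit 342) (nat_lit 304) (nat_lit 299)) (XT.lf (nat_lit 0) (nat_lit 3493246169) (nat_lit 1344) (nat_lit 2078389802) (nat_lit 84) (nat_lit 1817639006) (nat_lit 159) (nat_lit 5) (nat_lit 175) (nat_lit 5) (nat_lit 160) (nat_lit 4) (nat_lit 343) (nat_lit 304) (nat_lit 298))) (XT.nd (nat_lit 94) (nat_lit 84) (nat_lit 0) (XT.lf (nat_lit 0) (nat_lit 2614951649) (nat_lit 588) (nat_lit 3868275499) (nat_lit 672) (nat_lit 981604440) (nat_lit 152) (nat_lit 5) (nat_lit 159) (nat_lit 5) (nat_lit 160) (nat_lit 4)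 (nat_lit 344) (nat_lit 304) (nat_lit 297)) (XT.lf (nat_lit 0) (nat_lit 1918212881) (nat_lit 672) (nat_lit 158531966) (nat_lit 84) (nat_lit 5467386720) (nat_lit 151) (nat_lit 5) (nat_lit 159) (nat_lit 5) (nat_lit 152) (nat_lit 5) (nat_lit 345) (nat_lit 304) (nat_lit 296))))) (XT.nd (nat_lit 282) (nat_lit 1680) (nat_lit 0) (XT.nd (nat_lit 94) (nat_lit 672) (nat_lit 0) (XT.lf (nat_lit 0) (nat_lit 4668948215) (nat_lit 588) (nat_lit 179856336) (nat_lit 672) (nat_lit 2777984637) (nat_lit 144) (nat_lit 5) (nat_lit 151) (nat_lit 5) (nat_lit 152) (nat_lit 5) (nat_lit 346) (nat_lit 304) (nat_lit 295)) (XT.nd (nat_lit 94) (nat_lit 0) (nat_lit 0) (XT.lf (nat_lit 0) (nat_lit 108477593) (nat_lit 672) (nat_lit 5850192276) (nat_lit 84) (nat_lit 1754693596) (nat_lit 136) (nat_lit 5) (nat_lit 144) (nat_lit 5) (nat_lit 137) (nat_lit 5) (nat_lit 347) (nat_lit 304) (nat_lit 294)) (XT.lf (nat_lit 0) (nat_lit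 2978326048) (nat_lit 672) (nat_lit 1030321280) (nat_lit 84) (nat_lit 3794644275) (nat_lit 136) (nat_lit 5) (nat_lit 144) (nat_lit 5) (nat_lit 137) (nat_lit 5) (nat_lit 348) (nat_lit 304) (nat_lit 293)))) (XT.nd (nat_lit 188) (nat_lit 504) (nat_lit 0) (XT.nd (nat_lit 94) (nat_lit 588) (nat_lit 0) (XT.lf (nat_lit 0) (nat_lit 3924763536) (nat_lit 588) (nat_lit 1970226097) (nat_lit 672) (nat_lit 2002262274) (nat_lit 129) (nat_lit 5) (nat_lit 136) (nat_lit 5) (nat_lit 137) (nat_lit 5) (nat_lit 349) (nat_lit 304) (nat_lit 292)) (XT.lf (nat_lit 0) (nat_lit 832329845) (nat_lit 588) (nat_lit 7017625197) (nat_lit 84) (nat_lit 145615825) (nat_lit 122) (nat_lit 5) (nat_lit 129) (nat_lit 5) (nat_lit 123) (nat_lit 5) (nat_lit 350) (nat_lit 304) (nat_lit 291))) (XT.nd (nat_lit 94) (nat_lit 504) (nat_lit 0) (XT.lf (nat_lit 0) (nat_lit 3696552257) (nat_lit 588) (nat_lit 2065274316) (nat_lit 84) (nat_lit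 2335015693) (nat_lit 122) (nat_lit 5) (nat_lit 129) (nat_lit 5) (nat_lit 123) (nat_lit 5) (nat_lit 351) (nat_lit 304) (nat_lit 290)) (XT.lf (nat_lit 0) (nat_lit 3008693001) (nat_lit 504) (nat_lit 3593936837) (nat_lit 588) (nat_lit 1599982639) (nat_lit 116) (nat_lit 5) (nat_lit 122) (nat_lit 5) (nat_lit 123) (nat_lit 5) (nat_lit 352) (nat_lit 304) (nat_lit 289)))))) (XT.nd (nat_lit 658) (nat_lit 1596) (nat_lit 0) (XT.nd (nat_lit 282) (nat_lit 1008) (nat_lit 0) (XT.nd (nat_lit 94) (nat_lit 924) (nat_lit 0) (XT.lf (nat_lit 0) (nat_lit 1207809806) (nat_lit 588) (nat_lit 132665614) (nat_lit 84) (nat_lit 6972384441) (nat_lit 115) (nat_lit 5) (nat_lit 122) (nat_lit 5) (nat_lit 116) (nat_lit 5) (nat_lit 353) (nat_lit 304) (nat_lit 288)) (XT.nd (nat_lit 94) (nat_lit 504) (nat_lit 0) (XT.lf (nat_lit 0) (nat_lit 4056033704) (nat_lit 504) (nat_lit 3356822445) (nat_lit 84) (nat_lit 1013559372) (nat_lit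 110) (nat_lit 5) (nat_lit 116) (nat_lit 5) (nat_lit 111) (nat_lit 5) (nat_lit 354) (nat_lit 304) (nat_lit 287)) (XT.lf (nat_lit 0) (nat_lit 1824494530) (nat_lit 504) (nat_lit 5128080158) (nat_lit 588) (nat_lit 1592040132) (nat_lit 104) (nat_lit 5) (nat_lit 110) (nat_lit 5) (nat_lit 111) (nat_lit 5) (nat_lit 355) (nat_lit 304) (nat_lit 286)))) (XT.nd (nat_lit 188) (nat_lit 504) (nat_lit 0) (XT.nd (nat_lit 94) (nat_lit 420) (nat_lit 0) (XT.lf (nat_lit 0) (nat_lit 1210233243) (nat_lit 588) (nat_lit 1533597125) (nat_lit 84) (nat_lit 5923318896) (nat_lit 103) (nat_lit 5) (nat_lit 110) (nat_lit 5) (nat_lit 104) (nat_lit 5) (nat_lit 356) (nat_lit 304) (nat_lit 285)) (XT.lf (nat_lit 0) (nat_lit 3783307001) (nat_lit 420) (nat_lit 250766924) (nat_lit 504) (nat_lit 4759840641) (nat_lit 98) (nat_lit 5) (nat_lit 103) (nat_lit 5) (nat_lit 104) (nat_lit 5) (nat_lit 357) (nat_lit 304) (nat_lit 284)))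 (XT.nd (nat_lit 94) (nat_lit 84) (nat_lit 0) (XT.lf (nat_lit 0) (nat_lit 265510434) (nat_lit 420) (nat_lit 6651708662) (nat_lit 504) (nat_lit 2008135406) (nat_lit 93) (nat_lit 5) (nat_lit 98) (nat_lit 5) (nat_lit 99) (nat_lit 5) (nat_lit 358) (nat_lit 304) (nat_lit 283)) (XT.lf (nat_lit 0) (nat_lit 798075854) (nat_lit 504) (nat_lit 3352480966) (nat_lit 84) (nat_lit 4910403393) (nat_lit 92) (nat_lit 5) (nat_lit 98) (nat_lit 5) (nat_lit 93) (nat_lit 5) (nat_lit 359) (nat_lit 304) (nat_lit 282))))) (XT.nd (nat_lit 282) (nat_lit 840) (nat_lit 0) (XT.nd (nat_lit 94) (nat_lit 420) (nat_lit 0) (XT.lf (nat_lit 0) (nat_lit 2051771762) (nat_lit 336) (nat_lit 1552465323) (nat_lit 420) (nat_lit 5597216854) (nat_lit 88) (nat_lit 5) (nat_lit 92) (nat_lit 5) (nat_lit 93) (nat_lit 5) (nat_lit 360) (nat_lit 304) (nat_lit 281)) (XT.nd (nat_lit 94) (nat_lit 420) (nat_lit 0) (XT.lf (nat_lit 0) (nat_lit 6476857708)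 (nat_lit 420) (nat_lit 1752874370) (nat_lit 84) (nat_lit 1117059323) (nat_lit 88) (nat_lit 5) (nat_lit 93) (nat_lit 5) (nat_lit 89) (nat_lit 5) (nat_lit 361) (nat_lit 304) (nat_lit 280)) (XT.lf (nat_lit 0) (nat_lit 3783256219) (nat_lit 420) (nat_lit 5643250738) (nat_lit 504) (nat_lit 70350858) (nat_lit 83) (nat_lit 5) (nat_lit 88) (nat_lit 5) (nat_lit 89) (nat_lit 5) (nat_lit 362) (nat_lit 304) (nat_lit 279)))) (XT.nd (nat_lit 188) (nat_lit 420) (nat_lit 0) (XT.nd (nat_lit 94) (nat_lit 336) (nat_lit 0) (XT.lf (nat_lit 0) (nat_lit 2715630741) (nat_lit 504) (nat_lit 238245258) (nat_lit 84) (nat_lit 6698108646) (nat_lit 82) (nat_lit 5) (nat_lit 88) (nat_lit 5) (nat_lit 83) (nat_lit 5) (nat_lit 363) (nat_lit 304) (nat_lit 278)) (XT.lf (nat_lit 0) (nat_lit 5427423275) (nat_lit 336) (nat_lit 149721853) (nat_lit 420) (nat_lit 4234884561) (nat_lit 78) (nat_lit 5) (nat_lit 82) (nat_lit 5) (nat_lit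 83) (nat_lit 5) (nat_lit 364) (nat_lit 304) (nat_lit 277))) (XT.nd (nat_lit 94) (nat_lit 84) (nat_lit 0) (XT.lf (nat_lit 0) (nat_lit 1208366655) (nat_lit 336) (nat_lit 7298465606) (nat_lit 420) (nat_lit 1470657813) (nat_lit 74) (nat_lit 5) (nat_lit 78) (nat_lit 5) (nat_lit 79) (nat_lit 5) (nat_lit 365) (nat_lit 304) (nat_lit 276)) (XT.lf (nat_lit 0) (nat_lit 1338073255) (nat_lit 420) (nat_lit 3183179746) (nat_lit 84) (nat_lit 5626690182) (nat_lit 73) (nat_lit 5) (nat_lit 78) (nat_lit 5) (nat_lit 74) (nat_lit 5) (nat_lit 366) (nat_lit 304) (nat_lit 275))))))) (XT.nd (nat_lit 1316) (nat_lit 1428) (nat_lit 0) (XT.nd (nat_lit 658) (nat_lit 924) (nat_lit 0) (XT.nd (nat_lit 282) (nat_lit 672) (nat_lit 0) (XT.nd (nat_lit 94) (nat_lit 336) (nat_lit 0) (XT.lf (nat_lit 0) (nat_lit 2526984743) (nat_lit 336) (nat_lit 1642737177) (nat_lit 420) (nat_lit 6154381402) (nat_lit 69) (nat_lit 5) (nat_lit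 73) (nat_lit 5) (nat_lit 74) (nat_lit 5) (nat_lit 367) (nat_lit 304) (nat_lit 274)) (XT.nd (nat_lit 94) (nat_lit 336) (nat_lit 0) (XT.lf (nat_lit 0) (nat_lit 7076091722) (nat_lit 420) (nat_lit 2122763578) (nat_lit 84) (nat_lit 1307074279) (nat_lit 69) (nat_lit 5) (nat_lit 74) (nat_lit 5) (nat_lit 70) (nat_lit 5) (nat_lit 368) (nat_lit 304) (nat_lit 273)) (XT.lf (nat_lit 0) (nat_lit 3701219884) (nat_lit 336) (nat_lit 6366489814) (nat_lit 420) (nat_lit 625631508) (nat_lit 65) (nat_lit 5) (nat_lit 69) (nat_lit 5) (nat_lit 70) (nat_lit 5) (nat_lit 369) (nat_lit 304) (nat_lit 272)))) (XT.nd (nat_lit 188) (nat_lit 336) (nat_lit 0) (XT.nd (nat_lit 94) (nat_lit 252) (nat_lit 0) (XT.lf (nat_lit 0) (nat_lit 2186654317) (nat_lit 420) (nat_lit 1241202102) (nat_lit 84) (nat_lit 7458891193) (nat_lit 64) (nat_lit 5) (nat_lit 69) (nat_lit 5) (nat_lit 65) (nat_lit 5) (nat_lit 370) (nat_lit 304) (nat_lit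 271)) (XT.lf (nat_lit 0) (nat_lit 4692922540) (nat_lit 252) (nat_lit 370941048) (nat_lit 336) (nat_lit 6022179069) (nat_lit 61) (nat_lit 5) (nat_lit 64) (nat_lit 5) (nat_lit 65) (nat_lit 5) (nat_lit 371) (nat_lit 304) (nat_lit 270))) (XT.nd (nat_lit 94) (nat_lit 336) (nat_lit 0) (XT.lf (nat_lit 0) (nat_lit 8015349802) (nat_lit 336) (nat_lit 562602788) (nat_lit 84) (nat_lit 2713789378) (nat_lit 61) (nat_lit 5) (nat_lit 65) (nat_lit 5) (nat_lit 62) (nat_lit 5) (nat_lit 372) (nat_lit 304) (nat_lit 269)) (XT.lf (nat_lit 0) (nat_lit 5472794296) (nat_lit 336) (nat_lit 5588965947) (nat_lit 420) (nat_lit 441722988) (nat_lit 57) (nat_lit 5) (nat_lit 61) (nat_lit 5) (nat_lit 62) (nat_lit 5) (nat_lit 373) (nat_lit 304) (nat_lit 268))))) (XT.nd (nat_lit 282) (nat_lit 336) (nat_lit 0) (XT.nd (nat_lit 94) (nat_lit 504) (nat_lit 0) (XT.lf (nat_lit 0) (nat_lit 2385679523) (nat_lit 420) (nat_lit 117983858)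 (nat_lit 84) (nat_lit 9218576105) (nat_lit 56) (nat_lit 5) (nat_lit 61) (nat_lit 5) (nat_lit 57) (nat_lit 5) (nat_lit 374) (nat_lit 304) (nat_lit 267)) (XT.nd (nat_lit 94) (nat_lit 252) (nat_lit 0) (XT.lf (nat_lit 0) (nat_lit 5305465482) (nat_lit 336) (nat_lit 5940340349) (nat_lit 84) (nat_lit 701185277) (nat_lit 53) (nat_lit 5) (nat_lit 57) (nat_lit 5) (nat_lit 54) (nat_lit 5) (nat_lit 375) (nat_lit 304) (nat_lit 266)) (XT.lf (nat_lit 0) (nat_lit 43128330) (nat_lit 252) (nat_lit 8248384411) (nat_lit 336) (nat_lit 3887667916) (nat_lit 50) (nat_lit 5) (nat_lit 53) (nat_lit 5) (nat_lit 54) (nat_lit 5) (nat_lit 376) (nat_lit 304) (nat_lit 265)))) (XT.nd (nat_lit 188) (nat_lit 252) (nat_lit 0) (XT.nd (nat_lit 94) (nat_lit 84) (nat_lit 0) (XT.lf (nat_lit 0) (nat_lit 6256671036) (nat_lit 252) (nat_lit 5123423390) (nat_lit 336) (nat_lit 1037906670) (nat_lit 50) (nat_lit 5) (nat_lit 53) (nat_lit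 5) (nat_lit 54) (nat_lit 5) (nat_lit 377) (nat_lit 304) (nat_lit 264)) (XT.lf (nat_lit 0) (nat_lit 1814157120) (nat_lit 336) (nat_lit 95701459) (nat_lit 84) (nat_lit 10755016109) (nat_lit 49) (nat_lit 5) (nat_lit 53) (nat_lit 5) (nat_lit 50) (nat_lit 5) (nat_lit 378) (nat_lit 304) (nat_lit 263))) (XT.nd (nat_lit 94) (nat_lit 0) (nat_lit 0) (XT.lf (nat_lit 0) (nat_lit 4759571819) (nat_lit 336) (nat_lit 6737940115) (nat_lit 84) (nat_lit 1420523997) (nat_lit 46) (nat_lit 5) (nat_lit 50) (nat_lit 5) (nat_lit 47) (nat_lit 5) (nat_lit 379) (nat_lit 304) (nat_lit 262)) (XT.lf (nat_lit 0) (nat_lit 7768847314) (nat_lit 336) (nat_lit 620090756) (nat_lit 84) (nat_lit 4790636787) (nat_lit 46) (nat_lit 5) (nat_lit 50) (nat_lit 5) (nat_lit 47) (nat_lit 5) (nat_lit 380) (nat_lit 304) (nat_lit 261)))))) (XT.nd (nat_lit 658) (nat_lit 420) (nat_lit 0) (XT.nd (nat_lit 282) (nat_lit 504) (nat_lit 0) (XT.nd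 (nat_lit 94) (nat_lit 252) (nat_lit 0) (XT.lf (nat_lit 0) (nat_lit 5726497439) (nat_lit 252) (nat_lit 5153855958) (nat_lit 336) (nat_lit 2568294388) (nat_lit 43) (nat_lit 5) (nat_lit 46) (nat_lit 5) (nat_lit 47) (nat_lit 5) (nat_lit 381) (nat_lit 304) (nat_lit 260)) (XT.nd (nat_lit 94) (nat_lit 168) (nat_lit 0) (XT.lf (nat_lit 0) (nat_lit 315784884) (nat_lit 336) (nat_lit 1519714545) (nat_lit 84) (nat_lit 11891331969) (nat_lit 42) (nat_lit 5) (nat_lit 46) (nat_lit 5) (nat_lit 43) (nat_lit 5) (nat_lit 382) (nat_lit 304) (nat_lit 259)) (XT.lf (nat_lit 0) (nat_lit 3255632175) (nat_lit 252) (nat_lit 9154563599) (nat_lit 84) (nat_lit 1601818377) (nat_lit 40) (nat_lit 5) (nat_lit 43) (nat_lit 5) (nat_lit 41) (nat_lit 5) (nat_lit 383) (nat_lit 304) (nat_lit 258)))) (XT.nd (nat_lit 188) (nat_lit 252) (nat_lit 0) (XT.nd (nat_lit 94) (nat_lit 252) (nat_lit 0) (XT.lf (nat_lit 0) (nat_lit 6276034437)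 (nat_lit 252) (nat_lit 2931791835) (nat_lit 84) (nat_lit 5098196559) (nat_lit 40) (nat_lit 5) (nat_lit 43) (nat_lit 5) (nat_lit 41) (nat_lit 5) (nat_lit 384) (nat_lit 304) (nat_lit 257)) (XT.lf (nat_lit 0) (nat_lit 3482257291) (nat_lit 252) (nat_lit 5898156530) (nat_lit 336) (nat_lit 5228677025) (nat_lit 37) (nat_lit 5) (nat_lit 40) (nat_lit 5) (nat_lit 41) (nat_lit 5) (nat_lit 385) (nat_lit 304) (nat_lit 256))) (XT.nd (nat_lit 94) (nat_lit 252) (nat_lit 0) (XT.lf (nat_lit 0) (nat_lit 10086090724) (nat_lit 252) (nat_lit 2481895831) (nat_lit 336) (nat_lit 2353601350) (nat_lit 37) (nat_lit 5) (nat_lit 40) (nat_lit 5) (nat_lit 41) (nat_lit 5) (nat_lit 386) (nat_lit 304) (nat_lit 255)) (XT.lf (nat_lit 0) (nat_lit 582477463) (nat_lit 252) (nat_lit 13645573790) (nat_lit 84) (nat_lit 1015671707) (nat_lit 34) (nat_lit 5) (nat_lit 37) (nat_lit 5) (nat_lit 35) (nat_lit 5) (nat_lit 387) (nat_lit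 304) (nat_lit 254))))) (XT.nd (nat_lit 282) (nat_lit 252) (nat_lit 0) (XT.nd (nat_lit 94) (nat_lit 168) (nat_lit 0) (XT.lf (nat_lit 0) (nat_lit 3594733846) (nat_lit 252) (nat_lit 7360565606) (nat_lit 84) (nat_lit 4618497080) (nat_lit 34) (nat_lit 5) (nat_lit 37) (nat_lit 5) (nat_lit 35) (nat_lit 5) (nat_lit 388) (nat_lit 304) (nat_lit 253)) (XT.nd (nat_lit 94) (nat_lit 168) (nat_lit 0) (XT.lf (nat_lit 0) (nat_lit 6659993398) (nat_lit 252) (nat_lit 947275729) (nat_lit 84) (nat_lit 8307658650) (nat_lit 34) (nat_lit 5) (nat_lit 37) (nat_lit 5) (nat_lit 35) (nat_lit 5) (nat_lit 389) (nat_lit 304) (nat_lit 252)) (XT.lf (nat_lit 0) (nat_lit 5711348669) (nat_lit 168) (nat_lit 4124486808) (nat_lit 252) (nat_lit 6429932263) (nat_lit 32) (nat_lit 5) (nat_lit 34) (nat_lit 5) (nat_lit 35) (nat_lit 5) (nat_lit 390) (nat_lit 304) (nat_lit 251)))) (XT.nd (nat_lit 188) (nat_lit 84) (nat_lit 0) (XT.nd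 (nat_lit 94) (nat_lit 168) (nat_lit 0) (XT.lf (nat_lit 0) (nat_lit 12531210524) (nat_lit 168) (nat_lit 549531325) (nat_lit 252) (nat_lit 3547209929) (nat_lit 32) (nat_lit 5) (nat_lit 34) (nat_lit 5) (nat_lit 35) (nat_lit 5) (nat_lit 391) (nat_lit 304) (nat_lit 250)) (XT.lf (nat_lit 0) (nat_lit 2516541783) (nat_lit 168) (nat_lit 13925815937) (nat_lit 252) (nat_lit 558094345) (nat_lit 30) (nat_lit 5) (nat_lit 32) (nat_lit 5) (nat_lit 33) (nat_lit 4) (nat_lit 392) (nat_lit 304) (nat_lit 249))) (XT.nd (nat_lit 94) (nat_lit 0) (nat_lit 0) (XT.lf (nat_lit 0) (nat_lit 2483887718) (nat_lit 252) (nat_lit 8058046652) (nat_lit 84) (nat_lit 6841124438) (nat_lit 29) (nat_lit 5) (nat_lit 32) (nat_lit 5) (nat_lit 30) (nat_lit 5) (nat_lit 393) (nat_lit 304) (nat_lit 248)) (XT.lf (nat_lit 0) (nat_lit 5572088115) (nat_lit 252) (nat_lit 1500546289) (nat_lit 84) (nat_lit 10705387216) (nat_lit 29) (nat_lit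 5) (nat_lit 32) (nat_lit 5) (nat_lit 30) (nat_lit 5) (nat_lit 394) (nat_lit 304) (nat_lit 247))))))))
noncomputable def xc62 : XT := (XT.nd (nat_lit 2538) (nat_lit 588) (nat_lit 0) (XT.nd (nat_lit 1222) (nat_lit 420) (nat_lit 0) (XT.nd (nat_lit 564) (nat_lit 336) (nat_lit 0) (XT.nd (nat_lit 282) (nat_lit 252) (nat_lit 0) (XT.nd (nat_lit 94) (nat_lit 168) (nat_lit 0) (XT.lf (nat_lit 0) (nat_lit 5303169339) (nat_lit 168) (nat_lit 3467903671) (nat_lit 252) (nat_lit 9413244227) (nat_lit 27) (nat_lit 5) (nat_lit 29) (nat_lit 5) (nat_lit 30) (nat_lit 5) (nat_lit 395) (nat_lit 304) (nat_lit 246)) (XT.nd (nat_lit 94) (nat_lit 168) (nat_lit 0) (XT.lf (nat_lit 0) (nat_lit 12051086042) (nat_lit 252) (nat_lit 6317356754) (nat_lit 84) (nat_lit 234834424) (nat_lit 27) (nat_lit 5) (nat_lit 30) (nat_lit 5) (nat_lit 28) (nat_lit 4) (nat_lit 396) (nat_lit 304) (nat_lit 245)) (XT.lf (nat_lit 0) (nat_lit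 363423606) (nat_lit 168) (nat_lit 15072255667) (nat_lit 252) (nat_lit 3598967801) (nat_lit 25) (nat_lit 5) (nat_lit 27) (nat_lit 5) (nat_lit 28) (nat_lit 4) (nat_lit 397) (nat_lit 304) (nat_lit 244)))) (XT.nd (nat_lit 94) (nat_lit 252) (nat_lit 0) (XT.lf (nat_lit 0) (nat_lit 7321962933) (nat_lit 168) (nat_lit 11632411353) (nat_lit 252) (nat_lit 523632509) (nat_lit 25) (nat_lit 5) (nat_lit 27) (nat_lit 5) (nat_lit 28) (nat_lit 4) (nat_lit 398) (nat_lit 304) (nat_lit 243)) (XT.nd (nat_lit 94) (nat_lit 168) (nat_lit 0) (XT.lf (nat_lit 0) (nat_lit 2561725604) (nat_lit 252) (nat_lit 5522103074) (nat_lit 84) (nat_lit 11851019707) (nat_lit 24) (nat_lit 5) (nat_lit 27) (nat_lit 5) (nat_lit 25) (nat_lit 5) (nat_lit 399) (nat_lit 304) (nat_lit 242)) (XT.lf (nat_lit 0) (nat_lit 1280880796) (nat_lit 168) (nat_lit 4430800324) (nat_lit 252) (nat_lit 14694105246) (nat_lit 22) (nat_lit 5) (nat_lit 24)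 (nat_lit 5) (nat_lit 25) (nat_lit 5) (nat_lit 400) (nat_lit 304) (nat_lit 241))))) (XT.nd (nat_lit 282) (nat_lit 252) (nat_lit 0) (XT.nd (nat_lit 94) (nat_lit 84) (nat_lit 0) (XT.lf (nat_lit 0) (nat_lit 8351854714) (nat_lit 168) (nat_lit 630684219) (nat_lit 252) (nat_lit 11907544272) (nat_lit 22) (nat_lit 5) (nat_lit 24) (nat_lit 5) (nat_lit 25) (nat_lit 5) (nat_lit 401) (nat_lit 304) (nat_lit 240)) (XT.nd (nat_lit 94) (nat_lit 84) (nat_lit 0) (XT.lf (nat_lit 0) (nat_lit 12354395121) (nat_lit 252) (nat_lit 5834066013) (nat_lit 84) (nat_lit 3200383799) (nat_lit 22) (nat_lit 5) (nat_lit 25) (nat_lit 5) (nat_lit 23) (nat_lit 4) (nat_lit 402) (nat_lit 304) (nat_lit 239)) (XT.lf (nat_lit 0) (nat_lit 1038095551) (nat_lit 84) (nat_lit 14777680523) (nat_lit 168) (nat_lit 6087163883) (nat_lit 21) (nat_lit 5) (nat_lit 22) (nat_lit 5) (nat_lit 23) (nat_lit 4) (nat_lit 403) (nat_lit 304) (nat_lit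 238)))) (XT.nd (nat_lit 188) (nat_lit 168) (nat_lit 0) (XT.nd (nat_lit 94) (nat_lit 84) (nat_lit 0) (XT.lf (nat_lit 0) (nat_lit 8189338366) (nat_lit 84) (nat_lit 11223081196) (nat_lit 168) (nat_lit 3019116527) (nat_lit 21) (nat_lit 5) (nat_lit 22) (nat_lit 5) (nat_lit 23) (nat_lit 4) (nat_lit 404) (nat_lit 304) (nat_lit 237)) (XT.lf (nat_lit 0) (nat_lit 111246423) (nat_lit 168) (nat_lit 7468100028) (nat_lit 84) (nat_lit 15397431941) (nat_lit 20) (nat_lit 5) (nat_lit 22) (nat_lit 5) (nat_lit 21) (nat_lit 5) (nat_lit 405) (nat_lit 304) (nat_lit 236))) (XT.nd (nat_lit 94) (nat_lit 168) (nat_lit 0) (XT.lf (nat_lit 0) (nat_lit 3248649739) (nat_lit 168) (nat_lit 565208805) (nat_lit 84) (nat_lit 19724427450) (nat_lit 20) (nat_lit 5) (nat_lit 22) (nat_lit 5) (nat_lit 21) (nat_lit 5) (nat_lit 406) (nat_lit 304) (nat_lit 235)) (XT.lf (nat_lit 0) (nat_lit 6519569936) (nat_lit 252) (nat_lit 17485666368)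 (nat_lit 84) (nat_lit 110239235) (nat_lit 18) (nat_lit 5) (nat_lit 21) (nat_lit 5) (nat_lit 19) (nat_lit 4) (nat_lit 407) (nat_lit 304) (nat_lit 234)))))) (XT.nd (nat_lit 658) (nat_lit 84) (nat_lit 0) (XT.nd (nat_lit 282) (nat_lit 252) (nat_lit 0) (XT.nd (nat_lit 94) (nat_lit 84) (nat_lit 0) (XT.lf (nat_lit 0) (nat_lit 9906874931) (nat_lit 252) (nat_lit 10738779781) (nat_lit 84) (nat_lit 4063796365) (nat_lit 18) (nat_lit 5) (nat_lit 21) (nat_lit 5) (nat_lit 19) (nat_lit 4) (nat_lit 408) (nat_lit 304) (nat_lit 233)) (XT.nd (nat_lit 94) (nat_lit 84) (nat_lit 0) (XT.lf (nat_lit 0) (nat_lit 13371267235) (nat_lit 252) (nat_lit 3831638697) (nat_lit 84) (nat_lit 8119093399) (nat_lit 18) (nat_lit 5) (nat_lit 21) (nat_lit 5) (nat_lit 19) (nat_lit 4) (nat_lit 409) (nat_lit 304) (nat_lit 232)) (XT.lf (nat_lit 0) (nat_lit 3306310272) (nat_lit 84) (nat_lit 13641245991) (nat_lit 168) (nat_lit 9005145805)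 (nat_lit 17) (nat_lit 5) (nat_lit 18) (nat_lit 5) (nat_lit 19) (nat_lit 4) (nat_lit 410) (nat_lit 304) (nat_lit 231)))) (XT.nd (nat_lit 188) (nat_lit 252) (nat_lit 0) (XT.nd (nat_lit 94) (nat_lit 0) (nat_lit 0) (XT.lf (nat_lit 0) (nat_lit 10696419398) (nat_lit 84) (nat_lit 9949893458) (nat_lit 168) (nat_lit 5955574158) (nat_lit 17) (nat_lit 5) (nat_lit 18) (nat_lit 5) (nat_lit 19) (nat_lit 4) (nat_lit 411) (nat_lit 304) (nat_lit 230)) (XT.lf (nat_lit 0) (nat_lit 18268888933) (nat_lit 84) (nat_lit 6164314917) (nat_lit 168) (nat_lit 2838044517) (nat_lit 17) (nat_lit 5) (nat_lit 18) (nat_lit 5) (nat_lit 19) (nat_lit 4) (nat_lit 412) (nat_lit 304) (nat_lit 229))) (XT.nd (nat_lit 94) (nat_lit 168) (nat_lit 0) (XT.lf (nat_lit 0) (nat_lit 343334147) (nat_lit 168) (nat_lit 1934401430) (nat_lit 84) (nat_lit 25683534450) (nat_lit 16) (nat_lit 5) (nat_lit 18) (nat_lit 5) (nat_lit 17) (nat_lit 5)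 (nat_lit 413) (nat_lit 304) (nat_lit 228)) (XT.lf (nat_lit 0) (nat_lit 3610355917) (nat_lit 252) (nat_lit 23302442783) (nat_lit 84) (nat_lit 1756947996) (nat_lit 14) (nat_lit 5) (nat_lit 17) (nat_lit 5) (nat_lit 15) (nat_lit 4) (nat_lit 414) (nat_lit 304) (nat_lit 227))))) (XT.nd (nat_lit 282) (nat_lit 84) (nat_lit 0) (XT.nd (nat_lit 94) (nat_lit 0) (nat_lit 0) (XT.lf (nat_lit 0) (nat_lit 6996046802) (nat_lit 252) (nat_lit 16531594493) (nat_lit 84) (nat_lit 5871230843) (nat_lit 14) (nat_lit 5) (nat_lit 17) (nat_lit 5) (nat_lit 15) (nat_lit 4) (nat_lit 415) (nat_lit 304) (nat_lit 226)) (XT.nd (nat_lit 94) (nat_lit 0) (nat_lit 0) (XT.lf (nat_lit 0) (nat_lit 10462317694) (nat_lit 252) (nat_lit 9594194876) (nat_lit 84) (nat_lit 10094002303) (nat_lit 14) (nat_lit 5) (nat_lit 17) (nat_lit 5) (nat_lit 15) (nat_lit 4) (nat_lit 416) (nat_lit 304) (nat_lit 225)) (XT.lf (nat_lit 0) (nat_lit 14012197375)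 (nat_lit 252) (nat_lit 2484182129) (nat_lit 84) (nat_lit 14428952177) (nat_lit 14) (nat_lit 5) (nat_lit 17) (nat_lit 5) (nat_lit 15) (nat_lit 4) (nat_lit 417) (nat_lit 304) (nat_lit 224)))) (XT.nd (nat_lit 188) (nat_lit 0) (nat_lit 0) (XT.nd (nat_lit 94) (nat_lit 0) (nat_lit 0) (XT.lf (nat_lit 0) (nat_lit 4900278463) (nat_lit 84) (nat_lit 12795613692) (nat_lit 168) (nat_lit 14026694295) (nat_lit 13) (nat_lit 5) (nat_lit 14) (nat_lit 5) (nat_lit 15) (nat_lit 4) (nat_lit 418) (nat_lit 304) (nat_lit 223)) (XT.lf (nat_lit 0) (nat_lit 12523059540) (nat_lit 84) (nat_lit 8972585985) (nat_lit 168) (nat_lit 11047959545) (nat_lit 13) (nat_lit 5) (nat_lit 14) (nat_lit 5) (nat_lit 15) (nat_lit 4) (nat_lit 419) (nat_lit 304) (nat_lit 222))) (XT.nd (nat_lit 94) (nat_lit 0) (nat_lit 0) (XT.lf (nat_lit 0) (nat_lit 20341381688) (nat_lit 84) (nat_lit 5049041242) (nat_lit 168) (nat_lit 7999412645) (nat_lit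 13) (nat_lit 5) (nat_lit 14) (nat_lit 5) (nat_lit 15) (nat_lit 4) (nat_lit 420) (nat_lit 304) (nat_lit 221)) (XT.lf (nat_lit 0) (nat_lit 28362076450) (nat_lit 84) (nat_lit 1021551123) (nat_lit 168) (nat_lit 4878389819) (nat_lit 13) (nat_lit 5) (nat_lit 14) (nat_lit 5) (nat_lit 15) (nat_lit 4) (nat_lit 421) (nat_lit 304) (nat_lit 220))))))) (XT.nd (nat_lit 1316) (nat_lit 168) (nat_lit 0) (XT.nd (nat_lit 658) (nat_lit 168) (nat_lit 0) (XT.nd (nat_lit 282) (nat_lit 84) (nat_lit 0) (XT.nd (nat_lit 94) (nat_lit 84) (nat_lit 0) (XT.lf (nat_lit 0) (nat_lit 1429200488) (nat_lit 84) (nat_lit 32093214464) (nat_lit 84) (nat_lit 1637187680) (nat_lit 12) (nat_lit 4) (nat_lit 13) (nat_lit 5) (nat_lit 13) (nat_lit 4) (nat_lit 422) (nat_lit 304) (nat_lit 219)) (XT.nd (nat_lit 94) (nat_lit 0) (nat_lit 0) (XT.lf (nat_lit 0) (nat_lit 1720363023) (nat_lit 168) (nat_lit 27041944216) (nat_lit 84) (nat_lit 7319759188)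 (nat_lit 11) (nat_lit 5) (nat_lit 13) (nat_lit 5) (nat_lit 12) (nat_lit 4) (nat_lit 423) (nat_lit 304) (nat_lit 218)) (XT.lf (nat_lit 0) (nat_lit 5128285800) (nat_lit 168) (nat_lit 20199836097) (nat_lit 84) (nat_lit 11704129989) (nat_lit 11) (nat_lit 5) (nat_lit 13) (nat_lit 5) (nat_lit 12) (nat_lit 4) (nat_lit 424) (nat_lit 304) (nat_lit 217)))) (XT.nd (nat_lit 188) (nat_lit 84) (nat_lit 0) (XT.nd (nat_lit 94) (nat_lit 0) (nat_lit 0) (XT.lf (nat_lit 0) (nat_lit 8621505874) (nat_lit 168) (nat_lit 13182361597) (nat_lit 84) (nat_lit 16207593926) (nat_lit 11) (nat_lit 5) (nat_lit 13) (nat_lit 5) (nat_lit 12) (nat_lit 4) (nat_lit 425) (nat_lit 304) (nat_lit 216)) (XT.lf (nat_lit 0) (nat_lit 12203075573) (nat_lit 168) (nat_lit 5983388942) (nat_lit 84) (nat_lit 20834086064) (nat_lit 11) (nat_lit 5) (nat_lit 13) (nat_lit 5) (nat_lit 12) (nat_lit 4) (nat_lit 426) (nat_lit 304) (nat_lit 215)))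 (XT.nd (nat_lit 94) (nat_lit 0) (nat_lit 0) (XT.lf (nat_lit 0) (nat_lit 1431302090) (nat_lit 84) (nat_lit 14458580886) (nat_lit 168) (nat_lit 24170105430) (nat_lit 10) (nat_lit 5) (nat_lit 11) (nat_lit 5) (nat_lit 12) (nat_lit 4) (nat_lit 427) (nat_lit 304) (nat_lit 214)) (XT.lf (nat_lit 0) (nat_lit 9163183082) (nat_lit 84) (nat_lit 10568760928) (nat_lit 168) (nat_lit 21397335280) (nat_lit 10) (nat_lit 5) (nat_lit 11) (nat_lit 5) (nat_lit 12) (nat_lit 4) (nat_lit 428) (nat_lit 304) (nat_lit 213))))) (XT.nd (nat_lit 282) (nat_lit 168) (nat_lit 0) (XT.nd (nat_lit 94) (nat_lit 0) (nat_lit 0) (XT.lf (nat_lit 0) (nat_lit 17099928874) (nat_lit 84) (nat_lit 6574026267) (nat_lit 168) (nat_lit 18557162242) (nat_lit 10) (nat_lit 5) (nat_lit 11) (nat_lit 5) (nat_lit 12) (nat_lit 4) (nat_lit 429) (nat_lit 304) (nat_lit 212)) (XT.nd (nat_lit 94) (nat_lit 0) (nat_lit 0) (XT.lf (nat_lit 0) (nat_lit 25248474485)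 (nat_lit 84) (nat_lit 2470886358) (nat_lit 168) (nat_lit 15647104613) (nat_lit 10) (nat_lit 5) (nat_lit 11) (nat_lit 5) (nat_lit 12) (nat_lit 4) (nat_lit 430) (nat_lit 304) (nat_lit 211)) (XT.lf (nat_lit 0) (nat_lit 31888462680) (nat_lit 168) (nat_lit 10937142299) (nat_lit 0) (nat_lit 1710207582) (nat_lit 10) (nat_lit 5) (nat_lit 12) (nat_lit 4) (nat_lit 10) (nat_lit 4) (nat_lit 431) (nat_lit 304) (nat_lit 210)))) (XT.nd (nat_lit 188) (nat_lit 84) (nat_lit 0) (XT.nd (nat_lit 94) (nat_lit 84) (nat_lit 0) (XT.lf (nat_lit 0) (nat_lit 36192985759) (nat_lit 168) (nat_lit 3590450168) (nat_lit 0) (nat_lit 5956502060) (nat_lit 10) (nat_lit 5) (nat_lit 12) (nat_lit 4) (nat_lit 10) (nat_lit 4) (nat_lit 432) (nat_lit 304) (nat_lit 209)) (XT.lf (nat_lit 0) (nat_lit 4030914185) (nat_lit 84) (nat_lit 36620773072) (nat_lit 84) (nat_lit 6327756750) (nat_lit 9) (nat_lit 4) (nat_lit 10) (nat_lit 5) (nat_lit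 10) (nat_lit 4) (nat_lit 433) (nat_lit 304) (nat_lit 208))) (XT.nd (nat_lit 94) (nat_lit 84) (nat_lit 0) (XT.lf (nat_lit 0) (nat_lit 11930373063) (nat_lit 84) (nat_lit 33336495413) (nat_lit 84) (nat_lit 2988593049) (nat_lit 9) (nat_lit 4) (nat_lit 10) (nat_lit 5) (nat_lit 10) (nat_lit 4) (nat_lit 434) (nat_lit 304) (nat_lit 207)) (XT.lf (nat_lit 0) (nat_lit 428668735) (nat_lit 168) (nat_lit 29530992249) (nat_lit 84) (nat_lit 19610374458) (nat_lit 8) (nat_lit 5) (nat_lit 10) (nat_lit 5) (nat_lit 9) (nat_lit 4) (nat_lit 435) (nat_lit 304) (nat_lit 206)))))) (XT.nd (nat_lit 658) (nat_lit 84) (nat_lit 0) (XT.nd (nat_lit 282) (nat_lit 84) (nat_lit 0) (XT.nd (nat_lit 94) (nat_lit 0) (nat_lit 0) (XT.lf (nat_lit 0) (nat_lit 3875486284) (nat_lit 168) (nat_lit 22585687982) (nat_lit 84) (nat_lit 24462378646) (nat_lit 8) (nat_lit 5) (nat_lit 10) (nat_lit 5) (nat_lit 9) (nat_lit 4) (nat_lit 436) (nat_lit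 304) (nat_lit 205)) (XT.nd (nat_lit 94) (nat_lit 0) (nat_lit 0) (XT.lf (nat_lit 0) (nat_lit 7413189595) (nat_lit 168) (nat_lit 15454378763) (nat_lit 84) (nat_lit 29450490110) (nat_lit 8) (nat_lit 5) (nat_lit 10) (nat_lit 5) (nat_lit 9) (nat_lit 4) (nat_lit 437) (nat_lit 304) (nat_lit 204)) (XT.lf (nat_lit 0) (nat_lit 11044869865) (nat_lit 168) (nat_lit 8130833352) (nat_lit 84) (nat_lit 34579067391) (nat_lit 8) (nat_lit 5) (nat_lit 10) (nat_lit 5) (nat_lit 9) (nat_lit 4) (nat_lit 438) (nat_lit 304) (nat_lit 203)))) (XT.nd (nat_lit 188) (nat_lit 0) (nat_lit 0) (XT.nd (nat_lit 94) (nat_lit 84) (nat_lit 0) (XT.lf (nat_lit 0) (nat_lit 14773700407) (nat_lit 168) (nat_lit 608652534) (nat_lit 84) (nat_lit 39852591773) (nat_lit 8) (nat_lit 5) (nat_lit 10) (nat_lit 5) (nat_lit 9) (nat_lit 4) (nat_lit 439) (nat_lit 304) (nat_lit 202)) (XT.lf (nat_lit 0) (nat_lit 7260413283) (nat_lit 84) (nat_lit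 11412317672) (nat_lit 168) (nat_lit 38085049439) (nat_lit 7) (nat_lit 5) (nat_lit 8) (nat_lit 5) (nat_lit 9) (nat_lit 4) (nat_lit 440) (nat_lit 304) (nat_lit 201))) (XT.nd (nat_lit 94) (nat_lit 0) (nat_lit 0) (XT.lf (nat_lit 0) (nat_lit 15357771178) (nat_lit 84) (nat_lit 7325789958) (nat_lit 168) (nat_lit 35642901363) (nat_lit 7) (nat_lit 5) (nat_lit 8) (nat_lit 5) (nat_lit 9) (nat_lit 4) (nat_lit 441) (nat_lit 304) (nat_lit 200)) (XT.lf (nat_lit 0) (nat_lit 23678383134) (nat_lit 84) (nat_lit 3125345246) (nat_lit 168) (nat_lit 33138812362) (nat_lit 7) (nat_lit 5) (nat_lit 8) (nat_lit 5) (nat_lit 9) (nat_lit 4) (nat_lit 442) (nat_lit 304) (nat_lit 199))))) (XT.nd (nat_lit 282) (nat_lit 84) (nat_lit 0) (XT.nd (nat_lit 94) (nat_lit 0) (nat_lit 0) (XT.lf (nat_lit 0) (nat_lit 31048297665) (nat_lit 168) (nat_lit 29389372474) (nat_lit 0) (nat_lit 1169413142) (nat_lit 7) (nat_lit 5) (nat_lit 9)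 (nat_lit 4) (nat_lit 7) (nat_lit 4) (nat_lit 443) (nat_lit 304) (nat_lit 198)) (XT.nd (nat_lit 94) (nat_lit 0) (nat_lit 0) (XT.lf (nat_lit 0) (nat_lit 35440712306) (nat_lit 168) (nat_lit 22358063292) (nat_lit 0) (nat_lit 5522176938) (nat_lit 7) (nat_lit 5) (nat_lit 9) (nat_lit 4) (nat_lit 7) (nat_lit 4) (nat_lit 444) (nat_lit 304) (nat_lit 197)) (XT.lf (nat_lit 0) (nat_lit 39954767605) (nat_lit 168) (nat_lit 15134043471) (nat_lit 0) (nat_lit 9997736272) (nat_lit 7) (nat_lit 5) (nat_lit 9) (nat_lit 4) (nat_lit 7) (nat_lit 4) (nat_lit 445) (nat_lit 304) (nat_lit 196)))) (XT.nd (nat_lit 188) (nat_lit 84) (nat_lit 0) (XT.nd (nat_lit 94) (nat_lit 0) (nat_lit 0) (XT.lf (nat_lit 0) (nat_lit 44594407882) (nat_lit 168) (nat_lit 7711000761) (nat_lit 0) (nat_lit 14600001826) (nat_lit 7) (nat_lit 5) (nat_lit 9) (nat_lit 4) (nat_lit 7) (nat_lit 4) (nat_lit 446) (nat_lit 304) (nat_lit 195)) (XT.lf (nat_lit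 0) (nat_lit 49363687191) (nat_lit 168) (nat_lit 82449006) (nat_lit 0) (nat_lit 19332994997) (nat_lit 7) (nat_lit 5) (nat_lit 9) (nat_lit 4) (nat_lit 7) (nat_lit 4) (nat_lit 447) (nat_lit 304) (nat_lit 194))) (XT.nd (nat_lit 94) (nat_lit 0) (nat_lit 0) (XT.lf (nat_lit 0) (nat_lit 7912682451) (nat_lit 84) (nat_lit 46430151958) (nat_lit 84) (nat_lit 16364230502) (nat_lit 6) (nat_lit 4) (nat_lit 7) (nat_lit 5) (nat_lit 7) (nat_lit 4) (nat_lit 448) (nat_lit 304) (nat_lit 193)) (XT.lf (nat_lit 0) (nat_lit 16132839739) (nat_lit 84) (nat_lit 43330188138) (nat_lit 84) (nat_lit 13230063516) (nat_lit 6) (nat_lit 4) (nat_lit 7) (nat_lit 5) (nat_lit 7) (nat_lit 4) (nat_lit 449) (nat_lit 304) (nat_lit 192))))))))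
noncomputable def xc63 : XT := (XT.nd (nat_lit 50760) (nat_lit 0) (nat_lit 2688) (XT.nd (nat_lit 49444) (nat_lit 0) (nat_lit 7812) (XT.nd (nat_lit 48786) (nat_lit 0) (nat_lit 12264) (XT.nd (nat_lit 282) (nat_lit 84) (nat_lit 0) (XT.nd (nat_lit 94) (nat_lit 0) (nat_lit 0) (XT.lf (nat_lit 0) (nat_lit 24583564623) (nat_lit 84) (nat_lit 40144368605) (nat_lit 84) (nat_lit 10011037025) (nat_lit 6) (nat_lit 4) (nat_lit 7) (nat_lit 5) (nat_lit 7) (nat_lit 4) (nat_lit 450) (nat_lit 304) (nat_lit 191)) (XT.nd (nat_lit 94) (nat_lit 0) (nat_lit 0) (XT.lf (nat_lit 0) (nat_lit 33272241230) (nat_lit 84) (nat_lit 36869909633) (nat_lit 84) (nat_lit 6704338288) (nat_lit 6) (nat_lit 4) (nat_lit 7) (nat_lit 5) (nat_lit 7) (nat_lit 4) (nat_lit 451) (nat_lit 304) (nat_lit 190)) (XT.lf (nat_lit 0) (nat_lit 42206461609) (nat_lit 84) (nat_lit 33503950044) (nat_lit 84) (nat_lit 3307077956) (nat_lit 6) (nat_lit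 4) (nat_lit 7) (nat_lit 5) (nat_lit 7) (nat_lit 4) (nat_lit 452) (nat_lit 304) (nat_lit 189)))) (XT.nd (nat_lit 48316) (nat_lit 0) (nat_lit 17640) (XT.nd (nat_lit 48222) (nat_lit 0) (nat_lit 18648) (XT.lf (nat_lit 0) (nat_lit 180127557) (nat_lit 168) (nat_lit 29861602215) (nat_lit 84) (nat_lit 51212085867) (nat_lit 5) (nat_lit 5) (nat_lit 7) (nat_lit 5) (nat_lit 6) (nat_lit 4) (nat_lit 453) (nat_lit 304) (nat_lit 188)) (XT.lf (nat_lit 0) (nat_lit 1229225050) (nat_lit 924) (nat_lit 995907416) (nat_lit 0) (nat_lit 1229225050) (nat_lit 227) (nat_lit 5) (nat_lit 238) (nat_lit 4) (nat_lit 227) (nat_lit 4) (nat_lit 335) (nat_lit 305) (nat_lit 305))) (XT.nd (nat_lit 94) (nat_lit 84) (nat_lit 0) (XT.lf (nat_lit 0) (nat_lit 2266005558) (nat_lit 924) (nat_lit 3243992119) (nat_lit 924) (nat_lit 1448206774) (nat_lit 216) (nat_lit 4) (nat_lit 227) (nat_lit 5) (nat_lit 227) (nat_lit 4) (nat_lit 336)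 (nat_lit 305) (nat_lit 304)) (XT.lf (nat_lit 0) (nat_lit 1537308239) (nat_lit 1008) (nat_lit 418530537) (nat_lit 84) (nat_lit 5055344400) (nat_lit 215) (nat_lit 5) (nat_lit 227) (nat_lit 5) (nat_lit 216) (nat_lit 4) (nat_lit 337) (nat_lit 305) (nat_lit 303))))) (XT.nd (nat_lit 282) (nat_lit 3192) (nat_lit 0) (XT.nd (nat_lit 94) (nat_lit 1176) (nat_lit 0) (XT.lf (nat_lit 0) (nat_lit 3962502009) (nat_lit 1008) (nat_lit 566792666) (nat_lit 1092) (nat_lit 2537881853) (nat_lit 203) (nat_lit 5) (nat_lit 215) (nat_lit 5) (nat_lit 216) (nat_lit 4) (nat_lit 338) (nat_lit 305) (nat_lit 302)) (XT.nd (nat_lit 94) (nat_lit 0) (nat_lit 0) (XT.lf (nat_lit 0) (nat_lit 410680043) (nat_lit 1176) (nat_lit 5841430350) (nat_lit 84) (nat_lit 874802085) (nat_lit 189) (nat_lit 5) (nat_lit 203) (nat_lit 5) (nat_lit 190) (nat_lit 4) (nat_lit 339) (nat_lit 305) (nat_lit 301)) (XT.lf (nat_lit 0) (nat_lit 3344553588)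 (nat_lit 1176) (nat_lit 1434727269) (nat_lit 84) (nat_lit 2410185731) (nat_lit 189) (nat_lit 5) (nat_lit 203) (nat_lit 5) (nat_lit 190) (nat_lit 4) (nat_lit 340) (nat_lit 305) (nat_lit 300)))) (XT.nd (nat_lit 188) (nat_lit 672) (nat_lit 0) (XT.nd (nat_lit 94) (nat_lit 1344) (nat_lit 0) (XT.lf (nat_lit 0) (nat_lit 3079646859) (nat_lit 1176) (nat_lit 3229594455) (nat_lit 1260) (nat_lit 946581602) (nat_lit 175) (nat_lit 5) (nat_lit 189) (nat_lit 5) (nat_lit 190) (nat_lit 4) (nat_lit 341) (nat_lit 305) (nat_lit 299)) (XT.lf (nat_lit 0) (nat_lit 336241077) (nat_lit 1260) (nat_lit 1594415303) (nat_lit 1344) (nat_lit 5395170971) (nat_lit 159) (nat_lit 5) (nat_lit 174) (nat_lit 5) (nat_lit 175) (nat_lit 5) (nat_lit 342) (nat_lit 305) (nat_lit 298))) (XT.nd (nat_lit 94) (nat_lit 672) (nat_lit 0) (XT.lf (nat_lit 0) (nat_lit 4834202269) (nat_lit 1344) (nat_lit 2425268776) (nat_lit 84) (nat_lit 139600979)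 (nat_lit 159) (nat_lit 5) (nat_lit 175) (nat_lit 5) (nat_lit 160) (nat_lit 4) (nat_lit 343) (nat_lit 305) (nat_lit 297)) (XT.lf (nat_lit 0) (nat_lit 298011987) (nat_lit 672) (nat_lit 5260522152) (nat_lit 84) (nat_lit 1917424376) (nat_lit 151) (nat_lit 5) (nat_lit 159) (nat_lit 5) (nat_lit 152) (nat_lit 5) (nat_lit 344) (nat_lit 305) (nat_lit 296)))))) (XT.nd (nat_lit 658) (nat_lit 2016) (nat_lit 0) (XT.nd (nat_lit 282) (nat_lit 1176) (nat_lit 0) (XT.nd (nat_lit 94) (nat_lit 1260) (nat_lit 0) (XT.lf (nat_lit 0) (nat_lit 3138590100) (nat_lit 672) (nat_lit 620973198) (nat_lit 84) (nat_lit 3796701104) (nat_lit 151) (nat_lit 5) (nat_lit 159) (nat_lit 5) (nat_lit 152) (nat_lit 5) (nat_lit 345) (nat_lit 305) (nat_lit 295)) (XT.nd (nat_lit 94) (nat_lit 672) (nat_lit 0) (XT.lf (nat_lit 0) (nat_lit 4155355585) (nat_lit 588) (nat_lit 1869972159) (nat_lit 672) (nat_lit 1614993826) (nat_lit 144) (nat_lit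 5) (nat_lit 151) (nat_lit 5) (nat_lit 152) (nat_lit 5) (nat_lit 346) (nat_lit 305) (nat_lit 294)) (XT.lf (nat_lit 0) (nat_lit 1188235980) (nat_lit 672) (nat_lit 6439996839) (nat_lit 84) (nat_lit 100222903) (nat_lit 136) (nat_lit 5) (nat_lit 144) (nat_lit 5) (nat_lit 137) (nat_lit 5) (nat_lit 347) (nat_lit 305) (nat_lit 293)))) (XT.nd (nat_lit 188) (nat_lit 588) (nat_lit 0) (XT.nd (nat_lit 94) (nat_lit 588) (nat_lit 0) (XT.lf (nat_lit 0) (nat_lit 4020149681) (nat_lit 672) (nat_lit 1662474898) (nat_lit 84) (nat_lit 2136974128) (nat_lit 136) (nat_lit 5) (nat_lit 144) (nat_lit 5) (nat_lit 137) (nat_lit 5) (nat_lit 348) (nat_lit 305) (nat_lit 292)) (XT.lf (nat_lit 0) (nat_lit 3238094953) (nat_lit 588) (nat_lit 3655287775) (nat_lit 672) (nat_lit 1021553766) (nat_lit 129) (nat_lit 5) (nat_lit 136) (nat_lit 5) (nat_lit 137) (nat_lit 5) (nat_lit 349) (nat_lit 305) (nat_lit 291))) (XT.nd (nat_lit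 94) (nat_lit 0) (nat_lit 0) (XT.lf (nat_lit 0) (nat_lit 209093249) (nat_lit 504) (nat_lit 1539398141) (nat_lit 588) (nat_lit 6265913829) (nat_lit 122) (nat_lit 5) (nat_lit 128) (nat_lit 5) (nat_lit 129) (nat_lit 5) (nat_lit 350) (nat_lit 305) (nat_lit 290)) (XT.lf (nat_lit 0) (nat_lit 4561959072) (nat_lit 588) (nat_lit 2880362728) (nat_lit 84) (nat_lit 674945700) (nat_lit 122) (nat_lit 5) (nat_lit 129) (nat_lit 5) (nat_lit 123) (nat_lit 5) (nat_lit 351) (nat_lit 305) (nat_lit 289))))) (XT.nd (nat_lit 282) (nat_lit 1008) (nat_lit 0) (XT.nd (nat_lit 94) (nat_lit 504) (nat_lit 0) (XT.lf (nat_lit 0) (nat_lit 2135597175) (nat_lit 504) (nat_lit 5289136948) (nat_lit 588) (nat_lit 799668916) (nat_lit 116) (nat_lit 5) (nat_lit 122) (nat_lit 5) (nat_lit 123) (nat_lit 5) (nat_lit 352) (nat_lit 305) (nat_lit 288)) (XT.nd (nat_lit 94) (nat_lit 420) (nat_lit 0) (XT.lf (nat_lit 0) (nat_lit 1957821045)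 (nat_lit 588) (nat_lit 1076566365) (nat_lit 84) (nat_lit 5301135233) (nat_lit 115) (nat_lit 5) (nat_lit 122) (nat_lit 5) (nat_lit 116) (nat_lit 5) (nat_lit 353) (nat_lit 305) (nat_lit 287)) (XT.lf (nat_lit 0) (nat_lit 4076225664) (nat_lit 420) (nat_lit 676559958) (nat_lit 504) (nat_lit 3697951092) (nat_lit 110) (nat_lit 5) (nat_lit 115) (nat_lit 5) (nat_lit 116) (nat_lit 5) (nat_lit 354) (nat_lit 305) (nat_lit 286)))) (XT.nd (nat_lit 188) (nat_lit 420) (nat_lit 0) (XT.nd (nat_lit 94) (nat_lit 84) (nat_lit 0) (XT.lf (nat_lit 0) (nat_lit 751662964) (nat_lit 504) (nat_lit 6847707267) (nat_lit 588) (nat_lit 971123336) (nat_lit 104) (nat_lit 5) (nat_lit 110) (nat_lit 5) (nat_lit 111) (nat_lit 5) (nat_lit 355) (nat_lit 305) (nat_lit 285)) (XT.lf (nat_lit 0) (nat_lit 1786092865) (nat_lit 588) (nat_lit 2679299669) (nat_lit 84) (nat_lit 4228500128) (nat_lit 103) (nat_lit 5) (nat_lit 110) (nat_lit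 5) (nat_lit 104) (nat_lit 5) (nat_lit 356) (nat_lit 305) (nat_lit 284))) (XT.nd (nat_lit 94) (nat_lit 0) (nat_lit 0) (XT.lf (nat_lit 0) (nat_lit 2574181322) (nat_lit 420) (nat_lit 1992147962) (nat_lit 504) (nat_lit 4255690677) (nat_lit 98) (nat_lit 5) (nat_lit 103) (nat_lit 5) (nat_lit 104) (nat_lit 5) (nat_lit 357) (nat_lit 305) (nat_lit 283)) (XT.lf (nat_lit 0) (nat_lit 7398676982) (nat_lit 504) (nat_lit 1000518924) (nat_lit 84) (nat_lit 555840215) (nat_lit 98) (nat_lit 5) (nat_lit 104) (nat_lit 5) (nat_lit 99) (nat_lit 5) (nat_lit 358) (nat_lit 305) (nat_lit 282))))))) (XT.nd (nat_lit 1316) (nat_lit 2016) (nat_lit 0) (XT.nd (nat_lit 658) (nat_lit 1428) (nat_lit 0) (XT.nd (nat_lit 282) (nat_lit 840) (nat_lit 0) (XT.nd (nat_lit 94) (nat_lit 336) (nat_lit 0) (XT.lf (nat_lit 0) (nat_lit 1199801285) (nat_lit 504) (nat_lit 4713277727) (nat_lit 84) (nat_lit 3178718887) (nat_lit 92) (nat_lit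 5) (nat_lit 98) (nat_lit 5) (nat_lit 93) (nat_lit 5) (nat_lit 359) (nat_lit 305) (nat_lit 281)) (XT.nd (nat_lit 94) (nat_lit 0) (nat_lit 0) (XT.lf (nat_lit 0) (nat_lit 623657252) (nat_lit 336) (nat_lit 3338160920) (nat_lit 420) (nat_lit 5271845645) (nat_lit 88) (nat_lit 5) (nat_lit 92) (nat_lit 5) (nat_lit 93) (nat_lit 5) (nat_lit 360) (nat_lit 305) (nat_lit 280)) (XT.lf (nat_lit 0) (nat_lit 6138019305) (nat_lit 336) (nat_lit 655561910) (nat_lit 420) (nat_lit 2586692259) (nat_lit 88) (nat_lit 5) (nat_lit 92) (nat_lit 5) (nat_lit 93) (nat_lit 5) (nat_lit 361) (nat_lit 305) (nat_lit 279)))) (XT.nd (nat_lit 188) (nat_lit 336) (nat_lit 0) (XT.nd (nat_lit 94) (nat_lit 0) (nat_lit 0) (XT.lf (nat_lit 0) (nat_lit 157851606) (nat_lit 504) (nat_lit 7302308496) (nat_lit 84) (nat_lit 2071688735) (nat_lit 82) (nat_lit 5) (nat_lit 88) (nat_lit 5) (nat_lit 83) (nat_lit 5) (nat_lit 362) (nat_lit 305)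 (nat_lit 278)) (XT.lf (nat_lit 0) (nat_lit 2913492727) (nat_lit 504) (nat_lit 1866623747) (nat_lit 84) (nat_lit 4907750460) (nat_lit 82) (nat_lit 5) (nat_lit 88) (nat_lit 5) (nat_lit 83) (nat_lit 5) (nat_lit 363) (nat_lit 305) (nat_lit 277))) (XT.nd (nat_lit 94) (nat_lit 0) (nat_lit 0) (XT.lf (nat_lit 0) (nat_lit 3728023832) (nat_lit 336) (nat_lit 2002523652) (nat_lit 420) (nat_lit 4118739568) (nat_lit 78) (nat_lit 5) (nat_lit 82) (nat_lit 5) (nat_lit 83) (nat_lit 5) (nat_lit 364) (nat_lit 305) (nat_lit 276)) (XT.lf (nat_lit 0) (nat_lit 8603049190) (nat_lit 420) (nat_lit 572323460) (nat_lit 84) (nat_lit 841130435) (nat_lit 78) (nat_lit 5) (nat_lit 83) (nat_lit 5) (nat_lit 79) (nat_lit 5) (nat_lit 365) (nat_lit 305) (nat_lit 275))))) (XT.nd (nat_lit 282) (nat_lit 672) (nat_lit 0) (XT.nd (nat_lit 94) (nat_lit 336) (nat_lit 0) (XT.lf (nat_lit 0) (nat_lit 1360870461) (nat_lit 420) (nat_lit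 5053412291) (nat_lit 84) (nat_lit 3773693442) (nat_lit 73) (nat_lit 5) (nat_lit 78) (nat_lit 5) (nat_lit 74) (nat_lit 5) (nat_lit 366) (nat_lit 305) (nat_lit 274)) (XT.nd (nat_lit 94) (nat_lit 0) (nat_lit 0) (XT.lf (nat_lit 0) (nat_lit 581431720) (nat_lit 336) (nat_lit 3565566250) (nat_lit 420) (nat_lit 6218540679) (nat_lit 69) (nat_lit 5) (nat_lit 73) (nat_lit 5) (nat_lit 74) (nat_lit 5) (nat_lit 367) (nat_lit 305) (nat_lit 273)) (XT.lf (nat_lit 0) (nat_lit 6413822366) (nat_lit 336) (nat_lit 600337222) (nat_lit 420) (nat_lit 3534417176) (nat_lit 69) (nat_lit 5) (nat_lit 73) (nat_lit 5) (nat_lit 74) (nat_lit 5) (nat_lit 368) (nat_lit 305) (nat_lit 272)))) (XT.nd (nat_lit 188) (nat_lit 252) (nat_lit 0) (XT.nd (nat_lit 94) (nat_lit 84) (nat_lit 0) (XT.lf (nat_lit 0) (nat_lit 1617726844) (nat_lit 336) (nat_lit 8336528235) (nat_lit 420) (nat_lit 783313563) (nat_lit 65) (nat_lit 5) (nat_lit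 69) (nat_lit 5) (nat_lit 70) (nat_lit 5) (nat_lit 369) (nat_lit 305) (nat_lit 271)) (XT.lf (nat_lit 0) (nat_lit 2006442409) (nat_lit 420) (nat_lit 3404206648) (nat_lit 84) (nat_lit 5521172260) (nat_lit 64) (nat_lit 5) (nat_lit 69) (nat_lit 5) (nat_lit 65) (nat_lit 5) (nat_lit 370) (nat_lit 305) (nat_lit 270))) (XT.nd (nat_lit 94) (nat_lit 0) (nat_lit 0) (XT.lf (nat_lit 0) (nat_lit 2450430939) (nat_lit 252) (nat_lit 2386803572) (nat_lit 336) (nat_lit 6295306008) (nat_lit 61) (nat_lit 5) (nat_lit 64) (nat_lit 5) (nat_lit 65) (nat_lit 5) (nat_lit 371) (nat_lit 305) (nat_lit 269)) (XT.lf (nat_lit 0) (nat_lit 7744761302) (nat_lit 336) (nat_lit 2868252483) (nat_lit 84) (nat_lit 726575547) (nat_lit 61) (nat_lit 5) (nat_lit 65) (nat_lit 5) (nat_lit 62) (nat_lit 5) (nat_lit 372) (nat_lit 305) (nat_lit 268)))))) (XT.nd (nat_lit 658) (nat_lit 756) (nat_lit 0) (XT.nd (nat_lit 282) (nat_lit 588) (nat_lit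 0) (XT.nd (nat_lit 94) (nat_lit 336) (nat_lit 0) (XT.lf (nat_lit 0) (nat_lit 3085573028) (nat_lit 336) (nat_lit 7658785537) (nat_lit 420) (nat_lit 808406252) (nat_lit 57) (nat_lit 5) (nat_lit 61) (nat_lit 5) (nat_lit 62) (nat_lit 5) (nat_lit 373) (nat_lit 305) (nat_lit 267)) (XT.nd (nat_lit 94) (nat_lit 252) (nat_lit 0) (XT.lf (nat_lit 0) (nat_lit 2002386810) (nat_lit 420) (nat_lit 2586108273) (nat_lit 84) (nat_lit 7183872790) (nat_lit 56) (nat_lit 5) (nat_lit 61) (nat_lit 5) (nat_lit 57) (nat_lit 5) (nat_lit 374) (nat_lit 305) (nat_lit 266)) (XT.lf (nat_lit 0) (nat_lit 3461684654) (nat_lit 252) (nat_lit 1406009331) (nat_lit 336) (nat_lit 7131087168) (nat_lit 53) (nat_lit 5) (nat_lit 56) (nat_lit 5) (nat_lit 57) (nat_lit 5) (nat_lit 375) (nat_lit 305) (nat_lit 265)))) (XT.nd (nat_lit 188) (nat_lit 336) (nat_lit 0) (XT.nd (nat_lit 94) (nat_lit 252) (nat_lit 0) (XT.lf (nat_lit 0) (nat_lit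 7816979547) (nat_lit 336) (nat_lit 2575344034) (nat_lit 84) (nat_lit 1839776471) (nat_lit 53) (nat_lit 5) (nat_lit 57) (nat_lit 5) (nat_lit 54) (nat_lit 5) (nat_lit 376) (nat_lit 305) (nat_lit 264)) (XT.lf (nat_lit 0) (nat_lit 3552891386) (nat_lit 252) (nat_lit 7304927338) (nat_lit 336) (nat_lit 1614559771) (nat_lit 50) (nat_lit 5) (nat_lit 53) (nat_lit 5) (nat_lit 54) (nat_lit 5) (nat_lit 377) (nat_lit 305) (nat_lit 263))) (XT.nd (nat_lit 94) (nat_lit 252) (nat_lit 0) (XT.lf (nat_lit 0) (nat_lit 1226677009) (nat_lit 336) (nat_lit 2881840102) (nat_lit 84) (nat_lit 8611587908) (nat_lit 49) (nat_lit 5) (nat_lit 53) (nat_lit 5) (nat_lit 50) (nat_lit 5) (nat_lit 378) (nat_lit 305) (nat_lit 262)) (XT.lf (nat_lit 0) (nat_lit 3319655996) (nat_lit 252) (nat_lit 789438327) (nat_lit 336) (nat_lit 8866085407) (nat_lit 46) (nat_lit 5) (nat_lit 49) (nat_lit 5) (nat_lit 50) (nat_lit 5) (nat_lit 379)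 (nat_lit 305) (nat_lit 261))))) (XT.nd (nat_lit 282) (nat_lit 504) (nat_lit 0) (XT.nd (nat_lit 94) (nat_lit 252) (nat_lit 0) (XT.lf (nat_lit 0) (nat_lit 7089552548) (nat_lit 336) (nat_lit 3562864745) (nat_lit 84) (nat_lit 2585188740) (nat_lit 46) (nat_lit 5) (nat_lit 50) (nat_lit 5) (nat_lit 47) (nat_lit 5) (nat_lit 380) (nat_lit 305) (nat_lit 260)) (XT.nd (nat_lit 94) (nat_lit 0) (nat_lit 0) (XT.lf (nat_lit 0) (nat_lit 2692698905) (nat_lit 252) (nat_lit 7458586604) (nat_lit 336) (nat_lit 3356908838) (nat_lit 43) (nat_lit 5) (nat_lit 46) (nat_lit 5) (nat_lit 47) (nat_lit 5) (nat_lit 381) (nat_lit 305) (nat_lit 259)) (XT.lf (nat_lit 0) (nat_lit 9144994922) (nat_lit 252) (nat_lit 4154618084) (nat_lit 336) (nat_lit 487488770) (nat_lit 43) (nat_lit 5) (nat_lit 46) (nat_lit 5) (nat_lit 47) (nat_lit 5) (nat_lit 382) (nat_lit 305) (nat_lit 258)))) (XT.nd (nat_lit 188) (nat_lit 252) (nat_lit 0)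 (XT.nd (nat_lit 94) (nat_lit 0) (nat_lit 0) (XT.lf (nat_lit 0) (nat_lit 1662242379) (nat_lit 168) (nat_lit 733117782) (nat_lit 252) (nat_lit 11679080590) (nat_lit 40) (nat_lit 5) (nat_lit 42) (nat_lit 5) (nat_lit 43) (nat_lit 5) (nat_lit 383) (nat_lit 305) (nat_lit 257)) (XT.lf (nat_lit 0) (nat_lit 5388957349) (nat_lit 252) (nat_lit 6213589861) (nat_lit 84) (nat_lit 2766726090) (nat_lit 40) (nat_lit 5) (nat_lit 43) (nat_lit 5) (nat_lit 41) (nat_lit 5) (nat_lit 384) (nat_lit 305) (nat_lit 256))) (XT.nd (nat_lit 94) (nat_lit 0) (nat_lit 0) (XT.lf (nat_lit 0) (nat_lit 104240603) (nat_lit 252) (nat_lit 8337442142) (nat_lit 336) (nat_lit 6232227335) (nat_lit 37) (nat_lit 5) (nat_lit 40) (nat_lit 5) (nat_lit 41) (nat_lit 5) (nat_lit 385) (nat_lit 305) (nat_lit 255)) (XT.lf (nat_lit 0) (nat_lit 6678069720) (nat_lit 252) (nat_lit 4932273627) (nat_lit 336) (nat_lit 3376649743) (nat_lit 37) (nat_lit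 5) (nat_lit 40) (nat_lit 5) (nat_lit 41) (nat_lit 5) (nat_lit 386) (nat_lit 305) (nat_lit 254))))))))
noncomputable def xc64 : XT := (XT.nd (nat_lit 2538) (nat_lit 840) (nat_lit 0) (XT.nd (nat_lit 1222) (nat_lit 588) (nat_lit 0) (XT.nd (nat_lit 564) (nat_lit 672) (nat_lit 0) (XT.nd (nat_lit 282) (nat_lit 168) (nat_lit 0) (XT.nd (nat_lit 94) (nat_lit 252) (nat_lit 0) (XT.lf (nat_lit 0) (nat_lit 13389978990) (nat_lit 252) (nat_lit 1446811348) (nat_lit 336) (nat_lit 473833087) (nat_lit 37) (nat_lit 5) (nat_lit 40) (nat_lit 5) (nat_lit 41) (nat_lit 5) (nat_lit 387) (nat_lit 305) (nat_lit 253)) (XT.nd (nat_lit 94) (nat_lit 0) (nat_lit 0) (XT.lf (nat_lit 0) (nat_lit 2496339400) (nat_lit 252) (nat_lit 10996089262) (nat_lit 84) (nat_lit 2149961891) (nat_lit 34) (nat_lit 5) (nat_lit 37) (nat_lit 5) (nat_lit 35) (nat_lit 5) (nat_lit 388) (nat_lit 305) (nat_lit 252)) (XT.lf (nat_lit 0) (nat_lit 5543728884)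 (nat_lit 252) (nat_lit 4611623601) (nat_lit 84) (nat_lit 5828721928) (nat_lit 34) (nat_lit 5) (nat_lit 37) (nat_lit 5) (nat_lit 35) (nat_lit 5) (nat_lit 389) (nat_lit 305) (nat_lit 251)))) (XT.nd (nat_lit 94) (nat_lit 0) (nat_lit 0) (XT.lf (nat_lit 0) (nat_lit 1945531463) (nat_lit 168) (nat_lit 6720490581) (nat_lit 252) (nat_lit 7670514833) (nat_lit 32) (nat_lit 5) (nat_lit 34) (nat_lit 5) (nat_lit 35) (nat_lit 5) (nat_lit 390) (nat_lit 305) (nat_lit 250)) (XT.nd (nat_lit 94) (nat_lit 0) (nat_lit 0) (XT.lf (nat_lit 0) (nat_lit 8737683002) (nat_lit 168) (nat_lit 3156134794) (nat_lit 252) (nat_lit 4805432003) (nat_lit 32) (nat_lit 5) (nat_lit 34) (nat_lit 5) (nat_lit 35) (nat_lit 5) (nat_lit 391) (nat_lit 305) (nat_lit 249)) (XT.lf (nat_lit 0) (nat_lit 15189475686) (nat_lit 252) (nat_lit 1399652063) (nat_lit 84) (nat_lit 484616191) (nat_lit 32) (nat_lit 5) (nat_lit 35) (nat_lit 5) (nat_lit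 33) (nat_lit 4) (nat_lit 392) (nat_lit 305) (nat_lit 248))))) (XT.nd (nat_lit 282) (nat_lit 252) (nat_lit 0) (XT.nd (nat_lit 94) (nat_lit 168) (nat_lit 0) (XT.lf (nat_lit 0) (nat_lit 1153072236) (nat_lit 252) (nat_lit 12090311807) (nat_lit 84) (nat_lit 4214278925) (nat_lit 29) (nat_lit 5) (nat_lit 32) (nat_lit 5) (nat_lit 30) (nat_lit 5) (nat_lit 393) (nat_lit 305) (nat_lit 247)) (XT.nd (nat_lit 94) (nat_lit 168) (nat_lit 0) (XT.lf (nat_lit 0) (nat_lit 4225095873) (nat_lit 252) (nat_lit 5559409316) (nat_lit 84) (nat_lit 8068619723) (nat_lit 29) (nat_lit 5) (nat_lit 32) (nat_lit 5) (nat_lit 30) (nat_lit 5) (nat_lit 394) (nat_lit 305) (nat_lit 246)) (XT.lf (nat_lit 0) (nat_lit 1137189871) (nat_lit 168) (nat_lit 6231139361) (nat_lit 252) (nat_lit 10892777269) (nat_lit 27) (nat_lit 5) (nat_lit 29) (nat_lit 5) (nat_lit 30) (nat_lit 5) (nat_lit 395) (nat_lit 305) (nat_lit 245)))) (XT.nd (nat_lit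 188) (nat_lit 252) (nat_lit 0) (XT.nd (nat_lit 94) (nat_lit 0) (nat_lit 0) (XT.lf (nat_lit 0) (nat_lit 8096742358) (nat_lit 168) (nat_lit 2533803666) (nat_lit 252) (nat_lit 8050067384) (nat_lit 27) (nat_lit 5) (nat_lit 29) (nat_lit 5) (nat_lit 30) (nat_lit 5) (nat_lit 396) (nat_lit 305) (nat_lit 244)) (XT.lf (nat_lit 0) (nat_lit 13972152637) (nat_lit 252) (nat_lit 3911021073) (nat_lit 84) (nat_lit 1230111807) (nat_lit 27) (nat_lit 5) (nat_lit 30) (nat_lit 5) (nat_lit 28) (nat_lit 4) (nat_lit 397) (nat_lit 305) (nat_lit 243))) (XT.nd (nat_lit 94) (nat_lit 84) (nat_lit 0) (XT.lf (nat_lit 0) (nat_lit 2944733126) (nat_lit 168) (nat_lit 14492835541) (nat_lit 252) (nat_lit 2120687230) (nat_lit 25) (nat_lit 5) (nat_lit 27) (nat_lit 5) (nat_lit 28) (nat_lit 4) (nat_lit 398) (nat_lit 305) (nat_lit 242)) (XT.lf (nat_lit 0) (nat_lit 981179284) (nat_lit 252) (nat_lit 9988754873) (nat_lit 84) (nat_lit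 9046075144) (nat_lit 24) (nat_lit 5) (nat_lit 27) (nat_lit 5) (nat_lit 25) (nat_lit 5) (nat_lit 399) (nat_lit 305) (nat_lit 241)))))) (XT.nd (nat_lit 658) (nat_lit 252) (nat_lit 0) (XT.nd (nat_lit 282) (nat_lit 168) (nat_lit 0) (XT.nd (nat_lit 94) (nat_lit 168) (nat_lit 0) (XT.lf (nat_lit 0) (nat_lit 4104593172) (nat_lit 252) (nat_lit 3234576045) (nat_lit 84) (nat_lit 13148585559) (nat_lit 24) (nat_lit 5) (nat_lit 27) (nat_lit 5) (nat_lit 25) (nat_lit 5) (nat_lit 400) (nat_lit 305) (nat_lit 240)) (XT.nd (nat_lit 94) (nat_lit 0) (nat_lit 0) (XT.lf (nat_lit 0) (nat_lit 3748446457) (nat_lit 168) (nat_lit 3581251779) (nat_lit 252) (nat_lit 13643736878) (nat_lit 22) (nat_lit 5) (nat_lit 24) (nat_lit 5) (nat_lit 25) (nat_lit 5) (nat_lit 401) (nat_lit 305) (nat_lit 239)) (XT.lf (nat_lit 0) (nat_lit 10659470519) (nat_lit 252) (nat_lit 10515684392) (nat_lit 84) (nat_lit 298315048) (nat_lit 22)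 (nat_lit 5) (nat_lit 25) (nat_lit 5) (nat_lit 23) (nat_lit 4) (nat_lit 402) (nat_lit 305) (nat_lit 238)))) (XT.nd (nat_lit 188) (nat_lit 84) (nat_lit 0) (XT.nd (nat_lit 94) (nat_lit 84) (nat_lit 0) (XT.lf (nat_lit 0) (nat_lit 14097551067) (nat_lit 252) (nat_lit 3686324347) (nat_lit 84) (nat_lit 4204398873) (nat_lit 22) (nat_lit 5) (nat_lit 25) (nat_lit 5) (nat_lit 23) (nat_lit 4) (nat_lit 403) (nat_lit 305) (nat_lit 237)) (XT.lf (nat_lit 0) (nat_lit 3369229872) (nat_lit 84) (nat_lit 14275676072) (nat_lit 168) (nat_lit 4873453125) (nat_lit 21) (nat_lit 5) (nat_lit 22) (nat_lit 5) (nat_lit 23) (nat_lit 4) (nat_lit 404) (nat_lit 305) (nat_lit 236))) (XT.nd (nat_lit 94) (nat_lit 84) (nat_lit 0) (XT.lf (nat_lit 0) (nat_lit 10668019929) (nat_lit 84) (nat_lit 10641972791) (nat_lit 168) (nat_lit 1754034028) (nat_lit 21) (nat_lit 5) (nat_lit 22) (nat_lit 5) (nat_lit 23) (nat_lit 4) (nat_lit 405)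 (nat_lit 305) (nat_lit 235)) (XT.lf (nat_lit 0) (nat_lit 1405071450) (nat_lit 168) (nat_lit 5497555222) (nat_lit 84) (nat_lit 16723798406) (nat_lit 20) (nat_lit 5) (nat_lit 22) (nat_lit 5) (nat_lit 21) (nat_lit 5) (nat_lit 406) (nat_lit 305) (nat_lit 234))))) (XT.nd (nat_lit 282) (nat_lit 84) (nat_lit 0) (XT.nd (nat_lit 94) (nat_lit 0) (nat_lit 0) (XT.lf (nat_lit 0) (nat_lit 1579320944) (nat_lit 168) (nat_lit 3034870301) (nat_lit 252) (nat_lit 19591286267) (nat_lit 18) (nat_lit 5) (nat_lit 20) (nat_lit 5) (nat_lit 21) (nat_lit 5) (nat_lit 407) (nat_lit 305) (nat_lit 233)) (XT.nd (nat_lit 94) (nat_lit 0) (nat_lit 0) (XT.lf (nat_lit 0) (nat_lit 7960238560) (nat_lit 252) (nat_lit 15870861534) (nat_lit 84) (nat_lit 969599305) (nat_lit 18) (nat_lit 5) (nat_lit 21) (nat_lit 5) (nat_lit 19) (nat_lit 4) (nat_lit 408) (nat_lit 305) (nat_lit 232)) (XT.lf (nat_lit 0) (nat_lit 11412898194) (nat_lit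 252) (nat_lit 8983880237) (nat_lit 84) (nat_lit 5016829569) (nat_lit 18) (nat_lit 5) (nat_lit 21) (nat_lit 5) (nat_lit 19) (nat_lit 4) (nat_lit 409) (nat_lit 305) (nat_lit 231)))) (XT.nd (nat_lit 188) (nat_lit 0) (nat_lit 0) (XT.nd (nat_lit 94) (nat_lit 84) (nat_lit 0) (XT.lf (nat_lit 0) (nat_lit 14946014004) (nat_lit 252) (nat_lit 1930021900) (nat_lit 84) (nat_lit 9169578155) (nat_lit 18) (nat_lit 5) (nat_lit 21) (nat_lit 5) (nat_lit 19) (nat_lit 4) (nat_lit 410) (nat_lit 305) (nat_lit 230)) (XT.lf (nat_lit 0) (nat_lit 5402295284) (nat_lit 84) (nat_lit 13212308063) (nat_lit 168) (nat_lit 8081108562) (nat_lit 17) (nat_lit 5) (nat_lit 18) (nat_lit 5) (nat_lit 19) (nat_lit 4) (nat_lit 411) (nat_lit 305) (nat_lit 229))) (XT.nd (nat_lit 94) (nat_lit 0) (nat_lit 0) (XT.lf (nat_lit 0) (nat_lit 12955948585) (nat_lit 84) (nat_lit 9434627827) (nat_lit 168) (nat_lit 4974832046) (nat_lit 17) (nat_lit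 5) (nat_lit 18) (nat_lit 5) (nat_lit 19) (nat_lit 4) (nat_lit 412) (nat_lit 305) (nat_lit 228)) (XT.lf (nat_lit 0) (nat_lit 20699127063) (nat_lit 84) (nat_lit 5559183748) (nat_lit 168) (nat_lit 1797545720) (nat_lit 17) (nat_lit 5) (nat_lit 18) (nat_lit 5) (nat_lit 19) (nat_lit 4) (nat_lit 413) (nat_lit 305) (nat_lit 227))))))) (XT.nd (nat_lit 1316) (nat_lit 336) (nat_lit 0) (XT.nd (nat_lit 658) (nat_lit 168) (nat_lit 0) (XT.nd (nat_lit 282) (nat_lit 84) (nat_lit 0) (XT.nd (nat_lit 94) (nat_lit 168) (nat_lit 0) (XT.lf (nat_lit 0) (nat_lit 1425163142) (nat_lit 168) (nat_lit 143035019) (nat_lit 84) (nat_lit 27199042105) (nat_lit 16) (nat_lit 5) (nat_lit 18) (nat_lit 5) (nat_lit 17) (nat_lit 5) (nat_lit 414) (nat_lit 305) (nat_lit 226)) (XT.nd (nat_lit 94) (nat_lit 0) (nat_lit 0) (XT.lf (nat_lit 0) (nat_lit 4784023103) (nat_lit 252) (nat_lit 22145244186) (nat_lit 84) (nat_lit 2567910148) (nat_lit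 14) (nat_lit 5) (nat_lit 17) (nat_lit 5) (nat_lit 15) (nat_lit 4) (nat_lit 415) (nat_lit 305) (nat_lit 225)) (XT.lf (nat_lit 0) (nat_lit 8240254913) (nat_lit 252) (nat_lit 15225336618) (nat_lit 84) (nat_lit 6783536421) (nat_lit 14) (nat_lit 5) (nat_lit 17) (nat_lit 5) (nat_lit 15) (nat_lit 4) (nat_lit 416) (nat_lit 305) (nat_lit 224)))) (XT.nd (nat_lit 188) (nat_lit 84) (nat_lit 0) (XT.nd (nat_lit 94) (nat_lit 0) (nat_lit 0) (XT.lf (nat_lit 0) (nat_lit 11780387912) (nat_lit 252) (nat_lit 8132306442) (nat_lit 84) (nat_lit 11111549220) (nat_lit 14) (nat_lit 5) (nat_lit 17) (nat_lit 5) (nat_lit 15) (nat_lit 4) (nat_lit 417) (nat_lit 305) (nat_lit 223)) (XT.lf (nat_lit 0) (nat_lit 15407515419) (nat_lit 252) (nat_lit 859955864) (nat_lit 84) (nat_lit 15555730303) (nat_lit 14) (nat_lit 5) (nat_lit 17) (nat_lit 5) (nat_lit 15) (nat_lit 4) (nat_lit 418) (nat_lit 305) (nat_lit 222))) (XT.nd (nat_lit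 94) (nat_lit 0) (nat_lit 0) (XT.lf (nat_lit 0) (nat_lit 6729384117) (nat_lit 84) (nat_lit 12460109610) (nat_lit 168) (nat_lit 13455265775) (nat_lit 13) (nat_lit 5) (nat_lit 14) (nat_lit 5) (nat_lit 15) (nat_lit 4) (nat_lit 419) (nat_lit 305) (nat_lit 221)) (XT.lf (nat_lit 0) (nat_lit 14531855502) (nat_lit 84) (nat_lit 8543343668) (nat_lit 168) (nat_lit 10416068866) (nat_lit 13) (nat_lit 5) (nat_lit 14) (nat_lit 5) (nat_lit 15) (nat_lit 4) (nat_lit 420) (nat_lit 305) (nat_lit 220))))) (XT.nd (nat_lit 282) (nat_lit 84) (nat_lit 0) (XT.nd (nat_lit 94) (nat_lit 84) (nat_lit 0) (XT.lf (nat_lit 0) (nat_lit 22537161173) (nat_lit 84) (nat_lit 4522434910) (nat_lit 168) (nat_lit 7304123699) (nat_lit 13) (nat_lit 5) (nat_lit 14) (nat_lit 5) (nat_lit 15) (nat_lit 4) (nat_lit 421) (nat_lit 305) (nat_lit 219)) (XT.nd (nat_lit 94) (nat_lit 84) (nat_lit 0) (XT.lf (nat_lit 0) (nat_lit 30752296058) (nat_lit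 84) (nat_lit 393869920) (nat_lit 168) (nat_lit 4116711100) (nat_lit 13) (nat_lit 5) (nat_lit 14) (nat_lit 5) (nat_lit 15) (nat_lit 4) (nat_lit 422) (nat_lit 305) (nat_lit 218)) (XT.lf (nat_lit 0) (nat_lit 3016811993) (nat_lit 84) (nat_lit 32387636803) (nat_lit 84) (nat_lit 783097725) (nat_lit 12) (nat_lit 4) (nat_lit 13) (nat_lit 5) (nat_lit 13) (nat_lit 4) (nat_lit 423) (nat_lit 305) (nat_lit 217)))) (XT.nd (nat_lit 188) (nat_lit 0) (nat_lit 0) (XT.nd (nat_lit 94) (nat_lit 0) (nat_lit 0) (XT.lf (nat_lit 0) (nat_lit 2631761090) (nat_lit 168) (nat_lit 26335826314) (nat_lit 84) (nat_lit 8170625818) (nat_lit 11) (nat_lit 5) (nat_lit 13) (nat_lit 5) (nat_lit 12) (nat_lit 4) (nat_lit 424) (nat_lit 305) (nat_lit 216)) (XT.lf (nat_lit 0) (nat_lit 6116879204) (nat_lit 168) (nat_lit 19332650376) (nat_lit 84) (nat_lit 12668141126) (nat_lit 11) (nat_lit 5) (nat_lit 13) (nat_lit 5) (nat_lit 12) (nat_lit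 4) (nat_lit 425) (nat_lit 305) (nat_lit 215))) (XT.nd (nat_lit 94) (nat_lit 0) (nat_lit 0) (XT.lf (nat_lit 0) (nat_lit 9690582924) (nat_lit 168) (nat_lit 12147559820) (nat_lit 84) (nat_lit 17288857896) (nat_lit 11) (nat_lit 5) (nat_lit 13) (nat_lit 5) (nat_lit 12) (nat_lit 4) (nat_lit 426) (nat_lit 305) (nat_lit 214)) (XT.lf (nat_lit 0) (nat_lit 13355994903) (nat_lit 168) (nat_lit 4774276411) (nat_lit 84) (nat_lit 22036813648) (nat_lit 11) (nat_lit 5) (nat_lit 13) (nat_lit 5) (nat_lit 12) (nat_lit 4) (nat_lit 427) (nat_lit 305) (nat_lit 213)))))) (XT.nd (nat_lit 658) (nat_lit 168) (nat_lit 0) (XT.nd (nat_lit 282) (nat_lit 84) (nat_lit 0) (XT.nd (nat_lit 94) (nat_lit 0) (nat_lit 0) (XT.lf (nat_lit 0) (nat_lit 2849241487) (nat_lit 84) (nat_lit 14294465091) (nat_lit 168) (nat_lit 24094304246) (nat_lit 10) (nat_lit 5) (nat_lit 11) (nat_lit 5) (nat_lit 12) (nat_lit 4) (nat_lit 428) (nat_lit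 305) (nat_lit 212)) (XT.nd (nat_lit 94) (nat_lit 0) (nat_lit 0) (XT.lf (nat_lit 0) (nat_lit 10773030356) (nat_lit 84) (nat_lit 10305364318) (nat_lit 168) (nat_lit 21261678302) (nat_lit 10) (nat_lit 5) (nat_lit 11) (nat_lit 5) (nat_lit 12) (nat_lit 4) (nat_lit 429) (nat_lit 305) (nat_lit 211)) (XT.lf (nat_lit 0) (nat_lit 18908996430) (nat_lit 84) (nat_lit 6207694203) (nat_lit 168) (nat_lit 18358947948) (nat_lit 10) (nat_lit 5) (nat_lit 11) (nat_lit 5) (nat_lit 12) (nat_lit 4) (nat_lit 430) (nat_lit 305) (nat_lit 210)))) (XT.nd (nat_lit 188) (nat_lit 84) (nat_lit 0) (XT.nd (nat_lit 94) (nat_lit 0) (nat_lit 0) (XT.lf (nat_lit 0) (nat_lit 27264248808) (nat_lit 84) (nat_lit 1997874257) (nat_lit 168) (nat_lit 15383576818) (nat_lit 10) (nat_lit 5) (nat_lit 11) (nat_lit 5) (nat_lit 12) (nat_lit 4) (nat_lit 431) (nat_lit 305) (nat_lit 209)) (XT.lf (nat_lit 0) (nat_lit 33540690180) (nat_lit 168)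 (nat_lit 10027567060) (nat_lit 0) (nat_lit 2282350746) (nat_lit 10) (nat_lit 5) (nat_lit 12) (nat_lit 4) (nat_lit 10) (nat_lit 4) (nat_lit 432) (nat_lit 305) (nat_lit 208))) (XT.nd (nat_lit 94) (nat_lit 84) (nat_lit 0) (XT.lf (nat_lit 0) (nat_lit 37954089526) (nat_lit 168) (nat_lit 2496523374) (nat_lit 0) (nat_lit 6640864051) (nat_lit 10) (nat_lit 5) (nat_lit 12) (nat_lit 4) (nat_lit 10) (nat_lit 4) (nat_lit 433) (nat_lit 305) (nat_lit 207)) (XT.lf (nat_lit 0) (nat_lit 5341701122) (nat_lit 84) (nat_lit 37196619259) (nat_lit 84) (nat_lit 5830106365) (nat_lit 9) (nat_lit 4) (nat_lit 10) (nat_lit 5) (nat_lit 10) (nat_lit 4) (nat_lit 434) (nat_lit 305) (nat_lit 206))))) (XT.nd (nat_lit 282) (nat_lit 84) (nat_lit 0) (XT.nd (nat_lit 94) (nat_lit 84) (nat_lit 0) (XT.lf (nat_lit 0) (nat_lit 13443487664) (nat_lit 84) (nat_lit 33829039784) (nat_lit 84) (nat_lit 2410791532) (nat_lit 9) (nat_lit 4)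 (nat_lit 10) (nat_lit 5) (nat_lit 10) (nat_lit 4) (nat_lit 435) (nat_lit 305) (nat_lit 205)) (XT.nd (nat_lit 94) (nat_lit 0) (nat_lit 0) (XT.lf (nat_lit 0) (nat_lit 1076902363) (nat_lit 168) (nat_lit 29282364956) (nat_lit 84) (nat_lit 20678452805) (nat_lit 8) (nat_lit 5) (nat_lit 10) (nat_lit 5) (nat_lit 9) (nat_lit 4) (nat_lit 436) (nat_lit 305) (nat_lit 204)) (XT.lf (nat_lit 0) (nat_lit 4608618413) (nat_lit 168) (nat_lit 22161746912) (nat_lit 84) (nat_lit 25662043320) (nat_lit 8) (nat_lit 5) (nat_lit 10) (nat_lit 5) (nat_lit 9) (nat_lit 4) (nat_lit 437) (nat_lit 305) (nat_lit 203)))) (XT.nd (nat_lit 188) (nat_lit 84) (nat_lit 0) (XT.nd (nat_lit 94) (nat_lit 0) (nat_lit 0) (XT.lf (nat_lit 0) (nat_lit 8234485808) (nat_lit 168) (nat_lit 14848581282) (nat_lit 84) (nat_lit 30786231332) (nat_lit 8) (nat_lit 5) (nat_lit 10) (nat_lit 5) (nat_lit 9) (nat_lit 4) (nat_lit 438) (nat_lit 305) (nat_lit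 202)) (XT.lf (nat_lit 0) (nat_lit 11957672781) (nat_lit 168) (nat_lit 7336477922) (nat_lit 84) (nat_lit 36055494286) (nat_lit 8) (nat_lit 5) (nat_lit 10) (nat_lit 5) (nat_lit 9) (nat_lit 4) (nat_lit 439) (nat_lit 305) (nat_lit 201))) (XT.nd (nat_lit 94) (nat_lit 0) (nat_lit 0) (XT.lf (nat_lit 0) (nat_lit 388712320) (nat_lit 84) (nat_lit 15396456824) (nat_lit 168) (nat_lit 41089460614) (nat_lit 7) (nat_lit 5) (nat_lit 8) (nat_lit 5) (nat_lit 9) (nat_lit 4) (nat_lit 440) (nat_lit 305) (nat_lit 200)) (XT.lf (nat_lit 0) (nat_lit 8476382197) (nat_lit 84) (nat_lit 11314204397) (nat_lit 168) (nat_lit 38652890625) (nat_lit 7) (nat_lit 5) (nat_lit 8) (nat_lit 5) (nat_lit 9) (nat_lit 4) (nat_lit 441) (nat_lit 305) (nat_lit 199))))))))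
noncomputable def xc65 : XT := (XT.nd (nat_lit 50572) (nat_lit 0) (nat_lit 3948) (XT.nd (nat_lit 49256) (nat_lit 0) (nat_lit 10920) (XT.nd (nat_lit 564) (nat_lit 84) (nat_lit 0) (XT.nd (nat_lit 282) (nat_lit 0) (nat_lit 0) (XT.nd (nat_lit 94) (nat_lit 0) (nat_lit 0) (XT.lf (nat_lit 0) (nat_lit 16787588309) (nat_lit 84) (nat_lit 7117910449) (nat_lit 168) (nat_lit 36154217242) (nat_lit 7) (nat_lit 5) (nat_lit 8) (nat_lit 5) (nat_lit 9) (nat_lit 4) (nat_lit 442) (nat_lit 305) (nat_lit 198)) (XT.nd (nat_lit 94) (nat_lit 0) (nat_lit 0) (XT.lf (nat_lit 0) (nat_lit 25329592876) (nat_lit 84) (nat_lit 2803908314) (nat_lit 168) (nat_lit 33591257157) (nat_lit 7) (nat_lit 5) (nat_lit 8) (nat_lit 5) (nat_lit 9) (nat_lit 4) (nat_lit 443) (nat_lit 305) (nat_lit 197)) (XT.lf (nat_lit 0) (nat_lit 32493971924) (nat_lit 168) (nat_lit 29345883032) (nat_lit 0) (nat_lit 1599733686) (nat_lit 7) (nat_lit 5) (nat_lit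 9) (nat_lit 4) (nat_lit 7) (nat_lit 4) (nat_lit 444) (nat_lit 305) (nat_lit 196)))) (XT.nd (nat_lit 94) (nat_lit 0) (nat_lit 0) (XT.lf (nat_lit 0) (nat_lit 37003181567) (nat_lit 168) (nat_lit 22130581292) (nat_lit 0) (nat_lit 6071568606) (nat_lit 7) (nat_lit 5) (nat_lit 9) (nat_lit 4) (nat_lit 7) (nat_lit 4) (nat_lit 445) (nat_lit 305) (nat_lit 195)) (XT.nd (nat_lit 94) (nat_lit 0) (nat_lit 0) (XT.lf (nat_lit 0) (nat_lit 41638117324) (nat_lit 168) (nat_lit 14716002738) (nat_lit 0) (nat_lit 10670218224) (nat_lit 7) (nat_lit 5) (nat_lit 9) (nat_lit 4) (nat_lit 7) (nat_lit 4) (nat_lit 446) (nat_lit 305) (nat_lit 194)) (XT.lf (nat_lit 0) (nat_lit 46402829139) (nat_lit 168) (nat_lit 7095668611) (nat_lit 0) (nat_lit 15399700778) (nat_lit 7) (nat_lit 5) (nat_lit 9) (nat_lit 4) (nat_lit 7) (nat_lit 4) (nat_lit 447) (nat_lit 305) (nat_lit 193))))) (XT.nd (nat_lit 282) (nat_lit 0) (nat_lit 0) (XT.nd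 (nat_lit 94) (nat_lit 0) (nat_lit 0) (XT.lf (nat_lit 0) (nat_lit 751748962) (nat_lit 84) (nat_lit 50556957660) (nat_lit 84) (nat_lit 19519626132) (nat_lit 6) (nat_lit 4) (nat_lit 7) (nat_lit 5) (nat_lit 7) (nat_lit 4) (nat_lit 448) (nat_lit 305) (nat_lit 192)) (XT.nd (nat_lit 94) (nat_lit 0) (nat_lit 0) (XT.lf (nat_lit 0) (nat_lit 8964006190) (nat_lit 84) (nat_lit 47460512658) (nat_lit 84) (nat_lit 16389974173) (nat_lit 6) (nat_lit 4) (nat_lit 7) (nat_lit 5) (nat_lit 7) (nat_lit 4) (nat_lit 449) (nat_lit 305) (nat_lit 191)) (XT.lf (nat_lit 0) (nat_lit 17407061112) (nat_lit 84) (nat_lit 44278109454) (nat_lit 84) (nat_lit 13175331204) (nat_lit 6) (nat_lit 4) (nat_lit 7) (nat_lit 5) (nat_lit 7) (nat_lit 4) (nat_lit 450) (nat_lit 305) (nat_lit 190)))) (XT.nd (nat_lit 48222) (nat_lit 0) (nat_lit 18564) (XT.nd (nat_lit 94) (nat_lit 0) (nat_lit 0) (XT.lf (nat_lit 0) (nat_lit 26088291154) (nat_lit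 84) (nat_lit 41006967305) (nat_lit 84) (nat_lit 9872888313) (nat_lit 6) (nat_lit 4) (nat_lit 7) (nat_lit 5) (nat_lit 7) (nat_lit 4) (nat_lit 451) (nat_lit 305) (nat_lit 189)) (XT.lf (nat_lit 0) (nat_lit 35015281858) (nat_lit 84) (nat_lit 37644227933) (nat_lit 84) (nat_lit 6479759871) (nat_lit 6) (nat_lit 4) (nat_lit 7) (nat_lit 5) (nat_lit 7) (nat_lit 4) (nat_lit 452) (nat_lit 305) (nat_lit 188))) (XT.nd (nat_lit 94) (nat_lit 924) (nat_lit 0) (XT.lf (nat_lit 0) (nat_lit 1706627743) (nat_lit 756) (nat_lit 851260762) (nat_lit 756) (nat_lit 851260762) (nat_lit 238) (nat_lit 4) (nat_lit 247) (nat_lit 5) (nat_lit 247) (nat_lit 4) (nat_lit 333) (nat_lit 306) (nat_lit 306)) (XT.lf (nat_lit 0) (nat_lit 691990726) (nat_lit 840) (nat_lit 587388288) (nat_lit 924) (nat_lit 5583520107) (nat_lit 227) (nat_lit 5) (nat_lit 237) (nat_lit 5) (nat_lit 238) (nat_lit 4) (nat_lit 334) (nat_lit 306) (nat_lit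 305)))))) (XT.nd (nat_lit 658) (nat_lit 3192) (nat_lit 0) (XT.nd (nat_lit 282) (nat_lit 3444) (nat_lit 0) (XT.nd (nat_lit 94) (nat_lit 1008) (nat_lit 0) (XT.lf (nat_lit 0) (nat_lit 4260994587) (nat_lit 924) (nat_lit 2033710489) (nat_lit 0) (nat_lit 615550335) (nat_lit 227) (nat_lit 5) (nat_lit 238) (nat_lit 4) (nat_lit 227) (nat_lit 4) (nat_lit 335) (nat_lit 306) (nat_lit 304)) (XT.nd (nat_lit 94) (nat_lit 0) (nat_lit 0) (XT.lf (nat_lit 0) (nat_lit 298779562) (nat_lit 1008) (nat_lit 4782402657) (nat_lit 84) (nat_lit 1879994532) (nat_lit 215) (nat_lit 5) (nat_lit 227) (nat_lit 5) (nat_lit 216) (nat_lit 4) (nat_lit 336) (nat_lit 306) (nat_lit 303)) (XT.lf (nat_lit 0) (nat_lit 3210676965) (nat_lit 1008) (nat_lit 563950850) (nat_lit 84) (nat_lit 3240586939) (nat_lit 215) (nat_lit 5) (nat_lit 227) (nat_lit 5) (nat_lit 216) (nat_lit 4) (nat_lit 337) (nat_lit 306) (nat_lit 302)))) (XT.nd (nat_lit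 188) (nat_lit 1260) (nat_lit 0) (XT.nd (nat_lit 94) (nat_lit 1176) (nat_lit 0) (XT.lf (nat_lit 0) (nat_lit 3773296905) (nat_lit 1008) (nat_lit 2383510964) (nat_lit 1092) (nat_lit 915888693) (nat_lit 203) (nat_lit 5) (nat_lit 215) (nat_lit 5) (nat_lit 216) (nat_lit 4) (nat_lit 338) (nat_lit 306) (nat_lit 301)) (XT.lf (nat_lit 0) (nat_lit 1038328867) (nat_lit 1092) (nat_lit 907985988) (nat_lit 1176) (nat_lit 5187397447) (nat_lit 189) (nat_lit 5) (nat_lit 202) (nat_lit 5) (nat_lit 203) (nat_lit 5) (nat_lit 339) (nat_lit 306) (nat_lit 300))) (XT.nd (nat_lit 94) (nat_lit 1260) (nat_lit 0) (XT.lf (nat_lit 0) (nat_lit 4828698965) (nat_lit 1176) (nat_lit 1721639453) (nat_lit 84) (nat_lit 647575894) (nat_lit 189) (nat_lit 5) (nat_lit 203) (nat_lit 5) (nat_lit 190) (nat_lit 4) (nat_lit 340) (nat_lit 306) (nat_lit 299)) (XT.lf (nat_lit 0) (nat_lit 473524506) (nat_lit 1260) (nat_lit 4524608972) (nat_lit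 84) (nat_lit 2267439867) (nat_lit 174) (nat_lit 5) (nat_lit 189) (nat_lit 5) (nat_lit 175) (nat_lit 5) (nat_lit 341) (nat_lit 306) (nat_lit 298))))) (XT.nd (nat_lit 282) (nat_lit 1260) (nat_lit 0) (XT.nd (nat_lit 94) (nat_lit 1932) (nat_lit 0) (XT.lf (nat_lit 0) (nat_lit 3287868953) (nat_lit 1260) (nat_lit 68842688) (nat_lit 84) (nat_lit 3980020294) (nat_lit 174) (nat_lit 5) (nat_lit 189) (nat_lit 5) (nat_lit 175) (nat_lit 5) (nat_lit 342) (nat_lit 306) (nat_lit 297)) (XT.nd (nat_lit 94) (nat_lit 672) (nat_lit 0) (XT.lf (nat_lit 0) (nat_lit 4528170487) (nat_lit 1260) (nat_lit 1620820176) (nat_lit 1344) (nat_lit 1262350380) (nat_lit 159) (nat_lit 5) (nat_lit 174) (nat_lit 5) (nat_lit 175) (nat_lit 5) (nat_lit 343) (nat_lit 306) (nat_lit 296)) (XT.lf (nat_lit 0) (nat_lit 1514915951) (nat_lit 672) (nat_lit 5779199858) (nat_lit 84) (nat_lit 195628507) (nat_lit 151) (nat_lit 5) (nat_lit 159)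 (nat_lit 5) (nat_lit 152) (nat_lit 5) (nat_lit 344) (nat_lit 306) (nat_lit 295)))) (XT.nd (nat_lit 188) (nat_lit 672) (nat_lit 0) (XT.nd (nat_lit 94) (nat_lit 588) (nat_lit 0) (XT.lf (nat_lit 0) (nat_lit 4316577004) (nat_lit 672) (nat_lit 1180780260) (nat_lit 84) (nat_lit 2073944377) (nat_lit 151) (nat_lit 5) (nat_lit 159) (nat_lit 5) (nat_lit 152) (nat_lit 5) (nat_lit 345) (nat_lit 306) (nat_lit 294)) (XT.lf (nat_lit 0) (nat_lit 3543681138) (nat_lit 588) (nat_lit 3615970168) (nat_lit 672) (nat_lit 497098884) (nat_lit 144) (nat_lit 5) (nat_lit 151) (nat_lit 5) (nat_lit 152) (nat_lit 5) (nat_lit 346) (nat_lit 306) (nat_lit 293))) (XT.nd (nat_lit 94) (nat_lit 0) (nat_lit 0) (XT.lf (nat_lit 0) (nat_lit 596741117) (nat_lit 588) (nat_lit 1642426457) (nat_lit 672) (nat_lit 5506825671) (nat_lit 136) (nat_lit 5) (nat_lit 143) (nat_lit 5) (nat_lit 144) (nat_lit 5) (nat_lit 347) (nat_lit 306) (nat_lit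 292)) (XT.lf (nat_lit 0) (nat_lit 5018463409) (nat_lit 672) (nat_lit 2397057768) (nat_lit 84) (nat_lit 423268157) (nat_lit 136) (nat_lit 5) (nat_lit 144) (nat_lit 5) (nat_lit 137) (nat_lit 5) (nat_lit 348) (nat_lit 306) (nat_lit 291))))))) (XT.nd (nat_lit 1316) (nat_lit 2436) (nat_lit 0) (XT.nd (nat_lit 658) (nat_lit 2352) (nat_lit 0) (XT.nd (nat_lit 282) (nat_lit 1008) (nat_lit 0) (XT.nd (nat_lit 94) (nat_lit 588) (nat_lit 0) (XT.lf (nat_lit 0) (nat_lit 2448179951) (nat_lit 588) (nat_lit 5400166215) (nat_lit 672) (nat_lit 87153859) (nat_lit 129) (nat_lit 5) (nat_lit 136) (nat_lit 5) (nat_lit 137) (nat_lit 5) (nat_lit 349) (nat_lit 306) (nat_lit 290)) (XT.nd (nat_lit 94) (nat_lit 504) (nat_lit 0) (XT.lf (nat_lit 0) (nat_lit 2627135832) (nat_lit 672) (nat_lit 654749160) (nat_lit 84) (nat_lit 4754008196) (nat_lit 128) (nat_lit 5) (nat_lit 136) (nat_lit 5) (nat_lit 129) (nat_lit 5) (nat_lit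 350) (nat_lit 306) (nat_lit 289)) (XT.lf (nat_lit 0) (nat_lit 4326940622) (nat_lit 504) (nat_lit 1065765366) (nat_lit 588) (nat_lit 2747552657) (nat_lit 122) (nat_lit 5) (nat_lit 128) (nat_lit 5) (nat_lit 129) (nat_lit 5) (nat_lit 351) (nat_lit 306) (nat_lit 288)))) (XT.nd (nat_lit 188) (nat_lit 420) (nat_lit 0) (XT.nd (nat_lit 94) (nat_lit 84) (nat_lit 0) (XT.lf (nat_lit 0) (nat_lit 1153954419) (nat_lit 504) (nat_lit 7047952673) (nat_lit 588) (nat_lit 47158635) (nat_lit 116) (nat_lit 5) (nat_lit 122) (nat_lit 5) (nat_lit 123) (nat_lit 5) (nat_lit 352) (nat_lit 306) (nat_lit 287)) (XT.lf (nat_lit 0) (nat_lit 2661971916) (nat_lit 588) (nat_lit 2130223124) (nat_lit 84) (nat_lit 3568844168) (nat_lit 115) (nat_lit 5) (nat_lit 122) (nat_lit 5) (nat_lit 116) (nat_lit 5) (nat_lit 353) (nat_lit 306) (nat_lit 286))) (XT.nd (nat_lit 94) (nat_lit 0) (nat_lit 0) (XT.lf (nat_lit 0) (nat_lit 2961874653)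 (nat_lit 420) (nat_lit 2451655624) (nat_lit 504) (nat_lit 3064084053) (nat_lit 110) (nat_lit 5) (nat_lit 115) (nat_lit 5) (nat_lit 116) (nat_lit 5) (nat_lit 354) (nat_lit 306) (nat_lit 285)) (XT.lf (nat_lit 0) (nat_lit 8172111040) (nat_lit 420) (nat_lit 31846315) (nat_lit 504) (nat_lit 395155703) (nat_lit 110) (nat_lit 5) (nat_lit 115) (nat_lit 5) (nat_lit 116) (nat_lit 5) (nat_lit 355) (nat_lit 306) (nat_lit 284))))) (XT.nd (nat_lit 282) (nat_lit 1344) (nat_lit 0) (XT.nd (nat_lit 94) (nat_lit 420) (nat_lit 0) (XT.lf (nat_lit 0) (nat_lit 2314306019) (nat_lit 588) (nat_lit 3940225626) (nat_lit 84) (nat_lit 2468963739) (nat_lit 103) (nat_lit 5) (nat_lit 110) (nat_lit 5) (nat_lit 104) (nat_lit 5) (nat_lit 356) (nat_lit 306) (nat_lit 283)) (XT.nd (nat_lit 94) (nat_lit 0) (nat_lit 0) (XT.lf (nat_lit 0) (nat_lit 1248722206) (nat_lit 420) (nat_lit 3802029197) (nat_lit 504) (nat_lit 3802237310)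 (nat_lit 98) (nat_lit 5) (nat_lit 103) (nat_lit 5) (nat_lit 104) (nat_lit 5) (nat_lit 357) (nat_lit 306) (nat_lit 282)) (XT.lf (nat_lit 0) (nat_lit 6596381406) (nat_lit 420) (nat_lit 1250754674) (nat_lit 504) (nat_lit 1139998461) (nat_lit 98) (nat_lit 5) (nat_lit 103) (nat_lit 5) (nat_lit 104) (nat_lit 5) (nat_lit 358) (nat_lit 306) (nat_lit 281)))) (XT.nd (nat_lit 188) (nat_lit 840) (nat_lit 0) (XT.nd (nat_lit 94) (nat_lit 0) (nat_lit 0) (XT.lf (nat_lit 0) (nat_lit 1551833120) (nat_lit 504) (nat_lit 6194982075) (nat_lit 84) (nat_lit 1378695041) (nat_lit 92) (nat_lit 5) (nat_lit 98) (nat_lit 5) (nat_lit 93) (nat_lit 5) (nat_lit 359) (nat_lit 306) (nat_lit 280)) (XT.lf (nat_lit 0) (nat_lit 4278324516) (nat_lit 504) (nat_lit 908517953) (nat_lit 84) (nat_lit 4081645918) (nat_lit 92) (nat_lit 5) (nat_lit 98) (nat_lit 5) (nat_lit 93) (nat_lit 5) (nat_lit 360) (nat_lit 306) (nat_lit 279))) (XT.nd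 (nat_lit 94) (nat_lit 504) (nat_lit 0) (XT.lf (nat_lit 0) (nat_lit 4549837251) (nat_lit 336) (nat_lit 2522308299) (nat_lit 420) (nat_lit 2344135868) (nat_lit 88) (nat_lit 5) (nat_lit 92) (nat_lit 5) (nat_lit 93) (nat_lit 5) (nat_lit 361) (nat_lit 306) (nat_lit 278)) (XT.lf (nat_lit 0) (nat_lit 332681770) (nat_lit 504) (nat_lit 9018533675) (nat_lit 84) (nat_lit 218503704) (nat_lit 82) (nat_lit 5) (nat_lit 88) (nat_lit 5) (nat_lit 83) (nat_lit 5) (nat_lit 362) (nat_lit 306) (nat_lit 277)))))) (XT.nd (nat_lit 658) (nat_lit 1344) (nat_lit 0) (XT.nd (nat_lit 282) (nat_lit 756) (nat_lit 0) (XT.nd (nat_lit 94) (nat_lit 336) (nat_lit 0) (XT.lf (nat_lit 0) (nat_lit 3060198929) (nat_lit 504) (nat_lit 3620708475) (nat_lit 84) (nat_lit 3045714847) (nat_lit 82) (nat_lit 5) (nat_lit 88) (nat_lit 5) (nat_lit 83) (nat_lit 5) (nat_lit 363) (nat_lit 306) (nat_lit 276)) (XT.nd (nat_lit 94) (nat_lit 0) (nat_lit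 0) (XT.lf (nat_lit 0) (nat_lit 1901541003) (nat_lit 336) (nat_lit 3930850597) (nat_lit 420) (nat_lit 4057036717) (nat_lit 78) (nat_lit 5) (nat_lit 82) (nat_lit 5) (nat_lit 83) (nat_lit 5) (nat_lit 364) (nat_lit 306) (nat_lit 275)) (XT.lf (nat_lit 0) (nat_lit 7589794082) (nat_lit 336) (nat_lit 1079993450) (nat_lit 420) (nat_lit 1387948907) (nat_lit 78) (nat_lit 5) (nat_lit 82) (nat_lit 5) (nat_lit 83) (nat_lit 5) (nat_lit 365) (nat_lit 306) (nat_lit 274)))) (XT.nd (nat_lit 188) (nat_lit 336) (nat_lit 0) (XT.nd (nat_lit 94) (nat_lit 0) (nat_lit 0) (XT.lf (nat_lit 0) (nat_lit 1329908384) (nat_lit 420) (nat_lit 7055583947) (nat_lit 84) (nat_lit 1845425623) (nat_lit 73) (nat_lit 5) (nat_lit 78) (nat_lit 5) (nat_lit 74) (nat_lit 5) (nat_lit 366) (nat_lit 306) (nat_lit 273)) (XT.lf (nat_lit 0) (nat_lit 4084408652) (nat_lit 420) (nat_lit 1468353463) (nat_lit 84) (nat_lit 4856702725) (nat_lit 73)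 (nat_lit 5) (nat_lit 78) (nat_lit 5) (nat_lit 74) (nat_lit 5) (nat_lit 367) (nat_lit 306) (nat_lit 272))) (XT.nd (nat_lit 94) (nat_lit 0) (nat_lit 0) (XT.lf (nat_lit 0) (nat_lit 4298901935) (nat_lit 336) (nat_lit 2612647732) (nat_lit 420) (nat_lit 3682188483) (nat_lit 69) (nat_lit 5) (nat_lit 73) (nat_lit 5) (nat_lit 74) (nat_lit 5) (nat_lit 368) (nat_lit 306) (nat_lit 271)) (XT.lf (nat_lit 0) (nat_lit 9791776391) (nat_lit 420) (nat_lit 590129163) (nat_lit 84) (nat_lit 402654108) (nat_lit 69) (nat_lit 5) (nat_lit 74) (nat_lit 5) (nat_lit 70) (nat_lit 5) (nat_lit 369) (nat_lit 306) (nat_lit 270))))) (XT.nd (nat_lit 282) (nat_lit 672) (nat_lit 0) (XT.nd (nat_lit 94) (nat_lit 252) (nat_lit 0) (XT.lf (nat_lit 0) (nat_lit 1770356379) (nat_lit 420) (nat_lit 5704629102) (nat_lit 84) (nat_lit 3504840018) (nat_lit 64) (nat_lit 5) (nat_lit 69) (nat_lit 5) (nat_lit 65) (nat_lit 5) (nat_lit 370) (nat_lit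 306) (nat_lit 269)) (XT.nd (nat_lit 94) (nat_lit 0) (nat_lit 0) (XT.lf (nat_lit 0) (nat_lit 68847875) (nat_lit 252) (nat_lit 4485270510) (nat_lit 336) (nat_lit 6627867940) (nat_lit 61) (nat_lit 5) (nat_lit 64) (nat_lit 5) (nat_lit 65) (nat_lit 5) (nat_lit 371) (nat_lit 306) (nat_lit 268)) (XT.lf (nat_lit 0) (nat_lit 6062743501) (nat_lit 252) (nat_lit 1368014372) (nat_lit 336) (nat_lit 3959233711) (nat_lit 61) (nat_lit 5) (nat_lit 64) (nat_lit 5) (nat_lit 65) (nat_lit 5) (nat_lit 372) (nat_lit 306) (nat_lit 267)))) (XT.nd (nat_lit 188) (nat_lit 252) (nat_lit 0) (XT.nd (nat_lit 94) (nat_lit 84) (nat_lit 0) (XT.lf (nat_lit 0) (nat_lit 556405234) (nat_lit 336) (nat_lit 9813317176) (nat_lit 420) (nat_lit 1235292597) (nat_lit 57) (nat_lit 5) (nat_lit 61) (nat_lit 5) (nat_lit 62) (nat_lit 5) (nat_lit 373) (nat_lit 306) (nat_lit 266)) (XT.lf (nat_lit 0) (nat_lit 1560757972) (nat_lit 420) (nat_lit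 5197545428) (nat_lit 84) (nat_lit 5067157240) (nat_lit 56) (nat_lit 5) (nat_lit 61) (nat_lit 5) (nat_lit 57) (nat_lit 5) (nat_lit 374) (nat_lit 306) (nat_lit 265))) (XT.nd (nat_lit 94) (nat_lit 0) (nat_lit 0) (XT.lf (nat_lit 0) (nat_lit 764486651) (nat_lit 252) (nat_lit 3613250813) (nat_lit 336) (nat_lit 7675612788) (nat_lit 53) (nat_lit 5) (nat_lit 56) (nat_lit 5) (nat_lit 57) (nat_lit 5) (nat_lit 375) (nat_lit 306) (nat_lit 264)) (XT.lf (nat_lit 0) (nat_lit 6945332142) (nat_lit 252) (nat_lit 341590403) (nat_lit 336) (nat_lit 5000975347) (nat_lit 53) (nat_lit 5) (nat_lit 56) (nat_lit 5) (nat_lit 57) (nat_lit 5) (nat_lit 376) (nat_lit 306) (nat_lit 263))))))))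
noncomputable def xc66 : XT := (XT.nd (nat_lit 2538) (nat_lit 1008) (nat_lit 0) (XT.nd (nat_lit 1222) (nat_lit 1008) (nat_lit 0) (XT.nd (nat_lit 564) (nat_lit 756) (nat_lit 0) (XT.nd (nat_lit 282) (nat_lit 252) (nat_lit 0) (XT.nd (nat_lit 94) (nat_lit 336) (nat_lit 0) (XT.lf (nat_lit 0) (nat_lit 700884399) (nat_lit 252) (nat_lit 9574657445) (nat_lit 336) (nat_lit 2254226066) (nat_lit 50) (nat_lit 5) (nat_lit 53) (nat_lit 5) (nat_lit 54) (nat_lit 5) (nat_lit 377) (nat_lit 306) (nat_lit 262)) (XT.nd (nat_lit 94) (nat_lit 252) (nat_lit 0) (XT.lf (nat_lit 0) (nat_lit 578056414) (nat_lit 336) (nat_lit 5817635928) (nat_lit 84) (nat_lit 6382653198) (nat_lit 49) (nat_lit 5) (nat_lit 53) (nat_lit 5) (nat_lit 50) (nat_lit 5) (nat_lit 378) (nat_lit 306) (nat_lit 261)) (XT.lf (nat_lit 0) (nat_lit 293202890) (nat_lit 252) (nat_lit 3117366589) (nat_lit 336) (nat_lit 9624370758) (nat_lit 46) (nat_lit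 5) (nat_lit 49) (nat_lit 5) (nat_lit 50) (nat_lit 5) (nat_lit 379) (nat_lit 306) (nat_lit 260)))) (XT.nd (nat_lit 94) (nat_lit 252) (nat_lit 0) (XT.lf (nat_lit 0) (nat_lit 6348039840) (nat_lit 336) (nat_lit 6658525095) (nat_lit 84) (nat_lit 292113434) (nat_lit 46) (nat_lit 5) (nat_lit 50) (nat_lit 5) (nat_lit 47) (nat_lit 5) (nat_lit 380) (nat_lit 306) (nat_lit 259)) (XT.nd (nat_lit 94) (nat_lit 252) (nat_lit 0) (XT.lf (nat_lit 0) (nat_lit 9363878841) (nat_lit 336) (nat_lit 486402988) (nat_lit 84) (nat_lit 3720383221) (nat_lit 46) (nat_lit 5) (nat_lit 50) (nat_lit 5) (nat_lit 47) (nat_lit 5) (nat_lit 381) (nat_lit 306) (nat_lit 258)) (XT.lf (nat_lit 0) (nat_lit 5925618280) (nat_lit 252) (nat_lit 6562098035) (nat_lit 336) (nat_lit 1362611782) (nat_lit 43) (nat_lit 5) (nat_lit 46) (nat_lit 5) (nat_lit 47) (nat_lit 5) (nat_lit 382) (nat_lit 306) (nat_lit 257))))) (XT.nd (nat_lit 282) (nat_lit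 504) (nat_lit 0) (XT.nd (nat_lit 94) (nat_lit 168) (nat_lit 0) (XT.lf (nat_lit 0) (nat_lit 1501979016) (nat_lit 336) (nat_lit 1674492928) (nat_lit 84) (nat_lit 10962527261) (nat_lit 42) (nat_lit 5) (nat_lit 46) (nat_lit 5) (nat_lit 43) (nat_lit 5) (nat_lit 383) (nat_lit 306) (nat_lit 256)) (XT.nd (nat_lit 94) (nat_lit 0) (nat_lit 0) (XT.lf (nat_lit 0) (nat_lit 4436327626) (nat_lit 252) (nat_lit 9655353648) (nat_lit 84) (nat_lit 343947083) (nat_lit 40) (nat_lit 5) (nat_lit 43) (nat_lit 5) (nat_lit 41) (nat_lit 5) (nat_lit 384) (nat_lit 306) (nat_lit 255)) (XT.lf (nat_lit 0) (nat_lit 7469427284) (nat_lit 252) (nat_lit 3368976117) (nat_lit 84) (nat_lit 3902469094) (nat_lit 40) (nat_lit 5) (nat_lit 43) (nat_lit 5) (nat_lit 41) (nat_lit 5) (nat_lit 385) (nat_lit 306) (nat_lit 254)))) (XT.nd (nat_lit 188) (nat_lit 252) (nat_lit 0) (XT.nd (nat_lit 94) (nat_lit 0) (nat_lit 0) (XT.lf (nat_lit 0)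 (nat_lit 3108673365) (nat_lit 252) (nat_lit 7478024049) (nat_lit 336) (nat_lit 4468817851) (nat_lit 37) (nat_lit 5) (nat_lit 40) (nat_lit 5) (nat_lit 41) (nat_lit 5) (nat_lit 386) (nat_lit 306) (nat_lit 253)) (XT.lf (nat_lit 0) (nat_lit 9792300689) (nat_lit 252) (nat_lit 4003017216) (nat_lit 336) (nat_lit 1584380009) (nat_lit 37) (nat_lit 5) (nat_lit 40) (nat_lit 5) (nat_lit 41) (nat_lit 5) (nat_lit 387) (nat_lit 306) (nat_lit 252))) (XT.nd (nat_lit 94) (nat_lit 0) (nat_lit 0) (XT.lf (nat_lit 0) (nat_lit 910794410) (nat_lit 168) (nat_lit 421978791) (nat_lit 252) (nat_lit 14381269314) (nat_lit 34) (nat_lit 5) (nat_lit 36) (nat_lit 5) (nat_lit 37) (nat_lit 5) (nat_lit 388) (nat_lit 306) (nat_lit 251)) (XT.lf (nat_lit 0) (nat_lit 4358756788) (nat_lit 252) (nat_lit 8442710802) (nat_lit 84) (nat_lit 3254916996) (nat_lit 34) (nat_lit 5) (nat_lit 37) (nat_lit 5) (nat_lit 35) (nat_lit 5) (nat_lit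 389) (nat_lit 306) (nat_lit 250)))))) (XT.nd (nat_lit 658) (nat_lit 420) (nat_lit 0) (XT.nd (nat_lit 282) (nat_lit 420) (nat_lit 0) (XT.nd (nat_lit 94) (nat_lit 168) (nat_lit 0) (XT.lf (nat_lit 0) (nat_lit 7445504058) (nat_lit 252) (nat_lit 1950689651) (nat_lit 84) (nat_lit 7013735283) (nat_lit 34) (nat_lit 5) (nat_lit 37) (nat_lit 5) (nat_lit 35) (nat_lit 5) (nat_lit 390) (nat_lit 306) (nat_lit 249)) (XT.nd (nat_lit 94) (nat_lit 0) (nat_lit 0) (XT.lf (nat_lit 0) (nat_lit 4775736118) (nat_lit 168) (nat_lit 5861827029) (nat_lit 252) (nat_lit 6136165979) (nat_lit 32) (nat_lit 5) (nat_lit 34) (nat_lit 5) (nat_lit 35) (nat_lit 5) (nat_lit 391) (nat_lit 306) (nat_lit 248)) (XT.lf (nat_lit 0) (nat_lit 11690919036) (nat_lit 168) (nat_lit 2221422460) (nat_lit 252) (nat_lit 3236522829) (nat_lit 32) (nat_lit 5) (nat_lit 34) (nat_lit 5) (nat_lit 35) (nat_lit 5) (nat_lit 392) (nat_lit 306) (nat_lit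 247)))) (XT.nd (nat_lit 188) (nat_lit 168) (nat_lit 0) (XT.nd (nat_lit 94) (nat_lit 84) (nat_lit 0) (XT.lf (nat_lit 0) (nat_lit 1235450270) (nat_lit 168) (nat_lit 16044502438) (nat_lit 252) (nat_lit 255492104) (nat_lit 30) (nat_lit 5) (nat_lit 32) (nat_lit 5) (nat_lit 33) (nat_lit 4) (nat_lit 393) (nat_lit 306) (nat_lit 246)) (XT.lf (nat_lit 0) (nat_lit 2805811512) (nat_lit 252) (nat_lit 9792459282) (nat_lit 84) (nat_lit 5333194236) (nat_lit 29) (nat_lit 5) (nat_lit 32) (nat_lit 5) (nat_lit 30) (nat_lit 5) (nat_lit 394) (nat_lit 306) (nat_lit 245))) (XT.nd (nat_lit 94) (nat_lit 168) (nat_lit 0) (XT.lf (nat_lit 0) (nat_lit 5922865360) (nat_lit 252) (nat_lit 3143121809) (nat_lit 84) (nat_lit 9274257871) (nat_lit 29) (nat_lit 5) (nat_lit 32) (nat_lit 5) (nat_lit 30) (nat_lit 5) (nat_lit 395) (nat_lit 306) (nat_lit 244)) (XT.lf (nat_lit 0) (nat_lit 3729051140) (nat_lit 168) (nat_lit 5410173431)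 (nat_lit 252) (nat_lit 9621915762) (nat_lit 27) (nat_lit 5) (nat_lit 29) (nat_lit 5) (nat_lit 30) (nat_lit 5) (nat_lit 396) (nat_lit 306) (nat_lit 243))))) (XT.nd (nat_lit 282) (nat_lit 252) (nat_lit 0) (XT.nd (nat_lit 94) (nat_lit 168) (nat_lit 0) (XT.lf (nat_lit 0) (nat_lit 10822892758) (nat_lit 168) (nat_lit 1631273979) (nat_lit 252) (nat_lit 6740457925) (nat_lit 27) (nat_lit 5) (nat_lit 29) (nat_lit 5) (nat_lit 30) (nat_lit 5) (nat_lit 397) (nat_lit 306) (nat_lit 242)) (XT.nd (nat_lit 94) (nat_lit 168) (nat_lit 0) (XT.lf (nat_lit 0) (nat_lit 15861327597) (nat_lit 252) (nat_lit 1581508097) (nat_lit 84) (nat_lit 2198518932) (nat_lit 27) (nat_lit 5) (nat_lit 30) (nat_lit 5) (nat_lit 28) (nat_lit 4) (nat_lit 398) (nat_lit 306) (nat_lit 241)) (XT.lf (nat_lit 0) (nat_lit 5455930065) (nat_lit 168) (nat_lit 13955250170) (nat_lit 252) (nat_lit 689115458) (nat_lit 25) (nat_lit 5) (nat_lit 27)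 (nat_lit 5) (nat_lit 28) (nat_lit 4) (nat_lit 399) (nat_lit 306) (nat_lit 240)))) (XT.nd (nat_lit 188) (nat_lit 168) (nat_lit 0) (XT.nd (nat_lit 94) (nat_lit 0) (nat_lit 0) (XT.lf (nat_lit 0) (nat_lit 2433930973) (nat_lit 252) (nat_lit 7906679538) (nat_lit 84) (nat_lit 10232054739) (nat_lit 24) (nat_lit 5) (nat_lit 27) (nat_lit 5) (nat_lit 25) (nat_lit 5) (nat_lit 400) (nat_lit 306) (nat_lit 239)) (XT.lf (nat_lit 0) (nat_lit 5609591463) (nat_lit 252) (nat_lit 1019246354) (nat_lit 84) (nat_lit 14431001709) (nat_lit 24) (nat_lit 5) (nat_lit 27) (nat_lit 5) (nat_lit 25) (nat_lit 5) (nat_lit 401) (nat_lit 306) (nat_lit 238))) (XT.nd (nat_lit 94) (nat_lit 0) (nat_lit 0) (XT.lf (nat_lit 0) (nat_lit 6150596559) (nat_lit 168) (nat_lit 2762614722) (nat_lit 252) (nat_lit 12647457953) (nat_lit 22) (nat_lit 5) (nat_lit 24) (nat_lit 5) (nat_lit 25) (nat_lit 5) (nat_lit 402) (nat_lit 306) (nat_lit 237))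 (XT.lf (nat_lit 0) (nat_lit 12311802298) (nat_lit 252) (nat_lit 8576044587) (nat_lit 84) (nat_lit 1188821354) (nat_lit 22) (nat_lit 5) (nat_lit 25) (nat_lit 5) (nat_lit 23) (nat_lit 4) (nat_lit 403) (nat_lit 306) (nat_lit 236))))))) (XT.nd (nat_lit 1316) (nat_lit 336) (nat_lit 0) (XT.nd (nat_lit 658) (nat_lit 336) (nat_lit 0) (XT.nd (nat_lit 282) (nat_lit 252) (nat_lit 0) (XT.nd (nat_lit 94) (nat_lit 84) (nat_lit 0) (XT.lf (nat_lit 0) (nat_lit 15814213194) (nat_lit 252) (nat_lit 1607486566) (nat_lit 84) (nat_lit 5186411280) (nat_lit 22) (nat_lit 5) (nat_lit 25) (nat_lit 5) (nat_lit 23) (nat_lit 4) (nat_lit 404) (nat_lit 306) (nat_lit 235)) (XT.nd (nat_lit 94) (nat_lit 0) (nat_lit 0) (XT.lf (nat_lit 0) (nat_lit 5638269304) (nat_lit 84) (nat_lit 13812877576) (nat_lit 168) (nat_lit 3703485849) (nat_lit 21) (nat_lit 5) (nat_lit 22) (nat_lit 5) (nat_lit 23) (nat_lit 4) (nat_lit 405) (nat_lit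 306) (nat_lit 234)) (XT.lf (nat_lit 0) (nat_lit 13092878522) (nat_lit 84) (nat_lit 10096116657) (nat_lit 168) (nat_lit 528819254) (nat_lit 21) (nat_lit 5) (nat_lit 22) (nat_lit 5) (nat_lit 23) (nat_lit 4) (nat_lit 406) (nat_lit 306) (nat_lit 233)))) (XT.nd (nat_lit 188) (nat_lit 0) (nat_lit 0) (XT.nd (nat_lit 94) (nat_lit 168) (nat_lit 0) (XT.lf (nat_lit 0) (nat_lit 2663631959) (nat_lit 168) (nat_lit 3593872389) (nat_lit 84) (nat_lit 18040333270) (nat_lit 20) (nat_lit 5) (nat_lit 22) (nat_lit 5) (nat_lit 21) (nat_lit 5) (nat_lit 407) (nat_lit 306) (nat_lit 232)) (XT.lf (nat_lit 0) (nat_lit 3675029577) (nat_lit 168) (nat_lit 2278256193) (nat_lit 252) (nat_lit 18941473907) (nat_lit 18) (nat_lit 5) (nat_lit 20) (nat_lit 5) (nat_lit 21) (nat_lit 5) (nat_lit 408) (nat_lit 306) (nat_lit 231))) (XT.nd (nat_lit 94) (nat_lit 0) (nat_lit 0) (XT.lf (nat_lit 0) (nat_lit 9372654470) (nat_lit 252) (nat_lit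 14330421422) (nat_lit 84) (nat_lit 1805599239) (nat_lit 18) (nat_lit 5) (nat_lit 21) (nat_lit 5) (nat_lit 19) (nat_lit 4) (nat_lit 409) (nat_lit 306) (nat_lit 230)) (XT.lf (nat_lit 0) (nat_lit 12894711113) (nat_lit 252) (nat_lit 7295565617) (nat_lit 84) (nat_lit 5950744121) (nat_lit 18) (nat_lit 5) (nat_lit 21) (nat_lit 5) (nat_lit 19) (nat_lit 4) (nat_lit 410) (nat_lit 306) (nat_lit 229))))) (XT.nd (nat_lit 282) (nat_lit 252) (nat_lit 0) (XT.nd (nat_lit 94) (nat_lit 84) (nat_lit 0) (XT.lf (nat_lit 0) (nat_lit 16500633234) (nat_lit 252) (nat_lit 87115734) (nat_lit 84) (nat_lit 10205257407) (nat_lit 18) (nat_lit 5) (nat_lit 21) (nat_lit 5) (nat_lit 19) (nat_lit 4) (nat_lit 411) (nat_lit 306) (nat_lit 228)) (XT.nd (nat_lit 94) (nat_lit 0) (nat_lit 0) (XT.lf (nat_lit 0) (nat_lit 7446535604) (nat_lit 84) (nat_lit 12818616689) (nat_lit 168) (nat_lit 7197901686) (nat_lit 17) (nat_lit 5) (nat_lit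 18) (nat_lit 5) (nat_lit 19) (nat_lit 4) (nat_lit 412) (nat_lit 306) (nat_lit 227)) (XT.lf (nat_lit 0) (nat_lit 15171977976) (nat_lit 84) (nat_lit 8950617520) (nat_lit 168) (nat_lit 4031222509) (nat_lit 17) (nat_lit 5) (nat_lit 18) (nat_lit 5) (nat_lit 19) (nat_lit 4) (nat_lit 413) (nat_lit 306) (nat_lit 226)))) (XT.nd (nat_lit 188) (nat_lit 0) (nat_lit 0) (XT.nd (nat_lit 94) (nat_lit 252) (nat_lit 0) (XT.lf (nat_lit 0) (nat_lit 23094227994) (nat_lit 84) (nat_lit 4981251355) (nat_lit 168) (nat_lit 790448307) (nat_lit 17) (nat_lit 5) (nat_lit 18) (nat_lit 5) (nat_lit 19) (nat_lit 4) (nat_lit 414) (nat_lit 306) (nat_lit 225)) (XT.lf (nat_lit 0) (nat_lit 1627671072) (nat_lit 168) (nat_lit 865911958) (nat_lit 252) (nat_lit 27105223946) (nat_lit 14) (nat_lit 5) (nat_lit 16) (nat_lit 5) (nat_lit 17) (nat_lit 5) (nat_lit 415) (nat_lit 306) (nat_lit 224))) (XT.nd (nat_lit 94) (nat_lit 0) (nat_lit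 0) (XT.lf (nat_lit 0) (nat_lit 5931744482) (nat_lit 252) (nat_lit 21059887231) (nat_lit 84) (nat_lit 3359674300) (nat_lit 14) (nat_lit 5) (nat_lit 17) (nat_lit 5) (nat_lit 15) (nat_lit 4) (nat_lit 416) (nat_lit 306) (nat_lit 223)) (XT.lf (nat_lit 0) (nat_lit 9462414683) (nat_lit 252) (nat_lit 13983344988) (nat_lit 84) (nat_lit 7680952075) (nat_lit 14) (nat_lit 5) (nat_lit 17) (nat_lit 5) (nat_lit 15) (nat_lit 4) (nat_lit 417) (nat_lit 306) (nat_lit 222)))))) (XT.nd (nat_lit 658) (nat_lit 84) (nat_lit 0) (XT.nd (nat_lit 282) (nat_lit 168) (nat_lit 0) (XT.nd (nat_lit 94) (nat_lit 84) (nat_lit 0) (XT.lf (nat_lit 0) (nat_lit 13080355008) (nat_lit 252) (nat_lit 6727002112) (nat_lit 84) (nat_lit 12118594300) (nat_lit 14) (nat_lit 5) (nat_lit 17) (nat_lit 5) (nat_lit 15) (nat_lit 4) (nat_lit 418) (nat_lit 306) (nat_lit 221)) (XT.nd (nat_lit 94) (nat_lit 0) (nat_lit 0) (XT.lf (nat_lit 0) (nat_lit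 729721382) (nat_lit 84) (nat_lit 16066019911) (nat_lit 168) (nat_lit 15953771672) (nat_lit 13) (nat_lit 5) (nat_lit 14) (nat_lit 5) (nat_lit 15) (nat_lit 4) (nat_lit 419) (nat_lit 306) (nat_lit 220)) (XT.lf (nat_lit 0) (nat_lit 8516803675) (nat_lit 84) (nat_lit 12155835329) (nat_lit 168) (nat_lit 12923652423) (nat_lit 13) (nat_lit 5) (nat_lit 14) (nat_lit 5) (nat_lit 15) (nat_lit 4) (nat_lit 420) (nat_lit 306) (nat_lit 219)))) (XT.nd (nat_lit 188) (nat_lit 168) (nat_lit 0) (XT.nd (nat_lit 94) (nat_lit 0) (nat_lit 0) (XT.lf (nat_lit 0) (nat_lit 16507168481) (nat_lit 84) (nat_lit 8141316242) (nat_lit 168) (nat_lit 9820520519) (nat_lit 13) (nat_lit 5) (nat_lit 14) (nat_lit 5) (nat_lit 15) (nat_lit 4) (nat_lit 421) (nat_lit 306) (nat_lit 218)) (XT.lf (nat_lit 0) (nat_lit 24707797673) (nat_lit 84) (nat_lit 4018954815) (nat_lit 168) (nat_lit 6641664485) (nat_lit 13) (nat_lit 5) (nat_lit 14)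 (nat_lit 5) (nat_lit 15) (nat_lit 4) (nat_lit 422) (nat_lit 306) (nat_lit 217))) (XT.nd (nat_lit 94) (nat_lit 168) (nat_lit 0) (XT.lf (nat_lit 0) (nat_lit 32913071113) (nat_lit 168) (nat_lit 3171520946) (nat_lit 0) (nat_lit 210658496) (nat_lit 13) (nat_lit 5) (nat_lit 15) (nat_lit 4) (nat_lit 13) (nat_lit 4) (nat_lit 423) (nat_lit 306) (nat_lit 216)) (XT.lf (nat_lit 0) (nat_lit 43893661) (nat_lit 168) (nat_lit 32684922318) (nat_lit 84) (nat_lit 4519040805) (nat_lit 11) (nat_lit 5) (nat_lit 13) (nat_lit 5) (nat_lit 12) (nat_lit 4) (nat_lit 424) (nat_lit 306) (nat_lit 215))))) (XT.nd (nat_lit 282) (nat_lit 84) (nat_lit 0) (XT.nd (nat_lit 94) (nat_lit 0) (nat_lit 0) (XT.lf (nat_lit 0) (nat_lit 3521145797) (nat_lit 168) (nat_lit 25695628478) (nat_lit 84) (nat_lit 9010780745) (nat_lit 11) (nat_lit 5) (nat_lit 13) (nat_lit 5) (nat_lit 12) (nat_lit 4) (nat_lit 425) (nat_lit 306) (nat_lit 214))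 (XT.nd (nat_lit 94) (nat_lit 0) (nat_lit 0) (XT.lf (nat_lit 0) (nat_lit 7087212643) (nat_lit 168) (nat_lit 18524015688) (nat_lit 84) (nat_lit 13625890362) (nat_lit 11) (nat_lit 5) (nat_lit 13) (nat_lit 5) (nat_lit 12) (nat_lit 4) (nat_lit 426) (nat_lit 306) (nat_lit 213)) (XT.lf (nat_lit 0) (nat_lit 10745210181) (nat_lit 168) (nat_lit 11163817489) (nat_lit 84) (nat_lit 18368402276) (nat_lit 11) (nat_lit 5) (nat_lit 13) (nat_lit 5) (nat_lit 12) (nat_lit 4) (nat_lit 427) (nat_lit 306) (nat_lit 212)))) (XT.nd (nat_lit 188) (nat_lit 0) (nat_lit 0) (XT.nd (nat_lit 94) (nat_lit 84) (nat_lit 0) (XT.lf (nat_lit 0) (nat_lit 14498334720) (nat_lit 168) (nat_lit 3608602640) (nat_lit 84) (nat_lit 23242460430) (nat_lit 11) (nat_lit 5) (nat_lit 13) (nat_lit 5) (nat_lit 12) (nat_lit 4) (nat_lit 428) (nat_lit 306) (nat_lit 211)) (XT.lf (nat_lit 0) (nat_lit 4230788422) (nat_lit 84) (nat_lit 14159746192)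 (nat_lit 168) (nat_lit 24062204212) (nat_lit 10) (nat_lit 5) (nat_lit 11) (nat_lit 5) (nat_lit 12) (nat_lit 4) (nat_lit 429) (nat_lit 306) (nat_lit 210))) (XT.nd (nat_lit 94) (nat_lit 0) (nat_lit 0) (XT.lf (nat_lit 0) (nat_lit 12354541354) (nat_lit 84) (nat_lit 10067386556) (nat_lit 168) (nat_lit 21166587718) (nat_lit 10) (nat_lit 5) (nat_lit 11) (nat_lit 5) (nat_lit 12) (nat_lit 4) (nat_lit 430) (nat_lit 306) (nat_lit 209)) (XT.lf (nat_lit 0) (nat_lit 20697936311) (nat_lit 84) (nat_lit 5862722416) (nat_lit 168) (nat_lit 18198123248) (nat_lit 10) (nat_lit 5) (nat_lit 11) (nat_lit 5) (nat_lit 12) (nat_lit 4) (nat_lit 431) (nat_lit 306) (nat_lit 208))))))))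
noncomputable def xc67 : XT := (XT.nd (nat_lit 50478) (nat_lit 0) (nat_lit 6048) (XT.nd (nat_lit 1316) (nat_lit 84) (nat_lit 0) (XT.nd (nat_lit 658) (nat_lit 84) (nat_lit 0) (XT.nd (nat_lit 282) (nat_lit 168) (nat_lit 0) (XT.nd (nat_lit 94) (nat_lit 0) (nat_lit 0) (XT.lf (nat_lit 0) (nat_lit 29268263639) (nat_lit 84) (nat_lit 1542079793) (nat_lit 168) (nat_lit 15154216998) (nat_lit 10) (nat_lit 5) (nat_lit 11) (nat_lit 5) (nat_lit 12) (nat_lit 4) (nat_lit 432) (nat_lit 306) (nat_lit 207)) (XT.nd (nat_lit 94) (nat_lit 0) (nat_lit 0) (XT.lf (nat_lit 0) (nat_lit 35202555734) (nat_lit 168) (nat_lit 9161753005) (nat_lit 0) (nat_lit 2841760034) (nat_lit 10) (nat_lit 5) (nat_lit 12) (nat_lit 4) (nat_lit 10) (nat_lit 4) (nat_lit 433) (nat_lit 306) (nat_lit 206)) (XT.lf (nat_lit 0) (nat_lit 39729260608) (nat_lit 168) (nat_lit 1438757846) (nat_lit 0) (nat_lit 7316729551) (nat_lit 10) (nat_lit 5)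 (nat_lit 12) (nat_lit 4) (nat_lit 10) (nat_lit 4) (nat_lit 434) (nat_lit 306) (nat_lit 205)))) (XT.nd (nat_lit 188) (nat_lit 84) (nat_lit 0) (XT.nd (nat_lit 94) (nat_lit 0) (nat_lit 0) (XT.lf (nat_lit 0) (nat_lit 6623508863) (nat_lit 84) (nat_lit 37819750370) (nat_lit 84) (nat_lit 5356990810) (nat_lit 9) (nat_lit 4) (nat_lit 10) (nat_lit 5) (nat_lit 10) (nat_lit 4) (nat_lit 435) (nat_lit 306) (nat_lit 204)) (XT.lf (nat_lit 0) (nat_lit 14935682302) (nat_lit 84) (nat_lit 34365495961) (nat_lit 84) (nat_lit 1853970864) (nat_lit 9) (nat_lit 4) (nat_lit 10) (nat_lit 5) (nat_lit 10) (nat_lit 4) (nat_lit 436) (nat_lit 306) (nat_lit 203))) (XT.nd (nat_lit 94) (nat_lit 0) (nat_lit 0) (XT.lf (nat_lit 0) (nat_lit 1708109959) (nat_lit 168) (nat_lit 29091407061) (nat_lit 84) (nat_lit 21751032909) (nat_lit 8) (nat_lit 5) (nat_lit 10) (nat_lit 5) (nat_lit 9) (nat_lit 4) (nat_lit 437) (nat_lit 306) (nat_lit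 202)) (XT.lf (nat_lit 0) (nat_lit 5328333785) (nat_lit 168) (nat_lit 21788318888) (nat_lit 84) (nat_lit 26870959493) (nat_lit 8) (nat_lit 5) (nat_lit 10) (nat_lit 5) (nat_lit 9) (nat_lit 4) (nat_lit 438) (nat_lit 306) (nat_lit 201))))) (XT.nd (nat_lit 282) (nat_lit 0) (nat_lit 0) (XT.nd (nat_lit 94) (nat_lit 84) (nat_lit 0) (XT.lf (nat_lit 0) (nat_lit 9046041566) (nat_lit 168) (nat_lit 14285999467) (nat_lit 84) (nat_lit 32136085139) (nat_lit 8) (nat_lit 5) (nat_lit 10) (nat_lit 5) (nat_lit 9) (nat_lit 4) (nat_lit 439) (nat_lit 306) (nat_lit 200)) (XT.nd (nat_lit 94) (nat_lit 84) (nat_lit 0) (XT.lf (nat_lit 0) (nat_lit 12864481784) (nat_lit 168) (nat_lit 6577893372) (nat_lit 84) (nat_lit 37551010442) (nat_lit 8) (nat_lit 5) (nat_lit 10) (nat_lit 5) (nat_lit 9) (nat_lit 4) (nat_lit 440) (nat_lit 306) (nat_lit 199)) (XT.lf (nat_lit 0) (nat_lit 1369457685) (nat_lit 84) (nat_lit 15430697320)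 (nat_lit 168) (nat_lit 41764173270) (nat_lit 7) (nat_lit 5) (nat_lit 8) (nat_lit 5) (nat_lit 9) (nat_lit 4) (nat_lit 441) (nat_lit 306) (nat_lit 198)))) (XT.nd (nat_lit 188) (nat_lit 0) (nat_lit 0) (XT.nd (nat_lit 94) (nat_lit 0) (nat_lit 0) (XT.lf (nat_lit 0) (nat_lit 9671531911) (nat_lit 84) (nat_lit 11238433239) (nat_lit 168) (nat_lit 39270757768) (nat_lit 7) (nat_lit 5) (nat_lit 8) (nat_lit 5) (nat_lit 9) (nat_lit 4) (nat_lit 442) (nat_lit 306) (nat_lit 197)) (XT.lf (nat_lit 0) (nat_lit 18204670569) (nat_lit 84) (nat_lit 6928343597) (nat_lit 168) (nat_lit 36712902424) (nat_lit 7) (nat_lit 5) (nat_lit 8) (nat_lit 5) (nat_lit 9) (nat_lit 4) (nat_lit 443) (nat_lit 306) (nat_lit 196))) (XT.nd (nat_lit 94) (nat_lit 0) (nat_lit 0) (XT.lf (nat_lit 0) (nat_lit 26976329798) (nat_lit 84) (nat_lit 2496662296) (nat_lit 168) (nat_lit 34088372217) (nat_lit 7) (nat_lit 5) (nat_lit 8) (nat_lit 5)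 (nat_lit 9) (nat_lit 4) (nat_lit 444) (nat_lit 306) (nat_lit 195)) (XT.lf (nat_lit 0) (nat_lit 33953497773) (nat_lit 168) (nat_lit 29354197485) (nat_lit 0) (nat_lit 2020275561) (nat_lit 7) (nat_lit 5) (nat_lit 9) (nat_lit 4) (nat_lit 7) (nat_lit 4) (nat_lit 445) (nat_lit 306) (nat_lit 194)))))) (XT.nd (nat_lit 48504) (nat_lit 0) (nat_lit 17556) (XT.nd (nat_lit 282) (nat_lit 84) (nat_lit 0) (XT.nd (nat_lit 94) (nat_lit 0) (nat_lit 0) (XT.lf (nat_lit 0) (nat_lit 38583866035) (nat_lit 168) (nat_lit 21947836558) (nat_lit 0) (nat_lit 6615414562) (nat_lit 7) (nat_lit 5) (nat_lit 9) (nat_lit 4) (nat_lit 7) (nat_lit 4) (nat_lit 446) (nat_lit 306) (nat_lit 193)) (XT.nd (nat_lit 94) (nat_lit 0) (nat_lit 0) (XT.lf (nat_lit 0) (nat_lit 43344143388) (nat_lit 168) (nat_lit 14335480710) (nat_lit 0) (nat_lit 11341488749) (nat_lit 7) (nat_lit 5) (nat_lit 9) (nat_lit 4) (nat_lit 7) (nat_lit 4) (nat_lit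 447) (nat_lit 306) (nat_lit 192)) (XT.lf (nat_lit 0) (nat_lit 48238489299) (nat_lit 168) (nat_lit 6510478368) (nat_lit 0) (nat_lit 16202627702) (nat_lit 7) (nat_lit 5) (nat_lit 9) (nat_lit 4) (nat_lit 7) (nat_lit 4) (nat_lit 448) (nat_lit 306) (nat_lit 191)))) (XT.nd (nat_lit 188) (nat_lit 0) (nat_lit 0) (XT.nd (nat_lit 94) (nat_lit 0) (nat_lit 0) (XT.lf (nat_lit 0) (nat_lit 1564537611) (nat_lit 84) (nat_lit 51721682061) (nat_lit 84) (nat_lit 19653580699) (nat_lit 6) (nat_lit 4) (nat_lit 7) (nat_lit 5) (nat_lit 7) (nat_lit 4) (nat_lit 449) (nat_lit 306) (nat_lit 190)) (XT.lf (nat_lit 0) (nat_lit 10000145968) (nat_lit 84) (nat_lit 48542595680) (nat_lit 84) (nat_lit 16443193576) (nat_lit 6) (nat_lit 4) (nat_lit 7) (nat_lit 5) (nat_lit 7) (nat_lit 4) (nat_lit 450) (nat_lit 306) (nat_lit 189))) (XT.nd (nat_lit 94) (nat_lit 0) (nat_lit 0) (XT.lf (nat_lit 0) (nat_lit 18674146335) (nat_lit 84)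 (nat_lit 45274673749) (nat_lit 84) (nat_lit 13144882574) (nat_lit 6) (nat_lit 4) (nat_lit 7) (nat_lit 5) (nat_lit 7) (nat_lit 4) (nat_lit 451) (nat_lit 306) (nat_lit 188)) (XT.lf (nat_lit 0) (nat_lit 27594117938) (nat_lit 84) (nat_lit 41915060801) (nat_lit 84) (nat_lit 9755765675) (nat_lit 6) (nat_lit 4) (nat_lit 7) (nat_lit 5) (nat_lit 7) (nat_lit 4) (nat_lit 452) (nat_lit 306) (nat_lit 187))))) (XT.nd (nat_lit 282) (nat_lit 1848) (nat_lit 0) (XT.nd (nat_lit 94) (nat_lit 840) (nat_lit 0) (XT.lf (nat_lit 0) (nat_lit 531439194) (nat_lit 756) (nat_lit 2306188481) (nat_lit 0) (nat_lit 531439194) (nat_lit 247) (nat_lit 5) (nat_lit 256) (nat_lit 4) (nat_lit 247) (nat_lit 4) (nat_lit 331) (nat_lit 307) (nat_lit 307)) (XT.nd (nat_lit 94) (nat_lit 840) (nat_lit 0) (XT.lf (nat_lit 0) (nat_lit 4033824785) (nat_lit 756) (nat_lit 671975232) (nat_lit 0) (nat_lit 2071521652) (nat_lit 247) (nat_lit 5)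 (nat_lit 256) (nat_lit 4) (nat_lit 247) (nat_lit 4) (nat_lit 332) (nat_lit 307) (nat_lit 306)) (XT.lf (nat_lit 0) (nat_lit 206515108) (nat_lit 840) (nat_lit 3448226136) (nat_lit 84) (nat_lit 3165059049) (nat_lit 237) (nat_lit 5) (nat_lit 247) (nat_lit 5) (nat_lit 238) (nat_lit 4) (nat_lit 333) (nat_lit 307) (nat_lit 305)))) (XT.nd (nat_lit 188) (nat_lit 1008) (nat_lit 0) (XT.nd (nat_lit 94) (nat_lit 0) (nat_lit 0) (XT.lf (nat_lit 0) (nat_lit 590969801) (nat_lit 840) (nat_lit 2516459022) (nat_lit 924) (nat_lit 3758040962) (nat_lit 227) (nat_lit 5) (nat_lit 237) (nat_lit 5) (nat_lit 238) (nat_lit 4) (nat_lit 334) (nat_lit 307) (nat_lit 304)) (XT.lf (nat_lit 0) (nat_lit 4742626234) (nat_lit 840) (nat_lit 1294576864) (nat_lit 924) (nat_lit 877301465) (nat_lit 227) (nat_lit 5) (nat_lit 237) (nat_lit 5) (nat_lit 238) (nat_lit 4) (nat_lit 335) (nat_lit 307) (nat_lit 303))) (XT.nd (nat_lit 94)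 (nat_lit 0) (nat_lit 0) (XT.lf (nat_lit 0) (nat_lit 1976991469) (nat_lit 1008) (nat_lit 4973481079) (nat_lit 84) (nat_lit 16333638) (nat_lit 215) (nat_lit 5) (nat_lit 227) (nat_lit 5) (nat_lit 216) (nat_lit 4) (nat_lit 336) (nat_lit 307) (nat_lit 302)) (XT.lf (nat_lit 0) (nat_lit 4844852095) (nat_lit 1008) (nat_lit 795121990) (nat_lit 84) (nat_lit 1382303997) (nat_lit 215) (nat_lit 5) (nat_lit 227) (nat_lit 5) (nat_lit 216) (nat_lit 4) (nat_lit 337) (nat_lit 307) (nat_lit 301))))))) (XT.nd (nat_lit 1316) (nat_lit 3696) (nat_lit 0) (XT.nd (nat_lit 658) (nat_lit 2436) (nat_lit 0) (XT.nd (nat_lit 282) (nat_lit 3192) (nat_lit 0) (XT.nd (nat_lit 94) (nat_lit 1092) (nat_lit 0) (XT.lf (nat_lit 0) (nat_lit 651385536) (nat_lit 1092) (nat_lit 3589792238) (nat_lit 84) (nat_lit 2839862101) (nat_lit 202) (nat_lit 5) (nat_lit 215) (nat_lit 5) (nat_lit 203) (nat_lit 5) (nat_lit 338) (nat_lit 307) (nat_lit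 300)) (XT.nd (nat_lit 94) (nat_lit 0) (nat_lit 0) (XT.lf (nat_lit 0) (nat_lit 692901289) (nat_lit 1092) (nat_lit 2757096772) (nat_lit 1176) (nat_lit 3693268212) (nat_lit 189) (nat_lit 5) (nat_lit 202) (nat_lit 5) (nat_lit 203) (nat_lit 5) (nat_lit 339) (nat_lit 307) (nat_lit 299)) (XT.lf (nat_lit 0) (nat_lit 5098283311) (nat_lit 1092) (nat_lit 1186210818) (nat_lit 1176) (nat_lit 924511008) (nat_lit 189) (nat_lit 5) (nat_lit 202) (nat_lit 5) (nat_lit 203) (nat_lit 5) (nat_lit 340) (nat_lit 307) (nat_lit 298)))) (XT.nd (nat_lit 188) (nat_lit 1932) (nat_lit 0) (XT.nd (nat_lit 94) (nat_lit 0) (nat_lit 0) (XT.lf (nat_lit 0) (nat_lit 1833592411) (nat_lit 1260) (nat_lit 4976077593) (nat_lit 84) (nat_lit 468365354) (nat_lit 174) (nat_lit 5) (nat_lit 189) (nat_lit 5) (nat_lit 175) (nat_lit 5) (nat_lit 341) (nat_lit 307) (nat_lit 297)) (XT.lf (nat_lit 0) (nat_lit 4607946407) (nat_lit 1260) (nat_lit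 560107867) (nat_lit 84) (nat_lit 2182431096) (nat_lit 174) (nat_lit 5) (nat_lit 189) (nat_lit 5) (nat_lit 175) (nat_lit 5) (nat_lit 342) (nat_lit 307) (nat_lit 296))) (XT.nd (nat_lit 94) (nat_lit 672) (nat_lit 0) (XT.lf (nat_lit 0) (nat_lit 3987721772) (nat_lit 1260) (nat_lit 3437325540) (nat_lit 1344) (nat_lit 1456826) (nat_lit 159) (nat_lit 5) (nat_lit 174) (nat_lit 5) (nat_lit 175) (nat_lit 5) (nat_lit 343) (nat_lit 307) (nat_lit 295)) (XT.lf (nat_lit 0) (nat_lit 1093601025) (nat_lit 588) (nat_lit 1611212335) (nat_lit 672) (nat_lit 4801206111) (nat_lit 151) (nat_lit 5) (nat_lit 158) (nat_lit 5) (nat_lit 159) (nat_lit 5) (nat_lit 344) (nat_lit 307) (nat_lit 294))))) (XT.nd (nat_lit 282) (nat_lit 1764) (nat_lit 0) (XT.nd (nat_lit 94) (nat_lit 672) (nat_lit 0) (XT.lf (nat_lit 0) (nat_lit 5453202903) (nat_lit 672) (nat_lit 1838442303) (nat_lit 84) (nat_lit 297611217) (nat_lit 151) (nat_lit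 5) (nat_lit 159) (nat_lit 5) (nat_lit 152) (nat_lit 5) (nat_lit 345) (nat_lit 307) (nat_lit 293)) (XT.nd (nat_lit 94) (nat_lit 0) (nat_lit 0) (XT.lf (nat_lit 0) (nat_lit 565423944) (nat_lit 672) (nat_lit 4848242376) (nat_lit 84) (nat_lit 2262256784) (nat_lit 143) (nat_lit 5) (nat_lit 151) (nat_lit 5) (nat_lit 144) (nat_lit 5) (nat_lit 346) (nat_lit 307) (nat_lit 292)) (XT.lf (nat_lit 0) (nat_lit 3249838760) (nat_lit 672) (nat_lit 194042774) (nat_lit 84) (nat_lit 4322480382) (nat_lit 143) (nat_lit 5) (nat_lit 151) (nat_lit 5) (nat_lit 144) (nat_lit 5) (nat_lit 347) (nat_lit 307) (nat_lit 291)))) (XT.nd (nat_lit 188) (nat_lit 504) (nat_lit 0) (XT.nd (nat_lit 94) (nat_lit 672) (nat_lit 0) (XT.lf (nat_lit 0) (nat_lit 4612556631) (nat_lit 588) (nat_lit 1374798318) (nat_lit 672) (nat_lit 1873128841) (nat_lit 136) (nat_lit 5) (nat_lit 143) (nat_lit 5) (nat_lit 144) (nat_lit 5) (nat_lit 348) (nat_lit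 307) (nat_lit 290)) (XT.lf (nat_lit 0) (nat_lit 786108805) (nat_lit 672) (nat_lit 6412339105) (nat_lit 84) (nat_lit 760281348) (nat_lit 128) (nat_lit 5) (nat_lit 136) (nat_lit 5) (nat_lit 129) (nat_lit 5) (nat_lit 349) (nat_lit 307) (nat_lit 289))) (XT.nd (nat_lit 94) (nat_lit 504) (nat_lit 0) (XT.lf (nat_lit 0) (nat_lit 3464220117) (nat_lit 672) (nat_lit 1619733821) (nat_lit 84) (nat_lit 2976243933) (nat_lit 128) (nat_lit 5) (nat_lit 136) (nat_lit 5) (nat_lit 129) (nat_lit 5) (nat_lit 350) (nat_lit 307) (nat_lit 288)) (XT.lf (nat_lit 0) (nat_lit 3304006625) (nat_lit 504) (nat_lit 2882477091) (nat_lit 588) (nat_lit 1979443132) (nat_lit 122) (nat_lit 5) (nat_lit 128) (nat_lit 5) (nat_lit 129) (nat_lit 5) (nat_lit 351) (nat_lit 307) (nat_lit 287)))))) (XT.nd (nat_lit 658) (nat_lit 1680) (nat_lit 0) (XT.nd (nat_lit 282) (nat_lit 1008) (nat_lit 0) (XT.nd (nat_lit 94) (nat_lit 420) (nat_lit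 0) (XT.lf (nat_lit 0) (nat_lit 50442637) (nat_lit 504) (nat_lit 600693367) (nat_lit 588) (nat_lit 7625123044) (nat_lit 115) (nat_lit 5) (nat_lit 121) (nat_lit 5) (nat_lit 122) (nat_lit 5) (nat_lit 352) (nat_lit 307) (nat_lit 286)) (XT.nd (nat_lit 94) (nat_lit 420) (nat_lit 0) (XT.lf (nat_lit 0) (nat_lit 3320877697) (nat_lit 588) (nat_lit 3294556563) (nat_lit 84) (nat_lit 1773997594) (nat_lit 115) (nat_lit 5) (nat_lit 122) (nat_lit 5) (nat_lit 116) (nat_lit 5) (nat_lit 353) (nat_lit 307) (nat_lit 285)) (XT.lf (nat_lit 0) (nat_lit 1735801302) (nat_lit 420) (nat_lit 4293106860) (nat_lit 504) (nat_lit 2478461799) (nat_lit 110) (nat_lit 5) (nat_lit 115) (nat_lit 5) (nat_lit 116) (nat_lit 5) (nat_lit 354) (nat_lit 307) (nat_lit 284)))) (XT.nd (nat_lit 188) (nat_lit 420) (nat_lit 0) (XT.nd (nat_lit 94) (nat_lit 504) (nat_lit 0) (XT.lf (nat_lit 0) (nat_lit 155209235) (nat_lit 504) (nat_lit 1722787543)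 (nat_lit 84) (nat_lit 6751817073) (nat_lit 109) (nat_lit 5) (nat_lit 115) (nat_lit 5) (nat_lit 110) (nat_lit 5) (nat_lit 355) (nat_lit 307) (nat_lit 283)) (XT.lf (nat_lit 0) (nat_lit 2795334249) (nat_lit 588) (nat_lit 5317476777) (nat_lit 84) (nat_lit 643172270) (nat_lit 103) (nat_lit 5) (nat_lit 110) (nat_lit 5) (nat_lit 104) (nat_lit 5) (nat_lit 356) (nat_lit 307) (nat_lit 282))) (XT.nd (nat_lit 94) (nat_lit 420) (nat_lit 0) (XT.lf (nat_lit 0) (nat_lit 5489630608) (nat_lit 588) (nat_lit 190438416) (nat_lit 84) (nat_lit 3206722849) (nat_lit 103) (nat_lit 5) (nat_lit 110) (nat_lit 5) (nat_lit 104) (nat_lit 5) (nat_lit 357) (nat_lit 307) (nat_lit 281)) (XT.lf (nat_lit 0) (nat_lit 5116256342) (nat_lit 420) (nat_lit 3138267038) (nat_lit 504) (nat_lit 767408375) (nat_lit 98) (nat_lit 5) (nat_lit 103) (nat_lit 5) (nat_lit 104) (nat_lit 5) (nat_lit 358) (nat_lit 307) (nat_lit 280))))) (XT.nd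 (nat_lit 282) (nat_lit 840) (nat_lit 0) (XT.nd (nat_lit 94) (nat_lit 336) (nat_lit 0) (XT.lf (nat_lit 0) (nat_lit 1358277407) (nat_lit 420) (nat_lit 501017640) (nat_lit 504) (nat_lit 7302687151) (nat_lit 92) (nat_lit 5) (nat_lit 97) (nat_lit 5) (nat_lit 98) (nat_lit 5) (nat_lit 359) (nat_lit 307) (nat_lit 279)) (XT.nd (nat_lit 94) (nat_lit 336) (nat_lit 0) (XT.lf (nat_lit 0) (nat_lit 4552299951) (nat_lit 504) (nat_lit 2549610076) (nat_lit 84) (nat_lit 2204100032) (nat_lit 92) (nat_lit 5) (nat_lit 98) (nat_lit 5) (nat_lit 93) (nat_lit 5) (nat_lit 360) (nat_lit 307) (nat_lit 278)) (XT.lf (nat_lit 0) (nat_lit 2839263247) (nat_lit 336) (nat_lit 4462579309) (nat_lit 420) (nat_lit 2153332686) (nat_lit 88) (nat_lit 5) (nat_lit 92) (nat_lit 5) (nat_lit 93) (nat_lit 5) (nat_lit 361) (nat_lit 307) (nat_lit 277)))) (XT.nd (nat_lit 188) (nat_lit 336) (nat_lit 0) (XT.nd (nat_lit 94) (nat_lit 420) (nat_lit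 0) (XT.lf (nat_lit 0) (nat_lit 484619049) (nat_lit 420) (nat_lit 1245049348) (nat_lit 84) (nat_lit 7879985119) (nat_lit 87) (nat_lit 5) (nat_lit 92) (nat_lit 5) (nat_lit 88) (nat_lit 5) (nat_lit 362) (nat_lit 307) (nat_lit 276)) (XT.lf (nat_lit 0) (nat_lit 3155877539) (nat_lit 504) (nat_lit 5502032136) (nat_lit 84) (nat_lit 1110374786) (nat_lit 82) (nat_lit 5) (nat_lit 88) (nat_lit 5) (nat_lit 83) (nat_lit 5) (nat_lit 363) (nat_lit 307) (nat_lit 275))) (XT.nd (nat_lit 94) (nat_lit 336) (nat_lit 0) (XT.lf (nat_lit 0) (nat_lit 5883281903) (nat_lit 504) (nat_lit 52574827) (nat_lit 84) (nat_lit 3996616361) (nat_lit 82) (nat_lit 5) (nat_lit 88) (nat_lit 5) (nat_lit 83) (nat_lit 5) (nat_lit 364) (nat_lit 307) (nat_lit 274)) (XT.lf (nat_lit 0) (nat_lit 5599295518) (nat_lit 336) (nat_lit 3094789792) (nat_lit 420) (nat_lit 1407531461) (nat_lit 78) (nat_lit 5) (nat_lit 82) (nat_lit 5) (nat_lit 83)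 (nat_lit 5) (nat_lit 365) (nat_lit 307) (nat_lit 273))))))))
noncomputable def xc68 : XT := (XT.nd (nat_lit 2538) (nat_lit 1596) (nat_lit 0) (XT.nd (nat_lit 1222) (nat_lit 1512) (nat_lit 0) (XT.nd (nat_lit 564) (nat_lit 1176) (nat_lit 0) (XT.nd (nat_lit 282) (nat_lit 420) (nat_lit 0) (XT.nd (nat_lit 94) (nat_lit 336) (nat_lit 0) (XT.lf (nat_lit 0) (nat_lit 1083748156) (nat_lit 336) (nat_lit 162978464) (nat_lit 420) (nat_lit 9030032368) (nat_lit 73) (nat_lit 5) (nat_lit 77) (nat_lit 5) (nat_lit 78) (nat_lit 5) (nat_lit 366) (nat_lit 307) (nat_lit 272)) (XT.nd (nat_lit 94) (nat_lit 336) (nat_lit 0) (XT.lf (nat_lit 0) (nat_lit 3974380469) (nat_lit 420) (nat_lit 3639425060) (nat_lit 84) (nat_lit 2842340315) (nat_lit 73) (nat_lit 5) (nat_lit 78) (nat_lit 5) (nat_lit 74) (nat_lit 5) (nat_lit 367) (nat_lit 307) (nat_lit 271)) (XT.lf (nat_lit 0) (nat_lit 2049755605) (nat_lit 336) (nat_lit 4705602241)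 (nat_lit 420) (nat_lit 3886479786) (nat_lit 69) (nat_lit 5) (nat_lit 73) (nat_lit 5) (nat_lit 74) (nat_lit 5) (nat_lit 368) (nat_lit 307) (nat_lit 270)))) (XT.nd (nat_lit 94) (nat_lit 420) (nat_lit 0) (XT.lf (nat_lit 0) (nat_lit 7915499555) (nat_lit 336) (nat_lit 1691983423) (nat_lit 420) (nat_lit 1226051805) (nat_lit 69) (nat_lit 5) (nat_lit 73) (nat_lit 5) (nat_lit 74) (nat_lit 5) (nat_lit 369) (nat_lit 307) (nat_lit 269)) (XT.nd (nat_lit 94) (nat_lit 0) (nat_lit 0) (XT.lf (nat_lit 0) (nat_lit 1478189938) (nat_lit 420) (nat_lit 8144479542) (nat_lit 84) (nat_lit 1408132625) (nat_lit 64) (nat_lit 5) (nat_lit 69) (nat_lit 5) (nat_lit 65) (nat_lit 5) (nat_lit 370) (nat_lit 307) (nat_lit 268)) (XT.lf (nat_lit 0) (nat_lit 4237856290) (nat_lit 420) (nat_lit 2406023069) (nat_lit 84) (nat_lit 4589836267) (nat_lit 64) (nat_lit 5) (nat_lit 69) (nat_lit 5) (nat_lit 65) (nat_lit 5) (nat_lit 371)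 (nat_lit 307) (nat_lit 267))))) (XT.nd (nat_lit 282) (nat_lit 504) (nat_lit 0) (XT.nd (nat_lit 94) (nat_lit 420) (nat_lit 0) (XT.lf (nat_lit 0) (nat_lit 3506641111) (nat_lit 252) (nat_lit 3561194347) (nat_lit 336) (nat_lit 4375314194) (nat_lit 61) (nat_lit 5) (nat_lit 64) (nat_lit 5) (nat_lit 65) (nat_lit 5) (nat_lit 372) (nat_lit 307) (nat_lit 266)) (XT.nd (nat_lit 94) (nat_lit 420) (nat_lit 0) (XT.lf (nat_lit 0) (nat_lit 9580283864) (nat_lit 252) (nat_lit 381254533) (nat_lit 336) (nat_lit 1698020640) (nat_lit 61) (nat_lit 5) (nat_lit 64) (nat_lit 5) (nat_lit 65) (nat_lit 5) (nat_lit 373) (nat_lit 307) (nat_lit 265)) (XT.lf (nat_lit 0) (nat_lit 1060407118) (nat_lit 420) (nat_lit 7954577163) (nat_lit 84) (nat_lit 2866579899) (nat_lit 56) (nat_lit 5) (nat_lit 61) (nat_lit 5) (nat_lit 57) (nat_lit 5) (nat_lit 374) (nat_lit 307) (nat_lit 264)))) (XT.nd (nat_lit 188) (nat_lit 252) (nat_lit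 0) (XT.nd (nat_lit 94) (nat_lit 252) (nat_lit 0) (XT.lf (nat_lit 0) (nat_lit 3848289775) (nat_lit 420) (nat_lit 2039626855) (nat_lit 84) (nat_lit 6222435794) (nat_lit 56) (nat_lit 5) (nat_lit 61) (nat_lit 5) (nat_lit 57) (nat_lit 5) (nat_lit 375) (nat_lit 307) (nat_lit 263)) (XT.lf (nat_lit 0) (nat_lit 4068777511) (nat_lit 252) (nat_lit 2647280174) (nat_lit 336) (nat_lit 5630109874) (nat_lit 53) (nat_lit 5) (nat_lit 56) (nat_lit 5) (nat_lit 57) (nat_lit 5) (nat_lit 376) (nat_lit 307) (nat_lit 262))) (XT.nd (nat_lit 94) (nat_lit 252) (nat_lit 0) (XT.lf (nat_lit 0) (nat_lit 9654881714) (nat_lit 336) (nat_lit 2256924741) (nat_lit 84) (nat_lit 677749231) (nat_lit 53) (nat_lit 5) (nat_lit 57) (nat_lit 5) (nat_lit 54) (nat_lit 5) (nat_lit 377) (nat_lit 307) (nat_lit 261)) (XT.lf (nat_lit 0) (nat_lit 3932657262) (nat_lit 252) (nat_lit 8772047092) (nat_lit 336) (nat_lit 134903882) (nat_lit 50)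 (nat_lit 5) (nat_lit 53) (nat_lit 5) (nat_lit 54) (nat_lit 5) (nat_lit 378) (nat_lit 307) (nat_lit 260)))))) (XT.nd (nat_lit 658) (nat_lit 672) (nat_lit 0) (XT.nd (nat_lit 282) (nat_lit 504) (nat_lit 0) (XT.nd (nat_lit 94) (nat_lit 252) (nat_lit 0) (XT.lf (nat_lit 0) (nat_lit 2677217246) (nat_lit 336) (nat_lit 2831216704) (nat_lit 84) (nat_lit 7588520811) (nat_lit 49) (nat_lit 5) (nat_lit 53) (nat_lit 5) (nat_lit 50) (nat_lit 5) (nat_lit 379) (nat_lit 307) (nat_lit 259)) (XT.nd (nat_lit 94) (nat_lit 0) (nat_lit 0) (XT.lf (nat_lit 0) (nat_lit 3431957590) (nat_lit 252) (nat_lit 2132199682) (nat_lit 336) (nat_lit 7798073078) (nat_lit 46) (nat_lit 5) (nat_lit 49) (nat_lit 5) (nat_lit 50) (nat_lit 5) (nat_lit 380) (nat_lit 307) (nat_lit 258)) (XT.lf (nat_lit 0) (nat_lit 8540072992) (nat_lit 336) (nat_lit 3767652014) (nat_lit 84) (nat_lit 1327710642) (nat_lit 46) (nat_lit 5) (nat_lit 50) (nat_lit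 5) (nat_lit 47) (nat_lit 5) (nat_lit 381) (nat_lit 307) (nat_lit 257)))) (XT.nd (nat_lit 188) (nat_lit 168) (nat_lit 0) (XT.nd (nat_lit 94) (nat_lit 84) (nat_lit 0) (XT.lf (nat_lit 0) (nat_lit 2549362689) (nat_lit 252) (nat_lit 9063231714) (nat_lit 336) (nat_lit 2304064086) (nat_lit 43) (nat_lit 5) (nat_lit 46) (nat_lit 5) (nat_lit 47) (nat_lit 5) (nat_lit 382) (nat_lit 307) (nat_lit 256)) (XT.lf (nat_lit 0) (nat_lit 560105174) (nat_lit 336) (nat_lit 5137260382) (nat_lit 84) (nat_lit 8508818458) (nat_lit 42) (nat_lit 5) (nat_lit 46) (nat_lit 5) (nat_lit 43) (nat_lit 5) (nat_lit 383) (nat_lit 307) (nat_lit 255))) (XT.nd (nat_lit 94) (nat_lit 0) (nat_lit 0) (XT.lf (nat_lit 0) (nat_lit 1223119878) (nat_lit 168) (nat_lit 2215489636) (nat_lit 252) (nat_lit 11065897567) (nat_lit 40) (nat_lit 5) (nat_lit 42) (nat_lit 5) (nat_lit 43) (nat_lit 5) (nat_lit 384) (nat_lit 307) (nat_lit 254)) (XT.lf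 (nat_lit 0) (nat_lit 6432331255) (nat_lit 252) (nat_lit 7002274995) (nat_lit 84) (nat_lit 1376344351) (nat_lit 40) (nat_lit 5) (nat_lit 43) (nat_lit 5) (nat_lit 41) (nat_lit 5) (nat_lit 385) (nat_lit 307) (nat_lit 253))))) (XT.nd (nat_lit 282) (nat_lit 336) (nat_lit 0) (XT.nd (nat_lit 94) (nat_lit 336) (nat_lit 0) (XT.lf (nat_lit 0) (nat_lit 9502164278) (nat_lit 252) (nat_lit 613016990) (nat_lit 84) (nat_lit 5011852735) (nat_lit 40) (nat_lit 5) (nat_lit 43) (nat_lit 5) (nat_lit 41) (nat_lit 5) (nat_lit 386) (nat_lit 307) (nat_lit 252)) (XT.nd (nat_lit 94) (nat_lit 84) (nat_lit 0) (XT.lf (nat_lit 0) (nat_lit 6030951893) (nat_lit 252) (nat_lit 6656515625) (nat_lit 336) (nat_lit 2764465662) (nat_lit 37) (nat_lit 5) (nat_lit 40) (nat_lit 5) (nat_lit 41) (nat_lit 5) (nat_lit 387) (nat_lit 307) (nat_lit 251)) (XT.lf (nat_lit 0) (nat_lit 149974412) (nat_lit 336) (nat_lit 2956231354) (nat_lit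 84) (nat_lit 12681200586) (nat_lit 36) (nat_lit 5) (nat_lit 40) (nat_lit 5) (nat_lit 37) (nat_lit 5) (nat_lit 388) (nat_lit 307) (nat_lit 250)))) (XT.nd (nat_lit 188) (nat_lit 168) (nat_lit 0) (XT.nd (nat_lit 94) (nat_lit 0) (nat_lit 0) (XT.lf (nat_lit 0) (nat_lit 3104041697) (nat_lit 252) (nat_lit 12443884882) (nat_lit 84) (nat_lit 583994898) (nat_lit 34) (nat_lit 5) (nat_lit 37) (nat_lit 5) (nat_lit 35) (nat_lit 5) (nat_lit 389) (nat_lit 307) (nat_lit 249)) (XT.lf (nat_lit 0) (nat_lit 6174435324) (nat_lit 252) (nat_lit 5978241972) (nat_lit 84) (nat_lit 4333294309) (nat_lit 34) (nat_lit 5) (nat_lit 37) (nat_lit 5) (nat_lit 35) (nat_lit 5) (nat_lit 390) (nat_lit 307) (nat_lit 248))) (XT.nd (nat_lit 94) (nat_lit 0) (nat_lit 0) (XT.lf (nat_lit 0) (nat_lit 641907978) (nat_lit 168) (nat_lit 8668972227) (nat_lit 252) (nat_lit 7540574632) (nat_lit 32) (nat_lit 5) (nat_lit 34) (nat_lit 5) (nat_lit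 35) (nat_lit 5) (nat_lit 391) (nat_lit 307) (nat_lit 247)) (XT.lf (nat_lit 0) (nat_lit 7531732032) (nat_lit 168) (nat_lit 5038267880) (nat_lit 252) (nat_lit 4657074128) (nat_lit 32) (nat_lit 5) (nat_lit 34) (nat_lit 5) (nat_lit 35) (nat_lit 5) (nat_lit 392) (nat_lit 307) (nat_lit 246))))))) (XT.nd (nat_lit 1316) (nat_lit 672) (nat_lit 0) (XT.nd (nat_lit 658) (nat_lit 336) (nat_lit 0) (XT.nd (nat_lit 282) (nat_lit 336) (nat_lit 0) (XT.nd (nat_lit 94) (nat_lit 252) (nat_lit 0) (XT.lf (nat_lit 0) (nat_lit 14578271685) (nat_lit 168) (nat_lit 1317760319) (nat_lit 252) (nat_lit 1718883727) (nat_lit 32) (nat_lit 5) (nat_lit 34) (nat_lit 5) (nat_lit 35) (nat_lit 5) (nat_lit 393) (nat_lit 307) (nat_lit 245)) (XT.nd (nat_lit 94) (nat_lit 0) (nat_lit 0) (XT.lf (nat_lit 0) (nat_lit 1312994882) (nat_lit 252) (nat_lit 14203394968) (nat_lit 84) (nat_lit 2496720577) (nat_lit 29) (nat_lit 5) (nat_lit 32)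 (nat_lit 5) (nat_lit 30) (nat_lit 5) (nat_lit 394) (nat_lit 307) (nat_lit 244)) (XT.lf (nat_lit 0) (nat_lit 4415244703) (nat_lit 252) (nat_lit 7578398316) (nat_lit 84) (nat_lit 6428704195) (nat_lit 29) (nat_lit 5) (nat_lit 32) (nat_lit 5) (nat_lit 30) (nat_lit 5) (nat_lit 395) (nat_lit 307) (nat_lit 243)))) (XT.nd (nat_lit 188) (nat_lit 168) (nat_lit 0) (XT.nd (nat_lit 94) (nat_lit 168) (nat_lit 0) (XT.lf (nat_lit 0) (nat_lit 7581385152) (nat_lit 252) (nat_lit 802624450) (nat_lit 84) (nat_lit 10460751755) (nat_lit 29) (nat_lit 5) (nat_lit 32) (nat_lit 5) (nat_lit 30) (nat_lit 5) (nat_lit 396) (nat_lit 307) (nat_lit 242)) (XT.lf (nat_lit 0) (nat_lit 6251843187) (nat_lit 168) (nat_lit 4622436112) (nat_lit 252) (nat_lit 8404639759) (nat_lit 27) (nat_lit 5) (nat_lit 29) (nat_lit 5) (nat_lit 30) (nat_lit 5) (nat_lit 397) (nat_lit 307) (nat_lit 241))) (XT.nd (nat_lit 94) (nat_lit 168) (nat_lit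 0) (XT.lf (nat_lit 0) (nat_lit 13488279068) (nat_lit 168) (nat_lit 757840817) (nat_lit 252) (nat_lit 5480600327) (nat_lit 27) (nat_lit 5) (nat_lit 29) (nat_lit 5) (nat_lit 30) (nat_lit 5) (nat_lit 398) (nat_lit 307) (nat_lit 240)) (XT.lf (nat_lit 0) (nat_lit 690913648) (nat_lit 168) (nat_lit 17038521033) (nat_lit 252) (nat_lit 2458233979) (nat_lit 25) (nat_lit 5) (nat_lit 27) (nat_lit 5) (nat_lit 28) (nat_lit 4) (nat_lit 399) (nat_lit 307) (nat_lit 239))))) (XT.nd (nat_lit 282) (nat_lit 84) (nat_lit 0) (XT.nd (nat_lit 94) (nat_lit 168) (nat_lit 0) (XT.lf (nat_lit 0) (nat_lit 685922111) (nat_lit 252) (nat_lit 12764506700) (nat_lit 84) (nat_lit 7210532546) (nat_lit 24) (nat_lit 5) (nat_lit 27) (nat_lit 5) (nat_lit 25) (nat_lit 5) (nat_lit 400) (nat_lit 307) (nat_lit 238)) (XT.nd (nat_lit 94) (nat_lit 168) (nat_lit 0) (XT.lf (nat_lit 0) (nat_lit 3848561033) (nat_lit 252) (nat_lit 5898863446)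 (nat_lit 84) (nat_lit 11401112092) (nat_lit 24) (nat_lit 5) (nat_lit 27) (nat_lit 5) (nat_lit 25) (nat_lit 5) (nat_lit 401) (nat_lit 307) (nat_lit 237)) (XT.lf (nat_lit 0) (nat_lit 1152289216) (nat_lit 168) (nat_lit 5939202549) (nat_lit 252) (nat_lit 14559705180) (nat_lit 22) (nat_lit 5) (nat_lit 24) (nat_lit 5) (nat_lit 25) (nat_lit 5) (nat_lit 402) (nat_lit 307) (nat_lit 236)))) (XT.nd (nat_lit 188) (nat_lit 84) (nat_lit 0) (XT.nd (nat_lit 94) (nat_lit 0) (nat_lit 0) (XT.lf (nat_lit 0) (nat_lit 8493373206) (nat_lit 168) (nat_lit 1972579023) (nat_lit 252) (nat_lit 11701977336) (nat_lit 22) (nat_lit 5) (nat_lit 24) (nat_lit 5) (nat_lit 25) (nat_lit 5) (nat_lit 403) (nat_lit 307) (nat_lit 235)) (XT.lf (nat_lit 0) (nat_lit 13937210342) (nat_lit 252) (nat_lit 6707668147) (nat_lit 84) (nat_lit 2055437879) (nat_lit 22) (nat_lit 5) (nat_lit 25) (nat_lit 5) (nat_lit 23) (nat_lit 4) (nat_lit 404)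 (nat_lit 307) (nat_lit 234))) (XT.nd (nat_lit 94) (nat_lit 0) (nat_lit 0) (XT.lf (nat_lit 0) (nat_lit 416154933) (nat_lit 84) (nat_lit 17095954872) (nat_lit 168) (nat_lit 5736598423) (nat_lit 21) (nat_lit 5) (nat_lit 22) (nat_lit 5) (nat_lit 23) (nat_lit 4) (nat_lit 405) (nat_lit 307) (nat_lit 233)) (XT.lf (nat_lit 0) (nat_lit 7850930000) (nat_lit 84) (nat_lit 13387346119) (nat_lit 168) (nat_lit 2573973148) (nat_lit 21) (nat_lit 5) (nat_lit 22) (nat_lit 5) (nat_lit 23) (nat_lit 4) (nat_lit 406) (nat_lit 307) (nat_lit 232)))))) (XT.nd (nat_lit 658) (nat_lit 336) (nat_lit 0) (XT.nd (nat_lit 282) (nat_lit 84) (nat_lit 0) (XT.nd (nat_lit 94) (nat_lit 168) (nat_lit 0) (XT.lf (nat_lit 0) (nat_lit 646923907) (nat_lit 168) (nat_lit 8930089426) (nat_lit 84) (nat_lit 14816201140) (nat_lit 20) (nat_lit 5) (nat_lit 22) (nat_lit 5) (nat_lit 21) (nat_lit 5) (nat_lit 407) (nat_lit 307) (nat_lit 231))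 (XT.nd (nat_lit 94) (nat_lit 168) (nat_lit 0) (XT.lf (nat_lit 0) (nat_lit 3890122467) (nat_lit 168) (nat_lit 1751825719) (nat_lit 84) (nat_lit 19349590127) (nat_lit 20) (nat_lit 5) (nat_lit 22) (nat_lit 5) (nat_lit 21) (nat_lit 5) (nat_lit 408) (nat_lit 307) (nat_lit 230)) (XT.lf (nat_lit 0) (nat_lit 5716027004) (nat_lit 168) (nat_lit 1547602826) (nat_lit 252) (nat_lit 18343207664) (nat_lit 18) (nat_lit 5) (nat_lit 20) (nat_lit 5) (nat_lit 21) (nat_lit 5) (nat_lit 409) (nat_lit 307) (nat_lit 229)))) (XT.nd (nat_lit 188) (nat_lit 84) (nat_lit 0) (XT.nd (nat_lit 94) (nat_lit 0) (nat_lit 0) (XT.lf (nat_lit 0) (nat_lit 10760072913) (nat_lit 252) (nat_lit 12859527242) (nat_lit 84) (nat_lit 2620359123) (nat_lit 18) (nat_lit 5) (nat_lit 21) (nat_lit 5) (nat_lit 19) (nat_lit 4) (nat_lit 410) (nat_lit 307) (nat_lit 228)) (XT.lf (nat_lit 0) (nat_lit 14355570708) (nat_lit 252) (nat_lit 5668989069)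 (nat_lit 84) (nat_lit 6867705189) (nat_lit 18) (nat_lit 5) (nat_lit 21) (nat_lit 5) (nat_lit 19) (nat_lit 4) (nat_lit 411) (nat_lit 307) (nat_lit 227))) (XT.nd (nat_lit 94) (nat_lit 0) (nat_lit 0) (XT.lf (nat_lit 0) (nat_lit 1735835939) (nat_lit 84) (nat_lit 16319238384) (nat_lit 168) (nat_lit 9509195927) (nat_lit 17) (nat_lit 5) (nat_lit 18) (nat_lit 5) (nat_lit 19) (nat_lit 4) (nat_lit 412) (nat_lit 307) (nat_lit 226)) (XT.lf (nat_lit 0) (nat_lit 9444058792) (nat_lit 84) (nat_lit 12458467284) (nat_lit 168) (nat_lit 6352814952) (nat_lit 17) (nat_lit 5) (nat_lit 18) (nat_lit 5) (nat_lit 19) (nat_lit 4) (nat_lit 413) (nat_lit 307) (nat_lit 225))))) (XT.nd (nat_lit 282) (nat_lit 84) (nat_lit 0) (XT.nd (nat_lit 94) (nat_lit 252) (nat_lit 0) (XT.lf (nat_lit 0) (nat_lit 17349590830) (nat_lit 84) (nat_lit 8496118662) (nat_lit 168) (nat_lit 3122039005) (nat_lit 17) (nat_lit 5) (nat_lit 18) (nat_lit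 5) (nat_lit 19) (nat_lit 4) (nat_lit 414) (nat_lit 307) (nat_lit 224)) (XT.nd (nat_lit 94) (nat_lit 168) (nat_lit 0) (XT.lf (nat_lit 0) (nat_lit 182326271) (nat_lit 168) (nat_lit 4244562862) (nat_lit 84) (nat_lit 25275172390) (nat_lit 16) (nat_lit 5) (nat_lit 18) (nat_lit 5) (nat_lit 17) (nat_lit 5) (nat_lit 415) (nat_lit 307) (nat_lit 223)) (XT.lf (nat_lit 0) (nat_lit 3352370014) (nat_lit 168) (nat_lit 184169595) (nat_lit 252) (nat_lit 26920545622) (nat_lit 14) (nat_lit 5) (nat_lit 16) (nat_lit 5) (nat_lit 17) (nat_lit 5) (nat_lit 416) (nat_lit 307) (nat_lit 222)))) (XT.nd (nat_lit 188) (nat_lit 84) (nat_lit 0) (XT.nd (nat_lit 94) (nat_lit 0) (nat_lit 0) (XT.lf (nat_lit 0) (nat_lit 7056252276) (nat_lit 252) (nat_lit 20042410325) (nat_lit 84) (nat_lit 4134163132) (nat_lit 14) (nat_lit 5) (nat_lit 17) (nat_lit 5) (nat_lit 15) (nat_lit 4) (nat_lit 417) (nat_lit 307) (nat_lit 221)) (XT.lf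 (nat_lit 0) (nat_lit 10665273006) (nat_lit 252) (nat_lit 12801608907) (nat_lit 84) (nat_lit 8565456951) (nat_lit 14) (nat_lit 5) (nat_lit 17) (nat_lit 5) (nat_lit 15) (nat_lit 4) (nat_lit 418) (nat_lit 307) (nat_lit 220))) (XT.nd (nat_lit 94) (nat_lit 84) (nat_lit 0) (XT.lf (nat_lit 0) (nat_lit 14364984962) (nat_lit 252) (nat_lit 5374213699) (nat_lit 84) (nat_lit 13117177676) (nat_lit 14) (nat_lit 5) (nat_lit 17) (nat_lit 5) (nat_lit 15) (nat_lit 4) (nat_lit 419) (nat_lit 307) (nat_lit 219)) (XT.lf (nat_lit 0) (nat_lit 2290970338) (nat_lit 84) (nat_lit 15889672771) (nat_lit 168) (nat_lit 15524354409) (nat_lit 13) (nat_lit 5) (nat_lit 14) (nat_lit 5) (nat_lit 15) (nat_lit 4) (nat_lit 420) (nat_lit 307) (nat_lit 218))))))))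
noncomputable def xc69 : XT := (XT.nd (nat_lit 2538) (nat_lit 84) (nat_lit 0) (XT.nd (nat_lit 1222) (nat_lit 252) (nat_lit 0) (XT.nd (nat_lit 564) (nat_lit 84) (nat_lit 0) (XT.nd (nat_lit 282) (nat_lit 168) (nat_lit 0) (XT.nd (nat_lit 94) (nat_lit 0) (nat_lit 0) (XT.lf (nat_lit 0) (nat_lit 10266829450) (nat_lit 84) (nat_lit 11881357247) (nat_lit 168) (nat_lit 12429779070) (nat_lit 13) (nat_lit 5) (nat_lit 14) (nat_lit 5) (nat_lit 15) (nat_lit 4) (nat_lit 421) (nat_lit 307) (nat_lit 217)) (XT.nd (nat_lit 94) (nat_lit 0) (nat_lit 0) (XT.lf (nat_lit 0) (nat_lit 18453375443) (nat_lit 84) (nat_lit 7765018697) (nat_lit 168) (nat_lit 9259230382) (nat_lit 13) (nat_lit 5) (nat_lit 14) (nat_lit 5) (nat_lit 15) (nat_lit 4) (nat_lit 422) (nat_lit 307) (nat_lit 216)) (XT.lf (nat_lit 0) (nat_lit 26857761610) (nat_lit 84) (nat_lit 3537060322) (nat_lit 168) (nat_lit 6009937961) (nat_lit 13) (nat_lit 5)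 (nat_lit 14) (nat_lit 5) (nat_lit 15) (nat_lit 4) (nat_lit 423) (nat_lit 307) (nat_lit 215)))) (XT.nd (nat_lit 94) (nat_lit 168) (nat_lit 0) (XT.lf (nat_lit 0) (nat_lit 34688869182) (nat_lit 168) (nat_lit 1880600214) (nat_lit 0) (nat_lit 790480107) (nat_lit 13) (nat_lit 5) (nat_lit 15) (nat_lit 4) (nat_lit 13) (nat_lit 4) (nat_lit 424) (nat_lit 307) (nat_lit 214)) (XT.nd (nat_lit 94) (nat_lit 0) (nat_lit 0) (XT.lf (nat_lit 0) (nat_lit 832037534) (nat_lit 168) (nat_lit 32276855788) (nat_lit 84) (nat_lit 5232317031) (nat_lit 11) (nat_lit 5) (nat_lit 13) (nat_lit 5) (nat_lit 12) (nat_lit 4) (nat_lit 425) (nat_lit 307) (nat_lit 213)) (XT.lf (nat_lit 0) (nat_lit 4390689940) (nat_lit 168) (nat_lit 25118328207) (nat_lit 84) (nat_lit 9841982810) (nat_lit 11) (nat_lit 5) (nat_lit 13) (nat_lit 5) (nat_lit 12) (nat_lit 4) (nat_lit 426) (nat_lit 307) (nat_lit 212))))) (XT.nd (nat_lit 282) (nat_lit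 84) (nat_lit 0) (XT.nd (nat_lit 94) (nat_lit 0) (nat_lit 0) (XT.lf (nat_lit 0) (nat_lit 8041488993) (nat_lit 168) (nat_lit 17770834095) (nat_lit 84) (nat_lit 14579209445) (nat_lit 11) (nat_lit 5) (nat_lit 13) (nat_lit 5) (nat_lit 12) (nat_lit 4) (nat_lit 427) (nat_lit 307) (nat_lit 211)) (XT.nd (nat_lit 94) (nat_lit 0) (nat_lit 0) (XT.lf (nat_lit 0) (nat_lit 11787624710) (nat_lit 168) (nat_lit 10227953311) (nat_lit 84) (nat_lit 19448136259) (nat_lit 11) (nat_lit 5) (nat_lit 13) (nat_lit 5) (nat_lit 12) (nat_lit 4) (nat_lit 428) (nat_lit 307) (nat_lit 210)) (XT.lf (nat_lit 0) (nat_lit 15632370416) (nat_lit 168) (nat_lit 2483094989) (nat_lit 84) (nat_lit 24453017655) (nat_lit 11) (nat_lit 5) (nat_lit 13) (nat_lit 5) (nat_lit 12) (nat_lit 4) (nat_lit 429) (nat_lit 307) (nat_lit 209)))) (XT.nd (nat_lit 188) (nat_lit 0) (nat_lit 0) (XT.nd (nat_lit 94) (nat_lit 0) (nat_lit 0) (XT.lf (nat_lit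 0) (nat_lit 5579382063) (nat_lit 84) (nat_lit 14053335965) (nat_lit 168) (nat_lit 24072477200) (nat_lit 10) (nat_lit 5) (nat_lit 11) (nat_lit 5) (nat_lit 12) (nat_lit 4) (nat_lit 430) (nat_lit 307) (nat_lit 208)) (XT.lf (nat_lit 0) (nat_lit 13911264962) (nat_lit 84) (nat_lit 9853677461) (nat_lit 168) (nat_lit 21110718224) (nat_lit 10) (nat_lit 5) (nat_lit 11) (nat_lit 5) (nat_lit 12) (nat_lit 4) (nat_lit 431) (nat_lit 307) (nat_lit 207))) (XT.nd (nat_lit 94) (nat_lit 0) (nat_lit 0) (XT.lf (nat_lit 0) (nat_lit 22470415534) (nat_lit 84) (nat_lit 5537894679) (nat_lit 168) (nat_lit 18073322163) (nat_lit 10) (nat_lit 5) (nat_lit 11) (nat_lit 5) (nat_lit 12) (nat_lit 4) (nat_lit 432) (nat_lit 307) (nat_lit 206)) (XT.lf (nat_lit 0) (nat_lit 31264312648) (nat_lit 84) (nat_lit 1102216546) (nat_lit 168) (nat_lit 14957634982) (nat_lit 10) (nat_lit 5) (nat_lit 11) (nat_lit 5) (nat_lit 12) (nat_lit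 4) (nat_lit 433) (nat_lit 307) (nat_lit 205)))))) (XT.nd (nat_lit 658) (nat_lit 84) (nat_lit 0) (XT.nd (nat_lit 282) (nat_lit 84) (nat_lit 0) (XT.nd (nat_lit 94) (nat_lit 84) (nat_lit 0) (XT.lf (nat_lit 0) (nat_lit 36876640558) (nat_lit 168) (nat_lit 8336934499) (nat_lit 0) (nat_lit 3389769707) (nat_lit 10) (nat_lit 5) (nat_lit 12) (nat_lit 4) (nat_lit 10) (nat_lit 4) (nat_lit 434) (nat_lit 307) (nat_lit 204)) (XT.nd (nat_lit 94) (nat_lit 84) (nat_lit 0) (XT.lf (nat_lit 0) (nat_lit 41521146341) (nat_lit 168) (nat_lit 414278740) (nat_lit 0) (nat_lit 7985509954) (nat_lit 10) (nat_lit 5) (nat_lit 12) (nat_lit 4) (nat_lit 10) (nat_lit 4) (nat_lit 435) (nat_lit 307) (nat_lit 203)) (XT.lf (nat_lit 0) (nat_lit 7879388894) (nat_lit 84) (nat_lit 38489862283) (nat_lit 84) (nat_lit 4906880715) (nat_lit 9) (nat_lit 4) (nat_lit 10) (nat_lit 5) (nat_lit 10) (nat_lit 4) (nat_lit 436) (nat_lit 307) (nat_lit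 202)))) (XT.nd (nat_lit 188) (nat_lit 0) (nat_lit 0) (XT.nd (nat_lit 94) (nat_lit 84) (nat_lit 0) (XT.lf (nat_lit 0) (nat_lit 16410136037) (nat_lit 84) (nat_lit 34945508803) (nat_lit 84) (nat_lit 1316561039) (nat_lit 9) (nat_lit 4) (nat_lit 10) (nat_lit 5) (nat_lit 10) (nat_lit 4) (nat_lit 437) (nat_lit 307) (nat_lit 201)) (XT.lf (nat_lit 0) (nat_lit 2323874442) (nat_lit 168) (nat_lit 28956110020) (nat_lit 84) (nat_lit 22829830763) (nat_lit 8) (nat_lit 5) (nat_lit 10) (nat_lit 5) (nat_lit 9) (nat_lit 4) (nat_lit 438) (nat_lit 307) (nat_lit 200))) (XT.nd (nat_lit 94) (nat_lit 0) (nat_lit 0) (XT.lf (nat_lit 0) (nat_lit 6036262619) (nat_lit 168) (nat_lit 21463289568) (nat_lit 84) (nat_lit 28090939605) (nat_lit 8) (nat_lit 5) (nat_lit 10) (nat_lit 5) (nat_lit 9) (nat_lit 4) (nat_lit 439) (nat_lit 307) (nat_lit 199)) (XT.lf (nat_lit 0) (nat_lit 9849538172) (nat_lit 168) (nat_lit 13764405775)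 (nat_lit 84) (nat_lit 33501965098) (nat_lit 8) (nat_lit 5) (nat_lit 10) (nat_lit 5) (nat_lit 9) (nat_lit 4) (nat_lit 440) (nat_lit 307) (nat_lit 198))))) (XT.nd (nat_lit 282) (nat_lit 0) (nat_lit 0) (XT.nd (nat_lit 94) (nat_lit 84) (nat_lit 0) (XT.lf (nat_lit 0) (nat_lit 13767033091) (nat_lit 168) (nat_lit 5852731459) (nat_lit 84) (nat_lit 39067635323) (nat_lit 8) (nat_lit 5) (nat_lit 10) (nat_lit 5) (nat_lit 9) (nat_lit 4) (nat_lit 441) (nat_lit 307) (nat_lit 197)) (XT.nd (nat_lit 94) (nat_lit 0) (nat_lit 0) (XT.lf (nat_lit 0) (nat_lit 2323996025) (nat_lit 84) (nat_lit 15490514075) (nat_lit 168) (nat_lit 42491157133) (nat_lit 7) (nat_lit 5) (nat_lit 8) (nat_lit 5) (nat_lit 9) (nat_lit 4) (nat_lit 442) (nat_lit 307) (nat_lit 196)) (XT.lf (nat_lit 0) (nat_lit 10848527004) (nat_lit 84) (nat_lit 11184222970) (nat_lit 168) (nat_lit 39938257846) (nat_lit 7) (nat_lit 5) (nat_lit 8) (nat_lit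 5) (nat_lit 9) (nat_lit 4) (nat_lit 443) (nat_lit 307) (nat_lit 195)))) (XT.nd (nat_lit 188) (nat_lit 0) (nat_lit 0) (XT.nd (nat_lit 94) (nat_lit 0) (nat_lit 0) (XT.lf (nat_lit 0) (nat_lit 19611829264) (nat_lit 84) (nat_lit 6756229569) (nat_lit 168) (nat_lit 37318539346) (nat_lit 7) (nat_lit 5) (nat_lit 8) (nat_lit 5) (nat_lit 9) (nat_lit 4) (nat_lit 444) (nat_lit 307) (nat_lit 194)) (XT.lf (nat_lit 0) (nat_lit 28621560060) (nat_lit 84) (nat_lit 2202664751) (nat_lit 168) (nat_lit 34629712557) (nat_lit 7) (nat_lit 5) (nat_lit 8) (nat_lit 5) (nat_lit 9) (nat_lit 4) (nat_lit 445) (nat_lit 307) (nat_lit 193))) (XT.nd (nat_lit 94) (nat_lit 0) (nat_lit 0) (XT.lf (nat_lit 0) (nat_lit 35428985251) (nat_lit 168) (nat_lit 29412821300) (nat_lit 0) (nat_lit 2432047805) (nat_lit 7) (nat_lit 5) (nat_lit 9) (nat_lit 4) (nat_lit 7) (nat_lit 4) (nat_lit 446) (nat_lit 307) (nat_lit 192)) (XT.lf (nat_lit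 0) (nat_lit 40184957302) (nat_lit 168) (nat_lit 21808211354) (nat_lit 0) (nat_lit 7154812899) (nat_lit 7) (nat_lit 5) (nat_lit 9) (nat_lit 4) (nat_lit 7) (nat_lit 4) (nat_lit 447) (nat_lit 307) (nat_lit 191))))))) (XT.nd (nat_lit 48974) (nat_lit 0) (nat_lit 9744) (XT.nd (nat_lit 48316) (nat_lit 0) (nat_lit 17556) (XT.nd (nat_lit 282) (nat_lit 0) (nat_lit 0) (XT.nd (nat_lit 94) (nat_lit 84) (nat_lit 0) (XT.lf (nat_lit 0) (nat_lit 45075123308) (nat_lit 168) (nat_lit 13990729306) (nat_lit 0) (nat_lit 12012739140) (nat_lit 7) (nat_lit 5) (nat_lit 9) (nat_lit 4) (nat_lit 7) (nat_lit 4) (nat_lit 448) (nat_lit 307) (nat_lit 190)) (XT.nd (nat_lit 94) (nat_lit 84) (nat_lit 0) (XT.lf (nat_lit 0) (nat_lit 50103756228) (nat_lit 168) (nat_lit 5953544345) (nat_lit 0) (nat_lit 17010071318) (nat_lit 7) (nat_lit 5) (nat_lit 9) (nat_lit 4) (nat_lit 7) (nat_lit 4) (nat_lit 449) (nat_lit 307) (nat_lit 189))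 (XT.lf (nat_lit 0) (nat_lit 2356347130) (nat_lit 84) (nat_lit 52941553534) (nat_lit 84) (nat_lit 19817479554) (nat_lit 6) (nat_lit 4) (nat_lit 7) (nat_lit 5) (nat_lit 7) (nat_lit 4) (nat_lit 450) (nat_lit 307) (nat_lit 188)))) (XT.nd (nat_lit 47846) (nat_lit 0) (nat_lit 20916) (XT.nd (nat_lit 94) (nat_lit 0) (nat_lit 0) (XT.lf (nat_lit 0) (nat_lit 11023328396) (nat_lit 84) (nat_lit 49676758028) (nat_lit 84) (nat_lit 16523180096) (nat_lit 6) (nat_lit 4) (nat_lit 7) (nat_lit 5) (nat_lit 7) (nat_lit 4) (nat_lit 451) (nat_lit 307) (nat_lit 187)) (XT.lf (nat_lit 0) (nat_lit 19936485336) (nat_lit 84) (nat_lit 46320180444) (nat_lit 84) (nat_lit 13137957899) (nat_lit 6) (nat_lit 4) (nat_lit 7) (nat_lit 5) (nat_lit 7) (nat_lit 4) (nat_lit 452) (nat_lit 307) (nat_lit 186))) (XT.nd (nat_lit 94) (nat_lit 84) (nat_lit 0) (XT.lf (nat_lit 0) (nat_lit 523367568) (nat_lit 588) (nat_lit 1405231604) (nat_lit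 588) (nat_lit 1405231604) (nat_lit 256) (nat_lit 4) (nat_lit 263) (nat_lit 5) (nat_lit 263) (nat_lit 4) (nat_lit 329) (nat_lit 308) (nat_lit 308)) (XT.lf (nat_lit 0) (nat_lit 140210817) (nat_lit 672) (nat_lit 1797179434) (nat_lit 84) (nat_lit 4764753122) (nat_lit 255) (nat_lit 5) (nat_lit 263) (nat_lit 5) (nat_lit 256) (nat_lit 4) (nat_lit 330) (nat_lit 308) (nat_lit 307))))) (XT.nd (nat_lit 282) (nat_lit 1848) (nat_lit 0) (XT.nd (nat_lit 94) (nat_lit 840) (nat_lit 0) (XT.lf (nat_lit 0) (nat_lit 2077792923) (nat_lit 672) (nat_lit 966922615) (nat_lit 756) (nat_lit 3694736970) (nat_lit 247) (nat_lit 5) (nat_lit 255) (nat_lit 5) (nat_lit 256) (nat_lit 4) (nat_lit 331) (nat_lit 308) (nat_lit 306)) (XT.nd (nat_lit 94) (nat_lit 840) (nat_lit 0) (XT.lf (nat_lit 0) (nat_lit 5959153956) (nat_lit 756) (nat_lit 750786476) (nat_lit 0) (nat_lit 70529923) (nat_lit 247) (nat_lit 5) (nat_lit 256) (nat_lit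 4) (nat_lit 247) (nat_lit 4) (nat_lit 332) (nat_lit 308) (nat_lit 305)) (XT.lf (nat_lit 0) (nat_lit 2043613198) (nat_lit 840) (nat_lit 3589748146) (nat_lit 84) (nat_lit 1190587476) (nat_lit 237) (nat_lit 5) (nat_lit 247) (nat_lit 5) (nat_lit 238) (nat_lit 4) (nat_lit 333) (nat_lit 308) (nat_lit 304)))) (XT.nd (nat_lit 188) (nat_lit 924) (nat_lit 0) (XT.nd (nat_lit 94) (nat_lit 84) (nat_lit 0) (XT.lf (nat_lit 0) (nat_lit 407517610) (nat_lit 840) (nat_lit 4489815342) (nat_lit 924) (nat_lit 1973824428) (nat_lit 227) (nat_lit 5) (nat_lit 237) (nat_lit 5) (nat_lit 238) (nat_lit 4) (nat_lit 334) (nat_lit 308) (nat_lit 303)) (XT.lf (nat_lit 0) (nat_lit 844187925) (nat_lit 924) (nat_lit 2408722679) (nat_lit 84) (nat_lit 3668487091) (nat_lit 226) (nat_lit 5) (nat_lit 237) (nat_lit 5) (nat_lit 227) (nat_lit 5) (nat_lit 335) (nat_lit 308) (nat_lit 302))) (XT.nd (nat_lit 94) (nat_lit 0) (nat_lit 0)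 (XT.lf (nat_lit 0) (nat_lit 1704726516) (nat_lit 924) (nat_lit 1929980715) (nat_lit 1008) (nat_lit 3340251511) (nat_lit 215) (nat_lit 5) (nat_lit 226) (nat_lit 5) (nat_lit 227) (nat_lit 5) (nat_lit 336) (nat_lit 308) (nat_lit 301)) (XT.lf (nat_lit 0) (nat_lit 5914871008) (nat_lit 924) (nat_lit 531499640) (nat_lit 1008) (nat_lit 585855410) (nat_lit 215) (nat_lit 5) (nat_lit 226) (nat_lit 5) (nat_lit 227) (nat_lit 5) (nat_lit 337) (nat_lit 308) (nat_lit 300)))))) (XT.nd (nat_lit 658) (nat_lit 2436) (nat_lit 0) (XT.nd (nat_lit 282) (nat_lit 3108) (nat_lit 0) (XT.nd (nat_lit 94) (nat_lit 1176) (nat_lit 0) (XT.lf (nat_lit 0) (nat_lit 2161201037) (nat_lit 1092) (nat_lit 3978130270) (nat_lit 84) (nat_lit 952821722) (nat_lit 202) (nat_lit 5) (nat_lit 215) (nat_lit 5) (nat_lit 203) (nat_lit 5) (nat_lit 338) (nat_lit 308) (nat_lit 299)) (XT.nd (nat_lit 94) (nat_lit 84) (nat_lit 0) (XT.lf (nat_lit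 0) (nat_lit 257731350) (nat_lit 1092) (nat_lit 4656735717) (nat_lit 1176) (nat_lit 2241372966) (nat_lit 189) (nat_lit 5) (nat_lit 202) (nat_lit 5) (nat_lit 203) (nat_lit 5) (nat_lit 339) (nat_lit 308) (nat_lit 298)) (XT.lf (nat_lit 0) (nat_lit 476268998) (nat_lit 1176) (nat_lit 2602406294) (nat_lit 84) (nat_lit 4144070701) (nat_lit 188) (nat_lit 5) (nat_lit 202) (nat_lit 5) (nat_lit 189) (nat_lit 5) (nat_lit 340) (nat_lit 308) (nat_lit 297)))) (XT.nd (nat_lit 188) (nat_lit 1932) (nat_lit 0) (XT.nd (nat_lit 94) (nat_lit 0) (nat_lit 0) (XT.lf (nat_lit 0) (nat_lit 1757663415) (nat_lit 1176) (nat_lit 1409164070) (nat_lit 1260) (nat_lit 4126258961) (nat_lit 174) (nat_lit 5) (nat_lit 188) (nat_lit 5) (nat_lit 189) (nat_lit 5) (nat_lit 341) (nat_lit 308) (nat_lit 296)) (XT.lf (nat_lit 0) (nat_lit 5888810054) (nat_lit 1260) (nat_lit 1144544994) (nat_lit 84) (nat_lit 333841590) (nat_lit 174) (nat_lit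 5) (nat_lit 189) (nat_lit 5) (nat_lit 175) (nat_lit 5) (nat_lit 342) (nat_lit 308) (nat_lit 295))) (XT.nd (nat_lit 94) (nat_lit 588) (nat_lit 0) (XT.lf (nat_lit 0) (nat_lit 1193745092) (nat_lit 1344) (nat_lit 4102924441) (nat_lit 84) (nat_lit 2147594986) (nat_lit 158) (nat_lit 5) (nat_lit 174) (nat_lit 5) (nat_lit 159) (nat_lit 5) (nat_lit 343) (nat_lit 308) (nat_lit 294)) (XT.lf (nat_lit 0) (nat_lit 377501094) (nat_lit 588) (nat_lit 3478200017) (nat_lit 672) (nat_lit 3669488375) (nat_lit 151) (nat_lit 5) (nat_lit 158) (nat_lit 5) (nat_lit 159) (nat_lit 5) (nat_lit 344) (nat_lit 308) (nat_lit 293))))) (XT.nd (nat_lit 282) (nat_lit 1764) (nat_lit 0) (XT.nd (nat_lit 94) (nat_lit 672) (nat_lit 0) (XT.lf (nat_lit 0) (nat_lit 5000121569) (nat_lit 588) (nat_lit 1564377144) (nat_lit 672) (nat_lit 1045194590) (nat_lit 151) (nat_lit 5) (nat_lit 158) (nat_lit 5) (nat_lit 159) (nat_lit 5) (nat_lit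 345) (nat_lit 308) (nat_lit 292)) (XT.nd (nat_lit 94) (nat_lit 0) (nat_lit 0) (XT.lf (nat_lit 0) (nat_lit 1575908379) (nat_lit 672) (nat_lit 5689943462) (nat_lit 84) (nat_lit 432040768) (nat_lit 143) (nat_lit 5) (nat_lit 151) (nat_lit 5) (nat_lit 144) (nat_lit 5) (nat_lit 346) (nat_lit 308) (nat_lit 291)) (XT.lf (nat_lit 0) (nat_lit 4224968620) (nat_lit 672) (nat_lit 1073790056) (nat_lit 84) (nat_lit 2490705779) (nat_lit 143) (nat_lit 5) (nat_lit 151) (nat_lit 5) (nat_lit 144) (nat_lit 5) (nat_lit 347) (nat_lit 308) (nat_lit 290)))) (XT.nd (nat_lit 188) (nat_lit 504) (nat_lit 0) (XT.nd (nat_lit 94) (nat_lit 672) (nat_lit 0) (XT.lf (nat_lit 0) (nat_lit 3677627459) (nat_lit 588) (nat_lit 3241545407) (nat_lit 672) (nat_lit 965783106) (nat_lit 136) (nat_lit 5) (nat_lit 143) (nat_lit 5) (nat_lit 144) (nat_lit 5) (nat_lit 348) (nat_lit 308) (nat_lit 289)) (XT.lf (nat_lit 0) (nat_lit 528613520)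 (nat_lit 588) (nat_lit 1095747398) (nat_lit 672) (nat_lit 6360186757) (nat_lit 128) (nat_lit 5) (nat_lit 135) (nat_lit 5) (nat_lit 136) (nat_lit 5) (nat_lit 349) (nat_lit 308) (nat_lit 288))) (XT.nd (nat_lit 94) (nat_lit 504) (nat_lit 0) (XT.lf (nat_lit 0) (nat_lit 4258465745) (nat_lit 672) (nat_lit 2690784087) (nat_lit 84) (nat_lit 1138150972) (nat_lit 128) (nat_lit 5) (nat_lit 136) (nat_lit 5) (nat_lit 129) (nat_lit 5) (nat_lit 350) (nat_lit 308) (nat_lit 287)) (XT.lf (nat_lit 0) (nat_lit 2174024582) (nat_lit 504) (nat_lit 4763344149) (nat_lit 588) (nat_lit 1257124317) (nat_lit 122) (nat_lit 5) (nat_lit 128) (nat_lit 5) (nat_lit 129) (nat_lit 5) (nat_lit 351) (nat_lit 308) (nat_lit 286))))))))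
noncomputable def xc70 : XT := (XT.nd (nat_lit 2538) (nat_lit 2436) (nat_lit 0) (XT.nd (nat_lit 1222) (nat_lit 2688) (nat_lit 0) (XT.nd (nat_lit 564) (nat_lit 1764) (nat_lit 0) (XT.nd (nat_lit 282) (nat_lit 588) (nat_lit 0) (XT.nd (nat_lit 94) (nat_lit 924) (nat_lit 0) (XT.lf (nat_lit 0) (nat_lit 1326596545) (nat_lit 588) (nat_lit 1153254730) (nat_lit 84) (nat_lit 5825807434) (nat_lit 121) (nat_lit 5) (nat_lit 128) (nat_lit 5) (nat_lit 122) (nat_lit 5) (nat_lit 352) (nat_lit 308) (nat_lit 285)) (XT.nd (nat_lit 94) (nat_lit 420) (nat_lit 0) (XT.lf (nat_lit 0) (nat_lit 3849283269) (nat_lit 504) (nat_lit 86663927) (nat_lit 588) (nat_lit 4484753199) (nat_lit 115) (nat_lit 5) (nat_lit 121) (nat_lit 5) (nat_lit 122) (nat_lit 5) (nat_lit 353) (nat_lit 308) (nat_lit 284)) (XT.lf (nat_lit 0) (nat_lit 396934285) (nat_lit 420) (nat_lit 6202522701) (nat_lit 504) (nat_lit 1940572622) (nat_lit 110)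 (nat_lit 5) (nat_lit 115) (nat_lit 5) (nat_lit 116) (nat_lit 5) (nat_lit 354) (nat_lit 308) (nat_lit 283)))) (XT.nd (nat_lit 94) (nat_lit 504) (nat_lit 0) (XT.lf (nat_lit 0) (nat_lit 651980289) (nat_lit 504) (nat_lit 3136499931) (nat_lit 84) (nat_lit 4874809120) (nat_lit 109) (nat_lit 5) (nat_lit 115) (nat_lit 5) (nat_lit 110) (nat_lit 5) (nat_lit 355) (nat_lit 308) (nat_lit 282)) (XT.nd (nat_lit 94) (nat_lit 0) (nat_lit 0) (XT.lf (nat_lit 0) (nat_lit 1966500950) (nat_lit 504) (nat_lit 1275356427) (nat_lit 588) (nat_lit 5549159623) (nat_lit 103) (nat_lit 5) (nat_lit 109) (nat_lit 5) (nat_lit 110) (nat_lit 5) (nat_lit 356) (nat_lit 308) (nat_lit 281)) (XT.lf (nat_lit 0) (nat_lit 5894626711) (nat_lit 588) (nat_lit 1721667120) (nat_lit 84) (nat_lit 1306826854) (nat_lit 103) (nat_lit 5) (nat_lit 110) (nat_lit 5) (nat_lit 104) (nat_lit 5) (nat_lit 357) (nat_lit 308) (nat_lit 280))))) (XT.nd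 (nat_lit 282) (nat_lit 840) (nat_lit 0) (XT.nd (nat_lit 94) (nat_lit 504) (nat_lit 0) (XT.lf (nat_lit 0) (nat_lit 3518461591) (nat_lit 420) (nat_lit 5097283846) (nat_lit 504) (nat_lit 443876214) (nat_lit 98) (nat_lit 5) (nat_lit 103) (nat_lit 5) (nat_lit 104) (nat_lit 5) (nat_lit 358) (nat_lit 308) (nat_lit 279)) (XT.nd (nat_lit 94) (nat_lit 420) (nat_lit 0) (XT.lf (nat_lit 0) (nat_lit 2135211026) (nat_lit 504) (nat_lit 342469767) (nat_lit 84) (nat_lit 6723182203) (nat_lit 97) (nat_lit 5) (nat_lit 103) (nat_lit 5) (nat_lit 98) (nat_lit 5) (nat_lit 359) (nat_lit 308) (nat_lit 278)) (XT.lf (nat_lit 0) (nat_lit 4777988899) (nat_lit 504) (nat_lit 4313222878) (nat_lit 84) (nat_lit 255229691) (nat_lit 92) (nat_lit 5) (nat_lit 98) (nat_lit 5) (nat_lit 93) (nat_lit 5) (nat_lit 360) (nat_lit 308) (nat_lit 277)))) (XT.nd (nat_lit 188) (nat_lit 420) (nat_lit 0) (XT.nd (nat_lit 94) (nat_lit 84) (nat_lit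 0) (XT.lf (nat_lit 0) (nat_lit 1004802616) (nat_lit 336) (nat_lit 6478070324) (nat_lit 420) (nat_lit 2014115992) (nat_lit 88) (nat_lit 5) (nat_lit 92) (nat_lit 5) (nat_lit 93) (nat_lit 5) (nat_lit 361) (nat_lit 308) (nat_lit 276)) (XT.lf (nat_lit 0) (nat_lit 594244454) (nat_lit 420) (nat_lit 3157944105) (nat_lit 84) (nat_lit 5900084824) (nat_lit 87) (nat_lit 5) (nat_lit 92) (nat_lit 5) (nat_lit 88) (nat_lit 5) (nat_lit 362) (nat_lit 308) (nat_lit 275))) (XT.nd (nat_lit 94) (nat_lit 0) (nat_lit 0) (XT.lf (nat_lit 0) (nat_lit 2291563523) (nat_lit 420) (nat_lit 917871781) (nat_lit 504) (nat_lit 6603189970) (nat_lit 82) (nat_lit 5) (nat_lit 87) (nat_lit 5) (nat_lit 88) (nat_lit 5) (nat_lit 363) (nat_lit 308) (nat_lit 274)) (XT.lf (nat_lit 0) (nat_lit 5902279114) (nat_lit 504) (nat_lit 2097428147) (nat_lit 84) (nat_lit 1978181242) (nat_lit 82) (nat_lit 5) (nat_lit 88) (nat_lit 5) (nat_lit 83)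 (nat_lit 5) (nat_lit 364) (nat_lit 308) (nat_lit 273)))))) (XT.nd (nat_lit 658) (nat_lit 1176) (nat_lit 0) (XT.nd (nat_lit 282) (nat_lit 756) (nat_lit 0) (XT.nd (nat_lit 94) (nat_lit 420) (nat_lit 0) (XT.lf (nat_lit 0) (nat_lit 3479438433) (nat_lit 336) (nat_lit 5188278950) (nat_lit 420) (nat_lit 1480712436) (nat_lit 78) (nat_lit 5) (nat_lit 82) (nat_lit 5) (nat_lit 83) (nat_lit 5) (nat_lit 365) (nat_lit 308) (nat_lit 272)) (XT.nd (nat_lit 94) (nat_lit 336) (nat_lit 0) (XT.lf (nat_lit 0) (nat_lit 1139697580) (nat_lit 420) (nat_lit 1137203590) (nat_lit 84) (nat_lit 8047784829) (nat_lit 77) (nat_lit 5) (nat_lit 82) (nat_lit 5) (nat_lit 78) (nat_lit 5) (nat_lit 366) (nat_lit 308) (nat_lit 271)) (XT.lf (nat_lit 0) (nat_lit 3811228201) (nat_lit 420) (nat_lit 5945025952) (nat_lit 84) (nat_lit 749535967) (nat_lit 73) (nat_lit 5) (nat_lit 78) (nat_lit 5) (nat_lit 74) (nat_lit 5) (nat_lit 367)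 (nat_lit 308) (nat_lit 270)))) (XT.nd (nat_lit 188) (nat_lit 420) (nat_lit 0) (XT.nd (nat_lit 94) (nat_lit 336) (nat_lit 0) (XT.lf (nat_lit 0) (nat_lit 6548673465) (nat_lit 420) (nat_lit 329033484) (nat_lit 84) (nat_lit 3815113514) (nat_lit 73) (nat_lit 5) (nat_lit 78) (nat_lit 5) (nat_lit 74) (nat_lit 5) (nat_lit 368) (nat_lit 308) (nat_lit 269)) (XT.lf (nat_lit 0) (nat_lit 5497297363) (nat_lit 336) (nat_lit 3876824929) (nat_lit 420) (nat_lit 1511227254) (nat_lit 69) (nat_lit 5) (nat_lit 73) (nat_lit 5) (nat_lit 74) (nat_lit 5) (nat_lit 369) (nat_lit 308) (nat_lit 268))) (XT.nd (nat_lit 94) (nat_lit 0) (nat_lit 0) (XT.lf (nat_lit 0) (nat_lit 351122415) (nat_lit 336) (nat_lit 786122067) (nat_lit 420) (nat_lit 9947324496) (nat_lit 64) (nat_lit 5) (nat_lit 68) (nat_lit 5) (nat_lit 69) (nat_lit 5) (nat_lit 370) (nat_lit 308) (nat_lit 267)) (XT.lf (nat_lit 0) (nat_lit 3866602840) (nat_lit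 420) (nat_lit 5020129553) (nat_lit 84) (nat_lit 2401688301) (nat_lit 64) (nat_lit 5) (nat_lit 69) (nat_lit 5) (nat_lit 65) (nat_lit 5) (nat_lit 371) (nat_lit 308) (nat_lit 266))))) (XT.nd (nat_lit 282) (nat_lit 504) (nat_lit 0) (XT.nd (nat_lit 94) (nat_lit 420) (nat_lit 0) (XT.lf (nat_lit 0) (nat_lit 808133182) (nat_lit 252) (nat_lit 5840420469) (nat_lit 336) (nat_lit 4850770034) (nat_lit 61) (nat_lit 5) (nat_lit 64) (nat_lit 5) (nat_lit 65) (nat_lit 5) (nat_lit 372) (nat_lit 308) (nat_lit 265)) (XT.nd (nat_lit 94) (nat_lit 420) (nat_lit 0) (XT.lf (nat_lit 0) (nat_lit 6850343313) (nat_lit 252) (nat_lit 2670165838) (nat_lit 336) (nat_lit 2195903637) (nat_lit 61) (nat_lit 5) (nat_lit 64) (nat_lit 5) (nat_lit 65) (nat_lit 5) (nat_lit 373) (nat_lit 308) (nat_lit 264)) (XT.lf (nat_lit 0) (nat_lit 500897051) (nat_lit 420) (nat_lit 10859612533) (nat_lit 84) (nat_lit 580217930) (nat_lit 56) (nat_lit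 5) (nat_lit 61) (nat_lit 5) (nat_lit 57) (nat_lit 5) (nat_lit 374) (nat_lit 308) (nat_lit 263)))) (XT.nd (nat_lit 188) (nat_lit 252) (nat_lit 0) (XT.nd (nat_lit 94) (nat_lit 252) (nat_lit 0) (XT.lf (nat_lit 0) (nat_lit 3267665026) (nat_lit 420) (nat_lit 4975889297) (nat_lit 84) (nat_lit 3926619855) (nat_lit 56) (nat_lit 5) (nat_lit 61) (nat_lit 5) (nat_lit 57) (nat_lit 5) (nat_lit 375) (nat_lit 308) (nat_lit 262)) (XT.lf (nat_lit 0) (nat_lit 1043156765) (nat_lit 252) (nat_lit 5042692362) (nat_lit 336) (nat_lit 6321651952) (nat_lit 53) (nat_lit 5) (nat_lit 56) (nat_lit 5) (nat_lit 57) (nat_lit 5) (nat_lit 376) (nat_lit 308) (nat_lit 261))) (XT.nd (nat_lit 94) (nat_lit 252) (nat_lit 0) (XT.lf (nat_lit 0) (nat_lit 7283833823) (nat_lit 252) (nat_lit 1714003544) (nat_lit 336) (nat_lit 3653880456) (nat_lit 53) (nat_lit 5) (nat_lit 56) (nat_lit 5) (nat_lit 57) (nat_lit 5) (nat_lit 377) (nat_lit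 308) (nat_lit 260)) (XT.lf (nat_lit 0) (nat_lit 746332219) (nat_lit 252) (nat_lit 11234528008) (nat_lit 336) (nat_lit 922936999) (nat_lit 50) (nat_lit 5) (nat_lit 53) (nat_lit 5) (nat_lit 54) (nat_lit 5) (nat_lit 378) (nat_lit 308) (nat_lit 259))))))) (XT.nd (nat_lit 1316) (nat_lit 924) (nat_lit 0) (XT.nd (nat_lit 658) (nat_lit 672) (nat_lit 0) (XT.nd (nat_lit 282) (nat_lit 504) (nat_lit 0) (XT.nd (nat_lit 94) (nat_lit 252) (nat_lit 0) (XT.lf (nat_lit 0) (nat_lit 1884944066) (nat_lit 336) (nat_lit 6103941975) (nat_lit 84) (nat_lit 5173095032) (nat_lit 49) (nat_lit 5) (nat_lit 53) (nat_lit 5) (nat_lit 50) (nat_lit 5) (nat_lit 379) (nat_lit 308) (nat_lit 258)) (XT.nd (nat_lit 94) (nat_lit 0) (nat_lit 0) (XT.lf (nat_lit 0) (nat_lit 64604398) (nat_lit 252) (nat_lit 4655864588) (nat_lit 336) (nat_lit 8708351048) (nat_lit 46) (nat_lit 5) (nat_lit 49) (nat_lit 5) (nat_lit 50) (nat_lit 5) (nat_lit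 380) (nat_lit 308) (nat_lit 257)) (XT.lf (nat_lit 0) (nat_lit 6485202502) (nat_lit 252) (nat_lit 1179398866) (nat_lit 336) (nat_lit 6038397774) (nat_lit 46) (nat_lit 5) (nat_lit 49) (nat_lit 5) (nat_lit 50) (nat_lit 5) (nat_lit 381) (nat_lit 308) (nat_lit 256)))) (XT.nd (nat_lit 188) (nat_lit 252) (nat_lit 0) (XT.nd (nat_lit 94) (nat_lit 252) (nat_lit 0) (XT.lf (nat_lit 0) (nat_lit 10682967573) (nat_lit 336) (nat_lit 967467479) (nat_lit 84) (nat_lit 2335431305) (nat_lit 46) (nat_lit 5) (nat_lit 50) (nat_lit 5) (nat_lit 47) (nat_lit 5) (nat_lit 382) (nat_lit 308) (nat_lit 255)) (XT.lf (nat_lit 0) (nat_lit 5510496742) (nat_lit 252) (nat_lit 8309944728) (nat_lit 336) (nat_lit 455960278) (nat_lit 43) (nat_lit 5) (nat_lit 46) (nat_lit 5) (nat_lit 47) (nat_lit 5) (nat_lit 383) (nat_lit 308) (nat_lit 254))) (XT.nd (nat_lit 94) (nat_lit 168) (nat_lit 0) (XT.lf (nat_lit 0) (nat_lit 2401970223)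 (nat_lit 336) (nat_lit 2452562543) (nat_lit 84) (nat_lit 9721225720) (nat_lit 42) (nat_lit 5) (nat_lit 46) (nat_lit 5) (nat_lit 43) (nat_lit 5) (nat_lit 384) (nat_lit 308) (nat_lit 253)) (XT.lf (nat_lit 0) (nat_lit 4070797599) (nat_lit 168) (nat_lit 1269895850) (nat_lit 252) (nat_lit 9543176033) (nat_lit 40) (nat_lit 5) (nat_lit 42) (nat_lit 5) (nat_lit 43) (nat_lit 5) (nat_lit 385) (nat_lit 308) (nat_lit 252))))) (XT.nd (nat_lit 282) (nat_lit 420) (nat_lit 0) (XT.nd (nat_lit 94) (nat_lit 252) (nat_lit 0) (XT.lf (nat_lit 0) (nat_lit 8381276121) (nat_lit 252) (nat_lit 4438529254) (nat_lit 84) (nat_lit 2381042029) (nat_lit 40) (nat_lit 5) (nat_lit 43) (nat_lit 5) (nat_lit 41) (nat_lit 5) (nat_lit 386) (nat_lit 308) (nat_lit 251)) (XT.nd (nat_lit 94) (nat_lit 0) (nat_lit 0) (XT.lf (nat_lit 0) (nat_lit 2102645988) (nat_lit 252) (nat_lit 9409625165) (nat_lit 336) (nat_lit 4015121188) (nat_lit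 37) (nat_lit 5) (nat_lit 40) (nat_lit 5) (nat_lit 41) (nat_lit 5) (nat_lit 387) (nat_lit 308) (nat_lit 250)) (XT.lf (nat_lit 0) (nat_lit 8878501553) (nat_lit 252) (nat_lit 5870397968) (nat_lit 336) (nat_lit 1114515548) (nat_lit 37) (nat_lit 5) (nat_lit 40) (nat_lit 5) (nat_lit 41) (nat_lit 5) (nat_lit 388) (nat_lit 308) (nat_lit 249)))) (XT.nd (nat_lit 188) (nat_lit 168) (nat_lit 0) (XT.nd (nat_lit 94) (nat_lit 168) (nat_lit 0) (XT.lf (nat_lit 0) (nat_lit 1804055463) (nat_lit 336) (nat_lit 421578811) (nat_lit 84) (nat_lit 13984349769) (nat_lit 36) (nat_lit 5) (nat_lit 40) (nat_lit 5) (nat_lit 37) (nat_lit 5) (nat_lit 389) (nat_lit 308) (nat_lit 248)) (XT.lf (nat_lit 0) (nat_lit 4833003561) (nat_lit 252) (nat_lit 10178609046) (nat_lit 84) (nat_lit 1553679602) (nat_lit 34) (nat_lit 5) (nat_lit 37) (nat_lit 5) (nat_lit 35) (nat_lit 5) (nat_lit 390) (nat_lit 308) (nat_lit 247))) (XT.nd (nat_lit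 94) (nat_lit 168) (nat_lit 0) (XT.lf (nat_lit 0) (nat_lit 7947863154) (nat_lit 252) (nat_lit 3595849053) (nat_lit 84) (nat_lit 5387725038) (nat_lit 34) (nat_lit 5) (nat_lit 37) (nat_lit 5) (nat_lit 35) (nat_lit 5) (nat_lit 391) (nat_lit 308) (nat_lit 246)) (XT.lf (nat_lit 0) (nat_lit 3197790295) (nat_lit 168) (nat_lit 7958736578) (nat_lit 252) (nat_lit 6152057085) (nat_lit 32) (nat_lit 5) (nat_lit 34) (nat_lit 5) (nat_lit 35) (nat_lit 5) (nat_lit 392) (nat_lit 308) (nat_lit 245)))))) (XT.nd (nat_lit 658) (nat_lit 504) (nat_lit 0) (XT.nd (nat_lit 282) (nat_lit 168) (nat_lit 0) (XT.nd (nat_lit 94) (nat_lit 252) (nat_lit 0) (XT.lf (nat_lit 0) (nat_lit 10220426786) (nat_lit 168) (nat_lit 4247372407) (nat_lit 252) (nat_lit 3229082676) (nat_lit 32) (nat_lit 5) (nat_lit 34) (nat_lit 5) (nat_lit 35) (nat_lit 5) (nat_lit 393) (nat_lit 308) (nat_lit 244)) (XT.nd (nat_lit 94) (nat_lit 252) (nat_lit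 0) (XT.lf (nat_lit 0) (nat_lit 17406632257) (nat_lit 168) (nat_lit 442687779) (nat_lit 252) (nat_lit 248407835) (nat_lit 32) (nat_lit 5) (nat_lit 34) (nat_lit 5) (nat_lit 35) (nat_lit 5) (nat_lit 394) (nat_lit 308) (nat_lit 243)) (XT.lf (nat_lit 0) (nat_lit 2833218559) (nat_lit 252) (nat_lit 12194705804) (nat_lit 84) (nat_lit 3479888342) (nat_lit 29) (nat_lit 5) (nat_lit 32) (nat_lit 5) (nat_lit 30) (nat_lit 5) (nat_lit 395) (nat_lit 308) (nat_lit 242)))) (XT.nd (nat_lit 188) (nat_lit 0) (nat_lit 0) (XT.nd (nat_lit 94) (nat_lit 168) (nat_lit 0) (XT.lf (nat_lit 0) (nat_lit 5985404793) (nat_lit 252) (nat_lit 5441875496) (nat_lit 84) (nat_lit 7503377116) (nat_lit 29) (nat_lit 5) (nat_lit 32) (nat_lit 5) (nat_lit 30) (nat_lit 5) (nat_lit 396) (nat_lit 308) (nat_lit 241)) (XT.lf (nat_lit 0) (nat_lit 1497543328) (nat_lit 168) (nat_lit 7721506592) (nat_lit 252) (nat_lit 10147554237) (nat_lit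 27) (nat_lit 5) (nat_lit 29) (nat_lit 5) (nat_lit 30) (nat_lit 5) (nat_lit 397) (nat_lit 308) (nat_lit 240))) (XT.nd (nat_lit 94) (nat_lit 0) (nat_lit 0) (XT.lf (nat_lit 0) (nat_lit 8711922296) (nat_lit 168) (nat_lit 3865603001) (nat_lit 252) (nat_lit 7237292218) (nat_lit 27) (nat_lit 5) (nat_lit 29) (nat_lit 5) (nat_lit 30) (nat_lit 5) (nat_lit 398) (nat_lit 308) (nat_lit 239)) (XT.lf (nat_lit 0) (nat_lit 16011267848) (nat_lit 252) (nat_lit 4178882485) (nat_lit 84) (nat_lit 87113713) (nat_lit 27) (nat_lit 5) (nat_lit 30) (nat_lit 5) (nat_lit 28) (nat_lit 4) (nat_lit 399) (nat_lit 308) (nat_lit 238))))) (XT.nd (nat_lit 282) (nat_lit 252) (nat_lit 0) (XT.nd (nat_lit 94) (nat_lit 84) (nat_lit 0) (XT.lf (nat_lit 0) (nat_lit 2928896552) (nat_lit 168) (nat_lit 16659819969) (nat_lit 252) (nat_lit 1163668155) (nat_lit 25) (nat_lit 5) (nat_lit 27) (nat_lit 5) (nat_lit 28) (nat_lit 4) (nat_lit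 400) (nat_lit 308) (nat_lit 237)) (XT.nd (nat_lit 94) (nat_lit 0) (nat_lit 0) (XT.lf (nat_lit 0) (nat_lit 2009035825) (nat_lit 252) (nat_lit 10967814252) (nat_lit 84) (nat_lit 8263834650) (nat_lit 24) (nat_lit 5) (nat_lit 27) (nat_lit 5) (nat_lit 25) (nat_lit 5) (nat_lit 401) (nat_lit 308) (nat_lit 236)) (XT.lf (nat_lit 0) (nat_lit 5228615971) (nat_lit 252) (nat_lit 3959686001) (nat_lit 84) (nat_lit 12555753346) (nat_lit 24) (nat_lit 5) (nat_lit 27) (nat_lit 5) (nat_lit 25) (nat_lit 5) (nat_lit 402) (nat_lit 308) (nat_lit 235)))) (XT.nd (nat_lit 188) (nat_lit 84) (nat_lit 0) (XT.nd (nat_lit 94) (nat_lit 0) (nat_lit 0) (XT.lf (nat_lit 0) (nat_lit 3282254738) (nat_lit 168) (nat_lit 5269889169) (nat_lit 252) (nat_lit 13710181426) (nat_lit 22) (nat_lit 5) (nat_lit 24) (nat_lit 5) (nat_lit 25) (nat_lit 5) (nat_lit 403) (nat_lit 308) (nat_lit 234)) (XT.lf (nat_lit 0) (nat_lit 10782540271) (nat_lit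 168) (nat_lit 1208951097) (nat_lit 252) (nat_lit 10804187230) (nat_lit 22) (nat_lit 5) (nat_lit 24) (nat_lit 5) (nat_lit 25) (nat_lit 5) (nat_lit 404) (nat_lit 308) (nat_lit 233))) (XT.nd (nat_lit 94) (nat_lit 84) (nat_lit 0) (XT.lf (nat_lit 0) (nat_lit 15539277992) (nat_lit 252) (nat_lit 4905261866) (nat_lit 84) (nat_lit 2900352862) (nat_lit 22) (nat_lit 5) (nat_lit 25) (nat_lit 5) (nat_lit 23) (nat_lit 4) (nat_lit 405) (nat_lit 308) (nat_lit 232)) (XT.lf (nat_lit 0) (nat_lit 2412632413) (nat_lit 84) (nat_lit 16793379358) (nat_lit 168) (nat_lit 4704213583) (nat_lit 21) (nat_lit 5) (nat_lit 22) (nat_lit 5) (nat_lit 23) (nat_lit 4) (nat_lit 406) (nat_lit 308) (nat_lit 231))))))))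
noncomputable def xc71 : XT := (XT.nd (nat_lit 2632) (nat_lit 336) (nat_lit 0) (XT.nd (nat_lit 1316) (nat_lit 336) (nat_lit 0) (XT.nd (nat_lit 658) (nat_lit 252) (nat_lit 0) (XT.nd (nat_lit 282) (nat_lit 84) (nat_lit 0) (XT.nd (nat_lit 94) (nat_lit 252) (nat_lit 0) (XT.lf (nat_lit 0) (nat_lit 10012664533) (nat_lit 84) (nat_lit 12997263435) (nat_lit 168) (nat_lit 1481791573) (nat_lit 21) (nat_lit 5) (nat_lit 22) (nat_lit 5) (nat_lit 23) (nat_lit 4) (nat_lit 407) (nat_lit 308) (nat_lit 230)) (XT.nd (nat_lit 94) (nat_lit 168) (nat_lit 0) (XT.lf (nat_lit 0) (nat_lit 1779517594) (nat_lit 168) (nat_lit 7304921389) (nat_lit 84) (nat_lit 16006363736) (nat_lit 20) (nat_lit 5) (nat_lit 22) (nat_lit 5) (nat_lit 21) (nat_lit 5) (nat_lit 408) (nat_lit 308) (nat_lit 229)) (XT.lf (nat_lit 0) (nat_lit 34220003) (nat_lit 168) (nat_lit 5053698159) (nat_lit 252) (nat_lit 20620144599) (nat_lit 18) (nat_lit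 5) (nat_lit 20) (nat_lit 5) (nat_lit 21) (nat_lit 5) (nat_lit 409) (nat_lit 308) (nat_lit 228)))) (XT.nd (nat_lit 188) (nat_lit 84) (nat_lit 0) (XT.nd (nat_lit 94) (nat_lit 0) (nat_lit 0) (XT.lf (nat_lit 0) (nat_lit 7707421604) (nat_lit 168) (nat_lit 840895787) (nat_lit 252) (nat_lit 17793955905) (nat_lit 18) (nat_lit 5) (nat_lit 20) (nat_lit 5) (nat_lit 21) (nat_lit 5) (nat_lit 410) (nat_lit 308) (nat_lit 227)) (XT.lf (nat_lit 0) (nat_lit 12125611277) (nat_lit 252) (nat_lit 11453620324) (nat_lit 84) (nat_lit 3415900717) (nat_lit 18) (nat_lit 5) (nat_lit 21) (nat_lit 5) (nat_lit 19) (nat_lit 4) (nat_lit 411) (nat_lit 308) (nat_lit 226))) (XT.nd (nat_lit 94) (nat_lit 84) (nat_lit 0) (XT.lf (nat_lit 0) (nat_lit 15798603049) (nat_lit 252) (nat_lit 4099551231) (nat_lit 84) (nat_lit 7769785685) (nat_lit 18) (nat_lit 5) (nat_lit 21) (nat_lit 5) (nat_lit 19) (nat_lit 4) (nat_lit 412) (nat_lit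 308) (nat_lit 225)) (XT.lf (nat_lit 0) (nat_lit 3510364532) (nat_lit 84) (nat_lit 16085798152) (nat_lit 168) (nat_lit 8764351626) (nat_lit 17) (nat_lit 5) (nat_lit 18) (nat_lit 5) (nat_lit 19) (nat_lit 4) (nat_lit 413) (nat_lit 308) (nat_lit 224))))) (XT.nd (nat_lit 282) (nat_lit 168) (nat_lit 0) (XT.nd (nat_lit 94) (nat_lit 84) (nat_lit 0) (XT.lf (nat_lit 0) (nat_lit 11399665521) (nat_lit 84) (nat_lit 12130262678) (nat_lit 168) (nat_lit 5543282722) (nat_lit 17) (nat_lit 5) (nat_lit 18) (nat_lit 5) (nat_lit 19) (nat_lit 4) (nat_lit 414) (nat_lit 308) (nat_lit 223)) (XT.nd (nat_lit 94) (nat_lit 84) (nat_lit 0) (XT.lf (nat_lit 0) (nat_lit 19493656191) (nat_lit 84) (nat_lit 8069488994) (nat_lit 168) (nat_lit 2244713109) (nat_lit 17) (nat_lit 5) (nat_lit 18) (nat_lit 5) (nat_lit 19) (nat_lit 4) (nat_lit 415) (nat_lit 308) (nat_lit 222)) (XT.lf (nat_lit 0) (nat_lit 1112106362) (nat_lit 168)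 (nat_lit 2776592395) (nat_lit 84) (nat_lit 26676072505) (nat_lit 16) (nat_lit 5) (nat_lit 18) (nat_lit 5) (nat_lit 17) (nat_lit 5) (nat_lit 416) (nat_lit 308) (nat_lit 221)))) (XT.nd (nat_lit 188) (nat_lit 0) (nat_lit 0) (XT.nd (nat_lit 94) (nat_lit 0) (nat_lit 0) (XT.lf (nat_lit 0) (nat_lit 4559798219) (nat_lit 252) (nat_lit 26314796782) (nat_lit 84) (nat_lit 468083256) (nat_lit 14) (nat_lit 5) (nat_lit 17) (nat_lit 5) (nat_lit 15) (nat_lit 4) (nat_lit 417) (nat_lit 308) (nat_lit 220)) (XT.lf (nat_lit 0) (nat_lit 8160159148) (nat_lit 252) (nat_lit 19089084159) (nat_lit 84) (nat_lit 4893213573) (nat_lit 14) (nat_lit 5) (nat_lit 17) (nat_lit 5) (nat_lit 15) (nat_lit 4) (nat_lit 418) (nat_lit 308) (nat_lit 219))) (XT.nd (nat_lit 94) (nat_lit 0) (nat_lit 0) (XT.lf (nat_lit 0) (nat_lit 11851463530) (nat_lit 252) (nat_lit 11676338266) (nat_lit 84) (nat_lit 9438950316) (nat_lit 14) (nat_lit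 5) (nat_lit 17) (nat_lit 5) (nat_lit 15) (nat_lit 4) (nat_lit 419) (nat_lit 308) (nat_lit 218)) (XT.lf (nat_lit 0) (nat_lit 15636936776) (nat_lit 252) (nat_lit 4070081946) (nat_lit 84) (nat_lit 14109265489) (nat_lit 14) (nat_lit 5) (nat_lit 17) (nat_lit 5) (nat_lit 15) (nat_lit 4) (nat_lit 420) (nat_lit 308) (nat_lit 217)))))) (XT.nd (nat_lit 658) (nat_lit 84) (nat_lit 0) (XT.nd (nat_lit 282) (nat_lit 168) (nat_lit 0) (XT.nd (nat_lit 94) (nat_lit 0) (nat_lit 0) (XT.lf (nat_lit 0) (nat_lit 3810691355) (nat_lit 84) (nat_lit 15745825923) (nat_lit 168) (nat_lit 15134179289) (nat_lit 13) (nat_lit 5) (nat_lit 14) (nat_lit 5) (nat_lit 15) (nat_lit 4) (nat_lit 421) (nat_lit 308) (nat_lit 216)) (XT.nd (nat_lit 94) (nat_lit 0) (nat_lit 0) (XT.lf (nat_lit 0) (nat_lit 11983564340) (nat_lit 84) (nat_lit 11635334827) (nat_lit 168) (nat_lit 11971695984) (nat_lit 13) (nat_lit 5) (nat_lit 14) (nat_lit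 5) (nat_lit 15) (nat_lit 4) (nat_lit 422) (nat_lit 308) (nat_lit 215)) (XT.lf (nat_lit 0) (nat_lit 20374675742) (nat_lit 84) (nat_lit 7413053591) (nat_lit 168) (nat_lit 8730234032) (nat_lit 13) (nat_lit 5) (nat_lit 14) (nat_lit 5) (nat_lit 15) (nat_lit 4) (nat_lit 423) (nat_lit 308) (nat_lit 214)))) (XT.nd (nat_lit 188) (nat_lit 168) (nat_lit 0) (XT.nd (nat_lit 94) (nat_lit 0) (nat_lit 0) (XT.lf (nat_lit 0) (nat_lit 28991357600) (nat_lit 84) (nat_lit 3075292843) (nat_lit 168) (nat_lit 5406961089) (nat_lit 13) (nat_lit 5) (nat_lit 14) (nat_lit 5) (nat_lit 15) (nat_lit 4) (nat_lit 424) (nat_lit 308) (nat_lit 213)) (XT.lf (nat_lit 0) (nat_lit 36472683468) (nat_lit 168) (nat_lit 630517738) (nat_lit 0) (nat_lit 1354775013) (nat_lit 13) (nat_lit 5) (nat_lit 15) (nat_lit 4) (nat_lit 13) (nat_lit 4) (nat_lit 425) (nat_lit 308) (nat_lit 212))) (XT.nd (nat_lit 94) (nat_lit 0) (nat_lit 0) (XT.lf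 (nat_lit 0) (nat_lit 1598658630) (nat_lit 168) (nat_lit 31936259398) (nat_lit 84) (nat_lit 5933828914) (nat_lit 11) (nat_lit 5) (nat_lit 13) (nat_lit 5) (nat_lit 12) (nat_lit 4) (nat_lit 426) (nat_lit 308) (nat_lit 211)) (XT.lf (nat_lit 0) (nat_lit 5242468862) (nat_lit 168) (nat_lit 24601099351) (nat_lit 84) (nat_lit 10665924209) (nat_lit 11) (nat_lit 5) (nat_lit 13) (nat_lit 5) (nat_lit 12) (nat_lit 4) (nat_lit 427) (nat_lit 308) (nat_lit 210))))) (XT.nd (nat_lit 282) (nat_lit 84) (nat_lit 0) (XT.nd (nat_lit 94) (nat_lit 0) (nat_lit 0) (XT.lf (nat_lit 0) (nat_lit 8981819317) (nat_lit 168) (nat_lit 17070193387) (nat_lit 84) (nat_lit 15529869140) (nat_lit 11) (nat_lit 5) (nat_lit 13) (nat_lit 5) (nat_lit 12) (nat_lit 4) (nat_lit 428) (nat_lit 308) (nat_lit 209)) (XT.nd (nat_lit 94) (nat_lit 0) (nat_lit 0) (XT.lf (nat_lit 0) (nat_lit 12819977388) (nat_lit 168) (nat_lit 9336961104) (nat_lit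 84) (nat_lit 20529913756) (nat_lit 11) (nat_lit 5) (nat_lit 13) (nat_lit 5) (nat_lit 12) (nat_lit 4) (nat_lit 429) (nat_lit 308) (nat_lit 208)) (XT.lf (nat_lit 0) (nat_lit 16760296806) (nat_lit 168) (nat_lit 1394645308) (nat_lit 84) (nat_lit 25670427029) (nat_lit 11) (nat_lit 5) (nat_lit 13) (nat_lit 5) (nat_lit 12) (nat_lit 4) (nat_lit 430) (nat_lit 308) (nat_lit 207)))) (XT.nd (nat_lit 188) (nat_lit 0) (nat_lit 0) (XT.nd (nat_lit 94) (nat_lit 0) (nat_lit 0) (XT.lf (nat_lit 0) (nat_lit 6898304658) (nat_lit 84) (nat_lit 13974226634) (nat_lit 168) (nat_lit 24123906734) (nat_lit 10) (nat_lit 5) (nat_lit 11) (nat_lit 5) (nat_lit 12) (nat_lit 4) (nat_lit 431) (nat_lit 308) (nat_lit 206)) (XT.lf (nat_lit 0) (nat_lit 15446604011) (nat_lit 84) (nat_lit 9663162144) (nat_lit 168) (nat_lit 21092831245) (nat_lit 10) (nat_lit 5) (nat_lit 11) (nat_lit 5) (nat_lit 12) (nat_lit 4) (nat_lit 432) (nat_lit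 308) (nat_lit 205))) (XT.nd (nat_lit 94) (nat_lit 0) (nat_lit 0) (XT.lf (nat_lit 0) (nat_lit 24229965961) (nat_lit 84) (nat_lit 5232064877) (nat_lit 168) (nat_lit 17983280541) (nat_lit 10) (nat_lit 5) (nat_lit 11) (nat_lit 5) (nat_lit 12) (nat_lit 4) (nat_lit 433) (nat_lit 308) (nat_lit 204)) (XT.lf (nat_lit 0) (nat_lit 33256065291) (nat_lit 84) (nat_lit 677063002) (nat_lit 168) (nat_lit 14792537538) (nat_lit 10) (nat_lit 5) (nat_lit 11) (nat_lit 5) (nat_lit 12) (nat_lit 4) (nat_lit 434) (nat_lit 308) (nat_lit 203))))))) (XT.nd (nat_lit 1316) (nat_lit 84) (nat_lit 0) (XT.nd (nat_lit 658) (nat_lit 84) (nat_lit 0) (XT.nd (nat_lit 282) (nat_lit 84) (nat_lit 0) (XT.nd (nat_lit 94) (nat_lit 84) (nat_lit 0) (XT.lf (nat_lit 0) (nat_lit 38565471730) (nat_lit 168) (nat_lit 7550497056) (nat_lit 0) (nat_lit 3927655533) (nat_lit 10) (nat_lit 5) (nat_lit 12) (nat_lit 4) (nat_lit 10) (nat_lit 4) (nat_lit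 435) (nat_lit 308) (nat_lit 202)) (XT.nd (nat_lit 94) (nat_lit 0) (nat_lit 0) (XT.lf (nat_lit 0) (nat_lit 591183856) (nat_lit 84) (nat_lit 42746844701) (nat_lit 84) (nat_lit 8063062309) (nat_lit 9) (nat_lit 4) (nat_lit 10) (nat_lit 5) (nat_lit 10) (nat_lit 4) (nat_lit 436) (nat_lit 308) (nat_lit 201)) (XT.lf (nat_lit 0) (nat_lit 9112259169) (nat_lit 84) (nat_lit 39206740640) (nat_lit 84) (nat_lit 4478330873) (nat_lit 9) (nat_lit 4) (nat_lit 10) (nat_lit 5) (nat_lit 10) (nat_lit 4) (nat_lit 437) (nat_lit 308) (nat_lit 200)))) (XT.nd (nat_lit 188) (nat_lit 0) (nat_lit 0) (XT.nd (nat_lit 94) (nat_lit 84) (nat_lit 0) (XT.lf (nat_lit 0) (nat_lit 17869904787) (nat_lit 84) (nat_lit 35568808522) (nat_lit 84) (nat_lit 797071208) (nat_lit 9) (nat_lit 4) (nat_lit 10) (nat_lit 5) (nat_lit 10) (nat_lit 4) (nat_lit 438) (nat_lit 308) (nat_lit 199)) (XT.lf (nat_lit 0) (nat_lit 2925706034) (nat_lit 168)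 (nat_lit 28874619644) (nat_lit 84) (nat_lit 23916523091) (nat_lit 8) (nat_lit 5) (nat_lit 10) (nat_lit 5) (nat_lit 9) (nat_lit 4) (nat_lit 439) (nat_lit 308) (nat_lit 198))) (XT.nd (nat_lit 94) (nat_lit 0) (nat_lit 0) (XT.lf (nat_lit 0) (nat_lit 6733967351) (nat_lit 168) (nat_lit 21184689540) (nat_lit 84) (nat_lit 29323762361) (nat_lit 8) (nat_lit 5) (nat_lit 10) (nat_lit 5) (nat_lit 9) (nat_lit 4) (nat_lit 440) (nat_lit 308) (nat_lit 197)) (XT.lf (nat_lit 0) (nat_lit 10646594078) (nat_lit 168) (nat_lit 13281708128) (nat_lit 84) (nat_lit 34885756641) (nat_lit 8) (nat_lit 5) (nat_lit 10) (nat_lit 5) (nat_lit 9) (nat_lit 4) (nat_lit 441) (nat_lit 308) (nat_lit 196))))) (XT.nd (nat_lit 282) (nat_lit 0) (nat_lit 0) (XT.nd (nat_lit 94) (nat_lit 84) (nat_lit 0) (XT.lf (nat_lit 0) (nat_lit 14667005017) (nat_lit 168) (nat_lit 5158769888) (nat_lit 84) (nat_lit 40607365927) (nat_lit 8) (nat_lit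 5) (nat_lit 10) (nat_lit 5) (nat_lit 9) (nat_lit 4) (nat_lit 442) (nat_lit 308) (nat_lit 195)) (XT.nd (nat_lit 94) (nat_lit 0) (nat_lit 0) (XT.lf (nat_lit 0) (nat_lit 3254734485) (nat_lit 84) (nat_lit 15575265160) (nat_lit 168) (nat_lit 43270141696) (nat_lit 7) (nat_lit 5) (nat_lit 8) (nat_lit 5) (nat_lit 9) (nat_lit 4) (nat_lit 443) (nat_lit 308) (nat_lit 194)) (XT.lf (nat_lit 0) (nat_lit 12009923182) (nat_lit 84) (nat_lit 11150852245) (nat_lit 168) (nat_lit 40655094755) (nat_lit 7) (nat_lit 5) (nat_lit 8) (nat_lit 5) (nat_lit 9) (nat_lit 4) (nat_lit 444) (nat_lit 308) (nat_lit 193)))) (XT.nd (nat_lit 188) (nat_lit 0) (nat_lit 0) (XT.nd (nat_lit 94) (nat_lit 0) (nat_lit 0) (XT.lf (nat_lit 0) (nat_lit 21011776732) (nat_lit 84) (nat_lit 6600763626) (nat_lit 168) (nat_lit 37970803462) (nat_lit 7) (nat_lit 5) (nat_lit 8) (nat_lit 5) (nat_lit 9) (nat_lit 4) (nat_lit 445) (nat_lit 308) (nat_lit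 192)) (XT.lf (nat_lit 0) (nat_lit 30268160832) (nat_lit 84) (nat_lit 1921023500) (nat_lit 168) (nat_lit 35214922318) (nat_lit 7) (nat_lit 5) (nat_lit 8) (nat_lit 5) (nat_lit 9) (nat_lit 4) (nat_lit 446) (nat_lit 308) (nat_lit 191))) (XT.nd (nat_lit 94) (nat_lit 0) (nat_lit 0) (XT.lf (nat_lit 0) (nat_lit 36922510426) (nat_lit 168) (nat_lit 29520390113) (nat_lit 0) (nat_lit 2836014968) (nat_lit 7) (nat_lit 5) (nat_lit 9) (nat_lit 4) (nat_lit 7) (nat_lit 4) (nat_lit 447) (nat_lit 308) (nat_lit 190)) (XT.lf (nat_lit 0) (nat_lit 41808618271) (nat_lit 168) (nat_lit 21710209320) (nat_lit 0) (nat_lit 7690822071) (nat_lit 7) (nat_lit 5) (nat_lit 9) (nat_lit 4) (nat_lit 7) (nat_lit 4) (nat_lit 448) (nat_lit 308) (nat_lit 189)))))) (XT.nd (nat_lit 48222) (nat_lit 0) (nat_lit 17472) (XT.nd (nat_lit 47846) (nat_lit 0) (nat_lit 20916) (XT.nd (nat_lit 94) (nat_lit 84) (nat_lit 0) (XT.lf (nat_lit 0) (nat_lit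 46833311230) (nat_lit 168) (nat_lit 13680112957) (nat_lit 0) (nat_lit 12685125960) (nat_lit 7) (nat_lit 5) (nat_lit 9) (nat_lit 4) (nat_lit 7) (nat_lit 4) (nat_lit 449) (nat_lit 308) (nat_lit 188)) (XT.nd (nat_lit 94) (nat_lit 84) (nat_lit 0) (XT.lf (nat_lit 0) (nat_lit 52000979811) (nat_lit 168) (nat_lit 5423084435) (nat_lit 0) (nat_lit 17823290589) (nat_lit 7) (nat_lit 5) (nat_lit 9) (nat_lit 4) (nat_lit 7) (nat_lit 4) (nat_lit 450) (nat_lit 308) (nat_lit 187)) (XT.lf (nat_lit 0) (nat_lit 3129152154) (nat_lit 84) (nat_lit 54217066623) (nat_lit 84) (nat_lit 20010732788) (nat_lit 6) (nat_lit 4) (nat_lit 7) (nat_lit 5) (nat_lit 7) (nat_lit 4) (nat_lit 451) (nat_lit 308) (nat_lit 186)))) (XT.nd (nat_lit 188) (nat_lit 672) (nat_lit 0) (XT.nd (nat_lit 94) (nat_lit 0) (nat_lit 0) (XT.lf (nat_lit 0) (nat_lit 53254239) (nat_lit 588) (nat_lit 3197315209) (nat_lit 0) (nat_lit 53254239) (nat_lit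 263) (nat_lit 5) (nat_lit 270) (nat_lit 4) (nat_lit 263) (nat_lit 4) (nat_lit 327) (nat_lit 309) (nat_lit 309)) (XT.lf (nat_lit 0) (nat_lit 3030240091) (nat_lit 588) (nat_lit 2720323337) (nat_lit 0) (nat_lit 885978475) (nat_lit 263) (nat_lit 5) (nat_lit 270) (nat_lit 4) (nat_lit 263) (nat_lit 4) (nat_lit 328) (nat_lit 309) (nat_lit 308))) (XT.nd (nat_lit 94) (nat_lit 84) (nat_lit 0) (XT.lf (nat_lit 0) (nat_lit 1009203347) (nat_lit 588) (nat_lit 4943074917) (nat_lit 588) (nat_lit 717005907) (nat_lit 256) (nat_lit 4) (nat_lit 263) (nat_lit 5) (nat_lit 263) (nat_lit 4) (nat_lit 329) (nat_lit 309) (nat_lit 307)) (XT.lf (nat_lit 0) (nat_lit 2144455150) (nat_lit 672) (nat_lit 1893997280) (nat_lit 84) (nat_lit 2666299429) (nat_lit 255) (nat_lit 5) (nat_lit 263) (nat_lit 5) (nat_lit 256) (nat_lit 4) (nat_lit 330) (nat_lit 309) (nat_lit 306))))) (XT.nd (nat_lit 282) (nat_lit 1932) (nat_lit 0) (XT.nd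 (nat_lit 94) (nat_lit 840) (nat_lit 0) (XT.lf (nat_lit 0) (nat_lit 1941876401) (nat_lit 672) (nat_lit 3058823486) (nat_lit 756) (nat_lit 1742943585) (nat_lit 247) (nat_lit 5) (nat_lit 255) (nat_lit 5) (nat_lit 256) (nat_lit 4) (nat_lit 331) (nat_lit 309) (nat_lit 305)) (XT.nd (nat_lit 94) (nat_lit 756) (nat_lit 0) (XT.lf (nat_lit 0) (nat_lit 1061203203) (nat_lit 756) (nat_lit 938204319) (nat_lit 84) (nat_lit 4786471160) (nat_lit 246) (nat_lit 5) (nat_lit 255) (nat_lit 5) (nat_lit 247) (nat_lit 5) (nat_lit 332) (nat_lit 309) (nat_lit 304)) (XT.lf (nat_lit 0) (nat_lit 3009533411) (nat_lit 756) (nat_lit 842162270) (nat_lit 840) (nat_lit 2979300172) (nat_lit 237) (nat_lit 5) (nat_lit 246) (nat_lit 5) (nat_lit 247) (nat_lit 5) (nat_lit 333) (nat_lit 309) (nat_lit 303)))) (XT.nd (nat_lit 188) (nat_lit 1008) (nat_lit 0) (XT.nd (nat_lit 94) (nat_lit 84) (nat_lit 0) (XT.lf (nat_lit 0) (nat_lit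 141473854) (nat_lit 840) (nat_lit 6509181540) (nat_lit 924) (nat_lit 229311479) (nat_lit 227) (nat_lit 5) (nat_lit 237) (nat_lit 5) (nat_lit 238) (nat_lit 4) (nat_lit 334) (nat_lit 309) (nat_lit 302)) (XT.lf (nat_lit 0) (nat_lit 2510940731) (nat_lit 924) (nat_lit 2738196458) (nat_lit 84) (nat_lit 1681991260) (nat_lit 226) (nat_lit 5) (nat_lit 237) (nat_lit 5) (nat_lit 227) (nat_lit 5) (nat_lit 335) (nat_lit 309) (nat_lit 301))) (XT.nd (nat_lit 94) (nat_lit 84) (nat_lit 0) (XT.lf (nat_lit 0) (nat_lit 1331215447) (nat_lit 924) (nat_lit 3924209113) (nat_lit 1008) (nat_lit 1730755506) (nat_lit 215) (nat_lit 5) (nat_lit 226) (nat_lit 5) (nat_lit 227) (nat_lit 5) (nat_lit 336) (nat_lit 309) (nat_lit 300)) (XT.lf (nat_lit 0) (nat_lit 961591383) (nat_lit 1008) (nat_lit 1549256344) (nat_lit 84) (nat_lit 4533669906) (nat_lit 214) (nat_lit 5) (nat_lit 226) (nat_lit 5) (nat_lit 215) (nat_lit 5) (nat_lit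 337) (nat_lit 309) (nat_lit 299))))))))
noncomputable def xc72 : XT := (XT.nd (nat_lit 2538) (nat_lit 4032) (nat_lit 0) (XT.nd (nat_lit 1222) (nat_lit 3864) (nat_lit 0) (XT.nd (nat_lit 564) (nat_lit 2520) (nat_lit 0) (XT.nd (nat_lit 282) (nat_lit 2520) (nat_lit 0) (XT.nd (nat_lit 94) (nat_lit 1176) (nat_lit 0) (XT.lf (nat_lit 0) (nat_lit 2640440666) (nat_lit 1008) (nat_lit 1001939947) (nat_lit 1092) (nat_lit 3463640308) (nat_lit 202) (nat_lit 5) (nat_lit 214) (nat_lit 5) (nat_lit 215) (nat_lit 5) (nat_lit 338) (nat_lit 309) (nat_lit 298)) (XT.nd (nat_lit 94) (nat_lit 1176) (nat_lit 0) (XT.lf (nat_lit 0) (nat_lit 6343573471) (nat_lit 1092) (nat_lit 262340111) (nat_lit 84) (nat_lit 565453831) (nat_lit 202) (nat_lit 5) (nat_lit 215) (nat_lit 5) (nat_lit 203) (nat_lit 5) (nat_lit 339) (nat_lit 309) (nat_lit 297)) (XT.lf (nat_lit 0) (nat_lit 1820031554) (nat_lit 1176) (nat_lit 3194605154) (nat_lit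 84) (nat_lit 2224587700) (nat_lit 188) (nat_lit 5) (nat_lit 202) (nat_lit 5) (nat_lit 189) (nat_lit 5) (nat_lit 340) (nat_lit 309) (nat_lit 296)))) (XT.nd (nat_lit 94) (nat_lit 1344) (nat_lit 0) (XT.lf (nat_lit 0) (nat_lit 1116309570) (nat_lit 1176) (nat_lit 3349634782) (nat_lit 1260) (nat_lit 2845048917) (nat_lit 174) (nat_lit 5) (nat_lit 188) (nat_lit 5) (nat_lit 189) (nat_lit 5) (nat_lit 341) (nat_lit 309) (nat_lit 295)) (XT.nd (nat_lit 94) (nat_lit 1344) (nat_lit 0) (XT.lf (nat_lit 0) (nat_lit 5548388299) (nat_lit 1176) (nat_lit 1598557103) (nat_lit 1260) (nat_lit 239473948) (nat_lit 174) (nat_lit 5) (nat_lit 188) (nat_lit 5) (nat_lit 189) (nat_lit 5) (nat_lit 342) (nat_lit 309) (nat_lit 294)) (XT.lf (nat_lit 0) (nat_lit 2348847423) (nat_lit 1344) (nat_lit 4864084636) (nat_lit 84) (nat_lit 252068419) (nat_lit 158) (nat_lit 5) (nat_lit 174) (nat_lit 5) (nat_lit 159) (nat_lit 5) (nat_lit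 343) (nat_lit 309) (nat_lit 293))))) (XT.nd (nat_lit 282) (nat_lit 1260) (nat_lit 0) (XT.nd (nat_lit 94) (nat_lit 1260) (nat_lit 0) (XT.lf (nat_lit 0) (nat_lit 4970861903) (nat_lit 1344) (nat_lit 427889744) (nat_lit 84) (nat_lit 2148451151) (nat_lit 158) (nat_lit 5) (nat_lit 174) (nat_lit 5) (nat_lit 159) (nat_lit 5) (nat_lit 344) (nat_lit 309) (nat_lit 292)) (XT.nd (nat_lit 94) (nat_lit 588) (nat_lit 0) (XT.lf (nat_lit 0) (nat_lit 6746780) (nat_lit 672) (nat_lit 3483331534) (nat_lit 84) (nat_lit 4142897152) (nat_lit 150) (nat_lit 5) (nat_lit 158) (nat_lit 5) (nat_lit 151) (nat_lit 5) (nat_lit 345) (nat_lit 309) (nat_lit 291)) (XT.lf (nat_lit 0) (nat_lit 1073986672) (nat_lit 588) (nat_lit 1485227805) (nat_lit 672) (nat_lit 5163178471) (nat_lit 143) (nat_lit 5) (nat_lit 150) (nat_lit 5) (nat_lit 151) (nat_lit 5) (nat_lit 346) (nat_lit 309) (nat_lit 290)))) (XT.nd (nat_lit 188) (nat_lit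 672) (nat_lit 0) (XT.nd (nat_lit 94) (nat_lit 588) (nat_lit 0) (XT.lf (nat_lit 0) (nat_lit 5159672969) (nat_lit 672) (nat_lit 2054914006) (nat_lit 84) (nat_lit 600906157) (nat_lit 143) (nat_lit 5) (nat_lit 151) (nat_lit 5) (nat_lit 144) (nat_lit 5) (nat_lit 347) (nat_lit 309) (nat_lit 289)) (XT.lf (nat_lit 0) (nat_lit 2640401301) (nat_lit 588) (nat_lit 5170180382) (nat_lit 672) (nat_lit 101770072) (nat_lit 136) (nat_lit 5) (nat_lit 143) (nat_lit 5) (nat_lit 144) (nat_lit 5) (nat_lit 348) (nat_lit 309) (nat_lit 288))) (XT.nd (nat_lit 94) (nat_lit 588) (nat_lit 0) (XT.lf (nat_lit 0) (nat_lit 2433348115) (nat_lit 672) (nat_lit 590862363) (nat_lit 84) (nat_lit 4988693115) (nat_lit 135) (nat_lit 5) (nat_lit 143) (nat_lit 5) (nat_lit 136) (nat_lit 5) (nat_lit 349) (nat_lit 309) (nat_lit 287)) (XT.lf (nat_lit 0) (nat_lit 4240996470) (nat_lit 588) (nat_lit 777039629) (nat_lit 672) (nat_lit 3099265578)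 (nat_lit 128) (nat_lit 5) (nat_lit 135) (nat_lit 5) (nat_lit 136) (nat_lit 5) (nat_lit 350) (nat_lit 309) (nat_lit 286)))))) (XT.nd (nat_lit 658) (nat_lit 1764) (nat_lit 0) (XT.nd (nat_lit 282) (nat_lit 1008) (nat_lit 0) (XT.nd (nat_lit 94) (nat_lit 588) (nat_lit 0) (XT.lf (nat_lit 0) (nat_lit 936007133) (nat_lit 504) (nat_lit 6710010016) (nat_lit 588) (nat_lit 579965060) (nat_lit 122) (nat_lit 5) (nat_lit 128) (nat_lit 5) (nat_lit 129) (nat_lit 5) (nat_lit 351) (nat_lit 309) (nat_lit 285)) (XT.nd (nat_lit 94) (nat_lit 504) (nat_lit 0) (XT.lf (nat_lit 0) (nat_lit 1959203785) (nat_lit 588) (nat_lit 2465407926) (nat_lit 84) (nat_lit 3913338174) (nat_lit 121) (nat_lit 5) (nat_lit 128) (nat_lit 5) (nat_lit 122) (nat_lit 5) (nat_lit 352) (nat_lit 309) (nat_lit 284)) (XT.lf (nat_lit 0) (nat_lit 2475232621) (nat_lit 504) (nat_lit 2049688161) (nat_lit 588) (nat_lit 3929435284) (nat_lit 115) (nat_lit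 5) (nat_lit 121) (nat_lit 5) (nat_lit 122) (nat_lit 5) (nat_lit 353) (nat_lit 309) (nat_lit 283)))) (XT.nd (nat_lit 188) (nat_lit 504) (nat_lit 0) (XT.nd (nat_lit 94) (nat_lit 504) (nat_lit 0) (XT.lf (nat_lit 0) (nat_lit 7135825207) (nat_lit 588) (nat_lit 1035291942) (nat_lit 84) (nat_lit 404200159) (nat_lit 115) (nat_lit 5) (nat_lit 122) (nat_lit 5) (nat_lit 116) (nat_lit 5) (nat_lit 354) (nat_lit 309) (nat_lit 282)) (XT.lf (nat_lit 0) (nat_lit 1103302442) (nat_lit 504) (nat_lit 4665575989) (nat_lit 84) (nat_lit 2930804302) (nat_lit 109) (nat_lit 5) (nat_lit 115) (nat_lit 5) (nat_lit 110) (nat_lit 5) (nat_lit 355) (nat_lit 309) (nat_lit 281))) (XT.nd (nat_lit 94) (nat_lit 0) (nat_lit 0) (XT.lf (nat_lit 0) (nat_lit 371408514) (nat_lit 504) (nat_lit 3277573871) (nat_lit 588) (nat_lit 5179803219) (nat_lit 103) (nat_lit 5) (nat_lit 109) (nat_lit 5) (nat_lit 110) (nat_lit 5) (nat_lit 356)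 (nat_lit 309) (nat_lit 280)) (XT.lf (nat_lit 0) (nat_lit 5585009199) (nat_lit 504) (nat_lit 675574953) (nat_lit 588) (nat_lit 2701588025) (nat_lit 103) (nat_lit 5) (nat_lit 109) (nat_lit 5) (nat_lit 110) (nat_lit 5) (nat_lit 357) (nat_lit 309) (nat_lit 279))))) (XT.nd (nat_lit 282) (nat_lit 840) (nat_lit 0) (XT.nd (nat_lit 94) (nat_lit 504) (nat_lit 0) (XT.lf (nat_lit 0) (nat_lit 1801601019) (nat_lit 420) (nat_lit 7129516862) (nat_lit 504) (nat_lit 169119280) (nat_lit 98) (nat_lit 5) (nat_lit 103) (nat_lit 5) (nat_lit 104) (nat_lit 5) (nat_lit 358) (nat_lit 309) (nat_lit 278)) (XT.nd (nat_lit 94) (nat_lit 420) (nat_lit 0) (XT.lf (nat_lit 0) (nat_lit 2377182859) (nat_lit 504) (nat_lit 2137196353) (nat_lit 84) (nat_lit 4727886568) (nat_lit 97) (nat_lit 5) (nat_lit 103) (nat_lit 5) (nat_lit 98) (nat_lit 5) (nat_lit 359) (nat_lit 309) (nat_lit 277)) (XT.lf (nat_lit 0) (nat_lit 3171080680)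 (nat_lit 420) (nat_lit 1801828159) (nat_lit 504) (nat_lit 4416389495) (nat_lit 92) (nat_lit 5) (nat_lit 97) (nat_lit 5) (nat_lit 98) (nat_lit 5) (nat_lit 360) (nat_lit 309) (nat_lit 276)))) (XT.nd (nat_lit 188) (nat_lit 420) (nat_lit 0) (XT.nd (nat_lit 94) (nat_lit 420) (nat_lit 0) (XT.lf (nat_lit 0) (nat_lit 7624576346) (nat_lit 504) (nat_lit 936509198) (nat_lit 84) (nat_lit 980398036) (nat_lit 92) (nat_lit 5) (nat_lit 98) (nat_lit 5) (nat_lit 93) (nat_lit 5) (nat_lit 361) (nat_lit 309) (nat_lit 275)) (XT.lf (nat_lit 0) (nat_lit 654192037) (nat_lit 420) (nat_lit 5197762470) (nat_lit 84) (nat_lit 3845885335) (nat_lit 87) (nat_lit 5) (nat_lit 92) (nat_lit 5) (nat_lit 88) (nat_lit 5) (nat_lit 362) (nat_lit 309) (nat_lit 274))) (XT.nd (nat_lit 94) (nat_lit 0) (nat_lit 0) (XT.lf (nat_lit 0) (nat_lit 177230039) (nat_lit 420) (nat_lit 3046496627) (nat_lit 504) (nat_lit 6635872536) (nat_lit 82)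 (nat_lit 5) (nat_lit 87) (nat_lit 5) (nat_lit 88) (nat_lit 5) (nat_lit 363) (nat_lit 309) (nat_lit 273)) (XT.lf (nat_lit 0) (nat_lit 5753171814) (nat_lit 420) (nat_lit 119094047) (nat_lit 504) (nat_lit 4153962391) (nat_lit 82) (nat_lit 5) (nat_lit 87) (nat_lit 5) (nat_lit 88) (nat_lit 5) (nat_lit 364) (nat_lit 309) (nat_lit 272))))))) (XT.nd (nat_lit 1316) (nat_lit 1596) (nat_lit 0) (XT.nd (nat_lit 658) (nat_lit 924) (nat_lit 0) (XT.nd (nat_lit 282) (nat_lit 756) (nat_lit 0) (XT.nd (nat_lit 94) (nat_lit 420) (nat_lit 0) (XT.lf (nat_lit 0) (nat_lit 1228370524) (nat_lit 336) (nat_lit 7362290183) (nat_lit 420) (nat_lit 1607555778) (nat_lit 78) (nat_lit 5) (nat_lit 82) (nat_lit 5) (nat_lit 83) (nat_lit 5) (nat_lit 365) (nat_lit 309) (nat_lit 271)) (XT.nd (nat_lit 94) (nat_lit 336) (nat_lit 0) (XT.lf (nat_lit 0) (nat_lit 991195002) (nat_lit 420) (nat_lit 3469690564) (nat_lit 84) (nat_lit 5914381279)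 (nat_lit 77) (nat_lit 5) (nat_lit 82) (nat_lit 5) (nat_lit 78) (nat_lit 5) (nat_lit 366) (nat_lit 309) (nat_lit 270)) (XT.lf (nat_lit 0) (nat_lit 2156895355) (nat_lit 336) (nat_lit 1451870198) (nat_lit 420) (nat_lit 6949256806) (nat_lit 73) (nat_lit 5) (nat_lit 77) (nat_lit 5) (nat_lit 78) (nat_lit 5) (nat_lit 367) (nat_lit 309) (nat_lit 269)))) (XT.nd (nat_lit 188) (nat_lit 420) (nat_lit 0) (XT.nd (nat_lit 94) (nat_lit 336) (nat_lit 0) (XT.lf (nat_lit 0) (nat_lit 6309119982) (nat_lit 420) (nat_lit 2803401655) (nat_lit 84) (nat_lit 1633675434) (nat_lit 73) (nat_lit 5) (nat_lit 78) (nat_lit 5) (nat_lit 74) (nat_lit 5) (nat_lit 368) (nat_lit 309) (nat_lit 268)) (XT.lf (nat_lit 0) (nat_lit 2941776947) (nat_lit 336) (nat_lit 6145765886) (nat_lit 420) (nat_lit 1852624820) (nat_lit 69) (nat_lit 5) (nat_lit 73) (nat_lit 5) (nat_lit 74) (nat_lit 5) (nat_lit 369) (nat_lit 309) (nat_lit 267))) (XT.nd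 (nat_lit 94) (nat_lit 336) (nat_lit 0) (XT.lf (nat_lit 0) (nat_lit 776781177) (nat_lit 420) (nat_lit 2294237986) (nat_lit 84) (nat_lit 8069267160) (nat_lit 68) (nat_lit 5) (nat_lit 73) (nat_lit 5) (nat_lit 69) (nat_lit 5) (nat_lit 370) (nat_lit 309) (nat_lit 266)) (XT.lf (nat_lit 0) (nat_lit 3439371831) (nat_lit 420) (nat_lit 7777099218) (nat_lit 84) (nat_lit 129698136) (nat_lit 64) (nat_lit 5) (nat_lit 69) (nat_lit 5) (nat_lit 65) (nat_lit 5) (nat_lit 371) (nat_lit 309) (nat_lit 265))))) (XT.nd (nat_lit 282) (nat_lit 672) (nat_lit 0) (XT.nd (nat_lit 94) (nat_lit 252) (nat_lit 0) (XT.lf (nat_lit 0) (nat_lit 6192109082) (nat_lit 420) (nat_lit 1995425329) (nat_lit 84) (nat_lit 3370441465) (nat_lit 64) (nat_lit 5) (nat_lit 69) (nat_lit 5) (nat_lit 65) (nat_lit 5) (nat_lit 372) (nat_lit 309) (nat_lit 264)) (XT.nd (nat_lit 94) (nat_lit 0) (nat_lit 0) (XT.lf (nat_lit 0) (nat_lit 3976554817)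 (nat_lit 252) (nat_lit 5046832753) (nat_lit 336) (nat_lit 2752924220) (nat_lit 61) (nat_lit 5) (nat_lit 64) (nat_lit 5) (nat_lit 65) (nat_lit 5) (nat_lit 373) (nat_lit 309) (nat_lit 263)) (XT.lf (nat_lit 0) (nat_lit 10108453263) (nat_lit 252) (nat_lit 1809687968) (nat_lit 336) (nat_lit 83752673) (nat_lit 61) (nat_lit 5) (nat_lit 64) (nat_lit 5) (nat_lit 65) (nat_lit 5) (nat_lit 374) (nat_lit 309) (nat_lit 262)))) (XT.nd (nat_lit 188) (nat_lit 252) (nat_lit 0) (XT.nd (nat_lit 94) (nat_lit 0) (nat_lit 0) (XT.lf (nat_lit 0) (nat_lit 2628007160) (nat_lit 420) (nat_lit 8061784229) (nat_lit 84) (nat_lit 1543296856) (nat_lit 56) (nat_lit 5) (nat_lit 61) (nat_lit 5) (nat_lit 57) (nat_lit 5) (nat_lit 375) (nat_lit 309) (nat_lit 261)) (XT.lf (nat_lit 0) (nat_lit 5416261188) (nat_lit 420) (nat_lit 2092528422) (nat_lit 84) (nat_lit 4962546983) (nat_lit 56) (nat_lit 5) (nat_lit 61) (nat_lit 5) (nat_lit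 57) (nat_lit 5) (nat_lit 376) (nat_lit 309) (nat_lit 260))) (XT.nd (nat_lit 94) (nat_lit 0) (nat_lit 0) (XT.lf (nat_lit 0) (nat_lit 4077357281) (nat_lit 252) (nat_lit 4210774069) (nat_lit 336) (nat_lit 4428648389) (nat_lit 53) (nat_lit 5) (nat_lit 56) (nat_lit 5) (nat_lit 57) (nat_lit 5) (nat_lit 377) (nat_lit 309) (nat_lit 259)) (XT.lf (nat_lit 0) (nat_lit 10417791375) (nat_lit 252) (nat_lit 810861453) (nat_lit 336) (nat_lit 1741503548) (nat_lit 53) (nat_lit 5) (nat_lit 56) (nat_lit 5) (nat_lit 57) (nat_lit 5) (nat_lit 378) (nat_lit 309) (nat_lit 258)))))) (XT.nd (nat_lit 658) (nat_lit 504) (nat_lit 0) (XT.nd (nat_lit 282) (nat_lit 504) (nat_lit 0) (XT.nd (nat_lit 94) (nat_lit 252) (nat_lit 0) (XT.lf (nat_lit 0) (nat_lit 1030239215) (nat_lit 336) (nat_lit 9533554029) (nat_lit 84) (nat_lit 2666367299) (nat_lit 49) (nat_lit 5) (nat_lit 53) (nat_lit 5) (nat_lit 50) (nat_lit 5) (nat_lit 379)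 (nat_lit 309) (nat_lit 257)) (XT.nd (nat_lit 94) (nat_lit 252) (nat_lit 0) (XT.lf (nat_lit 0) (nat_lit 3846651810) (nat_lit 336) (nat_lit 3394344759) (nat_lit 84) (nat_lit 6256596615) (nat_lit 49) (nat_lit 5) (nat_lit 53) (nat_lit 5) (nat_lit 50) (nat_lit 5) (nat_lit 380) (nat_lit 309) (nat_lit 256)) (XT.lf (nat_lit 0) (nat_lit 2930898049) (nat_lit 252) (nat_lit 3808388286) (nat_lit 336) (nat_lit 7034050612) (nat_lit 46) (nat_lit 5) (nat_lit 49) (nat_lit 5) (nat_lit 50) (nat_lit 5) (nat_lit 381) (nat_lit 309) (nat_lit 255)))) (XT.nd (nat_lit 188) (nat_lit 252) (nat_lit 0) (XT.nd (nat_lit 94) (nat_lit 252) (nat_lit 0) (XT.lf (nat_lit 0) (nat_lit 9460686265) (nat_lit 252) (nat_lit 256380600) (nat_lit 336) (nat_lit 4340374011) (nat_lit 46) (nat_lit 5) (nat_lit 49) (nat_lit 5) (nat_lit 50) (nat_lit 5) (nat_lit 382) (nat_lit 309) (nat_lit 254)) (XT.lf (nat_lit 0) (nat_lit 1784310510) (nat_lit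 252) (nat_lit 11014686504) (nat_lit 336) (nat_lit 1550664153) (nat_lit 43) (nat_lit 5) (nat_lit 46) (nat_lit 5) (nat_lit 47) (nat_lit 5) (nat_lit 383) (nat_lit 309) (nat_lit 253))) (XT.nd (nat_lit 94) (nat_lit 168) (nat_lit 0) (XT.lf (nat_lit 0) (nat_lit 1311430014) (nat_lit 336) (nat_lit 6268235999) (nat_lit 84) (nat_lit 7070201039) (nat_lit 42) (nat_lit 5) (nat_lit 46) (nat_lit 5) (nat_lit 43) (nat_lit 5) (nat_lit 384) (nat_lit 309) (nat_lit 252)) (XT.lf (nat_lit 0) (nat_lit 152696253) (nat_lit 168) (nat_lit 4043096761) (nat_lit 252) (nat_lit 10763832849) (nat_lit 40) (nat_lit 5) (nat_lit 42) (nat_lit 5) (nat_lit 43) (nat_lit 5) (nat_lit 385) (nat_lit 309) (nat_lit 251))))) (XT.nd (nat_lit 282) (nat_lit 252) (nat_lit 0) (XT.nd (nat_lit 94) (nat_lit 252) (nat_lit 0) (XT.lf (nat_lit 0) (nat_lit 6842543664) (nat_lit 168) (nat_lit 354030548) (nat_lit 252) (nat_lit 8081240132) (nat_lit 40)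 (nat_lit 5) (nat_lit 42) (nat_lit 5) (nat_lit 43) (nat_lit 5) (nat_lit 386) (nat_lit 309) (nat_lit 250)) (XT.nd (nat_lit 94) (nat_lit 252) (nat_lit 0) (XT.lf (nat_lit 0) (nat_lit 10287889188) (nat_lit 252) (nat_lit 1957099412) (nat_lit 84) (nat_lit 3360577115) (nat_lit 40) (nat_lit 5) (nat_lit 43) (nat_lit 5) (nat_lit 41) (nat_lit 5) (nat_lit 387) (nat_lit 309) (nat_lit 249)) (XT.lf (nat_lit 0) (nat_lit 4754677894) (nat_lit 252) (nat_lit 8734813798) (nat_lit 336) (nat_lit 2453163092) (nat_lit 37) (nat_lit 5) (nat_lit 40) (nat_lit 5) (nat_lit 41) (nat_lit 5) (nat_lit 388) (nat_lit 309) (nat_lit 248)))) (XT.nd (nat_lit 188) (nat_lit 0) (nat_lit 0) (XT.nd (nat_lit 94) (nat_lit 168) (nat_lit 0) (XT.lf (nat_lit 0) (nat_lit 475985391) (nat_lit 336) (nat_lit 4636494577) (nat_lit 84) (nat_lit 11177610831) (nat_lit 36) (nat_lit 5) (nat_lit 40) (nat_lit 5) (nat_lit 37) (nat_lit 5) (nat_lit 389)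 (nat_lit 309) (nat_lit 247)) (XT.lf (nat_lit 0) (nat_lit 2079093492) (nat_lit 168) (nat_lit 1353958228) (nat_lit 252) (nat_lit 13214517943) (nat_lit 34) (nat_lit 5) (nat_lit 36) (nat_lit 5) (nat_lit 37) (nat_lit 5) (nat_lit 390) (nat_lit 309) (nat_lit 246))) (XT.nd (nat_lit 94) (nat_lit 0) (nat_lit 0) (XT.lf (nat_lit 0) (nat_lit 6519930339) (nat_lit 252) (nat_lit 7996840931) (nat_lit 84) (nat_lit 2497796689) (nat_lit 34) (nat_lit 5) (nat_lit 37) (nat_lit 5) (nat_lit 35) (nat_lit 5) (nat_lit 391) (nat_lit 309) (nat_lit 245)) (XT.lf (nat_lit 0) (nat_lit 9683324942) (nat_lit 252) (nat_lit 1289038714) (nat_lit 84) (nat_lit 6420722517) (nat_lit 34) (nat_lit 5) (nat_lit 37) (nat_lit 5) (nat_lit 35) (nat_lit 5) (nat_lit 392) (nat_lit 309) (nat_lit 244))))))))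
noncomputable def xc73 : XT := (XT.nd (nat_lit 2538) (nat_lit 588) (nat_lit 0) (XT.nd (nat_lit 1222) (nat_lit 672) (nat_lit 0) (XT.nd (nat_lit 564) (nat_lit 420) (nat_lit 0) (XT.nd (nat_lit 282) (nat_lit 168) (nat_lit 0) (XT.nd (nat_lit 94) (nat_lit 252) (nat_lit 0) (XT.lf (nat_lit 0) (nat_lit 5684736425) (nat_lit 168) (nat_lit 7282893327) (nat_lit 252) (nat_lit 4814576394) (nat_lit 32) (nat_lit 5) (nat_lit 34) (nat_lit 5) (nat_lit 35) (nat_lit 5) (nat_lit 393) (nat_lit 309) (nat_lit 243)) (XT.nd (nat_lit 94) (nat_lit 252) (nat_lit 0) (XT.lf (nat_lit 0) (nat_lit 12848410873) (nat_lit 168) (nat_lit 3486827221) (nat_lit 252) (nat_lit 1848244085) (nat_lit 32) (nat_lit 5) (nat_lit 34) (nat_lit 5) (nat_lit 35) (nat_lit 5) (nat_lit 394) (nat_lit 309) (nat_lit 242)) (XT.lf (nat_lit 0) (nat_lit 1175404575) (nat_lit 252) (nat_lit 16996077938) (nat_lit 84) (nat_lit 425233677) (nat_lit 29) (nat_lit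 5) (nat_lit 32) (nat_lit 5) (nat_lit 30) (nat_lit 5) (nat_lit 395) (nat_lit 309) (nat_lit 241)))) (XT.nd (nat_lit 94) (nat_lit 168) (nat_lit 0) (XT.lf (nat_lit 0) (nat_lit 4314043027) (nat_lit 252) (nat_lit 10265522929) (nat_lit 84) (nat_lit 4440412948) (nat_lit 29) (nat_lit 5) (nat_lit 32) (nat_lit 5) (nat_lit 30) (nat_lit 5) (nat_lit 396) (nat_lit 309) (nat_lit 240)) (XT.nd (nat_lit 94) (nat_lit 168) (nat_lit 0) (XT.lf (nat_lit 0) (nat_lit 7520139666) (nat_lit 252) (nat_lit 3376953072) (nat_lit 84) (nat_lit 8559670619) (nat_lit 29) (nat_lit 5) (nat_lit 32) (nat_lit 5) (nat_lit 30) (nat_lit 5) (nat_lit 397) (nat_lit 309) (nat_lit 239)) (XT.lf (nat_lit 0) (nat_lit 3748803427) (nat_lit 168) (nat_lit 7083728299) (nat_lit 252) (nat_lit 9073838404) (nat_lit 27) (nat_lit 5) (nat_lit 29) (nat_lit 5) (nat_lit 30) (nat_lit 5) (nat_lit 398) (nat_lit 309) (nat_lit 238))))) (XT.nd (nat_lit 282) (nat_lit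 168) (nat_lit 0) (XT.nd (nat_lit 94) (nat_lit 252) (nat_lit 0) (XT.lf (nat_lit 0) (nat_lit 11115351614) (nat_lit 168) (nat_lit 3137470615) (nat_lit 252) (nat_lit 6116408596) (nat_lit 27) (nat_lit 5) (nat_lit 29) (nat_lit 5) (nat_lit 30) (nat_lit 5) (nat_lit 399) (nat_lit 309) (nat_lit 237)) (XT.nd (nat_lit 94) (nat_lit 252) (nat_lit 0) (XT.lf (nat_lit 0) (nat_lit 17759649751) (nat_lit 252) (nat_lit 2193580170) (nat_lit 84) (nat_lit 893250460) (nat_lit 27) (nat_lit 5) (nat_lit 30) (nat_lit 5) (nat_lit 28) (nat_lit 4) (nat_lit 400) (nat_lit 309) (nat_lit 236)) (XT.lf (nat_lit 0) (nat_lit 89408484) (nat_lit 252) (nat_lit 16230527953) (nat_lit 84) (nat_lit 5016428073) (nat_lit 24) (nat_lit 5) (nat_lit 27) (nat_lit 5) (nat_lit 25) (nat_lit 5) (nat_lit 401) (nat_lit 309) (nat_lit 235)))) (XT.nd (nat_lit 188) (nat_lit 168) (nat_lit 0) (XT.nd (nat_lit 94) (nat_lit 0) (nat_lit 0) (XT.lf (nat_lit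 0) (nat_lit 3297072052) (nat_lit 252) (nat_lit 9242340575) (nat_lit 84) (nat_lit 9300689390) (nat_lit 24) (nat_lit 5) (nat_lit 27) (nat_lit 5) (nat_lit 25) (nat_lit 5) (nat_lit 402) (nat_lit 309) (nat_lit 234)) (XT.lf (nat_lit 0) (nat_lit 6577479453) (nat_lit 252) (nat_lit 2083808518) (nat_lit 84) (nat_lit 13698386820) (nat_lit 24) (nat_lit 5) (nat_lit 27) (nat_lit 5) (nat_lit 25) (nat_lit 5) (nat_lit 403) (nat_lit 309) (nat_lit 233))) (XT.nd (nat_lit 94) (nat_lit 0) (nat_lit 0) (XT.lf (nat_lit 0) (nat_lit 5355834874) (nat_lit 168) (nat_lit 4629145750) (nat_lit 252) (nat_lit 12909011698) (nat_lit 22) (nat_lit 5) (nat_lit 24) (nat_lit 5) (nat_lit 25) (nat_lit 5) (nat_lit 404) (nat_lit 309) (nat_lit 232)) (XT.lf (nat_lit 0) (nat_lit 13023601425) (nat_lit 168) (nat_lit 469646722) (nat_lit 252) (nat_lit 9951152487) (nat_lit 22) (nat_lit 5) (nat_lit 24) (nat_lit 5) (nat_lit 25) (nat_lit 5)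 (nat_lit 405) (nat_lit 309) (nat_lit 231)))))) (XT.nd (nat_lit 658) (nat_lit 336) (nat_lit 0) (XT.nd (nat_lit 282) (nat_lit 252) (nat_lit 0) (XT.nd (nat_lit 94) (nat_lit 84) (nat_lit 0) (XT.lf (nat_lit 0) (nat_lit 17121444020) (nat_lit 252) (nat_lit 3163800318) (nat_lit 84) (nat_lit 3725653435) (nat_lit 22) (nat_lit 5) (nat_lit 25) (nat_lit 5) (nat_lit 23) (nat_lit 4) (nat_lit 406) (nat_lit 309) (nat_lit 230)) (XT.nd (nat_lit 94) (nat_lit 0) (nat_lit 0) (XT.lf (nat_lit 0) (nat_lit 4355114913) (nat_lit 84) (nat_lit 16528536983) (nat_lit 168) (nat_lit 3709999437) (nat_lit 21) (nat_lit 5) (nat_lit 22) (nat_lit 5) (nat_lit 23) (nat_lit 4) (nat_lit 407) (nat_lit 309) (nat_lit 229)) (XT.lf (nat_lit 0) (nat_lit 12128678962) (nat_lit 84) (nat_lit 12640925265) (nat_lit 168) (nat_lit 423972938) (nat_lit 21) (nat_lit 5) (nat_lit 22) (nat_lit 5) (nat_lit 23) (nat_lit 4) (nat_lit 408) (nat_lit 309)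 (nat_lit 228)))) (XT.nd (nat_lit 188) (nat_lit 0) (nat_lit 0) (XT.nd (nat_lit 94) (nat_lit 168) (nat_lit 0) (XT.lf (nat_lit 0) (nat_lit 2882187663) (nat_lit 168) (nat_lit 5739668313) (nat_lit 84) (nat_lit 17189426325) (nat_lit 20) (nat_lit 5) (nat_lit 22) (nat_lit 5) (nat_lit 21) (nat_lit 5) (nat_lit 409) (nat_lit 309) (nat_lit 227)) (XT.lf (nat_lit 0) (nat_lit 1802153195) (nat_lit 168) (nat_lit 4474109954) (nat_lit 252) (nat_lit 20171226618) (nat_lit 18) (nat_lit 5) (nat_lit 20) (nat_lit 5) (nat_lit 21) (nat_lit 5) (nat_lit 410) (nat_lit 309) (nat_lit 226))) (XT.nd (nat_lit 94) (nat_lit 0) (nat_lit 0) (XT.lf (nat_lit 0) (nat_lit 9654087546) (nat_lit 168) (nat_lit 156220573) (nat_lit 252) (nat_lit 17291345146) (nat_lit 18) (nat_lit 5) (nat_lit 20) (nat_lit 5) (nat_lit 21) (nat_lit 5) (nat_lit 411) (nat_lit 309) (nat_lit 225)) (XT.lf (nat_lit 0) (nat_lit 13472258469) (nat_lit 252) (nat_lit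 10108386692) (nat_lit 84) (nat_lit 4194153797) (nat_lit 18) (nat_lit 5) (nat_lit 21) (nat_lit 5) (nat_lit 19) (nat_lit 4) (nat_lit 412) (nat_lit 309) (nat_lit 224))))) (XT.nd (nat_lit 282) (nat_lit 252) (nat_lit 0) (XT.nd (nat_lit 94) (nat_lit 84) (nat_lit 0) (XT.lf (nat_lit 0) (nat_lit 17226812455) (nat_lit 252) (nat_lit 2582885106) (nat_lit 84) (nat_lit 8658972517) (nat_lit 18) (nat_lit 5) (nat_lit 21) (nat_lit 5) (nat_lit 19) (nat_lit 4) (nat_lit 413) (nat_lit 309) (nat_lit 223)) (XT.nd (nat_lit 94) (nat_lit 0) (nat_lit 0) (XT.lf (nat_lit 0) (nat_lit 5239253104) (nat_lit 84) (nat_lit 15886858869) (nat_lit 168) (nat_lit 8056295108) (nat_lit 17) (nat_lit 5) (nat_lit 18) (nat_lit 5) (nat_lit 19) (nat_lit 4) (nat_lit 414) (nat_lit 309) (nat_lit 222)) (XT.lf (nat_lit 0) (nat_lit 13317944454) (nat_lit 84) (nat_lit 11832507230) (nat_lit 168) (nat_lit 4766875314) (nat_lit 17) (nat_lit 5) (nat_lit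 18) (nat_lit 5) (nat_lit 19) (nat_lit 4) (nat_lit 415) (nat_lit 309) (nat_lit 221)))) (XT.nd (nat_lit 188) (nat_lit 168) (nat_lit 0) (XT.nd (nat_lit 94) (nat_lit 84) (nat_lit 0) (XT.lf (nat_lit 0) (nat_lit 21608843515) (nat_lit 84) (nat_lit 7669182083) (nat_lit 168) (nat_lit 1396806065) (nat_lit 17) (nat_lit 5) (nat_lit 18) (nat_lit 5) (nat_lit 19) (nat_lit 4) (nat_lit 416) (nat_lit 309) (nat_lit 220)) (XT.lf (nat_lit 0) (nat_lit 2016720663) (nat_lit 168) (nat_lit 1356159983) (nat_lit 84) (nat_lit 28082109175) (nat_lit 16) (nat_lit 5) (nat_lit 18) (nat_lit 5) (nat_lit 17) (nat_lit 5) (nat_lit 417) (nat_lit 309) (nat_lit 219))) (XT.nd (nat_lit 94) (nat_lit 0) (nat_lit 0) (XT.lf (nat_lit 0) (nat_lit 5562824499) (nat_lit 252) (nat_lit 25594921777) (nat_lit 84) (nat_lit 1098655411) (nat_lit 14) (nat_lit 5) (nat_lit 17) (nat_lit 5) (nat_lit 15) (nat_lit 4) (nat_lit 418) (nat_lit 309) (nat_lit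 218)) (XT.lf (nat_lit 0) (nat_lit 9245966188) (nat_lit 252) (nat_lit 18196398520) (nat_lit 84) (nat_lit 5638582463) (nat_lit 14) (nat_lit 5) (nat_lit 17) (nat_lit 5) (nat_lit 15) (nat_lit 4) (nat_lit 419) (nat_lit 309) (nat_lit 217))))))) (XT.nd (nat_lit 1316) (nat_lit 252) (nat_lit 0) (XT.nd (nat_lit 658) (nat_lit 168) (nat_lit 0) (XT.nd (nat_lit 282) (nat_lit 84) (nat_lit 0) (XT.nd (nat_lit 94) (nat_lit 84) (nat_lit 0) (XT.lf (nat_lit 0) (nat_lit 13023514489) (nat_lit 252) (nat_lit 10603950585) (nat_lit 84) (nat_lit 10303257159) (nat_lit 14) (nat_lit 5) (nat_lit 17) (nat_lit 5) (nat_lit 15) (nat_lit 4) (nat_lit 420) (nat_lit 309) (nat_lit 216)) (XT.nd (nat_lit 94) (nat_lit 84) (nat_lit 0) (XT.lf (nat_lit 0) (nat_lit 16898770174) (nat_lit 252) (nat_lit 2810943794) (nat_lit 84) (nat_lit 15096755427) (nat_lit 14) (nat_lit 5) (nat_lit 17) (nat_lit 5) (nat_lit 15) (nat_lit 4) (nat_lit 421)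 (nat_lit 309) (nat_lit 215)) (XT.lf (nat_lit 0) (nat_lit 5292711132) (nat_lit 84) (nat_lit 15633285033) (nat_lit 168) (nat_lit 14781431406) (nat_lit 13) (nat_lit 5) (nat_lit 14) (nat_lit 5) (nat_lit 15) (nat_lit 4) (nat_lit 422) (nat_lit 309) (nat_lit 214)))) (XT.nd (nat_lit 188) (nat_lit 84) (nat_lit 0) (XT.nd (nat_lit 94) (nat_lit 0) (nat_lit 0) (XT.lf (nat_lit 0) (nat_lit 13670934412) (nat_lit 84) (nat_lit 11416515583) (nat_lit 168) (nat_lit 11547571852) (nat_lit 13) (nat_lit 5) (nat_lit 14) (nat_lit 5) (nat_lit 15) (nat_lit 4) (nat_lit 423) (nat_lit 309) (nat_lit 213)) (XT.lf (nat_lit 0) (nat_lit 22275103531) (nat_lit 84) (nat_lit 7084106083) (nat_lit 168) (nat_lit 8231679878) (nat_lit 13) (nat_lit 5) (nat_lit 14) (nat_lit 5) (nat_lit 15) (nat_lit 4) (nat_lit 424) (nat_lit 309) (nat_lit 212))) (XT.nd (nat_lit 94) (nat_lit 84) (nat_lit 0) (XT.lf (nat_lit 0) (nat_lit 31112736693) (nat_lit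 84) (nat_lit 2632270933) (nat_lit 168) (nat_lit 4830858101) (nat_lit 13) (nat_lit 5) (nat_lit 14) (nat_lit 5) (nat_lit 15) (nat_lit 4) (nat_lit 425) (nat_lit 309) (nat_lit 211)) (XT.lf (nat_lit 0) (nat_lit 593653048) (nat_lit 84) (nat_lit 37679405942) (nat_lit 84) (nat_lit 1317020743) (nat_lit 12) (nat_lit 4) (nat_lit 13) (nat_lit 5) (nat_lit 13) (nat_lit 4) (nat_lit 426) (nat_lit 309) (nat_lit 210))))) (XT.nd (nat_lit 282) (nat_lit 84) (nat_lit 0) (XT.nd (nat_lit 94) (nat_lit 0) (nat_lit 0) (XT.lf (nat_lit 0) (nat_lit 2345704043) (nat_lit 168) (nat_lit 31660581449) (nat_lit 84) (nat_lit 6625127194) (nat_lit 11) (nat_lit 5) (nat_lit 13) (nat_lit 5) (nat_lit 12) (nat_lit 4) (nat_lit 427) (nat_lit 309) (nat_lit 209)) (XT.nd (nat_lit 94) (nat_lit 0) (nat_lit 0) (XT.lf (nat_lit 0) (nat_lit 6078466864) (nat_lit 168) (nat_lit 24141301525) (nat_lit 84) (nat_lit 11484235345) (nat_lit 11) (nat_lit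 5) (nat_lit 13) (nat_lit 5) (nat_lit 12) (nat_lit 4) (nat_lit 428) (nat_lit 309) (nat_lit 208)) (XT.lf (nat_lit 0) (nat_lit 9910229174) (nat_lit 168) (nat_lit 16419356658) (nat_lit 84) (nat_lit 16479584059) (nat_lit 11) (nat_lit 5) (nat_lit 13) (nat_lit 5) (nat_lit 12) (nat_lit 4) (nat_lit 429) (nat_lit 309) (nat_lit 207)))) (XT.nd (nat_lit 188) (nat_lit 84) (nat_lit 0) (XT.nd (nat_lit 94) (nat_lit 0) (nat_lit 0) (XT.lf (nat_lit 0) (nat_lit 13844339115) (nat_lit 168) (nat_lit 8487999519) (nat_lit 84) (nat_lit 21615538203) (nat_lit 11) (nat_lit 5) (nat_lit 13) (nat_lit 5) (nat_lit 12) (nat_lit 4) (nat_lit 430) (nat_lit 309) (nat_lit 206)) (XT.lf (nat_lit 0) (nat_lit 17884234259) (nat_lit 168) (nat_lit 340299795) (nat_lit 84) (nat_lit 26896585503) (nat_lit 11) (nat_lit 5) (nat_lit 13) (nat_lit 5) (nat_lit 12) (nat_lit 4) (nat_lit 431) (nat_lit 309) (nat_lit 205))) (XT.nd (nat_lit 94) (nat_lit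 0) (nat_lit 0) (XT.lf (nat_lit 0) (nat_lit 8190691759) (nat_lit 84) (nat_lit 13921486791) (nat_lit 168) (nat_lit 24215382648) (nat_lit 10) (nat_lit 5) (nat_lit 11) (nat_lit 5) (nat_lit 12) (nat_lit 4) (nat_lit 432) (nat_lit 309) (nat_lit 204)) (XT.lf (nat_lit 0) (nat_lit 16963825395) (nat_lit 84) (nat_lit 9494836968) (nat_lit 168) (nat_lit 21111789690) (nat_lit 10) (nat_lit 5) (nat_lit 11) (nat_lit 5) (nat_lit 12) (nat_lit 4) (nat_lit 433) (nat_lit 309) (nat_lit 203)))))) (XT.nd (nat_lit 658) (nat_lit 84) (nat_lit 0) (XT.nd (nat_lit 282) (nat_lit 168) (nat_lit 0) (XT.nd (nat_lit 94) (nat_lit 0) (nat_lit 0) (XT.lf (nat_lit 0) (nat_lit 25979994322) (nat_lit 84) (nat_lit 4944152998) (nat_lit 168) (nat_lit 17926830906) (nat_lit 10) (nat_lit 5) (nat_lit 11) (nat_lit 5) (nat_lit 12) (nat_lit 4) (nat_lit 434) (nat_lit 309) (nat_lit 202)) (XT.nd (nat_lit 94) (nat_lit 0) (nat_lit 0) (XT.lf (nat_lit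 0) (nat_lit 35247076747) (nat_lit 84) (nat_lit 265458557) (nat_lit 168) (nat_lit 14657723324) (nat_lit 10) (nat_lit 5) (nat_lit 11) (nat_lit 5) (nat_lit 12) (nat_lit 4) (nat_lit 435) (nat_lit 309) (nat_lit 201)) (XT.lf (nat_lit 0) (nat_lit 40271528121) (nat_lit 168) (nat_lit 6799968442) (nat_lit 0) (nat_lit 4456638687) (nat_lit 10) (nat_lit 5) (nat_lit 12) (nat_lit 4) (nat_lit 10) (nat_lit 4) (nat_lit 436) (nat_lit 309) (nat_lit 200)))) (XT.nd (nat_lit 188) (nat_lit 84) (nat_lit 0) (XT.nd (nat_lit 94) (nat_lit 0) (nat_lit 0) (XT.lf (nat_lit 0) (nat_lit 1576384040) (nat_lit 84) (nat_lit 43604184497) (nat_lit 84) (nat_lit 7745967516) (nat_lit 9) (nat_lit 4) (nat_lit 10) (nat_lit 5) (nat_lit 10) (nat_lit 4) (nat_lit 437) (nat_lit 309) (nat_lit 199)) (XT.lf (nat_lit 0) (nat_lit 10324913030) (nat_lit 84) (nat_lit 39970257863) (nat_lit 84) (nat_lit 4069975301) (nat_lit 9) (nat_lit 4) (nat_lit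 10) (nat_lit 5) (nat_lit 10) (nat_lit 4) (nat_lit 438) (nat_lit 309) (nat_lit 198))) (XT.nd (nat_lit 94) (nat_lit 84) (nat_lit 0) (XT.lf (nat_lit 0) (nat_lit 19317930169) (nat_lit 84) (nat_lit 36235207733) (nat_lit 84) (nat_lit 294084802) (nat_lit 9) (nat_lit 4) (nat_lit 10) (nat_lit 5) (nat_lit 10) (nat_lit 4) (nat_lit 439) (nat_lit 309) (nat_lit 197)) (XT.lf (nat_lit 0) (nat_lit 3515046976) (nat_lit 168) (nat_lit 28845228413) (nat_lit 84) (nat_lit 25012751374) (nat_lit 8) (nat_lit 5) (nat_lit 10) (nat_lit 5) (nat_lit 9) (nat_lit 4) (nat_lit 440) (nat_lit 309) (nat_lit 196))))) (XT.nd (nat_lit 282) (nat_lit 84) (nat_lit 0) (XT.nd (nat_lit 94) (nat_lit 0) (nat_lit 0) (XT.lf (nat_lit 0) (nat_lit 7422947304) (nat_lit 168) (nat_lit 20950686712) (nat_lit 84) (nat_lit 30571176776) (nat_lit 8) (nat_lit 5) (nat_lit 10) (nat_lit 5) (nat_lit 9) (nat_lit 4) (nat_lit 441) (nat_lit 309) (nat_lit 195))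 (XT.nd (nat_lit 94) (nat_lit 0) (nat_lit 0) (XT.lf (nat_lit 0) (nat_lit 11438769505) (nat_lit 168) (nat_lit 12835942367) (nat_lit 84) (nat_lit 36289321131) (nat_lit 8) (nat_lit 5) (nat_lit 10) (nat_lit 5) (nat_lit 9) (nat_lit 4) (nat_lit 442) (nat_lit 309) (nat_lit 194)) (XT.lf (nat_lit 0) (nat_lit 15566022550) (nat_lit 168) (nat_lit 4493904824) (nat_lit 84) (nat_lit 42172180876) (nat_lit 8) (nat_lit 5) (nat_lit 10) (nat_lit 5) (nat_lit 9) (nat_lit 4) (nat_lit 443) (nat_lit 309) (nat_lit 193)))) (XT.nd (nat_lit 188) (nat_lit 0) (nat_lit 0) (XT.nd (nat_lit 94) (nat_lit 0) (nat_lit 0) (XT.lf (nat_lit 0) (nat_lit 4163969109) (nat_lit 84) (nat_lit 15684370286) (nat_lit 168) (nat_lit 44100953882) (nat_lit 7) (nat_lit 5) (nat_lit 8) (nat_lit 5) (nat_lit 9) (nat_lit 4) (nat_lit 444) (nat_lit 309) (nat_lit 192)) (XT.lf (nat_lit 0) (nat_lit 13158174848) (nat_lit 84) (nat_lit 11137656619) (nat_lit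 168) (nat_lit 41421065982) (nat_lit 7) (nat_lit 5) (nat_lit 8) (nat_lit 5) (nat_lit 9) (nat_lit 4) (nat_lit 445) (nat_lit 309) (nat_lit 191))) (XT.nd (nat_lit 94) (nat_lit 0) (nat_lit 0) (XT.lf (nat_lit 0) (nat_lit 22407133889) (nat_lit 84) (nat_lit 6461193143) (nat_lit 168) (nat_lit 38669459977) (nat_lit 7) (nat_lit 5) (nat_lit 8) (nat_lit 5) (nat_lit 9) (nat_lit 4) (nat_lit 446) (nat_lit 309) (nat_lit 190)) (XT.lf (nat_lit 0) (nat_lit 31918927846) (nat_lit 84) (nat_lit 1650893630) (nat_lit 168) (nat_lit 35843731552) (nat_lit 7) (nat_lit 5) (nat_lit 8) (nat_lit 5) (nat_lit 9) (nat_lit 4) (nat_lit 447) (nat_lit 309) (nat_lit 189))))))))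
noncomputable def xc74 : XT := (XT.nd (nat_lit 49914) (nat_lit 0) (nat_lit 4116) (XT.nd (nat_lit 48598) (nat_lit 0) (nat_lit 11424) (XT.nd (nat_lit 47940) (nat_lit 0) (nat_lit 19320) (XT.nd (nat_lit 282) (nat_lit 0) (nat_lit 0) (XT.nd (nat_lit 94) (nat_lit 0) (nat_lit 0) (XT.lf (nat_lit 0) (nat_lit 38436119962) (nat_lit 168) (nat_lit 29675663589) (nat_lit 0) (nat_lit 3233100063) (nat_lit 7) (nat_lit 5) (nat_lit 9) (nat_lit 4) (nat_lit 7) (nat_lit 4) (nat_lit 448) (nat_lit 309) (nat_lit 188)) (XT.nd (nat_lit 94) (nat_lit 0) (nat_lit 0) (XT.lf (nat_lit 0) (nat_lit 43456987715) (nat_lit 168) (nat_lit 21652449359) (nat_lit 0) (nat_lit 8224463865) (nat_lit 7) (nat_lit 5) (nat_lit 9) (nat_lit 4) (nat_lit 7) (nat_lit 4) (nat_lit 449) (nat_lit 309) (nat_lit 187)) (XT.lf (nat_lit 0) (nat_lit 48620942505) (nat_lit 168) (nat_lit 13402102520) (nat_lit 0) (nat_lit 13359774042) (nat_lit 7) (nat_lit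 5) (nat_lit 9) (nat_lit 4) (nat_lit 7) (nat_lit 4) (nat_lit 450) (nat_lit 309) (nat_lit 186)))) (XT.nd (nat_lit 47470) (nat_lit 0) (nat_lit 22092) (XT.lf (nat_lit 0) (nat_lit 53932496524) (nat_lit 168) (nat_lit 4917414030) (nat_lit 0) (nat_lit 18643517756) (nat_lit 7) (nat_lit 5) (nat_lit 9) (nat_lit 4) (nat_lit 7) (nat_lit 4) (nat_lit 451) (nat_lit 309) (nat_lit 185)) (XT.nd (nat_lit 94) (nat_lit 420) (nat_lit 0) (XT.lf (nat_lit 0) (nat_lit 1535016924) (nat_lit 420) (nat_lit 208095270) (nat_lit 0) (nat_lit 1535016924) (nat_lit 275) (nat_lit 5) (nat_lit 280) (nat_lit 4) (nat_lit 275) (nat_lit 4) (nat_lit 325) (nat_lit 310) (nat_lit 310)) (XT.lf (nat_lit 0) (nat_lit 3160969410) (nat_lit 420) (nat_lit 2847371039) (nat_lit 420) (nat_lit 572523890) (nat_lit 270) (nat_lit 4) (nat_lit 275) (nat_lit 5) (nat_lit 275) (nat_lit 4) (nat_lit 326) (nat_lit 310) (nat_lit 309))))) (XT.nd (nat_lit 282)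 (nat_lit 1512) (nat_lit 0) (XT.nd (nat_lit 94) (nat_lit 672) (nat_lit 0) (XT.lf (nat_lit 0) (nat_lit 155688614) (nat_lit 504) (nat_lit 2129594748) (nat_lit 588) (nat_lit 4323410029) (nat_lit 263) (nat_lit 5) (nat_lit 269) (nat_lit 5) (nat_lit 270) (nat_lit 4) (nat_lit 327) (nat_lit 310) (nat_lit 308)) (XT.nd (nat_lit 94) (nat_lit 672) (nat_lit 0) (XT.lf (nat_lit 0) (nat_lit 3831711394) (nat_lit 504) (nat_lit 1320707139) (nat_lit 588) (nat_lit 1487014444) (nat_lit 263) (nat_lit 5) (nat_lit 269) (nat_lit 5) (nat_lit 270) (nat_lit 4) (nat_lit 328) (nat_lit 310) (nat_lit 307)) (XT.lf (nat_lit 0) (nat_lit 878977596) (nat_lit 588) (nat_lit 438229985) (nat_lit 672) (nat_lit 5356433305) (nat_lit 255) (nat_lit 5) (nat_lit 262) (nat_lit 5) (nat_lit 263) (nat_lit 5) (nat_lit 329) (nat_lit 310) (nat_lit 306)))) (XT.nd (nat_lit 188) (nat_lit 756) (nat_lit 0) (XT.nd (nat_lit 94) (nat_lit 756) (nat_lit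 0) (XT.lf (nat_lit 0) (nat_lit 4113511265) (nat_lit 672) (nat_lit 2067705965) (nat_lit 84) (nat_lit 529354231) (nat_lit 255) (nat_lit 5) (nat_lit 263) (nat_lit 5) (nat_lit 256) (nat_lit 4) (nat_lit 330) (nat_lit 310) (nat_lit 305)) (XT.lf (nat_lit 0) (nat_lit 167758542) (nat_lit 756) (nat_lit 5024046157) (nat_lit 84) (nat_lit 1559168862) (nat_lit 246) (nat_lit 5) (nat_lit 255) (nat_lit 5) (nat_lit 247) (nat_lit 5) (nat_lit 331) (nat_lit 310) (nat_lit 304))) (XT.nd (nat_lit 94) (nat_lit 756) (nat_lit 0) (XT.lf (nat_lit 0) (nat_lit 2892733264) (nat_lit 756) (nat_lit 1213297681) (nat_lit 84) (nat_lit 2688153276) (nat_lit 246) (nat_lit 5) (nat_lit 255) (nat_lit 5) (nat_lit 247) (nat_lit 5) (nat_lit 332) (nat_lit 310) (nat_lit 303)) (XT.lf (nat_lit 0) (nat_lit 2693258645) (nat_lit 756) (nat_lit 2943081278) (nat_lit 840) (nat_lit 1204487702) (nat_lit 237) (nat_lit 5) (nat_lit 246) (nat_lit 5)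 (nat_lit 247) (nat_lit 5) (nat_lit 333) (nat_lit 310) (nat_lit 302)))))) (XT.nd (nat_lit 658) (nat_lit 3780) (nat_lit 0) (XT.nd (nat_lit 282) (nat_lit 2268) (nat_lit 0) (XT.nd (nat_lit 94) (nat_lit 1764) (nat_lit 0) (XT.lf (nat_lit 0) (nat_lit 1466871176) (nat_lit 840) (nat_lit 234222357) (nat_lit 84) (nat_lit 5189826358) (nat_lit 236) (nat_lit 5) (nat_lit 246) (nat_lit 5) (nat_lit 237) (nat_lit 5) (nat_lit 334) (nat_lit 310) (nat_lit 301)) (XT.nd (nat_lit 94) (nat_lit 924) (nat_lit 0) (XT.lf (nat_lit 0) (nat_lit 3788272351) (nat_lit 840) (nat_lit 356689011) (nat_lit 924) (nat_lit 2798894102) (nat_lit 226) (nat_lit 5) (nat_lit 236) (nat_lit 5) (nat_lit 237) (nat_lit 5) (nat_lit 335) (nat_lit 310) (nat_lit 300)) (XT.lf (nat_lit 0) (nat_lit 872630470) (nat_lit 924) (nat_lit 5967769013) (nat_lit 1008) (nat_lit 160085283) (nat_lit 215) (nat_lit 5) (nat_lit 226) (nat_lit 5) (nat_lit 227) (nat_lit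 5) (nat_lit 336) (nat_lit 310) (nat_lit 299)))) (XT.nd (nat_lit 188) (nat_lit 1176) (nat_lit 0) (XT.nd (nat_lit 94) (nat_lit 1008) (nat_lit 0) (XT.lf (nat_lit 0) (nat_lit 2460763342) (nat_lit 1008) (nat_lit 2073486051) (nat_lit 84) (nat_lit 2525445670) (nat_lit 214) (nat_lit 5) (nat_lit 226) (nat_lit 5) (nat_lit 215) (nat_lit 5) (nat_lit 337) (nat_lit 310) (nat_lit 298)) (XT.lf (nat_lit 0) (nat_lit 2069891284) (nat_lit 1008) (nat_lit 3026517758) (nat_lit 1092) (nat_lit 2026240908) (nat_lit 202) (nat_lit 5) (nat_lit 214) (nat_lit 5) (nat_lit 215) (nat_lit 5) (nat_lit 338) (nat_lit 310) (nat_lit 297))) (XT.nd (nat_lit 94) (nat_lit 1092) (nat_lit 0) (XT.lf (nat_lit 0) (nat_lit 552795291) (nat_lit 1092) (nat_lit 885495281) (nat_lit 84) (nat_lit 5750969217) (nat_lit 201) (nat_lit 5) (nat_lit 214) (nat_lit 5) (nat_lit 202) (nat_lit 5) (nat_lit 339) (nat_lit 310) (nat_lit 296)) (XT.lf (nat_lit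 0) (nat_lit 3125991361) (nat_lit 1176) (nat_lit 3878948897) (nat_lit 84) (nat_lit 253781132) (nat_lit 188) (nat_lit 5) (nat_lit 202) (nat_lit 5) (nat_lit 189) (nat_lit 5) (nat_lit 340) (nat_lit 310) (nat_lit 295))))) (XT.nd (nat_lit 282) (nat_lit 1260) (nat_lit 0) (XT.nd (nat_lit 94) (nat_lit 1344) (nat_lit 0) (XT.lf (nat_lit 0) (nat_lit 382065399) (nat_lit 1176) (nat_lit 5345420946) (nat_lit 1260) (nat_lit 1604422884) (nat_lit 174) (nat_lit 5) (nat_lit 188) (nat_lit 5) (nat_lit 189) (nat_lit 5) (nat_lit 341) (nat_lit 310) (nat_lit 294)) (XT.nd (nat_lit 94) (nat_lit 1260) (nat_lit 0) (XT.lf (nat_lit 0) (nat_lit 944560981) (nat_lit 1260) (nat_lit 2638857746) (nat_lit 84) (nat_lit 3824821003) (nat_lit 173) (nat_lit 5) (nat_lit 188) (nat_lit 5) (nat_lit 174) (nat_lit 5) (nat_lit 342) (nat_lit 310) (nat_lit 293)) (XT.lf (nat_lit 0) (nat_lit 1748659222) (nat_lit 1260) (nat_lit 1732886244) (nat_lit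 1344) (nat_lit 4006685358) (nat_lit 158) (nat_lit 5) (nat_lit 173) (nat_lit 5) (nat_lit 174) (nat_lit 5) (nat_lit 343) (nat_lit 310) (nat_lit 292)))) (XT.nd (nat_lit 188) (nat_lit 588) (nat_lit 0) (XT.nd (nat_lit 94) (nat_lit 672) (nat_lit 0) (XT.lf (nat_lit 0) (nat_lit 6051647270) (nat_lit 1344) (nat_lit 1322509671) (nat_lit 84) (nat_lit 197910389) (nat_lit 158) (nat_lit 5) (nat_lit 174) (nat_lit 5) (nat_lit 159) (nat_lit 5) (nat_lit 344) (nat_lit 310) (nat_lit 291)) (XT.lf (nat_lit 0) (nat_lit 998220862) (nat_lit 672) (nat_lit 4467155410) (nat_lit 84) (nat_lit 2193546874) (nat_lit 150) (nat_lit 5) (nat_lit 158) (nat_lit 5) (nat_lit 151) (nat_lit 5) (nat_lit 345) (nat_lit 310) (nat_lit 290))) (XT.nd (nat_lit 94) (nat_lit 0) (nat_lit 0) (XT.lf (nat_lit 0) (nat_lit 34729468) (nat_lit 588) (nat_lit 3472003762) (nat_lit 672) (nat_lit 4242996344) (nat_lit 143) (nat_lit 5) (nat_lit 150) (nat_lit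 5) (nat_lit 151) (nat_lit 5) (nat_lit 346) (nat_lit 310) (nat_lit 289)) (XT.lf (nat_lit 0) (nat_lit 4692580865) (nat_lit 588) (nat_lit 1375408945) (nat_lit 672) (nat_lit 1776084246) (nat_lit 143) (nat_lit 5) (nat_lit 150) (nat_lit 5) (nat_lit 151) (nat_lit 5) (nat_lit 347) (nat_lit 310) (nat_lit 288))))))) (XT.nd (nat_lit 1316) (nat_lit 3024) (nat_lit 0) (XT.nd (nat_lit 658) (nat_lit 1932) (nat_lit 0) (XT.nd (nat_lit 282) (nat_lit 1092) (nat_lit 0) (XT.nd (nat_lit 94) (nat_lit 588) (nat_lit 0) (XT.lf (nat_lit 0) (nat_lit 705621963) (nat_lit 672) (nat_lit 6449641097) (nat_lit 84) (nat_lit 787224481) (nat_lit 135) (nat_lit 5) (nat_lit 143) (nat_lit 5) (nat_lit 136) (nat_lit 5) (nat_lit 348) (nat_lit 310) (nat_lit 287)) (XT.nd (nat_lit 94) (nat_lit 588) (nat_lit 0) (XT.lf (nat_lit 0) (nat_lit 3206633401) (nat_lit 672) (nat_lit 1804709308) (nat_lit 84) (nat_lit 3032693397) (nat_lit 135) (nat_lit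 5) (nat_lit 143) (nat_lit 5) (nat_lit 136) (nat_lit 5) (nat_lit 349) (nat_lit 310) (nat_lit 286)) (XT.lf (nat_lit 0) (nat_lit 2968158447) (nat_lit 588) (nat_lit 2779742349) (nat_lit 672) (nat_lit 2401896640) (nat_lit 128) (nat_lit 5) (nat_lit 135) (nat_lit 5) (nat_lit 136) (nat_lit 5) (nat_lit 350) (nat_lit 310) (nat_lit 285)))) (XT.nd (nat_lit 188) (nat_lit 504) (nat_lit 0) (XT.nd (nat_lit 94) (nat_lit 504) (nat_lit 0) (XT.lf (nat_lit 0) (nat_lit 60143034) (nat_lit 672) (nat_lit 408202407) (nat_lit 84) (nat_lit 7791804916) (nat_lit 127) (nat_lit 5) (nat_lit 135) (nat_lit 5) (nat_lit 128) (nat_lit 5) (nat_lit 351) (nat_lit 310) (nat_lit 284)) (XT.lf (nat_lit 0) (nat_lit 2549025603) (nat_lit 588) (nat_lit 3888147810) (nat_lit 84) (nat_lit 1936001929) (nat_lit 121) (nat_lit 5) (nat_lit 128) (nat_lit 5) (nat_lit 122) (nat_lit 5) (nat_lit 352) (nat_lit 310) (nat_lit 283))) (XT.nd (nat_lit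 94) (nat_lit 0) (nat_lit 0) (XT.lf (nat_lit 0) (nat_lit 989436618) (nat_lit 504) (nat_lit 4081484342) (nat_lit 588) (nat_lit 3420029080) (nat_lit 115) (nat_lit 5) (nat_lit 121) (nat_lit 5) (nat_lit 122) (nat_lit 5) (nat_lit 353) (nat_lit 310) (nat_lit 282)) (XT.lf (nat_lit 0) (nat_lit 6024582055) (nat_lit 504) (nat_lit 1624277466) (nat_lit 588) (nat_lit 964093038) (nat_lit 115) (nat_lit 5) (nat_lit 121) (nat_lit 5) (nat_lit 122) (nat_lit 5) (nat_lit 354) (nat_lit 310) (nat_lit 281))))) (XT.nd (nat_lit 282) (nat_lit 924) (nat_lit 0) (XT.nd (nat_lit 94) (nat_lit 504) (nat_lit 0) (XT.lf (nat_lit 0) (nat_lit 1509570053) (nat_lit 504) (nat_lit 6311351800) (nat_lit 84) (nat_lit 918103973) (nat_lit 109) (nat_lit 5) (nat_lit 115) (nat_lit 5) (nat_lit 110) (nat_lit 5) (nat_lit 355) (nat_lit 310) (nat_lit 280)) (XT.nd (nat_lit 94) (nat_lit 504) (nat_lit 0) (XT.lf (nat_lit 0) (nat_lit 4023656351)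 (nat_lit 504) (nat_lit 1315488971) (nat_lit 84) (nat_lit 3529979046) (nat_lit 109) (nat_lit 5) (nat_lit 115) (nat_lit 5) (nat_lit 110) (nat_lit 5) (nat_lit 356) (nat_lit 310) (nat_lit 279)) (XT.lf (nat_lit 0) (nat_lit 3838388847) (nat_lit 504) (nat_lit 2756442673) (nat_lit 588) (nat_lit 2408938688) (nat_lit 103) (nat_lit 5) (nat_lit 109) (nat_lit 5) (nat_lit 110) (nat_lit 5) (nat_lit 357) (nat_lit 310) (nat_lit 278)))) (XT.nd (nat_lit 188) (nat_lit 420) (nat_lit 0) (XT.nd (nat_lit 94) (nat_lit 420) (nat_lit 0) (XT.lf (nat_lit 0) (nat_lit 57252687) (nat_lit 588) (nat_lit 36595439) (nat_lit 84) (nat_lit 9049911249) (nat_lit 102) (nat_lit 5) (nat_lit 109) (nat_lit 5) (nat_lit 103) (nat_lit 5) (nat_lit 358) (nat_lit 310) (nat_lit 277)) (XT.lf (nat_lit 0) (nat_lit 2572365385) (nat_lit 504) (nat_lit 4053975443) (nat_lit 84) (nat_lit 2660277599) (nat_lit 97) (nat_lit 5) (nat_lit 103) (nat_lit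 5) (nat_lit 98) (nat_lit 5) (nat_lit 359) (nat_lit 310) (nat_lit 276))) (XT.nd (nat_lit 94) (nat_lit 0) (nat_lit 0) (XT.lf (nat_lit 0) (nat_lit 1182882019) (nat_lit 420) (nat_lit 3940248187) (nat_lit 504) (nat_lit 4311910895) (nat_lit 92) (nat_lit 5) (nat_lit 97) (nat_lit 5) (nat_lit 98) (nat_lit 5) (nat_lit 360) (nat_lit 310) (nat_lit 275)) (XT.lf (nat_lit 0) (nat_lit 6594372998) (nat_lit 420) (nat_lit 1145405974) (nat_lit 504) (nat_lit 1848538023) (nat_lit 92) (nat_lit 5) (nat_lit 97) (nat_lit 5) (nat_lit 98) (nat_lit 5) (nat_lit 361) (nat_lit 310) (nat_lit 274)))))) (XT.nd (nat_lit 658) (nat_lit 1428) (nat_lit 0) (XT.nd (nat_lit 282) (nat_lit 756) (nat_lit 0) (XT.nd (nat_lit 94) (nat_lit 420) (nat_lit 0) (XT.lf (nat_lit 0) (nat_lit 664514181) (nat_lit 420) (nat_lit 7366286807) (nat_lit 84) (nat_lit 1715591722) (nat_lit 87) (nat_lit 5) (nat_lit 92) (nat_lit 5) (nat_lit 88) (nat_lit 5)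 (nat_lit 362) (nat_lit 310) (nat_lit 273)) (XT.nd (nat_lit 94) (nat_lit 420) (nat_lit 0) (XT.lf (nat_lit 0) (nat_lit 3207751037) (nat_lit 420) (nat_lit 2027040906) (nat_lit 84) (nat_lit 4674185743) (nat_lit 87) (nat_lit 5) (nat_lit 92) (nat_lit 5) (nat_lit 88) (nat_lit 5) (nat_lit 363) (nat_lit 310) (nat_lit 272)) (XT.lf (nat_lit 0) (nat_lit 3476587119) (nat_lit 420) (nat_lit 2335645034) (nat_lit 504) (nat_lit 4264731938) (nat_lit 82) (nat_lit 5) (nat_lit 87) (nat_lit 5) (nat_lit 88) (nat_lit 5) (nat_lit 364) (nat_lit 310) (nat_lit 271)))) (XT.nd (nat_lit 188) (nat_lit 336) (nat_lit 0) (XT.nd (nat_lit 94) (nat_lit 420) (nat_lit 0) (XT.lf (nat_lit 0) (nat_lit 8473958932) (nat_lit 504) (nat_lit 1133319874) (nat_lit 84) (nat_lit 643408136) (nat_lit 82) (nat_lit 5) (nat_lit 88) (nat_lit 5) (nat_lit 83) (nat_lit 5) (nat_lit 365) (nat_lit 310) (nat_lit 270)) (XT.lf (nat_lit 0) (nat_lit 790671476)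 (nat_lit 420) (nat_lit 5936898690) (nat_lit 84) (nat_lit 3701288088) (nat_lit 77) (nat_lit 5) (nat_lit 82) (nat_lit 5) (nat_lit 78) (nat_lit 5) (nat_lit 366) (nat_lit 310) (nat_lit 269))) (XT.nd (nat_lit 94) (nat_lit 336) (nat_lit 0) (XT.lf (nat_lit 0) (nat_lit 3364759637) (nat_lit 420) (nat_lit 383367439) (nat_lit 84) (nat_lit 6864822806) (nat_lit 77) (nat_lit 5) (nat_lit 82) (nat_lit 5) (nat_lit 78) (nat_lit 5) (nat_lit 367) (nat_lit 310) (nat_lit 268)) (XT.lf (nat_lit 0) (nat_lit 5380737491) (nat_lit 336) (nat_lit 642220498) (nat_lit 420) (nat_lit 4779462008) (nat_lit 73) (nat_lit 5) (nat_lit 77) (nat_lit 5) (nat_lit 78) (nat_lit 5) (nat_lit 368) (nat_lit 310) (nat_lit 267))))) (XT.nd (nat_lit 282) (nat_lit 672) (nat_lit 0) (XT.nd (nat_lit 94) (nat_lit 420) (nat_lit 0) (XT.lf (nat_lit 0) (nat_lit 246705329) (nat_lit 336) (nat_lit 8500788865) (nat_lit 420) (nat_lit 2250542810) (nat_lit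 69) (nat_lit 5) (nat_lit 73) (nat_lit 5) (nat_lit 74) (nat_lit 5) (nat_lit 369) (nat_lit 310) (nat_lit 266)) (XT.nd (nat_lit 94) (nat_lit 336) (nat_lit 0) (XT.lf (nat_lit 0) (nat_lit 364926610) (nat_lit 420) (nat_lit 5073889785) (nat_lit 84) (nat_lit 5760133184) (nat_lit 68) (nat_lit 5) (nat_lit 73) (nat_lit 5) (nat_lit 69) (nat_lit 5) (nat_lit 370) (nat_lit 310) (nat_lit 265)) (XT.lf (nat_lit 0) (nat_lit 705170853) (nat_lit 336) (nat_lit 2272463409) (nat_lit 420) (nat_lit 8428721965) (nat_lit 64) (nat_lit 5) (nat_lit 68) (nat_lit 5) (nat_lit 69) (nat_lit 5) (nat_lit 371) (nat_lit 310) (nat_lit 264)))) (XT.nd (nat_lit 188) (nat_lit 420) (nat_lit 0) (XT.nd (nat_lit 94) (nat_lit 252) (nat_lit 0) (XT.lf (nat_lit 0) (nat_lit 5687706536) (nat_lit 420) (nat_lit 4927588786) (nat_lit 84) (nat_lit 1004174045) (nat_lit 64) (nat_lit 5) (nat_lit 69) (nat_lit 5) (nat_lit 65) (nat_lit 5) (nat_lit 372)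 (nat_lit 310) (nat_lit 263)) (XT.lf (nat_lit 0) (nat_lit 956407297) (nat_lit 252) (nat_lit 7513331979) (nat_lit 336) (nat_lit 3369569105) (nat_lit 61) (nat_lit 5) (nat_lit 64) (nat_lit 5) (nat_lit 65) (nat_lit 5) (nat_lit 373) (nat_lit 310) (nat_lit 262))) (XT.nd (nat_lit 94) (nat_lit 420) (nat_lit 0) (XT.lf (nat_lit 0) (nat_lit 7059540442) (nat_lit 252) (nat_lit 4285050508) (nat_lit 336) (nat_lit 720921585) (nat_lit 61) (nat_lit 5) (nat_lit 64) (nat_lit 5) (nat_lit 65) (nat_lit 5) (nat_lit 374) (nat_lit 310) (nat_lit 261)) (XT.lf (nat_lit 0) (nat_lit 989754240) (nat_lit 336) (nat_lit 948116894) (nat_lit 420) (nat_lit 10361005049) (nat_lit 56) (nat_lit 5) (nat_lit 60) (nat_lit 5) (nat_lit 61) (nat_lit 5) (nat_lit 375) (nat_lit 310) (nat_lit 260))))))))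
noncomputable def xc75 : XT := (XT.nd (nat_lit 2632) (nat_lit 1092) (nat_lit 0) (XT.nd (nat_lit 1316) (nat_lit 1092) (nat_lit 0) (XT.nd (nat_lit 658) (nat_lit 756) (nat_lit 0) (XT.nd (nat_lit 282) (nat_lit 588) (nat_lit 0) (XT.nd (nat_lit 94) (nat_lit 252) (nat_lit 0) (XT.lf (nat_lit 0) (nat_lit 4697688357) (nat_lit 420) (nat_lit 5359329451) (nat_lit 84) (nat_lit 2480982686) (nat_lit 56) (nat_lit 5) (nat_lit 61) (nat_lit 5) (nat_lit 57) (nat_lit 5) (nat_lit 376) (nat_lit 310) (nat_lit 259)) (XT.nd (nat_lit 94) (nat_lit 0) (nat_lit 0) (XT.lf (nat_lit 0) (nat_lit 717243480) (nat_lit 252) (nat_lit 6801255448) (nat_lit 336) (nat_lit 5266498693) (nat_lit 53) (nat_lit 5) (nat_lit 56) (nat_lit 5) (nat_lit 57) (nat_lit 5) (nat_lit 377) (nat_lit 310) (nat_lit 258)) (XT.lf (nat_lit 0) (nat_lit 7030204734) (nat_lit 252) (nat_lit 3410337876) (nat_lit 336) (nat_lit 2598407529) (nat_lit 53) (nat_lit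 5) (nat_lit 56) (nat_lit 5) (nat_lit 57) (nat_lit 5) (nat_lit 378) (nat_lit 310) (nat_lit 257)))) (XT.nd (nat_lit 188) (nat_lit 252) (nat_lit 0) (XT.nd (nat_lit 94) (nat_lit 0) (nat_lit 0) (XT.lf (nat_lit 0) (nat_lit 112355864) (nat_lit 336) (nat_lit 13123049616) (nat_lit 84) (nat_lit 66147269) (nat_lit 49) (nat_lit 5) (nat_lit 53) (nat_lit 5) (nat_lit 50) (nat_lit 5) (nat_lit 379) (nat_lit 310) (nat_lit 256)) (XT.lf (nat_lit 0) (nat_lit 2910815734) (nat_lit 336) (nat_lit 7011099024) (nat_lit 84) (nat_lit 3647628932) (nat_lit 49) (nat_lit 5) (nat_lit 53) (nat_lit 5) (nat_lit 50) (nat_lit 5) (nat_lit 380) (nat_lit 310) (nat_lit 255))) (XT.nd (nat_lit 94) (nat_lit 252) (nat_lit 0) (XT.lf (nat_lit 0) (nat_lit 5757846843) (nat_lit 336) (nat_lit 769513329) (nat_lit 84) (nat_lit 7319314527) (nat_lit 49) (nat_lit 5) (nat_lit 53) (nat_lit 5) (nat_lit 50) (nat_lit 5) (nat_lit 381) (nat_lit 310)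 (nat_lit 254)) (XT.lf (nat_lit 0) (nat_lit 5718754785) (nat_lit 252) (nat_lit 2992154272) (nat_lit 336) (nat_lit 5420629707) (nat_lit 46) (nat_lit 5) (nat_lit 49) (nat_lit 5) (nat_lit 50) (nat_lit 5) (nat_lit 382) (nat_lit 310) (nat_lit 253))))) (XT.nd (nat_lit 282) (nat_lit 420) (nat_lit 0) (XT.nd (nat_lit 94) (nat_lit 336) (nat_lit 0) (XT.lf (nat_lit 0) (nat_lit 11732631255) (nat_lit 336) (nat_lit 2066115246) (nat_lit 84) (nat_lit 626836838) (nat_lit 46) (nat_lit 5) (nat_lit 50) (nat_lit 5) (nat_lit 47) (nat_lit 5) (nat_lit 383) (nat_lit 310) (nat_lit 252)) (XT.nd (nat_lit 94) (nat_lit 0) (nat_lit 0) (XT.lf (nat_lit 0) (nat_lit 154278610) (nat_lit 336) (nat_lit 10251102048) (nat_lit 84) (nat_lit 4321869594) (nat_lit 42) (nat_lit 5) (nat_lit 46) (nat_lit 5) (nat_lit 43) (nat_lit 5) (nat_lit 384) (nat_lit 310) (nat_lit 251)) (XT.lf (nat_lit 0) (nat_lit 3020963084) (nat_lit 336) (nat_lit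 3858364613) (nat_lit 84) (nat_lit 8158228236) (nat_lit 42) (nat_lit 5) (nat_lit 46) (nat_lit 5) (nat_lit 43) (nat_lit 5) (nat_lit 385) (nat_lit 310) (nat_lit 250)))) (XT.nd (nat_lit 188) (nat_lit 252) (nat_lit 0) (XT.nd (nat_lit 94) (nat_lit 0) (nat_lit 0) (XT.lf (nat_lit 0) (nat_lit 2729725817) (nat_lit 168) (nat_lit 3238212792) (nat_lit 252) (nat_lit 9389436008) (nat_lit 40) (nat_lit 5) (nat_lit 42) (nat_lit 5) (nat_lit 43) (nat_lit 5) (nat_lit 386) (nat_lit 310) (nat_lit 249)) (XT.lf (nat_lit 0) (nat_lit 9015931995) (nat_lit 252) (nat_lit 6146390810) (nat_lit 84) (nat_lit 524118398) (nat_lit 40) (nat_lit 5) (nat_lit 43) (nat_lit 5) (nat_lit 41) (nat_lit 5) (nat_lit 387) (nat_lit 310) (nat_lit 248))) (XT.nd (nat_lit 94) (nat_lit 0) (nat_lit 0) (XT.lf (nat_lit 0) (nat_lit 457615128) (nat_lit 252) (nat_lit 11703470591) (nat_lit 336) (nat_lit 3864153127) (nat_lit 37) (nat_lit 5) (nat_lit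 40) (nat_lit 5) (nat_lit 41) (nat_lit 5) (nat_lit 388) (nat_lit 310) (nat_lit 247)) (XT.lf (nat_lit 0) (nat_lit 7337654292) (nat_lit 252) (nat_lit 8094699552) (nat_lit 336) (nat_lit 940923568) (nat_lit 37) (nat_lit 5) (nat_lit 40) (nat_lit 5) (nat_lit 41) (nat_lit 5) (nat_lit 389) (nat_lit 310) (nat_lit 246)))))) (XT.nd (nat_lit 658) (nat_lit 420) (nat_lit 0) (XT.nd (nat_lit 282) (nat_lit 420) (nat_lit 0) (XT.nd (nat_lit 94) (nat_lit 168) (nat_lit 0) (XT.lf (nat_lit 0) (nat_lit 1999865996) (nat_lit 336) (nat_lit 2374862166) (nat_lit 84) (nat_lit 12357352413) (nat_lit 36) (nat_lit 5) (nat_lit 40) (nat_lit 5) (nat_lit 37) (nat_lit 5) (nat_lit 390) (nat_lit 310) (nat_lit 245)) (XT.nd (nat_lit 94) (nat_lit 0) (nat_lit 0) (XT.lf (nat_lit 0) (nat_lit 4518657003) (nat_lit 168) (nat_lit 505869361) (nat_lit 252) (nat_lit 12076432482) (nat_lit 34) (nat_lit 5) (nat_lit 36) (nat_lit 5) (nat_lit 37)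 (nat_lit 5) (nat_lit 391) (nat_lit 310) (nat_lit 244)) (XT.lf (nat_lit 0) (nat_lit 8168951447) (nat_lit 252) (nat_lit 5892391002) (nat_lit 84) (nat_lit 3418716733) (nat_lit 34) (nat_lit 5) (nat_lit 37) (nat_lit 5) (nat_lit 35) (nat_lit 5) (nat_lit 392) (nat_lit 310) (nat_lit 243)))) (XT.nd (nat_lit 188) (nat_lit 252) (nat_lit 0) (XT.nd (nat_lit 94) (nat_lit 0) (nat_lit 0) (XT.lf (nat_lit 0) (nat_lit 967237377) (nat_lit 168) (nat_lit 10426975474) (nat_lit 252) (nat_lit 6476750262) (nat_lit 32) (nat_lit 5) (nat_lit 34) (nat_lit 5) (nat_lit 35) (nat_lit 5) (nat_lit 393) (nat_lit 310) (nat_lit 242)) (XT.lf (nat_lit 0) (nat_lit 8109037045) (nat_lit 168) (nat_lit 6639276866) (nat_lit 252) (nat_lit 3524342742) (nat_lit 32) (nat_lit 5) (nat_lit 34) (nat_lit 5) (nat_lit 35) (nat_lit 5) (nat_lit 394) (nat_lit 310) (nat_lit 241))) (XT.nd (nat_lit 94) (nat_lit 252) (nat_lit 0) (XT.lf (nat_lit 0) (nat_lit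 15421978273) (nat_lit 168) (nat_lit 2754438580) (nat_lit 252) (nat_lit 510806996) (nat_lit 32) (nat_lit 5) (nat_lit 34) (nat_lit 5) (nat_lit 35) (nat_lit 5) (nat_lit 395) (nat_lit 310) (nat_lit 240)) (XT.lf (nat_lit 0) (nat_lit 2565839441) (nat_lit 252) (nat_lit 15277781588) (nat_lit 84) (nat_lit 1269182877) (nat_lit 29) (nat_lit 5) (nat_lit 32) (nat_lit 5) (nat_lit 30) (nat_lit 5) (nat_lit 396) (nat_lit 310) (nat_lit 239))))) (XT.nd (nat_lit 282) (nat_lit 252) (nat_lit 0) (XT.nd (nat_lit 94) (nat_lit 168) (nat_lit 0) (XT.lf (nat_lit 0) (nat_lit 5759165997) (nat_lit 252) (nat_lit 8410208337) (nat_lit 84) (nat_lit 5380608046) (nat_lit 29) (nat_lit 5) (nat_lit 32) (nat_lit 5) (nat_lit 30) (nat_lit 5) (nat_lit 397) (nat_lit 310) (nat_lit 238)) (XT.nd (nat_lit 94) (nat_lit 168) (nat_lit 0) (XT.lf (nat_lit 0) (nat_lit 9023124127) (nat_lit 252) (nat_lit 1377989548) (nat_lit 84) (nat_lit 9599939096)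 (nat_lit 29) (nat_lit 5) (nat_lit 32) (nat_lit 5) (nat_lit 30) (nat_lit 5) (nat_lit 398) (nat_lit 310) (nat_lit 237)) (XT.lf (nat_lit 0) (nat_lit 5940948743) (nat_lit 168) (nat_lit 6476725123) (nat_lit 252) (nat_lit 8047022111) (nat_lit 27) (nat_lit 5) (nat_lit 29) (nat_lit 5) (nat_lit 30) (nat_lit 5) (nat_lit 399) (nat_lit 310) (nat_lit 236)))) (XT.nd (nat_lit 188) (nat_lit 252) (nat_lit 0) (XT.nd (nat_lit 94) (nat_lit 0) (nat_lit 0) (XT.lf (nat_lit 0) (nat_lit 13467920136) (nat_lit 168) (nat_lit 2435949078) (nat_lit 252) (nat_lit 5038705276) (nat_lit 27) (nat_lit 5) (nat_lit 29) (nat_lit 5) (nat_lit 30) (nat_lit 5) (nat_lit 400) (nat_lit 310) (nat_lit 235)) (XT.lf (nat_lit 0) (nat_lit 19487692206) (nat_lit 252) (nat_lit 269879808) (nat_lit 84) (nat_lit 1677445782) (nat_lit 27) (nat_lit 5) (nat_lit 30) (nat_lit 5) (nat_lit 28) (nat_lit 4) (nat_lit 401) (nat_lit 310) (nat_lit 234))) (XT.nd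 (nat_lit 94) (nat_lit 0) (nat_lit 0) (XT.lf (nat_lit 0) (nat_lit 1284095741) (nat_lit 252) (nat_lit 14722775729) (nat_lit 84) (nat_lit 5932881789) (nat_lit 24) (nat_lit 5) (nat_lit 27) (nat_lit 5) (nat_lit 25) (nat_lit 5) (nat_lit 402) (nat_lit 310) (nat_lit 233)) (XT.lf (nat_lit 0) (nat_lit 4553270623) (nat_lit 252) (nat_lit 7583039857) (nat_lit 84) (nat_lit 10323361405) (nat_lit 24) (nat_lit 5) (nat_lit 27) (nat_lit 5) (nat_lit 25) (nat_lit 5) (nat_lit 403) (nat_lit 310) (nat_lit 232))))))) (XT.nd (nat_lit 1316) (nat_lit 504) (nat_lit 0) (XT.nd (nat_lit 658) (nat_lit 252) (nat_lit 0) (XT.nd (nat_lit 282) (nat_lit 168) (nat_lit 0) (XT.nd (nat_lit 94) (nat_lit 168) (nat_lit 0) (XT.lf (nat_lit 0) (nat_lit 7898382875) (nat_lit 252) (nat_lit 266156817) (nat_lit 84) (nat_lit 14831330011) (nat_lit 24) (nat_lit 5) (nat_lit 27) (nat_lit 5) (nat_lit 25) (nat_lit 5) (nat_lit 404) (nat_lit 310)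 (nat_lit 231)) (XT.nd (nat_lit 94) (nat_lit 0) (nat_lit 0) (XT.lf (nat_lit 0) (nat_lit 7378242877) (nat_lit 168) (nat_lit 4015036717) (nat_lit 252) (nat_lit 12153407913) (nat_lit 22) (nat_lit 5) (nat_lit 24) (nat_lit 5) (nat_lit 25) (nat_lit 5) (nat_lit 405) (nat_lit 310) (nat_lit 230)) (XT.lf (nat_lit 0) (nat_lit 14976878818) (nat_lit 252) (nat_lit 8895162147) (nat_lit 84) (nat_lit 242489704) (nat_lit 22) (nat_lit 5) (nat_lit 25) (nat_lit 5) (nat_lit 23) (nat_lit 4) (nat_lit 406) (nat_lit 310) (nat_lit 229)))) (XT.nd (nat_lit 188) (nat_lit 84) (nat_lit 0) (XT.nd (nat_lit 94) (nat_lit 84) (nat_lit 0) (XT.lf (nat_lit 0) (nat_lit 18687012771) (nat_lit 252) (nat_lit 1478509404) (nat_lit 84) (nat_lit 4533332159) (nat_lit 22) (nat_lit 5) (nat_lit 25) (nat_lit 5) (nat_lit 23) (nat_lit 4) (nat_lit 407) (nat_lit 310) (nat_lit 228)) (XT.lf (nat_lit 0) (nat_lit 6248520295) (nat_lit 84) (nat_lit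 16299872634) (nat_lit 168) (nat_lit 2751132059) (nat_lit 21) (nat_lit 5) (nat_lit 22) (nat_lit 5) (nat_lit 23) (nat_lit 4) (nat_lit 408) (nat_lit 310) (nat_lit 227))) (XT.nd (nat_lit 94) (nat_lit 0) (nat_lit 0) (XT.lf (nat_lit 0) (nat_lit 590552165) (nat_lit 168) (nat_lit 11720219517) (nat_lit 84) (nat_lit 13607433392) (nat_lit 20) (nat_lit 5) (nat_lit 22) (nat_lit 5) (nat_lit 21) (nat_lit 5) (nat_lit 409) (nat_lit 310) (nat_lit 226)) (XT.lf (nat_lit 0) (nat_lit 3957704609) (nat_lit 168) (nat_lit 4229889547) (nat_lit 84) (nat_lit 18367633082) (nat_lit 20) (nat_lit 5) (nat_lit 22) (nat_lit 5) (nat_lit 21) (nat_lit 5) (nat_lit 410) (nat_lit 310) (nat_lit 225))))) (XT.nd (nat_lit 282) (nat_lit 84) (nat_lit 0) (XT.nd (nat_lit 94) (nat_lit 0) (nat_lit 0) (XT.lf (nat_lit 0) (nat_lit 3521696717) (nat_lit 168) (nat_lit 3919107926) (nat_lit 252) (nat_lit 19770121246) (nat_lit 18) (nat_lit 5) (nat_lit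 20) (nat_lit 5) (nat_lit 21) (nat_lit 5) (nat_lit 411) (nat_lit 310) (nat_lit 224)) (XT.nd (nat_lit 94) (nat_lit 0) (nat_lit 0) (XT.lf (nat_lit 0) (nat_lit 11057321939) (nat_lit 252) (nat_lit 16329793291) (nat_lit 84) (nat_lit 498325948) (nat_lit 18) (nat_lit 5) (nat_lit 21) (nat_lit 5) (nat_lit 19) (nat_lit 4) (nat_lit 412) (nat_lit 310) (nat_lit 223)) (XT.lf (nat_lit 0) (nat_lit 14802883810) (nat_lit 252) (nat_lit 8819742504) (nat_lit 84) (nat_lit 4956962160) (nat_lit 18) (nat_lit 5) (nat_lit 21) (nat_lit 5) (nat_lit 19) (nat_lit 4) (nat_lit 413) (nat_lit 310) (nat_lit 222)))) (XT.nd (nat_lit 188) (nat_lit 0) (nat_lit 0) (XT.nd (nat_lit 94) (nat_lit 84) (nat_lit 0) (XT.lf (nat_lit 0) (nat_lit 18643090214) (nat_lit 252) (nat_lit 1114841767) (nat_lit 84) (nat_lit 9537172516) (nat_lit 18) (nat_lit 5) (nat_lit 21) (nat_lit 5) (nat_lit 19) (nat_lit 4) (nat_lit 414) (nat_lit 310) (nat_lit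 221)) (XT.lf (nat_lit 0) (nat_lit 6926808336) (nat_lit 84) (nat_lit 15721073054) (nat_lit 168) (nat_lit 7382735525) (nat_lit 17) (nat_lit 5) (nat_lit 18) (nat_lit 5) (nat_lit 19) (nat_lit 4) (nat_lit 415) (nat_lit 310) (nat_lit 220))) (XT.nd (nat_lit 94) (nat_lit 0) (nat_lit 0) (XT.lf (nat_lit 0) (nat_lit 15203286320) (nat_lit 84) (nat_lit 11563801301) (nat_lit 168) (nat_lit 4021290858) (nat_lit 17) (nat_lit 5) (nat_lit 18) (nat_lit 5) (nat_lit 19) (nat_lit 4) (nat_lit 416) (nat_lit 310) (nat_lit 219)) (XT.lf (nat_lit 0) (nat_lit 23699636522) (nat_lit 84) (nat_lit 7293741869) (nat_lit 168) (nat_lit 576000815) (nat_lit 17) (nat_lit 5) (nat_lit 18) (nat_lit 5) (nat_lit 19) (nat_lit 4) (nat_lit 417) (nat_lit 310) (nat_lit 218)))))) (XT.nd (nat_lit 658) (nat_lit 168) (nat_lit 0) (XT.nd (nat_lit 282) (nat_lit 84) (nat_lit 0) (XT.nd (nat_lit 94) (nat_lit 0) (nat_lit 0) (XT.lf (nat_lit 0) (nat_lit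 20974423) (nat_lit 168) (nat_lit 2877687210) (nat_lit 252) (nat_lit 29474781354) (nat_lit 14) (nat_lit 5) (nat_lit 16) (nat_lit 5) (nat_lit 17) (nat_lit 5) (nat_lit 418) (nat_lit 310) (nat_lit 217)) (XT.nd (nat_lit 94) (nat_lit 0) (nat_lit 0) (XT.lf (nat_lit 0) (nat_lit 6546216288) (nat_lit 252) (nat_lit 24940091601) (nat_lit 84) (nat_lit 1712753407) (nat_lit 14) (nat_lit 5) (nat_lit 17) (nat_lit 5) (nat_lit 15) (nat_lit 4) (nat_lit 419) (nat_lit 310) (nat_lit 216)) (XT.lf (nat_lit 0) (nat_lit 10316070468) (nat_lit 252) (nat_lit 17361049865) (nat_lit 84) (nat_lit 6371951911) (nat_lit 14) (nat_lit 5) (nat_lit 17) (nat_lit 5) (nat_lit 15) (nat_lit 4) (nat_lit 420) (nat_lit 310) (nat_lit 215)))) (XT.nd (nat_lit 188) (nat_lit 84) (nat_lit 0) (XT.nd (nat_lit 94) (nat_lit 0) (nat_lit 0) (XT.lf (nat_lit 0) (nat_lit 14183856133) (nat_lit 252) (nat_lit 9581058801) (nat_lit 84) (nat_lit 11160133489)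 (nat_lit 14) (nat_lit 5) (nat_lit 17) (nat_lit 5) (nat_lit 15) (nat_lit 4) (nat_lit 421) (nat_lit 310) (nat_lit 214)) (XT.lf (nat_lit 0) (nat_lit 18152952900) (nat_lit 252) (nat_lit 1593320359) (nat_lit 84) (nat_lit 16081481988) (nat_lit 14) (nat_lit 5) (nat_lit 17) (nat_lit 5) (nat_lit 15) (nat_lit 4) (nat_lit 422) (nat_lit 310) (nat_lit 213))) (XT.nd (nat_lit 94) (nat_lit 0) (nat_lit 0) (XT.lf (nat_lit 0) (nat_lit 6740679982) (nat_lit 84) (nat_lit 15550944468) (nat_lit 168) (nat_lit 14464413173) (nat_lit 13) (nat_lit 5) (nat_lit 14) (nat_lit 5) (nat_lit 15) (nat_lit 4) (nat_lit 423) (nat_lit 310) (nat_lit 212)) (XT.lf (nat_lit 0) (nat_lit 15332700810) (nat_lit 84) (nat_lit 11223730356) (nat_lit 168) (nat_lit 11155687187) (nat_lit 13) (nat_lit 5) (nat_lit 14) (nat_lit 5) (nat_lit 15) (nat_lit 4) (nat_lit 424) (nat_lit 310) (nat_lit 211))))) (XT.nd (nat_lit 282) (nat_lit 84) (nat_lit 0)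 (XT.nd (nat_lit 94) (nat_lit 84) (nat_lit 0) (XT.lf (nat_lit 0) (nat_lit 24158539516) (nat_lit 84) (nat_lit 6776939271) (nat_lit 168) (nat_lit 7761822681) (nat_lit 13) (nat_lit 5) (nat_lit 14) (nat_lit 5) (nat_lit 15) (nat_lit 4) (nat_lit 425) (nat_lit 310) (nat_lit 210)) (XT.nd (nat_lit 94) (nat_lit 84) (nat_lit 0) (XT.lf (nat_lit 0) (nat_lit 33225907997) (nat_lit 84) (nat_lit 2206685669) (nat_lit 168) (nat_lit 4279854142) (nat_lit 13) (nat_lit 5) (nat_lit 14) (nat_lit 5) (nat_lit 15) (nat_lit 4) (nat_lit 426) (nat_lit 310) (nat_lit 209)) (XT.lf (nat_lit 0) (nat_lit 1795373766) (nat_lit 84) (nat_lit 38297535031) (nat_lit 84) (nat_lit 664299492) (nat_lit 12) (nat_lit 4) (nat_lit 13) (nat_lit 5) (nat_lit 13) (nat_lit 4) (nat_lit 427) (nat_lit 310) (nat_lit 208)))) (XT.nd (nat_lit 188) (nat_lit 0) (nat_lit 0) (XT.nd (nat_lit 94) (nat_lit 0) (nat_lit 0) (XT.lf (nat_lit 0) (nat_lit 3075030442)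 (nat_lit 168) (nat_lit 31447456362) (nat_lit 84) (nat_lit 7307699854) (nat_lit 11) (nat_lit 5) (nat_lit 13) (nat_lit 5) (nat_lit 12) (nat_lit 4) (nat_lit 428) (nat_lit 310) (nat_lit 207)) (XT.lf (nat_lit 0) (nat_lit 6900583275) (nat_lit 168) (nat_lit 23736470153) (nat_lit 84) (nat_lit 12298489439) (nat_lit 11) (nat_lit 5) (nat_lit 13) (nat_lit 5) (nat_lit 12) (nat_lit 4) (nat_lit 429) (nat_lit 310) (nat_lit 206))) (XT.nd (nat_lit 94) (nat_lit 0) (nat_lit 0) (XT.lf (nat_lit 0) (nat_lit 10828664598) (nat_lit 168) (nat_lit 15815752486) (nat_lit 84) (nat_lit 17430017244) (nat_lit 11) (nat_lit 5) (nat_lit 13) (nat_lit 5) (nat_lit 12) (nat_lit 4) (nat_lit 430) (nat_lit 310) (nat_lit 205)) (XT.lf (nat_lit 0) (nat_lit 14862706714) (nat_lit 168) (nat_lit 7678382347) (nat_lit 84) (nat_lit 22706767129) (nat_lit 11) (nat_lit 5) (nat_lit 13) (nat_lit 5) (nat_lit 12) (nat_lit 4) (nat_lit 431) (nat_lit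 310) (nat_lit 204))))))))
noncomputable def xc76 : XT := (XT.nd (nat_lit 49726) (nat_lit 0) (nat_lit 8064) (XT.nd (nat_lit 1222) (nat_lit 84) (nat_lit 0) (XT.nd (nat_lit 564) (nat_lit 168) (nat_lit 0) (XT.nd (nat_lit 282) (nat_lit 0) (nat_lit 0) (XT.nd (nat_lit 94) (nat_lit 0) (nat_lit 0) (XT.lf (nat_lit 0) (nat_lit 696338661) (nat_lit 84) (nat_lit 18316589487) (nat_lit 168) (nat_lit 27443704817) (nat_lit 10) (nat_lit 5) (nat_lit 11) (nat_lit 5) (nat_lit 12) (nat_lit 4) (nat_lit 432) (nat_lit 310) (nat_lit 203)) (XT.nd (nat_lit 94) (nat_lit 0) (nat_lit 0) (XT.lf (nat_lit 0) (nat_lit 9459541894) (nat_lit 84) (nat_lit 13894257570) (nat_lit 168) (nat_lit 24345896077) (nat_lit 10) (nat_lit 5) (nat_lit 11) (nat_lit 5) (nat_lit 12) (nat_lit 4) (nat_lit 433) (nat_lit 310) (nat_lit 202)) (XT.lf (nat_lit 0) (nat_lit 18466069654) (nat_lit 84) (nat_lit 9347765742) (nat_lit 168) (nat_lit 21166553039)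 (nat_lit 10) (nat_lit 5) (nat_lit 11) (nat_lit 5) (nat_lit 12) (nat_lit 4) (nat_lit 434) (nat_lit 310) (nat_lit 201)))) (XT.nd (nat_lit 94) (nat_lit 0) (nat_lit 0) (XT.lf (nat_lit 0) (nat_lit 27723791722) (nat_lit 84) (nat_lit 4673141340) (nat_lit 168) (nat_lit 17902897638) (nat_lit 10) (nat_lit 5) (nat_lit 11) (nat_lit 5) (nat_lit 12) (nat_lit 4) (nat_lit 435) (nat_lit 310) (nat_lit 200)) (XT.nd (nat_lit 94) (nat_lit 0) (nat_lit 0) (XT.lf (nat_lit 0) (nat_lit 37108382322) (nat_lit 168) (nat_lit 14419663087) (nat_lit 0) (nat_lit 131091283) (nat_lit 10) (nat_lit 5) (nat_lit 12) (nat_lit 4) (nat_lit 10) (nat_lit 4) (nat_lit 436) (nat_lit 310) (nat_lit 199)) (XT.lf (nat_lit 0) (nat_lit 41997246062) (nat_lit 168) (nat_lit 6083010264) (nat_lit 0) (nat_lit 4977889443) (nat_lit 10) (nat_lit 5) (nat_lit 12) (nat_lit 4) (nat_lit 10) (nat_lit 4) (nat_lit 437) (nat_lit 310) (nat_lit 198))))) (XT.nd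 (nat_lit 282) (nat_lit 0) (nat_lit 0) (XT.nd (nat_lit 94) (nat_lit 84) (nat_lit 0) (XT.lf (nat_lit 0) (nat_lit 2535603800) (nat_lit 84) (nat_lit 44511644988) (nat_lit 84) (nat_lit 7451447999) (nat_lit 9) (nat_lit 4) (nat_lit 10) (nat_lit 5) (nat_lit 10) (nat_lit 4) (nat_lit 438) (nat_lit 310) (nat_lit 197)) (XT.nd (nat_lit 94) (nat_lit 84) (nat_lit 0) (XT.lf (nat_lit 0) (nat_lit 11520027643) (nat_lit 84) (nat_lit 40780370410) (nat_lit 84) (nat_lit 3680522578) (nat_lit 9) (nat_lit 4) (nat_lit 10) (nat_lit 5) (nat_lit 10) (nat_lit 4) (nat_lit 439) (nat_lit 310) (nat_lit 196)) (XT.lf (nat_lit 0) (nat_lit 189964399) (nat_lit 168) (nat_lit 36752716066) (nat_lit 84) (nat_lit 20565165234) (nat_lit 8) (nat_lit 5) (nat_lit 10) (nat_lit 5) (nat_lit 9) (nat_lit 4) (nat_lit 440) (nat_lit 310) (nat_lit 195)))) (XT.nd (nat_lit 188) (nat_lit 0) (nat_lit 0) (XT.nd (nat_lit 94) (nat_lit 0) (nat_lit 0)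 (XT.lf (nat_lit 0) (nat_lit 4093275990) (nat_lit 168) (nat_lit 28866368260) (nat_lit 84) (nat_lit 26120125705) (nat_lit 8) (nat_lit 5) (nat_lit 10) (nat_lit 5) (nat_lit 9) (nat_lit 4) (nat_lit 441) (nat_lit 310) (nat_lit 194)) (XT.lf (nat_lit 0) (nat_lit 8104643106) (nat_lit 168) (nat_lit 20759579153) (nat_lit 84) (nat_lit 31834906050) (nat_lit 8) (nat_lit 5) (nat_lit 10) (nat_lit 5) (nat_lit 9) (nat_lit 4) (nat_lit 442) (nat_lit 310) (nat_lit 193))) (XT.nd (nat_lit 94) (nat_lit 0) (nat_lit 0) (XT.lf (nat_lit 0) (nat_lit 12227570826) (nat_lit 168) (nat_lit 12425265143) (nat_lit 84) (nat_lit 37714499766) (nat_lit 8) (nat_lit 5) (nat_lit 10) (nat_lit 5) (nat_lit 9) (nat_lit 4) (nat_lit 443) (nat_lit 310) (nat_lit 192)) (XT.lf (nat_lit 0) (nat_lit 16465661708) (nat_lit 168) (nat_lit 3856143818) (nat_lit 84) (nat_lit 43764044361) (nat_lit 8) (nat_lit 5) (nat_lit 10) (nat_lit 5) (nat_lit 9)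 (nat_lit 4) (nat_lit 444) (nat_lit 310) (nat_lit 191)))))) (XT.nd (nat_lit 47846) (nat_lit 0) (nat_lit 20832) (XT.nd (nat_lit 282) (nat_lit 0) (nat_lit 0) (XT.nd (nat_lit 94) (nat_lit 0) (nat_lit 0) (XT.lf (nat_lit 0) (nat_lit 5053892037) (nat_lit 84) (nat_lit 15817308003) (nat_lit 168) (nat_lit 44983514910) (nat_lit 7) (nat_lit 5) (nat_lit 8) (nat_lit 5) (nat_lit 9) (nat_lit 4) (nat_lit 445) (nat_lit 310) (nat_lit 190)) (XT.nd (nat_lit 94) (nat_lit 0) (nat_lit 0) (XT.lf (nat_lit 0) (nat_lit 14295642283) (nat_lit 84) (nat_lit 11144025743) (nat_lit 168) (nat_lit 42236059526) (nat_lit 7) (nat_lit 5) (nat_lit 8) (nat_lit 5) (nat_lit 9) (nat_lit 4) (nat_lit 446) (nat_lit 310) (nat_lit 189)) (XT.lf (nat_lit 0) (nat_lit 23800437410) (nat_lit 84) (nat_lit 6336814788) (nat_lit 168) (nat_lit 39414360830) (nat_lit 7) (nat_lit 5) (nat_lit 8) (nat_lit 5) (nat_lit 9) (nat_lit 4) (nat_lit 447) (nat_lit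 310) (nat_lit 188)))) (XT.nd (nat_lit 188) (nat_lit 0) (nat_lit 0) (XT.nd (nat_lit 94) (nat_lit 0) (nat_lit 0) (XT.lf (nat_lit 0) (nat_lit 33576582579) (nat_lit 84) (nat_lit 1391474663) (nat_lit 168) (nat_lit 36515953259) (nat_lit 7) (nat_lit 5) (nat_lit 8) (nat_lit 5) (nat_lit 9) (nat_lit 4) (nat_lit 448) (nat_lit 310) (nat_lit 187)) (XT.lf (nat_lit 0) (nat_lit 39971835499) (nat_lit 168) (nat_lit 29877519671) (nat_lit 0) (nat_lit 3624187368) (nat_lit 7) (nat_lit 5) (nat_lit 9) (nat_lit 4) (nat_lit 7) (nat_lit 4) (nat_lit 449) (nat_lit 310) (nat_lit 186))) (XT.nd (nat_lit 94) (nat_lit 0) (nat_lit 0) (XT.lf (nat_lit 0) (nat_lit 45132184666) (nat_lit 168) (nat_lit 21633659903) (nat_lit 0) (nat_lit 8756726231) (nat_lit 7) (nat_lit 5) (nat_lit 9) (nat_lit 4) (nat_lit 7) (nat_lit 4) (nat_lit 450) (nat_lit 310) (nat_lit 185)) (XT.lf (nat_lit 0) (nat_lit 50440238080) (nat_lit 168) (nat_lit 13155269540)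 (nat_lit 0) (nat_lit 14037779350) (nat_lit 7) (nat_lit 5) (nat_lit 9) (nat_lit 4) (nat_lit 7) (nat_lit 4) (nat_lit 451) (nat_lit 310) (nat_lit 184))))) (XT.nd (nat_lit 282) (nat_lit 1680) (nat_lit 0) (XT.nd (nat_lit 94) (nat_lit 420) (nat_lit 0) (XT.lf (nat_lit 0) (nat_lit 2863354869) (nat_lit 252) (nat_lit 197114067) (nat_lit 252) (nat_lit 197114067) (nat_lit 280) (nat_lit 4) (nat_lit 283) (nat_lit 5) (nat_lit 283) (nat_lit 4) (nat_lit 323) (nat_lit 311) (nat_lit 311)) (XT.nd (nat_lit 94) (nat_lit 0) (nat_lit 0) (XT.lf (nat_lit 0) (nat_lit 2490219700) (nat_lit 420) (nat_lit 3897444373) (nat_lit 0) (nat_lit 147127137) (nat_lit 275) (nat_lit 5) (nat_lit 280) (nat_lit 4) (nat_lit 275) (nat_lit 4) (nat_lit 324) (nat_lit 311) (nat_lit 310)) (XT.lf (nat_lit 0) (nat_lit 5362548833) (nat_lit 420) (nat_lit 450778420) (nat_lit 0) (nat_lit 744609122) (nat_lit 275) (nat_lit 5) (nat_lit 280) (nat_lit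 4) (nat_lit 275) (nat_lit 4) (nat_lit 325) (nat_lit 311) (nat_lit 309)))) (XT.nd (nat_lit 188) (nat_lit 672) (nat_lit 0) (XT.nd (nat_lit 94) (nat_lit 504) (nat_lit 0) (XT.lf (nat_lit 0) (nat_lit 1634363838) (nat_lit 504) (nat_lit 3508770582) (nat_lit 84) (nat_lit 1440576671) (nat_lit 269) (nat_lit 5) (nat_lit 275) (nat_lit 5) (nat_lit 270) (nat_lit 4) (nat_lit 326) (nat_lit 311) (nat_lit 308)) (XT.lf (nat_lit 0) (nat_lit 24381234) (nat_lit 504) (nat_lit 4406737990) (nat_lit 588) (nat_lit 2181899377) (nat_lit 263) (nat_lit 5) (nat_lit 269) (nat_lit 5) (nat_lit 270) (nat_lit 4) (nat_lit 327) (nat_lit 311) (nat_lit 307))) (XT.nd (nat_lit 94) (nat_lit 588) (nat_lit 0) (XT.lf (nat_lit 0) (nat_lit 593585238) (nat_lit 588) (nat_lit 2984771452) (nat_lit 84) (nat_lit 3066795653) (nat_lit 262) (nat_lit 5) (nat_lit 269) (nat_lit 5) (nat_lit 263) (nat_lit 5) (nat_lit 328) (nat_lit 311) (nat_lit 306))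 (XT.lf (nat_lit 0) (nat_lit 649044025) (nat_lit 588) (nat_lit 2670798698) (nat_lit 672) (nat_lit 3360691808) (nat_lit 255) (nat_lit 5) (nat_lit 262) (nat_lit 5) (nat_lit 263) (nat_lit 5) (nat_lit 329) (nat_lit 311) (nat_lit 305))))))) (XT.nd (nat_lit 1316) (nat_lit 4620) (nat_lit 0) (XT.nd (nat_lit 658) (nat_lit 4704) (nat_lit 0) (XT.nd (nat_lit 282) (nat_lit 2688) (nat_lit 0) (XT.nd (nat_lit 94) (nat_lit 756) (nat_lit 0) (XT.lf (nat_lit 0) (nat_lit 4384508930) (nat_lit 588) (nat_lit 1680747135) (nat_lit 672) (nat_lit 653866506) (nat_lit 255) (nat_lit 5) (nat_lit 262) (nat_lit 5) (nat_lit 263) (nat_lit 5) (nat_lit 330) (nat_lit 311) (nat_lit 304)) (XT.nd (nat_lit 94) (nat_lit 0) (nat_lit 0) (XT.lf (nat_lit 0) (nat_lit 1411580800) (nat_lit 672) (nat_lit 603291956) (nat_lit 756) (nat_lit 4745959611) (nat_lit 246) (nat_lit 5) (nat_lit 254) (nat_lit 5) (nat_lit 255) (nat_lit 5) (nat_lit 331)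 (nat_lit 311) (nat_lit 303)) (XT.lf (nat_lit 0) (nat_lit 4690202674) (nat_lit 756) (nat_lit 1567713624) (nat_lit 84) (nat_lit 547735731) (nat_lit 246) (nat_lit 5) (nat_lit 255) (nat_lit 5) (nat_lit 247) (nat_lit 5) (nat_lit 332) (nat_lit 311) (nat_lit 302)))) (XT.nd (nat_lit 188) (nat_lit 1848) (nat_lit 0) (XT.nd (nat_lit 94) (nat_lit 0) (nat_lit 0) (XT.lf (nat_lit 0) (nat_lit 523216951) (nat_lit 840) (nat_lit 4561809860) (nat_lit 84) (nat_lit 1768622201) (nat_lit 236) (nat_lit 5) (nat_lit 246) (nat_lit 5) (nat_lit 237) (nat_lit 5) (nat_lit 333) (nat_lit 311) (nat_lit 301)) (XT.lf (nat_lit 0) (nat_lit 3128896745) (nat_lit 840) (nat_lit 694647189) (nat_lit 84) (nat_lit 3081224756) (nat_lit 236) (nat_lit 5) (nat_lit 246) (nat_lit 5) (nat_lit 237) (nat_lit 5) (nat_lit 334) (nat_lit 311) (nat_lit 300))) (XT.nd (nat_lit 94) (nat_lit 1008) (nat_lit 0) (XT.lf (nat_lit 0) (nat_lit 3284417753)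 (nat_lit 840) (nat_lit 2476779030) (nat_lit 924) (nat_lit 1197987499) (nat_lit 226) (nat_lit 5) (nat_lit 236) (nat_lit 5) (nat_lit 237) (nat_lit 5) (nat_lit 335) (nat_lit 311) (nat_lit 299)) (XT.lf (nat_lit 0) (nat_lit 304560789) (nat_lit 924) (nat_lit 1051887438) (nat_lit 1008) (nat_lit 5660737791) (nat_lit 214) (nat_lit 5) (nat_lit 225) (nat_lit 5) (nat_lit 226) (nat_lit 5) (nat_lit 336) (nat_lit 311) (nat_lit 298))))) (XT.nd (nat_lit 282) (nat_lit 3612) (nat_lit 0) (XT.nd (nat_lit 94) (nat_lit 1092) (nat_lit 0) (XT.lf (nat_lit 0) (nat_lit 3924402569) (nat_lit 1008) (nat_lit 2684870638) (nat_lit 84) (nat_lit 468667350) (nat_lit 214) (nat_lit 5) (nat_lit 226) (nat_lit 5) (nat_lit 215) (nat_lit 5) (nat_lit 337) (nat_lit 311) (nat_lit 297)) (XT.nd (nat_lit 94) (nat_lit 84) (nat_lit 0) (XT.lf (nat_lit 0) (nat_lit 1411497706) (nat_lit 1008) (nat_lit 5103717739) (nat_lit 1092) (nat_lit 627119442)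 (nat_lit 202) (nat_lit 5) (nat_lit 214) (nat_lit 5) (nat_lit 215) (nat_lit 5) (nat_lit 338) (nat_lit 311) (nat_lit 296)) (XT.lf (nat_lit 0) (nat_lit 1886443969) (nat_lit 1092) (nat_lit 1611698166) (nat_lit 84) (nat_lit 3711633281) (nat_lit 201) (nat_lit 5) (nat_lit 214) (nat_lit 5) (nat_lit 202) (nat_lit 5) (nat_lit 339) (nat_lit 311) (nat_lit 295)))) (XT.nd (nat_lit 188) (nat_lit 2520) (nat_lit 0) (XT.nd (nat_lit 94) (nat_lit 0) (nat_lit 0) (XT.lf (nat_lit 0) (nat_lit 2607344235) (nat_lit 1092) (nat_lit 1805298951) (nat_lit 1176) (nat_lit 2868090180) (nat_lit 188) (nat_lit 5) (nat_lit 201) (nat_lit 5) (nat_lit 202) (nat_lit 5) (nat_lit 340) (nat_lit 311) (nat_lit 294)) (XT.lf (nat_lit 0) (nat_lit 6918325785) (nat_lit 1092) (nat_lit 38888258) (nat_lit 1176) (nat_lit 398498810) (nat_lit 188) (nat_lit 5) (nat_lit 201) (nat_lit 5) (nat_lit 202) (nat_lit 5) (nat_lit 341) (nat_lit 311) (nat_lit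 293))) (XT.nd (nat_lit 94) (nat_lit 1260) (nat_lit 0) (XT.lf (nat_lit 0) (nat_lit 2086273003) (nat_lit 1260) (nat_lit 3537116234) (nat_lit 84) (nat_lit 1809605869) (nat_lit 173) (nat_lit 5) (nat_lit 188) (nat_lit 5) (nat_lit 174) (nat_lit 5) (nat_lit 342) (nat_lit 311) (nat_lit 292)) (XT.lf (nat_lit 0) (nat_lit 797873614) (nat_lit 1260) (nat_lit 3781316431) (nat_lit 1344) (nat_lit 2935194982) (nat_lit 158) (nat_lit 5) (nat_lit 173) (nat_lit 5) (nat_lit 174) (nat_lit 5) (nat_lit 343) (nat_lit 311) (nat_lit 291)))))) (XT.nd (nat_lit 658) (nat_lit 2100) (nat_lit 0) (XT.nd (nat_lit 282) (nat_lit 1848) (nat_lit 0) (XT.nd (nat_lit 94) (nat_lit 672) (nat_lit 0) (XT.lf (nat_lit 0) (nat_lit 5267129766) (nat_lit 1260) (nat_lit 1845987815) (nat_lit 1344) (nat_lit 486263745) (nat_lit 158) (nat_lit 5) (nat_lit 173) (nat_lit 5) (nat_lit 174) (nat_lit 5) (nat_lit 344) (nat_lit 311) (nat_lit 290)) (XT.nd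 (nat_lit 94) (nat_lit 0) (nat_lit 0) (XT.lf (nat_lit 0) (nat_lit 1950489502) (nat_lit 672) (nat_lit 5551855964) (nat_lit 84) (nat_lit 185514962) (nat_lit 150) (nat_lit 5) (nat_lit 158) (nat_lit 5) (nat_lit 151) (nat_lit 5) (nat_lit 345) (nat_lit 311) (nat_lit 289)) (XT.lf (nat_lit 0) (nat_lit 4425691960) (nat_lit 672) (nat_lit 1084778565) (nat_lit 84) (nat_lit 2269263868) (nat_lit 150) (nat_lit 5) (nat_lit 158) (nat_lit 5) (nat_lit 151) (nat_lit 5) (nat_lit 346) (nat_lit 311) (nat_lit 288)))) (XT.nd (nat_lit 188) (nat_lit 588) (nat_lit 0) (XT.nd (nat_lit 94) (nat_lit 672) (nat_lit 0) (XT.lf (nat_lit 0) (nat_lit 3517688433) (nat_lit 588) (nat_lit 3426284560) (nat_lit 672) (nat_lit 931461400) (nat_lit 143) (nat_lit 5) (nat_lit 150) (nat_lit 5) (nat_lit 151) (nat_lit 5) (nat_lit 347) (nat_lit 311) (nat_lit 287)) (XT.lf (nat_lit 0) (nat_lit 228083225) (nat_lit 588) (nat_lit 1253955520) (nat_lit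 672) (nat_lit 6493179744) (nat_lit 135) (nat_lit 5) (nat_lit 142) (nat_lit 5) (nat_lit 143) (nat_lit 5) (nat_lit 348) (nat_lit 311) (nat_lit 286))) (XT.nd (nat_lit 94) (nat_lit 588) (nat_lit 0) (XT.lf (nat_lit 0) (nat_lit 3939811105) (nat_lit 672) (nat_lit 3124303111) (nat_lit 84) (nat_lit 1014010639) (nat_lit 135) (nat_lit 5) (nat_lit 143) (nat_lit 5) (nat_lit 136) (nat_lit 5) (nat_lit 349) (nat_lit 311) (nat_lit 285)) (XT.lf (nat_lit 0) (nat_lit 1588483554) (nat_lit 588) (nat_lit 4849055687) (nat_lit 672) (nat_lit 1747711988) (nat_lit 128) (nat_lit 5) (nat_lit 135) (nat_lit 5) (nat_lit 136) (nat_lit 5) (nat_lit 350) (nat_lit 311) (nat_lit 284))))) (XT.nd (nat_lit 282) (nat_lit 1512) (nat_lit 0) (XT.nd (nat_lit 94) (nat_lit 504) (nat_lit 0) (XT.lf (nat_lit 0) (nat_lit 671501243) (nat_lit 672) (nat_lit 1863106851) (nat_lit 84) (nat_lit 5761764716) (nat_lit 127) (nat_lit 5) (nat_lit 135)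 (nat_lit 5) (nat_lit 128) (nat_lit 5) (nat_lit 351) (nat_lit 311) (nat_lit 283)) (XT.nd (nat_lit 94) (nat_lit 0) (nat_lit 0) (XT.lf (nat_lit 0) (nat_lit 2987558433) (nat_lit 504) (nat_lit 110077072) (nat_lit 588) (nat_lit 5313698608) (nat_lit 121) (nat_lit 5) (nat_lit 127) (nat_lit 5) (nat_lit 128) (nat_lit 5) (nat_lit 352) (nat_lit 311) (nat_lit 282)) (XT.lf (nat_lit 0) (nat_lit 5580282771) (nat_lit 588) (nat_lit 597511360) (nat_lit 84) (nat_lit 2352544423) (nat_lit 121) (nat_lit 5) (nat_lit 128) (nat_lit 5) (nat_lit 122) (nat_lit 5) (nat_lit 353) (nat_lit 311) (nat_lit 281)))) (XT.nd (nat_lit 188) (nat_lit 504) (nat_lit 0) (XT.nd (nat_lit 94) (nat_lit 504) (nat_lit 0) (XT.lf (nat_lit 0) (nat_lit 4392995887) (nat_lit 504) (nat_lit 3731209124) (nat_lit 588) (nat_lit 529207327) (nat_lit 115) (nat_lit 5) (nat_lit 121) (nat_lit 5) (nat_lit 122) (nat_lit 5) (nat_lit 354) (nat_lit 311) (nat_lit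 280)) (XT.lf (nat_lit 0) (nat_lit 694322851) (nat_lit 420) (nat_lit 1188237325) (nat_lit 504) (nat_lit 6898450162) (nat_lit 109) (nat_lit 5) (nat_lit 114) (nat_lit 5) (nat_lit 115) (nat_lit 5) (nat_lit 355) (nat_lit 311) (nat_lit 279))) (XT.nd (nat_lit 94) (nat_lit 504) (nat_lit 0) (XT.lf (nat_lit 0) (nat_lit 4358017189) (nat_lit 504) (nat_lit 3112290124) (nat_lit 84) (nat_lit 1442006913) (nat_lit 109) (nat_lit 5) (nat_lit 115) (nat_lit 5) (nat_lit 110) (nat_lit 5) (nat_lit 356) (nat_lit 311) (nat_lit 278)) (XT.lf (nat_lit 0) (nat_lit 1973262725) (nat_lit 504) (nat_lit 4911586122) (nat_lit 588) (nat_lit 2163486639) (nat_lit 103) (nat_lit 5) (nat_lit 109) (nat_lit 5) (nat_lit 110) (nat_lit 5) (nat_lit 357) (nat_lit 311) (nat_lit 277))))))))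
noncomputable def xc77 : XT := (XT.nd (nat_lit 2538) (nat_lit 2100) (nat_lit 0) (XT.nd (nat_lit 1222) (nat_lit 2184) (nat_lit 0) (XT.nd (nat_lit 564) (nat_lit 1512) (nat_lit 0) (XT.nd (nat_lit 282) (nat_lit 840) (nat_lit 0) (XT.nd (nat_lit 94) (nat_lit 420) (nat_lit 0) (XT.lf (nat_lit 0) (nat_lit 271665878) (nat_lit 588) (nat_lit 1980827815) (nat_lit 84) (nat_lit 6936590177) (nat_lit 102) (nat_lit 5) (nat_lit 109) (nat_lit 5) (nat_lit 103) (nat_lit 5) (nat_lit 358) (nat_lit 311) (nat_lit 276)) (XT.nd (nat_lit 94) (nat_lit 0) (nat_lit 0) (XT.lf (nat_lit 0) (nat_lit 2720929153) (nat_lit 504) (nat_lit 6094481892) (nat_lit 84) (nat_lit 518548647) (nat_lit 97) (nat_lit 5) (nat_lit 103) (nat_lit 5) (nat_lit 98) (nat_lit 5) (nat_lit 359) (nat_lit 311) (nat_lit 275)) (XT.lf (nat_lit 0) (nat_lit 5235226907) (nat_lit 504) (nat_lit 912379196) (nat_lit 84) (nat_lit 3335910358) (nat_lit 97) (nat_lit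 5) (nat_lit 103) (nat_lit 5) (nat_lit 98) (nat_lit 5) (nat_lit 360) (nat_lit 311) (nat_lit 274)))) (XT.nd (nat_lit 94) (nat_lit 420) (nat_lit 0) (XT.lf (nat_lit 0) (nat_lit 4449591681) (nat_lit 420) (nat_lit 3368672109) (nat_lit 504) (nat_lit 1819575836) (nat_lit 92) (nat_lit 5) (nat_lit 97) (nat_lit 5) (nat_lit 98) (nat_lit 5) (nat_lit 361) (nat_lit 311) (nat_lit 273)) (XT.nd (nat_lit 94) (nat_lit 0) (nat_lit 0) (XT.lf (nat_lit 0) (nat_lit 127587594) (nat_lit 336) (nat_lit 502462285) (nat_lit 420) (nat_lit 9167779633) (nat_lit 87) (nat_lit 5) (nat_lit 91) (nat_lit 5) (nat_lit 92) (nat_lit 5) (nat_lit 362) (nat_lit 311) (nat_lit 272)) (XT.lf (nat_lit 0) (nat_lit 3144578964) (nat_lit 420) (nat_lit 4357513821) (nat_lit 84) (nat_lit 2459218550) (nat_lit 87) (nat_lit 5) (nat_lit 92) (nat_lit 5) (nat_lit 88) (nat_lit 5) (nat_lit 363) (nat_lit 311) (nat_lit 271))))) (XT.nd (nat_lit 282) (nat_lit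 672) (nat_lit 0) (XT.nd (nat_lit 94) (nat_lit 420) (nat_lit 0) (XT.lf (nat_lit 0) (nat_lit 1068692776) (nat_lit 420) (nat_lit 4634038824) (nat_lit 504) (nat_lit 4427990570) (nat_lit 82) (nat_lit 5) (nat_lit 87) (nat_lit 5) (nat_lit 88) (nat_lit 5) (nat_lit 364) (nat_lit 311) (nat_lit 270)) (XT.nd (nat_lit 94) (nat_lit 420) (nat_lit 0) (XT.lf (nat_lit 0) (nat_lit 6685833530) (nat_lit 420) (nat_lit 1649520124) (nat_lit 504) (nat_lit 1969998079) (nat_lit 82) (nat_lit 5) (nat_lit 87) (nat_lit 5) (nat_lit 88) (nat_lit 5) (nat_lit 365) (nat_lit 311) (nat_lit 269)) (XT.lf (nat_lit 0) (nat_lit 537951788) (nat_lit 420) (nat_lit 8540983780) (nat_lit 84) (nat_lit 1406571484) (nat_lit 77) (nat_lit 5) (nat_lit 82) (nat_lit 5) (nat_lit 78) (nat_lit 5) (nat_lit 366) (nat_lit 311) (nat_lit 268)))) (XT.nd (nat_lit 188) (nat_lit 336) (nat_lit 0) (XT.nd (nat_lit 94) (nat_lit 336) (nat_lit 0) (XT.lf (nat_lit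 0) (nat_lit 3089953548) (nat_lit 420) (nat_lit 3017516484) (nat_lit 84) (nat_lit 4562821962) (nat_lit 77) (nat_lit 5) (nat_lit 82) (nat_lit 5) (nat_lit 78) (nat_lit 5) (nat_lit 367) (nat_lit 311) (nat_lit 267)) (XT.lf (nat_lit 0) (nat_lit 2664394506) (nat_lit 336) (nat_lit 3036203135) (nat_lit 420) (nat_lit 5160620921) (nat_lit 73) (nat_lit 5) (nat_lit 77) (nat_lit 5) (nat_lit 78) (nat_lit 5) (nat_lit 368) (nat_lit 311) (nat_lit 266))) (XT.nd (nat_lit 94) (nat_lit 336) (nat_lit 0) (XT.lf (nat_lit 0) (nat_lit 8378578528) (nat_lit 420) (nat_lit 2539726863) (nat_lit 84) (nat_lit 139955794) (nat_lit 73) (nat_lit 5) (nat_lit 78) (nat_lit 5) (nat_lit 74) (nat_lit 5) (nat_lit 369) (nat_lit 311) (nat_lit 265)) (XT.lf (nat_lit 0) (nat_lit 3262567248) (nat_lit 336) (nat_lit 7894028624) (nat_lit 420) (nat_lit 104085375) (nat_lit 69) (nat_lit 5) (nat_lit 73) (nat_lit 5) (nat_lit 74) (nat_lit 5) (nat_lit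 370) (nat_lit 311) (nat_lit 264)))))) (XT.nd (nat_lit 658) (nat_lit 1092) (nat_lit 0) (XT.nd (nat_lit 282) (nat_lit 672) (nat_lit 0) (XT.nd (nat_lit 94) (nat_lit 336) (nat_lit 0) (XT.lf (nat_lit 0) (nat_lit 2483419182) (nat_lit 420) (nat_lit 2260596230) (nat_lit 84) (nat_lit 6724946025) (nat_lit 68) (nat_lit 5) (nat_lit 73) (nat_lit 5) (nat_lit 69) (nat_lit 5) (nat_lit 371) (nat_lit 311) (nat_lit 263)) (XT.nd (nat_lit 94) (nat_lit 0) (nat_lit 0) (XT.lf (nat_lit 0) (nat_lit 3662762598) (nat_lit 336) (nat_lit 1478587492) (nat_lit 420) (nat_lit 6542314457) (nat_lit 64) (nat_lit 5) (nat_lit 68) (nat_lit 5) (nat_lit 69) (nat_lit 5) (nat_lit 372) (nat_lit 311) (nat_lit 262)) (XT.lf (nat_lit 0) (nat_lit 7880350694) (nat_lit 420) (nat_lit 2169559716) (nat_lit 84) (nat_lit 1854909094) (nat_lit 64) (nat_lit 5) (nat_lit 69) (nat_lit 5) (nat_lit 65) (nat_lit 5) (nat_lit 373) (nat_lit 311) (nat_lit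 261)))) (XT.nd (nat_lit 188) (nat_lit 336) (nat_lit 0) (XT.nd (nat_lit 94) (nat_lit 84) (nat_lit 0) (XT.lf (nat_lit 0) (nat_lit 3862467459) (nat_lit 252) (nat_lit 6852142397) (nat_lit 336) (nat_lit 1417655827) (nat_lit 61) (nat_lit 5) (nat_lit 64) (nat_lit 5) (nat_lit 65) (nat_lit 5) (nat_lit 374) (nat_lit 311) (nat_lit 260)) (XT.lf (nat_lit 0) (nat_lit 1226250208) (nat_lit 336) (nat_lit 2314202546) (nat_lit 84) (nat_lit 8826254833) (nat_lit 60) (nat_lit 5) (nat_lit 64) (nat_lit 5) (nat_lit 61) (nat_lit 5) (nat_lit 375) (nat_lit 311) (nat_lit 259))) (XT.nd (nat_lit 94) (nat_lit 0) (nat_lit 0) (XT.lf (nat_lit 0) (nat_lit 3826465476) (nat_lit 336) (nat_lit 93912564) (nat_lit 420) (nat_lit 8687446734) (nat_lit 56) (nat_lit 5) (nat_lit 60) (nat_lit 5) (nat_lit 61) (nat_lit 5) (nat_lit 376) (nat_lit 311) (nat_lit 258)) (XT.lf (nat_lit 0) (nat_lit 6715177573) (nat_lit 420) (nat_lit 2744816371)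 (nat_lit 84) (nat_lit 3395629835) (nat_lit 56) (nat_lit 5) (nat_lit 61) (nat_lit 5) (nat_lit 57) (nat_lit 5) (nat_lit 377) (nat_lit 311) (nat_lit 257))))) (XT.nd (nat_lit 282) (nat_lit 504) (nat_lit 0) (XT.nd (nat_lit 94) (nat_lit 336) (nat_lit 0) (XT.lf (nat_lit 0) (nat_lit 3486844993) (nat_lit 252) (nat_lit 6105526689) (nat_lit 336) (nat_lit 3518571021) (nat_lit 53) (nat_lit 5) (nat_lit 56) (nat_lit 5) (nat_lit 57) (nat_lit 5) (nat_lit 378) (nat_lit 311) (nat_lit 256)) (XT.nd (nat_lit 94) (nat_lit 336) (nat_lit 0) (XT.lf (nat_lit 0) (nat_lit 9909153797) (nat_lit 252) (nat_lit 2639088379) (nat_lit 336) (nat_lit 825949431) (nat_lit 53) (nat_lit 5) (nat_lit 56) (nat_lit 5) (nat_lit 57) (nat_lit 5) (nat_lit 379) (nat_lit 311) (nat_lit 255)) (XT.lf (nat_lit 0) (nat_lit 1911522018) (nat_lit 336) (nat_lit 10790079331) (nat_lit 84) (nat_lit 943151701) (nat_lit 49) (nat_lit 5) (nat_lit 53) (nat_lit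 5) (nat_lit 50) (nat_lit 5) (nat_lit 380) (nat_lit 311) (nat_lit 254)))) (XT.nd (nat_lit 188) (nat_lit 252) (nat_lit 0) (XT.nd (nat_lit 94) (nat_lit 252) (nat_lit 0) (XT.lf (nat_lit 0) (nat_lit 4741630961) (nat_lit 336) (nat_lit 4574187555) (nat_lit 84) (nat_lit 4606591794) (nat_lit 49) (nat_lit 5) (nat_lit 53) (nat_lit 5) (nat_lit 50) (nat_lit 5) (nat_lit 381) (nat_lit 311) (nat_lit 253)) (XT.lf (nat_lit 0) (nat_lit 1812918064) (nat_lit 252) (nat_lit 5827800532) (nat_lit 336) (nat_lit 6568193062) (nat_lit 46) (nat_lit 5) (nat_lit 49) (nat_lit 5) (nat_lit 50) (nat_lit 5) (nat_lit 382) (nat_lit 311) (nat_lit 252))) (XT.nd (nat_lit 94) (nat_lit 252) (nat_lit 0) (XT.lf (nat_lit 0) (nat_lit 8435260208) (nat_lit 252) (nat_lit 2204846921) (nat_lit 336) (nat_lit 3863536633) (nat_lit 46) (nat_lit 5) (nat_lit 49) (nat_lit 5) (nat_lit 50) (nat_lit 5) (nat_lit 383) (nat_lit 311) (nat_lit 251)) (XT.lf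 (nat_lit 0) (nat_lit 392524941) (nat_lit 252) (nat_lit 13323335871) (nat_lit 336) (nat_lit 1091800041) (nat_lit 43) (nat_lit 5) (nat_lit 46) (nat_lit 5) (nat_lit 47) (nat_lit 5) (nat_lit 384) (nat_lit 311) (nat_lit 250))))))) (XT.nd (nat_lit 1316) (nat_lit 924) (nat_lit 0) (XT.nd (nat_lit 658) (nat_lit 588) (nat_lit 0) (XT.nd (nat_lit 282) (nat_lit 336) (nat_lit 0) (XT.nd (nat_lit 94) (nat_lit 168) (nat_lit 0) (XT.lf (nat_lit 0) (nat_lit 1780450823) (nat_lit 336) (nat_lit 8036384172) (nat_lit 84) (nat_lit 5301934581) (nat_lit 42) (nat_lit 5) (nat_lit 46) (nat_lit 5) (nat_lit 43) (nat_lit 5) (nat_lit 385) (nat_lit 311) (nat_lit 249)) (XT.nd (nat_lit 94) (nat_lit 168) (nat_lit 0) (XT.lf (nat_lit 0) (nat_lit 4685906399) (nat_lit 336) (nat_lit 1525328234) (nat_lit 84) (nat_lit 9228614791) (nat_lit 42) (nat_lit 5) (nat_lit 46) (nat_lit 5) (nat_lit 43) (nat_lit 5) (nat_lit 386) (nat_lit 311)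 (nat_lit 248)) (XT.lf (nat_lit 0) (nat_lit 5236397191) (nat_lit 168) (nat_lit 2462348645) (nat_lit 252) (nat_lit 8071239903) (nat_lit 40) (nat_lit 5) (nat_lit 42) (nat_lit 5) (nat_lit 43) (nat_lit 5) (nat_lit 387) (nat_lit 311) (nat_lit 247)))) (XT.nd (nat_lit 188) (nat_lit 84) (nat_lit 0) (XT.nd (nat_lit 94) (nat_lit 252) (nat_lit 0) (XT.lf (nat_lit 0) (nat_lit 10801129353) (nat_lit 252) (nat_lit 3938066220) (nat_lit 84) (nat_lit 1370885591) (nat_lit 40) (nat_lit 5) (nat_lit 43) (nat_lit 5) (nat_lit 41) (nat_lit 5) (nat_lit 388) (nat_lit 311) (nat_lit 246)) (XT.lf (nat_lit 0) (nat_lit 2840601893) (nat_lit 252) (nat_lit 11178692515) (nat_lit 336) (nat_lit 2440432657) (nat_lit 37) (nat_lit 5) (nat_lit 40) (nat_lit 5) (nat_lit 41) (nat_lit 5) (nat_lit 389) (nat_lit 311) (nat_lit 245))) (XT.nd (nat_lit 94) (nat_lit 0) (nat_lit 0) (XT.lf (nat_lit 0) (nat_lit 515392437) (nat_lit 336) (nat_lit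 6966572586) (nat_lit 84) (nat_lit 9337437818) (nat_lit 36) (nat_lit 5) (nat_lit 40) (nat_lit 5) (nat_lit 37) (nat_lit 5) (nat_lit 390) (nat_lit 311) (nat_lit 244)) (XT.lf (nat_lit 0) (nat_lit 3482805744) (nat_lit 336) (nat_lit 183192348) (nat_lit 84) (nat_lit 13524013468) (nat_lit 36) (nat_lit 5) (nat_lit 40) (nat_lit 5) (nat_lit 37) (nat_lit 5) (nat_lit 391) (nat_lit 311) (nat_lit 243))))) (XT.nd (nat_lit 282) (nat_lit 252) (nat_lit 0) (XT.nd (nat_lit 94) (nat_lit 168) (nat_lit 0) (XT.lf (nat_lit 0) (nat_lit 6581344032) (nat_lit 252) (nat_lit 10678689324) (nat_lit 84) (nat_lit 310467800) (nat_lit 34) (nat_lit 5) (nat_lit 37) (nat_lit 5) (nat_lit 35) (nat_lit 5) (nat_lit 392) (nat_lit 311) (nat_lit 242)) (XT.nd (nat_lit 94) (nat_lit 168) (nat_lit 0) (XT.lf (nat_lit 0) (nat_lit 9784010751) (nat_lit 252) (nat_lit 3859383152) (nat_lit 84) (nat_lit 4318701313) (nat_lit 34) (nat_lit 5) (nat_lit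 37) (nat_lit 5) (nat_lit 35) (nat_lit 5) (nat_lit 393) (nat_lit 311) (nat_lit 241)) (XT.lf (nat_lit 0) (nat_lit 3184369573) (nat_lit 168) (nat_lit 9902791281) (nat_lit 252) (nat_lit 5278168359) (nat_lit 32) (nat_lit 5) (nat_lit 34) (nat_lit 5) (nat_lit 35) (nat_lit 5) (nat_lit 394) (nat_lit 311) (nat_lit 240)))) (XT.nd (nat_lit 188) (nat_lit 168) (nat_lit 0) (XT.nd (nat_lit 94) (nat_lit 84) (nat_lit 0) (XT.lf (nat_lit 0) (nat_lit 10476691724) (nat_lit 168) (nat_lit 6025840165) (nat_lit 252) (nat_lit 2277758062) (nat_lit 32) (nat_lit 5) (nat_lit 34) (nat_lit 5) (nat_lit 35) (nat_lit 5) (nat_lit 395) (nat_lit 311) (nat_lit 239)) (XT.lf (nat_lit 0) (nat_lit 771442718) (nat_lit 252) (nat_lit 1268892352) (nat_lit 84) (nat_lit 17167913162) (nat_lit 31) (nat_lit 5) (nat_lit 34) (nat_lit 5) (nat_lit 32) (nat_lit 5) (nat_lit 396) (nat_lit 311) (nat_lit 238))) (XT.nd (nat_lit 94) (nat_lit 0) (nat_lit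 0) (XT.lf (nat_lit 0) (nat_lit 3920194895) (nat_lit 252) (nat_lit 13635842920) (nat_lit 84) (nat_lit 2090736721) (nat_lit 29) (nat_lit 5) (nat_lit 32) (nat_lit 5) (nat_lit 30) (nat_lit 5) (nat_lit 397) (nat_lit 311) (nat_lit 237)) (XT.lf (nat_lit 0) (nat_lit 7172115997) (nat_lit 252) (nat_lit 6623415445) (nat_lit 84) (nat_lit 6302684887) (nat_lit 29) (nat_lit 5) (nat_lit 32) (nat_lit 5) (nat_lit 30) (nat_lit 5) (nat_lit 398) (nat_lit 311) (nat_lit 236)))))) (XT.nd (nat_lit 658) (nat_lit 336) (nat_lit 0) (XT.nd (nat_lit 282) (nat_lit 420) (nat_lit 0) (XT.nd (nat_lit 94) (nat_lit 0) (nat_lit 0) (XT.lf (nat_lit 0) (nat_lit 571531304) (nat_lit 168) (nat_lit 9931833873) (nat_lit 252) (nat_lit 10060403368) (nat_lit 27) (nat_lit 5) (nat_lit 29) (nat_lit 5) (nat_lit 30) (nat_lit 5) (nat_lit 399) (nat_lit 311) (nat_lit 235)) (XT.nd (nat_lit 94) (nat_lit 0) (nat_lit 0) (XT.lf (nat_lit 0) (nat_lit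 8079476209) (nat_lit 168) (nat_lit 5898555367) (nat_lit 252) (nat_lit 7063971049) (nat_lit 27) (nat_lit 5) (nat_lit 29) (nat_lit 5) (nat_lit 30) (nat_lit 5) (nat_lit 400) (nat_lit 311) (nat_lit 234)) (XT.lf (nat_lit 0) (nat_lit 15775160657) (nat_lit 168) (nat_lit 1759055211) (nat_lit 252) (nat_lit 4001068642) (nat_lit 27) (nat_lit 5) (nat_lit 29) (nat_lit 5) (nat_lit 30) (nat_lit 5) (nat_lit 401) (nat_lit 311) (nat_lit 233)))) (XT.nd (nat_lit 188) (nat_lit 168) (nat_lit 0) (XT.nd (nat_lit 94) (nat_lit 84) (nat_lit 0) (XT.lf (nat_lit 0) (nat_lit 1629115593) (nat_lit 168) (nat_lit 19585507987) (nat_lit 252) (nat_lit 828233694) (nat_lit 25) (nat_lit 5) (nat_lit 27) (nat_lit 5) (nat_lit 28) (nat_lit 4) (nat_lit 402) (nat_lit 311) (nat_lit 232)) (XT.lf (nat_lit 0) (nat_lit 2446197652) (nat_lit 252) (nat_lit 13284293044) (nat_lit 84) (nat_lit 6832859829) (nat_lit 24) (nat_lit 5) (nat_lit 27)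 (nat_lit 5) (nat_lit 25) (nat_lit 5) (nat_lit 403) (nat_lit 311) (nat_lit 231))) (XT.nd (nat_lit 94) (nat_lit 168) (nat_lit 0) (XT.lf (nat_lit 0) (nat_lit 5780722178) (nat_lit 252) (nat_lit 5985127211) (nat_lit 84) (nat_lit 11334024952) (nat_lit 24) (nat_lit 5) (nat_lit 27) (nat_lit 5) (nat_lit 25) (nat_lit 5) (nat_lit 404) (nat_lit 311) (nat_lit 230)) (XT.lf (nat_lit 0) (nat_lit 1527910249) (nat_lit 168) (nat_lit 7681192325) (nat_lit 252) (nat_lit 14443593185) (nat_lit 22) (nat_lit 5) (nat_lit 24) (nat_lit 5) (nat_lit 25) (nat_lit 5) (nat_lit 405) (nat_lit 311) (nat_lit 229))))) (XT.nd (nat_lit 282) (nat_lit 252) (nat_lit 0) (XT.nd (nat_lit 94) (nat_lit 84) (nat_lit 0) (XT.lf (nat_lit 0) (nat_lit 9354452032) (nat_lit 168) (nat_lit 3425728741) (nat_lit 252) (nat_lit 11440741666) (nat_lit 22) (nat_lit 5) (nat_lit 24) (nat_lit 5) (nat_lit 25) (nat_lit 5) (nat_lit 406) (nat_lit 311) (nat_lit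 228)) (XT.nd (nat_lit 94) (nat_lit 84) (nat_lit 0) (XT.lf (nat_lit 0) (nat_lit 16447472008) (nat_lit 252) (nat_lit 7433662716) (nat_lit 84) (nat_lit 925404319) (nat_lit 22) (nat_lit 5) (nat_lit 25) (nat_lit 5) (nat_lit 23) (nat_lit 4) (nat_lit 407) (nat_lit 311) (nat_lit 227)) (XT.lf (nat_lit 0) (nat_lit 158236965) (nat_lit 84) (nat_lit 20082447866) (nat_lit 168) (nat_lit 5168577320) (nat_lit 21) (nat_lit 5) (nat_lit 22) (nat_lit 5) (nat_lit 23) (nat_lit 4) (nat_lit 408) (nat_lit 311) (nat_lit 226)))) (XT.nd (nat_lit 188) (nat_lit 168) (nat_lit 0) (XT.nd (nat_lit 94) (nat_lit 84) (nat_lit 0) (XT.lf (nat_lit 0) (nat_lit 8097538666) (nat_lit 84) (nat_lit 16105938792) (nat_lit 168) (nat_lit 1824930644) (nat_lit 21) (nat_lit 5) (nat_lit 22) (nat_lit 5) (nat_lit 23) (nat_lit 4) (nat_lit 409) (nat_lit 311) (nat_lit 225)) (XT.lf (nat_lit 0) (nat_lit 1568512726) (nat_lit 168) (nat_lit 10438846670)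 (nat_lit 84) (nat_lit 14658883546) (nat_lit 20) (nat_lit 5) (nat_lit 22) (nat_lit 5) (nat_lit 21) (nat_lit 5) (nat_lit 410) (nat_lit 311) (nat_lit 224))) (XT.nd (nat_lit 94) (nat_lit 168) (nat_lit 0) (XT.lf (nat_lit 0) (nat_lit 5008711472) (nat_lit 168) (nat_lit 2771369308) (nat_lit 84) (nat_lit 19543154456) (nat_lit 20) (nat_lit 5) (nat_lit 22) (nat_lit 5) (nat_lit 21) (nat_lit 5) (nat_lit 411) (nat_lit 311) (nat_lit 223)) (XT.lf (nat_lit 0) (nat_lit 5197221240) (nat_lit 168) (nat_lit 3387020190) (nat_lit 252) (nat_lit 19414745129) (nat_lit 18) (nat_lit 5) (nat_lit 20) (nat_lit 5) (nat_lit 21) (nat_lit 5) (nat_lit 412) (nat_lit 311) (nat_lit 222))))))))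
noncomputable def xc78 : XT := (XT.nd (nat_lit 2538) (nat_lit 168) (nat_lit 0) (XT.nd (nat_lit 1222) (nat_lit 336) (nat_lit 0) (XT.nd (nat_lit 564) (nat_lit 252) (nat_lit 0) (XT.nd (nat_lit 282) (nat_lit 84) (nat_lit 0) (XT.nd (nat_lit 94) (nat_lit 84) (nat_lit 0) (XT.lf (nat_lit 0) (nat_lit 12288514983) (nat_lit 252) (nat_lit 15274157198) (nat_lit 84) (nat_lit 1131706550) (nat_lit 18) (nat_lit 5) (nat_lit 21) (nat_lit 5) (nat_lit 19) (nat_lit 4) (nat_lit 413) (nat_lit 311) (nat_lit 221)) (XT.nd (nat_lit 94) (nat_lit 84) (nat_lit 0) (XT.lf (nat_lit 0) (nat_lit 16120245456) (nat_lit 252) (nat_lit 7583820321) (nat_lit 84) (nat_lit 5706089300) (nat_lit 18) (nat_lit 5) (nat_lit 21) (nat_lit 5) (nat_lit 19) (nat_lit 4) (nat_lit 414) (nat_lit 311) (nat_lit 220)) (XT.lf (nat_lit 0) (nat_lit 314663348) (nat_lit 84) (nat_lit 19738584243) (nat_lit 168) (nat_lit 10094579444) (nat_lit 17) (nat_lit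 5) (nat_lit 18) (nat_lit 5) (nat_lit 19) (nat_lit 4) (nat_lit 415) (nat_lit 311) (nat_lit 219)))) (XT.nd (nat_lit 94) (nat_lit 84) (nat_lit 0) (XT.lf (nat_lit 0) (nat_lit 8577140287) (nat_lit 84) (nat_lit 15587189570) (nat_lit 168) (nat_lit 6741508158) (nat_lit 17) (nat_lit 5) (nat_lit 18) (nat_lit 5) (nat_lit 19) (nat_lit 4) (nat_lit 416) (nat_lit 311) (nat_lit 218)) (XT.nd (nat_lit 94) (nat_lit 84) (nat_lit 0) (XT.lf (nat_lit 0) (nat_lit 17059897241) (nat_lit 84) (nat_lit 11322836043) (nat_lit 168) (nat_lit 3304347611) (nat_lit 17) (nat_lit 5) (nat_lit 18) (nat_lit 5) (nat_lit 19) (nat_lit 4) (nat_lit 417) (nat_lit 311) (nat_lit 217)) (XT.lf (nat_lit 0) (nat_lit 215614392) (nat_lit 168) (nat_lit 6724005851) (nat_lit 84) (nat_lit 25552554652) (nat_lit 16) (nat_lit 5) (nat_lit 18) (nat_lit 5) (nat_lit 17) (nat_lit 5) (nat_lit 418) (nat_lit 311) (nat_lit 216))))) (XT.nd (nat_lit 282) (nat_lit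 84) (nat_lit 0) (XT.nd (nat_lit 94) (nat_lit 0) (nat_lit 0) (XT.lf (nat_lit 0) (nat_lit 1384238359) (nat_lit 168) (nat_lit 2388576928) (nat_lit 252) (nat_lit 29547693592) (nat_lit 14) (nat_lit 5) (nat_lit 16) (nat_lit 5) (nat_lit 17) (nat_lit 5) (nat_lit 419) (nat_lit 311) (nat_lit 215)) (XT.nd (nat_lit 94) (nat_lit 0) (nat_lit 0) (XT.lf (nat_lit 0) (nat_lit 7512238985) (nat_lit 252) (nat_lit 24347284048) (nat_lit 84) (nat_lit 2311914624) (nat_lit 14) (nat_lit 5) (nat_lit 17) (nat_lit 5) (nat_lit 15) (nat_lit 4) (nat_lit 420) (nat_lit 311) (nat_lit 214)) (XT.lf (nat_lit 0) (nat_lit 11372772202) (nat_lit 252) (nat_lit 16579929611) (nat_lit 84) (nat_lit 7094934366) (nat_lit 14) (nat_lit 5) (nat_lit 17) (nat_lit 5) (nat_lit 15) (nat_lit 4) (nat_lit 421) (nat_lit 311) (nat_lit 213)))) (XT.nd (nat_lit 188) (nat_lit 84) (nat_lit 0) (XT.nd (nat_lit 94) (nat_lit 0) (nat_lit 0) (XT.lf (nat_lit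 0) (nat_lit 15334827759) (nat_lit 252) (nat_lit 8604459740) (nat_lit 84) (nat_lit 12011271375) (nat_lit 14) (nat_lit 5) (nat_lit 17) (nat_lit 5) (nat_lit 15) (nat_lit 4) (nat_lit 422) (nat_lit 311) (nat_lit 212)) (XT.lf (nat_lit 0) (nat_lit 19401867644) (nat_lit 252) (nat_lit 413905577) (nat_lit 84) (nat_lit 17065221478) (nat_lit 14) (nat_lit 5) (nat_lit 17) (nat_lit 5) (nat_lit 15) (nat_lit 4) (nat_lit 423) (nat_lit 311) (nat_lit 211))) (XT.nd (nat_lit 94) (nat_lit 0) (nat_lit 0) (XT.lf (nat_lit 0) (nat_lit 8158083261) (nat_lit 84) (nat_lit 15497782808) (nat_lit 168) (nat_lit 14181537975) (nat_lit 13) (nat_lit 5) (nat_lit 14) (nat_lit 5) (nat_lit 15) (nat_lit 4) (nat_lit 424) (nat_lit 311) (nat_lit 210)) (XT.lf (nat_lit 0) (nat_lit 16972471037) (nat_lit 84) (nat_lit 11055888873) (nat_lit 168) (nat_lit 10794428101) (nat_lit 13) (nat_lit 5) (nat_lit 14) (nat_lit 5) (nat_lit 15) (nat_lit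 4) (nat_lit 425) (nat_lit 311) (nat_lit 209)))))) (XT.nd (nat_lit 658) (nat_lit 168) (nat_lit 0) (XT.nd (nat_lit 282) (nat_lit 84) (nat_lit 0) (XT.nd (nat_lit 94) (nat_lit 84) (nat_lit 0) (XT.lf (nat_lit 0) (nat_lit 26028722112) (nat_lit 84) (nat_lit 6490389786) (nat_lit 168) (nat_lit 7319017456) (nat_lit 13) (nat_lit 5) (nat_lit 14) (nat_lit 5) (nat_lit 15) (nat_lit 4) (nat_lit 426) (nat_lit 311) (nat_lit 208)) (XT.nd (nat_lit 94) (nat_lit 84) (nat_lit 0) (XT.lf (nat_lit 0) (nat_lit 35334749713) (nat_lit 84) (nat_lit 1797296274) (nat_lit 168) (nat_lit 3752269276) (nat_lit 13) (nat_lit 5) (nat_lit 14) (nat_lit 5) (nat_lit 15) (nat_lit 4) (nat_lit 427) (nat_lit 311) (nat_lit 207)) (XT.lf (nat_lit 0) (nat_lit 2965184764) (nat_lit 84) (nat_lit 38963613415) (nat_lit 84) (nat_lit 31733545) (nat_lit 12) (nat_lit 4) (nat_lit 13) (nat_lit 5) (nat_lit 13) (nat_lit 4) (nat_lit 428) (nat_lit 311)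 (nat_lit 206)))) (XT.nd (nat_lit 188) (nat_lit 0) (nat_lit 0) (XT.nd (nat_lit 94) (nat_lit 0) (nat_lit 0) (XT.lf (nat_lit 0) (nat_lit 3788409904) (nat_lit 168) (nat_lit 31294695181) (nat_lit 84) (nat_lit 7982976514) (nat_lit 11) (nat_lit 5) (nat_lit 13) (nat_lit 5) (nat_lit 12) (nat_lit 4) (nat_lit 429) (nat_lit 311) (nat_lit 205)) (XT.lf (nat_lit 0) (nat_lit 7710638199) (nat_lit 168) (nat_lit 23384307100) (nat_lit 84) (nat_lit 13110206903) (nat_lit 11) (nat_lit 5) (nat_lit 13) (nat_lit 5) (nat_lit 12) (nat_lit 4) (nat_lit 430) (nat_lit 311) (nat_lit 204))) (XT.nd (nat_lit 94) (nat_lit 0) (nat_lit 0) (XT.lf (nat_lit 0) (nat_lit 11738997765) (nat_lit 168) (nat_lit 15256965685) (nat_lit 84) (nat_lit 18382784539) (nat_lit 11) (nat_lit 5) (nat_lit 13) (nat_lit 5) (nat_lit 12) (nat_lit 4) (nat_lit 431) (nat_lit 311) (nat_lit 203)) (XT.lf (nat_lit 0) (nat_lit 15877008527) (nat_lit 168) (nat_lit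 6905569375) (nat_lit 84) (nat_lit 23805316528) (nat_lit 11) (nat_lit 5) (nat_lit 13) (nat_lit 5) (nat_lit 12) (nat_lit 4) (nat_lit 432) (nat_lit 311) (nat_lit 202))))) (XT.nd (nat_lit 282) (nat_lit 84) (nat_lit 0) (XT.nd (nat_lit 94) (nat_lit 0) (nat_lit 0) (XT.lf (nat_lit 0) (nat_lit 1710558318) (nat_lit 84) (nat_lit 18434170837) (nat_lit 168) (nat_lit 27688425620) (nat_lit 10) (nat_lit 5) (nat_lit 11) (nat_lit 5) (nat_lit 12) (nat_lit 4) (nat_lit 433) (nat_lit 311) (nat_lit 201)) (XT.nd (nat_lit 94) (nat_lit 0) (nat_lit 0) (XT.lf (nat_lit 0) (nat_lit 10707725721) (nat_lit 84) (nat_lit 13891749049) (nat_lit 168) (nat_lit 24514534764) (nat_lit 10) (nat_lit 5) (nat_lit 11) (nat_lit 5) (nat_lit 12) (nat_lit 4) (nat_lit 434) (nat_lit 311) (nat_lit 200)) (XT.lf (nat_lit 0) (nat_lit 19956360064) (nat_lit 84) (nat_lit 9221076143) (nat_lit 168) (nat_lit 21256172742) (nat_lit 10) (nat_lit 5) (nat_lit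 11) (nat_lit 5) (nat_lit 12) (nat_lit 4) (nat_lit 435) (nat_lit 311) (nat_lit 199)))) (XT.nd (nat_lit 188) (nat_lit 84) (nat_lit 0) (XT.nd (nat_lit 94) (nat_lit 0) (nat_lit 0) (XT.lf (nat_lit 0) (nat_lit 29464542678) (nat_lit 84) (nat_lit 4418070949) (nat_lit 168) (nat_lit 17910492443) (nat_lit 10) (nat_lit 5) (nat_lit 11) (nat_lit 5) (nat_lit 12) (nat_lit 4) (nat_lit 436) (nat_lit 311) (nat_lit 198)) (XT.lf (nat_lit 0) (nat_lit 38724130974) (nat_lit 168) (nat_lit 13958119745) (nat_lit 0) (nat_lit 511287706) (nat_lit 10) (nat_lit 5) (nat_lit 12) (nat_lit 4) (nat_lit 10) (nat_lit 4) (nat_lit 437) (nat_lit 311) (nat_lit 197))) (XT.nd (nat_lit 94) (nat_lit 84) (nat_lit 0) (XT.lf (nat_lit 0) (nat_lit 43745024786) (nat_lit 168) (nat_lit 5397410053) (nat_lit 0) (nat_lit 5492530674) (nat_lit 10) (nat_lit 5) (nat_lit 12) (nat_lit 4) (nat_lit 10) (nat_lit 4) (nat_lit 438) (nat_lit 311) (nat_lit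 196)) (XT.lf (nat_lit 0) (nat_lit 3471251741) (nat_lit 84) (nat_lit 45469329106) (nat_lit 84) (nat_lit 7178339029) (nat_lit 9) (nat_lit 4) (nat_lit 10) (nat_lit 5) (nat_lit 10) (nat_lit 4) (nat_lit 439) (nat_lit 311) (nat_lit 195))))))) (XT.nd (nat_lit 48410) (nat_lit 0) (nat_lit 17388) (XT.nd (nat_lit 658) (nat_lit 0) (nat_lit 0) (XT.nd (nat_lit 282) (nat_lit 84) (nat_lit 0) (XT.nd (nat_lit 94) (nat_lit 84) (nat_lit 0) (XT.lf (nat_lit 0) (nat_lit 12700171994) (nat_lit 84) (nat_lit 41637116249) (nat_lit 84) (nat_lit 3308751449) (nat_lit 9) (nat_lit 4) (nat_lit 10) (nat_lit 5) (nat_lit 10) (nat_lit 4) (nat_lit 440) (nat_lit 311) (nat_lit 194)) (XT.nd (nat_lit 94) (nat_lit 0) (nat_lit 0) (XT.lf (nat_lit 0) (nat_lit 654670714) (nat_lit 168) (nat_lit 37035669388) (nat_lit 84) (nat_lit 21528714162) (nat_lit 8) (nat_lit 5) (nat_lit 10) (nat_lit 5) (nat_lit 9) (nat_lit 4) (nat_lit 441) (nat_lit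 311) (nat_lit 193)) (XT.lf (nat_lit 0) (nat_lit 4661712505) (nat_lit 168) (nat_lit 28936603813) (nat_lit 84) (nat_lit 27240228477) (nat_lit 8) (nat_lit 5) (nat_lit 10) (nat_lit 5) (nat_lit 9) (nat_lit 4) (nat_lit 442) (nat_lit 311) (nat_lit 192)))) (XT.nd (nat_lit 188) (nat_lit 84) (nat_lit 0) (XT.nd (nat_lit 94) (nat_lit 0) (nat_lit 0) (XT.lf (nat_lit 0) (nat_lit 8780440881) (nat_lit 168) (nat_lit 20609788377) (nat_lit 84) (nat_lit 33116651291) (nat_lit 8) (nat_lit 5) (nat_lit 10) (nat_lit 5) (nat_lit 9) (nat_lit 4) (nat_lit 443) (nat_lit 311) (nat_lit 191)) (XT.lf (nat_lit 0) (nat_lit 13014454729) (nat_lit 168) (nat_lit 12047947222) (nat_lit 84) (nat_lit 39163117340) (nat_lit 8) (nat_lit 5) (nat_lit 10) (nat_lit 5) (nat_lit 9) (nat_lit 4) (nat_lit 444) (nat_lit 311) (nat_lit 190))) (XT.nd (nat_lit 94) (nat_lit 84) (nat_lit 0) (XT.lf (nat_lit 0) (nat_lit 17367453674) (nat_lit 168) (nat_lit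 3243599129) (nat_lit 84) (nat_lit 45384909946) (nat_lit 8) (nat_lit 5) (nat_lit 10) (nat_lit 5) (nat_lit 9) (nat_lit 4) (nat_lit 445) (nat_lit 311) (nat_lit 189)) (XT.lf (nat_lit 0) (nat_lit 5926598303) (nat_lit 84) (nat_lit 15973613093) (nat_lit 168) (nat_lit 45917837411) (nat_lit 7) (nat_lit 5) (nat_lit 8) (nat_lit 5) (nat_lit 9) (nat_lit 4) (nat_lit 446) (nat_lit 311) (nat_lit 188))))) (XT.nd (nat_lit 282) (nat_lit 0) (nat_lit 0) (XT.nd (nat_lit 94) (nat_lit 0) (nat_lit 0) (XT.lf (nat_lit 0) (nat_lit 15424598449) (nat_lit 84) (nat_lit 11169400738) (nat_lit 168) (nat_lit 43100051073) (nat_lit 7) (nat_lit 5) (nat_lit 8) (nat_lit 5) (nat_lit 9) (nat_lit 4) (nat_lit 447) (nat_lit 311) (nat_lit 187)) (XT.nd (nat_lit 94) (nat_lit 0) (nat_lit 0) (XT.lf (nat_lit 0) (nat_lit 25194146549) (nat_lit 84) (nat_lit 6226971875) (nat_lit 168) (nat_lit 40205441908) (nat_lit 7) (nat_lit 5) (nat_lit 8)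 (nat_lit 5) (nat_lit 9) (nat_lit 4) (nat_lit 448) (nat_lit 311) (nat_lit 186)) (XT.lf (nat_lit 0) (nat_lit 35243779102) (nat_lit 84) (nat_lit 1142007877) (nat_lit 168) (nat_lit 37231480646) (nat_lit 7) (nat_lit 5) (nat_lit 8) (nat_lit 5) (nat_lit 9) (nat_lit 4) (nat_lit 449) (nat_lit 311) (nat_lit 185)))) (XT.nd (nat_lit 47282) (nat_lit 0) (nat_lit 22848) (XT.nd (nat_lit 47188) (nat_lit 0) (nat_lit 23184) (XT.lf (nat_lit 0) (nat_lit 41531657863) (nat_lit 168) (nat_lit 30124949205) (nat_lit 0) (nat_lit 4010125076) (nat_lit 7) (nat_lit 5) (nat_lit 9) (nat_lit 4) (nat_lit 7) (nat_lit 4) (nat_lit 450) (nat_lit 311) (nat_lit 184)) (XT.lf (nat_lit 0) (nat_lit 1381680698) (nat_lit 252) (nat_lit 478015518) (nat_lit 0) (nat_lit 1381680698) (nat_lit 283) (nat_lit 5) (nat_lit 286) (nat_lit 4) (nat_lit 283) (nat_lit 4) (nat_lit 321) (nat_lit 312) (nat_lit 312))) (XT.nd (nat_lit 94) (nat_lit 84) (nat_lit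 0) (XT.lf (nat_lit 0) (nat_lit 2342468781) (nat_lit 252) (nat_lit 3320657083) (nat_lit 252) (nat_lit 834870183) (nat_lit 280) (nat_lit 4) (nat_lit 283) (nat_lit 5) (nat_lit 283) (nat_lit 4) (nat_lit 322) (nat_lit 312) (nat_lit 311)) (XT.lf (nat_lit 0) (nat_lit 1998795677) (nat_lit 336) (nat_lit 841617015) (nat_lit 84) (nat_lit 3675874268) (nat_lit 279) (nat_lit 5) (nat_lit 283) (nat_lit 5) (nat_lit 280) (nat_lit 4) (nat_lit 323) (nat_lit 312) (nat_lit 310)))))) (XT.nd (nat_lit 658) (nat_lit 3360) (nat_lit 0) (XT.nd (nat_lit 282) (nat_lit 1260) (nat_lit 0) (XT.nd (nat_lit 94) (nat_lit 504) (nat_lit 0) (XT.lf (nat_lit 0) (nat_lit 2548017471) (nat_lit 336) (nat_lit 2274781678) (nat_lit 420) (nat_lit 1714742684) (nat_lit 275) (nat_lit 5) (nat_lit 279) (nat_lit 5) (nat_lit 280) (nat_lit 4) (nat_lit 324) (nat_lit 312) (nat_lit 309)) (XT.nd (nat_lit 94) (nat_lit 420) (nat_lit 0) (XT.lf (nat_lit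 0) (nat_lit 1056475043) (nat_lit 420) (nat_lit 580770638) (nat_lit 84) (nat_lit 4924940624) (nat_lit 274) (nat_lit 5) (nat_lit 279) (nat_lit 5) (nat_lit 275) (nat_lit 5) (nat_lit 325) (nat_lit 312) (nat_lit 308)) (XT.lf (nat_lit 0) (nat_lit 2905069438) (nat_lit 420) (nat_lit 900847247) (nat_lit 504) (nat_lit 2783556280) (nat_lit 269) (nat_lit 5) (nat_lit 274) (nat_lit 5) (nat_lit 275) (nat_lit 5) (nat_lit 326) (nat_lit 312) (nat_lit 307)))) (XT.nd (nat_lit 188) (nat_lit 672) (nat_lit 0) (XT.nd (nat_lit 94) (nat_lit 588) (nat_lit 0) (XT.lf (nat_lit 0) (nat_lit 6443139117) (nat_lit 420) (nat_lit 104441437) (nat_lit 504) (nat_lit 72995544) (nat_lit 269) (nat_lit 5) (nat_lit 274) (nat_lit 5) (nat_lit 275) (nat_lit 5) (nat_lit 327) (nat_lit 312) (nat_lit 306)) (XT.lf (nat_lit 0) (nat_lit 2611838733) (nat_lit 588) (nat_lit 3251084369) (nat_lit 84) (nat_lit 790798192) (nat_lit 262) (nat_lit 5)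 (nat_lit 269) (nat_lit 5) (nat_lit 263) (nat_lit 5) (nat_lit 328) (nat_lit 312) (nat_lit 305))) (XT.nd (nat_lit 94) (nat_lit 84) (nat_lit 0) (XT.lf (nat_lit 0) (nat_lit 343662522) (nat_lit 588) (nat_lit 4946122191) (nat_lit 672) (nat_lit 1400898870) (nat_lit 255) (nat_lit 5) (nat_lit 262) (nat_lit 5) (nat_lit 263) (nat_lit 5) (nat_lit 329) (nat_lit 312) (nat_lit 304)) (XT.lf (nat_lit 0) (nat_lit 1235509823) (nat_lit 672) (nat_lit 2696499959) (nat_lit 84) (nat_lit 2798356486) (nat_lit 254) (nat_lit 5) (nat_lit 262) (nat_lit 5) (nat_lit 255) (nat_lit 5) (nat_lit 330) (nat_lit 312) (nat_lit 303))))) (XT.nd (nat_lit 282) (nat_lit 1848) (nat_lit 0) (XT.nd (nat_lit 94) (nat_lit 840) (nat_lit 0) (XT.lf (nat_lit 0) (nat_lit 1002610777) (nat_lit 672) (nat_lit 2841323205) (nat_lit 756) (nat_lit 2929499854) (nat_lit 246) (nat_lit 5) (nat_lit 254) (nat_lit 5) (nat_lit 255) (nat_lit 5) (nat_lit 331)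 (nat_lit 312) (nat_lit 302)) (XT.nd (nat_lit 94) (nat_lit 840) (nat_lit 0) (XT.lf (nat_lit 0) (nat_lit 4802003321) (nat_lit 672) (nat_lit 1669224322) (nat_lit 756) (nat_lit 348583116) (nat_lit 246) (nat_lit 5) (nat_lit 254) (nat_lit 5) (nat_lit 255) (nat_lit 5) (nat_lit 332) (nat_lit 312) (nat_lit 301)) (XT.lf (nat_lit 0) (nat_lit 1794653331) (nat_lit 756) (nat_lit 402140383) (nat_lit 840) (nat_lit 4672378354) (nat_lit 236) (nat_lit 5) (nat_lit 245) (nat_lit 5) (nat_lit 246) (nat_lit 5) (nat_lit 333) (nat_lit 312) (nat_lit 300)))) (XT.nd (nat_lit 188) (nat_lit 924) (nat_lit 0) (XT.nd (nat_lit 94) (nat_lit 924) (nat_lit 0) (XT.lf (nat_lit 0) (nat_lit 4757661099) (nat_lit 840) (nat_lit 1237088194) (nat_lit 84) (nat_lit 926993138) (nat_lit 236) (nat_lit 5) (nat_lit 246) (nat_lit 5) (nat_lit 237) (nat_lit 5) (nat_lit 334) (nat_lit 312) (nat_lit 299)) (XT.lf (nat_lit 0) (nat_lit 359785685)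 (nat_lit 924) (nat_lit 4283237563) (nat_lit 84) (nat_lit 2334493934) (nat_lit 225) (nat_lit 5) (nat_lit 236) (nat_lit 5) (nat_lit 226) (nat_lit 5) (nat_lit 335) (nat_lit 312) (nat_lit 298))) (XT.nd (nat_lit 94) (nat_lit 924) (nat_lit 0) (XT.lf (nat_lit 0) (nat_lit 2848526509) (nat_lit 924) (nat_lit 354549724) (nat_lit 84) (nat_lit 3833464042) (nat_lit 225) (nat_lit 5) (nat_lit 236) (nat_lit 5) (nat_lit 226) (nat_lit 5) (nat_lit 336) (nat_lit 312) (nat_lit 297)) (XT.lf (nat_lit 0) (nat_lit 3698780480) (nat_lit 924) (nat_lit 1671070847) (nat_lit 1008) (nat_lit 1728936831) (nat_lit 214) (nat_lit 5) (nat_lit 225) (nat_lit 5) (nat_lit 226) (nat_lit 5) (nat_lit 337) (nat_lit 312) (nat_lit 296))))))))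
noncomputable def xc79 : XT := (XT.nd (nat_lit 2632) (nat_lit 4032) (nat_lit 0) (XT.nd (nat_lit 1316) (nat_lit 3780) (nat_lit 0) (XT.nd (nat_lit 658) (nat_lit 2520) (nat_lit 0) (XT.nd (nat_lit 282) (nat_lit 2604) (nat_lit 0) (XT.nd (nat_lit 94) (nat_lit 1092) (nat_lit 0) (XT.lf (nat_lit 0) (nat_lit 656769772) (nat_lit 1008) (nat_lit 64454974) (nat_lit 1092) (nat_lit 6443637660) (nat_lit 201) (nat_lit 5) (nat_lit 213) (nat_lit 5) (nat_lit 214) (nat_lit 5) (nat_lit 338) (nat_lit 312) (nat_lit 295)) (XT.nd (nat_lit 94) (nat_lit 1092) (nat_lit 0) (XT.lf (nat_lit 0) (nat_lit 3184872103) (nat_lit 1092) (nat_lit 2428027496) (nat_lit 84) (nat_lit 1620439293) (nat_lit 201) (nat_lit 5) (nat_lit 214) (nat_lit 5) (nat_lit 202) (nat_lit 5) (nat_lit 339) (nat_lit 312) (nat_lit 294)) (XT.lf (nat_lit 0) (nat_lit 1741433200) (nat_lit 1092) (nat_lit 3925334730) (nat_lit 1176) (nat_lit 1638941939) (nat_lit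 188) (nat_lit 5) (nat_lit 201) (nat_lit 5) (nat_lit 202) (nat_lit 5) (nat_lit 340) (nat_lit 312) (nat_lit 293)))) (XT.nd (nat_lit 188) (nat_lit 1344) (nat_lit 0) (XT.nd (nat_lit 94) (nat_lit 1176) (nat_lit 0) (XT.lf (nat_lit 0) (nat_lit 778768761) (nat_lit 1176) (nat_lit 1369412586) (nat_lit 84) (nat_lit 5233417727) (nat_lit 187) (nat_lit 5) (nat_lit 201) (nat_lit 5) (nat_lit 188) (nat_lit 5) (nat_lit 341) (nat_lit 312) (nat_lit 292)) (XT.lf (nat_lit 0) (nat_lit 2926842603) (nat_lit 1176) (nat_lit 267057241) (nat_lit 1260) (nat_lit 4266799306) (nat_lit 173) (nat_lit 5) (nat_lit 187) (nat_lit 5) (nat_lit 188) (nat_lit 5) (nat_lit 342) (nat_lit 312) (nat_lit 291))) (XT.nd (nat_lit 94) (nat_lit 1344) (nat_lit 0) (XT.lf (nat_lit 0) (nat_lit 5642669528) (nat_lit 1260) (nat_lit 244853307) (nat_lit 84) (nat_lit 1655965223) (nat_lit 173) (nat_lit 5) (nat_lit 188) (nat_lit 5) (nat_lit 174) (nat_lit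 5) (nat_lit 343) (nat_lit 312) (nat_lit 290)) (XT.lf (nat_lit 0) (nat_lit 501355838) (nat_lit 1344) (nat_lit 3447672310) (nat_lit 84) (nat_lit 3680450271) (nat_lit 157) (nat_lit 5) (nat_lit 173) (nat_lit 5) (nat_lit 158) (nat_lit 5) (nat_lit 344) (nat_lit 312) (nat_lit 289))))) (XT.nd (nat_lit 282) (nat_lit 1344) (nat_lit 0) (XT.nd (nat_lit 94) (nat_lit 588) (nat_lit 0) (XT.lf (nat_lit 0) (nat_lit 962417469) (nat_lit 588) (nat_lit 1920427635) (nat_lit 672) (nat_lit 4836413684) (nat_lit 150) (nat_lit 5) (nat_lit 157) (nat_lit 5) (nat_lit 158) (nat_lit 5) (nat_lit 345) (nat_lit 312) (nat_lit 288)) (XT.nd (nat_lit 94) (nat_lit 588) (nat_lit 0) (XT.lf (nat_lit 0) (nat_lit 5307571635) (nat_lit 672) (nat_lit 2304439306) (nat_lit 84) (nat_lit 200702341) (nat_lit 150) (nat_lit 5) (nat_lit 158) (nat_lit 5) (nat_lit 151) (nat_lit 5) (nat_lit 346) (nat_lit 312) (nat_lit 287)) (XT.lf (nat_lit 0) (nat_lit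 2240943200) (nat_lit 588) (nat_lit 5541553504) (nat_lit 672) (nat_lit 127281580) (nat_lit 143) (nat_lit 5) (nat_lit 150) (nat_lit 5) (nat_lit 151) (nat_lit 5) (nat_lit 347) (nat_lit 312) (nat_lit 286)))) (XT.nd (nat_lit 188) (nat_lit 672) (nat_lit 0) (XT.nd (nat_lit 94) (nat_lit 588) (nat_lit 0) (XT.lf (nat_lit 0) (nat_lit 2237486606) (nat_lit 672) (nat_lit 1127716633) (nat_lit 84) (nat_lit 4645179048) (nat_lit 142) (nat_lit 5) (nat_lit 150) (nat_lit 5) (nat_lit 143) (nat_lit 5) (nat_lit 348) (nat_lit 312) (nat_lit 285)) (XT.lf (nat_lit 0) (nat_lit 3553606810) (nat_lit 588) (nat_lit 1090396618) (nat_lit 672) (nat_lit 3470881755) (nat_lit 135) (nat_lit 5) (nat_lit 142) (nat_lit 5) (nat_lit 143) (nat_lit 5) (nat_lit 349) (nat_lit 312) (nat_lit 284))) (XT.nd (nat_lit 94) (nat_lit 84) (nat_lit 0) (XT.lf (nat_lit 0) (nat_lit 100766249) (nat_lit 588) (nat_lit 6986787779) (nat_lit 672) (nat_lit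 1136140004) (nat_lit 128) (nat_lit 5) (nat_lit 135) (nat_lit 5) (nat_lit 136) (nat_lit 5) (nat_lit 350) (nat_lit 312) (nat_lit 283)) (XT.lf (nat_lit 0) (nat_lit 1241953873) (nat_lit 672) (nat_lit 3427657739) (nat_lit 84) (nat_lit 3665957067) (nat_lit 127) (nat_lit 5) (nat_lit 135) (nat_lit 5) (nat_lit 128) (nat_lit 5) (nat_lit 351) (nat_lit 312) (nat_lit 282)))))) (XT.nd (nat_lit 658) (nat_lit 1680) (nat_lit 0) (XT.nd (nat_lit 282) (nat_lit 1092) (nat_lit 0) (XT.nd (nat_lit 94) (nat_lit 504) (nat_lit 0) (XT.lf (nat_lit 0) (nat_lit 1359676683) (nat_lit 504) (nat_lit 2264427934) (nat_lit 588) (nat_lit 4827797171) (nat_lit 121) (nat_lit 5) (nat_lit 127) (nat_lit 5) (nat_lit 128) (nat_lit 5) (nat_lit 352) (nat_lit 312) (nat_lit 281)) (XT.nd (nat_lit 94) (nat_lit 504) (nat_lit 0) (XT.lf (nat_lit 0) (nat_lit 6058199359) (nat_lit 588) (nat_lit 2277359385) (nat_lit 84) (nat_lit 236854838) (nat_lit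 121) (nat_lit 5) (nat_lit 128) (nat_lit 5) (nat_lit 122) (nat_lit 5) (nat_lit 353) (nat_lit 312) (nat_lit 280)) (XT.lf (nat_lit 0) (nat_lit 2647922834) (nat_lit 504) (nat_lit 5910391448) (nat_lit 588) (nat_lit 138536602) (nat_lit 115) (nat_lit 5) (nat_lit 121) (nat_lit 5) (nat_lit 122) (nat_lit 5) (nat_lit 354) (nat_lit 312) (nat_lit 279)))) (XT.nd (nat_lit 188) (nat_lit 588) (nat_lit 0) (XT.nd (nat_lit 94) (nat_lit 420) (nat_lit 0) (XT.lf (nat_lit 0) (nat_lit 2232081573) (nat_lit 588) (nat_lit 1142940476) (nat_lit 84) (nat_lit 5450366419) (nat_lit 114) (nat_lit 5) (nat_lit 121) (nat_lit 5) (nat_lit 115) (nat_lit 5) (nat_lit 355) (nat_lit 312) (nat_lit 278)) (XT.lf (nat_lit 0) (nat_lit 3923436145) (nat_lit 420) (nat_lit 732390896) (nat_lit 504) (nat_lit 4302461776) (nat_lit 109) (nat_lit 5) (nat_lit 114) (nat_lit 5) (nat_lit 115) (nat_lit 5) (nat_lit 356) (nat_lit 312) (nat_lit 277)))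 (XT.nd (nat_lit 94) (nat_lit 588) (nat_lit 0) (XT.lf (nat_lit 0) (nat_lit 7131004886) (nat_lit 504) (nat_lit 11764748) (nat_lit 84) (nat_lit 1953133857) (nat_lit 109) (nat_lit 5) (nat_lit 115) (nat_lit 5) (nat_lit 110) (nat_lit 5) (nat_lit 357) (nat_lit 312) (nat_lit 276)) (XT.lf (nat_lit 0) (nat_lit 440777598) (nat_lit 588) (nat_lit 4046812917) (nat_lit 84) (nat_lit 4749813412) (nat_lit 102) (nat_lit 5) (nat_lit 109) (nat_lit 5) (nat_lit 103) (nat_lit 5) (nat_lit 358) (nat_lit 312) (nat_lit 275))))) (XT.nd (nat_lit 282) (nat_lit 840) (nat_lit 0) (XT.nd (nat_lit 94) (nat_lit 420) (nat_lit 0) (XT.lf (nat_lit 0) (nat_lit 1106673971) (nat_lit 420) (nat_lit 1732988550) (nat_lit 504) (nat_lit 6544168662) (nat_lit 97) (nat_lit 5) (nat_lit 102) (nat_lit 5) (nat_lit 103) (nat_lit 5) (nat_lit 359) (nat_lit 312) (nat_lit 274)) (XT.nd (nat_lit 94) (nat_lit 420) (nat_lit 0) (XT.lf (nat_lit 0) (nat_lit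 5312936212) (nat_lit 504) (nat_lit 3109145951) (nat_lit 84) (nat_lit 1112575428) (nat_lit 97) (nat_lit 5) (nat_lit 103) (nat_lit 5) (nat_lit 98) (nat_lit 5) (nat_lit 360) (nat_lit 312) (nat_lit 273)) (XT.lf (nat_lit 0) (nat_lit 2178656452) (nat_lit 420) (nat_lit 5671831183) (nat_lit 504) (nat_lit 1839895466) (nat_lit 92) (nat_lit 5) (nat_lit 97) (nat_lit 5) (nat_lit 98) (nat_lit 5) (nat_lit 361) (nat_lit 312) (nat_lit 272)))) (XT.nd (nat_lit 188) (nat_lit 420) (nat_lit 0) (XT.nd (nat_lit 94) (nat_lit 336) (nat_lit 0) (XT.lf (nat_lit 0) (nat_lit 585383133) (nat_lit 504) (nat_lit 2228250789) (nat_lit 84) (nat_lit 7037522847) (nat_lit 91) (nat_lit 5) (nat_lit 97) (nat_lit 5) (nat_lit 92) (nat_lit 5) (nat_lit 362) (nat_lit 312) (nat_lit 271)) (XT.lf (nat_lit 0) (nat_lit 3032451607) (nat_lit 420) (nat_lit 6819683438) (nat_lit 84) (nat_lit 164561942) (nat_lit 87) (nat_lit 5) (nat_lit 92) (nat_lit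 5) (nat_lit 88) (nat_lit 5) (nat_lit 363) (nat_lit 312) (nat_lit 270))) (XT.nd (nat_lit 94) (nat_lit 420) (nat_lit 0) (XT.lf (nat_lit 0) (nat_lit 5557824202) (nat_lit 420) (nat_lit 1443879172) (nat_lit 84) (nat_lit 3185421419) (nat_lit 87) (nat_lit 5) (nat_lit 92) (nat_lit 5) (nat_lit 88) (nat_lit 5) (nat_lit 364) (nat_lit 312) (nat_lit 269)) (XT.lf (nat_lit 0) (nat_lit 4115266955) (nat_lit 420) (nat_lit 4038890803) (nat_lit 504) (nat_lit 2208717844) (nat_lit 82) (nat_lit 5) (nat_lit 87) (nat_lit 5) (nat_lit 88) (nat_lit 5) (nat_lit 365) (nat_lit 312) (nat_lit 268))))))) (XT.nd (nat_lit 1316) (nat_lit 1596) (nat_lit 0) (XT.nd (nat_lit 658) (nat_lit 924) (nat_lit 0) (XT.nd (nat_lit 282) (nat_lit 1092) (nat_lit 0) (XT.nd (nat_lit 94) (nat_lit 336) (nat_lit 0) (XT.lf (nat_lit 0) (nat_lit 249539957) (nat_lit 504) (nat_lit 734160288) (nat_lit 84) (nat_lit 9561060749) (nat_lit 81) (nat_lit 5)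 (nat_lit 87) (nat_lit 5) (nat_lit 82) (nat_lit 5) (nat_lit 366) (nat_lit 312) (nat_lit 267)) (XT.nd (nat_lit 94) (nat_lit 0) (nat_lit 0) (XT.lf (nat_lit 0) (nat_lit 2763373767) (nat_lit 420) (nat_lit 5789942258) (nat_lit 84) (nat_lit 2177404775) (nat_lit 77) (nat_lit 5) (nat_lit 82) (nat_lit 5) (nat_lit 78) (nat_lit 5) (nat_lit 367) (nat_lit 312) (nat_lit 266)) (XT.lf (nat_lit 0) (nat_lit 5327587518) (nat_lit 420) (nat_lit 188361361) (nat_lit 84) (nat_lit 5407120356) (nat_lit 77) (nat_lit 5) (nat_lit 82) (nat_lit 5) (nat_lit 78) (nat_lit 5) (nat_lit 368) (nat_lit 312) (nat_lit 265)))) (XT.nd (nat_lit 188) (nat_lit 420) (nat_lit 0) (XT.nd (nat_lit 94) (nat_lit 336) (nat_lit 0) (XT.lf (nat_lit 0) (nat_lit 5635382639) (nat_lit 336) (nat_lit 2346485051) (nat_lit 420) (nat_lit 3138983304) (nat_lit 73) (nat_lit 5) (nat_lit 77) (nat_lit 5) (nat_lit 78) (nat_lit 5) (nat_lit 369) (nat_lit 312)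 (nat_lit 264)) (XT.lf (nat_lit 0) (nat_lit 252855108) (nat_lit 336) (nat_lit 10435586798) (nat_lit 420) (nat_lit 636999740) (nat_lit 69) (nat_lit 5) (nat_lit 73) (nat_lit 5) (nat_lit 74) (nat_lit 5) (nat_lit 370) (nat_lit 312) (nat_lit 263))) (XT.nd (nat_lit 94) (nat_lit 336) (nat_lit 0) (XT.lf (nat_lit 0) (nat_lit 1941044050) (nat_lit 420) (nat_lit 5357890708) (nat_lit 84) (nat_lit 4235562281) (nat_lit 68) (nat_lit 5) (nat_lit 73) (nat_lit 5) (nat_lit 69) (nat_lit 5) (nat_lit 371) (nat_lit 312) (nat_lit 262)) (XT.lf (nat_lit 0) (nat_lit 476155214) (nat_lit 336) (nat_lit 4072906720) (nat_lit 420) (nat_lit 7201660584) (nat_lit 64) (nat_lit 5) (nat_lit 68) (nat_lit 5) (nat_lit 69) (nat_lit 5) (nat_lit 372) (nat_lit 312) (nat_lit 261))))) (XT.nd (nat_lit 282) (nat_lit 588) (nat_lit 0) (XT.nd (nat_lit 94) (nat_lit 336) (nat_lit 0) (XT.lf (nat_lit 0) (nat_lit 6540518620) (nat_lit 336) (nat_lit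 710380484) (nat_lit 420) (nat_lit 4722117525) (nat_lit 64) (nat_lit 5) (nat_lit 68) (nat_lit 5) (nat_lit 69) (nat_lit 5) (nat_lit 373) (nat_lit 312) (nat_lit 260)) (XT.nd (nat_lit 94) (nat_lit 84) (nat_lit 0) (XT.lf (nat_lit 0) (nat_lit 514440754) (nat_lit 252) (nat_lit 9513206725) (nat_lit 336) (nat_lit 2174564198) (nat_lit 61) (nat_lit 5) (nat_lit 64) (nat_lit 5) (nat_lit 65) (nat_lit 5) (nat_lit 374) (nat_lit 312) (nat_lit 259)) (XT.lf (nat_lit 0) (nat_lit 465695967) (nat_lit 336) (nat_lit 5751612410) (nat_lit 84) (nat_lit 6220138150) (nat_lit 60) (nat_lit 5) (nat_lit 64) (nat_lit 5) (nat_lit 61) (nat_lit 5) (nat_lit 375) (nat_lit 312) (nat_lit 258)))) (XT.nd (nat_lit 188) (nat_lit 252) (nat_lit 0) (XT.nd (nat_lit 94) (nat_lit 0) (nat_lit 0) (XT.lf (nat_lit 0) (nat_lit 294193277) (nat_lit 336) (nat_lit 2813796666) (nat_lit 420) (nat_lit 9572150333) (nat_lit 56) (nat_lit 5) (nat_lit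 60) (nat_lit 5) (nat_lit 61) (nat_lit 5) (nat_lit 376) (nat_lit 312) (nat_lit 257)) (XT.lf (nat_lit 0) (nat_lit 5858961073) (nat_lit 420) (nat_lit 6349411063) (nat_lit 84) (nat_lit 720902917) (nat_lit 56) (nat_lit 5) (nat_lit 61) (nat_lit 5) (nat_lit 57) (nat_lit 5) (nat_lit 377) (nat_lit 312) (nat_lit 256))) (XT.nd (nat_lit 94) (nat_lit 252) (nat_lit 0) (XT.lf (nat_lit 0) (nat_lit 8685469327) (nat_lit 420) (nat_lit 211181069) (nat_lit 84) (nat_lit 4289484467) (nat_lit 56) (nat_lit 5) (nat_lit 61) (nat_lit 5) (nat_lit 57) (nat_lit 5) (nat_lit 378) (nat_lit 312) (nat_lit 255)) (XT.lf (nat_lit 0) (nat_lit 6181783276) (nat_lit 252) (nat_lit 5440576341) (nat_lit 336) (nat_lit 1827613275) (nat_lit 53) (nat_lit 5) (nat_lit 56) (nat_lit 5) (nat_lit 57) (nat_lit 5) (nat_lit 379) (nat_lit 312) (nat_lit 254)))))) (XT.nd (nat_lit 658) (nat_lit 672) (nat_lit 0) (XT.nd (nat_lit 282) (nat_lit 588) (nat_lit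 0) (XT.nd (nat_lit 94) (nat_lit 252) (nat_lit 0) (XT.lf (nat_lit 0) (nat_lit 876026638) (nat_lit 336) (nat_lit 1009974504) (nat_lit 84) (nat_lit 11836441964) (nat_lit 52) (nat_lit 5) (nat_lit 56) (nat_lit 5) (nat_lit 53) (nat_lit 5) (nat_lit 380) (nat_lit 312) (nat_lit 253)) (XT.nd (nat_lit 94) (nat_lit 0) (nat_lit 0) (XT.lf (nat_lit 0) (nat_lit 3661577149) (nat_lit 336) (nat_lit 8543641479) (nat_lit 84) (nat_lit 1796236537) (nat_lit 49) (nat_lit 5) (nat_lit 53) (nat_lit 5) (nat_lit 50) (nat_lit 5) (nat_lit 381) (nat_lit 312) (nat_lit 252)) (XT.lf (nat_lit 0) (nat_lit 6527287143) (nat_lit 336) (nat_lit 2216131403) (nat_lit 84) (nat_lit 5545556815) (nat_lit 49) (nat_lit 5) (nat_lit 53) (nat_lit 5) (nat_lit 50) (nat_lit 5) (nat_lit 382) (nat_lit 312) (nat_lit 251)))) (XT.nd (nat_lit 188) (nat_lit 336) (nat_lit 0) (XT.nd (nat_lit 94) (nat_lit 0) (nat_lit 0) (XT.lf (nat_lit 0) (nat_lit 4338123838)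 (nat_lit 252) (nat_lit 5151108355) (nat_lit 336) (nat_lit 5095615586) (nat_lit 46) (nat_lit 5) (nat_lit 49) (nat_lit 5) (nat_lit 50) (nat_lit 5) (nat_lit 383) (nat_lit 312) (nat_lit 250)) (XT.lf (nat_lit 0) (nat_lit 11087170667) (nat_lit 252) (nat_lit 1444267870) (nat_lit 336) (nat_lit 2358449269) (nat_lit 46) (nat_lit 5) (nat_lit 49) (nat_lit 5) (nat_lit 50) (nat_lit 5) (nat_lit 384) (nat_lit 312) (nat_lit 249))) (XT.nd (nat_lit 94) (nat_lit 0) (nat_lit 0) (XT.lf (nat_lit 0) (nat_lit 471704478) (nat_lit 336) (nat_lit 12387992771) (nat_lit 84) (nat_lit 2343684539) (nat_lit 42) (nat_lit 5) (nat_lit 46) (nat_lit 5) (nat_lit 43) (nat_lit 5) (nat_lit 385) (nat_lit 312) (nat_lit 248)) (XT.lf (nat_lit 0) (nat_lit 3362324951) (nat_lit 336) (nat_lit 5900012282) (nat_lit 84) (nat_lit 6262584568) (nat_lit 42) (nat_lit 5) (nat_lit 46) (nat_lit 5) (nat_lit 43) (nat_lit 5) (nat_lit 386) (nat_lit 312)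 (nat_lit 247))))) (XT.nd (nat_lit 282) (nat_lit 504) (nat_lit 0) (XT.nd (nat_lit 94) (nat_lit 0) (nat_lit 0) (XT.lf (nat_lit 0) (nat_lit 751799135) (nat_lit 168) (nat_lit 5565853542) (nat_lit 252) (nat_lit 9539145464) (nat_lit 40) (nat_lit 5) (nat_lit 42) (nat_lit 5) (nat_lit 43) (nat_lit 5) (nat_lit 387) (nat_lit 312) (nat_lit 246)) (XT.nd (nat_lit 94) (nat_lit 0) (nat_lit 0) (XT.lf (nat_lit 0) (nat_lit 7679076437) (nat_lit 168) (nat_lit 1713322950) (nat_lit 252) (nat_lit 6805337526) (nat_lit 40) (nat_lit 5) (nat_lit 42) (nat_lit 5) (nat_lit 43) (nat_lit 5) (nat_lit 388) (nat_lit 312) (nat_lit 245)) (XT.lf (nat_lit 0) (nat_lit 12552931541) (nat_lit 252) (nat_lit 1800843597) (nat_lit 84) (nat_lit 2195350495) (nat_lit 40) (nat_lit 5) (nat_lit 43) (nat_lit 5) (nat_lit 41) (nat_lit 5) (nat_lit 389) (nat_lit 312) (nat_lit 244)))) (XT.nd (nat_lit 188) (nat_lit 168) (nat_lit 0) (XT.nd (nat_lit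 94) (nat_lit 84) (nat_lit 0) (XT.lf (nat_lit 0) (nat_lit 5159073142) (nat_lit 252) (nat_lit 10688450318) (nat_lit 336) (nat_lit 1062382498) (nat_lit 37) (nat_lit 5) (nat_lit 40) (nat_lit 5) (nat_lit 41) (nat_lit 5) (nat_lit 390) (nat_lit 312) (nat_lit 243)) (XT.lf (nat_lit 0) (nat_lit 1912353014) (nat_lit 336) (nat_lit 4978564247) (nat_lit 84) (nat_lit 10390318702) (nat_lit 36) (nat_lit 5) (nat_lit 40) (nat_lit 5) (nat_lit 37) (nat_lit 5) (nat_lit 391) (nat_lit 312) (nat_lit 242))) (XT.nd (nat_lit 94) (nat_lit 0) (nat_lit 0) (XT.lf (nat_lit 0) (nat_lit 1983022865) (nat_lit 168) (nat_lit 2964590055) (nat_lit 252) (nat_lit 12716023277) (nat_lit 34) (nat_lit 5) (nat_lit 36) (nat_lit 5) (nat_lit 37) (nat_lit 5) (nat_lit 392) (nat_lit 312) (nat_lit 241)) (XT.lf (nat_lit 0) (nat_lit 8108872469) (nat_lit 252) (nat_lit 8853632935) (nat_lit 84) (nat_lit 1093978997) (nat_lit 34) (nat_lit 5) (nat_lit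 37) (nat_lit 5) (nat_lit 35) (nat_lit 5) (nat_lit 393) (nat_lit 312) (nat_lit 240))))))))
noncomputable def xc80 : XT := (XT.nd (nat_lit 2538) (nat_lit 588) (nat_lit 0) (XT.nd (nat_lit 1222) (nat_lit 672) (nat_lit 0) (XT.nd (nat_lit 564) (nat_lit 588) (nat_lit 0) (XT.nd (nat_lit 282) (nat_lit 252) (nat_lit 0) (XT.nd (nat_lit 94) (nat_lit 168) (nat_lit 0) (XT.lf (nat_lit 0) (nat_lit 11368878759) (nat_lit 252) (nat_lit 1892235454) (nat_lit 84) (nat_lit 5199910083) (nat_lit 34) (nat_lit 5) (nat_lit 37) (nat_lit 5) (nat_lit 35) (nat_lit 5) (nat_lit 394) (nat_lit 312) (nat_lit 239)) (XT.nd (nat_lit 94) (nat_lit 0) (nat_lit 0) (XT.lf (nat_lit 0) (nat_lit 5342408978) (nat_lit 168) (nat_lit 9410928411) (nat_lit 252) (nat_lit 4123586262) (nat_lit 32) (nat_lit 5) (nat_lit 34) (nat_lit 5) (nat_lit 35) (nat_lit 5) (nat_lit 395) (nat_lit 312) (nat_lit 238)) (XT.lf (nat_lit 0) (nat_lit 12793427736)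 (nat_lit 168) (nat_lit 5440647789) (nat_lit 252) (nat_lit 1071404253) (nat_lit 32) (nat_lit 5) (nat_lit 34) (nat_lit 5) (nat_lit 35) (nat_lit 5) (nat_lit 396) (nat_lit 312) (nat_lit 237)))) (XT.nd (nat_lit 94) (nat_lit 0) (nat_lit 0) (XT.lf (nat_lit 0) (nat_lit 675544608) (nat_lit 168) (nat_lit 1338945649) (nat_lit 252) (nat_lit 17732348023) (nat_lit 29) (nat_lit 5) (nat_lit 31) (nat_lit 5) (nat_lit 32) (nat_lit 5) (nat_lit 397) (nat_lit 312) (nat_lit 236)) (XT.nd (nat_lit 94) (nat_lit 0) (nat_lit 0) (XT.lf (nat_lit 0) (nat_lit 5241854160) (nat_lit 252) (nat_lit 12065210302) (nat_lit 84) (nat_lit 2891962318) (nat_lit 29) (nat_lit 5) (nat_lit 32) (nat_lit 5) (nat_lit 30) (nat_lit 5) (nat_lit 398) (nat_lit 312) (nat_lit 235)) (XT.lf (nat_lit 0) (nat_lit 8556263377) (nat_lit 252) (nat_lit 4900071399) (nat_lit 84) (nat_lit 7208759118) (nat_lit 29) (nat_lit 5) (nat_lit 32) (nat_lit 5) (nat_lit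 30) (nat_lit 5) (nat_lit 399) (nat_lit 312) (nat_lit 234))))) (XT.nd (nat_lit 282) (nat_lit 420) (nat_lit 0) (XT.nd (nat_lit 94) (nat_lit 0) (nat_lit 0) (XT.lf (nat_lit 0) (nat_lit 2491880159) (nat_lit 168) (nat_lit 9479816549) (nat_lit 252) (nat_lit 9173417677) (nat_lit 27) (nat_lit 5) (nat_lit 29) (nat_lit 5) (nat_lit 30) (nat_lit 5) (nat_lit 400) (nat_lit 312) (nat_lit 233)) (XT.nd (nat_lit 94) (nat_lit 0) (nat_lit 0) (XT.lf (nat_lit 0) (nat_lit 10169630317) (nat_lit 168) (nat_lit 5347383543) (nat_lit 252) (nat_lit 6121717567) (nat_lit 27) (nat_lit 5) (nat_lit 29) (nat_lit 5) (nat_lit 30) (nat_lit 5) (nat_lit 401) (nat_lit 312) (nat_lit 232)) (XT.lf (nat_lit 0) (nat_lit 18042366760) (nat_lit 168) (nat_lit 1104906007) (nat_lit 252) (nat_lit 3000544765) (nat_lit 27) (nat_lit 5) (nat_lit 29) (nat_lit 5) (nat_lit 30) (nat_lit 5) (nat_lit 402) (nat_lit 312) (nat_lit 231)))) (XT.nd (nat_lit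 188) (nat_lit 168) (nat_lit 0) (XT.nd (nat_lit 94) (nat_lit 0) (nat_lit 0) (XT.lf (nat_lit 0) (nat_lit 254419407) (nat_lit 252) (nat_lit 19192549757) (nat_lit 84) (nat_lit 3223832137) (nat_lit 24) (nat_lit 5) (nat_lit 27) (nat_lit 5) (nat_lit 25) (nat_lit 5) (nat_lit 403) (nat_lit 312) (nat_lit 230)) (XT.lf (nat_lit 0) (nat_lit 3578664587) (nat_lit 252) (nat_lit 11910585096) (nat_lit 84) (nat_lit 7718391939) (nat_lit 24) (nat_lit 5) (nat_lit 27) (nat_lit 5) (nat_lit 25) (nat_lit 5) (nat_lit 404) (nat_lit 312) (nat_lit 229))) (XT.nd (nat_lit 94) (nat_lit 168) (nat_lit 0) (XT.lf (nat_lit 0) (nat_lit 6982377829) (nat_lit 252) (nat_lit 4444062834) (nat_lit 84) (nat_lit 12334770279) (nat_lit 24) (nat_lit 5) (nat_lit 27) (nat_lit 5) (nat_lit 25) (nat_lit 5) (nat_lit 405) (nat_lit 312) (nat_lit 228)) (XT.lf (nat_lit 0) (nat_lit 3277496944) (nat_lit 168) (nat_lit 7222541612) (nat_lit 252) (nat_lit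 13831009247) (nat_lit 22) (nat_lit 5) (nat_lit 24) (nat_lit 5) (nat_lit 25) (nat_lit 5) (nat_lit 406) (nat_lit 312) (nat_lit 227)))))) (XT.nd (nat_lit 658) (nat_lit 336) (nat_lit 0) (XT.nd (nat_lit 282) (nat_lit 252) (nat_lit 0) (XT.nd (nat_lit 94) (nat_lit 84) (nat_lit 0) (XT.lf (nat_lit 0) (nat_lit 11289211212) (nat_lit 168) (nat_lit 2859484601) (nat_lit 252) (nat_lit 10768535048) (nat_lit 22) (nat_lit 5) (nat_lit 24) (nat_lit 5) (nat_lit 25) (nat_lit 5) (nat_lit 407) (nat_lit 312) (nat_lit 226)) (XT.nd (nat_lit 94) (nat_lit 84) (nat_lit 0) (XT.lf (nat_lit 0) (nat_lit 17903556952) (nat_lit 252) (nat_lit 6027532910) (nat_lit 84) (nat_lit 1590021876) (nat_lit 22) (nat_lit 5) (nat_lit 25) (nat_lit 5) (nat_lit 23) (nat_lit 4) (nat_lit 408) (nat_lit 312) (nat_lit 225)) (XT.lf (nat_lit 0) (nat_lit 1776151805) (nat_lit 84) (nat_lit 20021882447) (nat_lit 168) (nat_lit 4344279905) (nat_lit 21)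 (nat_lit 5) (nat_lit 22) (nat_lit 5) (nat_lit 23) (nat_lit 4) (nat_lit 409) (nat_lit 312) (nat_lit 224)))) (XT.nd (nat_lit 188) (nat_lit 168) (nat_lit 0) (XT.nd (nat_lit 94) (nat_lit 84) (nat_lit 0) (XT.lf (nat_lit 0) (nat_lit 9906647089) (nat_lit 84) (nat_lit 15945389912) (nat_lit 168) (nat_lit 928848724) (nat_lit 21) (nat_lit 5) (nat_lit 22) (nat_lit 5) (nat_lit 23) (nat_lit 4) (nat_lit 410) (nat_lit 312) (nat_lit 223)) (XT.lf (nat_lit 0) (nat_lit 2520690171) (nat_lit 168) (nat_lit 9212772336) (nat_lit 84) (nat_lit 15704953336) (nat_lit 20) (nat_lit 5) (nat_lit 22) (nat_lit 5) (nat_lit 21) (nat_lit 5) (nat_lit 411) (nat_lit 312) (nat_lit 222))) (XT.nd (nat_lit 94) (nat_lit 168) (nat_lit 0) (XT.lf (nat_lit 0) (nat_lit 6037732100) (nat_lit 168) (nat_lit 1360102879) (nat_lit 84) (nat_lit 20718093054) (nat_lit 20) (nat_lit 5) (nat_lit 22) (nat_lit 5) (nat_lit 21) (nat_lit 5) (nat_lit 412)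 (nat_lit 312) (nat_lit 221)) (XT.lf (nat_lit 0) (nat_lit 6832894332) (nat_lit 168) (nat_lit 2876263019) (nat_lit 252) (nat_lit 19103154348) (nat_lit 18) (nat_lit 5) (nat_lit 20) (nat_lit 5) (nat_lit 21) (nat_lit 5) (nat_lit 413) (nat_lit 312) (nat_lit 220))))) (XT.nd (nat_lit 282) (nat_lit 252) (nat_lit 0) (XT.nd (nat_lit 94) (nat_lit 84) (nat_lit 0) (XT.lf (nat_lit 0) (nat_lit 13505010366) (nat_lit 252) (nat_lit 14275571760) (nat_lit 84) (nat_lit 1748588111) (nat_lit 18) (nat_lit 5) (nat_lit 21) (nat_lit 5) (nat_lit 19) (nat_lit 4) (nat_lit 414) (nat_lit 312) (nat_lit 219)) (XT.nd (nat_lit 94) (nat_lit 84) (nat_lit 0) (XT.lf (nat_lit 0) (nat_lit 17426998386) (nat_lit 252) (nat_lit 6396956140) (nat_lit 84) (nat_lit 6443223789) (nat_lit 18) (nat_lit 5) (nat_lit 21) (nat_lit 5) (nat_lit 19) (nat_lit 4) (nat_lit 415) (nat_lit 312) (nat_lit 218)) (XT.lf (nat_lit 0) (nat_lit 1724615580) (nat_lit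 84) (nat_lit 19742862473) (nat_lit 168) (nat_lit 9559834854) (nat_lit 17) (nat_lit 5) (nat_lit 18) (nat_lit 5) (nat_lit 19) (nat_lit 4) (nat_lit 416) (nat_lit 312) (nat_lit 217)))) (XT.nd (nat_lit 188) (nat_lit 252) (nat_lit 0) (XT.nd (nat_lit 94) (nat_lit 0) (nat_lit 0) (XT.lf (nat_lit 0) (nat_lit 10194175205) (nat_lit 84) (nat_lit 15484048658) (nat_lit 168) (nat_lit 6130567021) (nat_lit 17) (nat_lit 5) (nat_lit 18) (nat_lit 5) (nat_lit 19) (nat_lit 4) (nat_lit 417) (nat_lit 312) (nat_lit 216)) (XT.lf (nat_lit 0) (nat_lit 18891811352) (nat_lit 84) (nat_lit 11108388504) (nat_lit 168) (nat_lit 2613976697) (nat_lit 17) (nat_lit 5) (nat_lit 18) (nat_lit 5) (nat_lit 19) (nat_lit 4) (nat_lit 418) (nat_lit 312) (nat_lit 215))) (XT.nd (nat_lit 94) (nat_lit 168) (nat_lit 0) (XT.lf (nat_lit 0) (nat_lit 973631685) (nat_lit 168) (nat_lit 5628595160) (nat_lit 84) (nat_lit 26841660439) (nat_lit 16)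 (nat_lit 5) (nat_lit 18) (nat_lit 5) (nat_lit 17) (nat_lit 5) (nat_lit 419) (nat_lit 312) (nat_lit 214)) (XT.lf (nat_lit 0) (nat_lit 2710179407) (nat_lit 168) (nat_lit 1917825999) (nat_lit 252) (nat_lit 29669366927) (nat_lit 14) (nat_lit 5) (nat_lit 16) (nat_lit 5) (nat_lit 17) (nat_lit 5) (nat_lit 420) (nat_lit 312) (nat_lit 213))))))) (XT.nd (nat_lit 1316) (nat_lit 252) (nat_lit 0) (XT.nd (nat_lit 658) (nat_lit 252) (nat_lit 0) (XT.nd (nat_lit 282) (nat_lit 84) (nat_lit 0) (XT.nd (nat_lit 94) (nat_lit 0) (nat_lit 0) (XT.lf (nat_lit 0) (nat_lit 8463062096) (nat_lit 252) (nat_lit 23813671745) (nat_lit 84) (nat_lit 2897605944) (nat_lit 14) (nat_lit 5) (nat_lit 17) (nat_lit 5) (nat_lit 15) (nat_lit 4) (nat_lit 421) (nat_lit 312) (nat_lit 212)) (XT.nd (nat_lit 94) (nat_lit 0) (nat_lit 0) (XT.lf (nat_lit 0) (nat_lit 12418281526) (nat_lit 252) (nat_lit 15850113107) (nat_lit 84) (nat_lit 7809077428)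 (nat_lit 14) (nat_lit 5) (nat_lit 17) (nat_lit 5) (nat_lit 15) (nat_lit 4) (nat_lit 422) (nat_lit 312) (nat_lit 211)) (XT.lf (nat_lit 0) (nat_lit 16478684394) (nat_lit 252) (nat_lit 7671123248) (nat_lit 84) (nat_lit 12858303721) (nat_lit 14) (nat_lit 5) (nat_lit 17) (nat_lit 5) (nat_lit 15) (nat_lit 4) (nat_lit 423) (nat_lit 312) (nat_lit 210)))) (XT.nd (nat_lit 188) (nat_lit 0) (nat_lit 0) (XT.nd (nat_lit 94) (nat_lit 0) (nat_lit 0) (XT.lf (nat_lit 0) (nat_lit 744981799) (nat_lit 84) (nat_lit 19909998049) (nat_lit 168) (nat_lit 17311876190) (nat_lit 13) (nat_lit 5) (nat_lit 14) (nat_lit 5) (nat_lit 15) (nat_lit 4) (nat_lit 424) (nat_lit 312) (nat_lit 209)) (XT.lf (nat_lit 0) (nat_lit 9548252169) (nat_lit 84) (nat_lit 15472858629) (nat_lit 168) (nat_lit 13931324210) (nat_lit 13) (nat_lit 5) (nat_lit 14) (nat_lit 5) (nat_lit 15) (nat_lit 4) (nat_lit 425) (nat_lit 312) (nat_lit 208))) (XT.nd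 (nat_lit 94) (nat_lit 0) (nat_lit 0) (XT.lf (nat_lit 0) (nat_lit 18593709645) (nat_lit 84) (nat_lit 10911975575) (nat_lit 168) (nat_lit 10462280454) (nat_lit 13) (nat_lit 5) (nat_lit 14) (nat_lit 5) (nat_lit 15) (nat_lit 4) (nat_lit 426) (nat_lit 312) (nat_lit 207)) (XT.lf (nat_lit 0) (nat_lit 27889258024) (nat_lit 84) (nat_lit 6223363650) (nat_lit 168) (nat_lit 6901713718) (nat_lit 13) (nat_lit 5) (nat_lit 14) (nat_lit 5) (nat_lit 15) (nat_lit 4) (nat_lit 427) (nat_lit 312) (nat_lit 206))))) (XT.nd (nat_lit 282) (nat_lit 84) (nat_lit 0) (XT.nd (nat_lit 94) (nat_lit 168) (nat_lit 0) (XT.lf (nat_lit 0) (nat_lit 37443019631) (nat_lit 84) (nat_lit 1402926008) (nat_lit 168) (nat_lit 3246512828) (nat_lit 13) (nat_lit 5) (nat_lit 14) (nat_lit 5) (nat_lit 15) (nat_lit 4) (nat_lit 428) (nat_lit 312) (nat_lit 205)) (XT.nd (nat_lit 94) (nat_lit 0) (nat_lit 0) (XT.lf (nat_lit 0) (nat_lit 570989686)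 (nat_lit 168) (nat_lit 39100636019) (nat_lit 84) (nat_lit 3529274445) (nat_lit 11) (nat_lit 5) (nat_lit 13) (nat_lit 5) (nat_lit 12) (nat_lit 4) (nat_lit 429) (nat_lit 312) (nat_lit 204)) (XT.lf (nat_lit 0) (nat_lit 4487535431) (nat_lit 168) (nat_lit 31200276661) (nat_lit 84) (nat_lit 8652332586) (nat_lit 11) (nat_lit 5) (nat_lit 13) (nat_lit 5) (nat_lit 12) (nat_lit 4) (nat_lit 430) (nat_lit 312) (nat_lit 203)))) (XT.nd (nat_lit 188) (nat_lit 84) (nat_lit 0) (XT.nd (nat_lit 94) (nat_lit 0) (nat_lit 0) (XT.lf (nat_lit 0) (nat_lit 8510377956) (nat_lit 168) (nat_lit 23082671871) (nat_lit 84) (nat_lit 13920859495) (nat_lit 11) (nat_lit 5) (nat_lit 13) (nat_lit 5) (nat_lit 12) (nat_lit 4) (nat_lit 431) (nat_lit 312) (nat_lit 202)) (XT.lf (nat_lit 0) (nat_lit 12643032369) (nat_lit 168) (nat_lit 14740728595) (nat_lit 84) (nat_lit 19339458740) (nat_lit 11) (nat_lit 5) (nat_lit 13) (nat_lit 5)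 (nat_lit 12) (nat_lit 4) (nat_lit 432) (nat_lit 312) (nat_lit 201))) (XT.nd (nat_lit 94) (nat_lit 84) (nat_lit 0) (XT.lf (nat_lit 0) (nat_lit 16889109725) (nat_lit 168) (nat_lit 6167157757) (nat_lit 84) (nat_lit 24912865020) (nat_lit 11) (nat_lit 5) (nat_lit 13) (nat_lit 5) (nat_lit 12) (nat_lit 4) (nat_lit 433) (nat_lit 312) (nat_lit 200)) (XT.lf (nat_lit 0) (nat_lit 2698183388) (nat_lit 84) (nat_lit 18580073391) (nat_lit 168) (nat_lit 27973701501) (nat_lit 10) (nat_lit 5) (nat_lit 11) (nat_lit 5) (nat_lit 12) (nat_lit 4) (nat_lit 434) (nat_lit 312) (nat_lit 199)))))) (XT.nd (nat_lit 658) (nat_lit 168) (nat_lit 0) (XT.nd (nat_lit 282) (nat_lit 84) (nat_lit 0) (XT.nd (nat_lit 94) (nat_lit 0) (nat_lit 0) (XT.lf (nat_lit 0) (nat_lit 11937994697) (nat_lit 84) (nat_lit 13913236888) (nat_lit 168) (nat_lit 24720478682) (nat_lit 10) (nat_lit 5) (nat_lit 11) (nat_lit 5) (nat_lit 12) (nat_lit 4)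 (nat_lit 435) (nat_lit 312) (nat_lit 198)) (XT.nd (nat_lit 94) (nat_lit 0) (nat_lit 0) (XT.lf (nat_lit 0) (nat_lit 21437611258) (nat_lit 84) (nat_lit 9113956357) (nat_lit 168) (nat_lit 21379787901) (nat_lit 10) (nat_lit 5) (nat_lit 11) (nat_lit 5) (nat_lit 12) (nat_lit 4) (nat_lit 436) (nat_lit 312) (nat_lit 197)) (XT.lf (nat_lit 0) (nat_lit 31205333708) (nat_lit 84) (nat_lit 4178038252) (nat_lit 168) (nat_lit 17948710105) (nat_lit 10) (nat_lit 5) (nat_lit 11) (nat_lit 5) (nat_lit 12) (nat_lit 4) (nat_lit 437) (nat_lit 312) (nat_lit 196)))) (XT.nd (nat_lit 188) (nat_lit 84) (nat_lit 0) (XT.nd (nat_lit 94) (nat_lit 0) (nat_lit 0) (XT.lf (nat_lit 0) (nat_lit 40359506691) (nat_lit 168) (nat_lit 13534057009) (nat_lit 0) (nat_lit 881290947) (nat_lit 10) (nat_lit 5) (nat_lit 12) (nat_lit 4) (nat_lit 10) (nat_lit 4) (nat_lit 438) (nat_lit 312) (nat_lit 195)) (XT.lf (nat_lit 0) (nat_lit 45517231635)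 (nat_lit 168) (nat_lit 4741073783) (nat_lit 0) (nat_lit 6001641167) (nat_lit 10) (nat_lit 5) (nat_lit 12) (nat_lit 4) (nat_lit 10) (nat_lit 4) (nat_lit 439) (nat_lit 312) (nat_lit 194))) (XT.nd (nat_lit 94) (nat_lit 0) (nat_lit 0) (XT.lf (nat_lit 0) (nat_lit 4385625722) (nat_lit 84) (nat_lit 46477423277) (nat_lit 84) (nat_lit 6925546670) (nat_lit 9) (nat_lit 4) (nat_lit 10) (nat_lit 5) (nat_lit 10) (nat_lit 4) (nat_lit 440) (nat_lit 312) (nat_lit 193)) (XT.lf (nat_lit 0) (nat_lit 13867814463) (nat_lit 84) (nat_lit 42540612550) (nat_lit 84) (nat_lit 2953506682) (nat_lit 9) (nat_lit 4) (nat_lit 10) (nat_lit 5) (nat_lit 10) (nat_lit 4) (nat_lit 441) (nat_lit 312) (nat_lit 192))))) (XT.nd (nat_lit 282) (nat_lit 84) (nat_lit 0) (XT.nd (nat_lit 94) (nat_lit 0) (nat_lit 0) (XT.lf (nat_lit 0) (nat_lit 1106969317) (nat_lit 168) (nat_lit 37374161319) (nat_lit 84) (nat_lit 22501273646) (nat_lit 8)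 (nat_lit 5) (nat_lit 10) (nat_lit 5) (nat_lit 9) (nat_lit 4) (nat_lit 442) (nat_lit 312) (nat_lit 191)) (XT.nd (nat_lit 94) (nat_lit 0) (nat_lit 0) (XT.lf (nat_lit 0) (nat_lit 5221620659) (nat_lit 168) (nat_lit 29054626053) (nat_lit 84) (nat_lit 28374617914) (nat_lit 8) (nat_lit 5) (nat_lit 10) (nat_lit 5) (nat_lit 9) (nat_lit 4) (nat_lit 443) (nat_lit 312) (nat_lit 190)) (XT.lf (nat_lit 0) (nat_lit 9451676222) (nat_lit 168) (nat_lit 20499853024) (nat_lit 84) (nat_lit 34418095084) (nat_lit 8) (nat_lit 5) (nat_lit 10) (nat_lit 5) (nat_lit 9) (nat_lit 4) (nat_lit 444) (nat_lit 312) (nat_lit 189)))) (XT.nd (nat_lit 188) (nat_lit 84) (nat_lit 0) (XT.nd (nat_lit 94) (nat_lit 0) (nat_lit 0) (XT.lf (nat_lit 0) (nat_lit 13800832172) (nat_lit 168) (nat_lit 11702367188) (nat_lit 84) (nat_lit 40636985865) (nat_lit 8) (nat_lit 5) (nat_lit 10) (nat_lit 5) (nat_lit 9) (nat_lit 4) (nat_lit 445) (nat_lit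 312) (nat_lit 188)) (XT.lf (nat_lit 0) (nat_lit 18272888742) (nat_lit 168) (nat_lit 2654481422) (nat_lit 84) (nat_lit 47036724239) (nat_lit 8) (nat_lit 5) (nat_lit 10) (nat_lit 5) (nat_lit 9) (nat_lit 4) (nat_lit 446) (nat_lit 312) (nat_lit 187))) (XT.nd (nat_lit 94) (nat_lit 0) (nat_lit 0) (XT.lf (nat_lit 0) (nat_lit 6784092269) (nat_lit 84) (nat_lit 16152874130) (nat_lit 168) (nat_lit 46904022786) (nat_lit 7) (nat_lit 5) (nat_lit 8) (nat_lit 5) (nat_lit 9) (nat_lit 4) (nat_lit 447) (nat_lit 312) (nat_lit 186)) (XT.lf (nat_lit 0) (nat_lit 16547235447) (nat_lit 84) (nat_lit 11213271735) (nat_lit 168) (nat_lit 44013101394) (nat_lit 7) (nat_lit 5) (nat_lit 8) (nat_lit 5) (nat_lit 9) (nat_lit 4) (nat_lit 448) (nat_lit 312) (nat_lit 185))))))))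
noncomputable def xc81 : XT := (XT.nd (nat_lit 49444) (nat_lit 0) (nat_lit 5124) (XT.nd (nat_lit 48128) (nat_lit 0) (nat_lit 13944) (XT.nd (nat_lit 47470) (nat_lit 0) (nat_lit 21336) (XT.nd (nat_lit 47188) (nat_lit 0) (nat_lit 22848) (XT.nd (nat_lit 94) (nat_lit 0) (nat_lit 0) (XT.lf (nat_lit 0) (nat_lit 26590649630) (nat_lit 84) (nat_lit 6131051881) (nat_lit 168) (nat_lit 41042720494) (nat_lit 7) (nat_lit 5) (nat_lit 8) (nat_lit 5) (nat_lit 9) (nat_lit 4) (nat_lit 449) (nat_lit 312) (nat_lit 184)) (XT.nd (nat_lit 47000) (nat_lit 0) (nat_lit 23436) (XT.lf (nat_lit 0) (nat_lit 36923110616) (nat_lit 84) (nat_lit 901773792) (nat_lit 168) (nat_lit 37990284609) (nat_lit 7) (nat_lit 5) (nat_lit 8) (nat_lit 5) (nat_lit 9) (nat_lit 4) (nat_lit 450) (nat_lit 312) (nat_lit 183)) (XT.lf (nat_lit 0) (nat_lit 2796247982) (nat_lit 84) (nat_lit 216960607) (nat_lit 84) (nat_lit 216960607) (nat_lit 286)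 (nat_lit 4) (nat_lit 287) (nat_lit 5) (nat_lit 287) (nat_lit 4) (nat_lit 319) (nat_lit 313) (nat_lit 313)))) (XT.nd (nat_lit 94) (nat_lit 336) (nat_lit 0) (XT.lf (nat_lit 0) (nat_lit 2291916495) (nat_lit 168) (nat_lit 136205582) (nat_lit 252) (nat_lit 4042588646) (nat_lit 283) (nat_lit 5) (nat_lit 285) (nat_lit 5) (nat_lit 286) (nat_lit 4) (nat_lit 320) (nat_lit 313) (nat_lit 312)) (XT.nd (nat_lit 94) (nat_lit 336) (nat_lit 0) (XT.lf (nat_lit 0) (nat_lit 5271224777) (nat_lit 252) (nat_lit 988202318) (nat_lit 0) (nat_lit 225077370) (nat_lit 283) (nat_lit 5) (nat_lit 286) (nat_lit 4) (nat_lit 283) (nat_lit 4) (nat_lit 321) (nat_lit 313) (nat_lit 311)) (XT.lf (nat_lit 0) (nat_lit 1586362828) (nat_lit 336) (nat_lit 4239216205) (nat_lit 84) (nat_lit 675419368) (nat_lit 279) (nat_lit 5) (nat_lit 283) (nat_lit 5) (nat_lit 280) (nat_lit 4) (nat_lit 322) (nat_lit 313) (nat_lit 310))))) (XT.nd (nat_lit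 282) (nat_lit 1092) (nat_lit 0) (XT.nd (nat_lit 94) (nat_lit 420) (nat_lit 0) (XT.lf (nat_lit 0) (nat_lit 4353301205) (nat_lit 336) (nat_lit 965423862) (nat_lit 84) (nat_lit 1201997384) (nat_lit 279) (nat_lit 5) (nat_lit 283) (nat_lit 5) (nat_lit 280) (nat_lit 4) (nat_lit 323) (nat_lit 313) (nat_lit 309)) (XT.nd (nat_lit 94) (nat_lit 0) (nat_lit 0) (XT.lf (nat_lit 0) (nat_lit 571790475) (nat_lit 420) (nat_lit 4159285199) (nat_lit 84) (nat_lit 1812404196) (nat_lit 274) (nat_lit 5) (nat_lit 279) (nat_lit 5) (nat_lit 275) (nat_lit 5) (nat_lit 324) (nat_lit 313) (nat_lit 308)) (XT.lf (nat_lit 0) (nat_lit 3261087647) (nat_lit 420) (nat_lit 798978659) (nat_lit 84) (nat_lit 2509164498) (nat_lit 274) (nat_lit 5) (nat_lit 279) (nat_lit 5) (nat_lit 275) (nat_lit 5) (nat_lit 325) (nat_lit 313) (nat_lit 307)))) (XT.nd (nat_lit 188) (nat_lit 588) (nat_lit 0) (XT.nd (nat_lit 94) (nat_lit 84) (nat_lit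 0) (XT.lf (nat_lit 0) (nat_lit 2650867995) (nat_lit 420) (nat_lit 3310169454) (nat_lit 504) (nat_lit 637107648) (nat_lit 269) (nat_lit 5) (nat_lit 274) (nat_lit 5) (nat_lit 275) (nat_lit 5) (nat_lit 326) (nat_lit 313) (nat_lit 306)) (XT.lf (nat_lit 0) (nat_lit 1986428011) (nat_lit 504) (nat_lit 492032050) (nat_lit 84) (nat_lit 4151721843) (nat_lit 268) (nat_lit 5) (nat_lit 274) (nat_lit 5) (nat_lit 269) (nat_lit 5) (nat_lit 327) (nat_lit 313) (nat_lit 305))) (XT.nd (nat_lit 94) (nat_lit 84) (nat_lit 0) (XT.lf (nat_lit 0) (nat_lit 3057572143) (nat_lit 504) (nat_lit 1555910793) (nat_lit 588) (nat_lit 2051644517) (nat_lit 262) (nat_lit 5) (nat_lit 268) (nat_lit 5) (nat_lit 269) (nat_lit 5) (nat_lit 328) (nat_lit 313) (nat_lit 304)) (XT.lf (nat_lit 0) (nat_lit 520345083) (nat_lit 588) (nat_lit 47311882) (nat_lit 84) (nat_lit 6136110889) (nat_lit 261) (nat_lit 5) (nat_lit 268) (nat_lit 5) (nat_lit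 262) (nat_lit 5) (nat_lit 329) (nat_lit 313) (nat_lit 303)))))) (XT.nd (nat_lit 658) (nat_lit 4368) (nat_lit 0) (XT.nd (nat_lit 282) (nat_lit 1680) (nat_lit 0) (XT.nd (nat_lit 94) (nat_lit 756) (nat_lit 0) (XT.lf (nat_lit 0) (nat_lit 3079867551) (nat_lit 672) (nat_lit 3142337051) (nat_lit 84) (nat_lit 522448098) (nat_lit 254) (nat_lit 5) (nat_lit 262) (nat_lit 5) (nat_lit 255) (nat_lit 5) (nat_lit 330) (nat_lit 313) (nat_lit 302)) (XT.nd (nat_lit 94) (nat_lit 84) (nat_lit 0) (XT.lf (nat_lit 0) (nat_lit 515404534) (nat_lit 672) (nat_lit 5125849926) (nat_lit 756) (nat_lit 1147993098) (nat_lit 246) (nat_lit 5) (nat_lit 254) (nat_lit 5) (nat_lit 255) (nat_lit 5) (nat_lit 331) (nat_lit 313) (nat_lit 301)) (XT.lf (nat_lit 0) (nat_lit 1363017824) (nat_lit 756) (nat_lit 2567095450) (nat_lit 84) (nat_lit 2906465816) (nat_lit 245) (nat_lit 5) (nat_lit 254) (nat_lit 5) (nat_lit 246) (nat_lit 5) (nat_lit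 332) (nat_lit 313) (nat_lit 300)))) (XT.nd (nat_lit 188) (nat_lit 924) (nat_lit 0) (XT.nd (nat_lit 94) (nat_lit 0) (nat_lit 0) (XT.lf (nat_lit 0) (nat_lit 1198840588) (nat_lit 756) (nat_lit 2656302003) (nat_lit 840) (nat_lit 3032197097) (nat_lit 236) (nat_lit 5) (nat_lit 245) (nat_lit 5) (nat_lit 246) (nat_lit 5) (nat_lit 333) (nat_lit 313) (nat_lit 299)) (XT.lf (nat_lit 0) (nat_lit 5066964114) (nat_lit 756) (nat_lit 1300120875) (nat_lit 840) (nat_lit 574396032) (nat_lit 236) (nat_lit 5) (nat_lit 245) (nat_lit 5) (nat_lit 246) (nat_lit 5) (nat_lit 334) (nat_lit 313) (nat_lit 298))) (XT.nd (nat_lit 94) (nat_lit 0) (nat_lit 0) (XT.lf (nat_lit 0) (nat_lit 1860251539) (nat_lit 924) (nat_lit 4989180635) (nat_lit 84) (nat_lit 149208429) (nat_lit 225) (nat_lit 5) (nat_lit 236) (nat_lit 5) (nat_lit 226) (nat_lit 5) (nat_lit 335) (nat_lit 313) (nat_lit 297)) (XT.lf (nat_lit 0) (nat_lit 4310749422)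 (nat_lit 924) (nat_lit 1092706982) (nat_lit 84) (nat_lit 1655449038) (nat_lit 225) (nat_lit 5) (nat_lit 236) (nat_lit 5) (nat_lit 226) (nat_lit 5) (nat_lit 336) (nat_lit 313) (nat_lit 296))))) (XT.nd (nat_lit 282) (nat_lit 2352) (nat_lit 0) (XT.nd (nat_lit 94) (nat_lit 1092) (nat_lit 0) (XT.lf (nat_lit 0) (nat_lit 2914034083) (nat_lit 924) (nat_lit 3873367627) (nat_lit 1008) (nat_lit 335183501) (nat_lit 214) (nat_lit 5) (nat_lit 225) (nat_lit 5) (nat_lit 226) (nat_lit 5) (nat_lit 337) (nat_lit 313) (nat_lit 295)) (XT.nd (nat_lit 94) (nat_lit 1008) (nat_lit 0) (XT.lf (nat_lit 0) (nat_lit 2044675167) (nat_lit 1008) (nat_lit 209775200) (nat_lit 84) (nat_lit 4935186779) (nat_lit 213) (nat_lit 5) (nat_lit 225) (nat_lit 5) (nat_lit 214) (nat_lit 5) (nat_lit 338) (nat_lit 313) (nat_lit 294)) (XT.lf (nat_lit 0) (nat_lit 3919478422) (nat_lit 1008) (nat_lit 534877388) (nat_lit 1092) (nat_lit 2805460748)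 (nat_lit 201) (nat_lit 5) (nat_lit 213) (nat_lit 5) (nat_lit 214) (nat_lit 5) (nat_lit 339) (nat_lit 313) (nat_lit 293)))) (XT.nd (nat_lit 188) (nat_lit 1176) (nat_lit 0) (XT.nd (nat_lit 94) (nat_lit 84) (nat_lit 0) (XT.lf (nat_lit 0) (nat_lit 783845461) (nat_lit 1092) (nat_lit 6103127919) (nat_lit 1176) (nat_lit 446773986) (nat_lit 188) (nat_lit 5) (nat_lit 201) (nat_lit 5) (nat_lit 202) (nat_lit 5) (nat_lit 340) (nat_lit 313) (nat_lit 292)) (XT.lf (nat_lit 0) (nat_lit 1913040499) (nat_lit 1176) (nat_lit 2398685309) (nat_lit 84) (nat_lit 3098682753) (nat_lit 187) (nat_lit 5) (nat_lit 201) (nat_lit 5) (nat_lit 188) (nat_lit 5) (nat_lit 341) (nat_lit 313) (nat_lit 291))) (XT.nd (nat_lit 94) (nat_lit 0) (nat_lit 0) (XT.lf (nat_lit 0) (nat_lit 1845213260) (nat_lit 1176) (nat_lit 2438937035) (nat_lit 1260) (nat_lit 3206753548) (nat_lit 173) (nat_lit 5) (nat_lit 187) (nat_lit 5) (nat_lit 188)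 (nat_lit 5) (nat_lit 342) (nat_lit 313) (nat_lit 290)) (XT.lf (nat_lit 0) (nat_lit 6202783648) (nat_lit 1176) (nat_lit 480959262) (nat_lit 1260) (nat_lit 891497549) (nat_lit 173) (nat_lit 5) (nat_lit 187) (nat_lit 5) (nat_lit 188) (nat_lit 5) (nat_lit 343) (nat_lit 313) (nat_lit 289))))))) (XT.nd (nat_lit 1316) (nat_lit 3444) (nat_lit 0) (XT.nd (nat_lit 658) (nat_lit 2184) (nat_lit 0) (XT.nd (nat_lit 282) (nat_lit 1260) (nat_lit 0) (XT.nd (nat_lit 94) (nat_lit 588) (nat_lit 0) (XT.lf (nat_lit 0) (nat_lit 1442536461) (nat_lit 1344) (nat_lit 4667198718) (nat_lit 84) (nat_lit 1552726159) (nat_lit 157) (nat_lit 5) (nat_lit 173) (nat_lit 5) (nat_lit 158) (nat_lit 5) (nat_lit 344) (nat_lit 313) (nat_lit 288)) (XT.nd (nat_lit 94) (nat_lit 588) (nat_lit 0) (XT.lf (nat_lit 0) (nat_lit 3783068355) (nat_lit 1344) (nat_lit 307372524) (nat_lit 84) (nat_lit 3663095801) (nat_lit 157) (nat_lit 5) (nat_lit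 173) (nat_lit 5) (nat_lit 158) (nat_lit 5) (nat_lit 345) (nat_lit 313) (nat_lit 287)) (XT.lf (nat_lit 0) (nat_lit 4203218674) (nat_lit 588) (nat_lit 1968512867) (nat_lit 672) (nat_lit 1676405857) (nat_lit 150) (nat_lit 5) (nat_lit 157) (nat_lit 5) (nat_lit 158) (nat_lit 5) (nat_lit 346) (nat_lit 313) (nat_lit 286)))) (XT.nd (nat_lit 188) (nat_lit 588) (nat_lit 0) (XT.nd (nat_lit 94) (nat_lit 0) (nat_lit 0) (XT.lf (nat_lit 0) (nat_lit 624724649) (nat_lit 672) (nat_lit 7092030926) (nat_lit 84) (nat_lit 230196420) (nat_lit 142) (nat_lit 5) (nat_lit 150) (nat_lit 5) (nat_lit 143) (nat_lit 5) (nat_lit 347) (nat_lit 313) (nat_lit 285)) (XT.lf (nat_lit 0) (nat_lit 2957060533) (nat_lit 672) (nat_lit 2583718257) (nat_lit 84) (nat_lit 2507697824) (nat_lit 142) (nat_lit 5) (nat_lit 150) (nat_lit 5) (nat_lit 143) (nat_lit 5) (nat_lit 348) (nat_lit 313) (nat_lit 284))) (XT.nd (nat_lit 94) (nat_lit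 0) (nat_lit 0) (XT.lf (nat_lit 0) (nat_lit 2037355255) (nat_lit 588) (nat_lit 3282570670) (nat_lit 672) (nat_lit 2834420278) (nat_lit 135) (nat_lit 5) (nat_lit 142) (nat_lit 5) (nat_lit 143) (nat_lit 5) (nat_lit 349) (nat_lit 313) (nat_lit 283)) (XT.lf (nat_lit 0) (nat_lit 6788390231) (nat_lit 588) (nat_lit 933479365) (nat_lit 672) (nat_lit 542589148) (nat_lit 135) (nat_lit 5) (nat_lit 142) (nat_lit 5) (nat_lit 143) (nat_lit 5) (nat_lit 350) (nat_lit 313) (nat_lit 282))))) (XT.nd (nat_lit 282) (nat_lit 1008) (nat_lit 0) (XT.nd (nat_lit 94) (nat_lit 504) (nat_lit 0) (XT.lf (nat_lit 0) (nat_lit 1771999377) (nat_lit 672) (nat_lit 5103222155) (nat_lit 84) (nat_lit 1502550684) (nat_lit 127) (nat_lit 5) (nat_lit 135) (nat_lit 5) (nat_lit 128) (nat_lit 5) (nat_lit 351) (nat_lit 313) (nat_lit 281)) (XT.nd (nat_lit 94) (nat_lit 504) (nat_lit 0) (XT.lf (nat_lit 0) (nat_lit 4113570055) (nat_lit 672)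 (nat_lit 373065577) (nat_lit 84) (nat_lit 4008737870) (nat_lit 127) (nat_lit 5) (nat_lit 135) (nat_lit 5) (nat_lit 128) (nat_lit 5) (nat_lit 352) (nat_lit 313) (nat_lit 280)) (XT.lf (nat_lit 0) (nat_lit 4526933761) (nat_lit 504) (nat_lit 1987750967) (nat_lit 588) (nat_lit 2102239268) (nat_lit 121) (nat_lit 5) (nat_lit 127) (nat_lit 5) (nat_lit 128) (nat_lit 5) (nat_lit 353) (nat_lit 313) (nat_lit 279)))) (XT.nd (nat_lit 188) (nat_lit 420) (nat_lit 0) (XT.nd (nat_lit 94) (nat_lit 0) (nat_lit 0) (XT.lf (nat_lit 0) (nat_lit 204196587) (nat_lit 588) (nat_lit 7957470003) (nat_lit 84) (nat_lit 581579501) (nat_lit 114) (nat_lit 5) (nat_lit 121) (nat_lit 5) (nat_lit 115) (nat_lit 5) (nat_lit 354) (nat_lit 313) (nat_lit 278)) (XT.lf (nat_lit 0) (nat_lit 2546041823) (nat_lit 588) (nat_lit 3083345803) (nat_lit 84) (nat_lit 3243183302) (nat_lit 114) (nat_lit 5) (nat_lit 121) (nat_lit 5) (nat_lit 115)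 (nat_lit 5) (nat_lit 355) (nat_lit 313) (nat_lit 277))) (XT.nd (nat_lit 94) (nat_lit 0) (nat_lit 0) (XT.lf (nat_lit 0) (nat_lit 1914180604) (nat_lit 420) (nat_lit 3010982211) (nat_lit 504) (nat_lit 4081690997) (nat_lit 109) (nat_lit 5) (nat_lit 114) (nat_lit 5) (nat_lit 115) (nat_lit 5) (nat_lit 356) (nat_lit 313) (nat_lit 276)) (XT.lf (nat_lit 0) (nat_lit 7065254234) (nat_lit 420) (nat_lit 291082815) (nat_lit 504) (nat_lit 1789494068) (nat_lit 109) (nat_lit 5) (nat_lit 114) (nat_lit 5) (nat_lit 115) (nat_lit 5) (nat_lit 357) (nat_lit 313) (nat_lit 275)))))) (XT.nd (nat_lit 658) (nat_lit 1596) (nat_lit 0) (XT.nd (nat_lit 282) (nat_lit 840) (nat_lit 0) (XT.nd (nat_lit 94) (nat_lit 420) (nat_lit 0) (XT.lf (nat_lit 0) (nat_lit 564735614) (nat_lit 588) (nat_lit 6236355974) (nat_lit 84) (nat_lit 2487670178) (nat_lit 102) (nat_lit 5) (nat_lit 109) (nat_lit 5) (nat_lit 103) (nat_lit 5) (nat_lit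 358) (nat_lit 313) (nat_lit 274)) (XT.nd (nat_lit 94) (nat_lit 420) (nat_lit 0) (XT.lf (nat_lit 0) (nat_lit 2928960770) (nat_lit 588) (nat_lit 1133914949) (nat_lit 84) (nat_lit 5373392012) (nat_lit 102) (nat_lit 5) (nat_lit 109) (nat_lit 5) (nat_lit 103) (nat_lit 5) (nat_lit 359) (nat_lit 313) (nat_lit 273)) (XT.lf (nat_lit 0) (nat_lit 4144428482) (nat_lit 420) (nat_lit 1212179163) (nat_lit 504) (nat_lit 4231893081) (nat_lit 97) (nat_lit 5) (nat_lit 102) (nat_lit 5) (nat_lit 103) (nat_lit 5) (nat_lit 360) (nat_lit 313) (nat_lit 272)))) (XT.nd (nat_lit 188) (nat_lit 336) (nat_lit 0) (XT.nd (nat_lit 94) (nat_lit 504) (nat_lit 0) (XT.lf (nat_lit 0) (nat_lit 7838597447) (nat_lit 504) (nat_lit 216115872) (nat_lit 84) (nat_lit 1691216449) (nat_lit 97) (nat_lit 5) (nat_lit 103) (nat_lit 5) (nat_lit 98) (nat_lit 5) (nat_lit 361) (nat_lit 313) (nat_lit 271)) (XT.lf (nat_lit 0) (nat_lit 494290244)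 (nat_lit 504) (nat_lit 4711454874) (nat_lit 84) (nat_lit 4701761501) (nat_lit 91) (nat_lit 5) (nat_lit 97) (nat_lit 5) (nat_lit 92) (nat_lit 5) (nat_lit 362) (nat_lit 313) (nat_lit 270))) (XT.nd (nat_lit 94) (nat_lit 0) (nat_lit 0) (XT.lf (nat_lit 0) (nat_lit 637147138) (nat_lit 336) (nat_lit 2255808058) (nat_lit 420) (nat_lit 7181577316) (nat_lit 87) (nat_lit 5) (nat_lit 91) (nat_lit 5) (nat_lit 92) (nat_lit 5) (nat_lit 363) (nat_lit 313) (nat_lit 269)) (XT.lf (nat_lit 0) (nat_lit 5374792018) (nat_lit 420) (nat_lit 4068584559) (nat_lit 84) (nat_lit 802922406) (nat_lit 87) (nat_lit 5) (nat_lit 92) (nat_lit 5) (nat_lit 88) (nat_lit 5) (nat_lit 364) (nat_lit 313) (nat_lit 268))))) (XT.nd (nat_lit 282) (nat_lit 756) (nat_lit 0) (XT.nd (nat_lit 94) (nat_lit 420) (nat_lit 0) (XT.lf (nat_lit 0) (nat_lit 1409918379) (nat_lit 420) (nat_lit 6513986618) (nat_lit 504) (nat_lit 2499593055) (nat_lit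 82) (nat_lit 5) (nat_lit 87) (nat_lit 5) (nat_lit 88) (nat_lit 5) (nat_lit 365) (nat_lit 313) (nat_lit 267)) (XT.nd (nat_lit 94) (nat_lit 420) (nat_lit 0) (XT.lf (nat_lit 0) (nat_lit 7080192959) (nat_lit 420) (nat_lit 3468032656) (nat_lit 504) (nat_lit 57887812) (nat_lit 82) (nat_lit 5) (nat_lit 87) (nat_lit 5) (nat_lit 88) (nat_lit 5) (nat_lit 366) (nat_lit 313) (nat_lit 266)) (XT.lf (nat_lit 0) (nat_lit 2088257927) (nat_lit 336) (nat_lit 299354584) (nat_lit 420) (nat_lit 8406590265) (nat_lit 77) (nat_lit 5) (nat_lit 81) (nat_lit 5) (nat_lit 82) (nat_lit 5) (nat_lit 367) (nat_lit 313) (nat_lit 265)))) (XT.nd (nat_lit 188) (nat_lit 420) (nat_lit 0) (XT.nd (nat_lit 94) (nat_lit 336) (nat_lit 0) (XT.lf (nat_lit 0) (nat_lit 4928736498) (nat_lit 420) (nat_lit 3128999150) (nat_lit 84) (nat_lit 2929536370) (nat_lit 77) (nat_lit 5) (nat_lit 82) (nat_lit 5) (nat_lit 78) (nat_lit 5) (nat_lit 368)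 (nat_lit 313) (nat_lit 264)) (XT.lf (nat_lit 0) (nat_lit 2608977348) (nat_lit 336) (nat_lit 4925324181) (nat_lit 420) (nat_lit 3652240997) (nat_lit 73) (nat_lit 5) (nat_lit 77) (nat_lit 5) (nat_lit 78) (nat_lit 5) (nat_lit 369) (nat_lit 313) (nat_lit 263))) (XT.nd (nat_lit 94) (nat_lit 420) (nat_lit 0) (XT.lf (nat_lit 0) (nat_lit 8529541957) (nat_lit 336) (nat_lit 1680896779) (nat_lit 420) (nat_lit 1181634051) (nat_lit 73) (nat_lit 5) (nat_lit 77) (nat_lit 5) (nat_lit 78) (nat_lit 5) (nat_lit 370) (nat_lit 313) (nat_lit 262)) (XT.lf (nat_lit 0) (nat_lit 1343256414) (nat_lit 420) (nat_lit 8603179377) (nat_lit 84) (nat_lit 1656787863) (nat_lit 68) (nat_lit 5) (nat_lit 73) (nat_lit 5) (nat_lit 69) (nat_lit 5) (nat_lit 371) (nat_lit 313) (nat_lit 261))))))))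
noncomputable def xc82 : XT := (XT.nd (nat_lit 2538) (nat_lit 1344) (nat_lit 0) (XT.nd (nat_lit 1222) (nat_lit 1428) (nat_lit 0) (XT.nd (nat_lit 564) (nat_lit 840) (nat_lit 0) (XT.nd (nat_lit 282) (nat_lit 672) (nat_lit 0) (XT.nd (nat_lit 94) (nat_lit 336) (nat_lit 0) (XT.lf (nat_lit 0) (nat_lit 3927977393) (nat_lit 420) (nat_lit 2804765459) (nat_lit 84) (nat_lit 5087429438) (nat_lit 68) (nat_lit 5) (nat_lit 73) (nat_lit 5) (nat_lit 69) (nat_lit 5) (nat_lit 372) (nat_lit 313) (nat_lit 260)) (XT.nd (nat_lit 94) (nat_lit 0) (nat_lit 0) (XT.lf (nat_lit 0) (nat_lit 3177695351) (nat_lit 336) (nat_lit 3406196220) (nat_lit 420) (nat_lit 5459976066) (nat_lit 64) (nat_lit 5) (nat_lit 68) (nat_lit 5) (nat_lit 69) (nat_lit 5) (nat_lit 373) (nat_lit 313) (nat_lit 259)) (XT.lf (nat_lit 0) (nat_lit 9311820904) (nat_lit 420) (nat_lit 2929168927) (nat_lit 84) (nat_lit 33560283) (nat_lit 64) (nat_lit 5)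 (nat_lit 69) (nat_lit 5) (nat_lit 65) (nat_lit 5) (nat_lit 374) (nat_lit 313) (nat_lit 258)))) (XT.nd (nat_lit 94) (nat_lit 420) (nat_lit 0) (XT.lf (nat_lit 0) (nat_lit 3163073250) (nat_lit 252) (nat_lit 8987247902) (nat_lit 336) (nat_lit 361014976) (nat_lit 61) (nat_lit 5) (nat_lit 64) (nat_lit 5) (nat_lit 65) (nat_lit 5) (nat_lit 375) (nat_lit 313) (nat_lit 257)) (XT.nd (nat_lit 94) (nat_lit 336) (nat_lit 0) (XT.lf (nat_lit 0) (nat_lit 2268137005) (nat_lit 336) (nat_lit 3329907257) (nat_lit 84) (nat_lit 7156716243) (nat_lit 60) (nat_lit 5) (nat_lit 64) (nat_lit 5) (nat_lit 61) (nat_lit 5) (nat_lit 376) (nat_lit 313) (nat_lit 256)) (XT.lf (nat_lit 0) (nat_lit 2871838743) (nat_lit 336) (nat_lit 2090462759) (nat_lit 420) (nat_lit 8043318289) (nat_lit 56) (nat_lit 5) (nat_lit 60) (nat_lit 5) (nat_lit 61) (nat_lit 5) (nat_lit 377) (nat_lit 313) (nat_lit 255))))) (XT.nd (nat_lit 282) (nat_lit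 588) (nat_lit 0) (XT.nd (nat_lit 94) (nat_lit 252) (nat_lit 0) (XT.lf (nat_lit 0) (nat_lit 7752046825) (nat_lit 420) (nat_lit 4000107187) (nat_lit 84) (nat_lit 1511448196) (nat_lit 56) (nat_lit 5) (nat_lit 61) (nat_lit 5) (nat_lit 57) (nat_lit 5) (nat_lit 378) (nat_lit 313) (nat_lit 254)) (XT.nd (nat_lit 94) (nat_lit 0) (nat_lit 0) (XT.lf (nat_lit 0) (nat_lit 2293040836) (nat_lit 252) (nat_lit 8342332662) (nat_lit 336) (nat_lit 2893692791) (nat_lit 53) (nat_lit 5) (nat_lit 56) (nat_lit 5) (nat_lit 57) (nat_lit 5) (nat_lit 379) (nat_lit 313) (nat_lit 253)) (XT.lf (nat_lit 0) (nat_lit 8808874001) (nat_lit 252) (nat_lit 4804362819) (nat_lit 336) (nat_lit 189054099) (nat_lit 53) (nat_lit 5) (nat_lit 56) (nat_lit 5) (nat_lit 57) (nat_lit 5) (nat_lit 380) (nat_lit 313) (nat_lit 252)))) (XT.nd (nat_lit 188) (nat_lit 252) (nat_lit 0) (XT.nd (nat_lit 94) (nat_lit 0) (nat_lit 0) (XT.lf (nat_lit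 0) (nat_lit 1391283473) (nat_lit 252) (nat_lit 1136381796) (nat_lit 336) (nat_lit 11555885355) (nat_lit 49) (nat_lit 5) (nat_lit 52) (nat_lit 5) (nat_lit 53) (nat_lit 5) (nat_lit 381) (nat_lit 313) (nat_lit 251)) (XT.lf (nat_lit 0) (nat_lit 5366965487) (nat_lit 336) (nat_lit 6377347054) (nat_lit 84) (nat_lit 2627567582) (nat_lit 49) (nat_lit 5) (nat_lit 53) (nat_lit 5) (nat_lit 50) (nat_lit 5) (nat_lit 382) (nat_lit 313) (nat_lit 250))) (XT.nd (nat_lit 94) (nat_lit 0) (nat_lit 0) (XT.lf (nat_lit 0) (nat_lit 70808786) (nat_lit 252) (nat_lit 8202046582) (nat_lit 336) (nat_lit 6396595341) (nat_lit 46) (nat_lit 5) (nat_lit 49) (nat_lit 5) (nat_lit 50) (nat_lit 5) (nat_lit 383) (nat_lit 313) (nat_lit 249)) (XT.lf (nat_lit 0) (nat_lit 6797250711) (nat_lit 252) (nat_lit 4502996499) (nat_lit 336) (nat_lit 3674703992) (nat_lit 46) (nat_lit 5) (nat_lit 49) (nat_lit 5) (nat_lit 50) (nat_lit 5) (nat_lit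 384) (nat_lit 313) (nat_lit 248)))))) (XT.nd (nat_lit 658) (nat_lit 588) (nat_lit 0) (XT.nd (nat_lit 282) (nat_lit 504) (nat_lit 0) (XT.nd (nat_lit 94) (nat_lit 336) (nat_lit 0) (XT.lf (nat_lit 0) (nat_lit 13680934484) (nat_lit 252) (nat_lit 708328812) (nat_lit 336) (nat_lit 901260939) (nat_lit 46) (nat_lit 5) (nat_lit 49) (nat_lit 5) (nat_lit 50) (nat_lit 5) (nat_lit 385) (nat_lit 313) (nat_lit 247)) (XT.nd (nat_lit 94) (nat_lit 0) (nat_lit 0) (XT.lf (nat_lit 0) (nat_lit 1969797946) (nat_lit 336) (nat_lit 10451415646) (nat_lit 84) (nat_lit 3192239686) (nat_lit 42) (nat_lit 5) (nat_lit 46) (nat_lit 5) (nat_lit 43) (nat_lit 5) (nat_lit 386) (nat_lit 313) (nat_lit 246)) (XT.lf (nat_lit 0) (nat_lit 4903915412) (nat_lit 336) (nat_lit 3836025361) (nat_lit 84) (nat_lit 7206039398) (nat_lit 42) (nat_lit 5) (nat_lit 46) (nat_lit 5) (nat_lit 43) (nat_lit 5) (nat_lit 387) (nat_lit 313) (nat_lit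 245)))) (XT.nd (nat_lit 188) (nat_lit 336) (nat_lit 0) (XT.nd (nat_lit 94) (nat_lit 0) (nat_lit 0) (XT.lf (nat_lit 0) (nat_lit 2993369935) (nat_lit 168) (nat_lit 4933900843) (nat_lit 252) (nat_lit 8361203736) (nat_lit 40) (nat_lit 5) (nat_lit 42) (nat_lit 5) (nat_lit 43) (nat_lit 5) (nat_lit 388) (nat_lit 313) (nat_lit 244)) (XT.lf (nat_lit 0) (nat_lit 10063833998) (nat_lit 168) (nat_lit 989064090) (nat_lit 252) (nat_lit 5588025718) (nat_lit 40) (nat_lit 5) (nat_lit 42) (nat_lit 5) (nat_lit 43) (nat_lit 5) (nat_lit 389) (nat_lit 313) (nat_lit 243))) (XT.nd (nat_lit 94) (nat_lit 84) (nat_lit 0) (XT.lf (nat_lit 0) (nat_lit 276422549) (nat_lit 252) (nat_lit 14001562647) (nat_lit 336) (nat_lit 2725817115) (nat_lit 37) (nat_lit 5) (nat_lit 40) (nat_lit 5) (nat_lit 41) (nat_lit 5) (nat_lit 390) (nat_lit 313) (nat_lit 242)) (XT.lf (nat_lit 0) (nat_lit 268359838) (nat_lit 336) (nat_lit 9959824096)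 (nat_lit 84) (nat_lit 7147830913) (nat_lit 36) (nat_lit 5) (nat_lit 40) (nat_lit 5) (nat_lit 37) (nat_lit 5) (nat_lit 391) (nat_lit 313) (nat_lit 241))))) (XT.nd (nat_lit 282) (nat_lit 420) (nat_lit 0) (XT.nd (nat_lit 94) (nat_lit 168) (nat_lit 0) (XT.lf (nat_lit 0) (nat_lit 3271918725) (nat_lit 336) (nat_lit 3057032761) (nat_lit 84) (nat_lit 11430426556) (nat_lit 36) (nat_lit 5) (nat_lit 40) (nat_lit 5) (nat_lit 37) (nat_lit 5) (nat_lit 392) (nat_lit 313) (nat_lit 240)) (XT.nd (nat_lit 94) (nat_lit 0) (nat_lit 0) (XT.lf (nat_lit 0) (nat_lit 4093099136) (nat_lit 168) (nat_lit 2286920762) (nat_lit 252) (nat_lit 11773812682) (nat_lit 34) (nat_lit 5) (nat_lit 36) (nat_lit 5) (nat_lit 37) (nat_lit 5) (nat_lit 393) (nat_lit 313) (nat_lit 239)) (XT.lf (nat_lit 0) (nat_lit 9605874261) (nat_lit 252) (nat_lit 7096980571) (nat_lit 84) (nat_lit 1856553446) (nat_lit 34) (nat_lit 5) (nat_lit 37) (nat_lit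 5) (nat_lit 35) (nat_lit 5) (nat_lit 394) (nat_lit 313) (nat_lit 238)))) (XT.nd (nat_lit 188) (nat_lit 252) (nat_lit 0) (XT.nd (nat_lit 94) (nat_lit 0) (nat_lit 0) (XT.lf (nat_lit 0) (nat_lit 14643769) (nat_lit 168) (nat_lit 12912661164) (nat_lit 252) (nat_lit 6049904456) (nat_lit 32) (nat_lit 5) (nat_lit 34) (nat_lit 5) (nat_lit 35) (nat_lit 5) (nat_lit 395) (nat_lit 313) (nat_lit 237)) (XT.lf (nat_lit 0) (nat_lit 7446793150) (nat_lit 168) (nat_lit 8949598418) (nat_lit 252) (nat_lit 3009734092) (nat_lit 32) (nat_lit 5) (nat_lit 34) (nat_lit 5) (nat_lit 35) (nat_lit 5) (nat_lit 396) (nat_lit 313) (nat_lit 236))) (XT.nd (nat_lit 94) (nat_lit 168) (nat_lit 0) (XT.lf (nat_lit 0) (nat_lit 96056240) (nat_lit 252) (nat_lit 4784843094) (nat_lit 84) (nat_lit 14967691632) (nat_lit 31) (nat_lit 5) (nat_lit 34) (nat_lit 5) (nat_lit 32) (nat_lit 5) (nat_lit 397) (nat_lit 313) (nat_lit 235)) (XT.lf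 (nat_lit 0) (nat_lit 2589028762) (nat_lit 168) (nat_lit 647850754) (nat_lit 252) (nat_lit 17066505869) (nat_lit 29) (nat_lit 5) (nat_lit 31) (nat_lit 5) (nat_lit 32) (nat_lit 5) (nat_lit 398) (nat_lit 313) (nat_lit 234))))))) (XT.nd (nat_lit 1316) (nat_lit 588) (nat_lit 0) (XT.nd (nat_lit 658) (nat_lit 336) (nat_lit 0) (XT.nd (nat_lit 282) (nat_lit 252) (nat_lit 0) (XT.nd (nat_lit 94) (nat_lit 168) (nat_lit 0) (XT.lf (nat_lit 0) (nat_lit 6534045610) (nat_lit 252) (nat_lit 10561102039) (nat_lit 84) (nat_lit 3674831561) (nat_lit 29) (nat_lit 5) (nat_lit 32) (nat_lit 5) (nat_lit 30) (nat_lit 5) (nat_lit 399) (nat_lit 313) (nat_lit 233)) (XT.nd (nat_lit 94) (nat_lit 168) (nat_lit 0) (XT.lf (nat_lit 0) (nat_lit 9914830721) (nat_lit 252) (nat_lit 3235360364) (nat_lit 84) (nat_lit 8100857206) (nat_lit 29) (nat_lit 5) (nat_lit 32) (nat_lit 5) (nat_lit 30) (nat_lit 5) (nat_lit 400) (nat_lit 313)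 (nat_lit 232)) (XT.lf (nat_lit 0) (nat_lit 4360587847) (nat_lit 168) (nat_lit 9057290186) (nat_lit 252) (nat_lit 8328064272) (nat_lit 27) (nat_lit 5) (nat_lit 29) (nat_lit 5) (nat_lit 30) (nat_lit 5) (nat_lit 401) (nat_lit 313) (nat_lit 231)))) (XT.nd (nat_lit 188) (nat_lit 252) (nat_lit 0) (XT.nd (nat_lit 94) (nat_lit 0) (nat_lit 0) (XT.lf (nat_lit 0) (nat_lit 12216419502) (nat_lit 168) (nat_lit 4821474118) (nat_lit 252) (nat_lit 5217450709) (nat_lit 27) (nat_lit 5) (nat_lit 29) (nat_lit 5) (nat_lit 30) (nat_lit 5) (nat_lit 402) (nat_lit 313) (nat_lit 230)) (XT.lf (nat_lit 0) (nat_lit 20274608903) (nat_lit 168) (nat_lit 471712478) (nat_lit 252) (nat_lit 2034329667) (nat_lit 27) (nat_lit 5) (nat_lit 29) (nat_lit 5) (nat_lit 30) (nat_lit 5) (nat_lit 403) (nat_lit 313) (nat_lit 229))) (XT.nd (nat_lit 94) (nat_lit 0) (nat_lit 0) (XT.lf (nat_lit 0) (nat_lit 1290285976) (nat_lit 252) (nat_lit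 18047708057) (nat_lit 84) (nat_lit 3981271679) (nat_lit 24) (nat_lit 5) (nat_lit 27) (nat_lit 5) (nat_lit 25) (nat_lit 5) (nat_lit 404) (nat_lit 313) (nat_lit 228)) (XT.lf (nat_lit 0) (nat_lit 4684309948) (nat_lit 252) (nat_lit 10597399549) (nat_lit 84) (nat_lit 8591423870) (nat_lit 24) (nat_lit 5) (nat_lit 27) (nat_lit 5) (nat_lit 25) (nat_lit 5) (nat_lit 405) (nat_lit 313) (nat_lit 227))))) (XT.nd (nat_lit 282) (nat_lit 168) (nat_lit 0) (XT.nd (nat_lit 94) (nat_lit 168) (nat_lit 0) (XT.lf (nat_lit 0) (nat_lit 8161058313) (nat_lit 252) (nat_lit 2955537049) (nat_lit 84) (nat_lit 13327609672) (nat_lit 24) (nat_lit 5) (nat_lit 27) (nat_lit 5) (nat_lit 25) (nat_lit 5) (nat_lit 406) (nat_lit 313) (nat_lit 226)) (XT.nd (nat_lit 94) (nat_lit 0) (nat_lit 0) (XT.lf (nat_lit 0) (nat_lit 4981769055) (nat_lit 168) (nat_lit 6789687761) (nat_lit 252) (nat_lit 13260086256) (nat_lit 22) (nat_lit 5) (nat_lit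 24) (nat_lit 5) (nat_lit 25) (nat_lit 5) (nat_lit 407) (nat_lit 313) (nat_lit 225)) (XT.lf (nat_lit 0) (nat_lit 13187059590) (nat_lit 168) (nat_lit 2314657391) (nat_lit 252) (nat_lit 10134452004) (nat_lit 22) (nat_lit 5) (nat_lit 24) (nat_lit 5) (nat_lit 25) (nat_lit 5) (nat_lit 408) (nat_lit 313) (nat_lit 224)))) (XT.nd (nat_lit 188) (nat_lit 84) (nat_lit 0) (XT.nd (nat_lit 94) (nat_lit 84) (nat_lit 0) (XT.lf (nat_lit 0) (nat_lit 19348063777) (nat_lit 252) (nat_lit 4672738491) (nat_lit 84) (nat_lit 2238019854) (nat_lit 22) (nat_lit 5) (nat_lit 25) (nat_lit 5) (nat_lit 23) (nat_lit 4) (nat_lit 409) (nat_lit 313) (nat_lit 223)) (XT.lf (nat_lit 0) (nat_lit 3350001662) (nat_lit 84) (nat_lit 19997561208) (nat_lit 168) (nat_lit 3551472535) (nat_lit 21) (nat_lit 5) (nat_lit 22) (nat_lit 5) (nat_lit 23) (nat_lit 4) (nat_lit 410) (nat_lit 313) (nat_lit 222))) (XT.nd (nat_lit 94) (nat_lit 84) (nat_lit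 0) (XT.lf (nat_lit 0) (nat_lit 11680123495) (nat_lit 84) (nat_lit 15816977131) (nat_lit 168) (nat_lit 60465869) (nat_lit 21) (nat_lit 5) (nat_lit 22) (nat_lit 5) (nat_lit 23) (nat_lit 4) (nat_lit 411) (nat_lit 313) (nat_lit 221)) (XT.lf (nat_lit 0) (nat_lit 3449475229) (nat_lit 168) (nat_lit 8038274431) (nat_lit 84) (nat_lit 16747600930) (nat_lit 20) (nat_lit 5) (nat_lit 22) (nat_lit 5) (nat_lit 21) (nat_lit 5) (nat_lit 412) (nat_lit 313) (nat_lit 220)))))) (XT.nd (nat_lit 658) (nat_lit 336) (nat_lit 0) (XT.nd (nat_lit 282) (nat_lit 84) (nat_lit 0) (XT.nd (nat_lit 94) (nat_lit 0) (nat_lit 0) (XT.lf (nat_lit 0) (nat_lit 7870009) (nat_lit 168) (nat_lit 7039384611) (nat_lit 252) (nat_lit 21886694879) (nat_lit 18) (nat_lit 5) (nat_lit 20) (nat_lit 5) (nat_lit 21) (nat_lit 5) (nat_lit 413) (nat_lit 313) (nat_lit 219)) (XT.nd (nat_lit 94) (nat_lit 0) (nat_lit 0) (XT.lf (nat_lit 0) (nat_lit 8432693542)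 (nat_lit 168) (nat_lit 2385335549) (nat_lit 252) (nat_lit 18833537002) (nat_lit 18) (nat_lit 5) (nat_lit 20) (nat_lit 5) (nat_lit 21) (nat_lit 5) (nat_lit 414) (nat_lit 313) (nat_lit 218)) (XT.lf (nat_lit 0) (nat_lit 14709331130) (nat_lit 252) (nat_lit 13330655621) (nat_lit 84) (nat_lit 2350513531) (nat_lit 18) (nat_lit 5) (nat_lit 21) (nat_lit 5) (nat_lit 19) (nat_lit 4) (nat_lit 415) (nat_lit 313) (nat_lit 217)))) (XT.nd (nat_lit 188) (nat_lit 0) (nat_lit 0) (XT.nd (nat_lit 94) (nat_lit 84) (nat_lit 0) (XT.lf (nat_lit 0) (nat_lit 18725701982) (nat_lit 252) (nat_lit 5255677163) (nat_lit 84) (nat_lit 7169984363) (nat_lit 18) (nat_lit 5) (nat_lit 21) (nat_lit 5) (nat_lit 19) (nat_lit 4) (nat_lit 416) (nat_lit 313) (nat_lit 216)) (XT.lf (nat_lit 0) (nat_lit 3096471241) (nat_lit 84) (nat_lit 19781015726) (nat_lit 168) (nat_lit 9057128558) (nat_lit 17) (nat_lit 5) (nat_lit 18) (nat_lit 5)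 (nat_lit 19) (nat_lit 4) (nat_lit 417) (nat_lit 313) (nat_lit 215))) (XT.nd (nat_lit 94) (nat_lit 0) (nat_lit 0) (XT.lf (nat_lit 0) (nat_lit 11781667640) (nat_lit 84) (nat_lit 15410577282) (nat_lit 168) (nat_lit 5547977875) (nat_lit 17) (nat_lit 5) (nat_lit 18) (nat_lit 5) (nat_lit 19) (nat_lit 4) (nat_lit 418) (nat_lit 313) (nat_lit 214)) (XT.lf (nat_lit 0) (nat_lit 20702902759) (nat_lit 84) (nat_lit 10919317017) (nat_lit 168) (nat_lit 1948215264) (nat_lit 17) (nat_lit 5) (nat_lit 18) (nat_lit 5) (nat_lit 19) (nat_lit 4) (nat_lit 419) (nat_lit 313) (nat_lit 213))))) (XT.nd (nat_lit 282) (nat_lit 84) (nat_lit 0) (XT.nd (nat_lit 94) (nat_lit 168) (nat_lit 0) (XT.lf (nat_lit 0) (nat_lit 1711247517) (nat_lit 168) (nat_lit 4574782767) (nat_lit 84) (nat_lit 28139444090) (nat_lit 16) (nat_lit 5) (nat_lit 18) (nat_lit 5) (nat_lit 17) (nat_lit 5) (nat_lit 420) (nat_lit 313) (nat_lit 212)) (XT.nd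 (nat_lit 94) (nat_lit 0) (nat_lit 0) (XT.lf (nat_lit 0) (nat_lit 4002168074) (nat_lit 168) (nat_lit 1464088994) (nat_lit 252) (nat_lit 29838590670) (nat_lit 14) (nat_lit 5) (nat_lit 16) (nat_lit 5) (nat_lit 17) (nat_lit 5) (nat_lit 421) (nat_lit 313) (nat_lit 211)) (XT.lf (nat_lit 0) (nat_lit 9400765762) (nat_lit 252) (nat_lit 23336611613) (nat_lit 84) (nat_lit 3471228327) (nat_lit 14) (nat_lit 5) (nat_lit 17) (nat_lit 5) (nat_lit 15) (nat_lit 4) (nat_lit 422) (nat_lit 313) (nat_lit 210)))) (XT.nd (nat_lit 188) (nat_lit 84) (nat_lit 0) (XT.nd (nat_lit 94) (nat_lit 0) (nat_lit 0) (XT.lf (nat_lit 0) (nat_lit 13454724926) (nat_lit 252) (nat_lit 15168849234) (nat_lit 84) (nat_lit 8515868396) (nat_lit 14) (nat_lit 5) (nat_lit 17) (nat_lit 5) (nat_lit 15) (nat_lit 4) (nat_lit 423) (nat_lit 313) (nat_lit 209)) (XT.lf (nat_lit 0) (nat_lit 17617603134) (nat_lit 252) (nat_lit 6778181930) (nat_lit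 84) (nat_lit 13702808799) (nat_lit 14) (nat_lit 5) (nat_lit 17) (nat_lit 5) (nat_lit 15) (nat_lit 4) (nat_lit 424) (nat_lit 313) (nat_lit 208))) (XT.nd (nat_lit 94) (nat_lit 0) (nat_lit 0) (XT.lf (nat_lit 0) (nat_lit 1879395729) (nat_lit 84) (nat_lit 20031708026) (nat_lit 168) (nat_lit 17175251985) (nat_lit 13) (nat_lit 5) (nat_lit 14) (nat_lit 5) (nat_lit 15) (nat_lit 4) (nat_lit 425) (nat_lit 313) (nat_lit 207)) (XT.lf (nat_lit 0) (nat_lit 10914373983) (nat_lit 84) (nat_lit 15475306559) (nat_lit 168) (nat_lit 13712389674) (nat_lit 13) (nat_lit 5) (nat_lit 14) (nat_lit 5) (nat_lit 15) (nat_lit 4) (nat_lit 426) (nat_lit 313) (nat_lit 206))))))))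
noncomputable def xc83 : XT := (XT.nd (nat_lit 49350) (nat_lit 0) (nat_lit 11340) (XT.nd (nat_lit 1316) (nat_lit 252) (nat_lit 0) (XT.nd (nat_lit 658) (nat_lit 84) (nat_lit 0) (XT.nd (nat_lit 282) (nat_lit 168) (nat_lit 0) (XT.nd (nat_lit 94) (nat_lit 0) (nat_lit 0) (XT.lf (nat_lit 0) (nat_lit 20199748360) (nat_lit 84) (nat_lit 10791045688) (nat_lit 168) (nat_lit 10157824341) (nat_lit 13) (nat_lit 5) (nat_lit 14) (nat_lit 5) (nat_lit 15) (nat_lit 4) (nat_lit 427) (nat_lit 313) (nat_lit 205)) (XT.nd (nat_lit 94) (nat_lit 0) (nat_lit 0) (XT.lf (nat_lit 0) (nat_lit 29743632295) (nat_lit 84) (nat_lit 5974832371) (nat_lit 168) (nat_lit 6508450055) (nat_lit 13) (nat_lit 5) (nat_lit 14) (nat_lit 5) (nat_lit 15) (nat_lit 4) (nat_lit 428) (nat_lit 313) (nat_lit 204)) (XT.lf (nat_lit 0) (nat_lit 39554365103) (nat_lit 84) (nat_lit 1022458265) (nat_lit 168) (nat_lit 2761078043) (nat_lit 13) (nat_lit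 5) (nat_lit 14) (nat_lit 5) (nat_lit 15) (nat_lit 4) (nat_lit 429) (nat_lit 313) (nat_lit 203)))) (XT.nd (nat_lit 188) (nat_lit 0) (nat_lit 0) (XT.nd (nat_lit 94) (nat_lit 0) (nat_lit 0) (XT.lf (nat_lit 0) (nat_lit 1156539988) (nat_lit 168) (nat_lit 39270490657) (nat_lit 84) (nat_lit 4052499064) (nat_lit 11) (nat_lit 5) (nat_lit 13) (nat_lit 5) (nat_lit 12) (nat_lit 4) (nat_lit 430) (nat_lit 313) (nat_lit 202)) (XT.lf (nat_lit 0) (nat_lit 5174026164) (nat_lit 168) (nat_lit 31162338900) (nat_lit 84) (nat_lit 9317093229) (nat_lit 11) (nat_lit 5) (nat_lit 13) (nat_lit 5) (nat_lit 12) (nat_lit 4) (nat_lit 431) (nat_lit 313) (nat_lit 201))) (XT.nd (nat_lit 94) (nat_lit 0) (nat_lit 0) (XT.lf (nat_lit 0) (nat_lit 9301480238) (nat_lit 168) (nat_lit 22829573327) (nat_lit 84) (nat_lit 14731874275) (nat_lit 11) (nat_lit 5) (nat_lit 13) (nat_lit 5) (nat_lit 12) (nat_lit 4) (nat_lit 432) (nat_lit 313)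 (nat_lit 200)) (XT.lf (nat_lit 0) (nat_lit 13542508721) (nat_lit 168) (nat_lit 14264912880) (nat_lit 84) (nat_lit 20301573566) (nat_lit 11) (nat_lit 5) (nat_lit 13) (nat_lit 5) (nat_lit 12) (nat_lit 4) (nat_lit 433) (nat_lit 313) (nat_lit 199))))) (XT.nd (nat_lit 282) (nat_lit 0) (nat_lit 0) (XT.nd (nat_lit 94) (nat_lit 84) (nat_lit 0) (XT.lf (nat_lit 0) (nat_lit 17900817368) (nat_lit 168) (nat_lit 5460873875) (nat_lit 84) (nat_lit 26031057828) (nat_lit 11) (nat_lit 5) (nat_lit 13) (nat_lit 5) (nat_lit 12) (nat_lit 4) (nat_lit 434) (nat_lit 313) (nat_lit 198)) (XT.nd (nat_lit 94) (nat_lit 0) (nat_lit 0) (XT.lf (nat_lit 0) (nat_lit 3661689282) (nat_lit 84) (nat_lit 18753723523) (nat_lit 168) (nat_lit 28298842522) (nat_lit 10) (nat_lit 5) (nat_lit 11) (nat_lit 5) (nat_lit 12) (nat_lit 4) (nat_lit 435) (nat_lit 313) (nat_lit 197)) (XT.lf (nat_lit 0) (nat_lit 13152989288) (nat_lit 84) (nat_lit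 13958059170) (nat_lit 168) (nat_lit 24962995932) (nat_lit 10) (nat_lit 5) (nat_lit 11) (nat_lit 5) (nat_lit 12) (nat_lit 4) (nat_lit 436) (nat_lit 313) (nat_lit 196)))) (XT.nd (nat_lit 188) (nat_lit 0) (nat_lit 0) (XT.nd (nat_lit 94) (nat_lit 0) (nat_lit 0) (XT.lf (nat_lit 0) (nat_lit 22912637411) (nat_lit 84) (nat_lit 9025651917) (nat_lit 168) (nat_lit 21536621236) (nat_lit 10) (nat_lit 5) (nat_lit 11) (nat_lit 5) (nat_lit 12) (nat_lit 4) (nat_lit 437) (nat_lit 313) (nat_lit 195)) (XT.lf (nat_lit 0) (nat_lit 32949161501) (nat_lit 84) (nat_lit 3952191894) (nat_lit 168) (nat_lit 18016724514) (nat_lit 10) (nat_lit 5) (nat_lit 11) (nat_lit 5) (nat_lit 12) (nat_lit 4) (nat_lit 438) (nat_lit 313) (nat_lit 194))) (XT.nd (nat_lit 94) (nat_lit 0) (nat_lit 0) (XT.lf (nat_lit 0) (nat_lit 42016754130) (nat_lit 168) (nat_lit 13145652922) (nat_lit 0) (nat_lit 1242035086) (nat_lit 10) (nat_lit 5) (nat_lit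 12) (nat_lit 4) (nat_lit 10) (nat_lit 4) (nat_lit 439) (nat_lit 313) (nat_lit 193)) (XT.lf (nat_lit 0) (nat_lit 47316207067) (nat_lit 168) (nat_lit 4112018815) (nat_lit 0) (nat_lit 6506258762) (nat_lit 10) (nat_lit 5) (nat_lit 12) (nat_lit 4) (nat_lit 10) (nat_lit 4) (nat_lit 440) (nat_lit 313) (nat_lit 192)))))) (XT.nd (nat_lit 658) (nat_lit 84) (nat_lit 0) (XT.nd (nat_lit 282) (nat_lit 0) (nat_lit 0) (XT.nd (nat_lit 94) (nat_lit 84) (nat_lit 0) (XT.lf (nat_lit 0) (nat_lit 5280920037) (nat_lit 84) (nat_lit 47536195308) (nat_lit 84) (nat_lit 6692043836) (nat_lit 9) (nat_lit 4) (nat_lit 10) (nat_lit 5) (nat_lit 10) (nat_lit 4) (nat_lit 441) (nat_lit 313) (nat_lit 191)) (XT.nd (nat_lit 94) (nat_lit 84) (nat_lit 0) (XT.lf (nat_lit 0) (nat_lit 15025330007) (nat_lit 84) (nat_lit 43491053580) (nat_lit 84) (nat_lit 2613695151) (nat_lit 9) (nat_lit 4) (nat_lit 10) (nat_lit 5) (nat_lit 10) (nat_lit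 4) (nat_lit 442) (nat_lit 313) (nat_lit 190)) (XT.lf (nat_lit 0) (nat_lit 1548000511) (nat_lit 168) (nat_lit 37767157155) (nat_lit 84) (nat_lit 23484256110) (nat_lit 8) (nat_lit 5) (nat_lit 10) (nat_lit 5) (nat_lit 9) (nat_lit 4) (nat_lit 443) (nat_lit 313) (nat_lit 189)))) (XT.nd (nat_lit 188) (nat_lit 0) (nat_lit 0) (XT.nd (nat_lit 94) (nat_lit 0) (nat_lit 0) (XT.lf (nat_lit 0) (nat_lit 5774213079) (nat_lit 168) (nat_lit 29219246384) (nat_lit 84) (nat_lit 29524831455) (nat_lit 8) (nat_lit 5) (nat_lit 10) (nat_lit 5) (nat_lit 9) (nat_lit 4) (nat_lit 444) (nat_lit 313) (nat_lit 188)) (XT.lf (nat_lit 0) (nat_lit 10119637966) (nat_lit 168) (nat_lit 20428422935) (nat_lit 84) (nat_lit 35740904930) (nat_lit 8) (nat_lit 5) (nat_lit 10) (nat_lit 5) (nat_lit 9) (nat_lit 4) (nat_lit 445) (nat_lit 313) (nat_lit 187))) (XT.nd (nat_lit 94) (nat_lit 0) (nat_lit 0) (XT.lf (nat_lit 0) (nat_lit 14588072144)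 (nat_lit 168) (nat_lit 11387005505) (nat_lit 84) (nat_lit 42137908056) (nat_lit 8) (nat_lit 5) (nat_lit 10) (nat_lit 5) (nat_lit 9) (nat_lit 4) (nat_lit 446) (nat_lit 313) (nat_lit 186)) (XT.lf (nat_lit 0) (nat_lit 19183420071) (nat_lit 168) (nat_lit 2087093827) (nat_lit 84) (nat_lit 48721430447) (nat_lit 8) (nat_lit 5) (nat_lit 10) (nat_lit 5) (nat_lit 9) (nat_lit 4) (nat_lit 447) (nat_lit 313) (nat_lit 185))))) (XT.nd (nat_lit 47000) (nat_lit 0) (nat_lit 23184) (XT.nd (nat_lit 94) (nat_lit 0) (nat_lit 0) (XT.lf (nat_lit 0) (nat_lit 7628293721) (nat_lit 84) (nat_lit 16354731203) (nat_lit 168) (nat_lit 47942258799) (nat_lit 7) (nat_lit 5) (nat_lit 8) (nat_lit 5) (nat_lit 9) (nat_lit 4) (nat_lit 448) (nat_lit 313) (nat_lit 184)) (XT.nd (nat_lit 94) (nat_lit 0) (nat_lit 0) (XT.lf (nat_lit 0) (nat_lit 17665670652) (nat_lit 84) (nat_lit 11275175566) (nat_lit 168) (nat_lit 44975353979) (nat_lit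 7) (nat_lit 5) (nat_lit 8) (nat_lit 5) (nat_lit 9) (nat_lit 4) (nat_lit 449) (nat_lit 313) (nat_lit 183)) (XT.lf (nat_lit 0) (nat_lit 27992270227) (nat_lit 84) (nat_lit 6048484096) (nat_lit 168) (nat_lit 41926292928) (nat_lit 7) (nat_lit 5) (nat_lit 8) (nat_lit 5) (nat_lit 9) (nat_lit 4) (nat_lit 450) (nat_lit 313) (nat_lit 182)))) (XT.nd (nat_lit 188) (nat_lit 252) (nat_lit 0) (XT.nd (nat_lit 94) (nat_lit 84) (nat_lit 0) (XT.lf (nat_lit 0) (nat_lit 1469813895) (nat_lit 84) (nat_lit 283584288) (nat_lit 0) (nat_lit 1469813895) (nat_lit 287) (nat_lit 5) (nat_lit 288) (nat_lit 0) (nat_lit 287) (nat_lit 4) (nat_lit 317) (nat_lit 314) (nat_lit 314)) (XT.lf (nat_lit 0) (nat_lit 2476258250) (nat_lit 84) (nat_lit 3346242813) (nat_lit 84) (nat_lit 629956352) (nat_lit 286) (nat_lit 4) (nat_lit 287) (nat_lit 5) (nat_lit 287) (nat_lit 4) (nat_lit 318) (nat_lit 314) (nat_lit 313))) (XT.nd (nat_lit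 94) (nat_lit 168) (nat_lit 0) (XT.lf (nat_lit 0) (nat_lit 2183832098) (nat_lit 168) (nat_lit 920278624) (nat_lit 84) (nat_lit 3357370360) (nat_lit 285) (nat_lit 5) (nat_lit 287) (nat_lit 5) (nat_lit 286) (nat_lit 4) (nat_lit 319) (nat_lit 314) (nat_lit 312)) (XT.lf (nat_lit 0) (nat_lit 2203984870) (nat_lit 168) (nat_lit 2780154617) (nat_lit 252) (nat_lit 1489362569) (nat_lit 283) (nat_lit 5) (nat_lit 285) (nat_lit 5) (nat_lit 286) (nat_lit 4) (nat_lit 320) (nat_lit 314) (nat_lit 311))))))) (XT.nd (nat_lit 1316) (nat_lit 7812) (nat_lit 0) (XT.nd (nat_lit 658) (nat_lit 2772) (nat_lit 0) (XT.nd (nat_lit 282) (nat_lit 840) (nat_lit 0) (XT.nd (nat_lit 94) (nat_lit 336) (nat_lit 0) (XT.lf (nat_lit 0) (nat_lit 1259718512) (nat_lit 252) (nat_lit 1120092939) (nat_lit 84) (nat_lit 4108885993) (nat_lit 282) (nat_lit 5) (nat_lit 285) (nat_lit 5) (nat_lit 283) (nat_lit 5) (nat_lit 321) (nat_lit 314)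 (nat_lit 310)) (XT.nd (nat_lit 94) (nat_lit 84) (nat_lit 0) (XT.lf (nat_lit 0) (nat_lit 2089702773) (nat_lit 252) (nat_lit 1889527887) (nat_lit 336) (nat_lit 2527465293) (nat_lit 279) (nat_lit 5) (nat_lit 282) (nat_lit 5) (nat_lit 283) (nat_lit 5) (nat_lit 322) (nat_lit 314) (nat_lit 309)) (XT.lf (nat_lit 0) (nat_lit 160449827) (nat_lit 336) (nat_lit 1170578700) (nat_lit 84) (nat_lit 5197130017) (nat_lit 278) (nat_lit 5) (nat_lit 282) (nat_lit 5) (nat_lit 279) (nat_lit 5) (nat_lit 323) (nat_lit 314) (nat_lit 308)))) (XT.nd (nat_lit 188) (nat_lit 504) (nat_lit 0) (XT.nd (nat_lit 94) (nat_lit 0) (nat_lit 0) (XT.lf (nat_lit 0) (nat_lit 2129691203) (nat_lit 336) (nat_lit 670839019) (nat_lit 420) (nat_lit 3751612983) (nat_lit 274) (nat_lit 5) (nat_lit 278) (nat_lit 5) (nat_lit 279) (nat_lit 5) (nat_lit 324) (nat_lit 314) (nat_lit 307)) (XT.lf (nat_lit 0) (nat_lit 5436330580) (nat_lit 420) (nat_lit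 1086729984) (nat_lit 84) (nat_lit 56581358) (nat_lit 274) (nat_lit 5) (nat_lit 279) (nat_lit 5) (nat_lit 275) (nat_lit 5) (nat_lit 325) (nat_lit 314) (nat_lit 306))) (XT.nd (nat_lit 94) (nat_lit 0) (nat_lit 0) (XT.lf (nat_lit 0) (nat_lit 1448499204) (nat_lit 504) (nat_lit 4297698676) (nat_lit 84) (nat_lit 863534856) (nat_lit 268) (nat_lit 5) (nat_lit 274) (nat_lit 5) (nat_lit 269) (nat_lit 5) (nat_lit 326) (nat_lit 314) (nat_lit 305)) (XT.lf (nat_lit 0) (nat_lit 4014394311) (nat_lit 504) (nat_lit 879442158) (nat_lit 84) (nat_lit 1749236350) (nat_lit 268) (nat_lit 5) (nat_lit 274) (nat_lit 5) (nat_lit 269) (nat_lit 5) (nat_lit 327) (nat_lit 314) (nat_lit 304))))) (XT.nd (nat_lit 282) (nat_lit 1596) (nat_lit 0) (XT.nd (nat_lit 94) (nat_lit 672) (nat_lit 0) (XT.lf (nat_lit 0) (nat_lit 2631890140) (nat_lit 504) (nat_lit 3961575638) (nat_lit 588) (nat_lit 86119039) (nat_lit 262) (nat_lit 5)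 (nat_lit 268) (nat_lit 5) (nat_lit 269) (nat_lit 5) (nat_lit 328) (nat_lit 314) (nat_lit 303)) (XT.nd (nat_lit 94) (nat_lit 588) (nat_lit 0) (XT.lf (nat_lit 0) (nat_lit 2404072132) (nat_lit 588) (nat_lit 537000888) (nat_lit 84) (nat_lit 3778008359) (nat_lit 261) (nat_lit 5) (nat_lit 268) (nat_lit 5) (nat_lit 262) (nat_lit 5) (nat_lit 329) (nat_lit 314) (nat_lit 302)) (XT.lf (nat_lit 0) (nat_lit 3077801313) (nat_lit 588) (nat_lit 1833399989) (nat_lit 672) (nat_lit 1850452894) (nat_lit 254) (nat_lit 5) (nat_lit 261) (nat_lit 5) (nat_lit 262) (nat_lit 5) (nat_lit 330) (nat_lit 314) (nat_lit 301)))) (XT.nd (nat_lit 188) (nat_lit 840) (nat_lit 0) (XT.nd (nat_lit 94) (nat_lit 672) (nat_lit 0) (XT.lf (nat_lit 0) (nat_lit 595333343) (nat_lit 672) (nat_lit 61689007) (nat_lit 84) (nat_lit 6150884144) (nat_lit 253) (nat_lit 5) (nat_lit 261) (nat_lit 5) (nat_lit 254) (nat_lit 5) (nat_lit 331) (nat_lit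 314) (nat_lit 300)) (XT.lf (nat_lit 0) (nat_lit 3036293669) (nat_lit 756) (nat_lit 3200354813) (nat_lit 84) (nat_lit 619794278) (nat_lit 245) (nat_lit 5) (nat_lit 254) (nat_lit 5) (nat_lit 246) (nat_lit 5) (nat_lit 332) (nat_lit 314) (nat_lit 299))) (XT.nd (nat_lit 94) (nat_lit 84) (nat_lit 0) (XT.lf (nat_lit 0) (nat_lit 521739928) (nat_lit 756) (nat_lit 4960633263) (nat_lit 840) (nat_lit 1426314742) (nat_lit 236) (nat_lit 5) (nat_lit 245) (nat_lit 5) (nat_lit 246) (nat_lit 5) (nat_lit 333) (nat_lit 314) (nat_lit 298)) (XT.lf (nat_lit 0) (nat_lit 972200594) (nat_lit 840) (nat_lit 2614086043) (nat_lit 84) (nat_lit 3377517196) (nat_lit 235) (nat_lit 5) (nat_lit 245) (nat_lit 5) (nat_lit 236) (nat_lit 5) (nat_lit 334) (nat_lit 314) (nat_lit 297)))))) (XT.nd (nat_lit 658) (nat_lit 3780) (nat_lit 0) (XT.nd (nat_lit 282) (nat_lit 2184) (nat_lit 0) (XT.nd (nat_lit 94) (nat_lit 1008) (nat_lit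 0) (XT.lf (nat_lit 0) (nat_lit 1220148315) (nat_lit 840) (nat_lit 2128409458) (nat_lit 924) (nat_lit 3673746914) (nat_lit 225) (nat_lit 5) (nat_lit 235) (nat_lit 5) (nat_lit 236) (nat_lit 5) (nat_lit 335) (nat_lit 314) (nat_lit 296)) (XT.nd (nat_lit 94) (nat_lit 1008) (nat_lit 0) (XT.lf (nat_lit 0) (nat_lit 5162097833) (nat_lit 840) (nat_lit 584992485) (nat_lit 924) (nat_lit 1337129876) (nat_lit 225) (nat_lit 5) (nat_lit 235) (nat_lit 5) (nat_lit 236) (nat_lit 5) (nat_lit 336) (nat_lit 314) (nat_lit 295)) (XT.lf (nat_lit 0) (nat_lit 1004221250) (nat_lit 1008) (nat_lit 5116458009) (nat_lit 84) (nat_lit 1028515732) (nat_lit 213) (nat_lit 5) (nat_lit 225) (nat_lit 5) (nat_lit 214) (nat_lit 5) (nat_lit 337) (nat_lit 314) (nat_lit 294)))) (XT.nd (nat_lit 188) (nat_lit 1176) (nat_lit 0) (XT.nd (nat_lit 94) (nat_lit 1008) (nat_lit 0) (XT.lf (nat_lit 0) (nat_lit 3341818418) (nat_lit 1008) (nat_lit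 1151766175) (nat_lit 84) (nat_lit 2723721225) (nat_lit 213) (nat_lit 5) (nat_lit 225) (nat_lit 5) (nat_lit 214) (nat_lit 5) (nat_lit 338) (nat_lit 314) (nat_lit 293)) (XT.lf (nat_lit 0) (nat_lit 2928180442) (nat_lit 1008) (nat_lit 2779109207) (nat_lit 1092) (nat_lit 1581603346) (nat_lit 201) (nat_lit 5) (nat_lit 213) (nat_lit 5) (nat_lit 214) (nat_lit 5) (nat_lit 339) (nat_lit 314) (nat_lit 292))) (XT.nd (nat_lit 94) (nat_lit 1092) (nat_lit 0) (XT.lf (nat_lit 0) (nat_lit 707831267) (nat_lit 1092) (nat_lit 277540327) (nat_lit 84) (nat_lit 6378927571) (nat_lit 200) (nat_lit 5) (nat_lit 213) (nat_lit 5) (nat_lit 201) (nat_lit 5) (nat_lit 340) (nat_lit 314) (nat_lit 291)) (XT.lf (nat_lit 0) (nat_lit 3013083661) (nat_lit 1176) (nat_lit 3522273990) (nat_lit 84) (nat_lit 906923756) (nat_lit 187) (nat_lit 5) (nat_lit 201) (nat_lit 5) (nat_lit 188) (nat_lit 5) (nat_lit 341) (nat_lit 314) (nat_lit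 290))))) (XT.nd (nat_lit 282) (nat_lit 1260) (nat_lit 0) (XT.nd (nat_lit 94) (nat_lit 1344) (nat_lit 0) (XT.lf (nat_lit 0) (nat_lit 668319200) (nat_lit 1176) (nat_lit 4671916566) (nat_lit 1260) (nat_lit 2183932048) (nat_lit 173) (nat_lit 5) (nat_lit 187) (nat_lit 5) (nat_lit 188) (nat_lit 5) (nat_lit 342) (nat_lit 314) (nat_lit 289)) (XT.nd (nat_lit 94) (nat_lit 1260) (nat_lit 0) (XT.lf (nat_lit 0) (nat_lit 96393137) (nat_lit 1260) (nat_lit 2614632126) (nat_lit 84) (nat_lit 4898480582) (nat_lit 172) (nat_lit 5) (nat_lit 187) (nat_lit 5) (nat_lit 173) (nat_lit 5) (nat_lit 343) (nat_lit 314) (nat_lit 288)) (XT.lf (nat_lit 0) (nat_lit 1704851500) (nat_lit 1260) (nat_lit 648976124) (nat_lit 1344) (nat_lit 5344484358) (nat_lit 157) (nat_lit 5) (nat_lit 172) (nat_lit 5) (nat_lit 173) (nat_lit 5) (nat_lit 344) (nat_lit 314) (nat_lit 287)))) (XT.nd (nat_lit 188) (nat_lit 672) (nat_lit 0) (XT.nd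 (nat_lit 94) (nat_lit 588) (nat_lit 0) (XT.lf (nat_lit 0) (nat_lit 4657338615) (nat_lit 1344) (nat_lit 1657962296) (nat_lit 84) (nat_lit 1475261364) (nat_lit 157) (nat_lit 5) (nat_lit 173) (nat_lit 5) (nat_lit 158) (nat_lit 5) (nat_lit 345) (nat_lit 314) (nat_lit 286)) (XT.lf (nat_lit 0) (nat_lit 2795482824) (nat_lit 588) (nat_lit 4207100987) (nat_lit 672) (nat_lit 883944169) (nat_lit 150) (nat_lit 5) (nat_lit 157) (nat_lit 5) (nat_lit 158) (nat_lit 5) (nat_lit 346) (nat_lit 314) (nat_lit 285))) (XT.nd (nat_lit 94) (nat_lit 588) (nat_lit 0) (XT.lf (nat_lit 0) (nat_lit 1361577860) (nat_lit 672) (nat_lit 643260452) (nat_lit 84) (nat_lit 5981538942) (nat_lit 149) (nat_lit 5) (nat_lit 157) (nat_lit 5) (nat_lit 150) (nat_lit 5) (nat_lit 347) (nat_lit 314) (nat_lit 284)) (XT.lf (nat_lit 0) (nat_lit 3639196804) (nat_lit 672) (nat_lit 4145644605) (nat_lit 84) (nat_lit 304759122) (nat_lit 142)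 (nat_lit 5) (nat_lit 150) (nat_lit 5) (nat_lit 143) (nat_lit 5) (nat_lit 348) (nat_lit 314) (nat_lit 283))))))))
noncomputable def xc84 : XT := (XT.nd (nat_lit 2538) (nat_lit 3108) (nat_lit 0) (XT.nd (nat_lit 1222) (nat_lit 2772) (nat_lit 0) (XT.nd (nat_lit 564) (nat_lit 1932) (nat_lit 0) (XT.nd (nat_lit 282) (nat_lit 588) (nat_lit 0) (XT.nd (nat_lit 94) (nat_lit 672) (nat_lit 0) (XT.lf (nat_lit 0) (nat_lit 413981720) (nat_lit 588) (nat_lit 5544246206) (nat_lit 672) (nat_lit 2238612707) (nat_lit 135) (nat_lit 5) (nat_lit 142) (nat_lit 5) (nat_lit 143) (nat_lit 5) (nat_lit 349) (nat_lit 314) (nat_lit 282)) (XT.nd (nat_lit 94) (nat_lit 588) (nat_lit 0) (XT.lf (nat_lit 0) (nat_lit 24162408) (nat_lit 672) (nat_lit 3172535416) (nat_lit 84) (nat_lit 5111132828) (nat_lit 134) (nat_lit 5) (nat_lit 142) (nat_lit 5) (nat_lit 135) (nat_lit 5) (nat_lit 350) (nat_lit 314) (nat_lit 281)) (XT.lf (nat_lit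 0) (nat_lit 1524381060) (nat_lit 588) (nat_lit 744880084) (nat_lit 672) (nat_lit 6153544343) (nat_lit 127) (nat_lit 5) (nat_lit 134) (nat_lit 5) (nat_lit 135) (nat_lit 5) (nat_lit 351) (nat_lit 314) (nat_lit 280)))) (XT.nd (nat_lit 94) (nat_lit 588) (nat_lit 0) (XT.lf (nat_lit 0) (nat_lit 4576962820) (nat_lit 672) (nat_lit 2190860670) (nat_lit 84) (nat_lit 1773648652) (nat_lit 127) (nat_lit 5) (nat_lit 135) (nat_lit 5) (nat_lit 128) (nat_lit 5) (nat_lit 352) (nat_lit 314) (nat_lit 279)) (XT.nd (nat_lit 94) (nat_lit 84) (nat_lit 0) (XT.lf (nat_lit 0) (nat_lit 2643499614) (nat_lit 504) (nat_lit 4290542323) (nat_lit 588) (nat_lit 1730349626) (nat_lit 121) (nat_lit 5) (nat_lit 127) (nat_lit 5) (nat_lit 128) (nat_lit 5) (nat_lit 353) (nat_lit 314) (nat_lit 278)) (XT.lf (nat_lit 0) (nat_lit 529769684) (nat_lit 588) (nat_lit 1187436385) (nat_lit 84) (nat_lit 7074617249) (nat_lit 120) (nat_lit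 5) (nat_lit 127) (nat_lit 5) (nat_lit 121) (nat_lit 5) (nat_lit 354) (nat_lit 314) (nat_lit 277))))) (XT.nd (nat_lit 282) (nat_lit 1008) (nat_lit 0) (XT.nd (nat_lit 94) (nat_lit 420) (nat_lit 0) (XT.lf (nat_lit 0) (nat_lit 2818041005) (nat_lit 588) (nat_lit 5142137366) (nat_lit 84) (nat_lit 962620800) (nat_lit 114) (nat_lit 5) (nat_lit 121) (nat_lit 5) (nat_lit 115) (nat_lit 5) (nat_lit 355) (nat_lit 314) (nat_lit 276)) (XT.nd (nat_lit 94) (nat_lit 420) (nat_lit 0) (XT.lf (nat_lit 0) (nat_lit 5154188631) (nat_lit 588) (nat_lit 210742548) (nat_lit 84) (nat_lit 3693482601) (nat_lit 114) (nat_lit 5) (nat_lit 121) (nat_lit 5) (nat_lit 115) (nat_lit 5) (nat_lit 356) (nat_lit 314) (nat_lit 275)) (XT.lf (nat_lit 0) (nat_lit 4907640007) (nat_lit 420) (nat_lit 2651525456) (nat_lit 504) (nat_lit 1639052833) (nat_lit 109) (nat_lit 5) (nat_lit 114) (nat_lit 5) (nat_lit 115) (nat_lit 5) (nat_lit 357)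 (nat_lit 314) (nat_lit 274)))) (XT.nd (nat_lit 188) (nat_lit 420) (nat_lit 0) (XT.nd (nat_lit 94) (nat_lit 0) (nat_lit 0) (XT.lf (nat_lit 0) (nat_lit 643648239) (nat_lit 588) (nat_lit 8551370179) (nat_lit 84) (nat_lit 148183846) (nat_lit 102) (nat_lit 5) (nat_lit 109) (nat_lit 5) (nat_lit 103) (nat_lit 5) (nat_lit 358) (nat_lit 314) (nat_lit 273)) (XT.lf (nat_lit 0) (nat_lit 2984551318) (nat_lit 588) (nat_lit 3477522037) (nat_lit 84) (nat_lit 3029372321) (nat_lit 102) (nat_lit 5) (nat_lit 109) (nat_lit 5) (nat_lit 103) (nat_lit 5) (nat_lit 359) (nat_lit 314) (nat_lit 272))) (XT.nd (nat_lit 94) (nat_lit 0) (nat_lit 0) (XT.lf (nat_lit 0) (nat_lit 1725866459) (nat_lit 420) (nat_lit 3640440242) (nat_lit 504) (nat_lit 4278785395) (nat_lit 97) (nat_lit 5) (nat_lit 102) (nat_lit 5) (nat_lit 103) (nat_lit 5) (nat_lit 360) (nat_lit 314) (nat_lit 271)) (XT.lf (nat_lit 0) (nat_lit 7100841922) (nat_lit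 420) (nat_lit 708626502) (nat_lit 504) (nat_lit 1994253171) (nat_lit 97) (nat_lit 5) (nat_lit 102) (nat_lit 5) (nat_lit 103) (nat_lit 5) (nat_lit 361) (nat_lit 314) (nat_lit 270)))))) (XT.nd (nat_lit 658) (nat_lit 1092) (nat_lit 0) (XT.nd (nat_lit 282) (nat_lit 840) (nat_lit 0) (XT.nd (nat_lit 94) (nat_lit 336) (nat_lit 0) (XT.lf (nat_lit 0) (nat_lit 355465165) (nat_lit 504) (nat_lit 7326684143) (nat_lit 84) (nat_lit 2284815783) (nat_lit 91) (nat_lit 5) (nat_lit 97) (nat_lit 5) (nat_lit 92) (nat_lit 5) (nat_lit 362) (nat_lit 314) (nat_lit 269)) (XT.nd (nat_lit 94) (nat_lit 336) (nat_lit 0) (XT.lf (nat_lit 0) (nat_lit 2726483922) (nat_lit 504) (nat_lit 2018029184) (nat_lit 84) (nat_lit 5390339854) (nat_lit 91) (nat_lit 5) (nat_lit 97) (nat_lit 5) (nat_lit 92) (nat_lit 5) (nat_lit 363) (nat_lit 314) (nat_lit 268)) (XT.lf (nat_lit 0) (nat_lit 3463239032) (nat_lit 336) (nat_lit 1696268729)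 (nat_lit 420) (nat_lit 5148607703) (nat_lit 87) (nat_lit 5) (nat_lit 91) (nat_lit 5) (nat_lit 92) (nat_lit 5) (nat_lit 364) (nat_lit 314) (nat_lit 267)))) (XT.nd (nat_lit 188) (nat_lit 420) (nat_lit 0) (XT.nd (nat_lit 94) (nat_lit 420) (nat_lit 0) (XT.lf (nat_lit 0) (nat_lit 7658164973) (nat_lit 420) (nat_lit 1404621376) (nat_lit 84) (nat_lit 1424072577) (nat_lit 87) (nat_lit 5) (nat_lit 92) (nat_lit 5) (nat_lit 88) (nat_lit 5) (nat_lit 365) (nat_lit 314) (nat_lit 266)) (XT.lf (nat_lit 0) (nat_lit 4210922721) (nat_lit 420) (nat_lit 6037537409) (nat_lit 504) (nat_lit 422064762) (nat_lit 82) (nat_lit 5) (nat_lit 87) (nat_lit 5) (nat_lit 88) (nat_lit 5) (nat_lit 366) (nat_lit 314) (nat_lit 265))) (XT.nd (nat_lit 94) (nat_lit 336) (nat_lit 0) (XT.lf (nat_lit 0) (nat_lit 1990580539) (nat_lit 504) (nat_lit 909092323) (nat_lit 84) (nat_lit 7960273356) (nat_lit 81) (nat_lit 5) (nat_lit 87) (nat_lit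 5) (nat_lit 82) (nat_lit 5) (nat_lit 367) (nat_lit 314) (nat_lit 264)) (XT.lf (nat_lit 0) (nat_lit 4478084279) (nat_lit 420) (nat_lit 6212080283) (nat_lit 84) (nat_lit 364486801) (nat_lit 77) (nat_lit 5) (nat_lit 82) (nat_lit 5) (nat_lit 78) (nat_lit 5) (nat_lit 368) (nat_lit 314) (nat_lit 263))))) (XT.nd (nat_lit 282) (nat_lit 672) (nat_lit 0) (XT.nd (nat_lit 94) (nat_lit 420) (nat_lit 0) (XT.lf (nat_lit 0) (nat_lit 7039518301) (nat_lit 420) (nat_lit 550947760) (nat_lit 84) (nat_lit 3664806241) (nat_lit 77) (nat_lit 5) (nat_lit 82) (nat_lit 5) (nat_lit 78) (nat_lit 5) (nat_lit 369) (nat_lit 314) (nat_lit 262)) (XT.nd (nat_lit 94) (nat_lit 84) (nat_lit 0) (XT.lf (nat_lit 0) (nat_lit 5332972726) (nat_lit 336) (nat_lit 4358537475) (nat_lit 420) (nat_lit 1770042448) (nat_lit 73) (nat_lit 5) (nat_lit 77) (nat_lit 5) (nat_lit 78) (nat_lit 5) (nat_lit 370) (nat_lit 314) (nat_lit 261)) (XT.lf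 (nat_lit 0) (nat_lit 702685294) (nat_lit 420) (nat_lit 327808246) (nat_lit 84) (nat_lit 10644313252) (nat_lit 72) (nat_lit 5) (nat_lit 77) (nat_lit 5) (nat_lit 73) (nat_lit 5) (nat_lit 371) (nat_lit 314) (nat_lit 260)))) (XT.nd (nat_lit 188) (nat_lit 336) (nat_lit 0) (XT.nd (nat_lit 94) (nat_lit 0) (nat_lit 0) (XT.lf (nat_lit 0) (nat_lit 3256080340) (nat_lit 420) (nat_lit 6226457312) (nat_lit 84) (nat_lit 2410181100) (nat_lit 68) (nat_lit 5) (nat_lit 73) (nat_lit 5) (nat_lit 69) (nat_lit 5) (nat_lit 372) (nat_lit 314) (nat_lit 259)) (XT.lf (nat_lit 0) (nat_lit 5863803350) (nat_lit 420) (nat_lit 330833233) (nat_lit 84) (nat_lit 5923246109) (nat_lit 68) (nat_lit 5) (nat_lit 73) (nat_lit 5) (nat_lit 69) (nat_lit 5) (nat_lit 373) (nat_lit 314) (nat_lit 258))) (XT.nd (nat_lit 94) (nat_lit 0) (nat_lit 0) (XT.lf (nat_lit 0) (nat_lit 5806022233) (nat_lit 336) (nat_lit 2764770360) (nat_lit 420)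 (nat_lit 3778422972) (nat_lit 64) (nat_lit 5) (nat_lit 68) (nat_lit 5) (nat_lit 69) (nat_lit 5) (nat_lit 374) (nat_lit 314) (nat_lit 257)) (XT.lf (nat_lit 0) (nat_lit 11335381674) (nat_lit 420) (nat_lit 510426450) (nat_lit 84) (nat_lit 742432337) (nat_lit 64) (nat_lit 5) (nat_lit 69) (nat_lit 5) (nat_lit 65) (nat_lit 5) (nat_lit 375) (nat_lit 314) (nat_lit 256))))))) (XT.nd (nat_lit 1316) (nat_lit 1092) (nat_lit 0) (XT.nd (nat_lit 658) (nat_lit 756) (nat_lit 0) (XT.nd (nat_lit 282) (nat_lit 588) (nat_lit 0) (XT.nd (nat_lit 94) (nat_lit 336) (nat_lit 0) (XT.lf (nat_lit 0) (nat_lit 1371789412) (nat_lit 336) (nat_lit 7106443616) (nat_lit 84) (nat_lit 4354366514) (nat_lit 60) (nat_lit 5) (nat_lit 64) (nat_lit 5) (nat_lit 61) (nat_lit 5) (nat_lit 376) (nat_lit 314) (nat_lit 255)) (XT.nd (nat_lit 94) (nat_lit 336) (nat_lit 0) (XT.lf (nat_lit 0) (nat_lit 4021985770) (nat_lit 336) (nat_lit 984471715)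 (nat_lit 84) (nat_lit 8078340107) (nat_lit 60) (nat_lit 5) (nat_lit 64) (nat_lit 5) (nat_lit 61) (nat_lit 5) (nat_lit 377) (nat_lit 314) (nat_lit 254)) (XT.lf (nat_lit 0) (nat_lit 5379352814) (nat_lit 336) (nat_lit 1391796865) (nat_lit 420) (nat_lit 6572866915) (nat_lit 56) (nat_lit 5) (nat_lit 60) (nat_lit 5) (nat_lit 61) (nat_lit 5) (nat_lit 378) (nat_lit 314) (nat_lit 253)))) (XT.nd (nat_lit 188) (nat_lit 336) (nat_lit 0) (XT.nd (nat_lit 94) (nat_lit 252) (nat_lit 0) (XT.lf (nat_lit 0) (nat_lit 9603344132) (nat_lit 420) (nat_lit 1726118313) (nat_lit 84) (nat_lit 2281570783) (nat_lit 56) (nat_lit 5) (nat_lit 61) (nat_lit 5) (nat_lit 57) (nat_lit 5) (nat_lit 379) (nat_lit 314) (nat_lit 252)) (XT.lf (nat_lit 0) (nat_lit 4732353640) (nat_lit 252) (nat_lit 7816456222) (nat_lit 336) (nat_lit 1336437969) (nat_lit 53) (nat_lit 5) (nat_lit 56) (nat_lit 5) (nat_lit 57) (nat_lit 5) (nat_lit 380)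 (nat_lit 314) (nat_lit 251))) (XT.nd (nat_lit 94) (nat_lit 252) (nat_lit 0) (XT.lf (nat_lit 0) (nat_lit 1374107052) (nat_lit 336) (nat_lit 2806970651) (nat_lit 84) (nat_lit 9986634642) (nat_lit 52) (nat_lit 5) (nat_lit 56) (nat_lit 5) (nat_lit 53) (nat_lit 5) (nat_lit 381) (nat_lit 314) (nat_lit 250)) (XT.lf (nat_lit 0) (nat_lit 3744512881) (nat_lit 252) (nat_lit 400651300) (nat_lit 336) (nat_lit 10312941469) (nat_lit 49) (nat_lit 5) (nat_lit 52) (nat_lit 5) (nat_lit 53) (nat_lit 5) (nat_lit 382) (nat_lit 314) (nat_lit 249))))) (XT.nd (nat_lit 282) (nat_lit 504) (nat_lit 0) (XT.nd (nat_lit 94) (nat_lit 252) (nat_lit 0) (XT.lf (nat_lit 0) (nat_lit 7031924892) (nat_lit 336) (nat_lit 4285131158) (nat_lit 84) (nat_lit 3439210095) (nat_lit 49) (nat_lit 5) (nat_lit 53) (nat_lit 5) (nat_lit 50) (nat_lit 5) (nat_lit 383) (nat_lit 314) (nat_lit 248)) (XT.nd (nat_lit 94) (nat_lit 0) (nat_lit 0)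 (XT.lf (nat_lit 0) (nat_lit 2334081747) (nat_lit 252) (nat_lit 7668840886) (nat_lit 336) (nat_lit 5060551394) (nat_lit 46) (nat_lit 5) (nat_lit 49) (nat_lit 5) (nat_lit 50) (nat_lit 5) (nat_lit 384) (nat_lit 314) (nat_lit 247)) (XT.lf (nat_lit 0) (nat_lit 9196458230) (nat_lit 252) (nat_lit 3881516401) (nat_lit 336) (nat_lit 2301506464) (nat_lit 46) (nat_lit 5) (nat_lit 49) (nat_lit 5) (nat_lit 50) (nat_lit 5) (nat_lit 385) (nat_lit 314) (nat_lit 246)))) (XT.nd (nat_lit 188) (nat_lit 168) (nat_lit 0) (XT.nd (nat_lit 94) (nat_lit 0) (nat_lit 0) (XT.lf (nat_lit 0) (nat_lit 507108611) (nat_lit 336) (nat_lit 15183515282) (nat_lit 84) (nat_lit 14897319) (nat_lit 42) (nat_lit 5) (nat_lit 46) (nat_lit 5) (nat_lit 43) (nat_lit 5) (nat_lit 386) (nat_lit 314) (nat_lit 245)) (XT.lf (nat_lit 0) (nat_lit 3427649857) (nat_lit 336) (nat_lit 8589242301) (nat_lit 84) (nat_lit 4021577064) (nat_lit 42) (nat_lit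 5) (nat_lit 46) (nat_lit 5) (nat_lit 43) (nat_lit 5) (nat_lit 387) (nat_lit 314) (nat_lit 244))) (XT.nd (nat_lit 94) (nat_lit 168) (nat_lit 0) (XT.lf (nat_lit 0) (nat_lit 6409050324) (nat_lit 336) (nat_lit 1838760670) (nat_lit 84) (nat_lit 8134424645) (nat_lit 42) (nat_lit 5) (nat_lit 46) (nat_lit 5) (nat_lit 43) (nat_lit 5) (nat_lit 388) (nat_lit 314) (nat_lit 243)) (XT.lf (nat_lit 0) (nat_lit 5174807215) (nat_lit 168) (nat_lit 4328851316) (nat_lit 252) (nat_lit 7231970009) (nat_lit 40) (nat_lit 5) (nat_lit 42) (nat_lit 5) (nat_lit 43) (nat_lit 5) (nat_lit 389) (nat_lit 314) (nat_lit 242)))))) (XT.nd (nat_lit 658) (nat_lit 420) (nat_lit 0) (XT.nd (nat_lit 282) (nat_lit 336) (nat_lit 0) (XT.nd (nat_lit 94) (nat_lit 336) (nat_lit 0) (XT.lf (nat_lit 0) (nat_lit 12396463758) (nat_lit 168) (nat_lit 287603437) (nat_lit 252) (nat_lit 4415792860) (nat_lit 40) (nat_lit 5) (nat_lit 42) (nat_lit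 5) (nat_lit 43) (nat_lit 5) (nat_lit 390) (nat_lit 314) (nat_lit 241)) (XT.nd (nat_lit 94) (nat_lit 84) (nat_lit 0) (XT.lf (nat_lit 0) (nat_lit 2328458257) (nat_lit 252) (nat_lit 13666065852) (nat_lit 336) (nat_lit 1479480271) (nat_lit 37) (nat_lit 5) (nat_lit 40) (nat_lit 5) (nat_lit 41) (nat_lit 5) (nat_lit 391) (nat_lit 314) (nat_lit 240)) (XT.lf (nat_lit 0) (nat_lit 1540677741) (nat_lit 336) (nat_lit 8248047544) (nat_lit 84) (nat_lit 8069448649) (nat_lit 36) (nat_lit 5) (nat_lit 40) (nat_lit 5) (nat_lit 37) (nat_lit 5) (nat_lit 392) (nat_lit 314) (nat_lit 239)))) (XT.nd (nat_lit 188) (nat_lit 168) (nat_lit 0) (XT.nd (nat_lit 94) (nat_lit 168) (nat_lit 0) (XT.lf (nat_lit 0) (nat_lit 4597520081) (nat_lit 336) (nat_lit 1196732797) (nat_lit 84) (nat_lit 12459924604) (nat_lit 36) (nat_lit 5) (nat_lit 40) (nat_lit 5) (nat_lit 37) (nat_lit 5) (nat_lit 393) (nat_lit 314) (nat_lit 238)) (XT.lf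 (nat_lit 0) (nat_lit 6148765695) (nat_lit 168) (nat_lit 1632927768) (nat_lit 252) (nat_lit 10879321065) (nat_lit 34) (nat_lit 5) (nat_lit 36) (nat_lit 5) (nat_lit 37) (nat_lit 5) (nat_lit 394) (nat_lit 314) (nat_lit 237))) (XT.nd (nat_lit 94) (nat_lit 168) (nat_lit 0) (XT.lf (nat_lit 0) (nat_lit 11075816554) (nat_lit 252) (nat_lit 5403714711) (nat_lit 84) (nat_lit 2600114201) (nat_lit 34) (nat_lit 5) (nat_lit 37) (nat_lit 5) (nat_lit 35) (nat_lit 5) (nat_lit 395) (nat_lit 314) (nat_lit 236)) (XT.lf (nat_lit 0) (nat_lit 1902570367) (nat_lit 168) (nat_lit 12578043090) (nat_lit 252) (nat_lit 5029887262) (nat_lit 32) (nat_lit 5) (nat_lit 34) (nat_lit 5) (nat_lit 35) (nat_lit 5) (nat_lit 396) (nat_lit 314) (nat_lit 235))))) (XT.nd (nat_lit 282) (nat_lit 168) (nat_lit 0) (XT.nd (nat_lit 94) (nat_lit 252) (nat_lit 0) (XT.lf (nat_lit 0) (nat_lit 9502708872) (nat_lit 168) (nat_lit 8517117527) (nat_lit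 252) (nat_lit 1933507349) (nat_lit 32) (nat_lit 5) (nat_lit 34) (nat_lit 5) (nat_lit 35) (nat_lit 5) (nat_lit 397) (nat_lit 314) (nat_lit 234)) (XT.nd (nat_lit 94) (nat_lit 168) (nat_lit 0) (XT.lf (nat_lit 0) (nat_lit 1209380435) (nat_lit 252) (nat_lit 3126180312) (nat_lit 84) (nat_lit 16074204374) (nat_lit 31) (nat_lit 5) (nat_lit 34) (nat_lit 5) (nat_lit 32) (nat_lit 5) (nat_lit 398) (nat_lit 314) (nat_lit 233)) (XT.lf (nat_lit 0) (nat_lit 4429450981) (nat_lit 252) (nat_lit 16427659781) (nat_lit 84) (nat_lit 21570195) (nat_lit 29) (nat_lit 5) (nat_lit 32) (nat_lit 5) (nat_lit 30) (nat_lit 5) (nat_lit 399) (nat_lit 314) (nat_lit 232)))) (XT.nd (nat_lit 188) (nat_lit 168) (nat_lit 0) (XT.nd (nat_lit 94) (nat_lit 0) (nat_lit 0) (XT.lf (nat_lit 0) (nat_lit 7799852845) (nat_lit 252) (nat_lit 9118990268) (nat_lit 84) (nat_lit 4441227298) (nat_lit 29) (nat_lit 5) (nat_lit 32) (nat_lit 5) (nat_lit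 30) (nat_lit 5) (nat_lit 400) (nat_lit 314) (nat_lit 231)) (XT.lf (nat_lit 0) (nat_lit 11250902698) (nat_lit 252) (nat_lit 1624707746) (nat_lit 84) (nat_lit 8980922524) (nat_lit 29) (nat_lit 5) (nat_lit 32) (nat_lit 5) (nat_lit 30) (nat_lit 5) (nat_lit 401) (nat_lit 314) (nat_lit 230))) (XT.nd (nat_lit 94) (nat_lit 0) (nat_lit 0) (XT.lf (nat_lit 0) (nat_lit 6182376623) (nat_lit 168) (nat_lit 8662668182) (nat_lit 252) (nat_lit 7521674759) (nat_lit 27) (nat_lit 5) (nat_lit 29) (nat_lit 5) (nat_lit 30) (nat_lit 5) (nat_lit 402) (nat_lit 314) (nat_lit 229)) (XT.lf (nat_lit 0) (nat_lit 14224631641) (nat_lit 168) (nat_lit 4319185613) (nat_lit 252) (nat_lit 4348506812) (nat_lit 27) (nat_lit 5) (nat_lit 29) (nat_lit 5) (nat_lit 30) (nat_lit 5) (nat_lit 403) (nat_lit 314) (nat_lit 228))))))))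
noncomputable def xc85 : XT := (XT.nd (nat_lit 2538) (nat_lit 504) (nat_lit 0) (XT.nd (nat_lit 1222) (nat_lit 420) (nat_lit 0) (XT.nd (nat_lit 564) (nat_lit 336) (nat_lit 0) (XT.nd (nat_lit 282) (nat_lit 168) (nat_lit 0) (XT.nd (nat_lit 94) (nat_lit 252) (nat_lit 0) (XT.lf (nat_lit 0) (nat_lit 22335890640) (nat_lit 252) (nat_lit 958901112) (nat_lit 84) (nat_lit 139450830) (nat_lit 27) (nat_lit 5) (nat_lit 30) (nat_lit 5) (nat_lit 28) (nat_lit 4) (nat_lit 404) (nat_lit 314) (nat_lit 227)) (XT.nd (nat_lit 94) (nat_lit 0) (nat_lit 0) (XT.lf (nat_lit 0) (nat_lit 2298203704) (nat_lit 252) (nat_lit 16967291628) (nat_lit 84) (nat_lit 4723506114) (nat_lit 24) (nat_lit 5) (nat_lit 27) (nat_lit 5) (nat_lit 25) (nat_lit 5) (nat_lit 405) (nat_lit 314) (nat_lit 226)) (XT.lf (nat_lit 0) (nat_lit 5765819003) (nat_lit 252) (nat_lit 9340712147) (nat_lit 84) (nat_lit 9453823173) (nat_lit 24) (nat_lit 5)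 (nat_lit 27) (nat_lit 5) (nat_lit 25) (nat_lit 5) (nat_lit 406) (nat_lit 314) (nat_lit 225)))) (XT.nd (nat_lit 94) (nat_lit 168) (nat_lit 0) (XT.lf (nat_lit 0) (nat_lit 9319462641) (nat_lit 252) (nat_lit 1515456181) (nat_lit 84) (nat_lit 14314483192) (nat_lit 24) (nat_lit 5) (nat_lit 27) (nat_lit 5) (nat_lit 25) (nat_lit 5) (nat_lit 407) (nat_lit 314) (nat_lit 224)) (XT.nd (nat_lit 94) (nat_lit 0) (nat_lit 0) (XT.lf (nat_lit 0) (nat_lit 6644981391) (nat_lit 168) (nat_lit 6381133979) (nat_lit 252) (nat_lit 12728627585) (nat_lit 22) (nat_lit 5) (nat_lit 24) (nat_lit 5) (nat_lit 25) (nat_lit 5) (nat_lit 408) (nat_lit 314) (nat_lit 223)) (XT.lf (nat_lit 0) (nat_lit 15052340566) (nat_lit 168) (nat_lit 1789685060) (nat_lit 252) (nat_lit 9536290167) (nat_lit 22) (nat_lit 5) (nat_lit 24) (nat_lit 5) (nat_lit 25) (nat_lit 5) (nat_lit 409) (nat_lit 314) (nat_lit 222))))) (XT.nd (nat_lit 282) (nat_lit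 168) (nat_lit 0) (XT.nd (nat_lit 94) (nat_lit 168) (nat_lit 0) (XT.lf (nat_lit 0) (nat_lit 20783817328) (nat_lit 252) (nat_lit 3365451134) (nat_lit 84) (nat_lit 2870998249) (nat_lit 22) (nat_lit 5) (nat_lit 25) (nat_lit 5) (nat_lit 23) (nat_lit 4) (nat_lit 410) (nat_lit 314) (nat_lit 221)) (XT.nd (nat_lit 94) (nat_lit 84) (nat_lit 0) (XT.lf (nat_lit 0) (nat_lit 4883780347) (nat_lit 84) (nat_lit 20008386609) (nat_lit 168) (nat_lit 2787872714) (nat_lit 21) (nat_lit 5) (nat_lit 22) (nat_lit 5) (nat_lit 23) (nat_lit 4) (nat_lit 411) (nat_lit 314) (nat_lit 220)) (XT.lf (nat_lit 0) (nat_lit 767250364) (nat_lit 168) (nat_lit 14944545215) (nat_lit 84) (nat_lit 12647061766) (nat_lit 20) (nat_lit 5) (nat_lit 22) (nat_lit 5) (nat_lit 21) (nat_lit 5) (nat_lit 412) (nat_lit 314) (nat_lit 219)))) (XT.nd (nat_lit 188) (nat_lit 0) (nat_lit 0) (XT.nd (nat_lit 94) (nat_lit 168) (nat_lit 0) (XT.lf (nat_lit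 0) (nat_lit 4357148715) (nat_lit 168) (nat_lit 6911828097) (nat_lit 84) (nat_lit 17788721571) (nat_lit 20) (nat_lit 5) (nat_lit 22) (nat_lit 5) (nat_lit 21) (nat_lit 5) (nat_lit 413) (nat_lit 314) (nat_lit 218)) (XT.lf (nat_lit 0) (nat_lit 1362292886) (nat_lit 168) (nat_lit 6690162886) (nat_lit 252) (nat_lit 21725128758) (nat_lit 18) (nat_lit 5) (nat_lit 20) (nat_lit 5) (nat_lit 21) (nat_lit 5) (nat_lit 414) (nat_lit 314) (nat_lit 217))) (XT.nd (nat_lit 94) (nat_lit 0) (nat_lit 0) (XT.lf (nat_lit 0) (nat_lit 10000418791) (nat_lit 168) (nat_lit 1912814778) (nat_lit 252) (nat_lit 18604206250) (nat_lit 18) (nat_lit 5) (nat_lit 20) (nat_lit 5) (nat_lit 21) (nat_lit 5) (nat_lit 415) (nat_lit 314) (nat_lit 216)) (XT.lf (nat_lit 0) (nat_lit 15903905863) (nat_lit 252) (nat_lit 12436218337) (nat_lit 84) (nat_lit 2938955016) (nat_lit 18) (nat_lit 5) (nat_lit 21) (nat_lit 5) (nat_lit 19) (nat_lit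 4) (nat_lit 416) (nat_lit 314) (nat_lit 215)))))) (XT.nd (nat_lit 658) (nat_lit 84) (nat_lit 0) (XT.nd (nat_lit 282) (nat_lit 252) (nat_lit 0) (XT.nd (nat_lit 94) (nat_lit 84) (nat_lit 0) (XT.lf (nat_lit 0) (nat_lit 20018827215) (nat_lit 252) (nat_lit 4156690242) (nat_lit 84) (nat_lit 7887924747) (nat_lit 18) (nat_lit 5) (nat_lit 21) (nat_lit 5) (nat_lit 19) (nat_lit 4) (nat_lit 417) (nat_lit 314) (nat_lit 214)) (XT.nd (nat_lit 94) (nat_lit 0) (nat_lit 0) (XT.lf (nat_lit 0) (nat_lit 4433702445) (nat_lit 84) (nat_lit 19852123057) (nat_lit 168) (nat_lit 8584661680) (nat_lit 17) (nat_lit 5) (nat_lit 18) (nat_lit 5) (nat_lit 19) (nat_lit 4) (nat_lit 418) (nat_lit 314) (nat_lit 213)) (XT.lf (nat_lit 0) (nat_lit 13343211909) (nat_lit 84) (nat_lit 15365784755) (nat_lit 168) (nat_lit 4991911643) (nat_lit 17) (nat_lit 5) (nat_lit 18) (nat_lit 5) (nat_lit 19) (nat_lit 4) (nat_lit 419) (nat_lit 314)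 (nat_lit 212)))) (XT.nd (nat_lit 188) (nat_lit 168) (nat_lit 0) (XT.nd (nat_lit 94) (nat_lit 84) (nat_lit 0) (XT.lf (nat_lit 0) (nat_lit 22496896871) (nat_lit 84) (nat_lit 10754556872) (nat_lit 168) (nat_lit 1305200005) (nat_lit 17) (nat_lit 5) (nat_lit 18) (nat_lit 5) (nat_lit 19) (nat_lit 4) (nat_lit 420) (nat_lit 314) (nat_lit 211)) (XT.lf (nat_lit 0) (nat_lit 2430326372) (nat_lit 168) (nat_lit 3559542276) (nat_lit 84) (nat_lit 29447887793) (nat_lit 16) (nat_lit 5) (nat_lit 18) (nat_lit 5) (nat_lit 17) (nat_lit 5) (nat_lit 421) (nat_lit 314) (nat_lit 210))) (XT.nd (nat_lit 94) (nat_lit 0) (nat_lit 0) (XT.lf (nat_lit 0) (nat_lit 5263418228) (nat_lit 168) (nat_lit 1026088971) (nat_lit 252) (nat_lit 30054271282) (nat_lit 14) (nat_lit 5) (nat_lit 16) (nat_lit 5) (nat_lit 17) (nat_lit 5) (nat_lit 422) (nat_lit 314) (nat_lit 209)) (XT.lf (nat_lit 0) (nat_lit 10327346944) (nat_lit 252) (nat_lit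 22913634946) (nat_lit 84) (nat_lit 4034121144) (nat_lit 14) (nat_lit 5) (nat_lit 17) (nat_lit 5) (nat_lit 15) (nat_lit 4) (nat_lit 423) (nat_lit 314) (nat_lit 208))))) (XT.nd (nat_lit 282) (nat_lit 0) (nat_lit 0) (XT.nd (nat_lit 94) (nat_lit 84) (nat_lit 0) (XT.lf (nat_lit 0) (nat_lit 14484151342) (nat_lit 252) (nat_lit 14533550618) (nat_lit 84) (nat_lit 9216738590) (nat_lit 14) (nat_lit 5) (nat_lit 17) (nat_lit 5) (nat_lit 15) (nat_lit 4) (nat_lit 424) (nat_lit 314) (nat_lit 207)) (XT.nd (nat_lit 94) (nat_lit 84) (nat_lit 0) (XT.lf (nat_lit 0) (nat_lit 18753689159) (nat_lit 252) (nat_lit 5922921473) (nat_lit 84) (nat_lit 14546314560) (nat_lit 14) (nat_lit 5) (nat_lit 17) (nat_lit 5) (nat_lit 15) (nat_lit 4) (nat_lit 425) (nat_lit 314) (nat_lit 206)) (XT.lf (nat_lit 0) (nat_lit 2984005027) (nat_lit 84) (nat_lit 20184370112) (nat_lit 168) (nat_lit 17072185018) (nat_lit 13) (nat_lit 5) (nat_lit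 14) (nat_lit 5) (nat_lit 15) (nat_lit 4) (nat_lit 426) (nat_lit 314) (nat_lit 205)))) (XT.nd (nat_lit 188) (nat_lit 0) (nat_lit 0) (XT.nd (nat_lit 94) (nat_lit 0) (nat_lit 0) (XT.lf (nat_lit 0) (nat_lit 12259501733) (nat_lit 84) (nat_lit 15504333567) (nat_lit 168) (nat_lit 13523446290) (nat_lit 13) (nat_lit 5) (nat_lit 14) (nat_lit 5) (nat_lit 15) (nat_lit 4) (nat_lit 427) (nat_lit 314) (nat_lit 204)) (XT.lf (nat_lit 0) (nat_lit 21793795695) (nat_lit 84) (nat_lit 10692221536) (nat_lit 168) (nat_lit 9879728902) (nat_lit 13) (nat_lit 5) (nat_lit 14) (nat_lit 5) (nat_lit 15) (nat_lit 4) (nat_lit 428) (nat_lit 314) (nat_lit 203))) (XT.nd (nat_lit 94) (nat_lit 0) (nat_lit 0) (XT.lf (nat_lit 0) (nat_lit 31595217850) (nat_lit 84) (nat_lit 5743829261) (nat_lit 168) (nat_lit 6137849024) (nat_lit 13) (nat_lit 5) (nat_lit 14) (nat_lit 5) (nat_lit 15) (nat_lit 4) (nat_lit 429) (nat_lit 314) (nat_lit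 202)) (XT.lf (nat_lit 0) (nat_lit 41672332548) (nat_lit 84) (nat_lit 654832906) (nat_lit 168) (nat_lit 2294537051) (nat_lit 13) (nat_lit 5) (nat_lit 14) (nat_lit 5) (nat_lit 15) (nat_lit 4) (nat_lit 430) (nat_lit 314) (nat_lit 201))))))) (XT.nd (nat_lit 1316) (nat_lit 84) (nat_lit 0) (XT.nd (nat_lit 658) (nat_lit 168) (nat_lit 0) (XT.nd (nat_lit 282) (nat_lit 84) (nat_lit 0) (XT.nd (nat_lit 94) (nat_lit 0) (nat_lit 0) (XT.lf (nat_lit 0) (nat_lit 1727027130) (nat_lit 168) (nat_lit 39503026677) (nat_lit 84) (nat_lit 4567463032) (nat_lit 11) (nat_lit 5) (nat_lit 13) (nat_lit 5) (nat_lit 12) (nat_lit 4) (nat_lit 431) (nat_lit 314) (nat_lit 200)) (XT.nd (nat_lit 94) (nat_lit 0) (nat_lit 0) (XT.lf (nat_lit 0) (nat_lit 5849432331) (nat_lit 168) (nat_lit 31179171495) (nat_lit 84) (nat_lit 9978537089) (nat_lit 11) (nat_lit 5) (nat_lit 13) (nat_lit 5) (nat_lit 12) (nat_lit 4) (nat_lit 432) (nat_lit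 314) (nat_lit 199)) (XT.lf (nat_lit 0) (nat_lit 10085558995) (nat_lit 168) (nat_lit 22623161913) (nat_lit 84) (nat_lit 15544637361) (nat_lit 11) (nat_lit 5) (nat_lit 13) (nat_lit 5) (nat_lit 12) (nat_lit 4) (nat_lit 433) (nat_lit 314) (nat_lit 198)))) (XT.nd (nat_lit 188) (nat_lit 84) (nat_lit 0) (XT.nd (nat_lit 94) (nat_lit 0) (nat_lit 0) (XT.lf (nat_lit 0) (nat_lit 14439108595) (nat_lit 168) (nat_lit 13827521806) (nat_lit 84) (nat_lit 21270627431) (nat_lit 11) (nat_lit 5) (nat_lit 13) (nat_lit 5) (nat_lit 12) (nat_lit 4) (nat_lit 434) (nat_lit 314) (nat_lit 197)) (XT.lf (nat_lit 0) (nat_lit 18913885201) (nat_lit 168) (nat_lit 4784565664) (nat_lit 84) (nat_lit 27161510590) (nat_lit 11) (nat_lit 5) (nat_lit 13) (nat_lit 5) (nat_lit 12) (nat_lit 4) (nat_lit 435) (nat_lit 314) (nat_lit 196))) (XT.nd (nat_lit 94) (nat_lit 0) (nat_lit 0) (XT.lf (nat_lit 0) (nat_lit 4603437776) (nat_lit 84)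 (nat_lit 18954612097) (nat_lit 168) (nat_lit 28663247496) (nat_lit 10) (nat_lit 5) (nat_lit 11) (nat_lit 5) (nat_lit 12) (nat_lit 4) (nat_lit 436) (nat_lit 314) (nat_lit 195)) (XT.lf (nat_lit 0) (nat_lit 14355246748) (nat_lit 84) (nat_lit 14025613439) (nat_lit 168) (nat_lit 25241438915) (nat_lit 10) (nat_lit 5) (nat_lit 11) (nat_lit 5) (nat_lit 12) (nat_lit 4) (nat_lit 437) (nat_lit 314) (nat_lit 194))))) (XT.nd (nat_lit 282) (nat_lit 168) (nat_lit 0) (XT.nd (nat_lit 94) (nat_lit 0) (nat_lit 0) (XT.lf (nat_lit 0) (nat_lit 24384160011) (nat_lit 84) (nat_lit 8955462731) (nat_lit 168) (nat_lit 21725975315) (nat_lit 10) (nat_lit 5) (nat_lit 11) (nat_lit 5) (nat_lit 12) (nat_lit 4) (nat_lit 438) (nat_lit 314) (nat_lit 193)) (XT.nd (nat_lit 94) (nat_lit 0) (nat_lit 0) (XT.lf (nat_lit 0) (nat_lit 34698940694) (nat_lit 84) (nat_lit 3739729744) (nat_lit 168) (nat_lit 18113784931) (nat_lit 10) (nat_lit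 5) (nat_lit 11) (nat_lit 5) (nat_lit 12) (nat_lit 4) (nat_lit 439) (nat_lit 314) (nat_lit 192)) (XT.lf (nat_lit 0) (nat_lit 43698090233) (nat_lit 168) (nat_lit 12791200002) (nat_lit 0) (nat_lit 1594411051) (nat_lit 10) (nat_lit 5) (nat_lit 12) (nat_lit 4) (nat_lit 10) (nat_lit 4) (nat_lit 440) (nat_lit 314) (nat_lit 191)))) (XT.nd (nat_lit 188) (nat_lit 84) (nat_lit 0) (XT.nd (nat_lit 94) (nat_lit 84) (nat_lit 0) (XT.lf (nat_lit 0) (nat_lit 49144269473) (nat_lit 168) (nat_lit 3508367236) (nat_lit 0) (nat_lit 7007383333) (nat_lit 10) (nat_lit 5) (nat_lit 12) (nat_lit 4) (nat_lit 10) (nat_lit 4) (nat_lit 441) (nat_lit 314) (nat_lit 190)) (XT.lf (nat_lit 0) (nat_lit 6159232210) (nat_lit 84) (nat_lit 48645992482) (nat_lit 84) (nat_lit 6476866577) (nat_lit 9) (nat_lit 4) (nat_lit 10) (nat_lit 5) (nat_lit 10) (nat_lit 4) (nat_lit 442) (nat_lit 314) (nat_lit 189))) (XT.nd (nat_lit 94) (nat_lit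 84) (nat_lit 0) (XT.lf (nat_lit 0) (nat_lit 16175006968) (nat_lit 84) (nat_lit 44488708794) (nat_lit 84) (nat_lit 2288282147) (nat_lit 9) (nat_lit 4) (nat_lit 10) (nat_lit 5) (nat_lit 10) (nat_lit 4) (nat_lit 443) (nat_lit 314) (nat_lit 188)) (XT.lf (nat_lit 0) (nat_lit 1978851984) (nat_lit 168) (nat_lit 38213746189) (nat_lit 84) (nat_lit 24479050787) (nat_lit 8) (nat_lit 5) (nat_lit 10) (nat_lit 5) (nat_lit 9) (nat_lit 4) (nat_lit 444) (nat_lit 314) (nat_lit 187)))))) (XT.nd (nat_lit 47188) (nat_lit 0) (nat_lit 22848) (XT.nd (nat_lit 282) (nat_lit 84) (nat_lit 0) (XT.nd (nat_lit 94) (nat_lit 0) (nat_lit 0) (XT.lf (nat_lit 0) (nat_lit 6320654479) (nat_lit 168) (nat_lit 29429391076) (nat_lit 84) (nat_lit 30692389014) (nat_lit 8) (nat_lit 5) (nat_lit 10) (nat_lit 5) (nat_lit 9) (nat_lit 4) (nat_lit 445) (nat_lit 314) (nat_lit 186)) (XT.nd (nat_lit 94) (nat_lit 0) (nat_lit 0) (XT.lf (nat_lit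 0) (nat_lit 10785571772) (nat_lit 168) (nat_lit 20394253584) (nat_lit 84) (nat_lit 37086736560) (nat_lit 8) (nat_lit 5) (nat_lit 10) (nat_lit 5) (nat_lit 9) (nat_lit 4) (nat_lit 446) (nat_lit 314) (nat_lit 185)) (XT.lf (nat_lit 0) (nat_lit 15377505247) (nat_lit 168) (nat_lit 11100438934) (nat_lit 84) (nat_lit 43667680717) (nat_lit 8) (nat_lit 5) (nat_lit 10) (nat_lit 5) (nat_lit 9) (nat_lit 4) (nat_lit 447) (nat_lit 314) (nat_lit 184)))) (XT.nd (nat_lit 188) (nat_lit 0) (nat_lit 0) (XT.nd (nat_lit 94) (nat_lit 84) (nat_lit 0) (XT.lf (nat_lit 0) (nat_lit 20100467273) (nat_lit 168) (nat_lit 1539826315) (nat_lit 84) (nat_lit 50440971825) (nat_lit 8) (nat_lit 5) (nat_lit 10) (nat_lit 5) (nat_lit 9) (nat_lit 4) (nat_lit 448) (nat_lit 314) (nat_lit 183)) (XT.lf (nat_lit 0) (nat_lit 8461043641) (nat_lit 84) (nat_lit 16578873798) (nat_lit 168) (nat_lit 49032817382) (nat_lit 7) (nat_lit 5) (nat_lit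 8) (nat_lit 5) (nat_lit 9) (nat_lit 4) (nat_lit 449) (nat_lit 314) (nat_lit 182))) (XT.nd (nat_lit 46624) (nat_lit 0) (nat_lit 23604) (XT.lf (nat_lit 0) (nat_lit 18781952526) (nat_lit 84) (nat_lit 11354693609) (nat_lit 168) (nat_lit 45987032869) (nat_lit 7) (nat_lit 5) (nat_lit 8) (nat_lit 5) (nat_lit 9) (nat_lit 4) (nat_lit 450) (nat_lit 314) (nat_lit 181)) (XT.lf (nat_lit 0) (nat_lit 1073741823) (nat_lit 0) (nat_lit 0) (nat_lit 0) (nat_lit 0) (nat_lit 288) (nat_lit 0) (nat_lit 1) (nat_lit 0) (nat_lit 1) (nat_lit 0) (nat_lit 315) (nat_lit 315) (nat_lit 315))))) (XT.nd (nat_lit 282) (nat_lit 504) (nat_lit 0) (XT.nd (nat_lit 94) (nat_lit 168) (nat_lit 0) (XT.lf (nat_lit 0) (nat_lit 2854007564) (nat_lit 84) (nat_lit 3533239670) (nat_lit 0) (nat_lit 56232508) (nat_lit 287) (nat_lit 5) (nat_lit 288) (nat_lit 0) (nat_lit 287) (nat_lit 4) (nat_lit 316) (nat_lit 315) (nat_lit 314)) (XT.nd (nat_lit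 94) (nat_lit 168) (nat_lit 0) (XT.lf (nat_lit 0) (nat_lit 5682808178) (nat_lit 84) (nat_lit 596699176) (nat_lit 0) (nat_lit 168746660) (nat_lit 287) (nat_lit 5) (nat_lit 288) (nat_lit 0) (nat_lit 287) (nat_lit 4) (nat_lit 317) (nat_lit 315) (nat_lit 313)) (XT.lf (nat_lit 0) (nat_lit 2015904908) (nat_lit 168) (nat_lit 4058945874) (nat_lit 84) (nat_lit 380637254) (nat_lit 285) (nat_lit 5) (nat_lit 287) (nat_lit 5) (nat_lit 286) (nat_lit 4) (nat_lit 318) (nat_lit 315) (nat_lit 312)))) (XT.nd (nat_lit 188) (nat_lit 252) (nat_lit 0) (XT.nd (nat_lit 94) (nat_lit 252) (nat_lit 0) (XT.lf (nat_lit 0) (nat_lit 4764977358) (nat_lit 168) (nat_lit 1038689308) (nat_lit 84) (nat_lit 662411792) (nat_lit 285) (nat_lit 5) (nat_lit 287) (nat_lit 5) (nat_lit 286) (nat_lit 4) (nat_lit 319) (nat_lit 315) (nat_lit 311)) (XT.lf (nat_lit 0) (nat_lit 1012945824) (nat_lit 252) (nat_lit 4435871642) (nat_lit 84) (nat_lit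 1030724819) (nat_lit 282) (nat_lit 5) (nat_lit 285) (nat_lit 5) (nat_lit 283) (nat_lit 5) (nat_lit 320) (nat_lit 315) (nat_lit 310))) (XT.nd (nat_lit 94) (nat_lit 252) (nat_lit 0) (XT.lf (nat_lit 0) (nat_lit 3682622130) (nat_lit 252) (nat_lit 1330391017) (nat_lit 84) (nat_lit 1482966094) (nat_lit 282) (nat_lit 5) (nat_lit 285) (nat_lit 5) (nat_lit 283) (nat_lit 5) (nat_lit 321) (nat_lit 315) (nat_lit 309)) (XT.lf (nat_lit 0) (nat_lit 1845882853) (nat_lit 252) (nat_lit 4505032002) (nat_lit 336) (nat_lit 164755606) (nat_lit 279) (nat_lit 5) (nat_lit 282) (nat_lit 5) (nat_lit 283) (nat_lit 5) (nat_lit 322) (nat_lit 315) (nat_lit 308))))))))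
noncomputable def xc86 : XT := (XT.nd (nat_lit 2538) (nat_lit 6888) (nat_lit 0) (XT.nd (nat_lit 1222) (nat_lit 6972) (nat_lit 0) (XT.nd (nat_lit 564) (nat_lit 3024) (nat_lit 0) (XT.nd (nat_lit 282) (nat_lit 1008) (nat_lit 0) (XT.nd (nat_lit 94) (nat_lit 420) (nat_lit 0) (XT.lf (nat_lit 0) (nat_lit 2428707482) (nat_lit 336) (nat_lit 1475676341) (nat_lit 84) (nat_lit 2633665451) (nat_lit 278) (nat_lit 5) (nat_lit 282) (nat_lit 5) (nat_lit 279) (nat_lit 5) (nat_lit 323) (nat_lit 315) (nat_lit 307)) (XT.nd (nat_lit 94) (nat_lit 84) (nat_lit 0) (XT.lf (nat_lit 0) (nat_lit 1789220230) (nat_lit 336) (nat_lit 3229355943) (nat_lit 420) (nat_lit 1545106992) (nat_lit 274) (nat_lit 5) (nat_lit 278) (nat_lit 5) (nat_lit 279) (nat_lit 5) (nat_lit 324) (nat_lit 315) (nat_lit 306)) (XT.lf (nat_lit 0) (nat_lit 995452561) (nat_lit 420) (nat_lit 1477907464) (nat_lit 84) (nat_lit 4119059790) (nat_lit 273)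 (nat_lit 5) (nat_lit 278) (nat_lit 5) (nat_lit 274) (nat_lit 5) (nat_lit 325) (nat_lit 315) (nat_lit 305)))) (XT.nd (nat_lit 94) (nat_lit 588) (nat_lit 0) (XT.lf (nat_lit 0) (nat_lit 1880793695) (nat_lit 420) (nat_lit 1626941667) (nat_lit 504) (nat_lit 3116292844) (nat_lit 268) (nat_lit 5) (nat_lit 273) (nat_lit 5) (nat_lit 274) (nat_lit 5) (nat_lit 326) (nat_lit 315) (nat_lit 304)) (XT.nd (nat_lit 94) (nat_lit 588) (nat_lit 0) (XT.lf (nat_lit 0) (nat_lit 5312967736) (nat_lit 420) (nat_lit 707937158) (nat_lit 504) (nat_lit 638172107) (nat_lit 268) (nat_lit 5) (nat_lit 273) (nat_lit 5) (nat_lit 274) (nat_lit 5) (nat_lit 327) (nat_lit 315) (nat_lit 303)) (XT.lf (nat_lit 0) (nat_lit 1812356365) (nat_lit 588) (nat_lit 4581902331) (nat_lit 84) (nat_lit 302546863) (nat_lit 261) (nat_lit 5) (nat_lit 268) (nat_lit 5) (nat_lit 262) (nat_lit 5) (nat_lit 328) (nat_lit 315) (nat_lit 302))))) (XT.nd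 (nat_lit 282) (nat_lit 2352) (nat_lit 0) (XT.nd (nat_lit 94) (nat_lit 672) (nat_lit 0) (XT.lf (nat_lit 0) (nat_lit 4258688454) (nat_lit 588) (nat_lit 1101799290) (nat_lit 84) (nat_lit 1377171074) (nat_lit 261) (nat_lit 5) (nat_lit 268) (nat_lit 5) (nat_lit 262) (nat_lit 5) (nat_lit 329) (nat_lit 315) (nat_lit 301)) (XT.nd (nat_lit 94) (nat_lit 84) (nat_lit 0) (XT.lf (nat_lit 0) (nat_lit 2472291190) (nat_lit 588) (nat_lit 4246755813) (nat_lit 672) (nat_lit 62700539) (nat_lit 254) (nat_lit 5) (nat_lit 261) (nat_lit 5) (nat_lit 262) (nat_lit 5) (nat_lit 330) (nat_lit 315) (nat_lit 300)) (XT.lf (nat_lit 0) (nat_lit 2307664072) (nat_lit 672) (nat_lit 734003254) (nat_lit 84) (nat_lit 3787139366) (nat_lit 253) (nat_lit 5) (nat_lit 261) (nat_lit 5) (nat_lit 254) (nat_lit 5) (nat_lit 331) (nat_lit 315) (nat_lit 299)))) (XT.nd (nat_lit 188) (nat_lit 1596) (nat_lit 0) (XT.nd (nat_lit 94) (nat_lit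 84) (nat_lit 0) (XT.lf (nat_lit 0) (nat_lit 2947415698) (nat_lit 672) (nat_lit 1748904457) (nat_lit 756) (nat_lit 2182695146) (nat_lit 245) (nat_lit 5) (nat_lit 253) (nat_lit 5) (nat_lit 254) (nat_lit 5) (nat_lit 332) (nat_lit 315) (nat_lit 298)) (XT.lf (nat_lit 0) (nat_lit 149891423) (nat_lit 756) (nat_lit 237821887) (nat_lit 84) (nat_lit 6545297401) (nat_lit 244) (nat_lit 5) (nat_lit 253) (nat_lit 5) (nat_lit 245) (nat_lit 5) (nat_lit 333) (nat_lit 315) (nat_lit 297))) (XT.nd (nat_lit 94) (nat_lit 840) (nat_lit 0) (XT.lf (nat_lit 0) (nat_lit 2476475412) (nat_lit 840) (nat_lit 3443030365) (nat_lit 84) (nat_lit 1069626939) (nat_lit 235) (nat_lit 5) (nat_lit 245) (nat_lit 5) (nat_lit 236) (nat_lit 5) (nat_lit 334) (nat_lit 315) (nat_lit 296)) (XT.lf (nat_lit 0) (nat_lit 344707325) (nat_lit 840) (nat_lit 4462800089) (nat_lit 924) (nat_lit 2241577619) (nat_lit 225) (nat_lit 5) (nat_lit 235)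 (nat_lit 5) (nat_lit 236) (nat_lit 5) (nat_lit 335) (nat_lit 315) (nat_lit 295)))))) (XT.nd (nat_lit 658) (nat_lit 3780) (nat_lit 0) (XT.nd (nat_lit 282) (nat_lit 2184) (nat_lit 0) (XT.nd (nat_lit 94) (nat_lit 924) (nat_lit 0) (XT.lf (nat_lit 0) (nat_lit 56625158) (nat_lit 924) (nat_lit 2855196620) (nat_lit 84) (nat_lit 4200334590) (nat_lit 224) (nat_lit 5) (nat_lit 235) (nat_lit 5) (nat_lit 225) (nat_lit 5) (nat_lit 336) (nat_lit 315) (nat_lit 294)) (XT.nd (nat_lit 94) (nat_lit 0) (nat_lit 0) (XT.lf (nat_lit 0) (nat_lit 1048723771) (nat_lit 924) (nat_lit 1268023179) (nat_lit 1008) (nat_lit 4861736655) (nat_lit 213) (nat_lit 5) (nat_lit 224) (nat_lit 5) (nat_lit 225) (nat_lit 5) (nat_lit 337) (nat_lit 315) (nat_lit 293)) (XT.lf (nat_lit 0) (nat_lit 4607474653) (nat_lit 1008) (nat_lit 2182842197) (nat_lit 84) (nat_lit 457765148) (nat_lit 213) (nat_lit 5) (nat_lit 225) (nat_lit 5) (nat_lit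 214) (nat_lit 5) (nat_lit 338) (nat_lit 315) (nat_lit 292)))) (XT.nd (nat_lit 188) (nat_lit 1092) (nat_lit 0) (XT.nd (nat_lit 94) (nat_lit 84) (nat_lit 0) (XT.lf (nat_lit 0) (nat_lit 1846914532) (nat_lit 1008) (nat_lit 5081967222) (nat_lit 1092) (nat_lit 392188452) (nat_lit 201) (nat_lit 5) (nat_lit 213) (nat_lit 5) (nat_lit 214) (nat_lit 5) (nat_lit 339) (nat_lit 315) (nat_lit 291)) (XT.lf (nat_lit 0) (nat_lit 1840668141) (nat_lit 1092) (nat_lit 1431960787) (nat_lit 84) (nat_lit 4124580061) (nat_lit 200) (nat_lit 5) (nat_lit 213) (nat_lit 5) (nat_lit 201) (nat_lit 5) (nat_lit 340) (nat_lit 315) (nat_lit 290))) (XT.nd (nat_lit 94) (nat_lit 0) (nat_lit 0) (XT.lf (nat_lit 0) (nat_lit 2722515570) (nat_lit 1092) (nat_lit 1370518137) (nat_lit 1176) (nat_lit 3383816525) (nat_lit 187) (nat_lit 5) (nat_lit 200) (nat_lit 5) (nat_lit 201) (nat_lit 5) (nat_lit 341) (nat_lit 315) (nat_lit 289)) (XT.lf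 (nat_lit 0) (nat_lit 6368893413) (nat_lit 1176) (nat_lit 593064778) (nat_lit 84) (nat_lit 598387507) (nat_lit 187) (nat_lit 5) (nat_lit 201) (nat_lit 5) (nat_lit 188) (nat_lit 5) (nat_lit 342) (nat_lit 315) (nat_lit 288))))) (XT.nd (nat_lit 282) (nat_lit 1260) (nat_lit 0) (XT.nd (nat_lit 94) (nat_lit 1260) (nat_lit 0) (XT.lf (nat_lit 0) (nat_lit 1032208669) (nat_lit 1260) (nat_lit 3963513468) (nat_lit 84) (nat_lit 2650860554) (nat_lit 172) (nat_lit 5) (nat_lit 187) (nat_lit 5) (nat_lit 173) (nat_lit 5) (nat_lit 343) (nat_lit 315) (nat_lit 287)) (XT.nd (nat_lit 94) (nat_lit 0) (nat_lit 0) (XT.lf (nat_lit 0) (nat_lit 299558367) (nat_lit 1260) (nat_lit 2946066109) (nat_lit 1344) (nat_lit 4491149236) (nat_lit 157) (nat_lit 5) (nat_lit 172) (nat_lit 5) (nat_lit 173) (nat_lit 5) (nat_lit 344) (nat_lit 315) (nat_lit 286)) (XT.lf (nat_lit 0) (nat_lit 4713498844) (nat_lit 1260) (nat_lit 791275845)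 (nat_lit 1344) (nat_lit 2325642588) (nat_lit 157) (nat_lit 5) (nat_lit 172) (nat_lit 5) (nat_lit 173) (nat_lit 5) (nat_lit 345) (nat_lit 315) (nat_lit 285)))) (XT.nd (nat_lit 188) (nat_lit 588) (nat_lit 0) (XT.nd (nat_lit 94) (nat_lit 84) (nat_lit 0) (XT.lf (nat_lit 0) (nat_lit 1285863067) (nat_lit 588) (nat_lit 6513023698) (nat_lit 672) (nat_lit 129090841) (nat_lit 150) (nat_lit 5) (nat_lit 157) (nat_lit 5) (nat_lit 158) (nat_lit 5) (nat_lit 346) (nat_lit 315) (nat_lit 284)) (XT.lf (nat_lit 0) (nat_lit 2072917301) (nat_lit 672) (nat_lit 2230745214) (nat_lit 84) (nat_lit 3724867349) (nat_lit 149) (nat_lit 5) (nat_lit 157) (nat_lit 5) (nat_lit 150) (nat_lit 5) (nat_lit 347) (nat_lit 315) (nat_lit 283))) (XT.nd (nat_lit 94) (nat_lit 0) (nat_lit 0) (XT.lf (nat_lit 0) (nat_lit 2299081181) (nat_lit 588) (nat_lit 2004680493) (nat_lit 672) (nat_lit 3829450189) (nat_lit 142) (nat_lit 5) (nat_lit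 149) (nat_lit 5) (nat_lit 150) (nat_lit 5) (nat_lit 348) (nat_lit 315) (nat_lit 282)) (XT.lf (nat_lit 0) (nat_lit 6572135942) (nat_lit 672) (nat_lit 1292214670) (nat_lit 84) (nat_lit 377674927) (nat_lit 142) (nat_lit 5) (nat_lit 150) (nat_lit 5) (nat_lit 143) (nat_lit 5) (nat_lit 349) (nat_lit 315) (nat_lit 281))))))) (XT.nd (nat_lit 1316) (nat_lit 2604) (nat_lit 0) (XT.nd (nat_lit 658) (nat_lit 1932) (nat_lit 0) (XT.nd (nat_lit 282) (nat_lit 1092) (nat_lit 0) (XT.nd (nat_lit 94) (nat_lit 588) (nat_lit 0) (XT.lf (nat_lit 0) (nat_lit 541791989) (nat_lit 672) (nat_lit 4984566903) (nat_lit 84) (nat_lit 2827743307) (nat_lit 134) (nat_lit 5) (nat_lit 142) (nat_lit 5) (nat_lit 135) (nat_lit 5) (nat_lit 350) (nat_lit 315) (nat_lit 280)) (XT.nd (nat_lit 94) (nat_lit 588) (nat_lit 0) (XT.lf (nat_lit 0) (nat_lit 2745828231) (nat_lit 672) (nat_lit 345756823) (nat_lit 84) (nat_lit 5378773153) (nat_lit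 134) (nat_lit 5) (nat_lit 142) (nat_lit 5) (nat_lit 135) (nat_lit 5) (nat_lit 351) (nat_lit 315) (nat_lit 279)) (XT.lf (nat_lit 0) (nat_lit 4463420533) (nat_lit 588) (nat_lit 543420935) (nat_lit 672) (nat_lit 3583631908) (nat_lit 127) (nat_lit 5) (nat_lit 134) (nat_lit 5) (nat_lit 135) (nat_lit 5) (nat_lit 352) (nat_lit 315) (nat_lit 278)))) (XT.nd (nat_lit 188) (nat_lit 504) (nat_lit 0) (XT.nd (nat_lit 94) (nat_lit 84) (nat_lit 0) (XT.lf (nat_lit 0) (nat_lit 645497807) (nat_lit 504) (nat_lit 6668817502) (nat_lit 588) (nat_lit 1400612115) (nat_lit 121) (nat_lit 5) (nat_lit 127) (nat_lit 5) (nat_lit 128) (nat_lit 5) (nat_lit 353) (nat_lit 315) (nat_lit 277)) (XT.lf (nat_lit 0) (nat_lit 828074706) (nat_lit 588) (nat_lit 3267455167) (nat_lit 84) (nat_lit 4747527960) (nat_lit 120) (nat_lit 5) (nat_lit 127) (nat_lit 5) (nat_lit 121) (nat_lit 5) (nat_lit 354) (nat_lit 315) (nat_lit 276))) (XT.nd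 (nat_lit 94) (nat_lit 0) (nat_lit 0) (XT.lf (nat_lit 0) (nat_lit 1640933241) (nat_lit 504) (nat_lit 1421043485) (nat_lit 588) (nat_lit 5913730564) (nat_lit 114) (nat_lit 5) (nat_lit 120) (nat_lit 5) (nat_lit 121) (nat_lit 5) (nat_lit 355) (nat_lit 315) (nat_lit 275)) (XT.lf (nat_lit 0) (nat_lit 5360607044) (nat_lit 588) (nat_lit 2417660100) (nat_lit 84) (nat_lit 1334221561) (nat_lit 114) (nat_lit 5) (nat_lit 121) (nat_lit 5) (nat_lit 115) (nat_lit 5) (nat_lit 356) (nat_lit 315) (nat_lit 274))))) (XT.nd (nat_lit 282) (nat_lit 924) (nat_lit 0) (XT.nd (nat_lit 94) (nat_lit 588) (nat_lit 0) (XT.lf (nat_lit 0) (nat_lit 2629133590) (nat_lit 420) (nat_lit 5091385393) (nat_lit 504) (nat_lit 1533166267) (nat_lit 109) (nat_lit 5) (nat_lit 114) (nat_lit 5) (nat_lit 115) (nat_lit 5) (nat_lit 357) (nat_lit 315) (nat_lit 273)) (XT.nd (nat_lit 94) (nat_lit 504) (nat_lit 0) (XT.lf (nat_lit 0) (nat_lit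 715380406) (nat_lit 504) (nat_lit 1584500222) (nat_lit 84) (nat_lit 7099758484) (nat_lit 108) (nat_lit 5) (nat_lit 114) (nat_lit 5) (nat_lit 109) (nat_lit 5) (nat_lit 358) (nat_lit 315) (nat_lit 272)) (XT.lf (nat_lit 0) (nat_lit 2995844711) (nat_lit 588) (nat_lit 5947790298) (nat_lit 84) (nat_lit 606097359) (nat_lit 102) (nat_lit 5) (nat_lit 109) (nat_lit 5) (nat_lit 103) (nat_lit 5) (nat_lit 359) (nat_lit 315) (nat_lit 271)))) (XT.nd (nat_lit 188) (nat_lit 504) (nat_lit 0) (XT.nd (nat_lit 94) (nat_lit 420) (nat_lit 0) (XT.lf (nat_lit 0) (nat_lit 5339026716) (nat_lit 588) (nat_lit 805031206) (nat_lit 84) (nat_lit 3560513682) (nat_lit 102) (nat_lit 5) (nat_lit 109) (nat_lit 5) (nat_lit 103) (nat_lit 5) (nat_lit 360) (nat_lit 315) (nat_lit 270)) (XT.lf (nat_lit 0) (nat_lit 4527235254) (nat_lit 420) (nat_lit 3225461182) (nat_lit 504) (nat_lit 2111424003) (nat_lit 97) (nat_lit 5) (nat_lit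 102) (nat_lit 5) (nat_lit 103) (nat_lit 5) (nat_lit 361) (nat_lit 315) (nat_lit 269))) (XT.nd (nat_lit 94) (nat_lit 420) (nat_lit 0) (XT.lf (nat_lit 0) (nat_lit 171367855) (nat_lit 504) (nat_lit 47862431) (nat_lit 84) (nat_lit 9810276418) (nat_lit 96) (nat_lit 5) (nat_lit 102) (nat_lit 5) (nat_lit 97) (nat_lit 5) (nat_lit 362) (nat_lit 315) (nat_lit 268)) (XT.lf (nat_lit 0) (nat_lit 2518910646) (nat_lit 504) (nat_lit 4794281428) (nat_lit 84) (nat_lit 2884938420) (nat_lit 91) (nat_lit 5) (nat_lit 97) (nat_lit 5) (nat_lit 92) (nat_lit 5) (nat_lit 363) (nat_lit 315) (nat_lit 267)))))) (XT.nd (nat_lit 658) (nat_lit 1092) (nat_lit 0) (XT.nd (nat_lit 282) (nat_lit 756) (nat_lit 0) (XT.nd (nat_lit 94) (nat_lit 420) (nat_lit 0) (XT.lf (nat_lit 0) (nat_lit 605283174) (nat_lit 336) (nat_lit 4298892769) (nat_lit 420) (nat_lit 5468680532) (nat_lit 87) (nat_lit 5) (nat_lit 91) (nat_lit 5) (nat_lit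 92) (nat_lit 5) (nat_lit 364) (nat_lit 315) (nat_lit 266)) (XT.nd (nat_lit 94) (nat_lit 420) (nat_lit 0) (XT.lf (nat_lit 0) (nat_lit 6212981693) (nat_lit 336) (nat_lit 1155947846) (nat_lit 420) (nat_lit 3183717332) (nat_lit 87) (nat_lit 5) (nat_lit 91) (nat_lit 5) (nat_lit 92) (nat_lit 5) (nat_lit 365) (nat_lit 315) (nat_lit 265)) (XT.lf (nat_lit 0) (nat_lit 1202802728) (nat_lit 420) (nat_lit 8696979567) (nat_lit 504) (nat_lit 838342770) (nat_lit 82) (nat_lit 5) (nat_lit 87) (nat_lit 5) (nat_lit 88) (nat_lit 5) (nat_lit 366) (nat_lit 315) (nat_lit 264)))) (XT.nd (nat_lit 188) (nat_lit 336) (nat_lit 0) (XT.nd (nat_lit 94) (nat_lit 336) (nat_lit 0) (XT.lf (nat_lit 0) (nat_lit 1563117056) (nat_lit 504) (nat_lit 4006461268) (nat_lit 84) (nat_lit 5358694665) (nat_lit 81) (nat_lit 5) (nat_lit 87) (nat_lit 5) (nat_lit 82) (nat_lit 5) (nat_lit 367) (nat_lit 315) (nat_lit 263)) (XT.lf (nat_lit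 0) (nat_lit 1661840198) (nat_lit 336) (nat_lit 2335850514) (nat_lit 420) (nat_lit 7126901823) (nat_lit 77) (nat_lit 5) (nat_lit 81) (nat_lit 5) (nat_lit 82) (nat_lit 5) (nat_lit 368) (nat_lit 315) (nat_lit 262))) (XT.nd (nat_lit 94) (nat_lit 336) (nat_lit 0) (XT.lf (nat_lit 0) (nat_lit 6518174097) (nat_lit 420) (nat_lit 3804344279) (nat_lit 84) (nat_lit 1003949346) (nat_lit 77) (nat_lit 5) (nat_lit 82) (nat_lit 5) (nat_lit 78) (nat_lit 5) (nat_lit 369) (nat_lit 315) (nat_lit 261)) (XT.lf (nat_lit 0) (nat_lit 1989895993) (nat_lit 336) (nat_lit 7130176041) (nat_lit 420) (nat_lit 2414203834) (nat_lit 73) (nat_lit 5) (nat_lit 77) (nat_lit 5) (nat_lit 78) (nat_lit 5) (nat_lit 370) (nat_lit 315) (nat_lit 260))))) (XT.nd (nat_lit 282) (nat_lit 672) (nat_lit 0) (XT.nd (nat_lit 94) (nat_lit 336) (nat_lit 0) (XT.lf (nat_lit 0) (nat_lit 53227226) (nat_lit 420) (nat_lit 3762000340) (nat_lit 84) (nat_lit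 7933047749) (nat_lit 72) (nat_lit 5) (nat_lit 77) (nat_lit 5) (nat_lit 73) (nat_lit 5) (nat_lit 371) (nat_lit 315) (nat_lit 259)) (XT.nd (nat_lit 94) (nat_lit 0) (nat_lit 0) (XT.lf (nat_lit 0) (nat_lit 2163717099) (nat_lit 336) (nat_lit 368027191) (nat_lit 420) (nat_lit 9436712184) (nat_lit 68) (nat_lit 5) (nat_lit 72) (nat_lit 5) (nat_lit 73) (nat_lit 5) (nat_lit 372) (nat_lit 315) (nat_lit 258)) (XT.lf (nat_lit 0) (nat_lit 5118798319) (nat_lit 420) (nat_lit 3929682885) (nat_lit 84) (nat_lit 3145781472) (nat_lit 68) (nat_lit 5) (nat_lit 73) (nat_lit 5) (nat_lit 69) (nat_lit 5) (nat_lit 373) (nat_lit 315) (nat_lit 257)))) (XT.nd (nat_lit 188) (nat_lit 336) (nat_lit 0) (XT.nd (nat_lit 94) (nat_lit 0) (nat_lit 0) (XT.lf (nat_lit 0) (nat_lit 2111679452) (nat_lit 336) (nat_lit 5661963519) (nat_lit 420) (nat_lit 4653538464) (nat_lit 64) (nat_lit 5) (nat_lit 68) (nat_lit 5) (nat_lit 69) (nat_lit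 5) (nat_lit 374) (nat_lit 315) (nat_lit 256)) (XT.lf (nat_lit 0) (nat_lit 8367794589) (nat_lit 336) (nat_lit 2146788081) (nat_lit 420) (nat_lit 2152354061) (nat_lit 64) (nat_lit 5) (nat_lit 68) (nat_lit 5) (nat_lit 69) (nat_lit 5) (nat_lit 375) (nat_lit 315) (nat_lit 255))) (XT.nd (nat_lit 94) (nat_lit 0) (nat_lit 0) (XT.lf (nat_lit 0) (nat_lit 415335985) (nat_lit 336) (nat_lit 11044456455) (nat_lit 84) (nat_lit 1454017802) (nat_lit 60) (nat_lit 5) (nat_lit 64) (nat_lit 5) (nat_lit 61) (nat_lit 5) (nat_lit 376) (nat_lit 315) (nat_lit 254)) (XT.lf (nat_lit 0) (nat_lit 3049646644) (nat_lit 336) (nat_lit 4945527449) (nat_lit 84) (nat_lit 5171329913) (nat_lit 60) (nat_lit 5) (nat_lit 64) (nat_lit 5) (nat_lit 61) (nat_lit 5) (nat_lit 377) (nat_lit 315) (nat_lit 253))))))))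
noncomputable def xc87 : XT := (XT.nd (nat_lit 2632) (nat_lit 1176) (nat_lit 0) (XT.nd (nat_lit 1316) (nat_lit 1260) (nat_lit 0) (XT.nd (nat_lit 658) (nat_lit 756) (nat_lit 0) (XT.nd (nat_lit 282) (nat_lit 336) (nat_lit 0) (XT.nd (nat_lit 94) (nat_lit 252) (nat_lit 0) (XT.lf (nat_lit 0) (nat_lit 1316647320) (nat_lit 336) (nat_lit 4427687014) (nat_lit 420) (nat_lit 7683041548) (nat_lit 56) (nat_lit 5) (nat_lit 60) (nat_lit 5) (nat_lit 61) (nat_lit 5) (nat_lit 378) (nat_lit 315) (nat_lit 252)) (XT.nd (nat_lit 94) (nat_lit 252) (nat_lit 0) (XT.lf (nat_lit 0) (nat_lit 7823096401) (nat_lit 336) (nat_lit 715877307) (nat_lit 420) (nat_lit 5156563506) (nat_lit 56) (nat_lit 5) (nat_lit 60) (nat_lit 5) (nat_lit 61) (nat_lit 5) (nat_lit 379) (nat_lit 315) (nat_lit 251)) (XT.lf (nat_lit 0) (nat_lit 488191664) (nat_lit 252) (nat_lit 10933759429) (nat_lit 336) (nat_lit 2549692893) (nat_lit 53) (nat_lit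 5) (nat_lit 56) (nat_lit 5) (nat_lit 57) (nat_lit 5) (nat_lit 380) (nat_lit 315) (nat_lit 250)))) (XT.nd (nat_lit 188) (nat_lit 252) (nat_lit 0) (XT.nd (nat_lit 94) (nat_lit 0) (nat_lit 0) (XT.lf (nat_lit 0) (nat_lit 169779460) (nat_lit 336) (nat_lit 7147863568) (nat_lit 84) (nat_lit 6937274291) (nat_lit 52) (nat_lit 5) (nat_lit 56) (nat_lit 5) (nat_lit 53) (nat_lit 5) (nat_lit 381) (nat_lit 315) (nat_lit 249)) (XT.lf (nat_lit 0) (nat_lit 2890523943) (nat_lit 336) (nat_lit 690805604) (nat_lit 84) (nat_lit 10965506489) (nat_lit 52) (nat_lit 5) (nat_lit 56) (nat_lit 5) (nat_lit 53) (nat_lit 5) (nat_lit 382) (nat_lit 315) (nat_lit 248))) (XT.nd (nat_lit 94) (nat_lit 0) (nat_lit 0) (XT.lf (nat_lit 0) (nat_lit 5725698322) (nat_lit 336) (nat_lit 8814008166) (nat_lit 84) (nat_lit 306853199) (nat_lit 49) (nat_lit 5) (nat_lit 53) (nat_lit 5) (nat_lit 50) (nat_lit 5) (nat_lit 383) (nat_lit 315)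 (nat_lit 247)) (XT.lf (nat_lit 0) (nat_lit 8660500172) (nat_lit 336) (nat_lit 2261233110) (nat_lit 84) (nat_lit 4233135277) (nat_lit 49) (nat_lit 5) (nat_lit 53) (nat_lit 5) (nat_lit 50) (nat_lit 5) (nat_lit 384) (nat_lit 315) (nat_lit 246))))) (XT.nd (nat_lit 282) (nat_lit 168) (nat_lit 0) (XT.nd (nat_lit 94) (nat_lit 336) (nat_lit 0) (XT.lf (nat_lit 0) (nat_lit 4535453711) (nat_lit 252) (nat_lit 7164372139) (nat_lit 336) (nat_lit 3772136239) (nat_lit 46) (nat_lit 5) (nat_lit 49) (nat_lit 5) (nat_lit 50) (nat_lit 5) (nat_lit 385) (nat_lit 315) (nat_lit 245)) (XT.nd (nat_lit 94) (nat_lit 336) (nat_lit 0) (XT.lf (nat_lit 0) (nat_lit 11541623348) (nat_lit 252) (nat_lit 3284822112) (nat_lit 336) (nat_lit 972268457) (nat_lit 46) (nat_lit 5) (nat_lit 49) (nat_lit 5) (nat_lit 50) (nat_lit 5) (nat_lit 386) (nat_lit 315) (nat_lit 244)) (XT.lf (nat_lit 0) (nat_lit 1880339319) (nat_lit 336) (nat_lit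 13526675290) (nat_lit 84) (nat_lit 727548303) (nat_lit 42) (nat_lit 5) (nat_lit 46) (nat_lit 5) (nat_lit 43) (nat_lit 5) (nat_lit 387) (nat_lit 315) (nat_lit 243)))) (XT.nd (nat_lit 188) (nat_lit 0) (nat_lit 0) (XT.nd (nat_lit 94) (nat_lit 168) (nat_lit 0) (XT.lf (nat_lit 0) (nat_lit 4848942896) (nat_lit 336) (nat_lit 6796098743) (nat_lit 84) (nat_lit 4833684633) (nat_lit 42) (nat_lit 5) (nat_lit 46) (nat_lit 5) (nat_lit 43) (nat_lit 5) (nat_lit 388) (nat_lit 315) (nat_lit 242)) (XT.lf (nat_lit 0) (nat_lit 99098458) (nat_lit 168) (nat_lit 7783237663) (nat_lit 252) (nat_lit 8951632159) (nat_lit 40) (nat_lit 5) (nat_lit 42) (nat_lit 5) (nat_lit 43) (nat_lit 5) (nat_lit 389) (nat_lit 315) (nat_lit 241))) (XT.nd (nat_lit 94) (nat_lit 0) (nat_lit 0) (XT.lf (nat_lit 0) (nat_lit 7301619140) (nat_lit 168) (nat_lit 3748879404) (nat_lit 252) (nat_lit 6148080925) (nat_lit 40) (nat_lit 5) (nat_lit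 42) (nat_lit 5) (nat_lit 43) (nat_lit 5) (nat_lit 390) (nat_lit 315) (nat_lit 240)) (XT.lf (nat_lit 0) (nat_lit 14293347137) (nat_lit 252) (nat_lit 2896153303) (nat_lit 84) (nat_lit 385263533) (nat_lit 40) (nat_lit 5) (nat_lit 43) (nat_lit 5) (nat_lit 41) (nat_lit 5) (nat_lit 391) (nat_lit 315) (nat_lit 239)))))) (XT.nd (nat_lit 658) (nat_lit 588) (nat_lit 0) (XT.nd (nat_lit 282) (nat_lit 168) (nat_lit 0) (XT.nd (nat_lit 94) (nat_lit 252) (nat_lit 0) (XT.lf (nat_lit 0) (nat_lit 4324735826) (nat_lit 252) (nat_lit 13363875450) (nat_lit 336) (nat_lit 271992347) (nat_lit 37) (nat_lit 5) (nat_lit 40) (nat_lit 5) (nat_lit 41) (nat_lit 5) (nat_lit 392) (nat_lit 315) (nat_lit 238)) (XT.nd (nat_lit 94) (nat_lit 168) (nat_lit 0) (XT.lf (nat_lit 0) (nat_lit 2778591077) (nat_lit 336) (nat_lit 6600332712) (nat_lit 84) (nat_lit 8978119732) (nat_lit 36) (nat_lit 5) (nat_lit 40) (nat_lit 5) (nat_lit 37)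 (nat_lit 5) (nat_lit 393) (nat_lit 315) (nat_lit 237)) (XT.lf (nat_lit 0) (nat_lit 619409664) (nat_lit 168) (nat_lit 5278973663) (nat_lit 252) (nat_lit 12867439272) (nat_lit 34) (nat_lit 5) (nat_lit 36) (nat_lit 5) (nat_lit 37) (nat_lit 5) (nat_lit 394) (nat_lit 315) (nat_lit 236)))) (XT.nd (nat_lit 188) (nat_lit 168) (nat_lit 0) (XT.nd (nat_lit 94) (nat_lit 0) (nat_lit 0) (XT.lf (nat_lit 0) (nat_lit 8155147399) (nat_lit 168) (nat_lit 1000795216) (nat_lit 252) (nat_lit 10029618127) (nat_lit 34) (nat_lit 5) (nat_lit 36) (nat_lit 5) (nat_lit 37) (nat_lit 5) (nat_lit 395) (nat_lit 315) (nat_lit 235)) (XT.lf (nat_lit 0) (nat_lit 12522018908) (nat_lit 252) (nat_lit 3769073134) (nat_lit 84) (nat_lit 3326495562) (nat_lit 34) (nat_lit 5) (nat_lit 37) (nat_lit 5) (nat_lit 35) (nat_lit 5) (nat_lit 396) (nat_lit 315) (nat_lit 234))) (XT.nd (nat_lit 94) (nat_lit 0) (nat_lit 0) (XT.lf (nat_lit 0) (nat_lit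 3738785271) (nat_lit 168) (nat_lit 12274832108) (nat_lit 252) (nat_lit 4048241388) (nat_lit 32) (nat_lit 5) (nat_lit 34) (nat_lit 5) (nat_lit 35) (nat_lit 5) (nat_lit 397) (nat_lit 315) (nat_lit 233)) (XT.lf (nat_lit 0) (nat_lit 11515108383) (nat_lit 168) (nat_lit 8111900689) (nat_lit 252) (nat_lit 891956753) (nat_lit 32) (nat_lit 5) (nat_lit 34) (nat_lit 5) (nat_lit 35) (nat_lit 5) (nat_lit 398) (nat_lit 315) (nat_lit 232))))) (XT.nd (nat_lit 282) (nat_lit 336) (nat_lit 0) (XT.nd (nat_lit 94) (nat_lit 168) (nat_lit 0) (XT.lf (nat_lit 0) (nat_lit 2292360413) (nat_lit 252) (nat_lit 1521211763) (nat_lit 84) (nat_lit 17176170343) (nat_lit 31) (nat_lit 5) (nat_lit 34) (nat_lit 5) (nat_lit 32) (nat_lit 5) (nat_lit 399) (nat_lit 315) (nat_lit 231)) (XT.nd (nat_lit 94) (nat_lit 0) (nat_lit 0) (XT.lf (nat_lit 0) (nat_lit 5600961565) (nat_lit 252) (nat_lit 15212776146) (nat_lit 84) (nat_lit 659256903)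 (nat_lit 29) (nat_lit 5) (nat_lit 32) (nat_lit 5) (nat_lit 30) (nat_lit 5) (nat_lit 400) (nat_lit 315) (nat_lit 230)) (XT.lf (nat_lit 0) (nat_lit 9042224212) (nat_lit 252) (nat_lit 7734585773) (nat_lit 84) (nat_lit 5192949168) (nat_lit 29) (nat_lit 5) (nat_lit 32) (nat_lit 5) (nat_lit 30) (nat_lit 5) (nat_lit 401) (nat_lit 315) (nat_lit 229)))) (XT.nd (nat_lit 188) (nat_lit 168) (nat_lit 0) (XT.nd (nat_lit 94) (nat_lit 168) (nat_lit 0) (XT.lf (nat_lit 0) (nat_lit 12567435392) (nat_lit 252) (nat_lit 63765286) (nat_lit 84) (nat_lit 9850821123) (nat_lit 29) (nat_lit 5) (nat_lit 32) (nat_lit 5) (nat_lit 30) (nat_lit 5) (nat_lit 402) (nat_lit 315) (nat_lit 228)) (XT.lf (nat_lit 0) (nat_lit 7961750401) (nat_lit 168) (nat_lit 8294458200) (nat_lit 252) (nat_lit 6751725566) (nat_lit 27) (nat_lit 5) (nat_lit 29) (nat_lit 5) (nat_lit 30) (nat_lit 5) (nat_lit 403) (nat_lit 315) (nat_lit 227))) (XT.nd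 (nat_lit 94) (nat_lit 168) (nat_lit 0) (XT.lf (nat_lit 0) (nat_lit 16198848726) (nat_lit 168) (nat_lit 3838965038) (nat_lit 252) (nat_lit 3512360623) (nat_lit 27) (nat_lit 5) (nat_lit 29) (nat_lit 5) (nat_lit 30) (nat_lit 5) (nat_lit 404) (nat_lit 315) (nat_lit 226)) (XT.lf (nat_lit 0) (nat_lit 547813714) (nat_lit 168) (nat_lit 23379481435) (nat_lit 252) (nat_lit 181568914) (nat_lit 25) (nat_lit 5) (nat_lit 27) (nat_lit 5) (nat_lit 28) (nat_lit 4) (nat_lit 405) (nat_lit 315) (nat_lit 225))))))) (XT.nd (nat_lit 1316) (nat_lit 504) (nat_lit 0) (XT.nd (nat_lit 658) (nat_lit 336) (nat_lit 0) (XT.nd (nat_lit 282) (nat_lit 252) (nat_lit 0) (XT.nd (nat_lit 94) (nat_lit 0) (nat_lit 0) (XT.lf (nat_lit 0) (nat_lit 3280722394) (nat_lit 252) (nat_lit 15947563398) (nat_lit 84) (nat_lit 5452256527) (nat_lit 24) (nat_lit 5) (nat_lit 27) (nat_lit 5) (nat_lit 25) (nat_lit 5) (nat_lit 406) (nat_lit 315)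 (nat_lit 224)) (XT.nd (nat_lit 94) (nat_lit 0) (nat_lit 0) (XT.lf (nat_lit 0) (nat_lit 6825757241) (nat_lit 252) (nat_lit 8136713143) (nat_lit 84) (nat_lit 10307384693) (nat_lit 24) (nat_lit 5) (nat_lit 27) (nat_lit 5) (nat_lit 25) (nat_lit 5) (nat_lit 407) (nat_lit 315) (nat_lit 223)) (XT.lf (nat_lit 0) (nat_lit 10460176295) (nat_lit 252) (nat_lit 119929218) (nat_lit 84) (nat_lit 15297264120) (nat_lit 24) (nat_lit 5) (nat_lit 27) (nat_lit 5) (nat_lit 25) (nat_lit 5) (nat_lit 408) (nat_lit 315) (nat_lit 222)))) (XT.nd (nat_lit 188) (nat_lit 84) (nat_lit 0) (XT.nd (nat_lit 94) (nat_lit 0) (nat_lit 0) (XT.lf (nat_lit 0) (nat_lit 8271194122) (nat_lit 168) (nat_lit 5995468917) (nat_lit 252) (nat_lit 12234568552) (nat_lit 22) (nat_lit 5) (nat_lit 24) (nat_lit 5) (nat_lit 25) (nat_lit 5) (nat_lit 409) (nat_lit 315) (nat_lit 221)) (XT.lf (nat_lit 0) (nat_lit 16889214947) (nat_lit 168) (nat_lit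 1283085242) (nat_lit 252) (nat_lit 8971973182) (nat_lit 22) (nat_lit 5) (nat_lit 24) (nat_lit 5) (nat_lit 25) (nat_lit 5) (nat_lit 410) (nat_lit 315) (nat_lit 220))) (XT.nd (nat_lit 94) (nat_lit 84) (nat_lit 0) (XT.lf (nat_lit 0) (nat_lit 22213545099) (nat_lit 252) (nat_lit 2102035827) (nat_lit 84) (nat_lit 3490484591) (nat_lit 22) (nat_lit 5) (nat_lit 25) (nat_lit 5) (nat_lit 23) (nat_lit 4) (nat_lit 411) (nat_lit 315) (nat_lit 219)) (XT.lf (nat_lit 0) (nat_lit 6381296335) (nat_lit 84) (nat_lit 20053353605) (nat_lit 168) (nat_lit 2051314724) (nat_lit 21) (nat_lit 5) (nat_lit 22) (nat_lit 5) (nat_lit 23) (nat_lit 4) (nat_lit 412) (nat_lit 315) (nat_lit 218))))) (XT.nd (nat_lit 282) (nat_lit 84) (nat_lit 0) (XT.nd (nat_lit 94) (nat_lit 168) (nat_lit 0) (XT.lf (nat_lit 0) (nat_lit 1571034117) (nat_lit 168) (nat_lit 14065119856) (nat_lit 84) (nat_lit 13549476157) (nat_lit 20) (nat_lit 5)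 (nat_lit 22) (nat_lit 5) (nat_lit 21) (nat_lit 5) (nat_lit 413) (nat_lit 315) (nat_lit 217)) (XT.nd (nat_lit 94) (nat_lit 168) (nat_lit 0) (XT.lf (nat_lit 0) (nat_lit 5245888655) (nat_lit 168) (nat_lit 5830093896) (nat_lit 84) (nat_lit 18830152673) (nat_lit 20) (nat_lit 5) (nat_lit 22) (nat_lit 5) (nat_lit 21) (nat_lit 5) (nat_lit 414) (nat_lit 315) (nat_lit 216)) (XT.lf (nat_lit 0) (nat_lit 2679612589) (nat_lit 168) (nat_lit 6362633950) (nat_lit 252) (nat_lit 21605681785) (nat_lit 18) (nat_lit 5) (nat_lit 20) (nat_lit 5) (nat_lit 21) (nat_lit 5) (nat_lit 415) (nat_lit 315) (nat_lit 215)))) (XT.nd (nat_lit 188) (nat_lit 84) (nat_lit 0) (XT.nd (nat_lit 94) (nat_lit 0) (nat_lit 0) (XT.lf (nat_lit 0) (nat_lit 11539704089) (nat_lit 168) (nat_lit 1457350849) (nat_lit 252) (nat_lit 18413593762) (nat_lit 18) (nat_lit 5) (nat_lit 20) (nat_lit 5) (nat_lit 21) (nat_lit 5) (nat_lit 416) (nat_lit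 315) (nat_lit 214)) (XT.lf (nat_lit 0) (nat_lit 17091075636) (nat_lit 252) (nat_lit 11589249319) (nat_lit 84) (nat_lit 3515318669) (nat_lit 18) (nat_lit 5) (nat_lit 21) (nat_lit 5) (nat_lit 19) (nat_lit 4) (nat_lit 417) (nat_lit 315) (nat_lit 213))) (XT.nd (nat_lit 94) (nat_lit 84) (nat_lit 0) (XT.lf (nat_lit 0) (nat_lit 21308763485) (nat_lit 252) (nat_lit 3096870980) (nat_lit 84) (nat_lit 8598538221) (nat_lit 18) (nat_lit 5) (nat_lit 21) (nat_lit 5) (nat_lit 19) (nat_lit 4) (nat_lit 418) (nat_lit 315) (nat_lit 212)) (XT.lf (nat_lit 0) (nat_lit 5739620547) (nat_lit 84) (nat_lit 19955347093) (nat_lit 168) (nat_lit 8140739814) (nat_lit 17) (nat_lit 5) (nat_lit 18) (nat_lit 5) (nat_lit 19) (nat_lit 4) (nat_lit 419) (nat_lit 315) (nat_lit 211)))))) (XT.nd (nat_lit 658) (nat_lit 252) (nat_lit 0) (XT.nd (nat_lit 282) (nat_lit 168) (nat_lit 0) (XT.nd (nat_lit 94) (nat_lit 84) (nat_lit 0) (XT.lf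 (nat_lit 0) (nat_lit 14882252955) (nat_lit 84) (nat_lit 15348758632) (nat_lit 168) (nat_lit 4460638200) (nat_lit 17) (nat_lit 5) (nat_lit 18) (nat_lit 5) (nat_lit 19) (nat_lit 4) (nat_lit 420) (nat_lit 315) (nat_lit 210)) (XT.nd (nat_lit 94) (nat_lit 84) (nat_lit 0) (XT.lf (nat_lit 0) (nat_lit 24277381144) (nat_lit 84) (nat_lit 10613116232) (nat_lit 168) (nat_lit 683161061) (nat_lit 17) (nat_lit 5) (nat_lit 18) (nat_lit 5) (nat_lit 19) (nat_lit 4) (nat_lit 421) (nat_lit 315) (nat_lit 209)) (XT.lf (nat_lit 0) (nat_lit 3132646502) (nat_lit 168) (nat_lit 2580001865) (nat_lit 84) (nat_lit 30768934362) (nat_lit 16) (nat_lit 5) (nat_lit 18) (nat_lit 5) (nat_lit 17) (nat_lit 5) (nat_lit 422) (nat_lit 315) (nat_lit 208)))) (XT.nd (nat_lit 188) (nat_lit 0) (nat_lit 0) (XT.nd (nat_lit 94) (nat_lit 0) (nat_lit 0) (XT.lf (nat_lit 0) (nat_lit 6496997192) (nat_lit 168) (nat_lit 602613282) (nat_lit 252)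 (nat_lit 30315427077) (nat_lit 14) (nat_lit 5) (nat_lit 16) (nat_lit 5) (nat_lit 17) (nat_lit 5) (nat_lit 423) (nat_lit 315) (nat_lit 207)) (XT.lf (nat_lit 0) (nat_lit 11244725282) (nat_lit 252) (nat_lit 22542438079) (nat_lit 84) (nat_lit 4587566275) (nat_lit 14) (nat_lit 5) (nat_lit 17) (nat_lit 5) (nat_lit 15) (nat_lit 4) (nat_lit 424) (nat_lit 315) (nat_lit 206))) (XT.nd (nat_lit 94) (nat_lit 0) (nat_lit 0) (XT.lf (nat_lit 0) (nat_lit 15508537950) (nat_lit 252) (nat_lit 13941784404) (nat_lit 84) (nat_lit 9913067444) (nat_lit 14) (nat_lit 5) (nat_lit 17) (nat_lit 5) (nat_lit 15) (nat_lit 4) (nat_lit 425) (nat_lit 315) (nat_lit 205)) (XT.lf (nat_lit 0) (nat_lit 19888981453) (nat_lit 252) (nat_lit 5102771512) (nat_lit 84) (nat_lit 15390302731) (nat_lit 14) (nat_lit 5) (nat_lit 17) (nat_lit 5) (nat_lit 15) (nat_lit 4) (nat_lit 426) (nat_lit 315) (nat_lit 204))))) (XT.nd (nat_lit 282) (nat_lit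 168) (nat_lit 0) (XT.nd (nat_lit 94) (nat_lit 0) (nat_lit 0) (XT.lf (nat_lit 0) (nat_lit 4061580062) (nat_lit 84) (nat_lit 20367345693) (nat_lit 168) (nat_lit 17001520400) (nat_lit 13) (nat_lit 5) (nat_lit 14) (nat_lit 5) (nat_lit 15) (nat_lit 4) (nat_lit 427) (nat_lit 315) (nat_lit 203)) (XT.nd (nat_lit 94) (nat_lit 0) (nat_lit 0) (XT.lf (nat_lit 0) (nat_lit 13586563371) (nat_lit 84) (nat_lit 15559215493) (nat_lit 168) (nat_lit 13363295145) (nat_lit 13) (nat_lit 5) (nat_lit 14) (nat_lit 5) (nat_lit 15) (nat_lit 4) (nat_lit 428) (nat_lit 315) (nat_lit 202)) (XT.lf (nat_lit 0) (nat_lit 23378946057) (nat_lit 84) (nat_lit 10614689074) (nat_lit 168) (nat_lit 9626747436) (nat_lit 13) (nat_lit 5) (nat_lit 14) (nat_lit 5) (nat_lit 15) (nat_lit 4) (nat_lit 429) (nat_lit 315) (nat_lit 201)))) (XT.nd (nat_lit 188) (nat_lit 168) (nat_lit 0) (XT.nd (nat_lit 94) (nat_lit 0) (nat_lit 0) (XT.lf (nat_lit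 0) (nat_lit 33447284571) (nat_lit 84) (nat_lit 5529445976) (nat_lit 168) (nat_lit 5788612326) (nat_lit 13) (nat_lit 5) (nat_lit 14) (nat_lit 5) (nat_lit 15) (nat_lit 4) (nat_lit 430) (nat_lit 315) (nat_lit 200)) (XT.lf (nat_lit 0) (nat_lit 43800376491) (nat_lit 84) (nat_lit 299042783) (nat_lit 168) (nat_lit 1845536106) (nat_lit 13) (nat_lit 5) (nat_lit 14) (nat_lit 5) (nat_lit 15) (nat_lit 4) (nat_lit 431) (nat_lit 315) (nat_lit 199))) (XT.nd (nat_lit 94) (nat_lit 0) (nat_lit 0) (XT.lf (nat_lit 0) (nat_lit 2283872295) (nat_lit 168) (nat_lit 39796818863) (nat_lit 84) (nat_lit 5075293780) (nat_lit 11) (nat_lit 5) (nat_lit 13) (nat_lit 5) (nat_lit 12) (nat_lit 4) (nat_lit 432) (nat_lit 315) (nat_lit 198)) (XT.lf (nat_lit 0) (nat_lit 6515239913) (nat_lit 168) (nat_lit 31249208179) (nat_lit 84) (nat_lit 10637899860) (nat_lit 11) (nat_lit 5) (nat_lit 13) (nat_lit 5) (nat_lit 12) (nat_lit 4)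 (nat_lit 433) (nat_lit 315) (nat_lit 197))))))))
noncomputable def xc88 : XT := (XT.nd (nat_lit 49256) (nat_lit 0) (nat_lit 9408) (XT.nd (nat_lit 1222) (nat_lit 0) (nat_lit 0) (XT.nd (nat_lit 564) (nat_lit 168) (nat_lit 0) (XT.nd (nat_lit 282) (nat_lit 84) (nat_lit 0) (XT.nd (nat_lit 94) (nat_lit 0) (nat_lit 0) (XT.lf (nat_lit 0) (nat_lit 10864169078) (nat_lit 168) (nat_lit 22461722342) (nat_lit 84) (nat_lit 16360497510) (nat_lit 11) (nat_lit 5) (nat_lit 13) (nat_lit 5) (nat_lit 12) (nat_lit 4) (nat_lit 434) (nat_lit 315) (nat_lit 196)) (XT.nd (nat_lit 94) (nat_lit 0) (nat_lit 0) (XT.lf (nat_lit 0) (nat_lit 15334459826) (nat_lit 168) (nat_lit 13426682967) (nat_lit 84) (nat_lit 22248087057) (nat_lit 11) (nat_lit 5) (nat_lit 13) (nat_lit 5) (nat_lit 12) (nat_lit 4) (nat_lit 435) (nat_lit 315) (nat_lit 195)) (XT.lf (nat_lit 0) (nat_lit 19930018237) (nat_lit 168) (nat_lit 4136195360) (nat_lit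 84) (nat_lit 28305812998) (nat_lit 11) (nat_lit 5) (nat_lit 13) (nat_lit 5) (nat_lit 12) (nat_lit 4) (nat_lit 436) (nat_lit 315) (nat_lit 194)))) (XT.nd (nat_lit 94) (nat_lit 0) (nat_lit 0) (XT.lf (nat_lit 0) (nat_lit 5525684387) (nat_lit 84) (nat_lit 19182291717) (nat_lit 168) (nat_lit 29066400363) (nat_lit 10) (nat_lit 5) (nat_lit 11) (nat_lit 5) (nat_lit 12) (nat_lit 4) (nat_lit 437) (nat_lit 315) (nat_lit 193)) (XT.nd (nat_lit 94) (nat_lit 0) (nat_lit 0) (XT.lf (nat_lit 0) (nat_lit 15547208498) (nat_lit 84) (nat_lit 14115353936) (nat_lit 168) (nat_lit 25555240764) (nat_lit 10) (nat_lit 5) (nat_lit 11) (nat_lit 5) (nat_lit 12) (nat_lit 4) (nat_lit 438) (nat_lit 315) (nat_lit 192)) (XT.lf (nat_lit 0) (nat_lit 25854815246) (nat_lit 84) (nat_lit 8902740296) (nat_lit 168) (nat_lit 21947229023) (nat_lit 10) (nat_lit 5) (nat_lit 11) (nat_lit 5) (nat_lit 12) (nat_lit 4) (nat_lit 439) (nat_lit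 315) (nat_lit 191))))) (XT.nd (nat_lit 282) (nat_lit 168) (nat_lit 0) (XT.nd (nat_lit 94) (nat_lit 0) (nat_lit 0) (XT.lf (nat_lit 0) (nat_lit 36457511278) (nat_lit 84) (nat_lit 3539896086) (nat_lit 168) (nat_lit 18239212506) (nat_lit 10) (nat_lit 5) (nat_lit 11) (nat_lit 5) (nat_lit 12) (nat_lit 4) (nat_lit 440) (nat_lit 315) (nat_lit 190)) (XT.nd (nat_lit 94) (nat_lit 0) (nat_lit 0) (XT.lf (nat_lit 0) (nat_lit 45405708856) (nat_lit 168) (nat_lit 12469098971) (nat_lit 0) (nat_lit 1939269410) (nat_lit 10) (nat_lit 5) (nat_lit 12) (nat_lit 4) (nat_lit 10) (nat_lit 4) (nat_lit 441) (nat_lit 315) (nat_lit 189)) (XT.lf (nat_lit 0) (nat_lit 51003719805) (nat_lit 168) (nat_lit 2928339582) (nat_lit 0) (nat_lit 7505979617) (nat_lit 10) (nat_lit 5) (nat_lit 12) (nat_lit 4) (nat_lit 10) (nat_lit 4) (nat_lit 442) (nat_lit 315) (nat_lit 188)))) (XT.nd (nat_lit 188) (nat_lit 84) (nat_lit 0) (XT.nd (nat_lit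 94) (nat_lit 0) (nat_lit 0) (XT.lf (nat_lit 0) (nat_lit 7022569430) (nat_lit 84) (nat_lit 49807239835) (nat_lit 84) (nat_lit 6279110576) (nat_lit 9) (nat_lit 4) (nat_lit 10) (nat_lit 5) (nat_lit 10) (nat_lit 4) (nat_lit 443) (nat_lit 315) (nat_lit 187)) (XT.lf (nat_lit 0) (nat_lit 17319053539) (nat_lit 84) (nat_lit 45533921105) (nat_lit 84) (nat_lit 1976287894) (nat_lit 9) (nat_lit 4) (nat_lit 10) (nat_lit 5) (nat_lit 10) (nat_lit 4) (nat_lit 444) (nat_lit 315) (nat_lit 186))) (XT.nd (nat_lit 94) (nat_lit 0) (nat_lit 0) (XT.lf (nat_lit 0) (nat_lit 2400562210) (nat_lit 168) (nat_lit 38713136536) (nat_lit 84) (nat_lit 25487026792) (nat_lit 8) (nat_lit 5) (nat_lit 10) (nat_lit 5) (nat_lit 9) (nat_lit 4) (nat_lit 445) (nat_lit 315) (nat_lit 185)) (XT.lf (nat_lit 0) (nat_lit 6862065052) (nat_lit 168) (nat_lit 29684096072) (nat_lit 84) (nat_lit 31878796104) (nat_lit 8) (nat_lit 5) (nat_lit 10)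 (nat_lit 5) (nat_lit 9) (nat_lit 4) (nat_lit 446) (nat_lit 315) (nat_lit 184)))))) (XT.nd (nat_lit 47376) (nat_lit 0) (nat_lit 21840) (XT.nd (nat_lit 47000) (nat_lit 0) (nat_lit 22932) (XT.nd (nat_lit 94) (nat_lit 0) (nat_lit 0) (XT.lf (nat_lit 0) (nat_lit 11450683525) (nat_lit 168) (nat_lit 20396200866) (nat_lit 84) (nat_lit 38457237121) (nat_lit 8) (nat_lit 5) (nat_lit 10) (nat_lit 5) (nat_lit 9) (nat_lit 4) (nat_lit 447) (nat_lit 315) (nat_lit 183)) (XT.nd (nat_lit 94) (nat_lit 0) (nat_lit 0) (XT.lf (nat_lit 0) (nat_lit 16170427104) (nat_lit 168) (nat_lit 10841335280) (nat_lit 84) (nat_lit 45228097997) (nat_lit 8) (nat_lit 5) (nat_lit 10) (nat_lit 5) (nat_lit 9) (nat_lit 4) (nat_lit 448) (nat_lit 315) (nat_lit 182)) (XT.lf (nat_lit 0) (nat_lit 21025419835) (nat_lit 168) (nat_lit 1011150404) (nat_lit 84) (nat_lit 52197295018) (nat_lit 8) (nat_lit 5) (nat_lit 10) (nat_lit 5) (nat_lit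 9) (nat_lit 4) (nat_lit 449) (nat_lit 315) (nat_lit 181)))) (XT.nd (nat_lit 188) (nat_lit 252) (nat_lit 0) (XT.nd (nat_lit 94) (nat_lit 252) (nat_lit 0) (XT.lf (nat_lit 0) (nat_lit 1413013548) (nat_lit 0) (nat_lit 1413013548) (nat_lit 84) (nat_lit 397162595) (nat_lit 287) (nat_lit 5) (nat_lit 287) (nat_lit 3) (nat_lit 288) (nat_lit 0) (nat_lit 316) (nat_lit 316) (nat_lit 313)) (XT.lf (nat_lit 0) (nat_lit 1935009732) (nat_lit 252) (nat_lit 730093897) (nat_lit 252) (nat_lit 3787298240) (nat_lit 284) (nat_lit 3) (nat_lit 287) (nat_lit 3) (nat_lit 287) (nat_lit 5) (nat_lit 317) (nat_lit 316) (nat_lit 312))) (XT.nd (nat_lit 94) (nat_lit 252) (nat_lit 0) (XT.lf (nat_lit 84) (nat_lit 2227515945) (nat_lit 0) (nat_lit 2417786541) (nat_lit 252) (nat_lit 1815972031) (nat_lit 285) (nat_lit 5) (nat_lit 284) (nat_lit 3) (nat_lit 287) (nat_lit 5) (nat_lit 318) (nat_lit 316) (nat_lit 311)) (XT.lf (nat_lit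 0) (nat_lit 849914947) (nat_lit 252) (nat_lit 1247584277) (nat_lit 336) (nat_lit 4375903125) (nat_lit 281) (nat_lit 5) (nat_lit 284) (nat_lit 3) (nat_lit 285) (nat_lit 5) (nat_lit 319) (nat_lit 316) (nat_lit 310))))) (XT.nd (nat_lit 282) (nat_lit 756) (nat_lit 0) (XT.nd (nat_lit 94) (nat_lit 336) (nat_lit 0) (XT.lf (nat_lit 84) (nat_lit 1789930198) (nat_lit 0) (nat_lit 1684456429) (nat_lit 336) (nat_lit 3013841217) (nat_lit 282) (nat_lit 5) (nat_lit 281) (nat_lit 5) (nat_lit 285) (nat_lit 5) (nat_lit 320) (nat_lit 316) (nat_lit 309)) (XT.nd (nat_lit 94) (nat_lit 336) (nat_lit 0) (XT.lf (nat_lit 84) (nat_lit 4889492361) (nat_lit 0) (nat_lit 1201048078) (nat_lit 336) (nat_lit 415886163) (nat_lit 282) (nat_lit 5) (nat_lit 281) (nat_lit 5) (nat_lit 285) (nat_lit 5) (nat_lit 321) (nat_lit 316) (nat_lit 308)) (XT.lf (nat_lit 84) (nat_lit 1509287647) (nat_lit 0) (nat_lit 623119858) (nat_lit 420)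 (nat_lit 4394915800) (nat_lit 278) (nat_lit 5) (nat_lit 277) (nat_lit 5) (nat_lit 282) (nat_lit 5) (nat_lit 322) (nat_lit 316) (nat_lit 307)))) (XT.nd (nat_lit 188) (nat_lit 420) (nat_lit 0) (XT.nd (nat_lit 94) (nat_lit 420) (nat_lit 0) (XT.lf (nat_lit 0) (nat_lit 4669726921) (nat_lit 336) (nat_lit 1848247832) (nat_lit 84) (nat_lit 33410594) (nat_lit 278) (nat_lit 5) (nat_lit 282) (nat_lit 5) (nat_lit 279) (nat_lit 5) (nat_lit 323) (nat_lit 316) (nat_lit 306)) (XT.lf (nat_lit 0) (nat_lit 619132906) (nat_lit 420) (nat_lit 5203926839) (nat_lit 84) (nat_lit 755401046) (nat_lit 273) (nat_lit 5) (nat_lit 278) (nat_lit 5) (nat_lit 274) (nat_lit 5) (nat_lit 324) (nat_lit 316) (nat_lit 305))) (XT.nd (nat_lit 94) (nat_lit 420) (nat_lit 0) (XT.lf (nat_lit 0) (nat_lit 3084459217) (nat_lit 420) (nat_lit 1950871145) (nat_lit 84) (nat_lit 1572904737) (nat_lit 273) (nat_lit 5) (nat_lit 278) (nat_lit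 5) (nat_lit 274) (nat_lit 5) (nat_lit 325) (nat_lit 316) (nat_lit 304)) (XT.lf (nat_lit 0) (nat_lit 1370050701) (nat_lit 420) (nat_lit 4178012191) (nat_lit 504) (nat_lit 1093367917) (nat_lit 268) (nat_lit 5) (nat_lit 273) (nat_lit 5) (nat_lit 274) (nat_lit 5) (nat_lit 326) (nat_lit 316) (nat_lit 303))))))) (XT.nd (nat_lit 1316) (nat_lit 6720) (nat_lit 0) (XT.nd (nat_lit 658) (nat_lit 3696) (nat_lit 0) (XT.nd (nat_lit 282) (nat_lit 1428) (nat_lit 0) (XT.nd (nat_lit 94) (nat_lit 504) (nat_lit 0) (XT.lf (nat_lit 0) (nat_lit 1314427655) (nat_lit 504) (nat_lit 1916087642) (nat_lit 84) (nat_lit 3446983742) (nat_lit 267) (nat_lit 5) (nat_lit 273) (nat_lit 5) (nat_lit 268) (nat_lit 5) (nat_lit 327) (nat_lit 316) (nat_lit 302)) (XT.nd (nat_lit 94) (nat_lit 0) (nat_lit 0) (XT.lf (nat_lit 0) (nat_lit 1502137641) (nat_lit 504) (nat_lit 2199437282) (nat_lit 588) (nat_lit 3015112658) (nat_lit 261) (nat_lit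 5) (nat_lit 267) (nat_lit 5) (nat_lit 268) (nat_lit 5) (nat_lit 328) (nat_lit 316) (nat_lit 301)) (XT.lf (nat_lit 0) (nat_lit 5006526059) (nat_lit 504) (nat_lit 1089764007) (nat_lit 588) (nat_lit 662912072) (nat_lit 261) (nat_lit 5) (nat_lit 267) (nat_lit 5) (nat_lit 268) (nat_lit 5) (nat_lit 329) (nat_lit 316) (nat_lit 300)))) (XT.nd (nat_lit 188) (nat_lit 756) (nat_lit 0) (XT.nd (nat_lit 94) (nat_lit 0) (nat_lit 0) (XT.lf (nat_lit 0) (nat_lit 1661687486) (nat_lit 672) (nat_lit 5030863118) (nat_lit 84) (nat_lit 112064622) (nat_lit 253) (nat_lit 5) (nat_lit 261) (nat_lit 5) (nat_lit 254) (nat_lit 5) (nat_lit 330) (nat_lit 316) (nat_lit 299)) (XT.lf (nat_lit 0) (nat_lit 3991473112) (nat_lit 672) (nat_lit 1484678566) (nat_lit 84) (nat_lit 1376788497) (nat_lit 253) (nat_lit 5) (nat_lit 261) (nat_lit 5) (nat_lit 254) (nat_lit 5) (nat_lit 331) (nat_lit 316) (nat_lit 298))) (XT.nd (nat_lit 94)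 (nat_lit 84) (nat_lit 0) (XT.lf (nat_lit 0) (nat_lit 2153415680) (nat_lit 672) (nat_lit 4180871903) (nat_lit 756) (nat_lit 570336662) (nat_lit 245) (nat_lit 5) (nat_lit 253) (nat_lit 5) (nat_lit 254) (nat_lit 5) (nat_lit 332) (nat_lit 316) (nat_lit 297)) (XT.lf (nat_lit 0) (nat_lit 1692960464) (nat_lit 756) (nat_lit 1101335160) (nat_lit 84) (nat_lit 4165088317) (nat_lit 244) (nat_lit 5) (nat_lit 253) (nat_lit 5) (nat_lit 245) (nat_lit 5) (nat_lit 333) (nat_lit 316) (nat_lit 296))))) (XT.nd (nat_lit 282) (nat_lit 2016) (nat_lit 0) (XT.nd (nat_lit 94) (nat_lit 924) (nat_lit 0) (XT.lf (nat_lit 0) (nat_lit 2648077756) (nat_lit 756) (nat_lit 1315519192) (nat_lit 840) (nat_lit 3053679131) (nat_lit 235) (nat_lit 5) (nat_lit 244) (nat_lit 5) (nat_lit 245) (nat_lit 5) (nat_lit 334) (nat_lit 316) (nat_lit 295)) (XT.nd (nat_lit 94) (nat_lit 924) (nat_lit 0) (XT.lf (nat_lit 0) (nat_lit 6242834981)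 (nat_lit 840) (nat_lit 604098491) (nat_lit 84) (nat_lit 231937781) (nat_lit 235) (nat_lit 5) (nat_lit 245) (nat_lit 5) (nat_lit 236) (nat_lit 5) (nat_lit 335) (nat_lit 316) (nat_lit 294)) (XT.lf (nat_lit 0) (nat_lit 1393263304) (nat_lit 924) (nat_lit 3888508686) (nat_lit 84) (nat_lit 1861093476) (nat_lit 224) (nat_lit 5) (nat_lit 235) (nat_lit 5) (nat_lit 225) (nat_lit 5) (nat_lit 336) (nat_lit 316) (nat_lit 293)))) (XT.nd (nat_lit 188) (nat_lit 1092) (nat_lit 0) (XT.nd (nat_lit 94) (nat_lit 924) (nat_lit 0) (XT.lf (nat_lit 0) (nat_lit 3608843099) (nat_lit 924) (nat_lit 33273377) (nat_lit 84) (nat_lit 3568493969) (nat_lit 224) (nat_lit 5) (nat_lit 235) (nat_lit 5) (nat_lit 225) (nat_lit 5) (nat_lit 337) (nat_lit 316) (nat_lit 292)) (XT.lf (nat_lit 0) (nat_lit 3959258948) (nat_lit 924) (nat_lit 1901771832) (nat_lit 1008) (nat_lit 1420413367) (nat_lit 213) (nat_lit 5) (nat_lit 224) (nat_lit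 5) (nat_lit 225) (nat_lit 5) (nat_lit 338) (nat_lit 316) (nat_lit 291))) (XT.nd (nat_lit 94) (nat_lit 0) (nat_lit 0) (XT.lf (nat_lit 0) (nat_lit 666347827) (nat_lit 1008) (nat_lit 83371880) (nat_lit 1092) (nat_lit 6606412290) (nat_lit 200) (nat_lit 5) (nat_lit 212) (nat_lit 5) (nat_lit 213) (nat_lit 5) (nat_lit 339) (nat_lit 316) (nat_lit 290)) (XT.lf (nat_lit 0) (nat_lit 2941725510) (nat_lit 1092) (nat_lit 2679241268) (nat_lit 84) (nat_lit 1812259232) (nat_lit 200) (nat_lit 5) (nat_lit 213) (nat_lit 5) (nat_lit 201) (nat_lit 5) (nat_lit 340) (nat_lit 316) (nat_lit 289)))))) (XT.nd (nat_lit 658) (nat_lit 2436) (nat_lit 0) (XT.nd (nat_lit 282) (nat_lit 1932) (nat_lit 0) (XT.nd (nat_lit 94) (nat_lit 1260) (nat_lit 0) (XT.lf (nat_lit 0) (nat_lit 1422009520) (nat_lit 1092) (nat_lit 3728127518) (nat_lit 1176) (nat_lit 2364119121) (nat_lit 187) (nat_lit 5) (nat_lit 200) (nat_lit 5) (nat_lit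 201) (nat_lit 5) (nat_lit 341) (nat_lit 316) (nat_lit 288)) (XT.nd (nat_lit 94) (nat_lit 1260) (nat_lit 0) (XT.lf (nat_lit 0) (nat_lit 5645242420) (nat_lit 1092) (nat_lit 1744086036) (nat_lit 1176) (nat_lit 209591458) (nat_lit 187) (nat_lit 5) (nat_lit 200) (nat_lit 5) (nat_lit 201) (nat_lit 5) (nat_lit 342) (nat_lit 316) (nat_lit 287)) (XT.lf (nat_lit 0) (nat_lit 1934163077) (nat_lit 1260) (nat_lit 5411709854) (nat_lit 84) (nat_lit 340887555) (nat_lit 172) (nat_lit 5) (nat_lit 187) (nat_lit 5) (nat_lit 173) (nat_lit 5) (nat_lit 343) (nat_lit 316) (nat_lit 286)))) (XT.nd (nat_lit 188) (nat_lit 672) (nat_lit 0) (XT.nd (nat_lit 94) (nat_lit 1260) (nat_lit 0) (XT.lf (nat_lit 0) (nat_lit 4115077849) (nat_lit 1260) (nat_lit 1182628586) (nat_lit 84) (nat_lit 2480282552) (nat_lit 172) (nat_lit 5) (nat_lit 187) (nat_lit 5) (nat_lit 173) (nat_lit 5) (nat_lit 344) (nat_lit 316) (nat_lit 285)) (XT.lf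 (nat_lit 0) (nat_lit 3179906088) (nat_lit 1260) (nat_lit 3153700944) (nat_lit 1344) (nat_lit 1539304780) (nat_lit 157) (nat_lit 5) (nat_lit 172) (nat_lit 5) (nat_lit 173) (nat_lit 5) (nat_lit 345) (nat_lit 316) (nat_lit 284))) (XT.nd (nat_lit 94) (nat_lit 588) (nat_lit 0) (XT.lf (nat_lit 0) (nat_lit 589533831) (nat_lit 1344) (nat_lit 335306620) (nat_lit 84) (nat_lit 7047145940) (nat_lit 156) (nat_lit 5) (nat_lit 172) (nat_lit 5) (nat_lit 157) (nat_lit 5) (nat_lit 346) (nat_lit 316) (nat_lit 283)) (XT.lf (nat_lit 0) (nat_lit 2748867336) (nat_lit 672) (nat_lit 3923323755) (nat_lit 84) (nat_lit 1401570484) (nat_lit 149) (nat_lit 5) (nat_lit 157) (nat_lit 5) (nat_lit 150) (nat_lit 5) (nat_lit 347) (nat_lit 316) (nat_lit 282))))) (XT.nd (nat_lit 282) (nat_lit 1176) (nat_lit 0) (XT.nd (nat_lit 94) (nat_lit 672) (nat_lit 0) (XT.lf (nat_lit 0) (nat_lit 544784588) (nat_lit 588) (nat_lit 4390932088)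 (nat_lit 672) (nat_lit 3244100619) (nat_lit 142) (nat_lit 5) (nat_lit 149) (nat_lit 5) (nat_lit 150) (nat_lit 5) (nat_lit 348) (nat_lit 316) (nat_lit 281)) (XT.nd (nat_lit 94) (nat_lit 672) (nat_lit 0) (XT.lf (nat_lit 0) (nat_lit 5172112111) (nat_lit 588) (nat_lit 2001673102) (nat_lit 672) (nat_lit 1115807230) (nat_lit 142) (nat_lit 5) (nat_lit 149) (nat_lit 5) (nat_lit 150) (nat_lit 5) (nat_lit 349) (nat_lit 316) (nat_lit 280)) (XT.lf (nat_lit 0) (nat_lit 1021339761) (nat_lit 672) (nat_lit 6908530605) (nat_lit 84) (nat_lit 473599923) (nat_lit 134) (nat_lit 5) (nat_lit 142) (nat_lit 5) (nat_lit 135) (nat_lit 5) (nat_lit 350) (nat_lit 316) (nat_lit 279)))) (XT.nd (nat_lit 188) (nat_lit 588) (nat_lit 0) (XT.nd (nat_lit 94) (nat_lit 588) (nat_lit 0) (XT.lf (nat_lit 0) (nat_lit 3199735993) (nat_lit 672) (nat_lit 2297254730) (nat_lit 84) (nat_lit 3023552635) (nat_lit 134) (nat_lit 5) (nat_lit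 142) (nat_lit 5) (nat_lit 135) (nat_lit 5) (nat_lit 351) (nat_lit 316) (nat_lit 278)) (XT.lf (nat_lit 0) (nat_lit 2445819729) (nat_lit 588) (nat_lit 2970641874) (nat_lit 672) (nat_lit 3225572021) (nat_lit 127) (nat_lit 5) (nat_lit 134) (nat_lit 5) (nat_lit 135) (nat_lit 5) (nat_lit 352) (nat_lit 316) (nat_lit 277))) (XT.nd (nat_lit 94) (nat_lit 588) (nat_lit 0) (XT.lf (nat_lit 0) (nat_lit 7324543473) (nat_lit 588) (nat_lit 348765366) (nat_lit 672) (nat_lit 1094742745) (nat_lit 127) (nat_lit 5) (nat_lit 134) (nat_lit 5) (nat_lit 135) (nat_lit 5) (nat_lit 353) (nat_lit 316) (nat_lit 276)) (XT.lf (nat_lit 0) (nat_lit 1086060736) (nat_lit 588) (nat_lit 5465672859) (nat_lit 84) (nat_lit 2345660159) (nat_lit 120) (nat_lit 5) (nat_lit 127) (nat_lit 5) (nat_lit 121) (nat_lit 5) (nat_lit 354) (nat_lit 316) (nat_lit 275))))))))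
noncomputable def xc89 : XT := (XT.nd (nat_lit 2538) (nat_lit 2604) (nat_lit 0) (XT.nd (nat_lit 1222) (nat_lit 2352) (nat_lit 0) (XT.nd (nat_lit 564) (nat_lit 1764) (nat_lit 0) (XT.nd (nat_lit 282) (nat_lit 588) (nat_lit 0) (XT.nd (nat_lit 94) (nat_lit 924) (nat_lit 0) (XT.lf (nat_lit 0) (nat_lit 3280625975) (nat_lit 588) (nat_lit 615991249) (nat_lit 84) (nat_lit 5134647377) (nat_lit 120) (nat_lit 5) (nat_lit 127) (nat_lit 5) (nat_lit 121) (nat_lit 5) (nat_lit 355) (nat_lit 316) (nat_lit 274)) (XT.nd (nat_lit 94) (nat_lit 420) (nat_lit 0) (XT.lf (nat_lit 0) (nat_lit 4412693051) (nat_lit 504) (nat_lit 1124312674) (nat_lit 588) (nat_lit 3632347890) (nat_lit 114) (nat_lit 5) (nat_lit 120) (nat_lit 5) (nat_lit 121) (nat_lit 5) (nat_lit 356) (nat_lit 316) (nat_lit 273)) (XT.lf (nat_lit 0) (nat_lit 227744057) (nat_lit 420) (nat_lit 7612794542) (nat_lit 504) (nat_lit 1471741849) (nat_lit 109)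 (nat_lit 5) (nat_lit 114) (nat_lit 5) (nat_lit 115) (nat_lit 5) (nat_lit 357) (nat_lit 316) (nat_lit 272)))) (XT.nd (nat_lit 94) (nat_lit 504) (nat_lit 0) (XT.lf (nat_lit 0) (nat_lit 753266961) (nat_lit 504) (nat_lit 4071635365) (nat_lit 84) (nat_lit 4634021130) (nat_lit 108) (nat_lit 5) (nat_lit 114) (nat_lit 5) (nat_lit 109) (nat_lit 5) (nat_lit 358) (nat_lit 316) (nat_lit 271)) (XT.nd (nat_lit 94) (nat_lit 0) (nat_lit 0) (XT.lf (nat_lit 0) (nat_lit 1045128884) (nat_lit 504) (nat_lit 1936335170) (nat_lit 588) (nat_lit 6629156287) (nat_lit 102) (nat_lit 5) (nat_lit 108) (nat_lit 5) (nat_lit 109) (nat_lit 5) (nat_lit 359) (nat_lit 316) (nat_lit 270)) (XT.lf (nat_lit 0) (nat_lit 5284689817) (nat_lit 588) (nat_lit 3430285665) (nat_lit 84) (nat_lit 1051717359) (nat_lit 102) (nat_lit 5) (nat_lit 109) (nat_lit 5) (nat_lit 103) (nat_lit 5) (nat_lit 360) (nat_lit 316) (nat_lit 269))))) (XT.nd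 (nat_lit 282) (nat_lit 840) (nat_lit 0) (XT.nd (nat_lit 94) (nat_lit 504) (nat_lit 0) (XT.lf (nat_lit 0) (nat_lit 1823823081) (nat_lit 420) (nat_lit 5827828242) (nat_lit 504) (nat_lit 2276025170) (nat_lit 97) (nat_lit 5) (nat_lit 102) (nat_lit 5) (nat_lit 103) (nat_lit 5) (nat_lit 361) (nat_lit 316) (nat_lit 268)) (XT.nd (nat_lit 94) (nat_lit 504) (nat_lit 0) (XT.lf (nat_lit 0) (nat_lit 7254807238) (nat_lit 420) (nat_lit 2828123531) (nat_lit 504) (nat_lit 10825773) (nat_lit 97) (nat_lit 5) (nat_lit 102) (nat_lit 5) (nat_lit 103) (nat_lit 5) (nat_lit 362) (nat_lit 316) (nat_lit 267)) (XT.lf (nat_lit 0) (nat_lit 2263929343) (nat_lit 504) (nat_lit 7706468481) (nat_lit 84) (nat_lit 294206318) (nat_lit 91) (nat_lit 5) (nat_lit 97) (nat_lit 5) (nat_lit 92) (nat_lit 5) (nat_lit 363) (nat_lit 316) (nat_lit 266)))) (XT.nd (nat_lit 188) (nat_lit 504) (nat_lit 0) (XT.nd (nat_lit 94) (nat_lit 336)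 (nat_lit 0) (XT.lf (nat_lit 0) (nat_lit 4623681024) (nat_lit 504) (nat_lit 2343894357) (nat_lit 84) (nat_lit 3472549975) (nat_lit 91) (nat_lit 5) (nat_lit 97) (nat_lit 5) (nat_lit 92) (nat_lit 5) (nat_lit 364) (nat_lit 316) (nat_lit 265)) (XT.lf (nat_lit 0) (nat_lit 3192223698) (nat_lit 336) (nat_lit 3853870285) (nat_lit 420) (nat_lit 3575120946) (nat_lit 87) (nat_lit 5) (nat_lit 91) (nat_lit 5) (nat_lit 92) (nat_lit 5) (nat_lit 365) (nat_lit 316) (nat_lit 264))) (XT.nd (nat_lit 94) (nat_lit 504) (nat_lit 0) (XT.lf (nat_lit 0) (nat_lit 8893334278) (nat_lit 336) (nat_lit 633355149) (nat_lit 420) (nat_lit 1281539530) (nat_lit 87) (nat_lit 5) (nat_lit 91) (nat_lit 5) (nat_lit 92) (nat_lit 5) (nat_lit 366) (nat_lit 316) (nat_lit 263)) (XT.lf (nat_lit 0) (nat_lit 1084774939) (nat_lit 504) (nat_lit 7247304780) (nat_lit 84) (nat_lit 2667765281) (nat_lit 81) (nat_lit 5) (nat_lit 87) (nat_lit 5)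 (nat_lit 82) (nat_lit 5) (nat_lit 367) (nat_lit 316) (nat_lit 262)))))) (XT.nd (nat_lit 658) (nat_lit 1260) (nat_lit 0) (XT.nd (nat_lit 282) (nat_lit 756) (nat_lit 0) (XT.nd (nat_lit 94) (nat_lit 336) (nat_lit 0) (XT.lf (nat_lit 0) (nat_lit 3485173804) (nat_lit 504) (nat_lit 1635609665) (nat_lit 84) (nat_lit 6076432049) (nat_lit 81) (nat_lit 5) (nat_lit 87) (nat_lit 5) (nat_lit 82) (nat_lit 5) (nat_lit 368) (nat_lit 316) (nat_lit 261)) (XT.nd (nat_lit 94) (nat_lit 0) (nat_lit 0) (XT.lf (nat_lit 0) (nat_lit 4178318832) (nat_lit 336) (nat_lit 1783560127) (nat_lit 420) (nat_lit 5438550071) (nat_lit 77) (nat_lit 5) (nat_lit 81) (nat_lit 5) (nat_lit 82) (nat_lit 5) (nat_lit 369) (nat_lit 316) (nat_lit 260)) (XT.lf (nat_lit 0) (nat_lit 8510068919) (nat_lit 420) (nat_lit 1473288056) (nat_lit 84) (nat_lit 1626515692) (nat_lit 77) (nat_lit 5) (nat_lit 82) (nat_lit 5) (nat_lit 78) (nat_lit 5) (nat_lit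 370) (nat_lit 316) (nat_lit 259)))) (XT.nd (nat_lit 188) (nat_lit 336) (nat_lit 0) (XT.nd (nat_lit 94) (nat_lit 84) (nat_lit 0) (XT.lf (nat_lit 0) (nat_lit 4470807007) (nat_lit 336) (nat_lit 6690170116) (nat_lit 420) (nat_lit 663882109) (nat_lit 73) (nat_lit 5) (nat_lit 77) (nat_lit 5) (nat_lit 78) (nat_lit 5) (nat_lit 371) (nat_lit 316) (nat_lit 258)) (XT.lf (nat_lit 0) (nat_lit 1789949736) (nat_lit 420) (nat_lit 1487348041) (nat_lit 84) (nat_lit 8769085454) (nat_lit 72) (nat_lit 5) (nat_lit 77) (nat_lit 5) (nat_lit 73) (nat_lit 5) (nat_lit 372) (nat_lit 316) (nat_lit 257))) (XT.nd (nat_lit 94) (nat_lit 0) (nat_lit 0) (XT.lf (nat_lit 0) (nat_lit 4317679550) (nat_lit 420) (nat_lit 7684006513) (nat_lit 84) (nat_lit 272304644) (nat_lit 68) (nat_lit 5) (nat_lit 73) (nat_lit 5) (nat_lit 69) (nat_lit 5) (nat_lit 373) (nat_lit 316) (nat_lit 256)) (XT.lf (nat_lit 0) (nat_lit 6936077575) (nat_lit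 420) (nat_lit 1706572197) (nat_lit 84) (nat_lit 3865374012) (nat_lit 68) (nat_lit 5) (nat_lit 73) (nat_lit 5) (nat_lit 69) (nat_lit 5) (nat_lit 374) (nat_lit 316) (nat_lit 255))))) (XT.nd (nat_lit 282) (nat_lit 588) (nat_lit 0) (XT.nd (nat_lit 94) (nat_lit 336) (nat_lit 0) (XT.lf (nat_lit 0) (nat_lit 4493080018) (nat_lit 336) (nat_lit 5151312337) (nat_lit 420) (nat_lit 3104385782) (nat_lit 64) (nat_lit 5) (nat_lit 68) (nat_lit 5) (nat_lit 69) (nat_lit 5) (nat_lit 375) (nat_lit 316) (nat_lit 254)) (XT.nd (nat_lit 94) (nat_lit 336) (nat_lit 0) (XT.lf (nat_lit 0) (nat_lit 10869362584) (nat_lit 336) (nat_lit 1550502318) (nat_lit 420) (nat_lit 577352998) (nat_lit 64) (nat_lit 5) (nat_lit 68) (nat_lit 5) (nat_lit 69) (nat_lit 5) (nat_lit 376) (nat_lit 316) (nat_lit 253)) (XT.lf (nat_lit 0) (nat_lit 2016828636) (nat_lit 336) (nat_lit 9070829493) (nat_lit 84) (nat_lit 2163980475) (nat_lit 60)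 (nat_lit 5) (nat_lit 64) (nat_lit 5) (nat_lit 61) (nat_lit 5) (nat_lit 377) (nat_lit 316) (nat_lit 252)))) (XT.nd (nat_lit 188) (nat_lit 252) (nat_lit 0) (XT.nd (nat_lit 94) (nat_lit 336) (nat_lit 0) (XT.lf (nat_lit 0) (nat_lit 4683886112) (nat_lit 336) (nat_lit 2856067393) (nat_lit 84) (nat_lit 5973403927) (nat_lit 60) (nat_lit 5) (nat_lit 64) (nat_lit 5) (nat_lit 61) (nat_lit 5) (nat_lit 378) (nat_lit 316) (nat_lit 251)) (XT.lf (nat_lit 0) (nat_lit 3572033150) (nat_lit 336) (nat_lit 3863747271) (nat_lit 420) (nat_lit 6347038215) (nat_lit 56) (nat_lit 5) (nat_lit 60) (nat_lit 5) (nat_lit 61) (nat_lit 5) (nat_lit 379) (nat_lit 316) (nat_lit 250))) (XT.nd (nat_lit 94) (nat_lit 252) (nat_lit 0) (XT.lf (nat_lit 0) (nat_lit 10209135323) (nat_lit 336) (nat_lit 60877555) (nat_lit 420) (nat_lit 3790391887) (nat_lit 56) (nat_lit 5) (nat_lit 60) (nat_lit 5) (nat_lit 61) (nat_lit 5) (nat_lit 380)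 (nat_lit 316) (nat_lit 249)) (XT.lf (nat_lit 0) (nat_lit 2672200465) (nat_lit 252) (nat_lit 10551488289) (nat_lit 336) (nat_lit 1121630754) (nat_lit 53) (nat_lit 5) (nat_lit 56) (nat_lit 5) (nat_lit 57) (nat_lit 5) (nat_lit 381) (nat_lit 316) (nat_lit 248))))))) (XT.nd (nat_lit 1316) (nat_lit 1008) (nat_lit 0) (XT.nd (nat_lit 658) (nat_lit 672) (nat_lit 0) (XT.nd (nat_lit 282) (nat_lit 588) (nat_lit 0) (XT.nd (nat_lit 94) (nat_lit 252) (nat_lit 0) (XT.lf (nat_lit 0) (nat_lit 1607099718) (nat_lit 336) (nat_lit 5226013877) (nat_lit 84) (nat_lit 7804880683) (nat_lit 52) (nat_lit 5) (nat_lit 56) (nat_lit 5) (nat_lit 53) (nat_lit 5) (nat_lit 382) (nat_lit 316) (nat_lit 247)) (XT.nd (nat_lit 94) (nat_lit 0) (nat_lit 0) (XT.lf (nat_lit 0) (nat_lit 1389651010) (nat_lit 252) (nat_lit 2991458354) (nat_lit 336) (nat_lit 10558458618) (nat_lit 49) (nat_lit 5) (nat_lit 52) (nat_lit 5) (nat_lit 53) (nat_lit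 5) (nat_lit 383) (nat_lit 316) (nat_lit 246)) (XT.lf (nat_lit 0) (nat_lit 7273796973) (nat_lit 336) (nat_lit 6988669205) (nat_lit 84) (nat_lit 986688775) (nat_lit 49) (nat_lit 5) (nat_lit 53) (nat_lit 5) (nat_lit 50) (nat_lit 5) (nat_lit 384) (nat_lit 316) (nat_lit 245)))) (XT.nd (nat_lit 188) (nat_lit 336) (nat_lit 0) (XT.nd (nat_lit 94) (nat_lit 252) (nat_lit 0) (XT.lf (nat_lit 0) (nat_lit 10256555665) (nat_lit 336) (nat_lit 300177670) (nat_lit 84) (nat_lit 5011226403) (nat_lit 49) (nat_lit 5) (nat_lit 53) (nat_lit 5) (nat_lit 50) (nat_lit 5) (nat_lit 385) (nat_lit 316) (nat_lit 244)) (XT.lf (nat_lit 0) (nat_lit 6680518653) (nat_lit 252) (nat_lit 6686934583) (nat_lit 336) (nat_lit 2527743821) (nat_lit 46) (nat_lit 5) (nat_lit 49) (nat_lit 5) (nat_lit 50) (nat_lit 5) (nat_lit 386) (nat_lit 316) (nat_lit 243))) (XT.nd (nat_lit 94) (nat_lit 252) (nat_lit 0) (XT.lf (nat_lit 0) (nat_lit 310401906)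 (nat_lit 336) (nat_lit 2397627778) (nat_lit 84) (nat_lit 13524822420) (nat_lit 45) (nat_lit 5) (nat_lit 49) (nat_lit 5) (nat_lit 46) (nat_lit 5) (nat_lit 387) (nat_lit 316) (nat_lit 242)) (XT.lf (nat_lit 0) (nat_lit 3216811192) (nat_lit 336) (nat_lit 11941387367) (nat_lit 84) (nat_lit 1420695390) (nat_lit 42) (nat_lit 5) (nat_lit 46) (nat_lit 5) (nat_lit 43) (nat_lit 5) (nat_lit 388) (nat_lit 316) (nat_lit 241))))) (XT.nd (nat_lit 282) (nat_lit 504) (nat_lit 0) (XT.nd (nat_lit 94) (nat_lit 168) (nat_lit 0) (XT.lf (nat_lit 0) (nat_lit 6237189526) (nat_lit 336) (nat_lit 5066886384) (nat_lit 84) (nat_lit 5630462781) (nat_lit 42) (nat_lit 5) (nat_lit 46) (nat_lit 5) (nat_lit 43) (nat_lit 5) (nat_lit 389) (nat_lit 316) (nat_lit 240)) (XT.nd (nat_lit 94) (nat_lit 0) (nat_lit 0) (XT.lf (nat_lit 0) (nat_lit 2016214818) (nat_lit 168) (nat_lit 7327572218) (nat_lit 252) (nat_lit 7957221721) (nat_lit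 40) (nat_lit 5) (nat_lit 42) (nat_lit 5) (nat_lit 43) (nat_lit 5) (nat_lit 390) (nat_lit 316) (nat_lit 239)) (XT.lf (nat_lit 0) (nat_lit 9379059372) (nat_lit 168) (nat_lit 3192255908) (nat_lit 252) (nat_lit 5106349176) (nat_lit 40) (nat_lit 5) (nat_lit 42) (nat_lit 5) (nat_lit 43) (nat_lit 5) (nat_lit 391) (nat_lit 316) (nat_lit 238)))) (XT.nd (nat_lit 188) (nat_lit 168) (nat_lit 0) (XT.nd (nat_lit 94) (nat_lit 336) (nat_lit 0) (XT.lf (nat_lit 0) (nat_lit 15883053843) (nat_lit 252) (nat_lit 1149220083) (nat_lit 84) (nat_lit 1033747191) (nat_lit 40) (nat_lit 5) (nat_lit 43) (nat_lit 5) (nat_lit 41) (nat_lit 5) (nat_lit 392) (nat_lit 316) (nat_lit 237)) (XT.lf (nat_lit 0) (nat_lit 882298157) (nat_lit 336) (nat_lit 12202293306) (nat_lit 84) (nat_lit 5379109475) (nat_lit 36) (nat_lit 5) (nat_lit 40) (nat_lit 5) (nat_lit 37) (nat_lit 5) (nat_lit 393) (nat_lit 316) (nat_lit 236))) (XT.nd (nat_lit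 94) (nat_lit 168) (nat_lit 0) (XT.lf (nat_lit 0) (nat_lit 3985233760) (nat_lit 336) (nat_lit 5011976157) (nat_lit 84) (nat_lit 9875786090) (nat_lit 36) (nat_lit 5) (nat_lit 40) (nat_lit 5) (nat_lit 37) (nat_lit 5) (nat_lit 394) (nat_lit 316) (nat_lit 235)) (XT.lf (nat_lit 0) (nat_lit 2406845093) (nat_lit 168) (nat_lit 4776060945) (nat_lit 252) (nat_lit 12111634713) (nat_lit 34) (nat_lit 5) (nat_lit 36) (nat_lit 5) (nat_lit 37) (nat_lit 5) (nat_lit 395) (nat_lit 316) (nat_lit 234)))))) (XT.nd (nat_lit 658) (nat_lit 588) (nat_lit 0) (XT.nd (nat_lit 282) (nat_lit 252) (nat_lit 0) (XT.nd (nat_lit 94) (nat_lit 168) (nat_lit 0) (XT.lf (nat_lit 0) (nat_lit 10117134966) (nat_lit 168) (nat_lit 388797783) (nat_lit 252) (nat_lit 9221936052) (nat_lit 34) (nat_lit 5) (nat_lit 36) (nat_lit 5) (nat_lit 37) (nat_lit 5) (nat_lit 396) (nat_lit 316) (nat_lit 233)) (XT.nd (nat_lit 94) (nat_lit 168) (nat_lit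 0) (XT.lf (nat_lit 0) (nat_lit 13947663317) (nat_lit 252) (nat_lit 2188533283) (nat_lit 84) (nat_lit 4037448819) (nat_lit 34) (nat_lit 5) (nat_lit 37) (nat_lit 5) (nat_lit 35) (nat_lit 5) (nat_lit 397) (nat_lit 316) (nat_lit 232)) (XT.lf (nat_lit 0) (nat_lit 5527956835) (nat_lit 168) (nat_lit 12001591281) (nat_lit 252) (nat_lit 3102158711) (nat_lit 32) (nat_lit 5) (nat_lit 34) (nat_lit 5) (nat_lit 35) (nat_lit 5) (nat_lit 398) (nat_lit 316) (nat_lit 231)))) (XT.nd (nat_lit 188) (nat_lit 0) (nat_lit 0) (XT.nd (nat_lit 94) (nat_lit 168) (nat_lit 0) (XT.lf (nat_lit 0) (nat_lit 115424190) (nat_lit 252) (nat_lit 7615866223) (nat_lit 84) (nat_lit 13372134998) (nat_lit 31) (nat_lit 5) (nat_lit 34) (nat_lit 5) (nat_lit 32) (nat_lit 5) (nat_lit 399) (nat_lit 316) (nat_lit 230)) (XT.lf (nat_lit 0) (nat_lit 35074852) (nat_lit 168) (nat_lit 3313007320) (nat_lit 252) (nat_lit 18240881997) (nat_lit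 29) (nat_lit 5) (nat_lit 31) (nat_lit 5) (nat_lit 32) (nat_lit 5) (nat_lit 400) (nat_lit 316) (nat_lit 229))) (XT.nd (nat_lit 94) (nat_lit 0) (nat_lit 0) (XT.lf (nat_lit 0) (nat_lit 6747996025) (nat_lit 252) (nat_lit 14059475738) (nat_lit 84) (nat_lit 1279505533) (nat_lit 29) (nat_lit 5) (nat_lit 32) (nat_lit 5) (nat_lit 30) (nat_lit 5) (nat_lit 401) (nat_lit 316) (nat_lit 228)) (XT.lf (nat_lit 0) (nat_lit 10263981825) (nat_lit 252) (nat_lit 6403823645) (nat_lit 84) (nat_lit 5931719122) (nat_lit 29) (nat_lit 5) (nat_lit 32) (nat_lit 5) (nat_lit 30) (nat_lit 5) (nat_lit 402) (nat_lit 316) (nat_lit 227))))) (XT.nd (nat_lit 282) (nat_lit 420) (nat_lit 0) (XT.nd (nat_lit 94) (nat_lit 0) (nat_lit 0) (XT.lf (nat_lit 0) (nat_lit 1480492765) (nat_lit 168) (nat_lit 12401003777) (nat_lit 252) (nat_lit 9246085829) (nat_lit 27) (nat_lit 5) (nat_lit 29) (nat_lit 5) (nat_lit 30) (nat_lit 5) (nat_lit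 403) (nat_lit 316) (nat_lit 226)) (XT.nd (nat_lit 94) (nat_lit 0) (nat_lit 0) (XT.lf (nat_lit 0) (nat_lit 9703008870) (nat_lit 168) (nat_lit 7951256855) (nat_lit 252) (nat_lit 6015829378) (nat_lit 27) (nat_lit 5) (nat_lit 29) (nat_lit 5) (nat_lit 30) (nat_lit 5) (nat_lit 404) (nat_lit 316) (nat_lit 225)) (XT.lf (nat_lit 0) (nat_lit 18143460748) (nat_lit 168) (nat_lit 3379342639) (nat_lit 252) (nat_lit 2706616922) (nat_lit 27) (nat_lit 5) (nat_lit 29) (nat_lit 5) (nat_lit 30) (nat_lit 5) (nat_lit 405) (nat_lit 316) (nat_lit 224)))) (XT.nd (nat_lit 188) (nat_lit 168) (nat_lit 0) (XT.nd (nat_lit 94) (nat_lit 0) (nat_lit 0) (XT.lf (nat_lit 0) (nat_lit 703597042) (nat_lit 252) (nat_lit 22781863779) (nat_lit 84) (nat_lit 1319413221) (nat_lit 24) (nat_lit 5) (nat_lit 27) (nat_lit 5) (nat_lit 25) (nat_lit 5) (nat_lit 406) (nat_lit 316) (nat_lit 223)) (XT.lf (nat_lit 0) (nat_lit 4240273841) (nat_lit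 252) (nat_lit 14984999651) (nat_lit 84) (nat_lit 6169170655) (nat_lit 24) (nat_lit 5) (nat_lit 27) (nat_lit 5) (nat_lit 25) (nat_lit 5) (nat_lit 407) (nat_lit 316) (nat_lit 222))) (XT.nd (nat_lit 94) (nat_lit 168) (nat_lit 0) (XT.lf (nat_lit 0) (nat_lit 7866578284) (nat_lit 252) (nat_lit 6981794490) (nat_lit 84) (nat_lit 11153835780) (nat_lit 24) (nat_lit 5) (nat_lit 27) (nat_lit 5) (nat_lit 25) (nat_lit 5) (nat_lit 408) (nat_lit 316) (nat_lit 221)) (XT.lf (nat_lit 0) (nat_lit 1259318637) (nat_lit 168) (nat_lit 10338465691) (nat_lit 252) (nat_lit 15030550830) (nat_lit 22) (nat_lit 5) (nat_lit 24) (nat_lit 5) (nat_lit 25) (nat_lit 5) (nat_lit 409) (nat_lit 316) (nat_lit 220))))))))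
noncomputable def xc90 : XT := (XT.nd (nat_lit 2538) (nat_lit 252) (nat_lit 0) (XT.nd (nat_lit 1222) (nat_lit 504) (nat_lit 0) (XT.nd (nat_lit 564) (nat_lit 252) (nat_lit 0) (XT.nd (nat_lit 282) (nat_lit 168) (nat_lit 0) (XT.nd (nat_lit 94) (nat_lit 0) (nat_lit 0) (XT.lf (nat_lit 0) (nat_lit 9864285445) (nat_lit 168) (nat_lit 5631361752) (nat_lit 252) (nat_lit 11775969016) (nat_lit 22) (nat_lit 5) (nat_lit 24) (nat_lit 5) (nat_lit 25) (nat_lit 5) (nat_lit 410) (nat_lit 316) (nat_lit 219)) (XT.nd (nat_lit 94) (nat_lit 0) (nat_lit 0) (XT.lf (nat_lit 0) (nat_lit 18701673434) (nat_lit 168) (nat_lit 793450389) (nat_lit 252) (nat_lit 8439543453) (nat_lit 22) (nat_lit 5) (nat_lit 24) (nat_lit 5) (nat_lit 25) (nat_lit 5) (nat_lit 411) (nat_lit 316) (nat_lit 218)) (XT.lf (nat_lit 0) (nat_lit 23639884764) (nat_lit 252) (nat_lit 879038988) (nat_lit 84) (nat_lit 4097938684) (nat_lit 22) (nat_lit 5)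 (nat_lit 25) (nat_lit 5) (nat_lit 23) (nat_lit 4) (nat_lit 412) (nat_lit 316) (nat_lit 217)))) (XT.nd (nat_lit 94) (nat_lit 84) (nat_lit 0) (XT.lf (nat_lit 0) (nat_lit 7846184728) (nat_lit 84) (nat_lit 20131545218) (nat_lit 168) (nat_lit 1339742494) (nat_lit 21) (nat_lit 5) (nat_lit 22) (nat_lit 5) (nat_lit 23) (nat_lit 4) (nat_lit 413) (nat_lit 316) (nat_lit 216)) (XT.nd (nat_lit 94) (nat_lit 0) (nat_lit 0) (XT.lf (nat_lit 0) (nat_lit 2354112207) (nat_lit 168) (nat_lit 13235530691) (nat_lit 84) (nat_lit 14448940494) (nat_lit 20) (nat_lit 5) (nat_lit 22) (nat_lit 5) (nat_lit 21) (nat_lit 5) (nat_lit 414) (nat_lit 316) (nat_lit 215)) (XT.lf (nat_lit 0) (nat_lit 6117777029) (nat_lit 168) (nat_lit 4789906654) (nat_lit 84) (nat_lit 19873678663) (nat_lit 20) (nat_lit 5) (nat_lit 22) (nat_lit 5) (nat_lit 21) (nat_lit 5) (nat_lit 415) (nat_lit 316) (nat_lit 214))))) (XT.nd (nat_lit 282) (nat_lit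 84) (nat_lit 0) (XT.nd (nat_lit 94) (nat_lit 0) (nat_lit 0) (XT.lf (nat_lit 0) (nat_lit 3963178378) (nat_lit 168) (nat_lit 6055601928) (nat_lit 252) (nat_lit 21526921485) (nat_lit 18) (nat_lit 5) (nat_lit 20) (nat_lit 5) (nat_lit 21) (nat_lit 5) (nat_lit 416) (nat_lit 316) (nat_lit 213)) (XT.nd (nat_lit 94) (nat_lit 0) (nat_lit 0) (XT.lf (nat_lit 0) (nat_lit 13054028621) (nat_lit 168) (nat_lit 1017662597) (nat_lit 252) (nat_lit 18260243561) (nat_lit 18) (nat_lit 5) (nat_lit 20) (nat_lit 5) (nat_lit 21) (nat_lit 5) (nat_lit 417) (nat_lit 316) (nat_lit 212)) (XT.lf (nat_lit 0) (nat_lit 18273100577) (nat_lit 252) (nat_lit 10786907410) (nat_lit 84) (nat_lit 4080948842) (nat_lit 18) (nat_lit 5) (nat_lit 21) (nat_lit 5) (nat_lit 19) (nat_lit 4) (nat_lit 418) (nat_lit 316) (nat_lit 211)))) (XT.nd (nat_lit 188) (nat_lit 0) (nat_lit 0) (XT.nd (nat_lit 94) (nat_lit 84) (nat_lit 0) (XT.lf (nat_lit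 0) (nat_lit 22597825101) (nat_lit 252) (nat_lit 2073253432) (nat_lit 84) (nat_lit 9303261952) (nat_lit 18) (nat_lit 5) (nat_lit 21) (nat_lit 5) (nat_lit 19) (nat_lit 4) (nat_lit 419) (nat_lit 316) (nat_lit 210)) (XT.lf (nat_lit 0) (nat_lit 7017386531) (nat_lit 84) (nat_lit 20089930160) (nat_lit 168) (nat_lit 7723767064) (nat_lit 17) (nat_lit 5) (nat_lit 18) (nat_lit 5) (nat_lit 19) (nat_lit 4) (nat_lit 420) (nat_lit 316) (nat_lit 209))) (XT.nd (nat_lit 94) (nat_lit 0) (nat_lit 0) (XT.lf (nat_lit 0) (nat_lit 16402096628) (nat_lit 84) (nat_lit 15358660861) (nat_lit 168) (nat_lit 3952520507) (nat_lit 17) (nat_lit 5) (nat_lit 18) (nat_lit 5) (nat_lit 19) (nat_lit 4) (nat_lit 421) (nat_lit 316) (nat_lit 208)) (XT.lf (nat_lit 0) (nat_lit 26047815282) (nat_lit 84) (nat_lit 10494072312) (nat_lit 168) (nat_lit 80416244) (nat_lit 17) (nat_lit 5) (nat_lit 18) (nat_lit 5) (nat_lit 19) (nat_lit 4)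 (nat_lit 422) (nat_lit 316) (nat_lit 207)))))) (XT.nd (nat_lit 658) (nat_lit 168) (nat_lit 0) (XT.nd (nat_lit 282) (nat_lit 84) (nat_lit 0) (XT.nd (nat_lit 94) (nat_lit 168) (nat_lit 0) (XT.lf (nat_lit 0) (nat_lit 3819905508) (nat_lit 168) (nat_lit 1633434837) (nat_lit 84) (nat_lit 32104491727) (nat_lit 16) (nat_lit 5) (nat_lit 18) (nat_lit 5) (nat_lit 17) (nat_lit 5) (nat_lit 423) (nat_lit 316) (nat_lit 206)) (XT.nd (nat_lit 94) (nat_lit 0) (nat_lit 0) (XT.lf (nat_lit 0) (nat_lit 7705835299) (nat_lit 168) (nat_lit 192509609) (nat_lit 252) (nat_lit 30621183278) (nat_lit 14) (nat_lit 5) (nat_lit 16) (nat_lit 5) (nat_lit 17) (nat_lit 5) (nat_lit 424) (nat_lit 316) (nat_lit 205)) (XT.lf (nat_lit 0) (nat_lit 12154748660) (nat_lit 252) (nat_lit 22220873616) (nat_lit 84) (nat_lit 5132791998) (nat_lit 14) (nat_lit 5) (nat_lit 17) (nat_lit 5) (nat_lit 15) (nat_lit 4) (nat_lit 425) (nat_lit 316)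 (nat_lit 204)))) (XT.nd (nat_lit 188) (nat_lit 84) (nat_lit 0) (XT.nd (nat_lit 94) (nat_lit 0) (nat_lit 0) (XT.lf (nat_lit 0) (nat_lit 16529795661) (nat_lit 252) (nat_lit 13391263562) (nat_lit 84) (nat_lit 10606186394) (nat_lit 14) (nat_lit 5) (nat_lit 17) (nat_lit 5) (nat_lit 15) (nat_lit 4) (nat_lit 426) (nat_lit 316) (nat_lit 203)) (XT.lf (nat_lit 0) (nat_lit 21025458249) (nat_lit 252) (nat_lit 4315297012) (nat_lit 84) (nat_lit 16236212713) (nat_lit 14) (nat_lit 5) (nat_lit 17) (nat_lit 5) (nat_lit 15) (nat_lit 4) (nat_lit 427) (nat_lit 316) (nat_lit 202))) (XT.nd (nat_lit 94) (nat_lit 0) (nat_lit 0) (XT.lf (nat_lit 0) (nat_lit 5114763955) (nat_lit 84) (nat_lit 20580066956) (nat_lit 168) (nat_lit 16962192678) (nat_lit 13) (nat_lit 5) (nat_lit 14) (nat_lit 5) (nat_lit 15) (nat_lit 4) (nat_lit 428) (nat_lit 316) (nat_lit 201)) (XT.lf (nat_lit 0) (nat_lit 14898370457) (nat_lit 84) (nat_lit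 15639293795) (nat_lit 168) (nat_lit 13230821832) (nat_lit 13) (nat_lit 5) (nat_lit 14) (nat_lit 5) (nat_lit 15) (nat_lit 4) (nat_lit 429) (nat_lit 316) (nat_lit 200))))) (XT.nd (nat_lit 282) (nat_lit 168) (nat_lit 0) (XT.nd (nat_lit 94) (nat_lit 0) (nat_lit 0) (XT.lf (nat_lit 0) (nat_lit 24958188405) (nat_lit 84) (nat_lit 10557694637) (nat_lit 168) (nat_lit 9397712802) (nat_lit 13) (nat_lit 5) (nat_lit 14) (nat_lit 5) (nat_lit 15) (nat_lit 4) (nat_lit 430) (nat_lit 316) (nat_lit 199)) (XT.nd (nat_lit 94) (nat_lit 0) (nat_lit 0) (XT.lf (nat_lit 0) (nat_lit 35303007930) (nat_lit 84) (nat_lit 5330829249) (nat_lit 168) (nat_lit 5459516272) (nat_lit 13) (nat_lit 5) (nat_lit 14) (nat_lit 5) (nat_lit 15) (nat_lit 4) (nat_lit 431) (nat_lit 316) (nat_lit 198)) (XT.lf (nat_lit 0) (nat_lit 45896439591) (nat_lit 168) (nat_lit 1367362494) (nat_lit 0) (nat_lit 44974451) (nat_lit 13) (nat_lit 5) (nat_lit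 15) (nat_lit 4) (nat_lit 13) (nat_lit 4) (nat_lit 432) (nat_lit 316) (nat_lit 197)))) (XT.nd (nat_lit 188) (nat_lit 0) (nat_lit 0) (XT.nd (nat_lit 94) (nat_lit 0) (nat_lit 0) (XT.lf (nat_lit 0) (nat_lit 2828431776) (nat_lit 168) (nat_lit 40150589002) (nat_lit 84) (nat_lit 5577073621) (nat_lit 11) (nat_lit 5) (nat_lit 13) (nat_lit 5) (nat_lit 12) (nat_lit 4) (nat_lit 433) (nat_lit 316) (nat_lit 196)) (XT.lf (nat_lit 0) (nat_lit 7172875084) (nat_lit 168) (nat_lit 31371019932) (nat_lit 84) (nat_lit 11296377659) (nat_lit 11) (nat_lit 5) (nat_lit 13) (nat_lit 5) (nat_lit 12) (nat_lit 4) (nat_lit 434) (nat_lit 316) (nat_lit 195))) (XT.nd (nat_lit 94) (nat_lit 0) (nat_lit 0) (XT.lf (nat_lit 0) (nat_lit 11638810630) (nat_lit 168) (nat_lit 22343666738) (nat_lit 84) (nat_lit 17180769525) (nat_lit 11) (nat_lit 5) (nat_lit 13) (nat_lit 5) (nat_lit 12) (nat_lit 4) (nat_lit 435) (nat_lit 316) (nat_lit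 194)) (XT.lf (nat_lit 0) (nat_lit 16230140689) (nat_lit 168) (nat_lit 13060641442) (nat_lit 84) (nat_lit 23235390922) (nat_lit 11) (nat_lit 5) (nat_lit 13) (nat_lit 5) (nat_lit 12) (nat_lit 4) (nat_lit 436) (nat_lit 316) (nat_lit 193))))))) (XT.nd (nat_lit 48128) (nat_lit 0) (nat_lit 20580) (XT.nd (nat_lit 658) (nat_lit 168) (nat_lit 0) (XT.nd (nat_lit 282) (nat_lit 0) (nat_lit 0) (XT.nd (nat_lit 94) (nat_lit 84) (nat_lit 0) (XT.lf (nat_lit 0) (nat_lit 20950877102) (nat_lit 168) (nat_lit 3513832663) (nat_lit 84) (nat_lit 29465532294) (nat_lit 11) (nat_lit 5) (nat_lit 13) (nat_lit 5) (nat_lit 12) (nat_lit 4) (nat_lit 437) (nat_lit 316) (nat_lit 192)) (XT.nd (nat_lit 94) (nat_lit 0) (nat_lit 0) (XT.lf (nat_lit 0) (nat_lit 6430585353) (nat_lit 84) (nat_lit 19436374151) (nat_lit 168) (nat_lit 29507866822) (nat_lit 10) (nat_lit 5) (nat_lit 11) (nat_lit 5) (nat_lit 12) (nat_lit 4) (nat_lit 438)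 (nat_lit 316) (nat_lit 191)) (XT.lf (nat_lit 0) (nat_lit 16731227116) (nat_lit 84) (nat_lit 14226789004) (nat_lit 168) (nat_lit 25903912015) (nat_lit 10) (nat_lit 5) (nat_lit 11) (nat_lit 5) (nat_lit 12) (nat_lit 4) (nat_lit 439) (nat_lit 316) (nat_lit 190)))) (XT.nd (nat_lit 188) (nat_lit 0) (nat_lit 0) (XT.nd (nat_lit 94) (nat_lit 0) (nat_lit 0) (XT.lf (nat_lit 0) (nat_lit 27327161027) (nat_lit 84) (nat_lit 8866885077) (nat_lit 168) (nat_lit 22199834269) (nat_lit 10) (nat_lit 5) (nat_lit 11) (nat_lit 5) (nat_lit 12) (nat_lit 4) (nat_lit 440) (nat_lit 316) (nat_lit 189)) (XT.lf (nat_lit 0) (nat_lit 38227645668) (nat_lit 84) (nat_lit 3351978961) (nat_lit 168) (nat_lit 18392397013) (nat_lit 10) (nat_lit 5) (nat_lit 11) (nat_lit 5) (nat_lit 12) (nat_lit 4) (nat_lit 441) (nat_lit 316) (nat_lit 188))) (XT.nd (nat_lit 94) (nat_lit 0) (nat_lit 0) (XT.lf (nat_lit 0) (nat_lit 47141785217) (nat_lit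 168) (nat_lit 12177852841) (nat_lit 0) (nat_lit 2277423010) (nat_lit 10) (nat_lit 5) (nat_lit 12) (nat_lit 4) (nat_lit 10) (nat_lit 4) (nat_lit 442) (nat_lit 316) (nat_lit 187)) (XT.lf (nat_lit 0) (nat_lit 52896846056) (nat_lit 168) (nat_lit 2370248897) (nat_lit 0) (nat_lit 8002979897) (nat_lit 10) (nat_lit 5) (nat_lit 12) (nat_lit 4) (nat_lit 10) (nat_lit 4) (nat_lit 443) (nat_lit 316) (nat_lit 186))))) (XT.nd (nat_lit 282) (nat_lit 0) (nat_lit 0) (XT.nd (nat_lit 94) (nat_lit 84) (nat_lit 0) (XT.lf (nat_lit 0) (nat_lit 7872854631) (nat_lit 84) (nat_lit 51020438629) (nat_lit 84) (nat_lit 6097927857) (nat_lit 9) (nat_lit 4) (nat_lit 10) (nat_lit 5) (nat_lit 10) (nat_lit 4) (nat_lit 444) (nat_lit 316) (nat_lit 185)) (XT.nd (nat_lit 94) (nat_lit 84) (nat_lit 0) (XT.lf (nat_lit 0) (nat_lit 18459603902) (nat_lit 84) (nat_lit 46627105339) (nat_lit 84) (nat_lit 1676784263) (nat_lit 9) (nat_lit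 4) (nat_lit 10) (nat_lit 5) (nat_lit 10) (nat_lit 4) (nat_lit 445) (nat_lit 316) (nat_lit 184)) (XT.lf (nat_lit 0) (nat_lit 2814123677) (nat_lit 168) (nat_lit 39264650306) (nat_lit 84) (nat_lit 26509536061) (nat_lit 8) (nat_lit 5) (nat_lit 10) (nat_lit 5) (nat_lit 9) (nat_lit 4) (nat_lit 446) (nat_lit 316) (nat_lit 183)))) (XT.nd (nat_lit 188) (nat_lit 0) (nat_lit 0) (XT.nd (nat_lit 94) (nat_lit 0) (nat_lit 0) (XT.lf (nat_lit 0) (nat_lit 7399523703) (nat_lit 168) (nat_lit 29982502133) (nat_lit 84) (nat_lit 33085546846) (nat_lit 8) (nat_lit 5) (nat_lit 10) (nat_lit 5) (nat_lit 9) (nat_lit 4) (nat_lit 447) (nat_lit 316) (nat_lit 182)) (XT.lf (nat_lit 0) (nat_lit 12116142574) (nat_lit 168) (nat_lit 20433216191) (nat_lit 84) (nat_lit 39854048273) (nat_lit 8) (nat_lit 5) (nat_lit 10) (nat_lit 5) (nat_lit 9) (nat_lit 4) (nat_lit 448) (nat_lit 316) (nat_lit 181))) (XT.nd (nat_lit 46906) (nat_lit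 0) (nat_lit 23184) (XT.lf (nat_lit 0) (nat_lit 16968101610) (nat_lit 168) (nat_lit 10608448445) (nat_lit 84) (nat_lit 46820954566) (nat_lit 8) (nat_lit 5) (nat_lit 10) (nat_lit 5) (nat_lit 9) (nat_lit 4) (nat_lit 449) (nat_lit 316) (nat_lit 180)) (XT.lf (nat_lit 0) (nat_lit 2298222916) (nat_lit 252) (nat_lit 465874284) (nat_lit 252) (nat_lit 465874284) (nat_lit 284) (nat_lit 3) (nat_lit 287) (nat_lit 3) (nat_lit 287) (nat_lit 5) (nat_lit 317) (nat_lit 317) (nat_lit 311)))))) (XT.nd (nat_lit 658) (nat_lit 1596) (nat_lit 0) (XT.nd (nat_lit 282) (nat_lit 756) (nat_lit 0) (XT.nd (nat_lit 94) (nat_lit 0) (nat_lit 0) (XT.lf (nat_lit 0) (nat_lit 767771785) (nat_lit 252) (nat_lit 4483066417) (nat_lit 336) (nat_lit 1219515419) (nat_lit 281) (nat_lit 5) (nat_lit 284) (nat_lit 3) (nat_lit 285) (nat_lit 5) (nat_lit 318) (nat_lit 317) (nat_lit 310)) (XT.nd (nat_lit 94) (nat_lit 0) (nat_lit 0) (XT.lf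 (nat_lit 0) (nat_lit 3347927746) (nat_lit 252) (nat_lit 1541537081) (nat_lit 336) (nat_lit 1594162596) (nat_lit 281) (nat_lit 5) (nat_lit 284) (nat_lit 3) (nat_lit 285) (nat_lit 5) (nat_lit 319) (nat_lit 317) (nat_lit 309)) (XT.lf (nat_lit 84) (nat_lit 1463204989) (nat_lit 0) (nat_lit 4457223792) (nat_lit 336) (nat_lit 579739384) (nat_lit 282) (nat_lit 5) (nat_lit 281) (nat_lit 5) (nat_lit 285) (nat_lit 5) (nat_lit 320) (nat_lit 317) (nat_lit 308)))) (XT.nd (nat_lit 188) (nat_lit 420) (nat_lit 0) (XT.nd (nat_lit 94) (nat_lit 0) (nat_lit 0) (XT.lf (nat_lit 0) (nat_lit 1930553532) (nat_lit 336) (nat_lit 2002246144) (nat_lit 420) (nat_lit 2586580786) (nat_lit 277) (nat_lit 5) (nat_lit 281) (nat_lit 5) (nat_lit 282) (nat_lit 5) (nat_lit 321) (nat_lit 317) (nat_lit 307)) (XT.lf (nat_lit 84) (nat_lit 1085251036) (nat_lit 0) (nat_lit 3334531348) (nat_lit 420) (nat_lit 2122046208) (nat_lit 278)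 (nat_lit 5) (nat_lit 277) (nat_lit 5) (nat_lit 282) (nat_lit 5) (nat_lit 322) (nat_lit 317) (nat_lit 306))) (XT.nd (nat_lit 94) (nat_lit 0) (nat_lit 0) (XT.lf (nat_lit 0) (nat_lit 336897526) (nat_lit 420) (nat_lit 2317469740) (nat_lit 504) (nat_lit 3912945618) (nat_lit 272) (nat_lit 5) (nat_lit 277) (nat_lit 5) (nat_lit 278) (nat_lit 5) (nat_lit 323) (nat_lit 317) (nat_lit 305)) (XT.lf (nat_lit 84) (nat_lit 857833576) (nat_lit 0) (nat_lit 1886023154) (nat_lit 504) (nat_lit 3851833148) (nat_lit 273) (nat_lit 5) (nat_lit 272) (nat_lit 5) (nat_lit 278) (nat_lit 5) (nat_lit 324) (nat_lit 317) (nat_lit 304))))) (XT.nd (nat_lit 282) (nat_lit 1092) (nat_lit 0) (XT.nd (nat_lit 94) (nat_lit 504) (nat_lit 0) (XT.lf (nat_lit 84) (nat_lit 4122721590) (nat_lit 0) (nat_lit 1034506602) (nat_lit 504) (nat_lit 1469921587) (nat_lit 273) (nat_lit 5) (nat_lit 272) (nat_lit 5) (nat_lit 278) (nat_lit 5) (nat_lit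 325) (nat_lit 317) (nat_lit 303)) (XT.nd (nat_lit 94) (nat_lit 0) (nat_lit 84) (XT.lf (nat_lit 84) (nat_lit 778113373) (nat_lit 0) (nat_lit 105919901) (nat_lit 588) (nat_lit 5777886206) (nat_lit 267) (nat_lit 5) (nat_lit 266) (nat_lit 5) (nat_lit 273) (nat_lit 5) (nat_lit 326) (nat_lit 317) (nat_lit 302)) (XT.lf (nat_lit 0) (nat_lit 3227432758) (nat_lit 504) (nat_lit 2565696554) (nat_lit 84) (nat_lit 905951084) (nat_lit 267) (nat_lit 5) (nat_lit 273) (nat_lit 5) (nat_lit 268) (nat_lit 5) (nat_lit 327) (nat_lit 317) (nat_lit 301)))) (XT.nd (nat_lit 188) (nat_lit 588) (nat_lit 0) (XT.nd (nat_lit 94) (nat_lit 84) (nat_lit 0) (XT.lf (nat_lit 0) (nat_lit 812180759) (nat_lit 504) (nat_lit 4754949138) (nat_lit 588) (nat_lit 1172675334) (nat_lit 261) (nat_lit 5) (nat_lit 267) (nat_lit 5) (nat_lit 268) (nat_lit 5) (nat_lit 328) (nat_lit 317) (nat_lit 300)) (XT.lf (nat_lit 0) (nat_lit 1116121329)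 (nat_lit 588) (nat_lit 2504619881) (nat_lit 84) (nat_lit 3162556357) (nat_lit 260) (nat_lit 5) (nat_lit 267) (nat_lit 5) (nat_lit 261) (nat_lit 5) (nat_lit 329) (nat_lit 317) (nat_lit 299))) (XT.nd (nat_lit 94) (nat_lit 0) (nat_lit 0) (XT.lf (nat_lit 0) (nat_lit 974214604) (nat_lit 588) (nat_lit 2405564475) (nat_lit 672) (nat_lit 3450283804) (nat_lit 253) (nat_lit 5) (nat_lit 260) (nat_lit 5) (nat_lit 261) (nat_lit 5) (nat_lit 330) (nat_lit 317) (nat_lit 298)) (XT.lf (nat_lit 0) (nat_lit 4555028308) (nat_lit 588) (nat_lit 1103813977) (nat_lit 672) (nat_lit 1221167432) (nat_lit 253) (nat_lit 5) (nat_lit 260) (nat_lit 5) (nat_lit 261) (nat_lit 5) (nat_lit 331) (nat_lit 317) (nat_lit 297))))))))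
noncomputable def xc91 : XT := (XT.nd (nat_lit 2632) (nat_lit 5208) (nat_lit 0) (XT.nd (nat_lit 1316) (nat_lit 4116) (nat_lit 0) (XT.nd (nat_lit 658) (nat_lit 4704) (nat_lit 0) (XT.nd (nat_lit 282) (nat_lit 1848) (nat_lit 0) (XT.nd (nat_lit 94) (nat_lit 756) (nat_lit 0) (XT.lf (nat_lit 0) (nat_lit 992327251) (nat_lit 756) (nat_lit 5663550145) (nat_lit 84) (nat_lit 277305004) (nat_lit 244) (nat_lit 5) (nat_lit 253) (nat_lit 5) (nat_lit 245) (nat_lit 5) (nat_lit 332) (nat_lit 317) (nat_lit 296)) (XT.nd (nat_lit 94) (nat_lit 756) (nat_lit 0) (XT.lf (nat_lit 0) (nat_lit 3207770278) (nat_lit 756) (nat_lit 2046737159) (nat_lit 84) (nat_lit 1734463637) (nat_lit 244) (nat_lit 5) (nat_lit 253) (nat_lit 5) (nat_lit 245) (nat_lit 5) (nat_lit 333) (nat_lit 317) (nat_lit 295)) (XT.lf (nat_lit 0) (nat_lit 1656552781) (nat_lit 756) (nat_lit 3776667712) (nat_lit 840) (nat_lit 1615087344) (nat_lit 235)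 (nat_lit 5) (nat_lit 244) (nat_lit 5) (nat_lit 245) (nat_lit 5) (nat_lit 334) (nat_lit 317) (nat_lit 294)))) (XT.nd (nat_lit 188) (nat_lit 924) (nat_lit 0) (XT.nd (nat_lit 94) (nat_lit 840) (nat_lit 0) (XT.lf (nat_lit 0) (nat_lit 553199576) (nat_lit 840) (nat_lit 1657449691) (nat_lit 84) (nat_lit 4900291843) (nat_lit 234) (nat_lit 5) (nat_lit 244) (nat_lit 5) (nat_lit 235) (nat_lit 5) (nat_lit 335) (nat_lit 317) (nat_lit 293)) (XT.lf (nat_lit 0) (nat_lit 2161265555) (nat_lit 840) (nat_lit 544008504) (nat_lit 924) (nat_lit 4471328981) (nat_lit 224) (nat_lit 5) (nat_lit 234) (nat_lit 5) (nat_lit 235) (nat_lit 5) (nat_lit 336) (nat_lit 317) (nat_lit 292))) (XT.nd (nat_lit 94) (nat_lit 924) (nat_lit 0) (XT.lf (nat_lit 0) (nat_lit 4882167209) (nat_lit 924) (nat_lit 1182271576) (nat_lit 84) (nat_lit 1181148942) (nat_lit 224) (nat_lit 5) (nat_lit 235) (nat_lit 5) (nat_lit 225) (nat_lit 5) (nat_lit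 337) (nat_lit 317) (nat_lit 291)) (XT.lf (nat_lit 0) (nat_lit 2760263305) (nat_lit 924) (nat_lit 4330083286) (nat_lit 1008) (nat_lit 227471891) (nat_lit 213) (nat_lit 5) (nat_lit 224) (nat_lit 5) (nat_lit 225) (nat_lit 5) (nat_lit 338) (nat_lit 317) (nat_lit 290))))) (XT.nd (nat_lit 282) (nat_lit 2520) (nat_lit 0) (XT.nd (nat_lit 94) (nat_lit 2100) (nat_lit 0) (XT.lf (nat_lit 0) (nat_lit 1880799479) (nat_lit 1008) (nat_lit 620545004) (nat_lit 84) (nat_lit 4892047719) (nat_lit 212) (nat_lit 5) (nat_lit 224) (nat_lit 5) (nat_lit 213) (nat_lit 5) (nat_lit 339) (nat_lit 317) (nat_lit 289)) (XT.nd (nat_lit 94) (nat_lit 1092) (nat_lit 0) (XT.lf (nat_lit 0) (nat_lit 3446254610) (nat_lit 1008) (nat_lit 571201591) (nat_lit 1092) (nat_lit 3454760774) (nat_lit 200) (nat_lit 5) (nat_lit 212) (nat_lit 5) (nat_lit 213) (nat_lit 5) (nat_lit 340) (nat_lit 317) (nat_lit 288)) (XT.lf (nat_lit 0) (nat_lit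 26511057) (nat_lit 1092) (nat_lit 6149914873) (nat_lit 1176) (nat_lit 1378372689) (nat_lit 187) (nat_lit 5) (nat_lit 200) (nat_lit 5) (nat_lit 201) (nat_lit 5) (nat_lit 341) (nat_lit 317) (nat_lit 287)))) (XT.nd (nat_lit 188) (nat_lit 1260) (nat_lit 0) (XT.nd (nat_lit 94) (nat_lit 1176) (nat_lit 0) (XT.lf (nat_lit 0) (nat_lit 730743744) (nat_lit 1176) (nat_lit 3424617797) (nat_lit 84) (nat_lit 3484849297) (nat_lit 186) (nat_lit 5) (nat_lit 200) (nat_lit 5) (nat_lit 187) (nat_lit 5) (nat_lit 342) (nat_lit 317) (nat_lit 286)) (XT.lf (nat_lit 0) (nat_lit 749053712) (nat_lit 1176) (nat_lit 2073926616) (nat_lit 1260) (nat_lit 4906495931) (nat_lit 172) (nat_lit 5) (nat_lit 186) (nat_lit 5) (nat_lit 187) (nat_lit 5) (nat_lit 343) (nat_lit 317) (nat_lit 285))) (XT.nd (nat_lit 94) (nat_lit 1260) (nat_lit 0) (XT.lf (nat_lit 0) (nat_lit 4955200513) (nat_lit 1260) (nat_lit 2758730774) (nat_lit 84)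 (nat_lit 108294940) (nat_lit 172) (nat_lit 5) (nat_lit 187) (nat_lit 5) (nat_lit 173) (nat_lit 5) (nat_lit 344) (nat_lit 317) (nat_lit 284)) (XT.lf (nat_lit 0) (nat_lit 1545378926) (nat_lit 1260) (nat_lit 5584717593) (nat_lit 1344) (nat_lit 788420393) (nat_lit 157) (nat_lit 5) (nat_lit 172) (nat_lit 5) (nat_lit 173) (nat_lit 5) (nat_lit 345) (nat_lit 317) (nat_lit 283)))))) (XT.nd (nat_lit 658) (nat_lit 1596) (nat_lit 0) (XT.nd (nat_lit 282) (nat_lit 1848) (nat_lit 0) (XT.nd (nat_lit 94) (nat_lit 588) (nat_lit 0) (XT.lf (nat_lit 0) (nat_lit 1298078446) (nat_lit 1344) (nat_lit 2049532729) (nat_lit 84) (nat_lit 4670649882) (nat_lit 156) (nat_lit 5) (nat_lit 172) (nat_lit 5) (nat_lit 157) (nat_lit 5) (nat_lit 346) (nat_lit 317) (nat_lit 282)) (XT.nd (nat_lit 94) (nat_lit 0) (nat_lit 0) (XT.lf (nat_lit 0) (nat_lit 2389635969) (nat_lit 588) (nat_lit 1010092255) (nat_lit 672) (nat_lit 4722092398)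 (nat_lit 149) (nat_lit 5) (nat_lit 156) (nat_lit 5) (nat_lit 157) (nat_lit 5) (nat_lit 347) (nat_lit 317) (nat_lit 281)) (XT.lf (nat_lit 0) (nat_lit 5545289719) (nat_lit 672) (nat_lit 1291682255) (nat_lit 84) (nat_lit 1392195302) (nat_lit 149) (nat_lit 5) (nat_lit 157) (nat_lit 5) (nat_lit 150) (nat_lit 5) (nat_lit 348) (nat_lit 317) (nat_lit 280)))) (XT.nd (nat_lit 188) (nat_lit 1176) (nat_lit 0) (XT.nd (nat_lit 94) (nat_lit 84) (nat_lit 0) (XT.lf (nat_lit 0) (nat_lit 3283515013) (nat_lit 588) (nat_lit 4461351502) (nat_lit 672) (nat_lit 595281438) (nat_lit 142) (nat_lit 5) (nat_lit 149) (nat_lit 5) (nat_lit 150) (nat_lit 5) (nat_lit 349) (nat_lit 317) (nat_lit 279)) (XT.lf (nat_lit 0) (nat_lit 1487276312) (nat_lit 672) (nat_lit 499905545) (nat_lit 84) (nat_lit 6468074652) (nat_lit 141) (nat_lit 5) (nat_lit 149) (nat_lit 5) (nat_lit 142) (nat_lit 5) (nat_lit 350) (nat_lit 317) (nat_lit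 278))) (XT.nd (nat_lit 94) (nat_lit 588) (nat_lit 0) (XT.lf (nat_lit 0) (nat_lit 3616727763) (nat_lit 672) (nat_lit 4361564018) (nat_lit 84) (nat_lit 595552609) (nat_lit 134) (nat_lit 5) (nat_lit 142) (nat_lit 5) (nat_lit 135) (nat_lit 5) (nat_lit 351) (nat_lit 317) (nat_lit 277)) (XT.lf (nat_lit 0) (nat_lit 313956481) (nat_lit 588) (nat_lit 5474835949) (nat_lit 672) (nat_lit 2907927168) (nat_lit 127) (nat_lit 5) (nat_lit 134) (nat_lit 5) (nat_lit 135) (nat_lit 5) (nat_lit 352) (nat_lit 317) (nat_lit 276))))) (XT.nd (nat_lit 282) (nat_lit 1008) (nat_lit 0) (XT.nd (nat_lit 94) (nat_lit 588) (nat_lit 0) (XT.lf (nat_lit 0) (nat_lit 5166981043) (nat_lit 588) (nat_lit 2854947346) (nat_lit 672) (nat_lit 801564308) (nat_lit 127) (nat_lit 5) (nat_lit 134) (nat_lit 5) (nat_lit 135) (nat_lit 5) (nat_lit 353) (nat_lit 317) (nat_lit 275)) (XT.nd (nat_lit 94) (nat_lit 0) (nat_lit 0) (XT.lf (nat_lit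 0) (nat_lit 1169524428) (nat_lit 504) (nat_lit 135733522) (nat_lit 588) (nat_lit 7649581463) (nat_lit 120) (nat_lit 5) (nat_lit 126) (nat_lit 5) (nat_lit 127) (nat_lit 5) (nat_lit 354) (nat_lit 317) (nat_lit 274)) (XT.lf (nat_lit 0) (nat_lit 3475641614) (nat_lit 588) (nat_lit 2960237634) (nat_lit 84) (nat_lit 2653596544) (nat_lit 120) (nat_lit 5) (nat_lit 127) (nat_lit 5) (nat_lit 121) (nat_lit 5) (nat_lit 355) (nat_lit 317) (nat_lit 273)))) (XT.nd (nat_lit 188) (nat_lit 504) (nat_lit 0) (XT.nd (nat_lit 94) (nat_lit 0) (nat_lit 0) (XT.lf (nat_lit 0) (nat_lit 1996136566) (nat_lit 504) (nat_lit 3690444872) (nat_lit 588) (nat_lit 3542385483) (nat_lit 114) (nat_lit 5) (nat_lit 120) (nat_lit 5) (nat_lit 121) (nat_lit 5) (nat_lit 356) (nat_lit 317) (nat_lit 272)) (XT.lf (nat_lit 0) (nat_lit 7111321192) (nat_lit 504) (nat_lit 838160713) (nat_lit 588) (nat_lit 1423668604) (nat_lit 114) (nat_lit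 5) (nat_lit 120) (nat_lit 5) (nat_lit 121) (nat_lit 5) (nat_lit 357) (nat_lit 317) (nat_lit 271))) (XT.nd (nat_lit 94) (nat_lit 0) (nat_lit 0) (XT.lf (nat_lit 0) (nat_lit 748262267) (nat_lit 504) (nat_lit 6685730898) (nat_lit 84) (nat_lit 2087386298) (nat_lit 108) (nat_lit 5) (nat_lit 114) (nat_lit 5) (nat_lit 109) (nat_lit 5) (nat_lit 358) (nat_lit 317) (nat_lit 270)) (XT.lf (nat_lit 0) (nat_lit 2945356056) (nat_lit 504) (nat_lit 1614396189) (nat_lit 84) (nat_lit 5114291779) (nat_lit 108) (nat_lit 5) (nat_lit 114) (nat_lit 5) (nat_lit 109) (nat_lit 5) (nat_lit 359) (nat_lit 317) (nat_lit 269))))))) (XT.nd (nat_lit 1316) (nat_lit 1848) (nat_lit 0) (XT.nd (nat_lit 658) (nat_lit 1596) (nat_lit 0) (XT.nd (nat_lit 282) (nat_lit 840) (nat_lit 0) (XT.nd (nat_lit 94) (nat_lit 420) (nat_lit 0) (XT.lf (nat_lit 0) (nat_lit 3630582868) (nat_lit 504) (nat_lit 1571178706) (nat_lit 588) (nat_lit 4629793125)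 (nat_lit 102) (nat_lit 5) (nat_lit 108) (nat_lit 5) (nat_lit 109) (nat_lit 5) (nat_lit 360) (nat_lit 317) (nat_lit 268)) (XT.nd (nat_lit 94) (nat_lit 420) (nat_lit 0) (XT.lf (nat_lit 0) (nat_lit 7515970417) (nat_lit 588) (nat_lit 992013783) (nat_lit 84) (nat_lit 1486169322) (nat_lit 102) (nat_lit 5) (nat_lit 109) (nat_lit 5) (nat_lit 103) (nat_lit 5) (nat_lit 361) (nat_lit 317) (nat_lit 267)) (XT.lf (nat_lit 0) (nat_lit 4394804691) (nat_lit 420) (nat_lit 5522952908) (nat_lit 504) (nat_lit 243392381) (nat_lit 97) (nat_lit 5) (nat_lit 102) (nat_lit 5) (nat_lit 103) (nat_lit 5) (nat_lit 362) (nat_lit 317) (nat_lit 266)))) (XT.nd (nat_lit 188) (nat_lit 336) (nat_lit 0) (XT.nd (nat_lit 94) (nat_lit 420) (nat_lit 0) (XT.lf (nat_lit 0) (nat_lit 1988986607) (nat_lit 504) (nat_lit 438157724) (nat_lit 84) (nat_lit 7906357573) (nat_lit 96) (nat_lit 5) (nat_lit 102) (nat_lit 5) (nat_lit 97) (nat_lit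 5) (nat_lit 363) (nat_lit 317) (nat_lit 265)) (XT.lf (nat_lit 0) (nat_lit 4301947281) (nat_lit 504) (nat_lit 5419006696) (nat_lit 84) (nat_lit 789501830) (nat_lit 91) (nat_lit 5) (nat_lit 97) (nat_lit 5) (nat_lit 92) (nat_lit 5) (nat_lit 364) (nat_lit 317) (nat_lit 264))) (XT.nd (nat_lit 94) (nat_lit 0) (nat_lit 0) (XT.lf (nat_lit 0) (nat_lit 31704410) (nat_lit 336) (nat_lit 6643710310) (nat_lit 420) (nat_lit 4017627139) (nat_lit 87) (nat_lit 5) (nat_lit 91) (nat_lit 5) (nat_lit 92) (nat_lit 5) (nat_lit 365) (nat_lit 317) (nat_lit 263)) (XT.lf (nat_lit 0) (nat_lit 5709313841) (nat_lit 336) (nat_lit 3428446459) (nat_lit 420) (nat_lit 1742870378) (nat_lit 87) (nat_lit 5) (nat_lit 91) (nat_lit 5) (nat_lit 92) (nat_lit 5) (nat_lit 366) (nat_lit 317) (nat_lit 262))))) (XT.nd (nat_lit 282) (nat_lit 756) (nat_lit 0) (XT.nd (nat_lit 94) (nat_lit 336) (nat_lit 0) (XT.lf (nat_lit 0) (nat_lit 439110205)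 (nat_lit 420) (nat_lit 117152152) (nat_lit 504) (nat_lit 10518428649) (nat_lit 81) (nat_lit 5) (nat_lit 86) (nat_lit 5) (nat_lit 87) (nat_lit 5) (nat_lit 367) (nat_lit 317) (nat_lit 261)) (XT.nd (nat_lit 94) (nat_lit 336) (nat_lit 0) (XT.lf (nat_lit 0) (nat_lit 2937865019) (nat_lit 504) (nat_lit 5046233204) (nat_lit 84) (nat_lit 3288552166) (nat_lit 81) (nat_lit 5) (nat_lit 87) (nat_lit 5) (nat_lit 82) (nat_lit 5) (nat_lit 368) (nat_lit 317) (nat_lit 260)) (XT.lf (nat_lit 0) (nat_lit 676573676) (nat_lit 336) (nat_lit 4687180178) (nat_lit 420) (nat_lit 6113658787) (nat_lit 77) (nat_lit 5) (nat_lit 81) (nat_lit 5) (nat_lit 82) (nat_lit 5) (nat_lit 369) (nat_lit 317) (nat_lit 259)))) (XT.nd (nat_lit 188) (nat_lit 420) (nat_lit 0) (XT.nd (nat_lit 94) (nat_lit 336) (nat_lit 0) (XT.lf (nat_lit 0) (nat_lit 6628697549) (nat_lit 336) (nat_lit 1250427377) (nat_lit 420) (nat_lit 3808739463) (nat_lit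 77) (nat_lit 5) (nat_lit 81) (nat_lit 5) (nat_lit 82) (nat_lit 5) (nat_lit 370) (nat_lit 317) (nat_lit 258)) (XT.lf (nat_lit 0) (nat_lit 803005675) (nat_lit 336) (nat_lit 9663316076) (nat_lit 420) (nat_lit 1438463404) (nat_lit 73) (nat_lit 5) (nat_lit 77) (nat_lit 5) (nat_lit 78) (nat_lit 5) (nat_lit 371) (nat_lit 317) (nat_lit 257))) (XT.nd (nat_lit 94) (nat_lit 336) (nat_lit 0) (XT.lf (nat_lit 0) (nat_lit 1014132851) (nat_lit 420) (nat_lit 5250127587) (nat_lit 84) (nat_lit 5862784150) (nat_lit 72) (nat_lit 5) (nat_lit 77) (nat_lit 5) (nat_lit 73) (nat_lit 5) (nat_lit 372) (nat_lit 317) (nat_lit 256)) (XT.lf (nat_lit 0) (nat_lit 732790230) (nat_lit 336) (nat_lit 2753424407) (nat_lit 420) (nat_lit 8870127787) (nat_lit 68) (nat_lit 5) (nat_lit 72) (nat_lit 5) (nat_lit 73) (nat_lit 5) (nat_lit 373) (nat_lit 317) (nat_lit 255)))))) (XT.nd (nat_lit 658) (nat_lit 840) (nat_lit 0) (XT.nd (nat_lit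 282) (nat_lit 672) (nat_lit 0) (XT.nd (nat_lit 94) (nat_lit 336) (nat_lit 0) (XT.lf (nat_lit 0) (nat_lit 6062467516) (nat_lit 420) (nat_lit 5641710034) (nat_lit 84) (nat_lit 887482614) (nat_lit 68) (nat_lit 5) (nat_lit 73) (nat_lit 5) (nat_lit 69) (nat_lit 5) (nat_lit 374) (nat_lit 317) (nat_lit 254)) (XT.nd (nat_lit 94) (nat_lit 0) (nat_lit 0) (XT.lf (nat_lit 0) (nat_lit 457781738) (nat_lit 336) (nat_lit 8258989884) (nat_lit 420) (nat_lit 4117282935) (nat_lit 64) (nat_lit 5) (nat_lit 68) (nat_lit 5) (nat_lit 69) (nat_lit 5) (nat_lit 375) (nat_lit 317) (nat_lit 253)) (XT.lf (nat_lit 0) (nat_lit 6812857038) (nat_lit 336) (nat_lit 4664405683) (nat_lit 420) (nat_lit 1605700186) (nat_lit 64) (nat_lit 5) (nat_lit 68) (nat_lit 5) (nat_lit 69) (nat_lit 5) (nat_lit 376) (nat_lit 317) (nat_lit 252)))) (XT.nd (nat_lit 188) (nat_lit 336) (nat_lit 0) (XT.nd (nat_lit 94) (nat_lit 252) (nat_lit 0) (XT.lf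 (nat_lit 0) (nat_lit 932226832) (nat_lit 420) (nat_lit 32613761) (nat_lit 84) (nat_lit 12375147257) (nat_lit 63) (nat_lit 5) (nat_lit 68) (nat_lit 5) (nat_lit 64) (nat_lit 5) (nat_lit 377) (nat_lit 317) (nat_lit 251)) (XT.lf (nat_lit 0) (nat_lit 3575149097) (nat_lit 336) (nat_lit 7170307893) (nat_lit 84) (nat_lit 2856991264) (nat_lit 60) (nat_lit 5) (nat_lit 64) (nat_lit 5) (nat_lit 61) (nat_lit 5) (nat_lit 378) (nat_lit 317) (nat_lit 250))) (XT.nd (nat_lit 94) (nat_lit 336) (nat_lit 0) (XT.lf (nat_lit 0) (nat_lit 6278592600) (nat_lit 336) (nat_lit 832383895) (nat_lit 84) (nat_lit 6762403496) (nat_lit 60) (nat_lit 5) (nat_lit 64) (nat_lit 5) (nat_lit 61) (nat_lit 5) (nat_lit 379) (nat_lit 317) (nat_lit 249)) (XT.lf (nat_lit 0) (nat_lit 5767879610) (nat_lit 336) (nat_lit 3322886805) (nat_lit 420) (nat_lit 5060877979) (nat_lit 56) (nat_lit 5) (nat_lit 60) (nat_lit 5) (nat_lit 61) (nat_lit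 5) (nat_lit 380) (nat_lit 317) (nat_lit 248))))) (XT.nd (nat_lit 282) (nat_lit 504) (nat_lit 0) (XT.nd (nat_lit 94) (nat_lit 336) (nat_lit 0) (XT.lf (nat_lit 0) (nat_lit 11973846326) (nat_lit 420) (nat_lit 1901126172) (nat_lit 84) (nat_lit 563720550) (nat_lit 56) (nat_lit 5) (nat_lit 61) (nat_lit 5) (nat_lit 57) (nat_lit 5) (nat_lit 381) (nat_lit 317) (nat_lit 247)) (XT.nd (nat_lit 94) (nat_lit 0) (nat_lit 0) (XT.lf (nat_lit 0) (nat_lit 257775518) (nat_lit 336) (nat_lit 9938143672) (nat_lit 84) (nat_lit 4536820670) (nat_lit 52) (nat_lit 5) (nat_lit 56) (nat_lit 5) (nat_lit 53) (nat_lit 5) (nat_lit 382) (nat_lit 317) (nat_lit 246)) (XT.lf (nat_lit 0) (nat_lit 3005323901) (nat_lit 336) (nat_lit 3369140228) (nat_lit 84) (nat_lit 8660657947) (nat_lit 52) (nat_lit 5) (nat_lit 56) (nat_lit 5) (nat_lit 53) (nat_lit 5) (nat_lit 383) (nat_lit 317) (nat_lit 245)))) (XT.nd (nat_lit 188) (nat_lit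 252) (nat_lit 0) (XT.nd (nat_lit 94) (nat_lit 0) (nat_lit 0) (XT.lf (nat_lit 0) (nat_lit 3425252899) (nat_lit 252) (nat_lit 2417146929) (nat_lit 336) (nat_lit 9503991815) (nat_lit 49) (nat_lit 5) (nat_lit 52) (nat_lit 5) (nat_lit 53) (nat_lit 5) (nat_lit 384) (nat_lit 317) (nat_lit 244)) (XT.lf (nat_lit 0) (nat_lit 8789331744) (nat_lit 336) (nat_lit 5228530803) (nat_lit 84) (nat_lit 1648422514) (nat_lit 49) (nat_lit 5) (nat_lit 53) (nat_lit 5) (nat_lit 50) (nat_lit 5) (nat_lit 385) (nat_lit 317) (nat_lit 243))) (XT.nd (nat_lit 94) (nat_lit 0) (nat_lit 0) (XT.lf (nat_lit 0) (nat_lit 1635150380) (nat_lit 252) (nat_lit 10204354838) (nat_lit 336) (nat_lit 4155852313) (nat_lit 46) (nat_lit 5) (nat_lit 49) (nat_lit 5) (nat_lit 50) (nat_lit 5) (nat_lit 386) (nat_lit 317) (nat_lit 242)) (XT.lf (nat_lit 0) (nat_lit 8774610649) (nat_lit 252) (nat_lit 6234918699) (nat_lit 336) (nat_lit 1323948926)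 (nat_lit 46) (nat_lit 5) (nat_lit 49) (nat_lit 5) (nat_lit 50) (nat_lit 5) (nat_lit 387) (nat_lit 317) (nat_lit 241))))))))
noncomputable def xc92 : XT := (XT.nd (nat_lit 2538) (nat_lit 924) (nat_lit 0) (XT.nd (nat_lit 1222) (nat_lit 840) (nat_lit 0) (XT.nd (nat_lit 564) (nat_lit 504) (nat_lit 0) (XT.nd (nat_lit 282) (nat_lit 420) (nat_lit 0) (XT.nd (nat_lit 94) (nat_lit 252) (nat_lit 0) (XT.lf (nat_lit 0) (nat_lit 1537827626) (nat_lit 336) (nat_lit 605526930) (nat_lit 84) (nat_lit 14538673681) (nat_lit 45) (nat_lit 5) (nat_lit 49) (nat_lit 5) (nat_lit 46) (nat_lit 5) (nat_lit 388) (nat_lit 317) (nat_lit 240)) (XT.nd (nat_lit 94) (nat_lit 0) (nat_lit 0) (XT.lf (nat_lit 0) (nat_lit 4519896442) (nat_lit 336) (nat_lit 10422837414) (nat_lit 84) (nat_lit 2096100339) (nat_lit 42) (nat_lit 5) (nat_lit 46) (nat_lit 5) (nat_lit 43) (nat_lit 5) (nat_lit 389) (nat_lit 317) (nat_lit 239)) (XT.lf (nat_lit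 0) (nat_lit 7595742993) (nat_lit 336) (nat_lit 3396765233) (nat_lit 84) (nat_lit 6413730147) (nat_lit 42) (nat_lit 5) (nat_lit 46) (nat_lit 5) (nat_lit 43) (nat_lit 5) (nat_lit 390) (nat_lit 317) (nat_lit 238)))) (XT.nd (nat_lit 94) (nat_lit 252) (nat_lit 0) (XT.lf (nat_lit 0) (nat_lit 3880965007) (nat_lit 168) (nat_lit 6897797562) (nat_lit 252) (nat_lit 7005478007) (nat_lit 40) (nat_lit 5) (nat_lit 42) (nat_lit 5) (nat_lit 43) (nat_lit 5) (nat_lit 391) (nat_lit 317) (nat_lit 237)) (XT.nd (nat_lit 94) (nat_lit 252) (nat_lit 0) (XT.lf (nat_lit 0) (nat_lit 11412143526) (nat_lit 168) (nat_lit 2657342203) (nat_lit 252) (nat_lit 4103752889) (nat_lit 40) (nat_lit 5) (nat_lit 42) (nat_lit 5) (nat_lit 43) (nat_lit 5) (nat_lit 392) (nat_lit 317) (nat_lit 236)) (XT.lf (nat_lit 0) (nat_lit 555696121) (nat_lit 252) (nat_lit 16903456549) (nat_lit 336) (nat_lit 1114768785) (nat_lit 37) (nat_lit 5) (nat_lit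 40) (nat_lit 5) (nat_lit 41) (nat_lit 5) (nat_lit 393) (nat_lit 317) (nat_lit 235))))) (XT.nd (nat_lit 282) (nat_lit 252) (nat_lit 0) (XT.nd (nat_lit 94) (nat_lit 168) (nat_lit 0) (XT.lf (nat_lit 0) (nat_lit 1999335015) (nat_lit 336) (nat_lit 10834025662) (nat_lit 84) (nat_lit 6150504862) (nat_lit 36) (nat_lit 5) (nat_lit 40) (nat_lit 5) (nat_lit 37) (nat_lit 5) (nat_lit 394) (nat_lit 317) (nat_lit 234)) (XT.nd (nat_lit 94) (nat_lit 168) (nat_lit 0) (XT.lf (nat_lit 0) (nat_lit 5163594571) (nat_lit 336) (nat_lit 3478513652) (nat_lit 84) (nat_lit 10764314142) (nat_lit 36) (nat_lit 5) (nat_lit 40) (nat_lit 5) (nat_lit 37) (nat_lit 5) (nat_lit 395) (nat_lit 317) (nat_lit 233)) (XT.lf (nat_lit 0) (nat_lit 4146364179) (nat_lit 168) (nat_lit 4296021134) (nat_lit 252) (nat_lit 11398701600) (nat_lit 34) (nat_lit 5) (nat_lit 36) (nat_lit 5) (nat_lit 37) (nat_lit 5) (nat_lit 396) (nat_lit 317) (nat_lit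 232)))) (XT.nd (nat_lit 188) (nat_lit 252) (nat_lit 0) (XT.nd (nat_lit 94) (nat_lit 0) (nat_lit 0) (XT.lf (nat_lit 0) (nat_lit 11836663037) (nat_lit 252) (nat_lit 8250922829) (nat_lit 84) (nat_lit 200710393) (nat_lit 34) (nat_lit 5) (nat_lit 37) (nat_lit 5) (nat_lit 35) (nat_lit 5) (nat_lit 397) (nat_lit 317) (nat_lit 231)) (XT.lf (nat_lit 0) (nat_lit 15355803691) (nat_lit 252) (nat_lit 657797496) (nat_lit 84) (nat_lit 4734647681) (nat_lit 34) (nat_lit 5) (nat_lit 37) (nat_lit 5) (nat_lit 35) (nat_lit 5) (nat_lit 398) (nat_lit 317) (nat_lit 230))) (XT.nd (nat_lit 94) (nat_lit 84) (nat_lit 0) (XT.lf (nat_lit 0) (nat_lit 7274536425) (nat_lit 168) (nat_lit 11756977137) (nat_lit 252) (nat_lit 2188974138) (nat_lit 32) (nat_lit 5) (nat_lit 34) (nat_lit 5) (nat_lit 35) (nat_lit 5) (nat_lit 399) (nat_lit 317) (nat_lit 229)) (XT.lf (nat_lit 0) (nat_lit 1076764378) (nat_lit 252) (nat_lit 6289741693)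 (nat_lit 84) (nat_lit 14340448791) (nat_lit 31) (nat_lit 5) (nat_lit 34) (nat_lit 5) (nat_lit 32) (nat_lit 5) (nat_lit 400) (nat_lit 317) (nat_lit 228)))))) (XT.nd (nat_lit 658) (nat_lit 252) (nat_lit 0) (XT.nd (nat_lit 282) (nat_lit 420) (nat_lit 0) (XT.nd (nat_lit 94) (nat_lit 0) (nat_lit 0) (XT.lf (nat_lit 0) (nat_lit 1575486433) (nat_lit 168) (nat_lit 2817813586) (nat_lit 252) (nat_lit 17814177204) (nat_lit 29) (nat_lit 5) (nat_lit 31) (nat_lit 5) (nat_lit 32) (nat_lit 5) (nat_lit 401) (nat_lit 317) (nat_lit 227)) (XT.nd (nat_lit 94) (nat_lit 0) (nat_lit 0) (XT.lf (nat_lit 0) (nat_lit 7873242592) (nat_lit 252) (nat_lit 12963978746) (nat_lit 84) (nat_lit 1883892135) (nat_lit 29) (nat_lit 5) (nat_lit 32) (nat_lit 5) (nat_lit 30) (nat_lit 5) (nat_lit 402) (nat_lit 317) (nat_lit 226)) (XT.lf (nat_lit 0) (nat_lit 11467830101) (nat_lit 252) (nat_lit 5122849749) (nat_lit 84) (nat_lit 6659186652)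 (nat_lit 29) (nat_lit 5) (nat_lit 32) (nat_lit 5) (nat_lit 30) (nat_lit 5) (nat_lit 403) (nat_lit 317) (nat_lit 225)))) (XT.nd (nat_lit 188) (nat_lit 252) (nat_lit 0) (XT.nd (nat_lit 94) (nat_lit 0) (nat_lit 0) (XT.lf (nat_lit 0) (nat_lit 2983554108) (nat_lit 168) (nat_lit 12198242540) (nat_lit 252) (nat_lit 8612353885) (nat_lit 27) (nat_lit 5) (nat_lit 29) (nat_lit 5) (nat_lit 30) (nat_lit 5) (nat_lit 404) (nat_lit 317) (nat_lit 224)) (XT.lf (nat_lit 0) (nat_lit 11410260845) (nat_lit 168) (nat_lit 7631744706) (nat_lit 252) (nat_lit 5311727056) (nat_lit 27) (nat_lit 5) (nat_lit 29) (nat_lit 5) (nat_lit 30) (nat_lit 5) (nat_lit 405) (nat_lit 317) (nat_lit 223))) (XT.nd (nat_lit 94) (nat_lit 252) (nat_lit 0) (XT.lf (nat_lit 0) (nat_lit 20062678851) (nat_lit 168) (nat_lit 2938926943) (nat_lit 252) (nat_lit 1929002611) (nat_lit 27) (nat_lit 5) (nat_lit 29) (nat_lit 5) (nat_lit 30) (nat_lit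 5) (nat_lit 406) (nat_lit 317) (nat_lit 222)) (XT.lf (nat_lit 0) (nat_lit 1560753279) (nat_lit 252) (nat_lit 22066299645) (nat_lit 84) (nat_lit 1896225163) (nat_lit 24) (nat_lit 5) (nat_lit 27) (nat_lit 5) (nat_lit 25) (nat_lit 5) (nat_lit 407) (nat_lit 317) (nat_lit 221))))) (XT.nd (nat_lit 282) (nat_lit 84) (nat_lit 0) (XT.nd (nat_lit 94) (nat_lit 168) (nat_lit 0) (XT.lf (nat_lit 0) (nat_lit 5179179460) (nat_lit 252) (nat_lit 14076277750) (nat_lit 84) (nat_lit 6875827858) (nat_lit 24) (nat_lit 5) (nat_lit 27) (nat_lit 5) (nat_lit 25) (nat_lit 5) (nat_lit 408) (nat_lit 317) (nat_lit 220)) (XT.nd (nat_lit 94) (nat_lit 168) (nat_lit 0) (XT.lf (nat_lit 0) (nat_lit 8890631365) (nat_lit 252) (nat_lit 5872537752) (nat_lit 84) (nat_lit 11994841225) (nat_lit 24) (nat_lit 5) (nat_lit 27) (nat_lit 5) (nat_lit 25) (nat_lit 5) (nat_lit 409) (nat_lit 317) (nat_lit 219)) (XT.lf (nat_lit 0) (nat_lit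 2602880235) (nat_lit 168) (nat_lit 10120492252) (nat_lit 252) (nat_lit 14679878430) (nat_lit 22) (nat_lit 5) (nat_lit 24) (nat_lit 5) (nat_lit 25) (nat_lit 5) (nat_lit 410) (nat_lit 317) (nat_lit 218)))) (XT.nd (nat_lit 188) (nat_lit 84) (nat_lit 0) (XT.nd (nat_lit 94) (nat_lit 0) (nat_lit 0) (XT.lf (nat_lit 0) (nat_lit 11427963560) (nat_lit 168) (nat_lit 5287557546) (nat_lit 252) (nat_lit 11351006412) (nat_lit 22) (nat_lit 5) (nat_lit 24) (nat_lit 5) (nat_lit 25) (nat_lit 5) (nat_lit 411) (nat_lit 317) (nat_lit 217)) (XT.lf (nat_lit 0) (nat_lit 20493548445) (nat_lit 168) (nat_lit 319443164) (nat_lit 252) (nat_lit 7937155316) (nat_lit 22) (nat_lit 5) (nat_lit 24) (nat_lit 5) (nat_lit 25) (nat_lit 5) (nat_lit 412) (nat_lit 317) (nat_lit 216))) (XT.nd (nat_lit 94) (nat_lit 0) (nat_lit 0) (XT.lf (nat_lit 0) (nat_lit 312929144) (nat_lit 84) (nat_lit 24755470260) (nat_lit 168) (nat_lit 4384836015)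 (nat_lit 21) (nat_lit 5) (nat_lit 22) (nat_lit 5) (nat_lit 23) (nat_lit 4) (nat_lit 413) (nat_lit 317) (nat_lit 215)) (XT.lf (nat_lit 0) (nat_lit 9281918562) (nat_lit 84) (nat_lit 20242128397) (nat_lit 168) (nat_lit 651202871) (nat_lit 21) (nat_lit 5) (nat_lit 22) (nat_lit 5) (nat_lit 23) (nat_lit 4) (nat_lit 414) (nat_lit 317) (nat_lit 214))))))) (XT.nd (nat_lit 1316) (nat_lit 336) (nat_lit 0) (XT.nd (nat_lit 658) (nat_lit 252) (nat_lit 0) (XT.nd (nat_lit 282) (nat_lit 84) (nat_lit 0) (XT.nd (nat_lit 94) (nat_lit 168) (nat_lit 0) (XT.lf (nat_lit 0) (nat_lit 3118436267) (nat_lit 168) (nat_lit 12452897525) (nat_lit 84) (nat_lit 15347089689) (nat_lit 20) (nat_lit 5) (nat_lit 22) (nat_lit 5) (nat_lit 21) (nat_lit 5) (nat_lit 415) (nat_lit 317) (nat_lit 213)) (XT.nd (nat_lit 94) (nat_lit 168) (nat_lit 0) (XT.lf (nat_lit 0) (nat_lit 6974806159) (nat_lit 168) (nat_lit 3788264934) (nat_lit 84)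 (nat_lit 20921035606) (nat_lit 20) (nat_lit 5) (nat_lit 22) (nat_lit 5) (nat_lit 21) (nat_lit 5) (nat_lit 416) (nat_lit 317) (nat_lit 212)) (XT.lf (nat_lit 0) (nat_lit 5216183836) (nat_lit 168) (nat_lit 5767941075) (nat_lit 252) (nat_lit 21487527175) (nat_lit 18) (nat_lit 5) (nat_lit 20) (nat_lit 5) (nat_lit 21) (nat_lit 5) (nat_lit 417) (nat_lit 317) (nat_lit 211)))) (XT.nd (nat_lit 188) (nat_lit 84) (nat_lit 0) (XT.nd (nat_lit 94) (nat_lit 0) (nat_lit 0) (XT.lf (nat_lit 0) (nat_lit 14546727253) (nat_lit 168) (nat_lit 592533339) (nat_lit 252) (nat_lit 18142806252) (nat_lit 18) (nat_lit 5) (nat_lit 20) (nat_lit 5) (nat_lit 21) (nat_lit 5) (nat_lit 418) (nat_lit 317) (nat_lit 210)) (XT.lf (nat_lit 0) (nat_lit 19452166130) (nat_lit 252) (nat_lit 10026511062) (nat_lit 84) (nat_lit 4637132244) (nat_lit 18) (nat_lit 5) (nat_lit 21) (nat_lit 5) (nat_lit 19) (nat_lit 4) (nat_lit 419) (nat_lit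 317) (nat_lit 209))) (XT.nd (nat_lit 94) (nat_lit 84) (nat_lit 0) (XT.lf (nat_lit 0) (nat_lit 23888257461) (nat_lit 252) (nat_lit 1083020384) (nat_lit 84) (nat_lit 10003481109) (nat_lit 18) (nat_lit 5) (nat_lit 21) (nat_lit 5) (nat_lit 19) (nat_lit 4) (nat_lit 420) (nat_lit 317) (nat_lit 208)) (XT.lf (nat_lit 0) (nat_lit 8270020830) (nat_lit 84) (nat_lit 20255190657) (nat_lit 168) (nat_lit 7332240427) (nat_lit 17) (nat_lit 5) (nat_lit 18) (nat_lit 5) (nat_lit 19) (nat_lit 4) (nat_lit 421) (nat_lit 317) (nat_lit 207))))) (XT.nd (nat_lit 282) (nat_lit 168) (nat_lit 0) (XT.nd (nat_lit 94) (nat_lit 84) (nat_lit 0) (XT.lf (nat_lit 0) (nat_lit 17905919433) (nat_lit 84) (nat_lit 15394724174) (nat_lit 168) (nat_lit 3466009084) (nat_lit 17) (nat_lit 5) (nat_lit 18) (nat_lit 5) (nat_lit 19) (nat_lit 4) (nat_lit 422) (nat_lit 317) (nat_lit 206)) (XT.nd (nat_lit 94) (nat_lit 0) (nat_lit 0) (XT.lf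 (nat_lit 0) (nat_lit 494787177) (nat_lit 168) (nat_lit 9896784212) (nat_lit 84) (nat_lit 27311757354) (nat_lit 16) (nat_lit 5) (nat_lit 18) (nat_lit 5) (nat_lit 17) (nat_lit 5) (nat_lit 423) (nat_lit 317) (nat_lit 205)) (XT.lf (nat_lit 0) (nat_lit 4493725607) (nat_lit 168) (nat_lit 717250698) (nat_lit 84) (nat_lit 33456437239) (nat_lit 16) (nat_lit 5) (nat_lit 18) (nat_lit 5) (nat_lit 17) (nat_lit 5) (nat_lit 424) (nat_lit 317) (nat_lit 204)))) (XT.nd (nat_lit 188) (nat_lit 0) (nat_lit 0) (XT.nd (nat_lit 94) (nat_lit 0) (nat_lit 0) (XT.lf (nat_lit 0) (nat_lit 8689390793) (nat_lit 252) (nat_lit 30767423265) (nat_lit 84) (nat_lit 201311280) (nat_lit 14) (nat_lit 5) (nat_lit 17) (nat_lit 5) (nat_lit 15) (nat_lit 4) (nat_lit 425) (nat_lit 317) (nat_lit 203)) (XT.lf (nat_lit 0) (nat_lit 13059198472) (nat_lit 252) (nat_lit 21946942180) (nat_lit 84) (nat_lit 5670976657) (nat_lit 14) (nat_lit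 5) (nat_lit 17) (nat_lit 5) (nat_lit 15) (nat_lit 4) (nat_lit 426) (nat_lit 317) (nat_lit 202))) (XT.nd (nat_lit 94) (nat_lit 0) (nat_lit 0) (XT.lf (nat_lit 0) (nat_lit 17549774339) (nat_lit 252) (nat_lit 12879838707) (nat_lit 84) (nat_lit 11297382568) (nat_lit 14) (nat_lit 5) (nat_lit 17) (nat_lit 5) (nat_lit 15) (nat_lit 4) (nat_lit 427) (nat_lit 317) (nat_lit 201)) (XT.lf (nat_lit 0) (nat_lit 22165042198) (nat_lit 252) (nat_lit 3558190135) (nat_lit 84) (nat_lit 17085445290) (nat_lit 14) (nat_lit 5) (nat_lit 17) (nat_lit 5) (nat_lit 15) (nat_lit 4) (nat_lit 428) (nat_lit 317) (nat_lit 200)))))) (XT.nd (nat_lit 658) (nat_lit 84) (nat_lit 0) (XT.nd (nat_lit 282) (nat_lit 168) (nat_lit 0) (XT.nd (nat_lit 94) (nat_lit 0) (nat_lit 0) (XT.lf (nat_lit 0) (nat_lit 6146080840) (nat_lit 84) (nat_lit 20822033855) (nat_lit 168) (nat_lit 16953221402) (nat_lit 13) (nat_lit 5) (nat_lit 14) (nat_lit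 5) (nat_lit 15) (nat_lit 4) (nat_lit 429) (nat_lit 317) (nat_lit 199)) (XT.nd (nat_lit 94) (nat_lit 0) (nat_lit 0) (XT.lf (nat_lit 0) (nat_lit 16197626393) (nat_lit 84) (nat_lit 15743972503) (nat_lit 168) (nat_lit 13124992063) (nat_lit 13) (nat_lit 5) (nat_lit 14) (nat_lit 5) (nat_lit 15) (nat_lit 4) (nat_lit 430) (nat_lit 317) (nat_lit 198)) (XT.lf (nat_lit 0) (nat_lit 26534414467) (nat_lit 84) (nat_lit 10520541878) (nat_lit 168) (nat_lit 9191533095) (nat_lit 13) (nat_lit 5) (nat_lit 14) (nat_lit 5) (nat_lit 15) (nat_lit 4) (nat_lit 431) (nat_lit 317) (nat_lit 197)))) (XT.nd (nat_lit 188) (nat_lit 168) (nat_lit 0) (XT.nd (nat_lit 94) (nat_lit 0) (nat_lit 0) (XT.lf (nat_lit 0) (nat_lit 37165477207) (nat_lit 84) (nat_lit 5147177818) (nat_lit 168) (nat_lit 5149407497) (nat_lit 13) (nat_lit 5) (nat_lit 14) (nat_lit 5) (nat_lit 15) (nat_lit 4) (nat_lit 432) (nat_lit 317) (nat_lit 196)) (XT.lf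 (nat_lit 0) (nat_lit 47722949667) (nat_lit 168) (nat_lit 617929090) (nat_lit 0) (nat_lit 373383779) (nat_lit 13) (nat_lit 5) (nat_lit 15) (nat_lit 4) (nat_lit 13) (nat_lit 4) (nat_lit 433) (nat_lit 317) (nat_lit 195))) (XT.nd (nat_lit 94) (nat_lit 0) (nat_lit 0) (XT.lf (nat_lit 0) (nat_lit 3362001209) (nat_lit 168) (nat_lit 40563199397) (nat_lit 84) (nat_lit 6073842920) (nat_lit 11) (nat_lit 5) (nat_lit 13) (nat_lit 5) (nat_lit 12) (nat_lit 4) (nat_lit 434) (nat_lit 317) (nat_lit 194)) (XT.lf (nat_lit 0) (nat_lit 7823708403) (nat_lit 168) (nat_lit 31543308516) (nat_lit 84) (nat_lit 11955130242) (nat_lit 11) (nat_lit 5) (nat_lit 13) (nat_lit 5) (nat_lit 12) (nat_lit 4) (nat_lit 435) (nat_lit 317) (nat_lit 193))))) (XT.nd (nat_lit 282) (nat_lit 84) (nat_lit 0) (XT.nd (nat_lit 94) (nat_lit 0) (nat_lit 0) (XT.lf (nat_lit 0) (nat_lit 12410933266) (nat_lit 168) (nat_lit 22267528183) (nat_lit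 84) (nat_lit 18006737517) (nat_lit 11) (nat_lit 5) (nat_lit 13) (nat_lit 5) (nat_lit 12) (nat_lit 4) (nat_lit 436) (nat_lit 317) (nat_lit 192)) (XT.nd (nat_lit 94) (nat_lit 0) (nat_lit 0) (XT.lf (nat_lit 0) (nat_lit 17127684053) (nat_lit 168) (nat_lit 12727753348) (nat_lit 84) (nat_lit 24233952558) (nat_lit 11) (nat_lit 5) (nat_lit 13) (nat_lit 5) (nat_lit 12) (nat_lit 4) (nat_lit 437) (nat_lit 317) (nat_lit 191)) (XT.lf (nat_lit 0) (nat_lit 21978082195) (nat_lit 168) (nat_lit 2915648286) (nat_lit 84) (nat_lit 30642216621) (nat_lit 11) (nat_lit 5) (nat_lit 13) (nat_lit 5) (nat_lit 12) (nat_lit 4) (nat_lit 438) (nat_lit 317) (nat_lit 190)))) (XT.nd (nat_lit 188) (nat_lit 0) (nat_lit 0) (XT.nd (nat_lit 94) (nat_lit 0) (nat_lit 0) (XT.lf (nat_lit 0) (nat_lit 7320204237) (nat_lit 84) (nat_lit 19716527948) (nat_lit 168) (nat_lit 29987291203) (nat_lit 10) (nat_lit 5) (nat_lit 11) (nat_lit 5)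 (nat_lit 12) (nat_lit 4) (nat_lit 439) (nat_lit 317) (nat_lit 189)) (XT.lf (nat_lit 0) (nat_lit 17909572982) (nat_lit 84) (nat_lit 14359478666) (nat_lit 168) (nat_lit 26287037507) (nat_lit 10) (nat_lit 5) (nat_lit 11) (nat_lit 5) (nat_lit 12) (nat_lit 4) (nat_lit 440) (nat_lit 317) (nat_lit 188))) (XT.nd (nat_lit 94) (nat_lit 0) (nat_lit 0) (XT.lf (nat_lit 0) (nat_lit 28803683676) (nat_lit 84) (nat_lit 8847344050) (nat_lit 168) (nat_lit 22483312921) (nat_lit 10) (nat_lit 5) (nat_lit 11) (nat_lit 5) (nat_lit 12) (nat_lit 4) (nat_lit 441) (nat_lit 317) (nat_lit 187)) (XT.lf (nat_lit 0) (nat_lit 40012055444) (nat_lit 84) (nat_lit 3175307670) (nat_lit 168) (nat_lit 18572793801) (nat_lit 10) (nat_lit 5) (nat_lit 11) (nat_lit 5) (nat_lit 12) (nat_lit 4) (nat_lit 442) (nat_lit 317) (nat_lit 186))))))))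
noncomputable def xc93 : XT := (XT.nd (nat_lit 49632) (nat_lit 0) (nat_lit 6552) (XT.nd (nat_lit 48316) (nat_lit 0) (nat_lit 17136) (XT.nd (nat_lit 47658) (nat_lit 0) (nat_lit 21672) (XT.nd (nat_lit 282) (nat_lit 84) (nat_lit 0) (XT.nd (nat_lit 94) (nat_lit 84) (nat_lit 0) (XT.lf (nat_lit 0) (nat_lit 48908480187) (nat_lit 168) (nat_lit 11916061366) (nat_lit 0) (nat_lit 2609649479) (nat_lit 10) (nat_lit 5) (nat_lit 12) (nat_lit 4) (nat_lit 10) (nat_lit 4) (nat_lit 443) (nat_lit 317) (nat_lit 185)) (XT.nd (nat_lit 94) (nat_lit 84) (nat_lit 0) (XT.lf (nat_lit 0) (nat_lit 54825927567) (nat_lit 168) (nat_lit 1832495140) (nat_lit 0) (nat_lit 8499286554) (nat_lit 10) (nat_lit 5) (nat_lit 12) (nat_lit 4) (nat_lit 10) (nat_lit 4) (nat_lit 444) (nat_lit 317) (nat_lit 184)) (XT.lf (nat_lit 0) (nat_lit 8711932267) (nat_lit 84) (nat_lit 52286164993) (nat_lit 84) (nat_lit 5932523685) (nat_lit 9) (nat_lit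 4) (nat_lit 10) (nat_lit 5) (nat_lit 10) (nat_lit 4) (nat_lit 445) (nat_lit 317) (nat_lit 183)))) (XT.nd (nat_lit 188) (nat_lit 0) (nat_lit 0) (XT.nd (nat_lit 94) (nat_lit 84) (nat_lit 0) (XT.lf (nat_lit 0) (nat_lit 19598724054) (nat_lit 84) (nat_lit 47768746854) (nat_lit 84) (nat_lit 1388891666) (nat_lit 9) (nat_lit 4) (nat_lit 10) (nat_lit 5) (nat_lit 10) (nat_lit 4) (nat_lit 446) (nat_lit 317) (nat_lit 182)) (XT.lf (nat_lit 0) (nat_lit 3220485931) (nat_lit 168) (nat_lit 39867719115) (nat_lit 84) (nat_lit 27547916180) (nat_lit 8) (nat_lit 5) (nat_lit 10) (nat_lit 5) (nat_lit 9) (nat_lit 4) (nat_lit 447) (nat_lit 317) (nat_lit 181))) (XT.nd (nat_lit 47094) (nat_lit 0) (nat_lit 22932) (XT.lf (nat_lit 0) (nat_lit 7934071106) (nat_lit 168) (nat_lit 30323850303) (nat_lit 84) (nat_lit 34314126880) (nat_lit 8) (nat_lit 5) (nat_lit 10) (nat_lit 5) (nat_lit 9) (nat_lit 4) (nat_lit 448) (nat_lit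 317) (nat_lit 180)) (XT.lf (nat_lit 0) (nat_lit 826580324) (nat_lit 0) (nat_lit 826580324) (nat_lit 252) (nat_lit 1587878536) (nat_lit 281) (nat_lit 5) (nat_lit 281) (nat_lit 3) (nat_lit 284) (nat_lit 3) (nat_lit 318) (nat_lit 318) (nat_lit 309))))) (XT.nd (nat_lit 282) (nat_lit 840) (nat_lit 0) (XT.nd (nat_lit 94) (nat_lit 420) (nat_lit 0) (XT.lf (nat_lit 0) (nat_lit 4587214094) (nat_lit 0) (nat_lit 1246524364) (nat_lit 252) (nat_lit 663352004) (nat_lit 281) (nat_lit 5) (nat_lit 281) (nat_lit 3) (nat_lit 284) (nat_lit 3) (nat_lit 319) (nat_lit 318) (nat_lit 308)) (XT.nd (nat_lit 94) (nat_lit 0) (nat_lit 0) (XT.lf (nat_lit 84) (nat_lit 1048089869) (nat_lit 0) (nat_lit 750896130) (nat_lit 420) (nat_lit 4715947303) (nat_lit 277) (nat_lit 5) (nat_lit 276) (nat_lit 3) (nat_lit 281) (nat_lit 5) (nat_lit 320) (nat_lit 318) (nat_lit 307)) (XT.lf (nat_lit 84) (nat_lit 4077143596) (nat_lit 0) (nat_lit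 168349440) (nat_lit 420) (nat_lit 2290202450) (nat_lit 277) (nat_lit 5) (nat_lit 276) (nat_lit 3) (nat_lit 281) (nat_lit 5) (nat_lit 321) (nat_lit 318) (nat_lit 306)))) (XT.nd (nat_lit 188) (nat_lit 504) (nat_lit 0) (XT.nd (nat_lit 94) (nat_lit 0) (nat_lit 0) (XT.lf (nat_lit 0) (nat_lit 120647536) (nat_lit 420) (nat_lit 5965698967) (nat_lit 504) (nat_lit 473455419) (nat_lit 272) (nat_lit 5) (nat_lit 277) (nat_lit 5) (nat_lit 278) (nat_lit 5) (nat_lit 322) (nat_lit 318) (nat_lit 305)) (XT.lf (nat_lit 0) (nat_lit 2493183573) (nat_lit 420) (nat_lit 2873446107) (nat_lit 504) (nat_lit 1219525304) (nat_lit 272) (nat_lit 5) (nat_lit 277) (nat_lit 5) (nat_lit 278) (nat_lit 5) (nat_lit 323) (nat_lit 318) (nat_lit 304))) (XT.nd (nat_lit 94) (nat_lit 504) (nat_lit 0) (XT.lf (nat_lit 84) (nat_lit 264595017) (nat_lit 0) (nat_lit 4586156903) (nat_lit 504) (nat_lit 1765388729) (nat_lit 273) (nat_lit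 5) (nat_lit 272) (nat_lit 5) (nat_lit 278) (nat_lit 5) (nat_lit 324) (nat_lit 318) (nat_lit 303)) (XT.lf (nat_lit 0) (nat_lit 561288729) (nat_lit 504) (nat_lit 3150457555) (nat_lit 588) (nat_lit 2937092238) (nat_lit 266) (nat_lit 5) (nat_lit 272) (nat_lit 5) (nat_lit 273) (nat_lit 5) (nat_lit 325) (nat_lit 318) (nat_lit 302)))))) (XT.nd (nat_lit 658) (nat_lit 2688) (nat_lit 0) (XT.nd (nat_lit 282) (nat_lit 1260) (nat_lit 0) (XT.nd (nat_lit 94) (nat_lit 588) (nat_lit 0) (XT.lf (nat_lit 84) (nat_lit 78661076) (nat_lit 0) (nat_lit 2759230320) (nat_lit 588) (nat_lit 3846869169) (nat_lit 267) (nat_lit 5) (nat_lit 266) (nat_lit 5) (nat_lit 273) (nat_lit 5) (nat_lit 326) (nat_lit 318) (nat_lit 301)) (XT.nd (nat_lit 94) (nat_lit 588) (nat_lit 0) (XT.lf (nat_lit 84) (nat_lit 3417686977) (nat_lit 0) (nat_lit 1713754474) (nat_lit 588) (nat_lit 1592088301) (nat_lit 267) (nat_lit 5) (nat_lit 266) (nat_lit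 5) (nat_lit 273) (nat_lit 5) (nat_lit 327) (nat_lit 318) (nat_lit 300)) (XT.lf (nat_lit 84) (nat_lit 35198874) (nat_lit 0) (nat_lit 599464723) (nat_lit 672) (nat_lit 6131246251) (nat_lit 260) (nat_lit 5) (nat_lit 259) (nat_lit 5) (nat_lit 267) (nat_lit 5) (nat_lit 328) (nat_lit 318) (nat_lit 299)))) (XT.nd (nat_lit 188) (nat_lit 756) (nat_lit 0) (XT.nd (nat_lit 94) (nat_lit 588) (nat_lit 0) (XT.lf (nat_lit 0) (nat_lit 2855603910) (nat_lit 588) (nat_lit 3339945514) (nat_lit 84) (nat_lit 614967002) (nat_lit 260) (nat_lit 5) (nat_lit 267) (nat_lit 5) (nat_lit 261) (nat_lit 5) (nat_lit 329) (nat_lit 318) (nat_lit 298)) (XT.lf (nat_lit 0) (nat_lit 95797324) (nat_lit 588) (nat_lit 4976951703) (nat_lit 672) (nat_lit 1786028306) (nat_lit 253) (nat_lit 5) (nat_lit 260) (nat_lit 5) (nat_lit 261) (nat_lit 5) (nat_lit 330) (nat_lit 318) (nat_lit 297))) (XT.nd (nat_lit 94) (nat_lit 672) (nat_lit 0)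 (XT.lf (nat_lit 0) (nat_lit 396771082) (nat_lit 672) (nat_lit 3262912700) (nat_lit 84) (nat_lit 3250137189) (nat_lit 252) (nat_lit 5) (nat_lit 260) (nat_lit 5) (nat_lit 253) (nat_lit 5) (nat_lit 331) (nat_lit 318) (nat_lit 296)) (XT.lf (nat_lit 0) (nat_lit 277582174) (nat_lit 672) (nat_lit 2259998899) (nat_lit 756) (nat_lit 4426617791) (nat_lit 244) (nat_lit 5) (nat_lit 252) (nat_lit 5) (nat_lit 253) (nat_lit 5) (nat_lit 332) (nat_lit 318) (nat_lit 295))))) (XT.nd (nat_lit 282) (nat_lit 1848) (nat_lit 0) (XT.nd (nat_lit 94) (nat_lit 840) (nat_lit 0) (XT.lf (nat_lit 0) (nat_lit 3939383593) (nat_lit 672) (nat_lit 763601092) (nat_lit 756) (nat_lit 2318593073) (nat_lit 244) (nat_lit 5) (nat_lit 252) (nat_lit 5) (nat_lit 253) (nat_lit 5) (nat_lit 333) (nat_lit 318) (nat_lit 294)) (XT.nd (nat_lit 94) (nat_lit 84) (nat_lit 0) (XT.lf (nat_lit 0) (nat_lit 581462181) (nat_lit 756) (nat_lit 6294681464)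 (nat_lit 840) (nat_lit 206426056) (nat_lit 235) (nat_lit 5) (nat_lit 244) (nat_lit 5) (nat_lit 245) (nat_lit 5) (nat_lit 334) (nat_lit 318) (nat_lit 293)) (XT.lf (nat_lit 0) (nat_lit 1900099511) (nat_lit 840) (nat_lit 2806846710) (nat_lit 84) (nat_lit 2438960206) (nat_lit 234) (nat_lit 5) (nat_lit 244) (nat_lit 5) (nat_lit 235) (nat_lit 5) (nat_lit 335) (nat_lit 318) (nat_lit 292)))) (XT.nd (nat_lit 188) (nat_lit 1008) (nat_lit 0) (XT.nd (nat_lit 94) (nat_lit 0) (nat_lit 0) (XT.lf (nat_lit 0) (nat_lit 962749482) (nat_lit 840) (nat_lit 3044628598) (nat_lit 924) (nat_lit 3205613265) (nat_lit 224) (nat_lit 5) (nat_lit 234) (nat_lit 5) (nat_lit 235) (nat_lit 5) (nat_lit 336) (nat_lit 318) (nat_lit 291)) (XT.lf (nat_lit 0) (nat_lit 4851247948) (nat_lit 840) (nat_lit 1288892595) (nat_lit 924) (nat_lit 1143236212) (nat_lit 224) (nat_lit 5) (nat_lit 234) (nat_lit 5) (nat_lit 235) (nat_lit 5) (nat_lit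 337) (nat_lit 318) (nat_lit 290))) (XT.nd (nat_lit 94) (nat_lit 0) (nat_lit 0) (XT.lf (nat_lit 0) (nat_lit 916398795) (nat_lit 1008) (nat_lit 5894527990) (nat_lit 84) (nat_lit 546175111) (nat_lit 212) (nat_lit 5) (nat_lit 224) (nat_lit 5) (nat_lit 213) (nat_lit 5) (nat_lit 338) (nat_lit 318) (nat_lit 289)) (XT.lf (nat_lit 0) (nat_lit 2988990810) (nat_lit 1008) (nat_lit 1985969197) (nat_lit 84) (nat_lit 2458657515) (nat_lit 212) (nat_lit 5) (nat_lit 224) (nat_lit 5) (nat_lit 213) (nat_lit 5) (nat_lit 339) (nat_lit 318) (nat_lit 288))))))) (XT.nd (nat_lit 1316) (nat_lit 3444) (nat_lit 0) (XT.nd (nat_lit 658) (nat_lit 2436) (nat_lit 0) (XT.nd (nat_lit 282) (nat_lit 2520) (nat_lit 0) (XT.nd (nat_lit 94) (nat_lit 1176) (nat_lit 0) (XT.lf (nat_lit 0) (nat_lit 2027648515) (nat_lit 1008) (nat_lit 3054031866) (nat_lit 1092) (nat_lit 2432149166) (nat_lit 200) (nat_lit 5) (nat_lit 212) (nat_lit 5)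 (nat_lit 213) (nat_lit 5) (nat_lit 340) (nat_lit 318) (nat_lit 287)) (XT.nd (nat_lit 94) (nat_lit 1176) (nat_lit 0) (XT.lf (nat_lit 0) (nat_lit 6151128108) (nat_lit 1008) (nat_lit 1045806349) (nat_lit 1092) (nat_lit 400854455) (nat_lit 200) (nat_lit 5) (nat_lit 212) (nat_lit 5) (nat_lit 213) (nat_lit 5) (nat_lit 341) (nat_lit 318) (nat_lit 286)) (XT.lf (nat_lit 0) (nat_lit 1635426644) (nat_lit 1176) (nat_lit 4995839302) (nat_lit 84) (nat_lit 1053328553) (nat_lit 186) (nat_lit 5) (nat_lit 200) (nat_lit 5) (nat_lit 187) (nat_lit 5) (nat_lit 342) (nat_lit 318) (nat_lit 285)))) (XT.nd (nat_lit 188) (nat_lit 1344) (nat_lit 0) (XT.nd (nat_lit 94) (nat_lit 1176) (nat_lit 0) (XT.lf (nat_lit 0) (nat_lit 3691934588) (nat_lit 1176) (nat_lit 862647950) (nat_lit 84) (nat_lit 3220409872) (nat_lit 186) (nat_lit 5) (nat_lit 200) (nat_lit 5) (nat_lit 187) (nat_lit 5) (nat_lit 343) (nat_lit 318) (nat_lit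 284)) (XT.lf (nat_lit 0) (nat_lit 3410109112) (nat_lit 1176) (nat_lit 2376583076) (nat_lit 1260) (nat_lit 2082232930) (nat_lit 172) (nat_lit 5) (nat_lit 186) (nat_lit 5) (nat_lit 187) (nat_lit 5) (nat_lit 344) (nat_lit 318) (nat_lit 283))) (XT.nd (nat_lit 94) (nat_lit 1344) (nat_lit 0) (XT.lf (nat_lit 0) (nat_lit 7778258525) (nat_lit 1176) (nat_lit 119671864) (nat_lit 1260) (nat_lit 69252298) (nat_lit 172) (nat_lit 5) (nat_lit 186) (nat_lit 5) (nat_lit 187) (nat_lit 5) (nat_lit 345) (nat_lit 318) (nat_lit 282)) (XT.lf (nat_lit 0) (nat_lit 1973311199) (nat_lit 1344) (nat_lit 3868154599) (nat_lit 84) (nat_lit 2226204563) (nat_lit 156) (nat_lit 5) (nat_lit 172) (nat_lit 5) (nat_lit 157) (nat_lit 5) (nat_lit 346) (nat_lit 318) (nat_lit 281))))) (XT.nd (nat_lit 282) (nat_lit 1260) (nat_lit 0) (XT.nd (nat_lit 94) (nat_lit 588) (nat_lit 0) (XT.lf (nat_lit 0) (nat_lit 508982678) (nat_lit 588)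 (nat_lit 3521802361) (nat_lit 672) (nat_lit 4141822465) (nat_lit 149) (nat_lit 5) (nat_lit 156) (nat_lit 5) (nat_lit 157) (nat_lit 5) (nat_lit 347) (nat_lit 318) (nat_lit 280)) (XT.nd (nat_lit 94) (nat_lit 588) (nat_lit 0) (XT.lf (nat_lit 0) (nat_lit 5045805438) (nat_lit 588) (nat_lit 1091313179) (nat_lit 672) (nat_lit 2144063156) (nat_lit 149) (nat_lit 5) (nat_lit 156) (nat_lit 5) (nat_lit 157) (nat_lit 5) (nat_lit 348) (nat_lit 318) (nat_lit 279)) (XT.lf (nat_lit 0) (nat_lit 1286183122) (nat_lit 588) (nat_lit 6995993032) (nat_lit 672) (nat_lit 111671172) (nat_lit 142) (nat_lit 5) (nat_lit 149) (nat_lit 5) (nat_lit 150) (nat_lit 5) (nat_lit 349) (nat_lit 318) (nat_lit 278)))) (XT.nd (nat_lit 188) (nat_lit 588) (nat_lit 0) (XT.nd (nat_lit 94) (nat_lit 588) (nat_lit 0) (XT.lf (nat_lit 0) (nat_lit 1936816082) (nat_lit 672) (nat_lit 2581028731) (nat_lit 84) (nat_lit 3991757079) (nat_lit 141)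 (nat_lit 5) (nat_lit 149) (nat_lit 5) (nat_lit 142) (nat_lit 5) (nat_lit 350) (nat_lit 318) (nat_lit 277)) (XT.lf (nat_lit 0) (nat_lit 2070558945) (nat_lit 588) (nat_lit 1945308453) (nat_lit 672) (nat_lit 4613879493) (nat_lit 134) (nat_lit 5) (nat_lit 141) (nat_lit 5) (nat_lit 142) (nat_lit 5) (nat_lit 351) (nat_lit 318) (nat_lit 276))) (XT.nd (nat_lit 94) (nat_lit 588) (nat_lit 0) (XT.lf (nat_lit 0) (nat_lit 6142750388) (nat_lit 672) (nat_lit 1896292072) (nat_lit 84) (nat_lit 714978890) (nat_lit 134) (nat_lit 5) (nat_lit 142) (nat_lit 5) (nat_lit 135) (nat_lit 5) (nat_lit 352) (nat_lit 318) (nat_lit 275)) (XT.lf (nat_lit 0) (nat_lit 2894041896) (nat_lit 588) (nat_lit 5440232694) (nat_lit 672) (nat_lit 547810736) (nat_lit 127) (nat_lit 5) (nat_lit 134) (nat_lit 5) (nat_lit 135) (nat_lit 5) (nat_lit 353) (nat_lit 318) (nat_lit 274)))))) (XT.nd (nat_lit 658) (nat_lit 1344) (nat_lit 0) (XT.nd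 (nat_lit 282) (nat_lit 1512) (nat_lit 0) (XT.nd (nat_lit 94) (nat_lit 504) (nat_lit 0) (XT.lf (nat_lit 0) (nat_lit 1520205770) (nat_lit 672) (nat_lit 1211982265) (nat_lit 84) (nat_lit 6282226538) (nat_lit 126) (nat_lit 5) (nat_lit 134) (nat_lit 5) (nat_lit 127) (nat_lit 5) (nat_lit 354) (nat_lit 318) (nat_lit 273)) (XT.nd (nat_lit 94) (nat_lit 0) (nat_lit 0) (XT.lf (nat_lit 0) (nat_lit 3631420392) (nat_lit 588) (nat_lit 5425874801) (nat_lit 84) (nat_lit 93569746) (nat_lit 120) (nat_lit 5) (nat_lit 127) (nat_lit 5) (nat_lit 121) (nat_lit 5) (nat_lit 355) (nat_lit 318) (nat_lit 272)) (XT.lf (nat_lit 0) (nat_lit 5801608530) (nat_lit 588) (nat_lit 532874142) (nat_lit 84) (nat_lit 2957133727) (nat_lit 120) (nat_lit 5) (nat_lit 127) (nat_lit 5) (nat_lit 121) (nat_lit 5) (nat_lit 356) (nat_lit 318) (nat_lit 271)))) (XT.nd (nat_lit 188) (nat_lit 504) (nat_lit 0) (XT.nd (nat_lit 94) (nat_lit 504)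 (nat_lit 0) (XT.lf (nat_lit 0) (nat_lit 4547522943) (nat_lit 504) (nat_lit 3490593809) (nat_lit 588) (nat_lit 1398511685) (nat_lit 114) (nat_lit 5) (nat_lit 120) (nat_lit 5) (nat_lit 121) (nat_lit 5) (nat_lit 357) (nat_lit 318) (nat_lit 270)) (XT.lf (nat_lit 0) (nat_lit 152513837) (nat_lit 420) (nat_lit 553165479) (nat_lit 504) (nat_lit 8881222866) (nat_lit 108) (nat_lit 5) (nat_lit 113) (nat_lit 5) (nat_lit 114) (nat_lit 5) (nat_lit 358) (nat_lit 318) (nat_lit 269))) (XT.nd (nat_lit 94) (nat_lit 504) (nat_lit 0) (XT.lf (nat_lit 0) (nat_lit 2877012160) (nat_lit 504) (nat_lit 4382042400) (nat_lit 84) (nat_lit 2481318580) (nat_lit 108) (nat_lit 5) (nat_lit 114) (nat_lit 5) (nat_lit 109) (nat_lit 5) (nat_lit 359) (nat_lit 318) (nat_lit 268)) (XT.lf (nat_lit 0) (nat_lit 783787237) (nat_lit 504) (nat_lit 4302417164) (nat_lit 588) (nat_lit 4813128404) (nat_lit 102) (nat_lit 5) (nat_lit 108)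 (nat_lit 5) (nat_lit 109) (nat_lit 5) (nat_lit 360) (nat_lit 318) (nat_lit 267))))) (XT.nd (nat_lit 282) (nat_lit 840) (nat_lit 0) (XT.nd (nat_lit 94) (nat_lit 504) (nat_lit 0) (XT.lf (nat_lit 0) (nat_lit 6146984677) (nat_lit 504) (nat_lit 1219363629) (nat_lit 588) (nat_lit 2696636913) (nat_lit 102) (nat_lit 5) (nat_lit 108) (nat_lit 5) (nat_lit 109) (nat_lit 5) (nat_lit 361) (nat_lit 318) (nat_lit 266)) (XT.nd (nat_lit 94) (nat_lit 84) (nat_lit 0) (XT.lf (nat_lit 0) (nat_lit 1400868084) (nat_lit 420) (nat_lit 8307803602) (nat_lit 504) (nat_lit 523124627) (nat_lit 97) (nat_lit 5) (nat_lit 102) (nat_lit 5) (nat_lit 103) (nat_lit 5) (nat_lit 362) (nat_lit 318) (nat_lit 265)) (XT.lf (nat_lit 0) (nat_lit 1695867274) (nat_lit 504) (nat_lit 3523476432) (nat_lit 84) (nat_lit 5185479527) (nat_lit 96) (nat_lit 5) (nat_lit 102) (nat_lit 5) (nat_lit 97) (nat_lit 5) (nat_lit 363) (nat_lit 318) (nat_lit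 264)))) (XT.nd (nat_lit 188) (nat_lit 420) (nat_lit 0) (XT.nd (nat_lit 94) (nat_lit 0) (nat_lit 0) (XT.lf (nat_lit 0) (nat_lit 1929503862) (nat_lit 420) (nat_lit 2022815916) (nat_lit 504) (nat_lit 6631180716) (nat_lit 91) (nat_lit 5) (nat_lit 96) (nat_lit 5) (nat_lit 97) (nat_lit 5) (nat_lit 364) (nat_lit 318) (nat_lit 263)) (XT.lf (nat_lit 0) (nat_lit 6288013954) (nat_lit 504) (nat_lit 3207502206) (nat_lit 84) (nat_lit 1271730878) (nat_lit 91) (nat_lit 5) (nat_lit 97) (nat_lit 5) (nat_lit 92) (nat_lit 5) (nat_lit 365) (nat_lit 318) (nat_lit 262))) (XT.nd (nat_lit 94) (nat_lit 84) (nat_lit 0) (XT.lf (nat_lit 0) (nat_lit 2383454990) (nat_lit 336) (nat_lit 6317740129) (nat_lit 420) (nat_lit 2255142170) (nat_lit 87) (nat_lit 5) (nat_lit 91) (nat_lit 5) (nat_lit 92) (nat_lit 5) (nat_lit 366) (nat_lit 318) (nat_lit 261)) (XT.lf (nat_lit 0) (nat_lit 32368044) (nat_lit 420) (nat_lit 2988622925)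 (nat_lit 84) (nat_lit 8130227919) (nat_lit 86) (nat_lit 5) (nat_lit 91) (nat_lit 5) (nat_lit 87) (nat_lit 5) (nat_lit 367) (nat_lit 318) (nat_lit 260))))))))
noncomputable def xc94 : XT := (XT.nd (nat_lit 2538) (nat_lit 1680) (nat_lit 0) (XT.nd (nat_lit 1222) (nat_lit 1596) (nat_lit 0) (XT.nd (nat_lit 564) (nat_lit 1344) (nat_lit 0) (XT.nd (nat_lit 282) (nat_lit 420) (nat_lit 0) (XT.nd (nat_lit 94) (nat_lit 336) (nat_lit 0) (XT.lf (nat_lit 0) (nat_lit 2339311501) (nat_lit 504) (nat_lit 8605439060) (nat_lit 84) (nat_lit 406691737) (nat_lit 81) (nat_lit 5) (nat_lit 87) (nat_lit 5) (nat_lit 82) (nat_lit 5) (nat_lit 368) (nat_lit 318) (nat_lit 259)) (XT.nd (nat_lit 94) (nat_lit 336) (nat_lit 0) (XT.lf (nat_lit 0) (nat_lit 4742040965) (nat_lit 504) (nat_lit 2917960741) (nat_lit 84) (nat_lit 3896921171) (nat_lit 81) (nat_lit 5) (nat_lit 87) (nat_lit 5) (nat_lit 82) (nat_lit 5) (nat_lit 369)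 (nat_lit 318) (nat_lit 258)) (XT.lf (nat_lit 0) (nat_lit 2954180742) (nat_lit 336) (nat_lit 4258242618) (nat_lit 420) (nat_lit 4556323783) (nat_lit 77) (nat_lit 5) (nat_lit 81) (nat_lit 5) (nat_lit 82) (nat_lit 5) (nat_lit 370) (nat_lit 318) (nat_lit 257)))) (XT.nd (nat_lit 94) (nat_lit 420) (nat_lit 0) (XT.lf (nat_lit 0) (nat_lit 9019121442) (nat_lit 336) (nat_lit 734976155) (nat_lit 420) (nat_lit 2232958183) (nat_lit 77) (nat_lit 5) (nat_lit 81) (nat_lit 5) (nat_lit 82) (nat_lit 5) (nat_lit 371) (nat_lit 318) (nat_lit 256)) (XT.nd (nat_lit 94) (nat_lit 0) (nat_lit 0) (XT.lf (nat_lit 0) (nat_lit 182816763) (nat_lit 420) (nat_lit 9170131317) (nat_lit 84) (nat_lit 2858186911) (nat_lit 72) (nat_lit 5) (nat_lit 77) (nat_lit 5) (nat_lit 73) (nat_lit 5) (nat_lit 372) (nat_lit 318) (nat_lit 255)) (XT.lf (nat_lit 0) (nat_lit 2632442643) (nat_lit 420) (nat_lit 3222719438) (nat_lit 84) (nat_lit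 6585964733) (nat_lit 72) (nat_lit 5) (nat_lit 77) (nat_lit 5) (nat_lit 73) (nat_lit 5) (nat_lit 373) (nat_lit 318) (nat_lit 254))))) (XT.nd (nat_lit 282) (nat_lit 672) (nat_lit 0) (XT.nd (nat_lit 94) (nat_lit 336) (nat_lit 0) (XT.lf (nat_lit 0) (nat_lit 2918265207) (nat_lit 336) (nat_lit 2234969375) (nat_lit 420) (nat_lit 7524893519) (nat_lit 68) (nat_lit 5) (nat_lit 72) (nat_lit 5) (nat_lit 73) (nat_lit 5) (nat_lit 374) (nat_lit 318) (nat_lit 253)) (XT.nd (nat_lit 94) (nat_lit 336) (nat_lit 0) (XT.lf (nat_lit 0) (nat_lit 7766876727) (nat_lit 420) (nat_lit 3668613636) (nat_lit 84) (nat_lit 1486271134) (nat_lit 68) (nat_lit 5) (nat_lit 73) (nat_lit 5) (nat_lit 69) (nat_lit 5) (nat_lit 375) (nat_lit 318) (nat_lit 252)) (XT.lf (nat_lit 0) (nat_lit 2592859480) (nat_lit 336) (nat_lit 7883996450) (nat_lit 420) (nat_lit 2695347860) (nat_lit 64) (nat_lit 5) (nat_lit 68) (nat_lit 5) (nat_lit 69)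 (nat_lit 5) (nat_lit 376) (nat_lit 318) (nat_lit 251)))) (XT.nd (nat_lit 188) (nat_lit 336) (nat_lit 0) (XT.nd (nat_lit 94) (nat_lit 336) (nat_lit 0) (XT.lf (nat_lit 0) (nat_lit 9076800313) (nat_lit 336) (nat_lit 4199713454) (nat_lit 420) (nat_lit 153430840) (nat_lit 64) (nat_lit 5) (nat_lit 68) (nat_lit 5) (nat_lit 69) (nat_lit 5) (nat_lit 377) (nat_lit 318) (nat_lit 250)) (XT.lf (nat_lit 0) (nat_lit 2035884389) (nat_lit 252) (nat_lit 372191410) (nat_lit 336) (nat_lit 11286922755) (nat_lit 60) (nat_lit 5) (nat_lit 63) (nat_lit 5) (nat_lit 64) (nat_lit 5) (nat_lit 378) (nat_lit 318) (nat_lit 249))) (XT.nd (nat_lit 94) (nat_lit 336) (nat_lit 0) (XT.lf (nat_lit 0) (nat_lit 5094238428) (nat_lit 336) (nat_lit 5337489441) (nat_lit 84) (nat_lit 3534737363) (nat_lit 60) (nat_lit 5) (nat_lit 64) (nat_lit 5) (nat_lit 61) (nat_lit 5) (nat_lit 379) (nat_lit 318) (nat_lit 248)) (XT.lf (nat_lit 0)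 (nat_lit 1153431499) (nat_lit 336) (nat_lit 6695319822) (nat_lit 420) (nat_lit 6397724173) (nat_lit 56) (nat_lit 5) (nat_lit 60) (nat_lit 5) (nat_lit 61) (nat_lit 5) (nat_lit 380) (nat_lit 318) (nat_lit 247)))))) (XT.nd (nat_lit 658) (nat_lit 756) (nat_lit 0) (XT.nd (nat_lit 282) (nat_lit 504) (nat_lit 0) (XT.nd (nat_lit 94) (nat_lit 336) (nat_lit 0) (XT.lf (nat_lit 0) (nat_lit 7909702373) (nat_lit 336) (nat_lit 2803501975) (nat_lit 420) (nat_lit 3820894174) (nat_lit 56) (nat_lit 5) (nat_lit 60) (nat_lit 5) (nat_lit 61) (nat_lit 5) (nat_lit 381) (nat_lit 318) (nat_lit 246)) (XT.nd (nat_lit 94) (nat_lit 336) (nat_lit 0) (XT.lf (nat_lit 0) (nat_lit 13649242138) (nat_lit 420) (nat_lit 11625311) (nat_lit 84) (nat_lit 1169943934) (nat_lit 56) (nat_lit 5) (nat_lit 61) (nat_lit 5) (nat_lit 57) (nat_lit 5) (nat_lit 382) (nat_lit 318) (nat_lit 245)) (XT.lf (nat_lit 0) (nat_lit 1576199261) (nat_lit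 336) (nat_lit 8281284036) (nat_lit 84) (nat_lit 5276450382) (nat_lit 52) (nat_lit 5) (nat_lit 56) (nat_lit 5) (nat_lit 53) (nat_lit 5) (nat_lit 383) (nat_lit 318) (nat_lit 244)))) (XT.nd (nat_lit 188) (nat_lit 252) (nat_lit 0) (XT.nd (nat_lit 94) (nat_lit 252) (nat_lit 0) (XT.lf (nat_lit 0) (nat_lit 4367998645) (nat_lit 336) (nat_lit 1572152350) (nat_lit 84) (nat_lit 9506424377) (nat_lit 52) (nat_lit 5) (nat_lit 56) (nat_lit 5) (nat_lit 53) (nat_lit 5) (nat_lit 384) (nat_lit 318) (nat_lit 243)) (XT.lf (nat_lit 0) (nat_lit 5407464119) (nat_lit 252) (nat_lit 1863725644) (nat_lit 336) (nat_lit 8496604677) (nat_lit 49) (nat_lit 5) (nat_lit 52) (nat_lit 5) (nat_lit 53) (nat_lit 5) (nat_lit 385) (nat_lit 318) (nat_lit 242))) (XT.nd (nat_lit 94) (nat_lit 252) (nat_lit 0) (XT.lf (nat_lit 0) (nat_lit 10275861034) (nat_lit 336) (nat_lit 3528662739) (nat_lit 84) (nat_lit 2293721240) (nat_lit 49)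 (nat_lit 5) (nat_lit 53) (nat_lit 5) (nat_lit 50) (nat_lit 5) (nat_lit 386) (nat_lit 318) (nat_lit 241)) (XT.lf (nat_lit 0) (nat_lit 3522725702) (nat_lit 252) (nat_lit 9876870024) (nat_lit 336) (nat_lit 3038171369) (nat_lit 46) (nat_lit 5) (nat_lit 49) (nat_lit 5) (nat_lit 50) (nat_lit 5) (nat_lit 387) (nat_lit 318) (nat_lit 240))))) (XT.nd (nat_lit 282) (nat_lit 420) (nat_lit 0) (XT.nd (nat_lit 94) (nat_lit 336) (nat_lit 0) (XT.lf (nat_lit 0) (nat_lit 10822820630) (nat_lit 252) (nat_lit 5806805620) (nat_lit 336) (nat_lit 157496022) (nat_lit 46) (nat_lit 5) (nat_lit 49) (nat_lit 5) (nat_lit 50) (nat_lit 5) (nat_lit 388) (nat_lit 318) (nat_lit 239)) (XT.nd (nat_lit 94) (nat_lit 0) (nat_lit 0) (XT.lf (nat_lit 0) (nat_lit 1155889582) (nat_lit 252) (nat_lit 1587372945) (nat_lit 336) (nat_lit 14403254210) (nat_lit 42) (nat_lit 5) (nat_lit 45) (nat_lit 5) (nat_lit 46) (nat_lit 5) (nat_lit 389)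 (nat_lit 318) (nat_lit 238)) (XT.lf (nat_lit 0) (nat_lit 5792811570) (nat_lit 336) (nat_lit 8966466476) (nat_lit 84) (nat_lit 2755443041) (nat_lit 42) (nat_lit 5) (nat_lit 46) (nat_lit 5) (nat_lit 43) (nat_lit 5) (nat_lit 390) (nat_lit 318) (nat_lit 237)))) (XT.nd (nat_lit 188) (nat_lit 252) (nat_lit 0) (XT.nd (nat_lit 94) (nat_lit 168) (nat_lit 0) (XT.lf (nat_lit 0) (nat_lit 8927807743) (nat_lit 336) (nat_lit 1781138035) (nat_lit 84) (nat_lit 7185229131) (nat_lit 42) (nat_lit 5) (nat_lit 46) (nat_lit 5) (nat_lit 43) (nat_lit 5) (nat_lit 391) (nat_lit 318) (nat_lit 236)) (XT.lf (nat_lit 0) (nat_lit 5698085582) (nat_lit 168) (nat_lit 6492419467) (nat_lit 252) (nat_lit 6093519276) (nat_lit 40) (nat_lit 5) (nat_lit 42) (nat_lit 5) (nat_lit 43) (nat_lit 5) (nat_lit 392) (nat_lit 318) (nat_lit 235))) (XT.nd (nat_lit 94) (nat_lit 252) (nat_lit 0) (XT.lf (nat_lit 0) (nat_lit 13405664749) (nat_lit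 168) (nat_lit 2142584778) (nat_lit 252) (nat_lit 3137425601) (nat_lit 40) (nat_lit 5) (nat_lit 42) (nat_lit 5) (nat_lit 43) (nat_lit 5) (nat_lit 393) (nat_lit 318) (nat_lit 234)) (XT.lf (nat_lit 0) (nat_lit 2234117115) (nat_lit 252) (nat_lit 16796234097) (nat_lit 336) (nat_lit 68335778) (nat_lit 37) (nat_lit 5) (nat_lit 40) (nat_lit 5) (nat_lit 41) (nat_lit 5) (nat_lit 394) (nat_lit 318) (nat_lit 233))))))) (XT.nd (nat_lit 1316) (nat_lit 588) (nat_lit 0) (XT.nd (nat_lit 658) (nat_lit 588) (nat_lit 0) (XT.nd (nat_lit 282) (nat_lit 252) (nat_lit 0) (XT.nd (nat_lit 94) (nat_lit 168) (nat_lit 0) (XT.lf (nat_lit 0) (nat_lit 3087279919) (nat_lit 336) (nat_lit 9524267995) (nat_lit 84) (nat_lit 6910024347) (nat_lit 36) (nat_lit 5) (nat_lit 40) (nat_lit 5) (nat_lit 37) (nat_lit 5) (nat_lit 395) (nat_lit 318) (nat_lit 232)) (XT.nd (nat_lit 94) (nat_lit 168) (nat_lit 0) (XT.lf (nat_lit 0) (nat_lit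 6316526538) (nat_lit 336) (nat_lit 1995705531) (nat_lit 84) (nat_lit 11645500206) (nat_lit 36) (nat_lit 5) (nat_lit 40) (nat_lit 5) (nat_lit 37) (nat_lit 5) (nat_lit 396) (nat_lit 318) (nat_lit 231)) (XT.lf (nat_lit 0) (nat_lit 5842358208) (nat_lit 168) (nat_lit 3837361340) (nat_lit 252) (nat_lit 10726163492) (nat_lit 34) (nat_lit 5) (nat_lit 36) (nat_lit 5) (nat_lit 37) (nat_lit 5) (nat_lit 397) (nat_lit 318) (nat_lit 230)))) (XT.nd (nat_lit 188) (nat_lit 84) (nat_lit 0) (XT.nd (nat_lit 94) (nat_lit 168) (nat_lit 0) (XT.lf (nat_lit 0) (nat_lit 13152646884) (nat_lit 252) (nat_lit 6948555577) (nat_lit 84) (nat_lit 766028207) (nat_lit 34) (nat_lit 5) (nat_lit 37) (nat_lit 5) (nat_lit 35) (nat_lit 5) (nat_lit 398) (nat_lit 318) (nat_lit 229)) (XT.lf (nat_lit 0) (nat_lit 843684263) (nat_lit 168) (nat_lit 15913800591) (nat_lit 252) (nat_lit 4584119170) (nat_lit 32) (nat_lit 5) (nat_lit 34)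 (nat_lit 5) (nat_lit 35) (nat_lit 5) (nat_lit 399) (nat_lit 318) (nat_lit 228))) (XT.nd (nat_lit 94) (nat_lit 84) (nat_lit 0) (XT.lf (nat_lit 0) (nat_lit 8982772410) (nat_lit 168) (nat_lit 11539734635) (nat_lit 252) (nat_lit 1306156856) (nat_lit 32) (nat_lit 5) (nat_lit 34) (nat_lit 5) (nat_lit 35) (nat_lit 5) (nat_lit 400) (nat_lit 318) (nat_lit 227)) (XT.lf (nat_lit 0) (nat_lit 2011958686) (nat_lit 252) (nat_lit 5013073856) (nat_lit 84) (nat_lit 15305255282) (nat_lit 31) (nat_lit 5) (nat_lit 34) (nat_lit 5) (nat_lit 32) (nat_lit 5) (nat_lit 401) (nat_lit 318) (nat_lit 226))))) (XT.nd (nat_lit 282) (nat_lit 420) (nat_lit 0) (XT.nd (nat_lit 94) (nat_lit 0) (nat_lit 0) (XT.lf (nat_lit 0) (nat_lit 3073744837) (nat_lit 168) (nat_lit 2341895592) (nat_lit 252) (nat_lit 17430578905) (nat_lit 29) (nat_lit 5) (nat_lit 31) (nat_lit 5) (nat_lit 32) (nat_lit 5) (nat_lit 402) (nat_lit 318) (nat_lit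 225)) (XT.nd (nat_lit 94) (nat_lit 0) (nat_lit 0) (XT.lf (nat_lit 0) (nat_lit 8979273676) (nat_lit 252) (nat_lit 11922714997) (nat_lit 84) (nat_lit 2473919536) (nat_lit 29) (nat_lit 5) (nat_lit 32) (nat_lit 5) (nat_lit 30) (nat_lit 5) (nat_lit 403) (nat_lit 318) (nat_lit 224)) (XT.lf (nat_lit 0) (nat_lit 12656363846) (nat_lit 252) (nat_lit 3888007948) (nat_lit 84) (nat_lit 7376933745) (nat_lit 29) (nat_lit 5) (nat_lit 32) (nat_lit 5) (nat_lit 30) (nat_lit 5) (nat_lit 404) (nat_lit 318) (nat_lit 223)))) (XT.nd (nat_lit 188) (nat_lit 252) (nat_lit 0) (XT.nd (nat_lit 94) (nat_lit 0) (nat_lit 0) (XT.lf (nat_lit 0) (nat_lit 4447975011) (nat_lit 168) (nat_lit 12022393841) (nat_lit 252) (nat_lit 8011911682) (nat_lit 27) (nat_lit 5) (nat_lit 29) (nat_lit 5) (nat_lit 30) (nat_lit 5) (nat_lit 405) (nat_lit 318) (nat_lit 222)) (XT.lf (nat_lit 0) (nat_lit 13087436904) (nat_lit 168) (nat_lit 7334681538)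 (nat_lit 252) (nat_lit 4637280015) (nat_lit 27) (nat_lit 5) (nat_lit 29) (nat_lit 5) (nat_lit 30) (nat_lit 5) (nat_lit 406) (nat_lit 318) (nat_lit 221))) (XT.nd (nat_lit 94) (nat_lit 252) (nat_lit 0) (XT.lf (nat_lit 0) (nat_lit 21960547792) (nat_lit 168) (nat_lit 2516400082) (nat_lit 252) (nat_lit 1177359240) (nat_lit 27) (nat_lit 5) (nat_lit 29) (nat_lit 5) (nat_lit 30) (nat_lit 5) (nat_lit 407) (nat_lit 318) (nat_lit 220)) (XT.lf (nat_lit 0) (nat_lit 2395631609) (nat_lit 252) (nat_lit 21409578061) (nat_lit 84) (nat_lit 2459502290) (nat_lit 24) (nat_lit 5) (nat_lit 27) (nat_lit 5) (nat_lit 25) (nat_lit 5) (nat_lit 408) (nat_lit 318) (nat_lit 219)))))) (XT.nd (nat_lit 658) (nat_lit 252) (nat_lit 0) (XT.nd (nat_lit 282) (nat_lit 168) (nat_lit 0) (XT.nd (nat_lit 94) (nat_lit 168) (nat_lit 0) (XT.lf (nat_lit 0) (nat_lit 6099657496) (nat_lit 252) (nat_lit 13218264555) (nat_lit 84) (nat_lit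 7573743832) (nat_lit 24) (nat_lit 5) (nat_lit 27) (nat_lit 5) (nat_lit 25) (nat_lit 5) (nat_lit 409) (nat_lit 318) (nat_lit 218)) (XT.nd (nat_lit 94) (nat_lit 168) (nat_lit 0) (XT.lf (nat_lit 0) (nat_lit 9900168414) (nat_lit 252) (nat_lit 4805702692) (nat_lit 84) (nat_lit 12832007955) (nat_lit 24) (nat_lit 5) (nat_lit 27) (nat_lit 5) (nat_lit 25) (nat_lit 5) (nat_lit 410) (nat_lit 318) (nat_lit 217)) (XT.lf (nat_lit 0) (nat_lit 3911791449) (nat_lit 168) (nat_lit 9926296282) (nat_lit 252) (nat_lit 14364700342) (nat_lit 22) (nat_lit 5) (nat_lit 24) (nat_lit 5) (nat_lit 25) (nat_lit 5) (nat_lit 411) (nat_lit 318) (nat_lit 216)))) (XT.nd (nat_lit 188) (nat_lit 168) (nat_lit 0) (XT.nd (nat_lit 94) (nat_lit 0) (nat_lit 0) (XT.lf (nat_lit 0) (nat_lit 12965778008) (nat_lit 168) (nat_lit 4962872878) (nat_lit 252) (nat_lit 10957969186) (nat_lit 22) (nat_lit 5) (nat_lit 24) (nat_lit 5) (nat_lit 25)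 (nat_lit 5) (nat_lit 412) (nat_lit 318) (nat_lit 215)) (XT.lf (nat_lit 0) (nat_lit 22129665186) (nat_lit 252) (nat_lit 7324208457) (nat_lit 84) (nat_lit 137471943) (nat_lit 22) (nat_lit 5) (nat_lit 25) (nat_lit 5) (nat_lit 23) (nat_lit 4) (nat_lit 413) (nat_lit 318) (nat_lit 214))) (XT.nd (nat_lit 94) (nat_lit 84) (nat_lit 0) (XT.lf (nat_lit 0) (nat_lit 1487703710) (nat_lit 84) (nat_lit 25019140992) (nat_lit 168) (nat_lit 3808874398) (nat_lit 21) (nat_lit 5) (nat_lit 22) (nat_lit 5) (nat_lit 23) (nat_lit 4) (nat_lit 414) (nat_lit 318) (nat_lit 213)) (XT.lf (nat_lit 0) (nat_lit 15845394) (nat_lit 168) (nat_lit 20368344734) (nat_lit 84) (nat_lit 10675814106) (nat_lit 20) (nat_lit 5) (nat_lit 22) (nat_lit 5) (nat_lit 21) (nat_lit 5) (nat_lit 415) (nat_lit 318) (nat_lit 212))))) (XT.nd (nat_lit 282) (nat_lit 84) (nat_lit 0) (XT.nd (nat_lit 94) (nat_lit 168) (nat_lit 0) (XT.lf (nat_lit 0) (nat_lit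 3865868791) (nat_lit 168) (nat_lit 11714504918) (nat_lit 84) (nat_lit 16245508772) (nat_lit 20) (nat_lit 5) (nat_lit 22) (nat_lit 5) (nat_lit 21) (nat_lit 5) (nat_lit 416) (nat_lit 318) (nat_lit 211)) (XT.nd (nat_lit 94) (nat_lit 168) (nat_lit 0) (XT.lf (nat_lit 0) (nat_lit 7818884747) (nat_lit 168) (nat_lit 2822321103) (nat_lit 84) (nat_lit 21973915598) (nat_lit 20) (nat_lit 5) (nat_lit 22) (nat_lit 5) (nat_lit 21) (nat_lit 5) (nat_lit 417) (nat_lit 318) (nat_lit 210)) (XT.lf (nat_lit 0) (nat_lit 6441676897) (nat_lit 168) (nat_lit 5498591797) (nat_lit 252) (nat_lit 21486284431) (nat_lit 18) (nat_lit 5) (nat_lit 20) (nat_lit 5) (nat_lit 21) (nat_lit 5) (nat_lit 418) (nat_lit 318) (nat_lit 209)))) (XT.nd (nat_lit 188) (nat_lit 84) (nat_lit 0) (XT.nd (nat_lit 94) (nat_lit 0) (nat_lit 0) (XT.lf (nat_lit 0) (nat_lit 16021000475) (nat_lit 168) (nat_lit 180806902) (nat_lit 252) (nat_lit 18060033586)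 (nat_lit 18) (nat_lit 5) (nat_lit 20) (nat_lit 5) (nat_lit 21) (nat_lit 5) (nat_lit 419) (nat_lit 318) (nat_lit 208)) (XT.lf (nat_lit 0) (nat_lit 20630388985) (nat_lit 252) (nat_lit 9305529063) (nat_lit 84) (nat_lit 5185101840) (nat_lit 18) (nat_lit 5) (nat_lit 21) (nat_lit 5) (nat_lit 19) (nat_lit 4) (nat_lit 420) (nat_lit 318) (nat_lit 207))) (XT.nd (nat_lit 94) (nat_lit 84) (nat_lit 0) (XT.lf (nat_lit 0) (nat_lit 25182242923) (nat_lit 252) (nat_lit 123494169) (nat_lit 84) (nat_lit 10700532755) (nat_lit 18) (nat_lit 5) (nat_lit 21) (nat_lit 5) (nat_lit 19) (nat_lit 4) (nat_lit 421) (nat_lit 318) (nat_lit 206)) (XT.lf (nat_lit 0) (nat_lit 9500412626) (nat_lit 84) (nat_lit 20450519665) (nat_lit 168) (nat_lit 6964744495) (nat_lit 17) (nat_lit 5) (nat_lit 18) (nat_lit 5) (nat_lit 19) (nat_lit 4) (nat_lit 422) (nat_lit 318) (nat_lit 205))))))))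
noncomputable def xc95 : XT := (XT.nd (nat_lit 49726) (nat_lit 0) (nat_lit 11844) (XT.nd (nat_lit 1316) (nat_lit 252) (nat_lit 0) (XT.nd (nat_lit 658) (nat_lit 252) (nat_lit 0) (XT.nd (nat_lit 282) (nat_lit 0) (nat_lit 0) (XT.nd (nat_lit 94) (nat_lit 252) (nat_lit 0) (XT.lf (nat_lit 0) (nat_lit 19396777765) (nat_lit 84) (nat_lit 15456248704) (nat_lit 168) (nat_lit 2999636790) (nat_lit 17) (nat_lit 5) (nat_lit 18) (nat_lit 5) (nat_lit 19) (nat_lit 4) (nat_lit 423) (nat_lit 318) (nat_lit 204)) (XT.nd (nat_lit 94) (nat_lit 168) (nat_lit 0) (XT.lf (nat_lit 0) (nat_lit 1052565680) (nat_lit 168) (nat_lit 9256612802) (nat_lit 84) (nat_lit 28508596248) (nat_lit 16) (nat_lit 5) (nat_lit 18) (nat_lit 5) (nat_lit 17) (nat_lit 5) (nat_lit 424) (nat_lit 318) (nat_lit 203)) (XT.lf (nat_lit 0) (nat_lit 174416771) (nat_lit 168) (nat_lit 4982918454) (nat_lit 252) (nat_lit 34653881616) (nat_lit 14) (nat_lit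 5) (nat_lit 16) (nat_lit 5) (nat_lit 17) (nat_lit 5) (nat_lit 425) (nat_lit 318) (nat_lit 202)))) (XT.nd (nat_lit 188) (nat_lit 0) (nat_lit 0) (XT.nd (nat_lit 94) (nat_lit 0) (nat_lit 0) (XT.lf (nat_lit 0) (nat_lit 9474157324) (nat_lit 252) (nat_lit 30777283201) (nat_lit 84) (nat_lit 580361201) (nat_lit 14) (nat_lit 5) (nat_lit 17) (nat_lit 5) (nat_lit 15) (nat_lit 4) (nat_lit 426) (nat_lit 318) (nat_lit 201)) (XT.lf (nat_lit 0) (nat_lit 13959794628) (nat_lit 252) (nat_lit 21718784657) (nat_lit 84) (nat_lit 6203252153) (nat_lit 14) (nat_lit 5) (nat_lit 17) (nat_lit 5) (nat_lit 15) (nat_lit 4) (nat_lit 427) (nat_lit 318) (nat_lit 200))) (XT.nd (nat_lit 94) (nat_lit 0) (nat_lit 0) (XT.lf (nat_lit 0) (nat_lit 18570267765) (nat_lit 252) (nat_lit 12405490384) (nat_lit 84) (nat_lit 11987902294) (nat_lit 14) (nat_lit 5) (nat_lit 17) (nat_lit 5) (nat_lit 15) (nat_lit 4) (nat_lit 428) (nat_lit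 318) (nat_lit 199)) (XT.lf (nat_lit 0) (nat_lit 23309605304) (nat_lit 252) (nat_lit 2829262553) (nat_lit 84) (nat_lit 17939366172) (nat_lit 14) (nat_lit 5) (nat_lit 17) (nat_lit 5) (nat_lit 15) (nat_lit 4) (nat_lit 429) (nat_lit 318) (nat_lit 198))))) (XT.nd (nat_lit 282) (nat_lit 168) (nat_lit 0) (XT.nd (nat_lit 94) (nat_lit 0) (nat_lit 0) (XT.lf (nat_lit 0) (nat_lit 7157943675) (nat_lit 84) (nat_lit 21092811272) (nat_lit 168) (nat_lit 16973706953) (nat_lit 13) (nat_lit 5) (nat_lit 14) (nat_lit 5) (nat_lit 15) (nat_lit 4) (nat_lit 430) (nat_lit 318) (nat_lit 197)) (XT.nd (nat_lit 94) (nat_lit 0) (nat_lit 0) (XT.lf (nat_lit 0) (nat_lit 17486934224) (nat_lit 84) (nat_lit 15872715369) (nat_lit 168) (nat_lit 13044847562) (nat_lit 13) (nat_lit 5) (nat_lit 14) (nat_lit 5) (nat_lit 15) (nat_lit 4) (nat_lit 431) (nat_lit 318) (nat_lit 196)) (XT.lf (nat_lit 0) (nat_lit 28110426550) (nat_lit 84)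 (nat_lit 10502588902) (nat_lit 168) (nat_lit 9007187571) (nat_lit 13) (nat_lit 5) (nat_lit 14) (nat_lit 5) (nat_lit 15) (nat_lit 4) (nat_lit 432) (nat_lit 318) (nat_lit 195)))) (XT.nd (nat_lit 188) (nat_lit 84) (nat_lit 0) (XT.nd (nat_lit 94) (nat_lit 84) (nat_lit 0) (XT.lf (nat_lit 0) (nat_lit 39037703318) (nat_lit 84) (nat_lit 4977739529) (nat_lit 168) (nat_lit 4857198928) (nat_lit 13) (nat_lit 5) (nat_lit 14) (nat_lit 5) (nat_lit 15) (nat_lit 4) (nat_lit 433) (nat_lit 318) (nat_lit 194)) (XT.lf (nat_lit 0) (nat_lit 110773597) (nat_lit 84) (nat_lit 49468736423) (nat_lit 84) (nat_lit 583162026) (nat_lit 12) (nat_lit 4) (nat_lit 13) (nat_lit 5) (nat_lit 13) (nat_lit 4) (nat_lit 434) (nat_lit 318) (nat_lit 193))) (XT.nd (nat_lit 94) (nat_lit 0) (nat_lit 0) (XT.lf (nat_lit 0) (nat_lit 3885819563) (nat_lit 168) (nat_lit 41033646822) (nat_lit 84) (nat_lit 6566603114) (nat_lit 11) (nat_lit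 5) (nat_lit 13) (nat_lit 5) (nat_lit 12) (nat_lit 4) (nat_lit 435) (nat_lit 318) (nat_lit 192)) (XT.lf (nat_lit 0) (nat_lit 8469058799) (nat_lit 168) (nat_lit 31764900434) (nat_lit 84) (nat_lit 12615284058) (nat_lit 11) (nat_lit 5) (nat_lit 13) (nat_lit 5) (nat_lit 12) (nat_lit 4) (nat_lit 436) (nat_lit 318) (nat_lit 191)))))) (XT.nd (nat_lit 658) (nat_lit 168) (nat_lit 0) (XT.nd (nat_lit 282) (nat_lit 84) (nat_lit 0) (XT.nd (nat_lit 94) (nat_lit 0) (nat_lit 0) (XT.lf (nat_lit 0) (nat_lit 13181940044) (nat_lit 168) (nat_lit 22231954672) (nat_lit 84) (nat_lit 18839658000) (nat_lit 11) (nat_lit 5) (nat_lit 13) (nat_lit 5) (nat_lit 12) (nat_lit 4) (nat_lit 437) (nat_lit 318) (nat_lit 190)) (XT.nd (nat_lit 94) (nat_lit 0) (nat_lit 0) (XT.lf (nat_lit 0) (nat_lit 18028581351) (nat_lit 168) (nat_lit 12426479778) (nat_lit 84) (nat_lit 25245163715) (nat_lit 11) (nat_lit 5) (nat_lit 13) (nat_lit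 5) (nat_lit 12) (nat_lit 4) (nat_lit 438) (nat_lit 318) (nat_lit 189)) (XT.lf (nat_lit 0) (nat_lit 23013217648) (nat_lit 168) (nat_lit 2339907860) (nat_lit 84) (nat_lit 31837398246) (nat_lit 11) (nat_lit 5) (nat_lit 13) (nat_lit 5) (nat_lit 12) (nat_lit 4) (nat_lit 439) (nat_lit 318) (nat_lit 188)))) (XT.nd (nat_lit 188) (nat_lit 0) (nat_lit 0) (XT.nd (nat_lit 94) (nat_lit 0) (nat_lit 0) (XT.lf (nat_lit 0) (nat_lit 8196518182) (nat_lit 84) (nat_lit 20022476207) (nat_lit 168) (nat_lit 30504393562) (nat_lit 10) (nat_lit 5) (nat_lit 11) (nat_lit 5) (nat_lit 12) (nat_lit 4) (nat_lit 440) (nat_lit 318) (nat_lit 187)) (XT.lf (nat_lit 0) (nat_lit 19084440577) (nat_lit 84) (nat_lit 14513032366) (nat_lit 168) (nat_lit 26704273510) (nat_lit 10) (nat_lit 5) (nat_lit 11) (nat_lit 5) (nat_lit 12) (nat_lit 4) (nat_lit 441) (nat_lit 318) (nat_lit 186))) (XT.nd (nat_lit 94) (nat_lit 0) (nat_lit 0) (XT.lf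 (nat_lit 0) (nat_lit 30286804288) (nat_lit 84) (nat_lit 8843608390) (nat_lit 168) (nat_lit 22797253937) (nat_lit 10) (nat_lit 5) (nat_lit 11) (nat_lit 5) (nat_lit 12) (nat_lit 4) (nat_lit 442) (nat_lit 318) (nat_lit 185)) (XT.lf (nat_lit 0) (nat_lit 41813397789) (nat_lit 84) (nat_lit 3009250414) (nat_lit 168) (nat_lit 18779920943) (nat_lit 10) (nat_lit 5) (nat_lit 11) (nat_lit 5) (nat_lit 12) (nat_lit 4) (nat_lit 443) (nat_lit 318) (nat_lit 184))))) (XT.nd (nat_lit 282) (nat_lit 84) (nat_lit 0) (XT.nd (nat_lit 94) (nat_lit 84) (nat_lit 0) (XT.lf (nat_lit 0) (nat_lit 50707944428) (nat_lit 168) (nat_lit 11682415805) (nat_lit 0) (nat_lit 2936693585) (nat_lit 10) (nat_lit 5) (nat_lit 12) (nat_lit 4) (nat_lit 10) (nat_lit 4) (nat_lit 444) (nat_lit 318) (nat_lit 183)) (XT.nd (nat_lit 94) (nat_lit 84) (nat_lit 0) (XT.lf (nat_lit 0) (nat_lit 56793239214) (nat_lit 168) (nat_lit 1313559895) (nat_lit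 0) (nat_lit 8995774492) (nat_lit 10) (nat_lit 5) (nat_lit 12) (nat_lit 4) (nat_lit 10) (nat_lit 4) (nat_lit 445) (nat_lit 318) (nat_lit 182)) (XT.lf (nat_lit 0) (nat_lit 9541573764) (nat_lit 84) (nat_lit 53605068734) (nat_lit 84) (nat_lit 5782153644) (nat_lit 9) (nat_lit 4) (nat_lit 10) (nat_lit 5) (nat_lit 10) (nat_lit 4) (nat_lit 446) (nat_lit 318) (nat_lit 181)))) (XT.nd (nat_lit 47282) (nat_lit 0) (nat_lit 22512) (XT.nd (nat_lit 94) (nat_lit 84) (nat_lit 0) (XT.lf (nat_lit 0) (nat_lit 20738417357) (nat_lit 84) (nat_lit 48959400318) (nat_lit 84) (nat_lit 1111776133) (nat_lit 9) (nat_lit 4) (nat_lit 10) (nat_lit 5) (nat_lit 10) (nat_lit 4) (nat_lit 447) (nat_lit 318) (nat_lit 180)) (XT.lf (nat_lit 0) (nat_lit 3620558462) (nat_lit 168) (nat_lit 40521879918) (nat_lit 84) (nat_lit 28603493112) (nat_lit 8) (nat_lit 5) (nat_lit 10) (nat_lit 5) (nat_lit 9) (nat_lit 4) (nat_lit 448) (nat_lit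 318) (nat_lit 179))) (XT.nd (nat_lit 94) (nat_lit 0) (nat_lit 0) (XT.lf (nat_lit 0) (nat_lit 882357208) (nat_lit 420) (nat_lit 1187112446) (nat_lit 420) (nat_lit 1187112446) (nat_lit 276) (nat_lit 3) (nat_lit 281) (nat_lit 3) (nat_lit 281) (nat_lit 5) (nat_lit 319) (nat_lit 319) (nat_lit 307)) (XT.lf (nat_lit 84) (nat_lit 543314903) (nat_lit 0) (nat_lit 3619089507) (nat_lit 420) (nat_lit 2370105321) (nat_lit 277) (nat_lit 5) (nat_lit 276) (nat_lit 3) (nat_lit 281) (nat_lit 5) (nat_lit 320) (nat_lit 319) (nat_lit 306))))))) (XT.nd (nat_lit 1316) (nat_lit 7896) (nat_lit 0) (XT.nd (nat_lit 658) (nat_lit 1344) (nat_lit 0) (XT.nd (nat_lit 282) (nat_lit 1008) (nat_lit 0) (XT.nd (nat_lit 94) (nat_lit 0) (nat_lit 0) (XT.lf (nat_lit 0) (nat_lit 8247991) (nat_lit 420) (nat_lit 3006457046) (nat_lit 504) (nat_lit 3540074684) (nat_lit 271) (nat_lit 5) (nat_lit 276) (nat_lit 3) (nat_lit 277) (nat_lit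 5) (nat_lit 321) (nat_lit 319) (nat_lit 305)) (XT.nd (nat_lit 94) (nat_lit 0) (nat_lit 0) (XT.lf (nat_lit 0) (nat_lit 2319052222) (nat_lit 420) (nat_lit 7012648) (nat_lit 504) (nat_lit 4253952267) (nat_lit 271) (nat_lit 5) (nat_lit 276) (nat_lit 3) (nat_lit 277) (nat_lit 5) (nat_lit 322) (nat_lit 319) (nat_lit 304)) (XT.lf (nat_lit 84) (nat_lit 3094935477) (nat_lit 0) (nat_lit 1545390746) (nat_lit 504) (nat_lit 1967708782) (nat_lit 272) (nat_lit 5) (nat_lit 271) (nat_lit 5) (nat_lit 277) (nat_lit 5) (nat_lit 323) (nat_lit 319) (nat_lit 303)))) (XT.nd (nat_lit 188) (nat_lit 504) (nat_lit 0) (XT.nd (nat_lit 94) (nat_lit 0) (nat_lit 84) (XT.lf (nat_lit 0) (nat_lit 299140192) (nat_lit 504) (nat_lit 399986417) (nat_lit 588) (nat_lit 5940521278) (nat_lit 265) (nat_lit 5) (nat_lit 271) (nat_lit 5) (nat_lit 272) (nat_lit 5) (nat_lit 324) (nat_lit 319) (nat_lit 302)) (XT.lf (nat_lit 0) (nat_lit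 2538742698) (nat_lit 504) (nat_lit 3882479434) (nat_lit 588) (nat_lit 252309476) (nat_lit 266) (nat_lit 5) (nat_lit 272) (nat_lit 5) (nat_lit 273) (nat_lit 5) (nat_lit 325) (nat_lit 319) (nat_lit 301))) (XT.nd (nat_lit 94) (nat_lit 588) (nat_lit 0) (XT.lf (nat_lit 0) (nat_lit 4773865764) (nat_lit 504) (nat_lit 679793154) (nat_lit 588) (nat_lit 1257151911) (nat_lit 266) (nat_lit 5) (nat_lit 272) (nat_lit 5) (nat_lit 273) (nat_lit 5) (nat_lit 326) (nat_lit 319) (nat_lit 300)) (XT.lf (nat_lit 0) (nat_lit 264627557) (nat_lit 588) (nat_lit 4132626847) (nat_lit 672) (nat_lit 2353750454) (nat_lit 259) (nat_lit 5) (nat_lit 266) (nat_lit 5) (nat_lit 267) (nat_lit 5) (nat_lit 327) (nat_lit 319) (nat_lit 299))))) (XT.nd (nat_lit 282) (nat_lit 1344) (nat_lit 0) (XT.nd (nat_lit 94) (nat_lit 0) (nat_lit 0) (XT.lf (nat_lit 0) (nat_lit 2420871302) (nat_lit 588) (nat_lit 832392854) (nat_lit 672) (nat_lit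 3540948116) (nat_lit 259) (nat_lit 5) (nat_lit 266) (nat_lit 5) (nat_lit 267) (nat_lit 5) (nat_lit 328) (nat_lit 319) (nat_lit 298)) (XT.nd (nat_lit 94) (nat_lit 0) (nat_lit 0) (XT.lf (nat_lit 84) (nat_lit 2568049521) (nat_lit 0) (nat_lit 2021372556) (nat_lit 672) (nat_lit 2251068671) (nat_lit 260) (nat_lit 5) (nat_lit 259) (nat_lit 5) (nat_lit 267) (nat_lit 5) (nat_lit 329) (nat_lit 319) (nat_lit 297)) (XT.lf (nat_lit 84) (nat_lit 6039137387) (nat_lit 0) (nat_lit 717010670) (nat_lit 672) (nat_lit 134213465) (nat_lit 260) (nat_lit 5) (nat_lit 259) (nat_lit 5) (nat_lit 267) (nat_lit 5) (nat_lit 330) (nat_lit 319) (nat_lit 296)))) (XT.nd (nat_lit 188) (nat_lit 756) (nat_lit 0) (XT.nd (nat_lit 94) (nat_lit 0) (nat_lit 0) (XT.lf (nat_lit 0) (nat_lit 1964459228) (nat_lit 672) (nat_lit 4293380329) (nat_lit 84) (nat_lit 684737780) (nat_lit 252) (nat_lit 5) (nat_lit 260) (nat_lit 5) (nat_lit 253)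 (nat_lit 5) (nat_lit 331) (nat_lit 319) (nat_lit 295)) (XT.lf (nat_lit 0) (nat_lit 4067092646) (nat_lit 672) (nat_lit 783318885) (nat_lit 84) (nat_lit 2147778032) (nat_lit 252) (nat_lit 5) (nat_lit 260) (nat_lit 5) (nat_lit 253) (nat_lit 5) (nat_lit 332) (nat_lit 319) (nat_lit 294))) (XT.nd (nat_lit 94) (nat_lit 84) (nat_lit 0) (XT.lf (nat_lit 0) (nat_lit 2838121412) (nat_lit 672) (nat_lit 3351983068) (nat_lit 756) (nat_lit 866822174) (nat_lit 244) (nat_lit 5) (nat_lit 252) (nat_lit 5) (nat_lit 253) (nat_lit 5) (nat_lit 333) (nat_lit 319) (nat_lit 293)) (XT.lf (nat_lit 0) (nat_lit 1173536326) (nat_lit 756) (nat_lit 595475977) (nat_lit 84) (nat_lit 5350053867) (nat_lit 243) (nat_lit 5) (nat_lit 252) (nat_lit 5) (nat_lit 244) (nat_lit 5) (nat_lit 334) (nat_lit 319) (nat_lit 292)))))) (XT.nd (nat_lit 658) (nat_lit 4200) (nat_lit 0) (XT.nd (nat_lit 282) (nat_lit 2016) (nat_lit 0) (XT.nd (nat_lit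 94) (nat_lit 924) (nat_lit 0) (XT.lf (nat_lit 0) (nat_lit 3140351946) (nat_lit 756) (nat_lit 80277834) (nat_lit 840) (nat_lit 3963454814) (nat_lit 234) (nat_lit 5) (nat_lit 243) (nat_lit 5) (nat_lit 244) (nat_lit 5) (nat_lit 335) (nat_lit 319) (nat_lit 291)) (XT.nd (nat_lit 94) (nat_lit 924) (nat_lit 0) (XT.lf (nat_lit 0) (nat_lit 5285576264) (nat_lit 840) (nat_lit 317133709) (nat_lit 84) (nat_lit 1649806306) (nat_lit 234) (nat_lit 5) (nat_lit 244) (nat_lit 5) (nat_lit 235) (nat_lit 5) (nat_lit 336) (nat_lit 319) (nat_lit 290)) (XT.lf (nat_lit 0) (nat_lit 58446057) (nat_lit 924) (nat_lit 3784274737) (nat_lit 84) (nat_lit 3481279627) (nat_lit 223) (nat_lit 5) (nat_lit 234) (nat_lit 5) (nat_lit 224) (nat_lit 5) (nat_lit 337) (nat_lit 319) (nat_lit 289)))) (XT.nd (nat_lit 188) (nat_lit 1092) (nat_lit 0) (XT.nd (nat_lit 94) (nat_lit 0) (nat_lit 0) (XT.lf (nat_lit 0) (nat_lit 52627861) (nat_lit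 924) (nat_lit 1993126596) (nat_lit 1008) (nat_lit 5353212246) (nat_lit 212) (nat_lit 5) (nat_lit 223) (nat_lit 5) (nat_lit 224) (nat_lit 5) (nat_lit 338) (nat_lit 319) (nat_lit 288)) (XT.lf (nat_lit 0) (nat_lit 4032551633) (nat_lit 924) (nat_lit 36657420) (nat_lit 1008) (nat_lit 3407815638) (nat_lit 212) (nat_lit 5) (nat_lit 223) (nat_lit 5) (nat_lit 224) (nat_lit 5) (nat_lit 339) (nat_lit 319) (nat_lit 287))) (XT.nd (nat_lit 94) (nat_lit 84) (nat_lit 0) (XT.lf (nat_lit 0) (nat_lit 515227164) (nat_lit 1008) (nat_lit 5602333544) (nat_lit 1092) (nat_lit 1441072398) (nat_lit 200) (nat_lit 5) (nat_lit 212) (nat_lit 5) (nat_lit 213) (nat_lit 5) (nat_lit 340) (nat_lit 319) (nat_lit 286)) (XT.lf (nat_lit 0) (nat_lit 549531298) (nat_lit 1092) (nat_lit 3034716714) (nat_lit 84) (nat_lit 4059111910) (nat_lit 199) (nat_lit 5) (nat_lit 212) (nat_lit 5) (nat_lit 200) (nat_lit 5) (nat_lit 341) (nat_lit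 319) (nat_lit 285))))) (XT.nd (nat_lit 282) (nat_lit 1932) (nat_lit 0) (XT.nd (nat_lit 94) (nat_lit 1176) (nat_lit 0) (XT.lf (nat_lit 0) (nat_lit 1050889690) (nat_lit 1092) (nat_lit 1472603501) (nat_lit 1176) (nat_lit 5208252262) (nat_lit 186) (nat_lit 5) (nat_lit 199) (nat_lit 5) (nat_lit 200) (nat_lit 5) (nat_lit 342) (nat_lit 319) (nat_lit 284)) (XT.nd (nat_lit 94) (nat_lit 1176) (nat_lit 0) (XT.lf (nat_lit 0) (nat_lit 4538148212) (nat_lit 1176) (nat_lit 2558618965) (nat_lit 84) (nat_lit 726690639) (nat_lit 186) (nat_lit 5) (nat_lit 200) (nat_lit 5) (nat_lit 187) (nat_lit 5) (nat_lit 343) (nat_lit 319) (nat_lit 283)) (XT.lf (nat_lit 0) (nat_lit 1655521008) (nat_lit 1176) (nat_lit 4933627992) (nat_lit 1260) (nat_lit 1329611379) (nat_lit 172) (nat_lit 5) (nat_lit 186) (nat_lit 5) (nat_lit 187) (nat_lit 5) (nat_lit 344) (nat_lit 319) (nat_lit 282)))) (XT.nd (nat_lit 188) (nat_lit 588)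 (nat_lit 0) (XT.nd (nat_lit 94) (nat_lit 1260) (nat_lit 0) (XT.lf (nat_lit 0) (nat_lit 643379606) (nat_lit 1260) (nat_lit 2024640587) (nat_lit 84) (nat_lit 5349654193) (nat_lit 171) (nat_lit 5) (nat_lit 186) (nat_lit 5) (nat_lit 172) (nat_lit 5) (nat_lit 345) (nat_lit 319) (nat_lit 281)) (XT.lf (nat_lit 0) (nat_lit 2324584634) (nat_lit 1260) (nat_lit 294064191) (nat_lit 1344) (nat_lit 5501523852) (nat_lit 156) (nat_lit 5) (nat_lit 171) (nat_lit 5) (nat_lit 172) (nat_lit 5) (nat_lit 346) (nat_lit 319) (nat_lit 280))) (XT.nd (nat_lit 94) (nat_lit 588) (nat_lit 0) (XT.lf (nat_lit 0) (nat_lit 4643065475) (nat_lit 1344) (nat_lit 1450151369) (nat_lit 84) (nat_lit 2132935470) (nat_lit 156) (nat_lit 5) (nat_lit 172) (nat_lit 5) (nat_lit 157) (nat_lit 5) (nat_lit 347) (nat_lit 319) (nat_lit 279)) (XT.lf (nat_lit 0) (nat_lit 3033456421) (nat_lit 588) (nat_lit 3676891535) (nat_lit 672) (nat_lit 1625599456)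 (nat_lit 149) (nat_lit 5) (nat_lit 156) (nat_lit 5) (nat_lit 157) (nat_lit 5) (nat_lit 348) (nat_lit 319) (nat_lit 278))))))))
noncomputable def xc96 : XT := (XT.nd (nat_lit 2538) (nat_lit 3276) (nat_lit 0) (XT.nd (nat_lit 1222) (nat_lit 2856) (nat_lit 0) (XT.nd (nat_lit 564) (nat_lit 2016) (nat_lit 0) (XT.nd (nat_lit 282) (nat_lit 1260) (nat_lit 0) (XT.nd (nat_lit 94) (nat_lit 588) (nat_lit 0) (XT.lf (nat_lit 0) (nat_lit 348254565) (nat_lit 672) (nat_lit 820276566) (nat_lit 84) (nat_lit 7281528990) (nat_lit 148) (nat_lit 5) (nat_lit 156) (nat_lit 5) (nat_lit 149) (nat_lit 5) (nat_lit 349) (nat_lit 319) (nat_lit 277)) (XT.nd (nat_lit 94) (nat_lit 0) (nat_lit 0) (XT.lf (nat_lit 0) (nat_lit 2351292490) (nat_lit 672) (nat_lit 4774730881) (nat_lit 84) (nat_lit 1441102335) (nat_lit 141) (nat_lit 5) (nat_lit 149) (nat_lit 5) (nat_lit 142) (nat_lit 5) (nat_lit 350) (nat_lit 319) (nat_lit 276))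 (XT.lf (nat_lit 0) (nat_lit 4387220873) (nat_lit 672) (nat_lit 187529890) (nat_lit 84) (nat_lit 4113857429) (nat_lit 141) (nat_lit 5) (nat_lit 149) (nat_lit 5) (nat_lit 142) (nat_lit 5) (nat_lit 351) (nat_lit 319) (nat_lit 275)))) (XT.nd (nat_lit 94) (nat_lit 672) (nat_lit 0) (XT.lf (nat_lit 0) (nat_lit 4579380615) (nat_lit 588) (nat_lit 1903103688) (nat_lit 672) (nat_lit 2331389460) (nat_lit 134) (nat_lit 5) (nat_lit 141) (nat_lit 5) (nat_lit 142) (nat_lit 5) (nat_lit 352) (nat_lit 319) (nat_lit 274)) (XT.nd (nat_lit 94) (nat_lit 84) (nat_lit 0) (XT.lf (nat_lit 0) (nat_lit 503739968) (nat_lit 588) (nat_lit 8106880398) (nat_lit 672) (nat_lit 333260304) (nat_lit 127) (nat_lit 5) (nat_lit 134) (nat_lit 5) (nat_lit 135) (nat_lit 5) (nat_lit 353) (nat_lit 319) (nat_lit 273)) (XT.lf (nat_lit 0) (nat_lit 1708616228) (nat_lit 672) (nat_lit 3690136147) (nat_lit 84) (nat_lit 3678093184) (nat_lit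 126) (nat_lit 5) (nat_lit 134) (nat_lit 5) (nat_lit 127) (nat_lit 5) (nat_lit 354) (nat_lit 319) (nat_lit 272))))) (XT.nd (nat_lit 282) (nat_lit 1008) (nat_lit 0) (XT.nd (nat_lit 94) (nat_lit 504) (nat_lit 0) (XT.lf (nat_lit 0) (nat_lit 1174702020) (nat_lit 504) (nat_lit 2598373561) (nat_lit 588) (nat_lit 5441660785) (nat_lit 120) (nat_lit 5) (nat_lit 126) (nat_lit 5) (nat_lit 127) (nat_lit 5) (nat_lit 355) (nat_lit 319) (nat_lit 271)) (XT.nd (nat_lit 94) (nat_lit 504) (nat_lit 0) (XT.lf (nat_lit 0) (nat_lit 5897351030) (nat_lit 588) (nat_lit 3145766947) (nat_lit 84) (nat_lit 313783913) (nat_lit 120) (nat_lit 5) (nat_lit 127) (nat_lit 5) (nat_lit 121) (nat_lit 5) (nat_lit 356) (nat_lit 319) (nat_lit 270)) (XT.lf (nat_lit 0) (nat_lit 1859150488) (nat_lit 504) (nat_lit 6228540723) (nat_lit 588) (nat_lit 1415643372) (nat_lit 114) (nat_lit 5) (nat_lit 120) (nat_lit 5) (nat_lit 121) (nat_lit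 5) (nat_lit 357) (nat_lit 319) (nat_lit 269)))) (XT.nd (nat_lit 188) (nat_lit 504) (nat_lit 0) (XT.nd (nat_lit 94) (nat_lit 420) (nat_lit 0) (XT.lf (nat_lit 0) (nat_lit 667231560) (nat_lit 588) (nat_lit 2628605590) (nat_lit 84) (nat_lit 6358459198) (nat_lit 113) (nat_lit 5) (nat_lit 120) (nat_lit 5) (nat_lit 114) (nat_lit 5) (nat_lit 358) (nat_lit 319) (nat_lit 268)) (XT.lf (nat_lit 0) (nat_lit 2526951686) (nat_lit 420) (nat_lit 241697893) (nat_lit 504) (nat_lit 7041247763) (nat_lit 108) (nat_lit 5) (nat_lit 113) (nat_lit 5) (nat_lit 114) (nat_lit 5) (nat_lit 359) (nat_lit 319) (nat_lit 267))) (XT.nd (nat_lit 94) (nat_lit 504) (nat_lit 0) (XT.lf (nat_lit 0) (nat_lit 4948714197) (nat_lit 504) (nat_lit 2152998040) (nat_lit 84) (nat_lit 2868050242) (nat_lit 108) (nat_lit 5) (nat_lit 114) (nat_lit 5) (nat_lit 109) (nat_lit 5) (nat_lit 360) (nat_lit 319) (nat_lit 266)) (XT.lf (nat_lit 0) (nat_lit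 3144664274) (nat_lit 504) (nat_lit 4044159157) (nat_lit 588) (nat_lit 2945823222) (nat_lit 102) (nat_lit 5) (nat_lit 108) (nat_lit 5) (nat_lit 109) (nat_lit 5) (nat_lit 361) (nat_lit 319) (nat_lit 265)))))) (XT.nd (nat_lit 658) (nat_lit 1512) (nat_lit 0) (XT.nd (nat_lit 282) (nat_lit 840) (nat_lit 0) (XT.nd (nat_lit 94) (nat_lit 504) (nat_lit 0) (XT.lf (nat_lit 0) (nat_lit 8600679090) (nat_lit 504) (nat_lit 879895488) (nat_lit 588) (nat_lit 824430162) (nat_lit 102) (nat_lit 5) (nat_lit 108) (nat_lit 5) (nat_lit 109) (nat_lit 5) (nat_lit 362) (nat_lit 319) (nat_lit 264)) (XT.nd (nat_lit 94) (nat_lit 0) (nat_lit 0) (XT.lf (nat_lit 0) (nat_lit 1356811922) (nat_lit 504) (nat_lit 6747521876) (nat_lit 84) (nat_lit 2375121747) (nat_lit 96) (nat_lit 5) (nat_lit 102) (nat_lit 5) (nat_lit 97) (nat_lit 5) (nat_lit 363) (nat_lit 319) (nat_lit 263)) (XT.lf (nat_lit 0) (nat_lit 3576953003) (nat_lit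 504) (nat_lit 1354273202) (nat_lit 84) (nat_lit 5728023239) (nat_lit 96) (nat_lit 5) (nat_lit 102) (nat_lit 5) (nat_lit 97) (nat_lit 5) (nat_lit 364) (nat_lit 319) (nat_lit 262)))) (XT.nd (nat_lit 188) (nat_lit 420) (nat_lit 0) (XT.nd (nat_lit 94) (nat_lit 0) (nat_lit 0) (XT.lf (nat_lit 0) (nat_lit 4239993486) (nat_lit 420) (nat_lit 1629451930) (nat_lit 504) (nat_lit 4974873126) (nat_lit 91) (nat_lit 5) (nat_lit 96) (nat_lit 5) (nat_lit 97) (nat_lit 5) (nat_lit 365) (nat_lit 319) (nat_lit 261)) (XT.lf (nat_lit 0) (nat_lit 8227062757) (nat_lit 504) (nat_lit 1065934181) (nat_lit 84) (nat_lit 1742104496) (nat_lit 91) (nat_lit 5) (nat_lit 97) (nat_lit 5) (nat_lit 92) (nat_lit 5) (nat_lit 366) (nat_lit 319) (nat_lit 260))) (XT.nd (nat_lit 94) (nat_lit 84) (nat_lit 0) (XT.lf (nat_lit 0) (nat_lit 4670812583) (nat_lit 336) (nat_lit 6012144149) (nat_lit 420) (nat_lit 547875347) (nat_lit 87) (nat_lit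 5) (nat_lit 91) (nat_lit 5) (nat_lit 92) (nat_lit 5) (nat_lit 367) (nat_lit 319) (nat_lit 259)) (XT.lf (nat_lit 0) (nat_lit 1722937129) (nat_lit 420) (nat_lit 890914967) (nat_lit 84) (nat_lit 8818789594) (nat_lit 86) (nat_lit 5) (nat_lit 91) (nat_lit 5) (nat_lit 87) (nat_lit 5) (nat_lit 368) (nat_lit 319) (nat_lit 258))))) (XT.nd (nat_lit 282) (nat_lit 756) (nat_lit 0) (XT.nd (nat_lit 94) (nat_lit 336) (nat_lit 0) (XT.lf (nat_lit 0) (nat_lit 4075549094) (nat_lit 504) (nat_lit 6650340622) (nat_lit 84) (nat_lit 913758935) (nat_lit 81) (nat_lit 5) (nat_lit 87) (nat_lit 5) (nat_lit 82) (nat_lit 5) (nat_lit 369) (nat_lit 319) (nat_lit 257)) (XT.nd (nat_lit 94) (nat_lit 336) (nat_lit 0) (XT.lf (nat_lit 0) (nat_lit 6501834474) (nat_lit 504) (nat_lit 856701883) (nat_lit 84) (nat_lit 4494281666) (nat_lit 81) (nat_lit 5) (nat_lit 87) (nat_lit 5) (nat_lit 82) (nat_lit 5) (nat_lit 370) (nat_lit 319)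 (nat_lit 256)) (XT.lf (nat_lit 0) (nat_lit 5170537201) (nat_lit 336) (nat_lit 3849131602) (nat_lit 420) (nat_lit 3052194600) (nat_lit 77) (nat_lit 5) (nat_lit 81) (nat_lit 5) (nat_lit 82) (nat_lit 5) (nat_lit 371) (nat_lit 319) (nat_lit 255)))) (XT.nd (nat_lit 188) (nat_lit 336) (nat_lit 0) (XT.nd (nat_lit 94) (nat_lit 420) (nat_lit 0) (XT.lf (nat_lit 0) (nat_lit 11355453373) (nat_lit 336) (nat_lit 235803795) (nat_lit 420) (nat_lit 706918874) (nat_lit 77) (nat_lit 5) (nat_lit 81) (nat_lit 5) (nat_lit 82) (nat_lit 5) (nat_lit 372) (nat_lit 319) (nat_lit 254)) (XT.lf (nat_lit 0) (nat_lit 1729937971) (nat_lit 420) (nat_lit 7323961493) (nat_lit 84) (nat_lit 3475288886) (nat_lit 72) (nat_lit 5) (nat_lit 77) (nat_lit 5) (nat_lit 73) (nat_lit 5) (nat_lit 373) (nat_lit 319) (nat_lit 253))) (XT.nd (nat_lit 94) (nat_lit 336) (nat_lit 0) (XT.lf (nat_lit 0) (nat_lit 4208150587) (nat_lit 420) (nat_lit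 1259911930) (nat_lit 84) (nat_lit 7299423644) (nat_lit 72) (nat_lit 5) (nat_lit 77) (nat_lit 5) (nat_lit 73) (nat_lit 5) (nat_lit 374) (nat_lit 319) (nat_lit 252)) (XT.lf (nat_lit 0) (nat_lit 5045111185) (nat_lit 336) (nat_lit 1735463867) (nat_lit 420) (nat_lit 6231799622) (nat_lit 68) (nat_lit 5) (nat_lit 72) (nat_lit 5) (nat_lit 73) (nat_lit 5) (nat_lit 375) (nat_lit 319) (nat_lit 251))))))) (XT.nd (nat_lit 1316) (nat_lit 1344) (nat_lit 0) (XT.nd (nat_lit 658) (nat_lit 924) (nat_lit 0) (XT.nd (nat_lit 282) (nat_lit 588) (nat_lit 0) (XT.nd (nat_lit 94) (nat_lit 420) (nat_lit 0) (XT.lf (nat_lit 0) (nat_lit 9435018467) (nat_lit 420) (nat_lit 1759303867) (nat_lit 84) (nat_lit 2070178752) (nat_lit 68) (nat_lit 5) (nat_lit 73) (nat_lit 5) (nat_lit 69) (nat_lit 5) (nat_lit 376) (nat_lit 319) (nat_lit 250)) (XT.nd (nat_lit 94) (nat_lit 84) (nat_lit 0) (XT.lf (nat_lit 0) (nat_lit 4670215715)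 (nat_lit 336) (nat_lit 7533502364) (nat_lit 420) (nat_lit 1319470090) (nat_lit 64) (nat_lit 5) (nat_lit 68) (nat_lit 5) (nat_lit 69) (nat_lit 5) (nat_lit 377) (nat_lit 319) (nat_lit 249)) (XT.lf (nat_lit 0) (nat_lit 1231760718) (nat_lit 420) (nat_lit 2511589286) (nat_lit 84) (nat_lit 10046235770) (nat_lit 63) (nat_lit 5) (nat_lit 68) (nat_lit 5) (nat_lit 64) (nat_lit 5) (nat_lit 378) (nat_lit 319) (nat_lit 248)))) (XT.nd (nat_lit 188) (nat_lit 336) (nat_lit 0) (XT.nd (nat_lit 94) (nat_lit 0) (nat_lit 0) (XT.lf (nat_lit 0) (nat_lit 3847346465) (nat_lit 336) (nat_lit 10016923218) (nat_lit 84) (nat_lit 198916108) (nat_lit 60) (nat_lit 5) (nat_lit 64) (nat_lit 5) (nat_lit 61) (nat_lit 5) (nat_lit 379) (nat_lit 319) (nat_lit 247)) (XT.lf (nat_lit 0) (nat_lit 6577855343) (nat_lit 336) (nat_lit 3567245862) (nat_lit 84) (nat_lit 4198830535) (nat_lit 60) (nat_lit 5) (nat_lit 64) (nat_lit 5) (nat_lit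 61) (nat_lit 5) (nat_lit 380) (nat_lit 319) (nat_lit 246))) (XT.nd (nat_lit 94) (nat_lit 0) (nat_lit 0) (XT.lf (nat_lit 0) (nat_lit 3099477527) (nat_lit 336) (nat_lit 6295139190) (nat_lit 420) (nat_lit 5238383913) (nat_lit 56) (nat_lit 5) (nat_lit 60) (nat_lit 5) (nat_lit 61) (nat_lit 5) (nat_lit 381) (nat_lit 319) (nat_lit 245)) (XT.lf (nat_lit 0) (nat_lit 10002763427) (nat_lit 336) (nat_lit 2304072833) (nat_lit 420) (nat_lit 2623606450) (nat_lit 56) (nat_lit 5) (nat_lit 60) (nat_lit 5) (nat_lit 61) (nat_lit 5) (nat_lit 382) (nat_lit 319) (nat_lit 244))))) (XT.nd (nat_lit 282) (nat_lit 336) (nat_lit 0) (XT.nd (nat_lit 94) (nat_lit 252) (nat_lit 0) (XT.lf (nat_lit 0) (nat_lit 79128520) (nat_lit 336) (nat_lit 13378189673) (nat_lit 84) (nat_lit 1779171682) (nat_lit 52) (nat_lit 5) (nat_lit 56) (nat_lit 5) (nat_lit 53) (nat_lit 5) (nat_lit 383) (nat_lit 319) (nat_lit 243)) (XT.nd (nat_lit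 94) (nat_lit 252) (nat_lit 0) (XT.lf (nat_lit 0) (nat_lit 2858936721) (nat_lit 336) (nat_lit 6686943834) (nat_lit 84) (nat_lit 6003624176) (nat_lit 52) (nat_lit 5) (nat_lit 56) (nat_lit 5) (nat_lit 53) (nat_lit 5) (nat_lit 384) (nat_lit 319) (nat_lit 242)) (XT.lf (nat_lit 0) (nat_lit 173167761) (nat_lit 252) (nat_lit 5527002896) (nat_lit 336) (nat_lit 10172424895) (nat_lit 49) (nat_lit 5) (nat_lit 52) (nat_lit 5) (nat_lit 53) (nat_lit 5) (nat_lit 385) (nat_lit 319) (nat_lit 241)))) (XT.nd (nat_lit 188) (nat_lit 336) (nat_lit 0) (XT.nd (nat_lit 94) (nat_lit 0) (nat_lit 0) (XT.lf (nat_lit 0) (nat_lit 7341253348) (nat_lit 252) (nat_lit 1329632991) (nat_lit 336) (nat_lit 7533191109) (nat_lit 49) (nat_lit 5) (nat_lit 52) (nat_lit 5) (nat_lit 53) (nat_lit 5) (nat_lit 386) (nat_lit 319) (nat_lit 240)) (XT.lf (nat_lit 0) (nat_lit 11736789647) (nat_lit 336) (nat_lit 1884382186) (nat_lit 84) (nat_lit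 2924174927) (nat_lit 49) (nat_lit 5) (nat_lit 53) (nat_lit 5) (nat_lit 50) (nat_lit 5) (nat_lit 387) (nat_lit 319) (nat_lit 239))) (XT.nd (nat_lit 94) (nat_lit 84) (nat_lit 0) (XT.lf (nat_lit 0) (nat_lit 5361389669) (nat_lit 252) (nat_lit 9575932785) (nat_lit 336) (nat_lit 1958276343) (nat_lit 46) (nat_lit 5) (nat_lit 49) (nat_lit 5) (nat_lit 50) (nat_lit 5) (nat_lit 388) (nat_lit 319) (nat_lit 238)) (XT.lf (nat_lit 0) (nat_lit 955691169) (nat_lit 336) (nat_lit 4435820110) (nat_lit 84) (nat_lit 11864670458) (nat_lit 45) (nat_lit 5) (nat_lit 49) (nat_lit 5) (nat_lit 46) (nat_lit 5) (nat_lit 389) (nat_lit 319) (nat_lit 237)))))) (XT.nd (nat_lit 658) (nat_lit 588) (nat_lit 0) (XT.nd (nat_lit 282) (nat_lit 504) (nat_lit 0) (XT.nd (nat_lit 94) (nat_lit 0) (nat_lit 0) (XT.lf (nat_lit 0) (nat_lit 2879693454) (nat_lit 252) (nat_lit 1044382086) (nat_lit 336) (nat_lit 13702756404) (nat_lit 42) (nat_lit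 5) (nat_lit 45) (nat_lit 5) (nat_lit 46) (nat_lit 5) (nat_lit 390) (nat_lit 319) (nat_lit 236)) (XT.nd (nat_lit 94) (nat_lit 0) (nat_lit 0) (XT.lf (nat_lit 0) (nat_lit 7038627432) (nat_lit 336) (nat_lit 7567955465) (nat_lit 84) (nat_lit 3400326798) (nat_lit 42) (nat_lit 5) (nat_lit 46) (nat_lit 5) (nat_lit 43) (nat_lit 5) (nat_lit 391) (nat_lit 319) (nat_lit 235)) (XT.lf (nat_lit 0) (nat_lit 10236449272) (nat_lit 336) (nat_lit 215635277) (nat_lit 84) (nat_lit 7946631117) (nat_lit 42) (nat_lit 5) (nat_lit 46) (nat_lit 5) (nat_lit 43) (nat_lit 5) (nat_lit 392) (nat_lit 319) (nat_lit 234)))) (XT.nd (nat_lit 188) (nat_lit 336) (nat_lit 0) (XT.nd (nat_lit 94) (nat_lit 0) (nat_lit 0) (XT.lf (nat_lit 0) (nat_lit 7472093118) (nat_lit 168) (nat_lit 6110029245) (nat_lit 252) (nat_lit 5218616239) (nat_lit 40) (nat_lit 5) (nat_lit 42) (nat_lit 5) (nat_lit 43) (nat_lit 5) (nat_lit 393) (nat_lit 319)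 (nat_lit 233)) (XT.lf (nat_lit 0) (nat_lit 15364208447) (nat_lit 168) (nat_lit 1646510083) (nat_lit 252) (nat_lit 2204646800) (nat_lit 40) (nat_lit 5) (nat_lit 42) (nat_lit 5) (nat_lit 43) (nat_lit 5) (nat_lit 394) (nat_lit 319) (nat_lit 232))) (XT.nd (nat_lit 94) (nat_lit 0) (nat_lit 0) (XT.lf (nat_lit 0) (nat_lit 929011759) (nat_lit 336) (nat_lit 15782666850) (nat_lit 84) (nat_lit 2929106528) (nat_lit 36) (nat_lit 5) (nat_lit 40) (nat_lit 5) (nat_lit 37) (nat_lit 5) (nat_lit 395) (nat_lit 319) (nat_lit 231)) (XT.lf (nat_lit 0) (nat_lit 4148853782) (nat_lit 336) (nat_lit 8269060568) (nat_lit 84) (nat_lit 7659321815) (nat_lit 36) (nat_lit 5) (nat_lit 40) (nat_lit 5) (nat_lit 37) (nat_lit 5) (nat_lit 396) (nat_lit 319) (nat_lit 230))))) (XT.nd (nat_lit 282) (nat_lit 420) (nat_lit 0) (XT.nd (nat_lit 94) (nat_lit 168) (nat_lit 0) (XT.lf (nat_lit 0) (nat_lit 7446755796) (nat_lit 336) (nat_lit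 559522846) (nat_lit 84) (nat_lit 12521075637) (nat_lit 36) (nat_lit 5) (nat_lit 40) (nat_lit 5) (nat_lit 37) (nat_lit 5) (nat_lit 397) (nat_lit 319) (nat_lit 229)) (XT.nd (nat_lit 94) (nat_lit 0) (nat_lit 0) (XT.lf (nat_lit 0) (nat_lit 7499015611) (nat_lit 168) (nat_lit 3398668976) (nat_lit 252) (nat_lit 10091685643) (nat_lit 34) (nat_lit 5) (nat_lit 36) (nat_lit 5) (nat_lit 37) (nat_lit 5) (nat_lit 398) (nat_lit 319) (nat_lit 228)) (XT.lf (nat_lit 0) (nat_lit 14452951576) (nat_lit 252) (nat_lit 5696087617) (nat_lit 84) (nat_lit 1316199649) (nat_lit 34) (nat_lit 5) (nat_lit 37) (nat_lit 5) (nat_lit 35) (nat_lit 5) (nat_lit 399) (nat_lit 319) (nat_lit 227)))) (XT.nd (nat_lit 188) (nat_lit 252) (nat_lit 0) (XT.nd (nat_lit 94) (nat_lit 0) (nat_lit 0) (XT.lf (nat_lit 0) (nat_lit 2315596628) (nat_lit 168) (nat_lit 15837863331) (nat_lit 252) (nat_lit 3800782060) (nat_lit 32) (nat_lit 5) (nat_lit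 34) (nat_lit 5) (nat_lit 35) (nat_lit 5) (nat_lit 400) (nat_lit 319) (nat_lit 226)) (XT.lf (nat_lit 0) (nat_lit 10656723385) (nat_lit 168) (nat_lit 11348692424) (nat_lit 252) (nat_lit 451302061) (nat_lit 32) (nat_lit 5) (nat_lit 34) (nat_lit 5) (nat_lit 35) (nat_lit 5) (nat_lit 401) (nat_lit 319) (nat_lit 225))) (XT.nd (nat_lit 94) (nat_lit 168) (nat_lit 0) (XT.lf (nat_lit 0) (nat_lit 2923379165) (nat_lit 252) (nat_lit 3782223649) (nat_lit 84) (nat_lit 16268318142) (nat_lit 31) (nat_lit 5) (nat_lit 34) (nat_lit 5) (nat_lit 32) (nat_lit 5) (nat_lit 402) (nat_lit 319) (nat_lit 224)) (XT.lf (nat_lit 0) (nat_lit 4533658014) (nat_lit 168) (nat_lit 1883872318) (nat_lit 252) (nat_lit 17088170969) (nat_lit 29) (nat_lit 5) (nat_lit 31) (nat_lit 5) (nat_lit 32) (nat_lit 5) (nat_lit 403) (nat_lit 319) (nat_lit 223))))))))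
noncomputable def xc97 : XT := (XT.nd (nat_lit 2538) (nat_lit 420) (nat_lit 0) (XT.nd (nat_lit 1222) (nat_lit 504) (nat_lit 0) (XT.nd (nat_lit 564) (nat_lit 336) (nat_lit 0) (XT.nd (nat_lit 282) (nat_lit 252) (nat_lit 0) (XT.nd (nat_lit 94) (nat_lit 168) (nat_lit 0) (XT.lf (nat_lit 0) (nat_lit 10068553675) (nat_lit 252) (nat_lit 10932311696) (nat_lit 84) (nat_lit 3051022067) (nat_lit 29) (nat_lit 5) (nat_lit 32) (nat_lit 5) (nat_lit 30) (nat_lit 5) (nat_lit 404) (nat_lit 319) (nat_lit 222)) (XT.nd (nat_lit 94) (nat_lit 168) (nat_lit 0) (XT.lf (nat_lit 0) (nat_lit 13832075915) (nat_lit 252) (nat_lit 2695828041) (nat_lit 84) (nat_lit 8086479567) (nat_lit 29) (nat_lit 5) (nat_lit 32) (nat_lit 5) (nat_lit 30) (nat_lit 5) (nat_lit 405) (nat_lit 319) (nat_lit 221)) (XT.lf (nat_lit 0) (nat_lit 5877402838) (nat_lit 168) (nat_lit 11872370987) (nat_lit 252) (nat_lit 7442755583) (nat_lit 27) (nat_lit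 5) (nat_lit 29) (nat_lit 5) (nat_lit 30) (nat_lit 5) (nat_lit 406) (nat_lit 319) (nat_lit 220)))) (XT.nd (nat_lit 94) (nat_lit 252) (nat_lit 0) (XT.lf (nat_lit 0) (nat_lit 14738301347) (nat_lit 168) (nat_lit 7058901916) (nat_lit 252) (nat_lit 3990463027) (nat_lit 27) (nat_lit 5) (nat_lit 29) (nat_lit 5) (nat_lit 30) (nat_lit 5) (nat_lit 407) (nat_lit 319) (nat_lit 219)) (XT.nd (nat_lit 94) (nat_lit 252) (nat_lit 0) (XT.lf (nat_lit 0) (nat_lit 23840957756) (nat_lit 168) (nat_lit 2110513378) (nat_lit 252) (nat_lit 449635951) (nat_lit 27) (nat_lit 5) (nat_lit 29) (nat_lit 5) (nat_lit 30) (nat_lit 5) (nat_lit 408) (nat_lit 319) (nat_lit 218)) (XT.lf (nat_lit 0) (nat_lit 3210318666) (nat_lit 252) (nat_lit 20808854211) (nat_lit 84) (nat_lit 3010608852) (nat_lit 24) (nat_lit 5) (nat_lit 27) (nat_lit 5) (nat_lit 25) (nat_lit 5) (nat_lit 409) (nat_lit 319) (nat_lit 217))))) (XT.nd (nat_lit 282)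 (nat_lit 168) (nat_lit 0) (XT.nd (nat_lit 94) (nat_lit 168) (nat_lit 0) (XT.lf (nat_lit 0) (nat_lit 7003829850) (nat_lit 252) (nat_lit 12408005510) (nat_lit 84) (nat_lit 8264375072) (nat_lit 24) (nat_lit 5) (nat_lit 27) (nat_lit 5) (nat_lit 25) (nat_lit 5) (nat_lit 410) (nat_lit 319) (nat_lit 216)) (XT.nd (nat_lit 94) (nat_lit 168) (nat_lit 0) (XT.lf (nat_lit 0) (nat_lit 10897350777) (nat_lit 252) (nat_lit 3778216509) (nat_lit 84) (nat_lit 13666889481) (nat_lit 24) (nat_lit 5) (nat_lit 27) (nat_lit 5) (nat_lit 25) (nat_lit 5) (nat_lit 411) (nat_lit 319) (nat_lit 215)) (XT.lf (nat_lit 0) (nat_lit 5189315621) (nat_lit 168) (nat_lit 9754850807) (nat_lit 252) (nat_lit 14083439975) (nat_lit 22) (nat_lit 5) (nat_lit 24) (nat_lit 5) (nat_lit 25) (nat_lit 5) (nat_lit 412) (nat_lit 319) (nat_lit 214)))) (XT.nd (nat_lit 188) (nat_lit 168) (nat_lit 0) (XT.nd (nat_lit 94) (nat_lit 0) (nat_lit 0) (XT.lf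 (nat_lit 0) (nat_lit 14481130405) (nat_lit 168) (nat_lit 4656191720) (nat_lit 252) (nat_lit 10595250614) (nat_lit 22) (nat_lit 5) (nat_lit 24) (nat_lit 5) (nat_lit 25) (nat_lit 5) (nat_lit 413) (nat_lit 319) (nat_lit 213)) (XT.lf (nat_lit 0) (nat_lit 23449080292) (nat_lit 252) (nat_lit 6434569857) (nat_lit 84) (nat_lit 575263658) (nat_lit 22) (nat_lit 5) (nat_lit 25) (nat_lit 5) (nat_lit 23) (nat_lit 4) (nat_lit 414) (nat_lit 319) (nat_lit 212))) (XT.nd (nat_lit 94) (nat_lit 84) (nat_lit 0) (XT.lf (nat_lit 0) (nat_lit 2630823549) (nat_lit 84) (nat_lit 25318218024) (nat_lit 168) (nat_lit 3256247711) (nat_lit 21) (nat_lit 5) (nat_lit 22) (nat_lit 5) (nat_lit 23) (nat_lit 4) (nat_lit 415) (nat_lit 319) (nat_lit 211)) (XT.lf (nat_lit 0) (nat_lit 651155160) (nat_lit 168) (nat_lit 19899803296) (nat_lit 84) (nat_lit 11421337453) (nat_lit 20) (nat_lit 5) (nat_lit 22) (nat_lit 5) (nat_lit 21) (nat_lit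 5) (nat_lit 416) (nat_lit 319) (nat_lit 210)))))) (XT.nd (nat_lit 658) (nat_lit 252) (nat_lit 0) (XT.nd (nat_lit 282) (nat_lit 84) (nat_lit 0) (XT.nd (nat_lit 94) (nat_lit 168) (nat_lit 0) (XT.lf (nat_lit 0) (nat_lit 4598188936) (nat_lit 168) (nat_lit 11017792706) (nat_lit 84) (nat_lit 17145737068) (nat_lit 20) (nat_lit 5) (nat_lit 22) (nat_lit 5) (nat_lit 21) (nat_lit 5) (nat_lit 417) (nat_lit 319) (nat_lit 209)) (XT.nd (nat_lit 94) (nat_lit 168) (nat_lit 0) (XT.lf (nat_lit 0) (nat_lit 8651843602) (nat_lit 168) (nat_lit 1889371941) (nat_lit 84) (nat_lit 23033970962) (nat_lit 20) (nat_lit 5) (nat_lit 22) (nat_lit 5) (nat_lit 21) (nat_lit 5) (nat_lit 418) (nat_lit 319) (nat_lit 208)) (XT.lf (nat_lit 0) (nat_lit 7642569345) (nat_lit 168) (nat_lit 5246556893) (nat_lit 252) (nat_lit 21522079902) (nat_lit 18) (nat_lit 5) (nat_lit 20) (nat_lit 5) (nat_lit 21) (nat_lit 5) (nat_lit 419) (nat_lit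 319) (nat_lit 207)))) (XT.nd (nat_lit 188) (nat_lit 84) (nat_lit 0) (XT.nd (nat_lit 94) (nat_lit 0) (nat_lit 0) (XT.lf (nat_lit 0) (nat_lit 17263409170) (nat_lit 252) (nat_lit 17794258709) (nat_lit 84) (nat_lit 214350143) (nat_lit 18) (nat_lit 5) (nat_lit 21) (nat_lit 5) (nat_lit 19) (nat_lit 4) (nat_lit 420) (nat_lit 319) (nat_lit 206)) (XT.lf (nat_lit 0) (nat_lit 21809822731) (nat_lit 252) (nat_lit 8621571802) (nat_lit 84) (nat_lit 5726040539) (nat_lit 18) (nat_lit 5) (nat_lit 21) (nat_lit 5) (nat_lit 19) (nat_lit 4) (nat_lit 421) (nat_lit 319) (nat_lit 205))) (XT.nd (nat_lit 94) (nat_lit 0) (nat_lit 0) (XT.lf (nat_lit 0) (nat_lit 823950244) (nat_lit 84) (nat_lit 25665876471) (nat_lit 168) (nat_lit 10579679625) (nat_lit 17) (nat_lit 5) (nat_lit 18) (nat_lit 5) (nat_lit 19) (nat_lit 4) (nat_lit 422) (nat_lit 319) (nat_lit 204)) (XT.lf (nat_lit 0) (nat_lit 10711328644) (nat_lit 84) (nat_lit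 20675377784) (nat_lit 168) (nat_lit 6619946474) (nat_lit 17) (nat_lit 5) (nat_lit 18) (nat_lit 5) (nat_lit 19) (nat_lit 4) (nat_lit 423) (nat_lit 319) (nat_lit 203))))) (XT.nd (nat_lit 282) (nat_lit 0) (nat_lit 0) (XT.nd (nat_lit 94) (nat_lit 252) (nat_lit 0) (XT.lf (nat_lit 0) (nat_lit 20877616670) (nat_lit 84) (nat_lit 15542598815) (nat_lit 168) (nat_lit 2552013897) (nat_lit 17) (nat_lit 5) (nat_lit 18) (nat_lit 5) (nat_lit 19) (nat_lit 4) (nat_lit 424) (nat_lit 319) (nat_lit 202)) (XT.nd (nat_lit 94) (nat_lit 168) (nat_lit 0) (XT.lf (nat_lit 0) (nat_lit 1595910854) (nat_lit 168) (nat_lit 8651028185) (nat_lit 84) (nat_lit 29719671060) (nat_lit 16) (nat_lit 5) (nat_lit 18) (nat_lit 5) (nat_lit 17) (nat_lit 5) (nat_lit 425) (nat_lit 319) (nat_lit 201)) (XT.lf (nat_lit 0) (nat_lit 1054272639) (nat_lit 168) (nat_lit 4763052393) (nat_lit 252) (nat_lit 35172735439) (nat_lit 14) (nat_lit 5)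 (nat_lit 16) (nat_lit 5) (nat_lit 17) (nat_lit 5) (nat_lit 426) (nat_lit 319) (nat_lit 200)))) (XT.nd (nat_lit 188) (nat_lit 0) (nat_lit 0) (XT.nd (nat_lit 94) (nat_lit 0) (nat_lit 0) (XT.lf (nat_lit 0) (nat_lit 10252382240) (nat_lit 252) (nat_lit 30839858214) (nat_lit 84) (nat_lit 949370285) (nat_lit 14) (nat_lit 5) (nat_lit 17) (nat_lit 5) (nat_lit 15) (nat_lit 4) (nat_lit 427) (nat_lit 319) (nat_lit 199)) (XT.lf (nat_lit 0) (nat_lit 14858200307) (nat_lit 252) (nat_lit 21534674912) (nat_lit 84) (nat_lit 6730707241) (nat_lit 14) (nat_lit 5) (nat_lit 17) (nat_lit 5) (nat_lit 15) (nat_lit 4) (nat_lit 428) (nat_lit 319) (nat_lit 198))) (XT.nd (nat_lit 94) (nat_lit 0) (nat_lit 0) (XT.lf (nat_lit 0) (nat_lit 19593018361) (nat_lit 252) (nat_lit 11966321809) (nat_lit 84) (nat_lit 12678954434) (nat_lit 14) (nat_lit 5) (nat_lit 17) (nat_lit 5) (nat_lit 15) (nat_lit 4) (nat_lit 429) (nat_lit 319)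 (nat_lit 197)) (XT.lf (nat_lit 0) (nat_lit 24460973622) (nat_lit 252) (nat_lit 2126438210) (nat_lit 84) (nat_lit 18799309362) (nat_lit 14) (nat_lit 5) (nat_lit 17) (nat_lit 5) (nat_lit 15) (nat_lit 4) (nat_lit 430) (nat_lit 319) (nat_lit 196))))))) (XT.nd (nat_lit 1316) (nat_lit 84) (nat_lit 0) (XT.nd (nat_lit 658) (nat_lit 84) (nat_lit 0) (XT.nd (nat_lit 282) (nat_lit 168) (nat_lit 0) (XT.nd (nat_lit 94) (nat_lit 0) (nat_lit 0) (XT.lf (nat_lit 0) (nat_lit 8152661635) (nat_lit 84) (nat_lit 21392026379) (nat_lit 168) (nat_lit 17022826644) (nat_lit 13) (nat_lit 5) (nat_lit 14) (nat_lit 5) (nat_lit 15) (nat_lit 4) (nat_lit 431) (nat_lit 319) (nat_lit 195)) (XT.nd (nat_lit 94) (nat_lit 0) (nat_lit 0) (XT.lf (nat_lit 0) (nat_lit 18768804046) (nat_lit 84) (nat_lit 16025043206) (nat_lit 168) (nat_lit 12989502195) (nat_lit 13) (nat_lit 5) (nat_lit 14) (nat_lit 5) (nat_lit 15) (nat_lit 4) (nat_lit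 432) (nat_lit 319) (nat_lit 194)) (XT.lf (nat_lit 0) (nat_lit 29688944973) (nat_lit 84) (nat_lit 10503245576) (nat_lit 168) (nat_lit 8843722816) (nat_lit 13) (nat_lit 5) (nat_lit 14) (nat_lit 5) (nat_lit 15) (nat_lit 4) (nat_lit 433) (nat_lit 319) (nat_lit 193)))) (XT.nd (nat_lit 188) (nat_lit 84) (nat_lit 0) (XT.nd (nat_lit 94) (nat_lit 84) (nat_lit 0) (XT.lf (nat_lit 0) (nat_lit 40922626288) (nat_lit 84) (nat_lit 4821808615) (nat_lit 168) (nat_lit 4581865981) (nat_lit 13) (nat_lit 5) (nat_lit 14) (nat_lit 5) (nat_lit 15) (nat_lit 4) (nat_lit 434) (nat_lit 319) (nat_lit 192)) (XT.lf (nat_lit 0) (nat_lit 830382507) (nat_lit 84) (nat_lit 50642876972) (nat_lit 84) (nat_lit 181845220) (nat_lit 12) (nat_lit 4) (nat_lit 13) (nat_lit 5) (nat_lit 13) (nat_lit 4) (nat_lit 435) (nat_lit 319) (nat_lit 191))) (XT.nd (nat_lit 94) (nat_lit 0) (nat_lit 0) (XT.lf (nat_lit 0) (nat_lit 4401072930) (nat_lit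 168) (nat_lit 41561056870) (nat_lit 84) (nat_lit 7056319565) (nat_lit 11) (nat_lit 5) (nat_lit 13) (nat_lit 5) (nat_lit 12) (nat_lit 4) (nat_lit 436) (nat_lit 319) (nat_lit 190)) (XT.lf (nat_lit 0) (nat_lit 9110197340) (nat_lit 168) (nat_lit 32034741276) (nat_lit 84) (nat_lit 13277935160) (nat_lit 11) (nat_lit 5) (nat_lit 13) (nat_lit 5) (nat_lit 12) (nat_lit 4) (nat_lit 437) (nat_lit 319) (nat_lit 189))))) (XT.nd (nat_lit 282) (nat_lit 84) (nat_lit 0) (XT.nd (nat_lit 94) (nat_lit 0) (nat_lit 0) (XT.lf (nat_lit 0) (nat_lit 13953191233) (nat_lit 168) (nat_lit 22235703437) (nat_lit 84) (nat_lit 19680762867) (nat_lit 11) (nat_lit 5) (nat_lit 13) (nat_lit 5) (nat_lit 12) (nat_lit 4) (nat_lit 438) (nat_lit 319) (nat_lit 188)) (XT.nd (nat_lit 94) (nat_lit 0) (nat_lit 0) (XT.lf (nat_lit 0) (nat_lit 18934286352) (nat_lit 168) (nat_lit 12155381088) (nat_lit 84) (nat_lit 26270397390) (nat_lit 11)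 (nat_lit 5) (nat_lit 13) (nat_lit 5) (nat_lit 12) (nat_lit 4) (nat_lit 439) (nat_lit 319) (nat_lit 187)) (XT.lf (nat_lit 0) (nat_lit 24057835109) (nat_lit 168) (nat_lit 1784966180) (nat_lit 84) (nat_lit 33052596663) (nat_lit 11) (nat_lit 5) (nat_lit 13) (nat_lit 5) (nat_lit 12) (nat_lit 4) (nat_lit 440) (nat_lit 319) (nat_lit 186)))) (XT.nd (nat_lit 188) (nat_lit 0) (nat_lit 0) (XT.nd (nat_lit 94) (nat_lit 0) (nat_lit 0) (XT.lf (nat_lit 0) (nat_lit 9061423830) (nat_lit 84) (nat_lit 20353994512) (nat_lit 168) (nat_lit 31058966997) (nat_lit 10) (nat_lit 5) (nat_lit 11) (nat_lit 5) (nat_lit 12) (nat_lit 4) (nat_lit 441) (nat_lit 319) (nat_lit 185)) (XT.lf (nat_lit 0) (nat_lit 20257954476) (nat_lit 84) (nat_lit 14687106851) (nat_lit 168) (nat_lit 27155345043) (nat_lit 10) (nat_lit 5) (nat_lit 11) (nat_lit 5) (nat_lit 12) (nat_lit 4) (nat_lit 442) (nat_lit 319) (nat_lit 184))) (XT.nd (nat_lit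 94) (nat_lit 0) (nat_lit 0) (XT.lf (nat_lit 0) (nat_lit 31778884807) (nat_lit 84) (nat_lit 8855211316) (nat_lit 168) (nat_lit 23141310709) (nat_lit 10) (nat_lit 5) (nat_lit 11) (nat_lit 5) (nat_lit 12) (nat_lit 4) (nat_lit 443) (nat_lit 319) (nat_lit 183)) (XT.lf (nat_lit 0) (nat_lit 43634281655) (nat_lit 84) (nat_lit 2853212075) (nat_lit 168) (nat_lit 19013356585) (nat_lit 10) (nat_lit 5) (nat_lit 11) (nat_lit 5) (nat_lit 12) (nat_lit 4) (nat_lit 444) (nat_lit 319) (nat_lit 182)))))) (XT.nd (nat_lit 47846) (nat_lit 0) (nat_lit 20916) (XT.nd (nat_lit 282) (nat_lit 0) (nat_lit 0) (XT.nd (nat_lit 94) (nat_lit 84) (nat_lit 0) (XT.lf (nat_lit 0) (nat_lit 52542322392) (nat_lit 168) (nat_lit 11475694009) (nat_lit 0) (nat_lit 3259269481) (nat_lit 10) (nat_lit 5) (nat_lit 12) (nat_lit 4) (nat_lit 10) (nat_lit 4) (nat_lit 445) (nat_lit 319) (nat_lit 181)) (XT.nd (nat_lit 94) (nat_lit 84) (nat_lit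 0) (XT.lf (nat_lit 0) (nat_lit 58801055450) (nat_lit 168) (nat_lit 812001381) (nat_lit 0) (nat_lit 9493293444) (nat_lit 10) (nat_lit 5) (nat_lit 12) (nat_lit 4) (nat_lit 10) (nat_lit 4) (nat_lit 446) (nat_lit 319) (nat_lit 180)) (XT.lf (nat_lit 0) (nat_lit 10363482707) (nat_lit 84) (nat_lit 54977872309) (nat_lit 84) (nat_lit 5646120891) (nat_lit 9) (nat_lit 4) (nat_lit 10) (nat_lit 5) (nat_lit 10) (nat_lit 4) (nat_lit 447) (nat_lit 319) (nat_lit 179)))) (XT.nd (nat_lit 47376) (nat_lit 0) (nat_lit 22008) (XT.nd (nat_lit 47282) (nat_lit 0) (nat_lit 22428) (XT.lf (nat_lit 0) (nat_lit 21880629810) (nat_lit 84) (nat_lit 50199688652) (nat_lit 84) (nat_lit 844646541) (nat_lit 9) (nat_lit 4) (nat_lit 10) (nat_lit 5) (nat_lit 10) (nat_lit 4) (nat_lit 448) (nat_lit 319) (nat_lit 178)) (XT.lf (nat_lit 0) (nat_lit 3252081120) (nat_lit 420) (nat_lit 12377426) (nat_lit 420) (nat_lit 12377426) (nat_lit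 276) (nat_lit 3) (nat_lit 281) (nat_lit 3) (nat_lit 281) (nat_lit 5) (nat_lit 320) (nat_lit 320) (nat_lit 305))) (XT.nd (nat_lit 94) (nat_lit 0) (nat_lit 0) (XT.lf (nat_lit 0) (nat_lit 2238358233) (nat_lit 420) (nat_lit 3642783758) (nat_lit 504) (nat_lit 695617553) (nat_lit 271) (nat_lit 5) (nat_lit 276) (nat_lit 3) (nat_lit 277) (nat_lit 5) (nat_lit 321) (nat_lit 320) (nat_lit 304)) (XT.lf (nat_lit 0) (nat_lit 4505514794) (nat_lit 420) (nat_lit 666922090) (nat_lit 504) (nat_lit 1430996450) (nat_lit 271) (nat_lit 5) (nat_lit 276) (nat_lit 3) (nat_lit 277) (nat_lit 5) (nat_lit 322) (nat_lit 320) (nat_lit 303))))) (XT.nd (nat_lit 282) (nat_lit 588) (nat_lit 0) (XT.nd (nat_lit 94) (nat_lit 0) (nat_lit 0) (XT.lf (nat_lit 0) (nat_lit 141848614) (nat_lit 504) (nat_lit 4235896224) (nat_lit 588) (nat_lit 2255260009) (nat_lit 265) (nat_lit 5) (nat_lit 271) (nat_lit 5) (nat_lit 272) (nat_lit 5)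 (nat_lit 323) (nat_lit 320) (nat_lit 302)) (XT.nd (nat_lit 94) (nat_lit 0) (nat_lit 0) (XT.lf (nat_lit 0) (nat_lit 2328413629) (nat_lit 504) (nat_lit 1165319123) (nat_lit 588) (nat_lit 3171690313) (nat_lit 265) (nat_lit 5) (nat_lit 271) (nat_lit 5) (nat_lit 272) (nat_lit 5) (nat_lit 324) (nat_lit 320) (nat_lit 301)) (XT.lf (nat_lit 84) (nat_lit 1989646069) (nat_lit 0) (nat_lit 2527501477) (nat_lit 588) (nat_lit 2183798086) (nat_lit 266) (nat_lit 5) (nat_lit 265) (nat_lit 5) (nat_lit 272) (nat_lit 5) (nat_lit 325) (nat_lit 320) (nat_lit 300)))) (XT.nd (nat_lit 188) (nat_lit 0) (nat_lit 84) (XT.nd (nat_lit 94) (nat_lit 588) (nat_lit 0) (XT.lf (nat_lit 84) (nat_lit 5217050150) (nat_lit 0) (nat_lit 1485668382) (nat_lit 588) (nat_lit 37102386) (nat_lit 266) (nat_lit 5) (nat_lit 265) (nat_lit 5) (nat_lit 272) (nat_lit 5) (nat_lit 326) (nat_lit 320) (nat_lit 299)) (XT.lf (nat_lit 84) (nat_lit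 1727687838) (nat_lit 0) (nat_lit 341260133) (nat_lit 672) (nat_lit 4712375807) (nat_lit 259) (nat_lit 5) (nat_lit 258) (nat_lit 5) (nat_lit 266) (nat_lit 5) (nat_lit 327) (nat_lit 320) (nat_lit 298))) (XT.nd (nat_lit 94) (nat_lit 0) (nat_lit 0) (XT.lf (nat_lit 0) (nat_lit 4183947796) (nat_lit 588) (nat_lit 1774215405) (nat_lit 672) (nat_lit 867705521) (nat_lit 259) (nat_lit 5) (nat_lit 266) (nat_lit 5) (nat_lit 267) (nat_lit 5) (nat_lit 328) (nat_lit 320) (nat_lit 297)) (XT.lf (nat_lit 84) (nat_lit 1583625210) (nat_lit 0) (nat_lit 4722552687) (nat_lit 672) (nat_lit 567456215) (nat_lit 260) (nat_lit 5) (nat_lit 259) (nat_lit 5) (nat_lit 267) (nat_lit 5) (nat_lit 329) (nat_lit 320) (nat_lit 296))))))))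
noncomputable def xc98 : XT := (XT.nd (nat_lit 2538) (nat_lit 5712) (nat_lit 0) (XT.nd (nat_lit 1222) (nat_lit 6636) (nat_lit 0) (XT.nd (nat_lit 564) (nat_lit 2940) (nat_lit 0) (XT.nd (nat_lit 282) (nat_lit 1428) (nat_lit 0) (XT.nd (nat_lit 94) (nat_lit 0) (nat_lit 0) (XT.lf (nat_lit 0) (nat_lit 1482708602) (nat_lit 672) (nat_lit 1907665597) (nat_lit 756) (nat_lit 3533869262) (nat_lit 251) (nat_lit 5) (nat_lit 259) (nat_lit 5) (nat_lit 260) (nat_lit 5) (nat_lit 330) (nat_lit 320) (nat_lit 295)) (XT.nd (nat_lit 94) (nat_lit 0) (nat_lit 0) (XT.lf (nat_lit 84) (nat_lit 1553584063) (nat_lit 0) (nat_lit 1972472753) (nat_lit 756) (nat_lit 3452033957) (nat_lit 252) (nat_lit 5) (nat_lit 251) (nat_lit 5) (nat_lit 260) (nat_lit 5) (nat_lit 331) (nat_lit 320) (nat_lit 294)) (XT.lf (nat_lit 84) (nat_lit 5110978253) (nat_lit 0) (nat_lit 468783539) (nat_lit 756) (nat_lit 1455495504) (nat_lit 252) (nat_lit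 5) (nat_lit 251) (nat_lit 5) (nat_lit 260) (nat_lit 5) (nat_lit 332) (nat_lit 320) (nat_lit 293)))) (XT.nd (nat_lit 94) (nat_lit 756) (nat_lit 0) (XT.lf (nat_lit 0) (nat_lit 546979784) (nat_lit 756) (nat_lit 5445921547) (nat_lit 84) (nat_lit 1102496578) (nat_lit 243) (nat_lit 5) (nat_lit 252) (nat_lit 5) (nat_lit 244) (nat_lit 5) (nat_lit 333) (nat_lit 320) (nat_lit 292)) (XT.nd (nat_lit 94) (nat_lit 756) (nat_lit 0) (XT.lf (nat_lit 0) (nat_lit 2537300055) (nat_lit 756) (nat_lit 1855012588) (nat_lit 84) (nat_lit 2766047620) (nat_lit 243) (nat_lit 5) (nat_lit 252) (nat_lit 5) (nat_lit 244) (nat_lit 5) (nat_lit 334) (nat_lit 320) (nat_lit 291)) (XT.lf (nat_lit 0) (nat_lit 1831896361) (nat_lit 756) (nat_lit 2707760825) (nat_lit 840) (nat_lit 2685140395) (nat_lit 234) (nat_lit 5) (nat_lit 243) (nat_lit 5) (nat_lit 244) (nat_lit 5) (nat_lit 335) (nat_lit 320) (nat_lit 290))))) (XT.nd (nat_lit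 282) (nat_lit 2016) (nat_lit 0) (XT.nd (nat_lit 94) (nat_lit 924) (nat_lit 0) (XT.lf (nat_lit 0) (nat_lit 5620429778) (nat_lit 756) (nat_lit 936554732) (nat_lit 840) (nat_lit 737747897) (nat_lit 234) (nat_lit 5) (nat_lit 243) (nat_lit 5) (nat_lit 244) (nat_lit 5) (nat_lit 336) (nat_lit 320) (nat_lit 289)) (XT.nd (nat_lit 94) (nat_lit 0) (nat_lit 0) (XT.lf (nat_lit 0) (nat_lit 1210155144) (nat_lit 924) (nat_lit 5238455726) (nat_lit 84) (nat_lit 918926407) (nat_lit 223) (nat_lit 5) (nat_lit 234) (nat_lit 5) (nat_lit 224) (nat_lit 5) (nat_lit 337) (nat_lit 320) (nat_lit 288)) (XT.lf (nat_lit 0) (nat_lit 3166805215) (nat_lit 924) (nat_lit 1426565694) (nat_lit 84) (nat_lit 2850120639) (nat_lit 223) (nat_lit 5) (nat_lit 234) (nat_lit 5) (nat_lit 224) (nat_lit 5) (nat_lit 338) (nat_lit 320) (nat_lit 287)))) (XT.nd (nat_lit 188) (nat_lit 1092) (nat_lit 0) (XT.nd (nat_lit 94) (nat_lit 0) (nat_lit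 0) (XT.lf (nat_lit 0) (nat_lit 2501216166) (nat_lit 924) (nat_lit 2645555189) (nat_lit 1008) (nat_lit 2376149086) (nat_lit 212) (nat_lit 5) (nat_lit 223) (nat_lit 5) (nat_lit 224) (nat_lit 5) (nat_lit 339) (nat_lit 320) (nat_lit 286)) (XT.lf (nat_lit 0) (nat_lit 6529265530) (nat_lit 924) (nat_lit 613130730) (nat_lit 1008) (nat_lit 463778721) (nat_lit 212) (nat_lit 5) (nat_lit 223) (nat_lit 5) (nat_lit 224) (nat_lit 5) (nat_lit 340) (nat_lit 320) (nat_lit 285))) (XT.nd (nat_lit 94) (nat_lit 0) (nat_lit 0) (XT.lf (nat_lit 0) (nat_lit 1462874266) (nat_lit 1092) (nat_lit 4723965257) (nat_lit 84) (nat_lit 1505187479) (nat_lit 199) (nat_lit 5) (nat_lit 212) (nat_lit 5) (nat_lit 200) (nat_lit 5) (nat_lit 341) (nat_lit 320) (nat_lit 284)) (XT.lf (nat_lit 0) (nat_lit 3399235402) (nat_lit 1092) (nat_lit 682578778) (nat_lit 84) (nat_lit 3699785241) (nat_lit 199) (nat_lit 5) (nat_lit 212) (nat_lit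 5) (nat_lit 200) (nat_lit 5) (nat_lit 342) (nat_lit 320) (nat_lit 283)))))) (XT.nd (nat_lit 658) (nat_lit 2352) (nat_lit 0) (XT.nd (nat_lit 282) (nat_lit 1932) (nat_lit 0) (XT.nd (nat_lit 94) (nat_lit 1260) (nat_lit 0) (XT.lf (nat_lit 0) (nat_lit 3501643079) (nat_lit 1092) (nat_lit 1871507242) (nat_lit 1176) (nat_lit 2501440814) (nat_lit 186) (nat_lit 5) (nat_lit 199) (nat_lit 5) (nat_lit 200) (nat_lit 5) (nat_lit 343) (nat_lit 320) (nat_lit 282)) (XT.nd (nat_lit 94) (nat_lit 1260) (nat_lit 0) (XT.lf (nat_lit 0) (nat_lit 7364139740) (nat_lit 1176) (nat_lit 196791884) (nat_lit 84) (nat_lit 410817901) (nat_lit 186) (nat_lit 5) (nat_lit 200) (nat_lit 5) (nat_lit 187) (nat_lit 5) (nat_lit 344) (nat_lit 320) (nat_lit 281)) (XT.lf (nat_lit 0) (nat_lit 1323465612) (nat_lit 1260) (nat_lit 3964842247) (nat_lit 84) (nat_lit 2783034566) (nat_lit 171) (nat_lit 5) (nat_lit 186) (nat_lit 5) (nat_lit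 172) (nat_lit 5) (nat_lit 345) (nat_lit 320) (nat_lit 280)))) (XT.nd (nat_lit 188) (nat_lit 672) (nat_lit 0) (XT.nd (nat_lit 94) (nat_lit 0) (nat_lit 0) (XT.lf (nat_lit 0) (nat_lit 322000512) (nat_lit 1260) (nat_lit 2932359690) (nat_lit 1344) (nat_lit 4920862529) (nat_lit 156) (nat_lit 5) (nat_lit 171) (nat_lit 5) (nat_lit 172) (nat_lit 5) (nat_lit 346) (nat_lit 320) (nat_lit 279)) (XT.lf (nat_lit 0) (nat_lit 4771878935) (nat_lit 1260) (nat_lit 461372178) (nat_lit 1344) (nat_lit 3049366323) (nat_lit 156) (nat_lit 5) (nat_lit 171) (nat_lit 5) (nat_lit 172) (nat_lit 5) (nat_lit 347) (nat_lit 320) (nat_lit 278))) (XT.nd (nat_lit 94) (nat_lit 84) (nat_lit 0) (XT.lf (nat_lit 0) (nat_lit 912738051) (nat_lit 588) (nat_lit 6339091591) (nat_lit 672) (nat_lit 1142091874) (nat_lit 149) (nat_lit 5) (nat_lit 156) (nat_lit 5) (nat_lit 157) (nat_lit 5) (nat_lit 348) (nat_lit 320) (nat_lit 277)) (XT.lf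 (nat_lit 0) (nat_lit 798641489) (nat_lit 672) (nat_lit 3027089404) (nat_lit 84) (nat_lit 4682919583) (nat_lit 148) (nat_lit 5) (nat_lit 156) (nat_lit 5) (nat_lit 149) (nat_lit 5) (nat_lit 349) (nat_lit 320) (nat_lit 276))))) (XT.nd (nat_lit 282) (nat_lit 1176) (nat_lit 0) (XT.nd (nat_lit 94) (nat_lit 588) (nat_lit 0) (XT.lf (nat_lit 0) (nat_lit 1532971923) (nat_lit 588) (nat_lit 1209724386) (nat_lit 672) (nat_lit 5884833045) (nat_lit 141) (nat_lit 5) (nat_lit 148) (nat_lit 5) (nat_lit 149) (nat_lit 5) (nat_lit 350) (nat_lit 320) (nat_lit 275)) (XT.nd (nat_lit 94) (nat_lit 588) (nat_lit 0) (XT.lf (nat_lit 0) (nat_lit 4744452923) (nat_lit 672) (nat_lit 2519011931) (nat_lit 84) (nat_lit 1486614665) (nat_lit 141) (nat_lit 5) (nat_lit 149) (nat_lit 5) (nat_lit 142) (nat_lit 5) (nat_lit 351) (nat_lit 320) (nat_lit 274)) (XT.lf (nat_lit 0) (nat_lit 2178441685) (nat_lit 588) (nat_lit 4616308812)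 (nat_lit 672) (nat_lit 2081984854) (nat_lit 134) (nat_lit 5) (nat_lit 141) (nat_lit 5) (nat_lit 142) (nat_lit 5) (nat_lit 352) (nat_lit 320) (nat_lit 273)))) (XT.nd (nat_lit 188) (nat_lit 504) (nat_lit 0) (XT.nd (nat_lit 94) (nat_lit 672) (nat_lit 0) (XT.lf (nat_lit 0) (nat_lit 7023016065) (nat_lit 588) (nat_lit 1865405566) (nat_lit 672) (nat_lit 119394659) (nat_lit 134) (nat_lit 5) (nat_lit 141) (nat_lit 5) (nat_lit 142) (nat_lit 5) (nat_lit 353) (nat_lit 320) (nat_lit 272)) (XT.lf (nat_lit 0) (nat_lit 1859411772) (nat_lit 672) (nat_lit 6289924230) (nat_lit 84) (nat_lit 993188190) (nat_lit 126) (nat_lit 5) (nat_lit 134) (nat_lit 5) (nat_lit 127) (nat_lit 5) (nat_lit 354) (nat_lit 320) (nat_lit 271))) (XT.nd (nat_lit 94) (nat_lit 504) (nat_lit 0) (XT.lf (nat_lit 0) (nat_lit 3891886059) (nat_lit 672) (nat_lit 1470625585) (nat_lit 84) (nat_lit 3918899588) (nat_lit 126) (nat_lit 5) (nat_lit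 134) (nat_lit 5) (nat_lit 127) (nat_lit 5) (nat_lit 355) (nat_lit 320) (nat_lit 270)) (XT.lf (nat_lit 0) (nat_lit 3517312485) (nat_lit 504) (nat_lit 2461049136) (nat_lit 588) (nat_lit 3446384747) (nat_lit 120) (nat_lit 5) (nat_lit 126) (nat_lit 5) (nat_lit 127) (nat_lit 5) (nat_lit 356) (nat_lit 320) (nat_lit 269))))))) (XT.nd (nat_lit 1316) (nat_lit 2436) (nat_lit 0) (XT.nd (nat_lit 658) (nat_lit 1260) (nat_lit 0) (XT.nd (nat_lit 282) (nat_lit 1428) (nat_lit 0) (XT.nd (nat_lit 94) (nat_lit 588) (nat_lit 0) (XT.lf (nat_lit 0) (nat_lit 8107439652) (nat_lit 588) (nat_lit 937487399) (nat_lit 84) (nat_lit 528124449) (nat_lit 120) (nat_lit 5) (nat_lit 127) (nat_lit 5) (nat_lit 121) (nat_lit 5) (nat_lit 357) (nat_lit 320) (nat_lit 268)) (XT.nd (nat_lit 94) (nat_lit 0) (nat_lit 0) (XT.lf (nat_lit 0) (nat_lit 589359673) (nat_lit 588) (nat_lit 5535875465) (nat_lit 84) (nat_lit 3599691483) (nat_lit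 113) (nat_lit 5) (nat_lit 120) (nat_lit 5) (nat_lit 114) (nat_lit 5) (nat_lit 358) (nat_lit 320) (nat_lit 267)) (XT.lf (nat_lit 0) (nat_lit 2647461436) (nat_lit 588) (nat_lit 451524066) (nat_lit 84) (nat_lit 6782873244) (nat_lit 113) (nat_lit 5) (nat_lit 120) (nat_lit 5) (nat_lit 114) (nat_lit 5) (nat_lit 359) (nat_lit 320) (nat_lit 266)))) (XT.nd (nat_lit 188) (nat_lit 504) (nat_lit 0) (XT.nd (nat_lit 94) (nat_lit 504) (nat_lit 0) (XT.lf (nat_lit 0) (nat_lit 4776880750) (nat_lit 504) (nat_lit 5207287938) (nat_lit 84) (nat_lit 59105275) (nat_lit 108) (nat_lit 5) (nat_lit 114) (nat_lit 5) (nat_lit 109) (nat_lit 5) (nat_lit 360) (nat_lit 320) (nat_lit 265)) (XT.lf (nat_lit 0) (nat_lit 7562542) (nat_lit 504) (nat_lit 6961107845) (nat_lit 588) (nat_lit 3240967163) (nat_lit 102) (nat_lit 5) (nat_lit 108) (nat_lit 5) (nat_lit 109) (nat_lit 5) (nat_lit 361) (nat_lit 320) (nat_lit 264))) (XT.nd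 (nat_lit 94) (nat_lit 504) (nat_lit 0) (XT.lf (nat_lit 0) (nat_lit 5442193400) (nat_lit 504) (nat_lit 3800387766) (nat_lit 588) (nat_lit 1137978639) (nat_lit 102) (nat_lit 5) (nat_lit 108) (nat_lit 5) (nat_lit 109) (nat_lit 5) (nat_lit 362) (nat_lit 320) (nat_lit 263)) (XT.lf (nat_lit 0) (nat_lit 439029472) (nat_lit 420) (nat_lit 537663164) (nat_lit 504) (nat_lit 9580616367) (nat_lit 96) (nat_lit 5) (nat_lit 101) (nat_lit 5) (nat_lit 102) (nat_lit 5) (nat_lit 363) (nat_lit 320) (nat_lit 262))))) (XT.nd (nat_lit 282) (nat_lit 840) (nat_lit 0) (XT.nd (nat_lit 94) (nat_lit 420) (nat_lit 0) (XT.lf (nat_lit 0) (nat_lit 3174418911) (nat_lit 504) (nat_lit 4741299452) (nat_lit 84) (nat_lit 2822083483) (nat_lit 96) (nat_lit 5) (nat_lit 102) (nat_lit 5) (nat_lit 97) (nat_lit 5) (nat_lit 364) (nat_lit 320) (nat_lit 261)) (XT.nd (nat_lit 94) (nat_lit 0) (nat_lit 0) (XT.lf (nat_lit 0) (nat_lit 764331996)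 (nat_lit 420) (nat_lit 4652425009) (nat_lit 504) (nat_lit 5507644296) (nat_lit 91) (nat_lit 5) (nat_lit 96) (nat_lit 5) (nat_lit 97) (nat_lit 5) (nat_lit 365) (nat_lit 320) (nat_lit 260)) (XT.lf (nat_lit 0) (nat_lit 6490489084) (nat_lit 420) (nat_lit 1250351263) (nat_lit 504) (nat_lit 3375374846) (nat_lit 91) (nat_lit 5) (nat_lit 96) (nat_lit 5) (nat_lit 97) (nat_lit 5) (nat_lit 366) (nat_lit 320) (nat_lit 259)))) (XT.nd (nat_lit 188) (nat_lit 420) (nat_lit 0) (XT.nd (nat_lit 94) (nat_lit 84) (nat_lit 0) (XT.lf (nat_lit 0) (nat_lit 1031551694) (nat_lit 336) (nat_lit 9102166633) (nat_lit 420) (nat_lit 1180142241) (nat_lit 87) (nat_lit 5) (nat_lit 91) (nat_lit 5) (nat_lit 92) (nat_lit 5) (nat_lit 367) (nat_lit 320) (nat_lit 258)) (XT.lf (nat_lit 0) (nat_lit 1087086594) (nat_lit 420) (nat_lit 4627738634) (nat_lit 84) (nat_lit 5801527785) (nat_lit 86) (nat_lit 5) (nat_lit 91) (nat_lit 5) (nat_lit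 87) (nat_lit 5) (nat_lit 368) (nat_lit 320) (nat_lit 257))) (XT.nd (nat_lit 94) (nat_lit 0) (nat_lit 0) (XT.lf (nat_lit 0) (nat_lit 1166931472) (nat_lit 420) (nat_lit 2211519234) (nat_lit 504) (nat_lit 8346768899) (nat_lit 81) (nat_lit 5) (nat_lit 86) (nat_lit 5) (nat_lit 87) (nat_lit 5) (nat_lit 369) (nat_lit 320) (nat_lit 256)) (XT.lf (nat_lit 0) (nat_lit 5768235257) (nat_lit 504) (nat_lit 4763639500) (nat_lit 84) (nat_lit 1407630791) (nat_lit 81) (nat_lit 5) (nat_lit 87) (nat_lit 5) (nat_lit 82) (nat_lit 5) (nat_lit 370) (nat_lit 320) (nat_lit 255)))))) (XT.nd (nat_lit 658) (nat_lit 1008) (nat_lit 0) (XT.nd (nat_lit 282) (nat_lit 672) (nat_lit 0) (XT.nd (nat_lit 94) (nat_lit 420) (nat_lit 0) (XT.lf (nat_lit 0) (nat_lit 1165793798) (nat_lit 336) (nat_lit 7066981342) (nat_lit 420) (nat_lit 3927395540) (nat_lit 77) (nat_lit 5) (nat_lit 81) (nat_lit 5) (nat_lit 82) (nat_lit 5) (nat_lit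 371) (nat_lit 320) (nat_lit 254)) (XT.nd (nat_lit 94) (nat_lit 420) (nat_lit 0) (XT.lf (nat_lit 0) (nat_lit 7331243887) (nat_lit 336) (nat_lit 3458565118) (nat_lit 420) (nat_lit 1597131259) (nat_lit 77) (nat_lit 5) (nat_lit 81) (nat_lit 5) (nat_lit 82) (nat_lit 5) (nat_lit 372) (nat_lit 320) (nat_lit 253)) (XT.lf (nat_lit 0) (nat_lit 770867998) (nat_lit 420) (nat_lit 11588818921) (nat_lit 84) (nat_lit 261128381) (nat_lit 72) (nat_lit 5) (nat_lit 77) (nat_lit 5) (nat_lit 73) (nat_lit 5) (nat_lit 373) (nat_lit 320) (nat_lit 252)))) (XT.nd (nat_lit 188) (nat_lit 336) (nat_lit 0) (XT.nd (nat_lit 94) (nat_lit 336) (nat_lit 0) (XT.lf (nat_lit 0) (nat_lit 3234976562) (nat_lit 420) (nat_lit 5544176366) (nat_lit 84) (nat_lit 4080401892) (nat_lit 72) (nat_lit 5) (nat_lit 77) (nat_lit 5) (nat_lit 73) (nat_lit 5) (nat_lit 374) (nat_lit 320) (nat_lit 251)) (XT.lf (nat_lit 0) (nat_lit 656364744) (nat_lit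 336) (nat_lit 5095155713) (nat_lit 420) (nat_lit 7354617337) (nat_lit 68) (nat_lit 5) (nat_lit 72) (nat_lit 5) (nat_lit 73) (nat_lit 5) (nat_lit 375) (nat_lit 320) (nat_lit 250))) (XT.nd (nat_lit 94) (nat_lit 336) (nat_lit 0) (XT.lf (nat_lit 0) (nat_lit 7118698493) (nat_lit 336) (nat_lit 1253495744) (nat_lit 420) (nat_lit 4987100578) (nat_lit 68) (nat_lit 5) (nat_lit 72) (nat_lit 5) (nat_lit 73) (nat_lit 5) (nat_lit 376) (nat_lit 320) (nat_lit 249)) (XT.lf (nat_lit 0) (nat_lit 93183546) (nat_lit 336) (nat_lit 10978534005) (nat_lit 420) (nat_lit 2548356646) (nat_lit 64) (nat_lit 5) (nat_lit 68) (nat_lit 5) (nat_lit 69) (nat_lit 5) (nat_lit 377) (nat_lit 320) (nat_lit 248))))) (XT.nd (nat_lit 282) (nat_lit 672) (nat_lit 0) (XT.nd (nat_lit 94) (nat_lit 252) (nat_lit 0) (XT.lf (nat_lit 0) (nat_lit 13786894) (nat_lit 420) (nat_lit 7192264345) (nat_lit 84) (nat_lit 6681182999) (nat_lit 63) (nat_lit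 5) (nat_lit 68) (nat_lit 5) (nat_lit 64) (nat_lit 5) (nat_lit 378) (nat_lit 320) (nat_lit 247)) (XT.nd (nat_lit 94) (nat_lit 252) (nat_lit 0) (XT.lf (nat_lit 0) (nat_lit 2575821351) (nat_lit 420) (nat_lit 729428981) (nat_lit 84) (nat_lit 10857206026) (nat_lit 63) (nat_lit 5) (nat_lit 68) (nat_lit 5) (nat_lit 64) (nat_lit 5) (nat_lit 379) (nat_lit 320) (nat_lit 246)) (XT.lf (nat_lit 0) (nat_lit 5254795754) (nat_lit 336) (nat_lit 8443286971) (nat_lit 84) (nat_lit 746680729) (nat_lit 60) (nat_lit 5) (nat_lit 64) (nat_lit 5) (nat_lit 61) (nat_lit 5) (nat_lit 380) (nat_lit 320) (nat_lit 245)))) (XT.nd (nat_lit 188) (nat_lit 336) (nat_lit 0) (XT.nd (nat_lit 94) (nat_lit 336) (nat_lit 0) (XT.lf (nat_lit 0) (nat_lit 8029587989) (nat_lit 336) (nat_lit 1854706012) (nat_lit 84) (nat_lit 4850812089) (nat_lit 60) (nat_lit 5) (nat_lit 64) (nat_lit 5) (nat_lit 61) (nat_lit 5) (nat_lit 381) (nat_lit 320)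 (nat_lit 244)) (XT.lf (nat_lit 0) (nat_lit 4994180283) (nat_lit 336) (nat_lit 5917455306) (nat_lit 420) (nat_lit 4121831985) (nat_lit 56) (nat_lit 5) (nat_lit 60) (nat_lit 5) (nat_lit 61) (nat_lit 5) (nat_lit 382) (nat_lit 320) (nat_lit 243))) (XT.nd (nat_lit 94) (nat_lit 336) (nat_lit 0) (XT.lf (nat_lit 0) (nat_lit 12052087525) (nat_lit 336) (nat_lit 1823158067) (nat_lit 420) (nat_lit 1465709357) (nat_lit 56) (nat_lit 5) (nat_lit 60) (nat_lit 5) (nat_lit 61) (nat_lit 5) (nat_lit 383) (nat_lit 320) (nat_lit 242)) (XT.lf (nat_lit 0) (nat_lit 1280969834) (nat_lit 336) (nat_lit 11990429808) (nat_lit 84) (nat_lit 2384857787) (nat_lit 52) (nat_lit 5) (nat_lit 56) (nat_lit 5) (nat_lit 53) (nat_lit 5) (nat_lit 384) (nat_lit 320) (nat_lit 241))))))))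
noncomputable def xc99 : XT := (XT.nd (nat_lit 2632) (nat_lit 1092) (nat_lit 0) (XT.nd (nat_lit 1316) (nat_lit 840) (nat_lit 0) (XT.nd (nat_lit 658) (nat_lit 672) (nat_lit 0) (XT.nd (nat_lit 282) (nat_lit 588) (nat_lit 0) (XT.nd (nat_lit 94) (nat_lit 252) (nat_lit 0) (XT.lf (nat_lit 0) (nat_lit 4109236336) (nat_lit 336) (nat_lit 5150556464) (nat_lit 84) (nat_lit 6719957128) (nat_lit 52) (nat_lit 5) (nat_lit 56) (nat_lit 5) (nat_lit 53) (nat_lit 5) (nat_lit 385) (nat_lit 320) (nat_lit 240)) (XT.nd (nat_lit 94) (nat_lit 0) (nat_lit 0) (XT.lf (nat_lit 0) (nat_lit 1898329110) (nat_lit 252) (nat_lit 5119993155) (nat_lit 336) (nat_lit 9294770740) (nat_lit 49) (nat_lit 5) (nat_lit 52) (nat_lit 5) (nat_lit 53) (nat_lit 5) (nat_lit 386) (nat_lit 320) (nat_lit 239)) (XT.lf (nat_lit 0) (nat_lit 9231361158) (nat_lit 252) (nat_lit 813386225) (nat_lit 336) (nat_lit 6610811209) (nat_lit 49) (nat_lit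 5) (nat_lit 52) (nat_lit 5) (nat_lit 53) (nat_lit 5) (nat_lit 387) (nat_lit 320) (nat_lit 238)))) (XT.nd (nat_lit 188) (nat_lit 336) (nat_lit 0) (XT.nd (nat_lit 94) (nat_lit 252) (nat_lit 0) (XT.lf (nat_lit 0) (nat_lit 13175379134) (nat_lit 336) (nat_lit 291238437) (nat_lit 84) (nat_lit 3541301674) (nat_lit 49) (nat_lit 5) (nat_lit 53) (nat_lit 5) (nat_lit 50) (nat_lit 5) (nat_lit 388) (nat_lit 320) (nat_lit 237)) (XT.lf (nat_lit 0) (nat_lit 7155733288) (nat_lit 252) (nat_lit 9300251640) (nat_lit 336) (nat_lit 913206962) (nat_lit 46) (nat_lit 5) (nat_lit 49) (nat_lit 5) (nat_lit 50) (nat_lit 5) (nat_lit 389) (nat_lit 320) (nat_lit 236))) (XT.nd (nat_lit 94) (nat_lit 252) (nat_lit 0) (XT.lf (nat_lit 0) (nat_lit 2035117450) (nat_lit 336) (nat_lit 2960966336) (nat_lit 84) (nat_lit 12745168658) (nat_lit 45) (nat_lit 5) (nat_lit 49) (nat_lit 5) (nat_lit 46) (nat_lit 5) (nat_lit 390) (nat_lit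 320) (nat_lit 235)) (XT.lf (nat_lit 0) (nat_lit 4558248631) (nat_lit 252) (nat_lit 519005048) (nat_lit 336) (nat_lit 13046259275) (nat_lit 42) (nat_lit 5) (nat_lit 45) (nat_lit 5) (nat_lit 46) (nat_lit 5) (nat_lit 391) (nat_lit 320) (nat_lit 234))))) (XT.nd (nat_lit 282) (nat_lit 504) (nat_lit 0) (XT.nd (nat_lit 94) (nat_lit 168) (nat_lit 0) (XT.lf (nat_lit 0) (nat_lit 8260278775) (nat_lit 336) (nat_lit 6223210732) (nat_lit 84) (nat_lit 4032283312) (nat_lit 42) (nat_lit 5) (nat_lit 46) (nat_lit 5) (nat_lit 43) (nat_lit 5) (nat_lit 392) (nat_lit 320) (nat_lit 233)) (XT.nd (nat_lit 94) (nat_lit 0) (nat_lit 0) (XT.lf (nat_lit 0) (nat_lit 1329849107) (nat_lit 168) (nat_lit 10207537665) (nat_lit 252) (nat_lit 7382475636) (nat_lit 40) (nat_lit 5) (nat_lit 42) (nat_lit 5) (nat_lit 43) (nat_lit 5) (nat_lit 393) (nat_lit 320) (nat_lit 232)) (XT.lf (nat_lit 0) (nat_lit 9207298392) (nat_lit 168)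 (nat_lit 5749298822) (nat_lit 252) (nat_lit 4378182911) (nat_lit 40) (nat_lit 5) (nat_lit 42) (nat_lit 5) (nat_lit 43) (nat_lit 5) (nat_lit 394) (nat_lit 320) (nat_lit 231)))) (XT.nd (nat_lit 188) (nat_lit 168) (nat_lit 0) (XT.nd (nat_lit 94) (nat_lit 336) (nat_lit 0) (XT.lf (nat_lit 0) (nat_lit 17292166235) (nat_lit 168) (nat_lit 1167719657) (nat_lit 252) (nat_lit 1302832986) (nat_lit 40) (nat_lit 5) (nat_lit 42) (nat_lit 5) (nat_lit 43) (nat_lit 5) (nat_lit 395) (nat_lit 320) (nat_lit 230)) (XT.lf (nat_lit 0) (nat_lit 1897615573) (nat_lit 336) (nat_lit 14760093004) (nat_lit 84) (nat_lit 3543190149) (nat_lit 36) (nat_lit 5) (nat_lit 40) (nat_lit 5) (nat_lit 37) (nat_lit 5) (nat_lit 396) (nat_lit 320) (nat_lit 229))) (XT.nd (nat_lit 94) (nat_lit 168) (nat_lit 0) (XT.lf (nat_lit 0) (nat_lit 5186652854) (nat_lit 336) (nat_lit 7064652918) (nat_lit 84) (nat_lit 8399985377) (nat_lit 36) (nat_lit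 5) (nat_lit 40) (nat_lit 5) (nat_lit 37) (nat_lit 5) (nat_lit 397) (nat_lit 320) (nat_lit 228)) (XT.lf (nat_lit 0) (nat_lit 850461270) (nat_lit 168) (nat_lit 7714603866) (nat_lit 252) (nat_lit 12550425583) (nat_lit 34) (nat_lit 5) (nat_lit 36) (nat_lit 5) (nat_lit 37) (nat_lit 5) (nat_lit 398) (nat_lit 320) (nat_lit 227)))))) (XT.nd (nat_lit 658) (nat_lit 420) (nat_lit 0) (XT.nd (nat_lit 282) (nat_lit 252) (nat_lit 0) (XT.nd (nat_lit 94) (nat_lit 168) (nat_lit 0) (XT.lf (nat_lit 0) (nat_lit 9120335081) (nat_lit 168) (nat_lit 2978606985) (nat_lit 252) (nat_lit 9493066852) (nat_lit 34) (nat_lit 5) (nat_lit 36) (nat_lit 5) (nat_lit 37) (nat_lit 5) (nat_lit 399) (nat_lit 320) (nat_lit 226)) (XT.nd (nat_lit 94) (nat_lit 168) (nat_lit 0) (XT.lf (nat_lit 0) (nat_lit 15740273072) (nat_lit 252) (nat_lit 4489908668) (nat_lit 84) (nat_lit 1852613337) (nat_lit 34) (nat_lit 5) (nat_lit 37) (nat_lit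 5) (nat_lit 35) (nat_lit 5) (nat_lit 400) (nat_lit 320) (nat_lit 225)) (XT.lf (nat_lit 0) (nat_lit 3748625501) (nat_lit 168) (nat_lit 15791412580) (nat_lit 252) (nat_lit 3046806006) (nat_lit 32) (nat_lit 5) (nat_lit 34) (nat_lit 5) (nat_lit 35) (nat_lit 5) (nat_lit 401) (nat_lit 320) (nat_lit 224)))) (XT.nd (nat_lit 188) (nat_lit 168) (nat_lit 0) (XT.nd (nat_lit 94) (nat_lit 0) (nat_lit 0) (XT.lf (nat_lit 0) (nat_lit 370503113) (nat_lit 252) (nat_lit 10808513922) (nat_lit 84) (nat_lit 11926026224) (nat_lit 31) (nat_lit 5) (nat_lit 34) (nat_lit 5) (nat_lit 32) (nat_lit 5) (nat_lit 402) (nat_lit 320) (nat_lit 223)) (XT.lf (nat_lit 0) (nat_lit 3813287834) (nat_lit 252) (nat_lit 2593736900) (nat_lit 84) (nat_lit 17231346667) (nat_lit 31) (nat_lit 5) (nat_lit 34) (nat_lit 5) (nat_lit 32) (nat_lit 5) (nat_lit 403) (nat_lit 320) (nat_lit 222))) (XT.nd (nat_lit 94) (nat_lit 0) (nat_lit 0) (XT.lf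 (nat_lit 0) (nat_lit 5958856962) (nat_lit 168) (nat_lit 1442433788) (nat_lit 252) (nat_lit 16785164006) (nat_lit 29) (nat_lit 5) (nat_lit 31) (nat_lit 5) (nat_lit 32) (nat_lit 5) (nat_lit 404) (nat_lit 320) (nat_lit 221)) (XT.lf (nat_lit 0) (nat_lit 11143446357) (nat_lit 252) (nat_lit 9989581876) (nat_lit 84) (nat_lit 3616570021) (nat_lit 29) (nat_lit 5) (nat_lit 32) (nat_lit 5) (nat_lit 30) (nat_lit 5) (nat_lit 405) (nat_lit 320) (nat_lit 220))))) (XT.nd (nat_lit 282) (nat_lit 252) (nat_lit 0) (XT.nd (nat_lit 94) (nat_lit 168) (nat_lit 0) (XT.lf (nat_lit 0) (nat_lit 14997364475) (nat_lit 252) (nat_lit 1543014366) (nat_lit 84) (nat_lit 8789284917) (nat_lit 29) (nat_lit 5) (nat_lit 32) (nat_lit 5) (nat_lit 30) (nat_lit 5) (nat_lit 406) (nat_lit 320) (nat_lit 219)) (XT.nd (nat_lit 94) (nat_lit 0) (nat_lit 0) (XT.lf (nat_lit 0) (nat_lit 7275318453) (nat_lit 168) (nat_lit 11747163410) (nat_lit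 252) (nat_lit 6902994185) (nat_lit 27) (nat_lit 5) (nat_lit 29) (nat_lit 5) (nat_lit 30) (nat_lit 5) (nat_lit 407) (nat_lit 320) (nat_lit 218)) (XT.lf (nat_lit 0) (nat_lit 16366463524) (nat_lit 168) (nat_lit 6803311006) (nat_lit 252) (nat_lit 3369357437) (nat_lit 27) (nat_lit 5) (nat_lit 29) (nat_lit 5) (nat_lit 30) (nat_lit 5) (nat_lit 408) (nat_lit 320) (nat_lit 217)))) (XT.nd (nat_lit 188) (nat_lit 0) (nat_lit 0) (XT.nd (nat_lit 94) (nat_lit 168) (nat_lit 0) (XT.lf (nat_lit 0) (nat_lit 251119416) (nat_lit 252) (nat_lit 1466427950) (nat_lit 84) (nat_lit 25454000323) (nat_lit 26) (nat_lit 5) (nat_lit 29) (nat_lit 5) (nat_lit 27) (nat_lit 5) (nat_lit 409) (nat_lit 320) (nat_lit 216)) (XT.lf (nat_lit 0) (nat_lit 4006805537) (nat_lit 252) (nat_lit 20261462573) (nat_lit 84) (nat_lit 3550848404) (nat_lit 24) (nat_lit 5) (nat_lit 27) (nat_lit 5) (nat_lit 25) (nat_lit 5) (nat_lit 410) (nat_lit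 320) (nat_lit 215))) (XT.nd (nat_lit 94) (nat_lit 0) (nat_lit 0) (XT.lf (nat_lit 0) (nat_lit 7893728543) (nat_lit 252) (nat_lit 11642714350) (nat_lit 84) (nat_lit 8949123108) (nat_lit 24) (nat_lit 5) (nat_lit 27) (nat_lit 5) (nat_lit 25) (nat_lit 5) (nat_lit 411) (nat_lit 320) (nat_lit 214)) (XT.lf (nat_lit 0) (nat_lit 11884255569) (nat_lit 252) (nat_lit 2787163660) (nat_lit 84) (nat_lit 14500990130) (nat_lit 24) (nat_lit 5) (nat_lit 27) (nat_lit 5) (nat_lit 25) (nat_lit 5) (nat_lit 412) (nat_lit 320) (nat_lit 213))))))) (XT.nd (nat_lit 1316) (nat_lit 420) (nat_lit 0) (XT.nd (nat_lit 658) (nat_lit 336) (nat_lit 0) (XT.nd (nat_lit 282) (nat_lit 168) (nat_lit 0) (XT.nd (nat_lit 94) (nat_lit 0) (nat_lit 0) (XT.lf (nat_lit 0) (nat_lit 6438566990) (nat_lit 168) (nat_lit 9605197940) (nat_lit 252) (nat_lit 13834625070) (nat_lit 22) (nat_lit 5) (nat_lit 24) (nat_lit 5) (nat_lit 25) (nat_lit 5)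 (nat_lit 413) (nat_lit 320) (nat_lit 212)) (XT.nd (nat_lit 94) (nat_lit 0) (nat_lit 0) (XT.lf (nat_lit 0) (nat_lit 15977284608) (nat_lit 168) (nat_lit 4366461558) (nat_lit 252) (nat_lit 10261342982) (nat_lit 22) (nat_lit 5) (nat_lit 24) (nat_lit 5) (nat_lit 25) (nat_lit 5) (nat_lit 414) (nat_lit 320) (nat_lit 211)) (XT.lf (nat_lit 0) (nat_lit 24770448026) (nat_lit 252) (nat_lit 5581924180) (nat_lit 84) (nat_lit 1001294833) (nat_lit 22) (nat_lit 5) (nat_lit 25) (nat_lit 5) (nat_lit 23) (nat_lit 4) (nat_lit 415) (nat_lit 320) (nat_lit 210)))) (XT.nd (nat_lit 188) (nat_lit 0) (nat_lit 0) (XT.nd (nat_lit 94) (nat_lit 84) (nat_lit 0) (XT.lf (nat_lit 0) (nat_lit 3745179236) (nat_lit 84) (nat_lit 25652185154) (nat_lit 168) (nat_lit 2725324605) (nat_lit 21) (nat_lit 5) (nat_lit 22) (nat_lit 5) (nat_lit 23) (nat_lit 4) (nat_lit 416) (nat_lit 320) (nat_lit 209)) (XT.lf (nat_lit 0) (nat_lit 1269082127)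 (nat_lit 168) (nat_lit 19479178600) (nat_lit 84) (nat_lit 12164815473) (nat_lit 20) (nat_lit 5) (nat_lit 22) (nat_lit 5) (nat_lit 21) (nat_lit 5) (nat_lit 417) (nat_lit 320) (nat_lit 208))) (XT.nd (nat_lit 94) (nat_lit 0) (nat_lit 0) (XT.lf (nat_lit 0) (nat_lit 5317098014) (nat_lit 168) (nat_lit 10360347075) (nat_lit 84) (nat_lit 18049272186) (nat_lit 20) (nat_lit 5) (nat_lit 22) (nat_lit 5) (nat_lit 21) (nat_lit 5) (nat_lit 418) (nat_lit 320) (nat_lit 207)) (XT.lf (nat_lit 0) (nat_lit 9475441055) (nat_lit 168) (nat_lit 986849786) (nat_lit 84) (nat_lit 24102818252) (nat_lit 20) (nat_lit 5) (nat_lit 22) (nat_lit 5) (nat_lit 21) (nat_lit 5) (nat_lit 419) (nat_lit 320) (nat_lit 206))))) (XT.nd (nat_lit 282) (nat_lit 168) (nat_lit 0) (XT.nd (nat_lit 94) (nat_lit 0) (nat_lit 0) (XT.lf (nat_lit 0) (nat_lit 8821645784) (nat_lit 168) (nat_lit 5010898027) (nat_lit 252) (nat_lit 21593896449) (nat_lit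 18) (nat_lit 5) (nat_lit 20) (nat_lit 5) (nat_lit 21) (nat_lit 5) (nat_lit 420) (nat_lit 320) (nat_lit 205)) (XT.nd (nat_lit 94) (nat_lit 0) (nat_lit 0) (XT.lf (nat_lit 0) (nat_lit 18325507636) (nat_lit 252) (nat_lit 17393015468) (nat_lit 84) (nat_lit 594941466) (nat_lit 18) (nat_lit 5) (nat_lit 21) (nat_lit 5) (nat_lit 19) (nat_lit 4) (nat_lit 421) (nat_lit 320) (nat_lit 204)) (XT.lf (nat_lit 0) (nat_lit 22992463229) (nat_lit 252) (nat_lit 7972383032) (nat_lit 84) (nat_lit 6261084686) (nat_lit 18) (nat_lit 5) (nat_lit 21) (nat_lit 5) (nat_lit 19) (nat_lit 4) (nat_lit 422) (nat_lit 320) (nat_lit 203)))) (XT.nd (nat_lit 188) (nat_lit 84) (nat_lit 0) (XT.nd (nat_lit 94) (nat_lit 0) (nat_lit 0) (XT.lf (nat_lit 0) (nat_lit 1747604324) (nat_lit 84) (nat_lit 26058515414) (nat_lit 168) (nat_lit 10359458018) (nat_lit 17) (nat_lit 5) (nat_lit 18) (nat_lit 5) (nat_lit 19) (nat_lit 4) (nat_lit 423)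 (nat_lit 320) (nat_lit 202)) (XT.lf (nat_lit 0) (nat_lit 11905421487) (nat_lit 84) (nat_lit 20929292176) (nat_lit 168) (nat_lit 6296591474) (nat_lit 17) (nat_lit 5) (nat_lit 18) (nat_lit 5) (nat_lit 19) (nat_lit 4) (nat_lit 424) (nat_lit 320) (nat_lit 201))) (XT.nd (nat_lit 94) (nat_lit 84) (nat_lit 0) (XT.lf (nat_lit 0) (nat_lit 22351278163) (nat_lit 84) (nat_lit 15653200136) (nat_lit 168) (nat_lit 2121823445) (nat_lit 17) (nat_lit 5) (nat_lit 18) (nat_lit 5) (nat_lit 19) (nat_lit 4) (nat_lit 425) (nat_lit 320) (nat_lit 200)) (XT.lf (nat_lit 0) (nat_lit 2126178795) (nat_lit 168) (nat_lit 8077980086) (nat_lit 84) (nat_lit 30946652768) (nat_lit 16) (nat_lit 5) (nat_lit 18) (nat_lit 5) (nat_lit 17) (nat_lit 5) (nat_lit 426) (nat_lit 320) (nat_lit 199)))))) (XT.nd (nat_lit 658) (nat_lit 168) (nat_lit 0) (XT.nd (nat_lit 282) (nat_lit 84) (nat_lit 0) (XT.nd (nat_lit 94) (nat_lit 0) (nat_lit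 0) (XT.lf (nat_lit 0) (nat_lit 1910317223) (nat_lit 168) (nat_lit 4557792757) (nat_lit 252) (nat_lit 35737048782) (nat_lit 14) (nat_lit 5) (nat_lit 16) (nat_lit 5) (nat_lit 17) (nat_lit 5) (nat_lit 427) (nat_lit 320) (nat_lit 198)) (XT.nd (nat_lit 94) (nat_lit 0) (nat_lit 0) (XT.lf (nat_lit 0) (nat_lit 11025596271) (nat_lit 252) (nat_lit 30953720674) (nat_lit 84) (nat_lit 1309266465) (nat_lit 14) (nat_lit 5) (nat_lit 17) (nat_lit 5) (nat_lit 15) (nat_lit 4) (nat_lit 428) (nat_lit 320) (nat_lit 197)) (XT.lf (nat_lit 0) (nat_lit 15756026475) (nat_lit 252) (nat_lit 21393012939) (nat_lit 84) (nat_lit 7254390663) (nat_lit 14) (nat_lit 5) (nat_lit 17) (nat_lit 5) (nat_lit 15) (nat_lit 4) (nat_lit 429) (nat_lit 320) (nat_lit 196)))) (XT.nd (nat_lit 188) (nat_lit 84) (nat_lit 0) (XT.nd (nat_lit 94) (nat_lit 0) (nat_lit 0) (XT.lf (nat_lit 0) (nat_lit 20619721688) (nat_lit 252) (nat_lit 11560552027)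 (nat_lit 84) (nat_lit 13371713557) (nat_lit 14) (nat_lit 5) (nat_lit 17) (nat_lit 5) (nat_lit 15) (nat_lit 4) (nat_lit 430) (nat_lit 320) (nat_lit 195)) (XT.lf (nat_lit 0) (nat_lit 25620931739) (nat_lit 252) (nat_lit 1447746466) (nat_lit 84) (nat_lit 19666580381) (nat_lit 14) (nat_lit 5) (nat_lit 17) (nat_lit 5) (nat_lit 15) (nat_lit 4) (nat_lit 431) (nat_lit 320) (nat_lit 194))) (XT.nd (nat_lit 94) (nat_lit 0) (nat_lit 0) (XT.lf (nat_lit 0) (nat_lit 9132447110) (nat_lit 84) (nat_lit 21719366176) (nat_lit 168) (nat_lit 17099831061) (nat_lit 13) (nat_lit 5) (nat_lit 14) (nat_lit 5) (nat_lit 15) (nat_lit 4) (nat_lit 432) (nat_lit 320) (nat_lit 193)) (XT.lf (nat_lit 0) (nat_lit 20045660038) (nat_lit 84) (nat_lit 16200531402) (nat_lit 168) (nat_lit 12958138346) (nat_lit 13) (nat_lit 5) (nat_lit 14) (nat_lit 5) (nat_lit 15) (nat_lit 4) (nat_lit 433) (nat_lit 320) (nat_lit 192))))) (XT.nd (nat_lit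 282) (nat_lit 0) (nat_lit 0) (XT.nd (nat_lit 94) (nat_lit 168) (nat_lit 0) (XT.lf (nat_lit 0) (nat_lit 31272615139) (nat_lit 84) (nat_lit 10521971001) (nat_lit 168) (nat_lit 8700249146) (nat_lit 13) (nat_lit 5) (nat_lit 14) (nat_lit 5) (nat_lit 15) (nat_lit 4) (nat_lit 434) (nat_lit 320) (nat_lit 191)) (XT.nd (nat_lit 94) (nat_lit 168) (nat_lit 0) (XT.lf (nat_lit 0) (nat_lit 42823122374) (nat_lit 84) (nat_lit 4678723123) (nat_lit 168) (nat_lit 4322442976) (nat_lit 13) (nat_lit 5) (nat_lit 14) (nat_lit 5) (nat_lit 15) (nat_lit 4) (nat_lit 435) (nat_lit 320) (nat_lit 190)) (XT.lf (nat_lit 0) (nat_lit 203421108) (nat_lit 168) (nat_lit 51664557239) (nat_lit 84) (nat_lit 1324986691) (nat_lit 11) (nat_lit 5) (nat_lit 13) (nat_lit 5) (nat_lit 12) (nat_lit 4) (nat_lit 436) (nat_lit 320) (nat_lit 189)))) (XT.nd (nat_lit 188) (nat_lit 0) (nat_lit 0) (XT.nd (nat_lit 94) (nat_lit 0) (nat_lit 0) (XT.lf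 (nat_lit 0) (nat_lit 4908898105) (nat_lit 168) (nat_lit 42144678701) (nat_lit 84) (nat_lit 7543924278) (nat_lit 11) (nat_lit 5) (nat_lit 13) (nat_lit 5) (nat_lit 12) (nat_lit 4) (nat_lit 437) (nat_lit 320) (nat_lit 188)) (XT.lf (nat_lit 0) (nat_lit 9748350820) (nat_lit 168) (nat_lit 32351890431) (nat_lit 84) (nat_lit 13944151978) (nat_lit 11) (nat_lit 5) (nat_lit 13) (nat_lit 5) (nat_lit 12) (nat_lit 4) (nat_lit 438) (nat_lit 320) (nat_lit 187))) (XT.nd (nat_lit 94) (nat_lit 0) (nat_lit 0) (XT.lf (nat_lit 0) (nat_lit 14726007902) (nat_lit 168) (nat_lit 22277635625) (nat_lit 84) (nat_lit 20531262222) (nat_lit 11) (nat_lit 5) (nat_lit 13) (nat_lit 5) (nat_lit 12) (nat_lit 4) (nat_lit 439) (nat_lit 320) (nat_lit 186)) (XT.lf (nat_lit 0) (nat_lit 19846218760) (nat_lit 168) (nat_lit 11913111535) (nat_lit 84) (nat_lit 27311010739) (nat_lit 11) (nat_lit 5) (nat_lit 13) (nat_lit 5) (nat_lit 12)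 (nat_lit 4) (nat_lit 440) (nat_lit 320) (nat_lit 185))))))))
noncomputable def xc100 : XT := (XT.nd (nat_lit 49914) (nat_lit 0) (nat_lit 6384) (XT.nd (nat_lit 48598) (nat_lit 0) (nat_lit 16884) (XT.nd (nat_lit 564) (nat_lit 0) (nat_lit 0) (XT.nd (nat_lit 282) (nat_lit 0) (nat_lit 0) (XT.nd (nat_lit 94) (nat_lit 84) (nat_lit 0) (XT.lf (nat_lit 0) (nat_lit 25113457364) (nat_lit 168) (nat_lit 1249261782) (nat_lit 84) (nat_lit 34289321579) (nat_lit 11) (nat_lit 5) (nat_lit 13) (nat_lit 5) (nat_lit 12) (nat_lit 4) (nat_lit 441) (nat_lit 320) (nat_lit 184)) (XT.nd (nat_lit 94) (nat_lit 0) (nat_lit 0) (XT.lf (nat_lit 0) (nat_lit 9916742935) (nat_lit 84) (nat_lit 20710909021) (nat_lit 168) (nat_lit 31650875161) (nat_lit 10) (nat_lit 5) (nat_lit 11) (nat_lit 5) (nat_lit 12) (nat_lit 4) (nat_lit 442) (nat_lit 320) (nat_lit 183)) (XT.lf (nat_lit 0) (nat_lit 21432175042) (nat_lit 84) (nat_lit 14881404206)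 (nat_lit 168) (nat_lit 27640043408) (nat_lit 10) (nat_lit 5) (nat_lit 11) (nat_lit 5) (nat_lit 12) (nat_lit 4) (nat_lit 443) (nat_lit 320) (nat_lit 182)))) (XT.nd (nat_lit 94) (nat_lit 0) (nat_lit 0) (XT.lf (nat_lit 0) (nat_lit 33282233810) (nat_lit 84) (nat_lit 8881726052) (nat_lit 168) (nat_lit 23515198586) (nat_lit 10) (nat_lit 5) (nat_lit 11) (nat_lit 5) (nat_lit 12) (nat_lit 4) (nat_lit 444) (nat_lit 320) (nat_lit 181)) (XT.nd (nat_lit 94) (nat_lit 0) (nat_lit 0) (XT.lf (nat_lit 0) (nat_lit 45477273656) (nat_lit 84) (nat_lit 2706632124) (nat_lit 168) (nat_lit 19272736463) (nat_lit 10) (nat_lit 5) (nat_lit 11) (nat_lit 5) (nat_lit 12) (nat_lit 4) (nat_lit 445) (nat_lit 320) (nat_lit 180)) (XT.lf (nat_lit 0) (nat_lit 54413756199) (nat_lit 168) (nat_lit 11294755789) (nat_lit 0) (nat_lit 3578062825) (nat_lit 10) (nat_lit 5) (nat_lit 12) (nat_lit 4) (nat_lit 10) (nat_lit 4) (nat_lit 446)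 (nat_lit 320) (nat_lit 179))))) (XT.nd (nat_lit 47658) (nat_lit 0) (nat_lit 20832) (XT.nd (nat_lit 47470) (nat_lit 0) (nat_lit 21336) (XT.lf (nat_lit 0) (nat_lit 60851654235) (nat_lit 168) (nat_lit 326449733) (nat_lit 0) (nat_lit 9992670169) (nat_lit 10) (nat_lit 5) (nat_lit 12) (nat_lit 4) (nat_lit 10) (nat_lit 4) (nat_lit 447) (nat_lit 320) (nat_lit 178)) (XT.nd (nat_lit 94) (nat_lit 588) (nat_lit 0) (XT.lf (nat_lit 0) (nat_lit 1117060688) (nat_lit 0) (nat_lit 1117060688) (nat_lit 420) (nat_lit 1066713788) (nat_lit 271) (nat_lit 5) (nat_lit 271) (nat_lit 3) (nat_lit 276) (nat_lit 3) (nat_lit 321) (nat_lit 321) (nat_lit 303)) (XT.lf (nat_lit 0) (nat_lit 54561708) (nat_lit 588) (nat_lit 1407703805) (nat_lit 588) (nat_lit 5167679528) (nat_lit 264) (nat_lit 3) (nat_lit 271) (nat_lit 3) (nat_lit 271) (nat_lit 5) (nat_lit 322) (nat_lit 321) (nat_lit 302)))) (XT.nd (nat_lit 188) (nat_lit 504)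 (nat_lit 0) (XT.nd (nat_lit 94) (nat_lit 0) (nat_lit 84) (XT.lf (nat_lit 84) (nat_lit 1607289417) (nat_lit 0) (nat_lit 588480800) (nat_lit 588) (nat_lit 4464986137) (nat_lit 265) (nat_lit 5) (nat_lit 264) (nat_lit 3) (nat_lit 271) (nat_lit 5) (nat_lit 323) (nat_lit 321) (nat_lit 301)) (XT.lf (nat_lit 0) (nat_lit 4336011526) (nat_lit 504) (nat_lit 2000166192) (nat_lit 588) (nat_lit 358499354) (nat_lit 265) (nat_lit 5) (nat_lit 271) (nat_lit 5) (nat_lit 272) (nat_lit 5) (nat_lit 324) (nat_lit 321) (nat_lit 300))) (XT.nd (nat_lit 94) (nat_lit 588) (nat_lit 0) (XT.lf (nat_lit 84) (nat_lit 1115475548) (nat_lit 0) (nat_lit 5361384436) (nat_lit 588) (nat_lit 254885723) (nat_lit 266) (nat_lit 5) (nat_lit 265) (nat_lit 5) (nat_lit 272) (nat_lit 5) (nat_lit 325) (nat_lit 321) (nat_lit 299)) (XT.lf (nat_lit 0) (nat_lit 1815863729) (nat_lit 588) (nat_lit 2468853546) (nat_lit 672) (nat_lit 2486632287)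 (nat_lit 258) (nat_lit 5) (nat_lit 265) (nat_lit 5) (nat_lit 266) (nat_lit 5) (nat_lit 326) (nat_lit 321) (nat_lit 298)))))) (XT.nd (nat_lit 658) (nat_lit 2604) (nat_lit 0) (XT.nd (nat_lit 282) (nat_lit 672) (nat_lit 0) (XT.nd (nat_lit 94) (nat_lit 672) (nat_lit 0) (XT.lf (nat_lit 84) (nat_lit 739710238) (nat_lit 0) (nat_lit 3134089386) (nat_lit 672) (nat_lit 2940564024) (nat_lit 259) (nat_lit 5) (nat_lit 258) (nat_lit 5) (nat_lit 266) (nat_lit 5) (nat_lit 327) (nat_lit 321) (nat_lit 297)) (XT.nd (nat_lit 94) (nat_lit 672) (nat_lit 0) (XT.lf (nat_lit 84) (nat_lit 4050396898) (nat_lit 0) (nat_lit 1892894036) (nat_lit 672) (nat_lit 917080206) (nat_lit 259) (nat_lit 5) (nat_lit 258) (nat_lit 5) (nat_lit 266) (nat_lit 5) (nat_lit 328) (nat_lit 321) (nat_lit 296)) (XT.lf (nat_lit 84) (nat_lit 506208740) (nat_lit 0) (nat_lit 569155367) (nat_lit 756) (nat_lit 5834313435) (nat_lit 251) (nat_lit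 5) (nat_lit 250) (nat_lit 5) (nat_lit 259) (nat_lit 5) (nat_lit 329) (nat_lit 321) (nat_lit 295)))) (XT.nd (nat_lit 188) (nat_lit 756) (nat_lit 0) (XT.nd (nat_lit 94) (nat_lit 0) (nat_lit 0) (XT.lf (nat_lit 0) (nat_lit 3073590535) (nat_lit 672) (nat_lit 3044390733) (nat_lit 756) (nat_lit 843456978) (nat_lit 251) (nat_lit 5) (nat_lit 259) (nat_lit 5) (nat_lit 260) (nat_lit 5) (nat_lit 330) (nat_lit 321) (nat_lit 294)) (XT.lf (nat_lit 84) (nat_lit 371182549) (nat_lit 0) (nat_lit 4700026925) (nat_lit 756) (nat_lit 1945534405) (nat_lit 252) (nat_lit 5) (nat_lit 251) (nat_lit 5) (nat_lit 260) (nat_lit 5) (nat_lit 331) (nat_lit 321) (nat_lit 293))) (XT.nd (nat_lit 94) (nat_lit 0) (nat_lit 0) (XT.lf (nat_lit 0) (nat_lit 16016452) (nat_lit 756) (nat_lit 3168963804) (nat_lit 840) (nat_lit 3890016689) (nat_lit 242) (nat_lit 5) (nat_lit 251) (nat_lit 5) (nat_lit 252) (nat_lit 5) (nat_lit 332) (nat_lit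 321) (nat_lit 292)) (XT.lf (nat_lit 84) (nat_lit 353970429) (nat_lit 0) (nat_lit 1579748094) (nat_lit 840) (nat_lit 5202769548) (nat_lit 243) (nat_lit 5) (nat_lit 242) (nat_lit 5) (nat_lit 252) (nat_lit 5) (nat_lit 333) (nat_lit 321) (nat_lit 291))))) (XT.nd (nat_lit 282) (nat_lit 1848) (nat_lit 0) (XT.nd (nat_lit 94) (nat_lit 840) (nat_lit 0) (XT.lf (nat_lit 0) (nat_lit 3876694641) (nat_lit 756) (nat_lit 3199809471) (nat_lit 84) (nat_lit 124443441) (nat_lit 243) (nat_lit 5) (nat_lit 252) (nat_lit 5) (nat_lit 244) (nat_lit 5) (nat_lit 334) (nat_lit 321) (nat_lit 290)) (XT.nd (nat_lit 94) (nat_lit 84) (nat_lit 0) (XT.lf (nat_lit 0) (nat_lit 437178368) (nat_lit 756) (nat_lit 5397244535) (nat_lit 840) (nat_lit 1434375403) (nat_lit 234) (nat_lit 5) (nat_lit 243) (nat_lit 5) (nat_lit 244) (nat_lit 5) (nat_lit 335) (nat_lit 321) (nat_lit 289)) (XT.lf (nat_lit 0) (nat_lit 472104310) (nat_lit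 840) (nat_lit 3141120616) (nat_lit 84) (nat_lit 3726357607) (nat_lit 233) (nat_lit 5) (nat_lit 243) (nat_lit 5) (nat_lit 234) (nat_lit 5) (nat_lit 336) (nat_lit 321) (nat_lit 288)))) (XT.nd (nat_lit 188) (nat_lit 1008) (nat_lit 0) (XT.nd (nat_lit 94) (nat_lit 0) (nat_lit 0) (XT.lf (nat_lit 0) (nat_lit 612176844) (nat_lit 840) (nat_lit 1739752777) (nat_lit 924) (nat_lit 5061923720) (nat_lit 223) (nat_lit 5) (nat_lit 233) (nat_lit 5) (nat_lit 234) (nat_lit 5) (nat_lit 337) (nat_lit 321) (nat_lit 287)) (XT.lf (nat_lit 0) (nat_lit 4262581911) (nat_lit 924) (nat_lit 2996349897) (nat_lit 84) (nat_lit 232321989) (nat_lit 223) (nat_lit 5) (nat_lit 234) (nat_lit 5) (nat_lit 224) (nat_lit 5) (nat_lit 338) (nat_lit 321) (nat_lit 286))) (XT.nd (nat_lit 94) (nat_lit 84) (nat_lit 0) (XT.lf (nat_lit 0) (nat_lit 877131484) (nat_lit 924) (nat_lit 5321383306) (nat_lit 1008) (nat_lit 1373553220) (nat_lit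 212) (nat_lit 5) (nat_lit 223) (nat_lit 5) (nat_lit 224) (nat_lit 5) (nat_lit 339) (nat_lit 321) (nat_lit 285)) (XT.lf (nat_lit 0) (nat_lit 500157363) (nat_lit 1008) (nat_lit 2778329006) (nat_lit 84) (nat_lit 4377585794) (nat_lit 211) (nat_lit 5) (nat_lit 223) (nat_lit 5) (nat_lit 212) (nat_lit 5) (nat_lit 340) (nat_lit 321) (nat_lit 284))))))) (XT.nd (nat_lit 1316) (nat_lit 3360) (nat_lit 0) (XT.nd (nat_lit 658) (nat_lit 2520) (nat_lit 0) (XT.nd (nat_lit 282) (nat_lit 2520) (nat_lit 0) (XT.nd (nat_lit 94) (nat_lit 1092) (nat_lit 0) (XT.lf (nat_lit 0) (nat_lit 1220650902) (nat_lit 1008) (nat_lit 1138083682) (nat_lit 1092) (nat_lit 5384885493) (nat_lit 199) (nat_lit 5) (nat_lit 211) (nat_lit 5) (nat_lit 212) (nat_lit 5) (nat_lit 341) (nat_lit 321) (nat_lit 283)) (XT.nd (nat_lit 94) (nat_lit 1092) (nat_lit 0) (XT.lf (nat_lit 0) (nat_lit 4257457741) (nat_lit 1092) (nat_lit 2493665343) (nat_lit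 84) (nat_lit 1083255699) (nat_lit 199) (nat_lit 5) (nat_lit 212) (nat_lit 5) (nat_lit 200) (nat_lit 5) (nat_lit 342) (nat_lit 321) (nat_lit 282)) (XT.lf (nat_lit 0) (nat_lit 1631715447) (nat_lit 1092) (nat_lit 4555761915) (nat_lit 1176) (nat_lit 1741265481) (nat_lit 186) (nat_lit 5) (nat_lit 199) (nat_lit 5) (nat_lit 200) (nat_lit 5) (nat_lit 343) (nat_lit 321) (nat_lit 281)))) (XT.nd (nat_lit 188) (nat_lit 1260) (nat_lit 0) (XT.nd (nat_lit 94) (nat_lit 1176) (nat_lit 0) (XT.lf (nat_lit 0) (nat_lit 119838652) (nat_lit 1176) (nat_lit 2140966605) (nat_lit 84) (nat_lit 5765996772) (nat_lit 185) (nat_lit 5) (nat_lit 199) (nat_lit 5) (nat_lit 186) (nat_lit 5) (nat_lit 344) (nat_lit 321) (nat_lit 280)) (XT.lf (nat_lit 0) (nat_lit 1972951331) (nat_lit 1260) (nat_lit 6010558766) (nat_lit 84) (nat_lit 144743569) (nat_lit 171) (nat_lit 5) (nat_lit 186) (nat_lit 5) (nat_lit 172) (nat_lit 5) (nat_lit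 345) (nat_lit 321) (nat_lit 279))) (XT.nd (nat_lit 94) (nat_lit 1260) (nat_lit 0) (XT.lf (nat_lit 0) (nat_lit 3876357874) (nat_lit 1260) (nat_lit 1752625447) (nat_lit 84) (nat_lit 2604024590) (nat_lit 171) (nat_lit 5) (nat_lit 186) (nat_lit 5) (nat_lit 172) (nat_lit 5) (nat_lit 346) (nat_lit 321) (nat_lit 278)) (XT.lf (nat_lit 0) (nat_lit 2639968064) (nat_lit 1260) (nat_lit 3174200443) (nat_lit 1344) (nat_lit 2527514380) (nat_lit 156) (nat_lit 5) (nat_lit 171) (nat_lit 5) (nat_lit 172) (nat_lit 5) (nat_lit 347) (nat_lit 321) (nat_lit 277))))) (XT.nd (nat_lit 282) (nat_lit 1848) (nat_lit 0) (XT.nd (nat_lit 94) (nat_lit 672) (nat_lit 0) (XT.lf (nat_lit 0) (nat_lit 7156110582) (nat_lit 1260) (nat_lit 624601656) (nat_lit 1344) (nat_lit 673882240) (nat_lit 156) (nat_lit 5) (nat_lit 171) (nat_lit 5) (nat_lit 172) (nat_lit 5) (nat_lit 348) (nat_lit 321) (nat_lit 276)) (XT.nd (nat_lit 94) (nat_lit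 0) (nat_lit 0) (XT.lf (nat_lit 0) (nat_lit 1215858528) (nat_lit 672) (nat_lit 5346368145) (nat_lit 84) (nat_lit 2008261228) (nat_lit 148) (nat_lit 5) (nat_lit 156) (nat_lit 5) (nat_lit 149) (nat_lit 5) (nat_lit 349) (nat_lit 321) (nat_lit 275)) (XT.lf (nat_lit 0) (nat_lit 3122851456) (nat_lit 672) (nat_lit 838345791) (nat_lit 84) (nat_lit 4729323914) (nat_lit 148) (nat_lit 5) (nat_lit 156) (nat_lit 5) (nat_lit 149) (nat_lit 5) (nat_lit 350) (nat_lit 321) (nat_lit 274)))) (XT.nd (nat_lit 188) (nat_lit 1260) (nat_lit 0) (XT.nd (nat_lit 94) (nat_lit 0) (nat_lit 0) (XT.lf (nat_lit 0) (nat_lit 3836168785) (nat_lit 588) (nat_lit 1243759203) (nat_lit 672) (nat_lit 3734525027) (nat_lit 141) (nat_lit 5) (nat_lit 148) (nat_lit 5) (nat_lit 149) (nat_lit 5) (nat_lit 351) (nat_lit 321) (nat_lit 273)) (XT.lf (nat_lit 0) (nat_lit 7076080185) (nat_lit 672) (nat_lit 333331580) (nat_lit 84) (nat_lit 1533361526)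 (nat_lit 141) (nat_lit 5) (nat_lit 149) (nat_lit 5) (nat_lit 142) (nat_lit 5) (nat_lit 352) (nat_lit 321) (nat_lit 272))) (XT.nd (nat_lit 94) (nat_lit 588) (nat_lit 0) (XT.lf (nat_lit 0) (nat_lit 69641905) (nat_lit 672) (nat_lit 4592422601) (nat_lit 84) (nat_lit 4412531368) (nat_lit 133) (nat_lit 5) (nat_lit 141) (nat_lit 5) (nat_lit 134) (nat_lit 5) (nat_lit 353) (nat_lit 321) (nat_lit 271)) (XT.lf (nat_lit 0) (nat_lit 179967338) (nat_lit 588) (nat_lit 1810157164) (nat_lit 672) (nat_lit 7220861347) (nat_lit 126) (nat_lit 5) (nat_lit 133) (nat_lit 5) (nat_lit 134) (nat_lit 5) (nat_lit 354) (nat_lit 321) (nat_lit 270)))))) (XT.nd (nat_lit 658) (nat_lit 1848) (nat_lit 0) (XT.nd (nat_lit 282) (nat_lit 1008) (nat_lit 0) (XT.nd (nat_lit 94) (nat_lit 504) (nat_lit 0) (XT.lf (nat_lit 0) (nat_lit 3985108051) (nat_lit 672) (nat_lit 4216277640) (nat_lit 84) (nat_lit 1149647533) (nat_lit 126) (nat_lit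 5) (nat_lit 134) (nat_lit 5) (nat_lit 127) (nat_lit 5) (nat_lit 355) (nat_lit 321) (nat_lit 269)) (XT.nd (nat_lit 94) (nat_lit 0) (nat_lit 0) (XT.lf (nat_lit 0) (nat_lit 695273734) (nat_lit 504) (nat_lit 5329677473) (nat_lit 588) (nat_lit 3470850701) (nat_lit 120) (nat_lit 5) (nat_lit 126) (nat_lit 5) (nat_lit 127) (nat_lit 5) (nat_lit 356) (nat_lit 321) (nat_lit 268)) (XT.lf (nat_lit 0) (nat_lit 5797748821) (nat_lit 504) (nat_lit 2331962679) (nat_lit 588) (nat_lit 1515158642) (nat_lit 120) (nat_lit 5) (nat_lit 126) (nat_lit 5) (nat_lit 127) (nat_lit 5) (nat_lit 357) (nat_lit 321) (nat_lit 267)))) (XT.nd (nat_lit 188) (nat_lit 420) (nat_lit 0) (XT.nd (nat_lit 94) (nat_lit 0) (nat_lit 0) (XT.lf (nat_lit 0) (nat_lit 470529556) (nat_lit 588) (nat_lit 8574812214) (nat_lit 84) (nat_lit 753556929) (nat_lit 113) (nat_lit 5) (nat_lit 120) (nat_lit 5) (nat_lit 114) (nat_lit 5) (nat_lit 358) (nat_lit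 321) (nat_lit 266)) (XT.lf (nat_lit 0) (nat_lit 2510159812) (nat_lit 588) (nat_lit 3511719019) (nat_lit 84) (nat_lit 3934536859) (nat_lit 113) (nat_lit 5) (nat_lit 120) (nat_lit 5) (nat_lit 114) (nat_lit 5) (nat_lit 359) (nat_lit 321) (nat_lit 265))) (XT.nd (nat_lit 94) (nat_lit 0) (nat_lit 0) (XT.lf (nat_lit 0) (nat_lit 1694434251) (nat_lit 420) (nat_lit 2896427654) (nat_lit 504) (nat_lit 5528460343) (nat_lit 108) (nat_lit 5) (nat_lit 113) (nat_lit 5) (nat_lit 114) (nat_lit 5) (nat_lit 360) (nat_lit 321) (nat_lit 264)) (XT.lf (nat_lit 0) (nat_lit 6737101802) (nat_lit 504) (nat_lit 3203309535) (nat_lit 84) (nat_lit 346669948) (nat_lit 108) (nat_lit 5) (nat_lit 114) (nat_lit 5) (nat_lit 109) (nat_lit 5) (nat_lit 361) (nat_lit 321) (nat_lit 263))))) (XT.nd (nat_lit 282) (nat_lit 840) (nat_lit 0) (XT.nd (nat_lit 94) (nat_lit 504) (nat_lit 0) (XT.lf (nat_lit 0) (nat_lit 2146808057) (nat_lit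 504) (nat_lit 6815478784) (nat_lit 588) (nat_lit 1497206586) (nat_lit 102) (nat_lit 5) (nat_lit 108) (nat_lit 5) (nat_lit 109) (nat_lit 5) (nat_lit 362) (nat_lit 321) (nat_lit 262)) (XT.nd (nat_lit 94) (nat_lit 420) (nat_lit 0) (XT.lf (nat_lit 0) (nat_lit 603244784) (nat_lit 588) (nat_lit 2960924873) (nat_lit 84) (nat_lit 7072839953) (nat_lit 101) (nat_lit 5) (nat_lit 108) (nat_lit 5) (nat_lit 102) (nat_lit 5) (nat_lit 363) (nat_lit 321) (nat_lit 261)) (XT.lf (nat_lit 0) (nat_lit 2545797084) (nat_lit 420) (nat_lit 181768388) (nat_lit 504) (nat_lit 8092164876) (nat_lit 96) (nat_lit 5) (nat_lit 101) (nat_lit 5) (nat_lit 102) (nat_lit 5) (nat_lit 364) (nat_lit 321) (nat_lit 260)))) (XT.nd (nat_lit 188) (nat_lit 420) (nat_lit 0) (XT.nd (nat_lit 94) (nat_lit 420) (nat_lit 0) (XT.lf (nat_lit 0) (nat_lit 4944552630) (nat_lit 504) (nat_lit 2801675790) (nat_lit 84) (nat_lit 3260886890) (nat_lit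 96) (nat_lit 5) (nat_lit 102) (nat_lit 5) (nat_lit 97) (nat_lit 5) (nat_lit 365) (nat_lit 321) (nat_lit 259)) (XT.lf (nat_lit 0) (nat_lit 2848714183) (nat_lit 420) (nat_lit 4376479094) (nat_lit 504) (nat_lit 3975063457) (nat_lit 91) (nat_lit 5) (nat_lit 96) (nat_lit 5) (nat_lit 97) (nat_lit 5) (nat_lit 366) (nat_lit 321) (nat_lit 258))) (XT.nd (nat_lit 94) (nat_lit 420) (nat_lit 0) (XT.lf (nat_lit 0) (nat_lit 8686613686) (nat_lit 420) (nat_lit 884445622) (nat_lit 504) (nat_lit 1828276705) (nat_lit 91) (nat_lit 5) (nat_lit 96) (nat_lit 5) (nat_lit 97) (nat_lit 5) (nat_lit 367) (nat_lit 321) (nat_lit 257)) (XT.lf (nat_lit 0) (nat_lit 400781386) (nat_lit 420) (nat_lit 8517290712) (nat_lit 84) (nat_lit 2685490007) (nat_lit 86) (nat_lit 5) (nat_lit 91) (nat_lit 5) (nat_lit 87) (nat_lit 5) (nat_lit 368) (nat_lit 321) (nat_lit 256))))))))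
noncomputable def xc101 : XT := (XT.nd (nat_lit 2538) (nat_lit 1848) (nat_lit 0) (XT.nd (nat_lit 1222) (nat_lit 1680) (nat_lit 0) (XT.nd (nat_lit 564) (nat_lit 1008) (nat_lit 0) (XT.nd (nat_lit 282) (nat_lit 756) (nat_lit 0) (XT.nd (nat_lit 94) (nat_lit 420) (nat_lit 0) (XT.lf (nat_lit 0) (nat_lit 2665920750) (nat_lit 420) (nat_lit 2764820451) (nat_lit 84) (nat_lit 6382495784) (nat_lit 86) (nat_lit 5) (nat_lit 91) (nat_lit 5) (nat_lit 87) (nat_lit 5) (nat_lit 369) (nat_lit 321) (nat_lit 255)) (XT.nd (nat_lit 94) (nat_lit 0) (nat_lit 0) (XT.lf (nat_lit 0) (nat_lit 3184064754) (nat_lit 420) (nat_lit 1815978852) (nat_lit 504) (nat_lit 7029170091) (nat_lit 81) (nat_lit 5) (nat_lit 86) (nat_lit 5) (nat_lit 87) (nat_lit 5) (nat_lit 370) (nat_lit 321) (nat_lit 254)) (XT.lf (nat_lit 0) (nat_lit 7421553489) (nat_lit 504) (nat_lit 2940094411) (nat_lit 84) (nat_lit 1889542142) (nat_lit 81) (nat_lit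 5) (nat_lit 87) (nat_lit 5) (nat_lit 82) (nat_lit 5) (nat_lit 371) (nat_lit 321) (nat_lit 253)))) (XT.nd (nat_lit 94) (nat_lit 420) (nat_lit 0) (XT.lf (nat_lit 0) (nat_lit 3147942923) (nat_lit 336) (nat_lit 6787689392) (nat_lit 420) (nat_lit 2543635679) (nat_lit 77) (nat_lit 5) (nat_lit 81) (nat_lit 5) (nat_lit 82) (nat_lit 5) (nat_lit 372) (nat_lit 321) (nat_lit 252)) (XT.nd (nat_lit 94) (nat_lit 420) (nat_lit 0) (XT.lf (nat_lit 0) (nat_lit 9441642671) (nat_lit 336) (nat_lit 3085330430) (nat_lit 420) (nat_lit 187198859) (nat_lit 77) (nat_lit 5) (nat_lit 81) (nat_lit 5) (nat_lit 82) (nat_lit 5) (nat_lit 373) (nat_lit 321) (nat_lit 251)) (XT.lf (nat_lit 0) (nat_lit 2204810010) (nat_lit 420) (nat_lit 9995217497) (nat_lit 84) (nat_lit 755228581) (nat_lit 72) (nat_lit 5) (nat_lit 77) (nat_lit 5) (nat_lit 73) (nat_lit 5) (nat_lit 374) (nat_lit 321) (nat_lit 250))))) (XT.nd (nat_lit 282) (nat_lit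 672) (nat_lit 0) (XT.nd (nat_lit 94) (nat_lit 336) (nat_lit 0) (XT.lf (nat_lit 0) (nat_lit 4701750104) (nat_lit 420) (nat_lit 3825777393) (nat_lit 84) (nat_lit 4674917199) (nat_lit 72) (nat_lit 5) (nat_lit 77) (nat_lit 5) (nat_lit 73) (nat_lit 5) (nat_lit 375) (nat_lit 321) (nat_lit 249)) (XT.nd (nat_lit 94) (nat_lit 0) (nat_lit 0) (XT.lf (nat_lit 0) (nat_lit 2542302261) (nat_lit 336) (nat_lit 4729532677) (nat_lit 420) (nat_lit 6185301457) (nat_lit 68) (nat_lit 5) (nat_lit 72) (nat_lit 5) (nat_lit 73) (nat_lit 5) (nat_lit 376) (nat_lit 321) (nat_lit 248)) (XT.lf (nat_lit 0) (nat_lit 9144149327) (nat_lit 336) (nat_lit 787724201) (nat_lit 420) (nat_lit 3787243303) (nat_lit 68) (nat_lit 5) (nat_lit 72) (nat_lit 5) (nat_lit 73) (nat_lit 5) (nat_lit 377) (nat_lit 321) (nat_lit 247)))) (XT.nd (nat_lit 188) (nat_lit 252) (nat_lit 0) (XT.nd (nat_lit 94) (nat_lit 84) (nat_lit 0) (XT.lf (nat_lit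 0) (nat_lit 1925869272) (nat_lit 336) (nat_lit 10770689078) (nat_lit 420) (nat_lit 1291685526) (nat_lit 64) (nat_lit 5) (nat_lit 68) (nat_lit 5) (nat_lit 69) (nat_lit 5) (nat_lit 378) (nat_lit 321) (nat_lit 246)) (XT.lf (nat_lit 0) (nat_lit 1283237210) (nat_lit 420) (nat_lit 5604626466) (nat_lit 84) (nat_lit 7376359443) (nat_lit 63) (nat_lit 5) (nat_lit 68) (nat_lit 5) (nat_lit 64) (nat_lit 5) (nat_lit 379) (nat_lit 321) (nat_lit 245))) (XT.nd (nat_lit 94) (nat_lit 0) (nat_lit 0) (XT.lf (nat_lit 0) (nat_lit 1019460930) (nat_lit 252) (nat_lit 2875509218) (nat_lit 336) (nat_lit 10653591983) (nat_lit 60) (nat_lit 5) (nat_lit 63) (nat_lit 5) (nat_lit 64) (nat_lit 5) (nat_lit 380) (nat_lit 321) (nat_lit 244)) (XT.lf (nat_lit 0) (nat_lit 6630300778) (nat_lit 336) (nat_lit 6930025166) (nat_lit 84) (nat_lit 1279776916) (nat_lit 60) (nat_lit 5) (nat_lit 64) (nat_lit 5) (nat_lit 61) (nat_lit 5)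 (nat_lit 381) (nat_lit 321) (nat_lit 243)))))) (XT.nd (nat_lit 658) (nat_lit 756) (nat_lit 0) (XT.nd (nat_lit 282) (nat_lit 588) (nat_lit 0) (XT.nd (nat_lit 94) (nat_lit 336) (nat_lit 0) (XT.lf (nat_lit 0) (nat_lit 9452865095) (nat_lit 336) (nat_lit 195239994) (nat_lit 84) (nat_lit 5492157583) (nat_lit 60) (nat_lit 5) (nat_lit 64) (nat_lit 5) (nat_lit 61) (nat_lit 5) (nat_lit 382) (nat_lit 321) (nat_lit 242)) (XT.nd (nat_lit 94) (nat_lit 0) (nat_lit 0) (XT.lf (nat_lit 0) (nat_lit 6842298113) (nat_lit 336) (nat_lit 5560962508) (nat_lit 420) (nat_lit 3044899288) (nat_lit 56) (nat_lit 5) (nat_lit 60) (nat_lit 5) (nat_lit 61) (nat_lit 5) (nat_lit 383) (nat_lit 321) (nat_lit 241)) (XT.lf (nat_lit 0) (nat_lit 14062477744) (nat_lit 336) (nat_lit 1359390229) (nat_lit 420) (nat_lit 344061553) (nat_lit 56) (nat_lit 5) (nat_lit 60) (nat_lit 5) (nat_lit 61) (nat_lit 5) (nat_lit 384) (nat_lit 321)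 (nat_lit 240)))) (XT.nd (nat_lit 188) (nat_lit 252) (nat_lit 0) (XT.nd (nat_lit 94) (nat_lit 0) (nat_lit 0) (XT.lf (nat_lit 0) (nat_lit 2450012048) (nat_lit 336) (nat_lit 10663739124) (nat_lit 84) (nat_lit 2977009566) (nat_lit 52) (nat_lit 5) (nat_lit 56) (nat_lit 5) (nat_lit 53) (nat_lit 5) (nat_lit 385) (nat_lit 321) (nat_lit 239)) (XT.lf (nat_lit 0) (nat_lit 5330196067) (nat_lit 336) (nat_lit 3667788130) (nat_lit 84) (nat_lit 7426998605) (nat_lit 52) (nat_lit 5) (nat_lit 56) (nat_lit 5) (nat_lit 53) (nat_lit 5) (nat_lit 386) (nat_lit 321) (nat_lit 238))) (XT.nd (nat_lit 94) (nat_lit 0) (nat_lit 0) (XT.lf (nat_lit 0) (nat_lit 3576512196) (nat_lit 252) (nat_lit 4733655323) (nat_lit 336) (nat_lit 8458686063) (nat_lit 49) (nat_lit 5) (nat_lit 52) (nat_lit 5) (nat_lit 53) (nat_lit 5) (nat_lit 387) (nat_lit 321) (nat_lit 237)) (XT.lf (nat_lit 0) (nat_lit 11082314821) (nat_lit 252) (nat_lit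 313576524) (nat_lit 336) (nat_lit 5726681372) (nat_lit 49) (nat_lit 5) (nat_lit 52) (nat_lit 5) (nat_lit 53) (nat_lit 5) (nat_lit 388) (nat_lit 321) (nat_lit 236))))) (XT.nd (nat_lit 282) (nat_lit 420) (nat_lit 0) (XT.nd (nat_lit 94) (nat_lit 84) (nat_lit 0) (XT.lf (nat_lit 0) (nat_lit 1279978509) (nat_lit 252) (nat_lit 13327083003) (nat_lit 336) (nat_lit 2878877838) (nat_lit 46) (nat_lit 5) (nat_lit 49) (nat_lit 5) (nat_lit 50) (nat_lit 5) (nat_lit 389) (nat_lit 321) (nat_lit 235)) (XT.nd (nat_lit 94) (nat_lit 0) (nat_lit 0) (XT.lf (nat_lit 0) (nat_lit 97902399) (nat_lit 336) (nat_lit 8949725196) (nat_lit 84) (nat_lit 8811246500) (nat_lit 45) (nat_lit 5) (nat_lit 49) (nat_lit 5) (nat_lit 46) (nat_lit 5) (nat_lit 390) (nat_lit 321) (nat_lit 234)) (XT.lf (nat_lit 0) (nat_lit 3086608853) (nat_lit 336) (nat_lit 1534168615) (nat_lit 84) (nat_lit 13621970023) (nat_lit 45) (nat_lit 5) (nat_lit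 49) (nat_lit 5) (nat_lit 46) (nat_lit 5) (nat_lit 391) (nat_lit 321) (nat_lit 233)))) (XT.nd (nat_lit 188) (nat_lit 168) (nat_lit 0) (XT.nd (nat_lit 94) (nat_lit 0) (nat_lit 0) (XT.lf (nat_lit 0) (nat_lit 6195763716) (nat_lit 252) (nat_lit 9824045) (nat_lit 336) (nat_lit 12431350681) (nat_lit 42) (nat_lit 5) (nat_lit 45) (nat_lit 5) (nat_lit 46) (nat_lit 5) (nat_lit 392) (nat_lit 321) (nat_lit 232)) (XT.lf (nat_lit 0) (nat_lit 9460573255) (nat_lit 336) (nat_lit 4928350455) (nat_lit 84) (nat_lit 4652777414) (nat_lit 42) (nat_lit 5) (nat_lit 46) (nat_lit 5) (nat_lit 43) (nat_lit 5) (nat_lit 393) (nat_lit 321) (nat_lit 231))) (XT.nd (nat_lit 94) (nat_lit 0) (nat_lit 0) (XT.lf (nat_lit 0) (nat_lit 2836776115) (nat_lit 168) (nat_lit 9985578067) (nat_lit 252) (nat_lit 6635996687) (nat_lit 40) (nat_lit 5) (nat_lit 42) (nat_lit 5) (nat_lit 43) (nat_lit 5) (nat_lit 394) (nat_lit 321) (nat_lit 230))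 (XT.lf (nat_lit 0) (nat_lit 10907819805) (nat_lit 168) (nat_lit 5408976109) (nat_lit 252) (nat_lit 3569767993) (nat_lit 40) (nat_lit 5) (nat_lit 42) (nat_lit 5) (nat_lit 43) (nat_lit 5) (nat_lit 395) (nat_lit 321) (nat_lit 229))))))) (XT.nd (nat_lit 1316) (nat_lit 756) (nat_lit 0) (XT.nd (nat_lit 658) (nat_lit 420) (nat_lit 0) (XT.nd (nat_lit 282) (nat_lit 336) (nat_lit 0) (XT.nd (nat_lit 94) (nat_lit 336) (nat_lit 0) (XT.lf (nat_lit 0) (nat_lit 19193749146) (nat_lit 168) (nat_lit 704885540) (nat_lit 252) (nat_lit 429529232) (nat_lit 40) (nat_lit 5) (nat_lit 42) (nat_lit 5) (nat_lit 43) (nat_lit 5) (nat_lit 396) (nat_lit 321) (nat_lit 228)) (XT.nd (nat_lit 94) (nat_lit 0) (nat_lit 0) (XT.lf (nat_lit 0) (nat_lit 2841275553) (nat_lit 336) (nat_lit 13792721555) (nat_lit 84) (nat_lit 4145489648) (nat_lit 36) (nat_lit 5) (nat_lit 40) (nat_lit 5) (nat_lit 37) (nat_lit 5) (nat_lit 397) (nat_lit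 321) (nat_lit 227)) (XT.lf (nat_lit 0) (nat_lit 6203156821) (nat_lit 336) (nat_lit 5907491302) (nat_lit 84) (nat_lit 9133542020) (nat_lit 36) (nat_lit 5) (nat_lit 40) (nat_lit 5) (nat_lit 37) (nat_lit 5) (nat_lit 398) (nat_lit 321) (nat_lit 226)))) (XT.nd (nat_lit 188) (nat_lit 168) (nat_lit 0) (XT.nd (nat_lit 94) (nat_lit 0) (nat_lit 0) (XT.lf (nat_lit 0) (nat_lit 2231653751) (nat_lit 168) (nat_lit 7439224448) (nat_lit 252) (nat_lit 12051822467) (nat_lit 34) (nat_lit 5) (nat_lit 36) (nat_lit 5) (nat_lit 37) (nat_lit 5) (nat_lit 399) (nat_lit 321) (nat_lit 225)) (XT.lf (nat_lit 0) (nat_lit 10710137991) (nat_lit 168) (nat_lit 2575909337) (nat_lit 252) (nat_lit 8928231787) (nat_lit 34) (nat_lit 5) (nat_lit 36) (nat_lit 5) (nat_lit 37) (nat_lit 5) (nat_lit 400) (nat_lit 321) (nat_lit 224))) (XT.nd (nat_lit 94) (nat_lit 168) (nat_lit 0) (XT.lf (nat_lit 0) (nat_lit 17017206449) (nat_lit 252)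 (nat_lit 3326593318) (nat_lit 84) (nat_lit 2376593753) (nat_lit 34) (nat_lit 5) (nat_lit 37) (nat_lit 5) (nat_lit 35) (nat_lit 5) (nat_lit 401) (nat_lit 321) (nat_lit 223)) (XT.lf (nat_lit 0) (nat_lit 5146371262) (nat_lit 168) (nat_lit 15773509515) (nat_lit 252) (nat_lit 2320037394) (nat_lit 32) (nat_lit 5) (nat_lit 34) (nat_lit 5) (nat_lit 35) (nat_lit 5) (nat_lit 402) (nat_lit 321) (nat_lit 222))))) (XT.nd (nat_lit 282) (nat_lit 168) (nat_lit 0) (XT.nd (nat_lit 94) (nat_lit 168) (nat_lit 0) (XT.lf (nat_lit 0) (nat_lit 1160460240) (nat_lit 252) (nat_lit 9868736856) (nat_lit 84) (nat_lit 12744951652) (nat_lit 31) (nat_lit 5) (nat_lit 34) (nat_lit 5) (nat_lit 32) (nat_lit 5) (nat_lit 403) (nat_lit 321) (nat_lit 221)) (XT.nd (nat_lit 94) (nat_lit 168) (nat_lit 0) (XT.lf (nat_lit 0) (nat_lit 4683843783) (nat_lit 252) (nat_lit 1444333004) (nat_lit 84) (nat_lit 18196000311) (nat_lit 31) (nat_lit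 5) (nat_lit 34) (nat_lit 5) (nat_lit 32) (nat_lit 5) (nat_lit 404) (nat_lit 321) (nat_lit 220)) (XT.lf (nat_lit 0) (nat_lit 7352807145) (nat_lit 168) (nat_lit 1016336738) (nat_lit 252) (nat_lit 16519888602) (nat_lit 29) (nat_lit 5) (nat_lit 31) (nat_lit 5) (nat_lit 32) (nat_lit 5) (nat_lit 405) (nat_lit 321) (nat_lit 219)))) (XT.nd (nat_lit 188) (nat_lit 168) (nat_lit 0) (XT.nd (nat_lit 94) (nat_lit 0) (nat_lit 0) (XT.lf (nat_lit 0) (nat_lit 12206221867) (nat_lit 252) (nat_lit 9091513492) (nat_lit 84) (nat_lit 4171873881) (nat_lit 29) (nat_lit 5) (nat_lit 32) (nat_lit 5) (nat_lit 30) (nat_lit 5) (nat_lit 406) (nat_lit 321) (nat_lit 218)) (XT.lf (nat_lit 0) (nat_lit 16154539894) (nat_lit 252) (nat_lit 426435049) (nat_lit 84) (nat_lit 9486756435) (nat_lit 29) (nat_lit 5) (nat_lit 32) (nat_lit 5) (nat_lit 30) (nat_lit 5) (nat_lit 407) (nat_lit 321) (nat_lit 217))) (XT.nd (nat_lit 94) (nat_lit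 0) (nat_lit 0) (XT.lf (nat_lit 0) (nat_lit 8645047071) (nat_lit 168) (nat_lit 11645832713) (nat_lit 252) (nat_lit 6390841795) (nat_lit 27) (nat_lit 5) (nat_lit 29) (nat_lit 5) (nat_lit 30) (nat_lit 5) (nat_lit 408) (nat_lit 321) (nat_lit 216)) (XT.lf (nat_lit 0) (nat_lit 17975388560) (nat_lit 168) (nat_lit 6566880628) (nat_lit 252) (nat_lit 2772144747) (nat_lit 27) (nat_lit 5) (nat_lit 29) (nat_lit 5) (nat_lit 30) (nat_lit 5) (nat_lit 409) (nat_lit 321) (nat_lit 215)))))) (XT.nd (nat_lit 658) (nat_lit 336) (nat_lit 0) (XT.nd (nat_lit 282) (nat_lit 168) (nat_lit 0) (XT.nd (nat_lit 94) (nat_lit 168) (nat_lit 0) (XT.lf (nat_lit 0) (nat_lit 923378428) (nat_lit 252) (nat_lit 411284189) (nat_lit 84) (nat_lit 26631552509) (nat_lit 26) (nat_lit 5) (nat_lit 29) (nat_lit 5) (nat_lit 27) (nat_lit 5) (nat_lit 410) (nat_lit 321) (nat_lit 214)) (XT.nd (nat_lit 94) (nat_lit 0) (nat_lit 0) (XT.lf (nat_lit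 0) (nat_lit 4786993971) (nat_lit 252) (nat_lit 19764907106) (nat_lit 84) (nat_lit 4081467821) (nat_lit 24) (nat_lit 5) (nat_lit 27) (nat_lit 5) (nat_lit 25) (nat_lit 5) (nat_lit 411) (nat_lit 321) (nat_lit 213)) (XT.lf (nat_lit 0) (nat_lit 8771301825) (nat_lit 252) (nat_lit 10919763408) (nat_lit 84) (nat_lit 9629338514) (nat_lit 24) (nat_lit 5) (nat_lit 27) (nat_lit 5) (nat_lit 25) (nat_lit 5) (nat_lit 412) (nat_lit 321) (nat_lit 212)))) (XT.nd (nat_lit 188) (nat_lit 0) (nat_lit 0) (XT.nd (nat_lit 94) (nat_lit 168) (nat_lit 0) (XT.lf (nat_lit 0) (nat_lit 12862881708) (nat_lit 252) (nat_lit 1829776266) (nat_lit 84) (nat_lit 15335769070) (nat_lit 24) (nat_lit 5) (nat_lit 27) (nat_lit 5) (nat_lit 25) (nat_lit 5) (nat_lit 413) (nat_lit 321) (nat_lit 211)) (XT.lf (nat_lit 0) (nat_lit 7662520398) (nat_lit 168) (nat_lit 9476445223) (nat_lit 252) (nat_lit 13616882123) (nat_lit 22) (nat_lit 5)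 (nat_lit 24) (nat_lit 5) (nat_lit 25) (nat_lit 5) (nat_lit 414) (nat_lit 321) (nat_lit 210))) (XT.nd (nat_lit 94) (nat_lit 0) (nat_lit 0) (XT.lf (nat_lit 0) (nat_lit 17457376349) (nat_lit 168) (nat_lit 4092689720) (nat_lit 252) (nat_lit 9954832107) (nat_lit 22) (nat_lit 5) (nat_lit 24) (nat_lit 5) (nat_lit 25) (nat_lit 5) (nat_lit 415) (nat_lit 321) (nat_lit 209)) (XT.lf (nat_lit 0) (nat_lit 26095987073) (nat_lit 252) (nat_lit 4763725602) (nat_lit 84) (nat_lit 1416641686) (nat_lit 22) (nat_lit 5) (nat_lit 25) (nat_lit 5) (nat_lit 23) (nat_lit 4) (nat_lit 416) (nat_lit 321) (nat_lit 208))))) (XT.nd (nat_lit 282) (nat_lit 168) (nat_lit 0) (XT.nd (nat_lit 94) (nat_lit 84) (nat_lit 0) (XT.lf (nat_lit 0) (nat_lit 4833527620) (nat_lit 84) (nat_lit 26020601297) (nat_lit 168) (nat_lit 2214558623) (nat_lit 21) (nat_lit 5) (nat_lit 22) (nat_lit 5) (nat_lit 23) (nat_lit 4) (nat_lit 417) (nat_lit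 321) (nat_lit 207)) (XT.nd (nat_lit 94) (nat_lit 0) (nat_lit 0) (XT.lf (nat_lit 0) (nat_lit 1871196736) (nat_lit 168) (nat_lit 19104350645) (nat_lit 84) (nat_lit 12907588098) (nat_lit 20) (nat_lit 5) (nat_lit 22) (nat_lit 5) (nat_lit 21) (nat_lit 5) (nat_lit 418) (nat_lit 321) (nat_lit 206)) (XT.lf (nat_lit 0) (nat_lit 6024224687) (nat_lit 168) (nat_lit 9739892134) (nat_lit 84) (nat_lit 18957573808) (nat_lit 20) (nat_lit 5) (nat_lit 22) (nat_lit 5) (nat_lit 21) (nat_lit 5) (nat_lit 419) (nat_lit 321) (nat_lit 205)))) (XT.nd (nat_lit 188) (nat_lit 0) (nat_lit 0) (XT.nd (nat_lit 94) (nat_lit 168) (nat_lit 0) (XT.lf (nat_lit 0) (nat_lit 10291368106) (nat_lit 168) (nat_lit 112314160) (nat_lit 84) (nat_lit 25182042078) (nat_lit 20) (nat_lit 5) (nat_lit 22) (nat_lit 5) (nat_lit 21) (nat_lit 5) (nat_lit 420) (nat_lit 321) (nat_lit 204)) (XT.lf (nat_lit 0) (nat_lit 9981572148) (nat_lit 168) (nat_lit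 4790732392) (nat_lit 252) (nat_lit 21700808593) (nat_lit 18) (nat_lit 5) (nat_lit 20) (nat_lit 5) (nat_lit 21) (nat_lit 5) (nat_lit 421) (nat_lit 321) (nat_lit 203))) (XT.nd (nat_lit 94) (nat_lit 0) (nat_lit 0) (XT.lf (nat_lit 0) (nat_lit 19388229968) (nat_lit 252) (nat_lit 17033411831) (nat_lit 84) (nat_lit 965472167) (nat_lit 18) (nat_lit 5) (nat_lit 21) (nat_lit 5) (nat_lit 19) (nat_lit 4) (nat_lit 422) (nat_lit 321) (nat_lit 202)) (XT.lf (nat_lit 0) (nat_lit 24180253731) (nat_lit 252) (nat_lit 7355832094) (nat_lit 84) (nat_lit 6791327379) (nat_lit 18) (nat_lit 5) (nat_lit 21) (nat_lit 5) (nat_lit 19) (nat_lit 4) (nat_lit 423) (nat_lit 321) (nat_lit 201))))))))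
noncomputable def xc102 : XT := (XT.nd (nat_lit 50008) (nat_lit 0) (nat_lit 11004) (XT.nd (nat_lit 1222) (nat_lit 252) (nat_lit 0) (XT.nd (nat_lit 564) (nat_lit 84) (nat_lit 0) (XT.nd (nat_lit 282) (nat_lit 252) (nat_lit 0) (XT.nd (nat_lit 94) (nat_lit 0) (nat_lit 0) (XT.lf (nat_lit 0) (nat_lit 2647365447) (nat_lit 84) (nat_lit 26484594234) (nat_lit 168) (nat_lit 10163490890) (nat_lit 17) (nat_lit 5) (nat_lit 18) (nat_lit 5) (nat_lit 19) (nat_lit 4) (nat_lit 424) (nat_lit 321) (nat_lit 200)) (XT.nd (nat_lit 94) (nat_lit 0) (nat_lit 0) (XT.lf (nat_lit 0) (nat_lit 13085237523) (nat_lit 84) (nat_lit 21211853812) (nat_lit 168) (nat_lit 5993498083) (nat_lit 17) (nat_lit 5) (nat_lit 18) (nat_lit 5) (nat_lit 19) (nat_lit 4) (nat_lit 425) (nat_lit 321) (nat_lit 199)) (XT.lf (nat_lit 0) (nat_lit 23820509121) (nat_lit 84) (nat_lit 15787536792) (nat_lit 168) (nat_lit 1707816853) (nat_lit 17) (nat_lit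 5) (nat_lit 18) (nat_lit 5) (nat_lit 19) (nat_lit 4) (nat_lit 426) (nat_lit 321) (nat_lit 198)))) (XT.nd (nat_lit 94) (nat_lit 168) (nat_lit 0) (XT.lf (nat_lit 0) (nat_lit 2644663580) (nat_lit 168) (nat_lit 7535533983) (nat_lit 84) (nat_lit 32191191079) (nat_lit 16) (nat_lit 5) (nat_lit 18) (nat_lit 5) (nat_lit 17) (nat_lit 5) (nat_lit 427) (nat_lit 321) (nat_lit 197)) (XT.nd (nat_lit 94) (nat_lit 0) (nat_lit 0) (XT.lf (nat_lit 0) (nat_lit 2744718271) (nat_lit 168) (nat_lit 4366360637) (nat_lit 252) (nat_lit 36346469397) (nat_lit 14) (nat_lit 5) (nat_lit 16) (nat_lit 5) (nat_lit 17) (nat_lit 5) (nat_lit 428) (nat_lit 321) (nat_lit 196)) (XT.lf (nat_lit 0) (nat_lit 11795276934) (nat_lit 252) (nat_lit 31117572857) (nat_lit 84) (nat_lit 1660934949) (nat_lit 14) (nat_lit 5) (nat_lit 17) (nat_lit 5) (nat_lit 15) (nat_lit 4) (nat_lit 429) (nat_lit 321) (nat_lit 195))))) (XT.nd (nat_lit 282)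 (nat_lit 84) (nat_lit 0) (XT.nd (nat_lit 94) (nat_lit 0) (nat_lit 0) (XT.lf (nat_lit 0) (nat_lit 16654836178) (nat_lit 252) (nat_lit 21292318437) (nat_lit 84) (nat_lit 7775314120) (nat_lit 14) (nat_lit 5) (nat_lit 17) (nat_lit 5) (nat_lit 15) (nat_lit 4) (nat_lit 430) (nat_lit 321) (nat_lit 194)) (XT.nd (nat_lit 94) (nat_lit 0) (nat_lit 0) (XT.lf (nat_lit 0) (nat_lit 21652030725) (nat_lit 252) (nat_lit 11186509471) (nat_lit 84) (nat_lit 14067322961) (nat_lit 14) (nat_lit 5) (nat_lit 17) (nat_lit 5) (nat_lit 15) (nat_lit 4) (nat_lit 431) (nat_lit 321) (nat_lit 193)) (XT.lf (nat_lit 0) (nat_lit 26791227057) (nat_lit 252) (nat_lit 791315640) (nat_lit 84) (nat_lit 20542459343) (nat_lit 14) (nat_lit 5) (nat_lit 17) (nat_lit 5) (nat_lit 15) (nat_lit 4) (nat_lit 432) (nat_lit 321) (nat_lit 192)))) (XT.nd (nat_lit 188) (nat_lit 0) (nat_lit 0) (XT.nd (nat_lit 94) (nat_lit 0) (nat_lit 0) (XT.lf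 (nat_lit 0) (nat_lit 10099422339) (nat_lit 84) (nat_lit 22074575220) (nat_lit 168) (nat_lit 17204040639) (nat_lit 13) (nat_lit 5) (nat_lit 14) (nat_lit 5) (nat_lit 15) (nat_lit 4) (nat_lit 433) (nat_lit 321) (nat_lit 191)) (XT.lf (nat_lit 0) (nat_lit 21319847136) (nat_lit 84) (nat_lit 16398807594) (nat_lit 168) (nat_lit 12950003511) (nat_lit 13) (nat_lit 5) (nat_lit 14) (nat_lit 5) (nat_lit 15) (nat_lit 4) (nat_lit 434) (nat_lit 321) (nat_lit 190))) (XT.nd (nat_lit 94) (nat_lit 0) (nat_lit 0) (XT.lf (nat_lit 0) (nat_lit 32864014269) (nat_lit 84) (nat_lit 10558271150) (nat_lit 168) (nat_lit 8575937218) (nat_lit 13) (nat_lit 5) (nat_lit 14) (nat_lit 5) (nat_lit 15) (nat_lit 4) (nat_lit 435) (nat_lit 321) (nat_lit 189)) (XT.lf (nat_lit 0) (nat_lit 44742010877) (nat_lit 84) (nat_lit 4547862506) (nat_lit 168) (nat_lit 4078019758) (nat_lit 13) (nat_lit 5) (nat_lit 14) (nat_lit 5) (nat_lit 15)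 (nat_lit 4) (nat_lit 436) (nat_lit 321) (nat_lit 188)))))) (XT.nd (nat_lit 658) (nat_lit 0) (nat_lit 0) (XT.nd (nat_lit 282) (nat_lit 84) (nat_lit 0) (XT.nd (nat_lit 94) (nat_lit 0) (nat_lit 0) (XT.lf (nat_lit 0) (nat_lit 574371302) (nat_lit 168) (nat_lit 52570600874) (nat_lit 84) (nat_lit 1632615055) (nat_lit 11) (nat_lit 5) (nat_lit 13) (nat_lit 5) (nat_lit 12) (nat_lit 4) (nat_lit 437) (nat_lit 321) (nat_lit 187)) (XT.nd (nat_lit 94) (nat_lit 0) (nat_lit 0) (XT.lf (nat_lit 0) (nat_lit 5410385980) (nat_lit 168) (nat_lit 42783880147) (nat_lit 84) (nat_lit 8030318476) (nat_lit 11) (nat_lit 5) (nat_lit 13) (nat_lit 5) (nat_lit 12) (nat_lit 4) (nat_lit 438) (nat_lit 321) (nat_lit 186)) (XT.lf (nat_lit 0) (nat_lit 10384705163) (nat_lit 168) (nat_lit 32715516158) (nat_lit 84) (nat_lit 14614977964) (nat_lit 11) (nat_lit 5) (nat_lit 13) (nat_lit 5) (nat_lit 12) (nat_lit 4) (nat_lit 439) (nat_lit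 321) (nat_lit 185)))) (XT.nd (nat_lit 188) (nat_lit 84) (nat_lit 0) (XT.nd (nat_lit 94) (nat_lit 0) (nat_lit 0) (XT.lf (nat_lit 0) (nat_lit 15501675341) (nat_lit 168) (nat_lit 22356711310) (nat_lit 84) (nat_lit 21392347105) (nat_lit 11) (nat_lit 5) (nat_lit 13) (nat_lit 5) (nat_lit 12) (nat_lit 4) (nat_lit 440) (nat_lit 321) (nat_lit 184)) (XT.lf (nat_lit 0) (nat_lit 20765767655) (nat_lit 168) (nat_lit 11698414217) (nat_lit 84) (nat_lit 28368347873) (nat_lit 11) (nat_lit 5) (nat_lit 13) (nat_lit 5) (nat_lit 12) (nat_lit 4) (nat_lit 441) (nat_lit 321) (nat_lit 183))) (XT.nd (nat_lit 94) (nat_lit 84) (nat_lit 0) (XT.lf (nat_lit 0) (nat_lit 26181581796) (nat_lit 168) (nat_lit 731311806) (nat_lit 84) (nat_lit 35549075801) (nat_lit 11) (nat_lit 5) (nat_lit 13) (nat_lit 5) (nat_lit 12) (nat_lit 4) (nat_lit 442) (nat_lit 321) (nat_lit 182)) (XT.lf (nat_lit 0) (nat_lit 10764227681) (nat_lit 84)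 (nat_lit 21093094689) (nat_lit 168) (nat_lit 32280049972) (nat_lit 10) (nat_lit 5) (nat_lit 11) (nat_lit 5) (nat_lit 12) (nat_lit 4) (nat_lit 443) (nat_lit 321) (nat_lit 181))))) (XT.nd (nat_lit 282) (nat_lit 0) (nat_lit 0) (XT.nd (nat_lit 94) (nat_lit 0) (nat_lit 0) (XT.lf (nat_lit 0) (nat_lit 22609103846) (nat_lit 84) (nat_lit 15095670018) (nat_lit 168) (nat_lit 28158223891) (nat_lit 10) (nat_lit 5) (nat_lit 11) (nat_lit 5) (nat_lit 12) (nat_lit 4) (nat_lit 444) (nat_lit 321) (nat_lit 180)) (XT.nd (nat_lit 94) (nat_lit 0) (nat_lit 0) (XT.lf (nat_lit 0) (nat_lit 34799112039) (nat_lit 84) (nat_lit 8922763937) (nat_lit 168) (nat_lit 23918692584) (nat_lit 10) (nat_lit 5) (nat_lit 11) (nat_lit 5) (nat_lit 12) (nat_lit 4) (nat_lit 445) (nat_lit 321) (nat_lit 179)) (XT.lf (nat_lit 0) (nat_lit 47344903726) (nat_lit 84) (nat_lit 2568982645) (nat_lit 168) (nat_lit 19557751606) (nat_lit 10) (nat_lit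 5) (nat_lit 11) (nat_lit 5) (nat_lit 12) (nat_lit 4) (nat_lit 446) (nat_lit 321) (nat_lit 178)))) (XT.nd (nat_lit 47658) (nat_lit 0) (nat_lit 21336) (XT.nd (nat_lit 47564) (nat_lit 0) (nat_lit 21336) (XT.lf (nat_lit 0) (nat_lit 56324389391) (nat_lit 168) (nat_lit 11138538570) (nat_lit 0) (nat_lit 3893732789) (nat_lit 10) (nat_lit 5) (nat_lit 12) (nat_lit 4) (nat_lit 10) (nat_lit 4) (nat_lit 447) (nat_lit 321) (nat_lit 177)) (XT.lf (nat_lit 0) (nat_lit 1079526344) (nat_lit 588) (nat_lit 1124981006) (nat_lit 588) (nat_lit 1124981006) (nat_lit 264) (nat_lit 3) (nat_lit 271) (nat_lit 3) (nat_lit 271) (nat_lit 5) (nat_lit 322) (nat_lit 322) (nat_lit 301))) (XT.nd (nat_lit 94) (nat_lit 0) (nat_lit 0) (XT.lf (nat_lit 84) (nat_lit 726860755) (nat_lit 0) (nat_lit 3524289213) (nat_lit 588) (nat_lit 2440224184) (nat_lit 265) (nat_lit 5) (nat_lit 264) (nat_lit 3) (nat_lit 271) (nat_lit 5) (nat_lit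 323) (nat_lit 322) (nat_lit 300)) (XT.lf (nat_lit 84) (nat_lit 3796918025) (nat_lit 0) (nat_lit 2551294675) (nat_lit 588) (nat_lit 378487033) (nat_lit 265) (nat_lit 5) (nat_lit 264) (nat_lit 3) (nat_lit 271) (nat_lit 5) (nat_lit 324) (nat_lit 322) (nat_lit 299))))))) (XT.nd (nat_lit 1316) (nat_lit 6888) (nat_lit 0) (XT.nd (nat_lit 658) (nat_lit 2268) (nat_lit 0) (XT.nd (nat_lit 282) (nat_lit 588) (nat_lit 0) (XT.nd (nat_lit 94) (nat_lit 0) (nat_lit 0) (XT.lf (nat_lit 84) (nat_lit 139184703) (nat_lit 0) (nat_lit 1494044136) (nat_lit 672) (nat_lit 5131897128) (nat_lit 258) (nat_lit 5) (nat_lit 257) (nat_lit 5) (nat_lit 265) (nat_lit 5) (nat_lit 325) (nat_lit 322) (nat_lit 298)) (XT.nd (nat_lit 94) (nat_lit 0) (nat_lit 84) (XT.lf (nat_lit 84) (nat_lit 3314126651) (nat_lit 0) (nat_lit 335851226) (nat_lit 672) (nat_lit 3156249454) (nat_lit 258) (nat_lit 5) (nat_lit 257) (nat_lit 5) (nat_lit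 265) (nat_lit 5) (nat_lit 326) (nat_lit 322) (nat_lit 297)) (XT.lf (nat_lit 0) (nat_lit 5660785092) (nat_lit 588) (nat_lit 316353745) (nat_lit 672) (nat_lit 873613733) (nat_lit 258) (nat_lit 5) (nat_lit 265) (nat_lit 5) (nat_lit 266) (nat_lit 5) (nat_lit 327) (nat_lit 322) (nat_lit 296)))) (XT.nd (nat_lit 188) (nat_lit 0) (nat_lit 0) (XT.nd (nat_lit 94) (nat_lit 0) (nat_lit 0) (XT.lf (nat_lit 0) (nat_lit 777747039) (nat_lit 672) (nat_lit 3939012376) (nat_lit 756) (nat_lit 2181037121) (nat_lit 250) (nat_lit 5) (nat_lit 258) (nat_lit 5) (nat_lit 259) (nat_lit 5) (nat_lit 328) (nat_lit 322) (nat_lit 295)) (XT.lf (nat_lit 0) (nat_lit 2712117032) (nat_lit 672) (nat_lit 663090418) (nat_lit 756) (nat_lit 3572925421) (nat_lit 250) (nat_lit 5) (nat_lit 258) (nat_lit 5) (nat_lit 259) (nat_lit 5) (nat_lit 329) (nat_lit 322) (nat_lit 294))) (XT.nd (nat_lit 94) (nat_lit 0) (nat_lit 0) (XT.lf (nat_lit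 84) (nat_lit 2721712729) (nat_lit 0) (nat_lit 1939371103) (nat_lit 756) (nat_lit 2340373976) (nat_lit 251) (nat_lit 5) (nat_lit 250) (nat_lit 5) (nat_lit 259) (nat_lit 5) (nat_lit 330) (nat_lit 322) (nat_lit 293)) (XT.lf (nat_lit 84) (nat_lit 6179562520) (nat_lit 0) (nat_lit 427678470) (nat_lit 756) (nat_lit 451150231) (nat_lit 251) (nat_lit 5) (nat_lit 250) (nat_lit 5) (nat_lit 259) (nat_lit 5) (nat_lit 331) (nat_lit 322) (nat_lit 292))))) (XT.nd (nat_lit 282) (nat_lit 1596) (nat_lit 0) (XT.nd (nat_lit 94) (nat_lit 0) (nat_lit 0) (XT.lf (nat_lit 0) (nat_lit 1435425172) (nat_lit 756) (nat_lit 4511005693) (nat_lit 840) (nat_lit 1171236021) (nat_lit 242) (nat_lit 5) (nat_lit 251) (nat_lit 5) (nat_lit 252) (nat_lit 5) (nat_lit 332) (nat_lit 322) (nat_lit 291)) (XT.nd (nat_lit 94) (nat_lit 0) (nat_lit 0) (XT.lf (nat_lit 0) (nat_lit 3317683640) (nat_lit 756) (nat_lit 1016790232) (nat_lit 840)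 (nat_lit 2845824252) (nat_lit 242) (nat_lit 5) (nat_lit 251) (nat_lit 5) (nat_lit 252) (nat_lit 5) (nat_lit 333) (nat_lit 322) (nat_lit 290)) (XT.lf (nat_lit 84) (nat_lit 2589800239) (nat_lit 0) (nat_lit 2628355552) (nat_lit 840) (nat_lit 2027951501) (nat_lit 243) (nat_lit 5) (nat_lit 242) (nat_lit 5) (nat_lit 252) (nat_lit 5) (nat_lit 334) (nat_lit 322) (nat_lit 289)))) (XT.nd (nat_lit 188) (nat_lit 840) (nat_lit 0) (XT.nd (nat_lit 94) (nat_lit 756) (nat_lit 0) (XT.lf (nat_lit 84) (nat_lit 6282865294) (nat_lit 0) (nat_lit 841325699) (nat_lit 840) (nat_lit 191390238) (nat_lit 243) (nat_lit 5) (nat_lit 242) (nat_lit 5) (nat_lit 252) (nat_lit 5) (nat_lit 335) (nat_lit 322) (nat_lit 288)) (XT.lf (nat_lit 0) (nat_lit 1642520195) (nat_lit 840) (nat_lit 4704908457) (nat_lit 84) (nat_lit 1040096023) (nat_lit 233) (nat_lit 5) (nat_lit 243) (nat_lit 5) (nat_lit 234) (nat_lit 5) (nat_lit 336) (nat_lit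 322) (nat_lit 287))) (XT.nd (nat_lit 94) (nat_lit 840) (nat_lit 0) (XT.lf (nat_lit 0) (nat_lit 3487332814) (nat_lit 840) (nat_lit 985394678) (nat_lit 84) (nat_lit 2990184622) (nat_lit 233) (nat_lit 5) (nat_lit 243) (nat_lit 5) (nat_lit 234) (nat_lit 5) (nat_lit 337) (nat_lit 322) (nat_lit 286)) (XT.lf (nat_lit 0) (nat_lit 2858443278) (nat_lit 840) (nat_lit 2499115882) (nat_lit 924) (nat_lit 2184030510) (nat_lit 223) (nat_lit 5) (nat_lit 233) (nat_lit 5) (nat_lit 234) (nat_lit 5) (nat_lit 338) (nat_lit 322) (nat_lit 285)))))) (XT.nd (nat_lit 658) (nat_lit 3696) (nat_lit 0) (XT.nd (nat_lit 282) (nat_lit 2184) (nat_lit 0) (XT.nd (nat_lit 94) (nat_lit 1008) (nat_lit 0) (XT.lf (nat_lit 0) (nat_lit 6795178199) (nat_lit 840) (nat_lit 442519300) (nat_lit 924) (nat_lit 386442670) (nat_lit 223) (nat_lit 5) (nat_lit 233) (nat_lit 5) (nat_lit 234) (nat_lit 5) (nat_lit 339) (nat_lit 322) (nat_lit 284))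 (XT.nd (nat_lit 94) (nat_lit 0) (nat_lit 0) (XT.lf (nat_lit 0) (nat_lit 1428218775) (nat_lit 1008) (nat_lit 4580728611) (nat_lit 84) (nat_lit 1700164750) (nat_lit 211) (nat_lit 5) (nat_lit 223) (nat_lit 5) (nat_lit 212) (nat_lit 5) (nat_lit 340) (nat_lit 322) (nat_lit 283)) (XT.lf (nat_lit 0) (nat_lit 3248532504) (nat_lit 1008) (nat_lit 627255115) (nat_lit 84) (nat_lit 3922077486) (nat_lit 211) (nat_lit 5) (nat_lit 223) (nat_lit 5) (nat_lit 212) (nat_lit 5) (nat_lit 341) (nat_lit 322) (nat_lit 282)))) (XT.nd (nat_lit 188) (nat_lit 1176) (nat_lit 0) (XT.nd (nat_lit 94) (nat_lit 0) (nat_lit 0) (XT.lf (nat_lit 0) (nat_lit 3469788076) (nat_lit 1008) (nat_lit 1634734309) (nat_lit 1092) (nat_lit 2785438910) (nat_lit 199) (nat_lit 5) (nat_lit 211) (nat_lit 5) (nat_lit 212) (nat_lit 5) (nat_lit 342) (nat_lit 322) (nat_lit 281)) (XT.lf (nat_lit 0) (nat_lit 6977977446) (nat_lit 1092) (nat_lit 332620019)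 (nat_lit 84) (nat_lit 675478694) (nat_lit 199) (nat_lit 5) (nat_lit 212) (nat_lit 5) (nat_lit 200) (nat_lit 5) (nat_lit 343) (nat_lit 322) (nat_lit 280))) (XT.nd (nat_lit 94) (nat_lit 0) (nat_lit 0) (XT.lf (nat_lit 0) (nat_lit 810471167) (nat_lit 1176) (nat_lit 4198403643) (nat_lit 84) (nat_lit 3075946709) (nat_lit 185) (nat_lit 5) (nat_lit 199) (nat_lit 5) (nat_lit 186) (nat_lit 5) (nat_lit 344) (nat_lit 322) (nat_lit 279)) (XT.lf (nat_lit 0) (nat_lit 2617586142) (nat_lit 1176) (nat_lit 1026357) (nat_lit 84) (nat_lit 5569089884) (nat_lit 185) (nat_lit 5) (nat_lit 199) (nat_lit 5) (nat_lit 186) (nat_lit 5) (nat_lit 345) (nat_lit 322) (nat_lit 278))))) (XT.nd (nat_lit 282) (nat_lit 1260) (nat_lit 0) (XT.nd (nat_lit 94) (nat_lit 1260) (nat_lit 0) (XT.lf (nat_lit 0) (nat_lit 4365290965) (nat_lit 1176) (nat_lit 107874495) (nat_lit 1260) (nat_lit 3820773847) (nat_lit 171) (nat_lit 5) (nat_lit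 185) (nat_lit 5) (nat_lit 186) (nat_lit 5) (nat_lit 346) (nat_lit 322) (nat_lit 277)) (XT.nd (nat_lit 94) (nat_lit 0) (nat_lit 0) (XT.lf (nat_lit 0) (nat_lit 399943963) (nat_lit 1260) (nat_lit 5965470158) (nat_lit 1344) (nat_lit 2038613490) (nat_lit 156) (nat_lit 5) (nat_lit 171) (nat_lit 5) (nat_lit 172) (nat_lit 5) (nat_lit 347) (nat_lit 322) (nat_lit 276)) (XT.lf (nat_lit 0) (nat_lit 4894968347) (nat_lit 1260) (nat_lit 3414463653) (nat_lit 1344) (nat_lit 208228091) (nat_lit 156) (nat_lit 5) (nat_lit 171) (nat_lit 5) (nat_lit 172) (nat_lit 5) (nat_lit 348) (nat_lit 322) (nat_lit 275)))) (XT.nd (nat_lit 188) (nat_lit 588) (nat_lit 0) (XT.nd (nat_lit 94) (nat_lit 0) (nat_lit 0) (XT.lf (nat_lit 0) (nat_lit 847966237) (nat_lit 588) (nat_lit 759605799) (nat_lit 672) (nat_lit 7027835341) (nat_lit 148) (nat_lit 5) (nat_lit 155) (nat_lit 5) (nat_lit 156) (nat_lit 5) (nat_lit 349) (nat_lit 322)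 (nat_lit 274)) (XT.lf (nat_lit 0) (nat_lit 3485587412) (nat_lit 672) (nat_lit 3293597738) (nat_lit 84) (nat_lit 1977166098) (nat_lit 148) (nat_lit 5) (nat_lit 156) (nat_lit 5) (nat_lit 149) (nat_lit 5) (nat_lit 350) (nat_lit 322) (nat_lit 273))) (XT.nd (nat_lit 94) (nat_lit 0) (nat_lit 0) (XT.lf (nat_lit 0) (nat_lit 1310782357) (nat_lit 588) (nat_lit 4086561604) (nat_lit 672) (nat_lit 3484338823) (nat_lit 141) (nat_lit 5) (nat_lit 148) (nat_lit 5) (nat_lit 149) (nat_lit 5) (nat_lit 351) (nat_lit 322) (nat_lit 272)) (XT.lf (nat_lit 0) (nat_lit 6078888596) (nat_lit 588) (nat_lit 1278944621) (nat_lit 672) (nat_lit 1653278649) (nat_lit 141) (nat_lit 5) (nat_lit 148) (nat_lit 5) (nat_lit 149) (nat_lit 5) (nat_lit 352) (nat_lit 322) (nat_lit 271))))))))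
noncomputable def xc103 : XT := (XT.nd (nat_lit 2632) (nat_lit 3024) (nat_lit 0) (XT.nd (nat_lit 1316) (nat_lit 2772) (nat_lit 0) (XT.nd (nat_lit 658) (nat_lit 1428) (nat_lit 0) (XT.nd (nat_lit 282) (nat_lit 1092) (nat_lit 0) (XT.nd (nat_lit 94) (nat_lit 588) (nat_lit 0) (XT.lf (nat_lit 0) (nat_lit 220396791) (nat_lit 672) (nat_lit 7323188899) (nat_lit 84) (nat_lit 1601078749) (nat_lit 133) (nat_lit 5) (nat_lit 141) (nat_lit 5) (nat_lit 134) (nat_lit 5) (nat_lit 353) (nat_lit 322) (nat_lit 270)) (XT.nd (nat_lit 94) (nat_lit 588) (nat_lit 0) (XT.lf (nat_lit 0) (nat_lit 2119276144) (nat_lit 672) (nat_lit 2575226702) (nat_lit 84) (nat_lit 4587235279) (nat_lit 133) (nat_lit 5) (nat_lit 141) (nat_lit 5) (nat_lit 134) (nat_lit 5) (nat_lit 354) (nat_lit 322) (nat_lit 269)) (XT.lf (nat_lit 0) (nat_lit 2319207793) (nat_lit 588) (nat_lit 1739039983) (nat_lit 672) (nat_lit 5365252658) (nat_lit 126)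 (nat_lit 5) (nat_lit 133) (nat_lit 5) (nat_lit 134) (nat_lit 5) (nat_lit 355) (nat_lit 322) (nat_lit 268)))) (XT.nd (nat_lit 188) (nat_lit 588) (nat_lit 0) (XT.nd (nat_lit 94) (nat_lit 504) (nat_lit 0) (XT.lf (nat_lit 0) (nat_lit 6055753691) (nat_lit 672) (nat_lit 2210289471) (nat_lit 84) (nat_lit 1303529641) (nat_lit 126) (nat_lit 5) (nat_lit 134) (nat_lit 5) (nat_lit 127) (nat_lit 5) (nat_lit 356) (nat_lit 322) (nat_lit 267)) (XT.lf (nat_lit 0) (nat_lit 2827701812) (nat_lit 504) (nat_lit 5292560098) (nat_lit 588) (nat_lit 1599619283) (nat_lit 120) (nat_lit 5) (nat_lit 126) (nat_lit 5) (nat_lit 127) (nat_lit 5) (nat_lit 357) (nat_lit 322) (nat_lit 266))) (XT.nd (nat_lit 94) (nat_lit 504) (nat_lit 0) (XT.lf (nat_lit 0) (nat_lit 350238437) (nat_lit 588) (nat_lit 1856876789) (nat_lit 84) (nat_lit 7667973958) (nat_lit 119) (nat_lit 5) (nat_lit 126) (nat_lit 5) (nat_lit 120) (nat_lit 5) (nat_lit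 358) (nat_lit 322) (nat_lit 265)) (XT.lf (nat_lit 0) (nat_lit 2332334131) (nat_lit 588) (nat_lit 6705617056) (nat_lit 84) (nat_lit 996410852) (nat_lit 113) (nat_lit 5) (nat_lit 120) (nat_lit 5) (nat_lit 114) (nat_lit 5) (nat_lit 359) (nat_lit 322) (nat_lit 264))))) (XT.nd (nat_lit 282) (nat_lit 1008) (nat_lit 0) (XT.nd (nat_lit 94) (nat_lit 420) (nat_lit 0) (XT.lf (nat_lit 0) (nat_lit 4379337119) (nat_lit 588) (nat_lit 1552566196) (nat_lit 84) (nat_lit 4266405212) (nat_lit 113) (nat_lit 5) (nat_lit 120) (nat_lit 5) (nat_lit 114) (nat_lit 5) (nat_lit 360) (nat_lit 322) (nat_lit 263)) (XT.nd (nat_lit 94) (nat_lit 0) (nat_lit 0) (XT.lf (nat_lit 0) (nat_lit 3789531432) (nat_lit 420) (nat_lit 2700330847) (nat_lit 504) (nat_lit 3877304841) (nat_lit 108) (nat_lit 5) (nat_lit 113) (nat_lit 5) (nat_lit 114) (nat_lit 5) (nat_lit 361) (nat_lit 322) (nat_lit 262)) (XT.lf (nat_lit 0) (nat_lit 8651831153)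 (nat_lit 504) (nat_lit 1263215928) (nat_lit 84) (nat_lit 626455960) (nat_lit 108) (nat_lit 5) (nat_lit 114) (nat_lit 5) (nat_lit 109) (nat_lit 5) (nat_lit 362) (nat_lit 322) (nat_lit 261)))) (XT.nd (nat_lit 188) (nat_lit 420) (nat_lit 0) (XT.nd (nat_lit 94) (nat_lit 0) (nat_lit 0) (XT.lf (nat_lit 0) (nat_lit 189416710) (nat_lit 588) (nat_lit 6494498988) (nat_lit 84) (nat_lit 4036113068) (nat_lit 101) (nat_lit 5) (nat_lit 108) (nat_lit 5) (nat_lit 102) (nat_lit 5) (nat_lit 363) (nat_lit 322) (nat_lit 260)) (XT.lf (nat_lit 0) (nat_lit 2273232540) (nat_lit 588) (nat_lit 1056798139) (nat_lit 84) (nat_lit 7573958951) (nat_lit 101) (nat_lit 5) (nat_lit 108) (nat_lit 5) (nat_lit 102) (nat_lit 5) (nat_lit 364) (nat_lit 322) (nat_lit 259))) (XT.nd (nat_lit 94) (nat_lit 0) (nat_lit 0) (XT.lf (nat_lit 0) (nat_lit 4433710373) (nat_lit 504) (nat_lit 6499125706) (nat_lit 84) (nat_lit 160258043) (nat_lit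 96) (nat_lit 5) (nat_lit 102) (nat_lit 5) (nat_lit 97) (nat_lit 5) (nat_lit 365) (nat_lit 322) (nat_lit 258)) (XT.lf (nat_lit 0) (nat_lit 6671644182) (nat_lit 504) (nat_lit 923370851) (nat_lit 84) (nat_lit 3692525263) (nat_lit 96) (nat_lit 5) (nat_lit 102) (nat_lit 5) (nat_lit 97) (nat_lit 5) (nat_lit 366) (nat_lit 322) (nat_lit 257)))))) (XT.nd (nat_lit 658) (nat_lit 1176) (nat_lit 0) (XT.nd (nat_lit 282) (nat_lit 756) (nat_lit 0) (XT.nd (nat_lit 94) (nat_lit 420) (nat_lit 0) (XT.lf (nat_lit 0) (nat_lit 4877292045) (nat_lit 420) (nat_lit 4116107274) (nat_lit 504) (nat_lit 2493966442) (nat_lit 91) (nat_lit 5) (nat_lit 96) (nat_lit 5) (nat_lit 97) (nat_lit 5) (nat_lit 367) (nat_lit 322) (nat_lit 256)) (XT.nd (nat_lit 94) (nat_lit 420) (nat_lit 0) (XT.lf (nat_lit 0) (nat_lit 10833732909) (nat_lit 420) (nat_lit 530720550) (nat_lit 504) (nat_lit 329388192) (nat_lit 91) (nat_lit 5) (nat_lit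 96) (nat_lit 5) (nat_lit 97) (nat_lit 5) (nat_lit 368) (nat_lit 322) (nat_lit 255)) (XT.lf (nat_lit 0) (nat_lit 1913990805) (nat_lit 420) (nat_lit 6829362499) (nat_lit 84) (nat_lit 3161124771) (nat_lit 86) (nat_lit 5) (nat_lit 91) (nat_lit 5) (nat_lit 87) (nat_lit 5) (nat_lit 369) (nat_lit 322) (nat_lit 254)))) (XT.nd (nat_lit 188) (nat_lit 336) (nat_lit 0) (XT.nd (nat_lit 94) (nat_lit 420) (nat_lit 0) (XT.lf (nat_lit 0) (nat_lit 4203360487) (nat_lit 420) (nat_lit 960923382) (nat_lit 84) (nat_lit 6957533825) (nat_lit 86) (nat_lit 5) (nat_lit 91) (nat_lit 5) (nat_lit 87) (nat_lit 5) (nat_lit 370) (nat_lit 322) (nat_lit 253)) (XT.lf (nat_lit 0) (nat_lit 5147929933) (nat_lit 420) (nat_lit 1435086402) (nat_lit 504) (nat_lit 5762053042) (nat_lit 81) (nat_lit 5) (nat_lit 86) (nat_lit 5) (nat_lit 87) (nat_lit 5) (nat_lit 371) (nat_lit 322) (nat_lit 252))) (XT.nd (nat_lit 94) (nat_lit 336) (nat_lit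 0) (XT.lf (nat_lit 0) (nat_lit 9039497647) (nat_lit 504) (nat_lit 1174725488) (nat_lit 84) (nat_lit 2360671264) (nat_lit 81) (nat_lit 5) (nat_lit 87) (nat_lit 5) (nat_lit 82) (nat_lit 5) (nat_lit 372) (nat_lit 322) (nat_lit 251)) (XT.lf (nat_lit 0) (nat_lit 5077780694) (nat_lit 336) (nat_lit 6528221393) (nat_lit 420) (nat_lit 1204559956) (nat_lit 77) (nat_lit 5) (nat_lit 81) (nat_lit 5) (nat_lit 82) (nat_lit 5) (nat_lit 373) (nat_lit 322) (nat_lit 250))))) (XT.nd (nat_lit 282) (nat_lit 756) (nat_lit 0) (XT.nd (nat_lit 94) (nat_lit 336) (nat_lit 0) (XT.lf (nat_lit 0) (nat_lit 1158292868) (nat_lit 420) (nat_lit 1558290618) (nat_lit 84) (nat_lit 10336843841) (nat_lit 76) (nat_lit 5) (nat_lit 81) (nat_lit 5) (nat_lit 77) (nat_lit 5) (nat_lit 374) (nat_lit 322) (nat_lit 249)) (XT.nd (nat_lit 94) (nat_lit 0) (nat_lit 0) (XT.lf (nat_lit 0) (nat_lit 3600783675) (nat_lit 420) (nat_lit 8465244639)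 (nat_lit 84) (nat_lit 1236238109) (nat_lit 72) (nat_lit 5) (nat_lit 77) (nat_lit 5) (nat_lit 73) (nat_lit 5) (nat_lit 375) (nat_lit 322) (nat_lit 248)) (XT.lf (nat_lit 0) (nat_lit 6133899077) (nat_lit 420) (nat_lit 2164017333) (nat_lit 84) (nat_lit 5260167308) (nat_lit 72) (nat_lit 5) (nat_lit 77) (nat_lit 5) (nat_lit 73) (nat_lit 5) (nat_lit 376) (nat_lit 322) (nat_lit 247)))) (XT.nd (nat_lit 188) (nat_lit 420) (nat_lit 0) (XT.nd (nat_lit 94) (nat_lit 0) (nat_lit 0) (XT.lf (nat_lit 0) (nat_lit 4377687716) (nat_lit 336) (nat_lit 4382703691) (nat_lit 420) (nat_lit 5060695168) (nat_lit 68) (nat_lit 5) (nat_lit 72) (nat_lit 5) (nat_lit 73) (nat_lit 5) (nat_lit 377) (nat_lit 322) (nat_lit 246)) (XT.lf (nat_lit 0) (nat_lit 11126353794) (nat_lit 336) (nat_lit 336875378) (nat_lit 420) (nat_lit 2628855426) (nat_lit 68) (nat_lit 5) (nat_lit 72) (nat_lit 5) (nat_lit 73) (nat_lit 5) (nat_lit 378)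 (nat_lit 322) (nat_lit 245))) (XT.nd (nat_lit 94) (nat_lit 84) (nat_lit 0) (XT.lf (nat_lit 0) (nat_lit 3708492386) (nat_lit 336) (nat_lit 10587446335) (nat_lit 420) (nat_lit 73840919) (nat_lit 64) (nat_lit 5) (nat_lit 68) (nat_lit 5) (nat_lit 69) (nat_lit 5) (nat_lit 379) (nat_lit 322) (nat_lit 244)) (XT.lf (nat_lit 0) (nat_lit 2517923137) (nat_lit 420) (nat_lit 4072882321) (nat_lit 84) (nat_lit 8063991027) (nat_lit 63) (nat_lit 5) (nat_lit 68) (nat_lit 5) (nat_lit 64) (nat_lit 5) (nat_lit 380) (nat_lit 322) (nat_lit 243))))))) (XT.nd (nat_lit 1316) (nat_lit 1260) (nat_lit 0) (XT.nd (nat_lit 658) (nat_lit 840) (nat_lit 0) (XT.nd (nat_lit 282) (nat_lit 336) (nat_lit 0) (XT.nd (nat_lit 94) (nat_lit 336) (nat_lit 0) (XT.lf (nat_lit 0) (nat_lit 2733262177) (nat_lit 252) (nat_lit 2456085551) (nat_lit 336) (nat_lit 9758920497) (nat_lit 60) (nat_lit 5) (nat_lit 63) (nat_lit 5) (nat_lit 64) (nat_lit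 5) (nat_lit 381) (nat_lit 322) (nat_lit 242)) (XT.nd (nat_lit 94) (nat_lit 336) (nat_lit 0) (XT.lf (nat_lit 0) (nat_lit 7977160740) (nat_lit 336) (nat_lit 5472773302) (nat_lit 84) (nat_lit 1799549962) (nat_lit 60) (nat_lit 5) (nat_lit 64) (nat_lit 5) (nat_lit 61) (nat_lit 5) (nat_lit 382) (nat_lit 322) (nat_lit 241)) (XT.lf (nat_lit 0) (nat_lit 1443728171) (nat_lit 336) (nat_lit 9421116350) (nat_lit 420) (nat_lit 4694431108) (nat_lit 56) (nat_lit 5) (nat_lit 60) (nat_lit 5) (nat_lit 61) (nat_lit 5) (nat_lit 383) (nat_lit 322) (nat_lit 240)))) (XT.nd (nat_lit 188) (nat_lit 252) (nat_lit 0) (XT.nd (nat_lit 94) (nat_lit 84) (nat_lit 0) (XT.lf (nat_lit 0) (nat_lit 8648370546) (nat_lit 336) (nat_lit 5224429655) (nat_lit 420) (nat_lit 2004577252) (nat_lit 56) (nat_lit 5) (nat_lit 60) (nat_lit 5) (nat_lit 61) (nat_lit 5) (nat_lit 384) (nat_lit 322) (nat_lit 239)) (XT.lf (nat_lit 0) (nat_lit 729799930)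 (nat_lit 420) (nat_lit 174301750) (nat_lit 84) (nat_lit 15301360743) (nat_lit 55) (nat_lit 5) (nat_lit 60) (nat_lit 5) (nat_lit 56) (nat_lit 5) (nat_lit 385) (nat_lit 322) (nat_lit 238))) (XT.nd (nat_lit 94) (nat_lit 0) (nat_lit 0) (XT.lf (nat_lit 0) (nat_lit 3589223711) (nat_lit 336) (nat_lit 9394054183) (nat_lit 84) (nat_lit 3557040982) (nat_lit 52) (nat_lit 5) (nat_lit 56) (nat_lit 5) (nat_lit 53) (nat_lit 5) (nat_lit 386) (nat_lit 322) (nat_lit 237)) (XT.lf (nat_lit 0) (nat_lit 6524773115) (nat_lit 336) (nat_lit 2234523605) (nat_lit 84) (nat_lit 8126236843) (nat_lit 52) (nat_lit 5) (nat_lit 56) (nat_lit 5) (nat_lit 53) (nat_lit 5) (nat_lit 387) (nat_lit 322) (nat_lit 236))))) (XT.nd (nat_lit 282) (nat_lit 336) (nat_lit 0) (XT.nd (nat_lit 94) (nat_lit 252) (nat_lit 0) (XT.lf (nat_lit 0) (nat_lit 5211975357) (nat_lit 252) (nat_lit 4366721984) (nat_lit 336) (nat_lit 7661520263) (nat_lit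 49) (nat_lit 5) (nat_lit 52) (nat_lit 5) (nat_lit 53) (nat_lit 5) (nat_lit 388) (nat_lit 322) (nat_lit 235)) (XT.nd (nat_lit 94) (nat_lit 252) (nat_lit 0) (XT.lf (nat_lit 0) (nat_lit 12728951784) (nat_lit 336) (nat_lit 4708674401) (nat_lit 84) (nat_lit 167796123) (nat_lit 49) (nat_lit 5) (nat_lit 53) (nat_lit 5) (nat_lit 50) (nat_lit 5) (nat_lit 389) (nat_lit 322) (nat_lit 234)) (XT.lf (nat_lit 0) (nat_lit 2813263530) (nat_lit 252) (nat_lit 13211708142) (nat_lit 336) (nat_lit 1955094638) (nat_lit 46) (nat_lit 5) (nat_lit 49) (nat_lit 5) (nat_lit 50) (nat_lit 5) (nat_lit 390) (nat_lit 322) (nat_lit 233)))) (XT.nd (nat_lit 188) (nat_lit 252) (nat_lit 0) (XT.nd (nat_lit 94) (nat_lit 0) (nat_lit 0) (XT.lf (nat_lit 0) (nat_lit 1062429645) (nat_lit 336) (nat_lit 7746734709) (nat_lit 84) (nat_lit 9555628852) (nat_lit 45) (nat_lit 5) (nat_lit 49) (nat_lit 5) (nat_lit 46) (nat_lit 5) (nat_lit 391)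 (nat_lit 322) (nat_lit 232)) (XT.lf (nat_lit 0) (nat_lit 4112789812) (nat_lit 336) (nat_lit 151570136) (nat_lit 84) (nat_lit 14496692189) (nat_lit 45) (nat_lit 5) (nat_lit 49) (nat_lit 5) (nat_lit 46) (nat_lit 5) (nat_lit 392) (nat_lit 322) (nat_lit 231))) (XT.nd (nat_lit 94) (nat_lit 0) (nat_lit 0) (XT.lf (nat_lit 0) (nat_lit 7316401928) (nat_lit 336) (nat_lit 11375908235) (nat_lit 84) (nat_lit 475054998) (nat_lit 42) (nat_lit 5) (nat_lit 46) (nat_lit 5) (nat_lit 43) (nat_lit 5) (nat_lit 393) (nat_lit 322) (nat_lit 230)) (XT.lf (nat_lit 0) (nat_lit 10642199969) (nat_lit 336) (nat_lit 3679691778) (nat_lit 84) (nat_lit 5263211525) (nat_lit 42) (nat_lit 5) (nat_lit 46) (nat_lit 5) (nat_lit 43) (nat_lit 5) (nat_lit 394) (nat_lit 322) (nat_lit 229)))))) (XT.nd (nat_lit 658) (nat_lit 588) (nat_lit 0) (XT.nd (nat_lit 282) (nat_lit 168) (nat_lit 0) (XT.nd (nat_lit 94) (nat_lit 336) (nat_lit 0)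 (XT.lf (nat_lit 0) (nat_lit 4304697322) (nat_lit 168) (nat_lit 9787279702) (nat_lit 252) (nat_lit 5922687844) (nat_lit 40) (nat_lit 5) (nat_lit 42) (nat_lit 5) (nat_lit 43) (nat_lit 5) (nat_lit 395) (nat_lit 322) (nat_lit 228)) (XT.nd (nat_lit 94) (nat_lit 336) (nat_lit 0) (XT.lf (nat_lit 0) (nat_lit 12577596073) (nat_lit 168) (nat_lit 5087880628) (nat_lit 252) (nat_lit 2791046718) (nat_lit 40) (nat_lit 5) (nat_lit 42) (nat_lit 5) (nat_lit 43) (nat_lit 5) (nat_lit 396) (nat_lit 322) (nat_lit 227)) (XT.lf (nat_lit 0) (nat_lit 159960041) (nat_lit 252) (nat_lit 251027523) (nat_lit 336) (nat_lit 20500993157) (nat_lit 36) (nat_lit 5) (nat_lit 39) (nat_lit 5) (nat_lit 40) (nat_lit 5) (nat_lit 397) (nat_lit 322) (nat_lit 226)))) (XT.nd (nat_lit 188) (nat_lit 168) (nat_lit 0) (XT.nd (nat_lit 94) (nat_lit 0) (nat_lit 0) (XT.lf (nat_lit 0) (nat_lit 3762343316) (nat_lit 336) (nat_lit 12877278732)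 (nat_lit 84) (nat_lit 4737385484) (nat_lit 36) (nat_lit 5) (nat_lit 40) (nat_lit 5) (nat_lit 37) (nat_lit 5) (nat_lit 398) (nat_lit 322) (nat_lit 225)) (XT.lf (nat_lit 0) (nat_lit 7200736473) (nat_lit 336) (nat_lit 4794206847) (nat_lit 84) (nat_lit 9861462016) (nat_lit 36) (nat_lit 5) (nat_lit 40) (nat_lit 5) (nat_lit 37) (nat_lit 5) (nat_lit 399) (nat_lit 322) (nat_lit 224))) (XT.nd (nat_lit 94) (nat_lit 0) (nat_lit 0) (XT.lf (nat_lit 0) (nat_lit 3576460507) (nat_lit 168) (nat_lit 7184677047) (nat_lit 252) (nat_lit 11588496490) (nat_lit 34) (nat_lit 5) (nat_lit 36) (nat_lit 5) (nat_lit 37) (nat_lit 5) (nat_lit 400) (nat_lit 322) (nat_lit 223)) (XT.lf (nat_lit 0) (nat_lit 12272080133) (nat_lit 168) (nat_lit 2189376778) (nat_lit 252) (nat_lit 8395223739) (nat_lit 34) (nat_lit 5) (nat_lit 36) (nat_lit 5) (nat_lit 37) (nat_lit 5) (nat_lit 401) (nat_lit 322) (nat_lit 222))))) (XT.nd (nat_lit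 282) (nat_lit 336) (nat_lit 0) (XT.nd (nat_lit 94) (nat_lit 252) (nat_lit 0) (XT.lf (nat_lit 0) (nat_lit 18286253310) (nat_lit 252) (nat_lit 2202889742) (nat_lit 84) (nat_lit 2889405389) (nat_lit 34) (nat_lit 5) (nat_lit 37) (nat_lit 5) (nat_lit 35) (nat_lit 5) (nat_lit 402) (nat_lit 322) (nat_lit 221)) (XT.nd (nat_lit 94) (nat_lit 84) (nat_lit 0) (XT.lf (nat_lit 0) (nat_lit 6512268664) (nat_lit 168) (nat_lit 15783291816) (nat_lit 252) (nat_lit 1618432189) (nat_lit 32) (nat_lit 5) (nat_lit 34) (nat_lit 5) (nat_lit 35) (nat_lit 5) (nat_lit 403) (nat_lit 322) (nat_lit 220)) (XT.lf (nat_lit 0) (nat_lit 1929407361) (nat_lit 252) (nat_lit 8973327114) (nat_lit 84) (nat_lit 13561973254) (nat_lit 31) (nat_lit 5) (nat_lit 34) (nat_lit 5) (nat_lit 32) (nat_lit 5) (nat_lit 404) (nat_lit 322) (nat_lit 219)))) (XT.nd (nat_lit 188) (nat_lit 168) (nat_lit 0) (XT.nd (nat_lit 94) (nat_lit 168) (nat_lit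 0) (XT.lf (nat_lit 0) (nat_lit 5537109887) (nat_lit 252) (nat_lit 330894209) (nat_lit 84) (nat_lit 19163892993) (nat_lit 31) (nat_lit 5) (nat_lit 34) (nat_lit 5) (nat_lit 32) (nat_lit 5) (nat_lit 405) (nat_lit 322) (nat_lit 218)) (XT.lf (nat_lit 0) (nat_lit 8718819274) (nat_lit 168) (nat_lit 604400539) (nat_lit 252) (nat_lit 16290788941) (nat_lit 29) (nat_lit 5) (nat_lit 31) (nat_lit 5) (nat_lit 32) (nat_lit 5) (nat_lit 406) (nat_lit 322) (nat_lit 217))) (XT.nd (nat_lit 94) (nat_lit 168) (nat_lit 0) (XT.lf (nat_lit 0) (nat_lit 13259063362) (nat_lit 252) (nat_lit 8235259141) (nat_lit 84) (nat_lit 4718188321) (nat_lit 29) (nat_lit 5) (nat_lit 32) (nat_lit 5) (nat_lit 30) (nat_lit 5) (nat_lit 407) (nat_lit 322) (nat_lit 216)) (XT.lf (nat_lit 0) (nat_lit 669961528) (nat_lit 168) (nat_lit 16642309827) (nat_lit 252) (nat_lit 9516729159) (nat_lit 27) (nat_lit 5) (nat_lit 29) (nat_lit 5) (nat_lit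 30) (nat_lit 5) (nat_lit 408) (nat_lit 322) (nat_lit 215))))))))
noncomputable def xc104 : XT := (XT.nd (nat_lit 2538) (nat_lit 252) (nat_lit 0) (XT.nd (nat_lit 1222) (nat_lit 420) (nat_lit 0) (XT.nd (nat_lit 564) (nat_lit 504) (nat_lit 0) (XT.nd (nat_lit 282) (nat_lit 0) (nat_lit 0) (XT.nd (nat_lit 94) (nat_lit 252) (nat_lit 0) (XT.lf (nat_lit 0) (nat_lit 9989768512) (nat_lit 168) (nat_lit 11567508948) (nat_lit 252) (nat_lit 5904612280) (nat_lit 27) (nat_lit 5) (nat_lit 29) (nat_lit 5) (nat_lit 30) (nat_lit 5) (nat_lit 409) (nat_lit 322) (nat_lit 214)) (XT.nd (nat_lit 94) (nat_lit 252) (nat_lit 0) (XT.lf (nat_lit 0) (nat_lit 19568407527) (nat_lit 168) (nat_lit 6348645546) (nat_lit 252) (nat_lit 2197100575) (nat_lit 27) (nat_lit 5) (nat_lit 29) (nat_lit 5) (nat_lit 30) (nat_lit 5) (nat_lit 410) (nat_lit 322) (nat_lit 213)) (XT.lf (nat_lit 0) (nat_lit 624607284) (nat_lit 168) (nat_lit 959044075)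 (nat_lit 252) (nat_lit 27202066682) (nat_lit 24) (nat_lit 5) (nat_lit 26) (nat_lit 5) (nat_lit 27) (nat_lit 5) (nat_lit 411) (nat_lit 322) (nat_lit 212)))) (XT.nd (nat_lit 94) (nat_lit 0) (nat_lit 0) (XT.lf (nat_lit 0) (nat_lit 5552702262) (nat_lit 252) (nat_lit 19316852016) (nat_lit 84) (nat_lit 4603661092) (nat_lit 24) (nat_lit 5) (nat_lit 27) (nat_lit 5) (nat_lit 25) (nat_lit 5) (nat_lit 412) (nat_lit 322) (nat_lit 211)) (XT.nd (nat_lit 94) (nat_lit 0) (nat_lit 0) (XT.lf (nat_lit 0) (nat_lit 9638419978) (nat_lit 252) (nat_lit 10236674461) (nat_lit 84) (nat_lit 10306324724) (nat_lit 24) (nat_lit 5) (nat_lit 27) (nat_lit 5) (nat_lit 25) (nat_lit 5) (nat_lit 413) (nat_lit 322) (nat_lit 210)) (XT.lf (nat_lit 0) (nat_lit 13835155634) (nat_lit 252) (nat_lit 903425041) (nat_lit 84) (nat_lit 16172644136) (nat_lit 24) (nat_lit 5) (nat_lit 27) (nat_lit 5) (nat_lit 25) (nat_lit 5) (nat_lit 414)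 (nat_lit 322) (nat_lit 209))))) (XT.nd (nat_lit 282) (nat_lit 336) (nat_lit 0) (XT.nd (nat_lit 94) (nat_lit 0) (nat_lit 0) (XT.lf (nat_lit 0) (nat_lit 8864020479) (nat_lit 168) (nat_lit 9367762187) (nat_lit 252) (nat_lit 13428931146) (nat_lit 22) (nat_lit 5) (nat_lit 24) (nat_lit 5) (nat_lit 25) (nat_lit 5) (nat_lit 415) (nat_lit 322) (nat_lit 208)) (XT.nd (nat_lit 94) (nat_lit 0) (nat_lit 0) (XT.lf (nat_lit 0) (nat_lit 18924422367) (nat_lit 168) (nat_lit 3833939934) (nat_lit 252) (nat_lit 9674392176) (nat_lit 22) (nat_lit 5) (nat_lit 24) (nat_lit 5) (nat_lit 25) (nat_lit 5) (nat_lit 416) (nat_lit 322) (nat_lit 207)) (XT.lf (nat_lit 0) (nat_lit 27427858679) (nat_lit 252) (nat_lit 3977561770) (nat_lit 84) (nat_lit 1822330688) (nat_lit 22) (nat_lit 5) (nat_lit 25) (nat_lit 5) (nat_lit 23) (nat_lit 4) (nat_lit 417) (nat_lit 322) (nat_lit 206)))) (XT.nd (nat_lit 188) (nat_lit 168) (nat_lit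 0) (XT.nd (nat_lit 94) (nat_lit 84) (nat_lit 0) (XT.lf (nat_lit 0) (nat_lit 5898500465) (nat_lit 84) (nat_lit 26423097542) (nat_lit 168) (nat_lit 1722483061) (nat_lit 21) (nat_lit 5) (nat_lit 22) (nat_lit 5) (nat_lit 23) (nat_lit 4) (nat_lit 418) (nat_lit 322) (nat_lit 205)) (XT.lf (nat_lit 0) (nat_lit 2458996457) (nat_lit 168) (nat_lit 18773340045) (nat_lit 84) (nat_lit 13650955020) (nat_lit 20) (nat_lit 5) (nat_lit 22) (nat_lit 5) (nat_lit 21) (nat_lit 5) (nat_lit 419) (nat_lit 322) (nat_lit 204))) (XT.nd (nat_lit 94) (nat_lit 168) (nat_lit 0) (XT.lf (nat_lit 0) (nat_lit 6721129893) (nat_lit 168) (nat_lit 9154281986) (nat_lit 84) (nat_lit 19872067313) (nat_lit 20) (nat_lit 5) (nat_lit 22) (nat_lit 5) (nat_lit 21) (nat_lit 5) (nat_lit 420) (nat_lit 322) (nat_lit 203)) (XT.lf (nat_lit 0) (nat_lit 751215046) (nat_lit 168) (nat_lit 10357259382) (nat_lit 252) (nat_lit 25529204861) (nat_lit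 18) (nat_lit 5) (nat_lit 20) (nat_lit 5) (nat_lit 21) (nat_lit 5) (nat_lit 421) (nat_lit 322) (nat_lit 202)))))) (XT.nd (nat_lit 658) (nat_lit 252) (nat_lit 0) (XT.nd (nat_lit 282) (nat_lit 168) (nat_lit 0) (XT.nd (nat_lit 94) (nat_lit 0) (nat_lit 0) (XT.lf (nat_lit 0) (nat_lit 11124903742) (nat_lit 168) (nat_lit 4585229578) (nat_lit 252) (nat_lit 21841978246) (nat_lit 18) (nat_lit 5) (nat_lit 20) (nat_lit 5) (nat_lit 21) (nat_lit 5) (nat_lit 422) (nat_lit 322) (nat_lit 201)) (XT.nd (nat_lit 94) (nat_lit 0) (nat_lit 0) (XT.lf (nat_lit 0) (nat_lit 20453388134) (nat_lit 252) (nat_lit 16713615711) (nat_lit 84) (nat_lit 1326873374) (nat_lit 18) (nat_lit 5) (nat_lit 21) (nat_lit 5) (nat_lit 19) (nat_lit 4) (nat_lit 423) (nat_lit 322) (nat_lit 200)) (XT.lf (nat_lit 0) (nat_lit 25375089758) (nat_lit 252) (nat_lit 6769906597) (nat_lit 84) (nat_lit 7317821610) (nat_lit 18) (nat_lit 5) (nat_lit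 21) (nat_lit 5) (nat_lit 19) (nat_lit 4) (nat_lit 424) (nat_lit 322) (nat_lit 199)))) (XT.nd (nat_lit 188) (nat_lit 84) (nat_lit 0) (XT.nd (nat_lit 94) (nat_lit 0) (nat_lit 0) (XT.lf (nat_lit 0) (nat_lit 3525479023) (nat_lit 84) (nat_lit 26943872712) (nat_lit 168) (nat_lit 9990734321) (nat_lit 17) (nat_lit 5) (nat_lit 18) (nat_lit 5) (nat_lit 19) (nat_lit 4) (nat_lit 425) (nat_lit 322) (nat_lit 198)) (XT.lf (nat_lit 0) (nat_lit 14253224370) (nat_lit 84) (nat_lit 21522714913) (nat_lit 168) (nat_lit 5709554195) (nat_lit 17) (nat_lit 5) (nat_lit 18) (nat_lit 5) (nat_lit 19) (nat_lit 4) (nat_lit 426) (nat_lit 322) (nat_lit 197))) (XT.nd (nat_lit 94) (nat_lit 84) (nat_lit 0) (XT.lf (nat_lit 0) (nat_lit 25287968784) (nat_lit 84) (nat_lit 15945148805) (nat_lit 168) (nat_lit 1308809775) (nat_lit 17) (nat_lit 5) (nat_lit 18) (nat_lit 5) (nat_lit 19) (nat_lit 4) (nat_lit 427) (nat_lit 322) (nat_lit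 196)) (XT.lf (nat_lit 0) (nat_lit 3152601301) (nat_lit 168) (nat_lit 7021864394) (nat_lit 84) (nat_lit 33454917883) (nat_lit 16) (nat_lit 5) (nat_lit 18) (nat_lit 5) (nat_lit 17) (nat_lit 5) (nat_lit 428) (nat_lit 322) (nat_lit 195))))) (XT.nd (nat_lit 282) (nat_lit 84) (nat_lit 0) (XT.nd (nat_lit 94) (nat_lit 0) (nat_lit 0) (XT.lf (nat_lit 0) (nat_lit 3559543117) (nat_lit 168) (nat_lit 4188023618) (nat_lit 252) (nat_lit 37000732979) (nat_lit 14) (nat_lit 5) (nat_lit 16) (nat_lit 5) (nat_lit 17) (nat_lit 5) (nat_lit 429) (nat_lit 322) (nat_lit 194)) (XT.nd (nat_lit 94) (nat_lit 0) (nat_lit 0) (XT.lf (nat_lit 0) (nat_lit 12562852629) (nat_lit 252) (nat_lit 31330240926) (nat_lit 84) (nat_lit 2005220995) (nat_lit 14) (nat_lit 5) (nat_lit 17) (nat_lit 5) (nat_lit 15) (nat_lit 4) (nat_lit 430) (nat_lit 322) (nat_lit 193)) (XT.lf (nat_lit 0) (nat_lit 17556148629) (nat_lit 252) (nat_lit 21231224770)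 (nat_lit 84) (nat_lit 8294455095) (nat_lit 14) (nat_lit 5) (nat_lit 17) (nat_lit 5) (nat_lit 15) (nat_lit 4) (nat_lit 431) (nat_lit 322) (nat_lit 192)))) (XT.nd (nat_lit 188) (nat_lit 84) (nat_lit 0) (XT.nd (nat_lit 94) (nat_lit 0) (nat_lit 0) (XT.lf (nat_lit 0) (nat_lit 22691559963) (nat_lit 252) (nat_lit 10842625901) (nat_lit 84) (nat_lit 14766897554) (nat_lit 14) (nat_lit 5) (nat_lit 17) (nat_lit 5) (nat_lit 15) (nat_lit 4) (nat_lit 432) (nat_lit 322) (nat_lit 191)) (XT.lf (nat_lit 0) (nat_lit 27973573884) (nat_lit 252) (nat_lit 155366901) (nat_lit 84) (nat_lit 21428203905) (nat_lit 14) (nat_lit 5) (nat_lit 17) (nat_lit 5) (nat_lit 15) (nat_lit 4) (nat_lit 433) (nat_lit 322) (nat_lit 190))) (XT.nd (nat_lit 94) (nat_lit 0) (nat_lit 0) (XT.lf (nat_lit 0) (nat_lit 11055625686) (nat_lit 84) (nat_lit 22457453496) (nat_lit 168) (nat_lit 17334842456) (nat_lit 13) (nat_lit 5) (nat_lit 14) (nat_lit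 5) (nat_lit 15) (nat_lit 4) (nat_lit 434) (nat_lit 322) (nat_lit 189)) (XT.lf (nat_lit 0) (nat_lit 22593637381) (nat_lit 84) (nat_lit 16619549511) (nat_lit 168) (nat_lit 12964407109) (nat_lit 13) (nat_lit 5) (nat_lit 14) (nat_lit 5) (nat_lit 15) (nat_lit 4) (nat_lit 435) (nat_lit 322) (nat_lit 188))))))) (XT.nd (nat_lit 48880) (nat_lit 0) (nat_lit 17892) (XT.nd (nat_lit 658) (nat_lit 84) (nat_lit 0) (XT.nd (nat_lit 282) (nat_lit 0) (nat_lit 0) (XT.nd (nat_lit 94) (nat_lit 168) (nat_lit 0) (XT.lf (nat_lit 0) (nat_lit 34465657835) (nat_lit 84) (nat_lit 10611696653) (nat_lit 168) (nat_lit 8470014841) (nat_lit 13) (nat_lit 5) (nat_lit 14) (nat_lit 5) (nat_lit 15) (nat_lit 4) (nat_lit 436) (nat_lit 322) (nat_lit 187)) (XT.nd (nat_lit 94) (nat_lit 168) (nat_lit 0) (XT.lf (nat_lit 0) (nat_lit 46682060657) (nat_lit 84) (nat_lit 4428645340) (nat_lit 168) (nat_lit 3847738513) (nat_lit 13) (nat_lit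 5) (nat_lit 14) (nat_lit 5) (nat_lit 15) (nat_lit 4) (nat_lit 437) (nat_lit 322) (nat_lit 186)) (XT.lf (nat_lit 0) (nat_lit 935506259) (nat_lit 168) (nat_lit 53540787914) (nat_lit 84) (nat_lit 1934094934) (nat_lit 11) (nat_lit 5) (nat_lit 13) (nat_lit 5) (nat_lit 12) (nat_lit 4) (nat_lit 438) (nat_lit 322) (nat_lit 185)))) (XT.nd (nat_lit 188) (nat_lit 0) (nat_lit 0) (XT.nd (nat_lit 94) (nat_lit 0) (nat_lit 0) (XT.lf (nat_lit 0) (nat_lit 5906584762) (nat_lit 168) (nat_lit 43478143167) (nat_lit 84) (nat_lit 8516375047) (nat_lit 11) (nat_lit 5) (nat_lit 13) (nat_lit 5) (nat_lit 12) (nat_lit 4) (nat_lit 439) (nat_lit 322) (nat_lit 184)) (XT.lf (nat_lit 0) (nat_lit 11020408649) (nat_lit 168) (nat_lit 33124890979) (nat_lit 84) (nat_lit 15291434115) (nat_lit 11) (nat_lit 5) (nat_lit 13) (nat_lit 5) (nat_lit 12) (nat_lit 4) (nat_lit 440) (nat_lit 322) (nat_lit 183))) (XT.nd (nat_lit 94) (nat_lit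 0) (nat_lit 0) (XT.lf (nat_lit 0) (nat_lit 16281446312) (nat_lit 168) (nat_lit 22471984820) (nat_lit 84) (nat_lit 22265192093) (nat_lit 11) (nat_lit 5) (nat_lit 13) (nat_lit 5) (nat_lit 12) (nat_lit 4) (nat_lit 441) (nat_lit 322) (nat_lit 182)) (XT.lf (nat_lit 0) (nat_lit 21694294772) (nat_lit 168) (nat_lit 11510116324) (nat_lit 84) (nat_lit 29443742556) (nat_lit 11) (nat_lit 5) (nat_lit 13) (nat_lit 5) (nat_lit 12) (nat_lit 4) (nat_lit 442) (nat_lit 322) (nat_lit 181))))) (XT.nd (nat_lit 282) (nat_lit 0) (nat_lit 0) (XT.nd (nat_lit 94) (nat_lit 84) (nat_lit 0) (XT.lf (nat_lit 0) (nat_lit 27263683704) (nat_lit 168) (nat_lit 229707160) (nat_lit 84) (nat_lit 36833358024) (nat_lit 11) (nat_lit 5) (nat_lit 13) (nat_lit 5) (nat_lit 12) (nat_lit 4) (nat_lit 443) (nat_lit 322) (nat_lit 180)) (XT.nd (nat_lit 94) (nat_lit 0) (nat_lit 0) (XT.lf (nat_lit 0) (nat_lit 11605565727) (nat_lit 84) (nat_lit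 21500473633) (nat_lit 168) (nat_lit 32946489511) (nat_lit 10) (nat_lit 5) (nat_lit 11) (nat_lit 5) (nat_lit 12) (nat_lit 4) (nat_lit 444) (nat_lit 322) (nat_lit 179)) (XT.lf (nat_lit 0) (nat_lit 23790688821) (nat_lit 84) (nat_lit 15329691676) (nat_lit 168) (nat_lit 28709803657) (nat_lit 10) (nat_lit 5) (nat_lit 11) (nat_lit 5) (nat_lit 12) (nat_lit 4) (nat_lit 445) (nat_lit 322) (nat_lit 178)))) (XT.nd (nat_lit 47752) (nat_lit 0) (nat_lit 20748) (XT.nd (nat_lit 94) (nat_lit 0) (nat_lit 0) (XT.lf (nat_lit 0) (nat_lit 36331737691) (nat_lit 84) (nat_lit 8977972639) (nat_lit 168) (nat_lit 24351625253) (nat_lit 10) (nat_lit 5) (nat_lit 11) (nat_lit 5) (nat_lit 12) (nat_lit 4) (nat_lit 446) (nat_lit 322) (nat_lit 177)) (XT.lf (nat_lit 0) (nat_lit 49239670537) (nat_lit 84) (nat_lit 2439766477) (nat_lit 168) (nat_lit 19868146185) (nat_lit 10) (nat_lit 5) (nat_lit 11) (nat_lit 5) (nat_lit 12) (nat_lit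 4) (nat_lit 447) (nat_lit 322) (nat_lit 176))) (XT.nd (nat_lit 94) (nat_lit 588) (nat_lit 0) (XT.lf (nat_lit 0) (nat_lit 3144904551) (nat_lit 588) (nat_lit 108918784) (nat_lit 588) (nat_lit 108918784) (nat_lit 264) (nat_lit 3) (nat_lit 271) (nat_lit 3) (nat_lit 271) (nat_lit 5) (nat_lit 323) (nat_lit 323) (nat_lit 299)) (XT.lf (nat_lit 0) (nat_lit 1553180745) (nat_lit 588) (nat_lit 3949657385) (nat_lit 672) (nat_lit 1258840515) (nat_lit 257) (nat_lit 5) (nat_lit 264) (nat_lit 3) (nat_lit 265) (nat_lit 5) (nat_lit 324) (nat_lit 323) (nat_lit 298)))))) (XT.nd (nat_lit 658) (nat_lit 1512) (nat_lit 0) (XT.nd (nat_lit 282) (nat_lit 672) (nat_lit 0) (XT.nd (nat_lit 94) (nat_lit 672) (nat_lit 0) (XT.lf (nat_lit 0) (nat_lit 3518314663) (nat_lit 588) (nat_lit 907490113) (nat_lit 672) (nat_lit 2375467058) (nat_lit 257) (nat_lit 5) (nat_lit 264) (nat_lit 3) (nat_lit 265) (nat_lit 5) (nat_lit 325)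 (nat_lit 323) (nat_lit 297)) (XT.nd (nat_lit 94) (nat_lit 672) (nat_lit 0) (XT.lf (nat_lit 84) (nat_lit 2229146545) (nat_lit 0) (nat_lit 3260069881) (nat_lit 672) (nat_lit 1354629484) (nat_lit 258) (nat_lit 5) (nat_lit 257) (nat_lit 5) (nat_lit 265) (nat_lit 5) (nat_lit 326) (nat_lit 323) (nat_lit 296)) (XT.lf (nat_lit 0) (nat_lit 554745412) (nat_lit 672) (nat_lit 1456651763) (nat_lit 756) (nat_lit 4878238440) (nat_lit 249) (nat_lit 5) (nat_lit 257) (nat_lit 5) (nat_lit 258) (nat_lit 5) (nat_lit 327) (nat_lit 323) (nat_lit 295)))) (XT.nd (nat_lit 188) (nat_lit 672) (nat_lit 0) (XT.nd (nat_lit 94) (nat_lit 0) (nat_lit 84) (XT.lf (nat_lit 84) (nat_lit 1777059324) (nat_lit 0) (nat_lit 662611830) (nat_lit 756) (nat_lit 4498541349) (nat_lit 250) (nat_lit 5) (nat_lit 249) (nat_lit 5) (nat_lit 258) (nat_lit 5) (nat_lit 328) (nat_lit 323) (nat_lit 294)) (XT.lf (nat_lit 0) (nat_lit 4333387451)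 (nat_lit 672) (nat_lit 1899801145) (nat_lit 756) (nat_lit 756666298) (nat_lit 250) (nat_lit 5) (nat_lit 258) (nat_lit 5) (nat_lit 259) (nat_lit 5) (nat_lit 329) (nat_lit 323) (nat_lit 293))) (XT.nd (nat_lit 94) (nat_lit 756) (nat_lit 0) (XT.lf (nat_lit 84) (nat_lit 1439654967) (nat_lit 0) (nat_lit 4797089664) (nat_lit 756) (nat_lit 807887414) (nat_lit 251) (nat_lit 5) (nat_lit 250) (nat_lit 5) (nat_lit 259) (nat_lit 5) (nat_lit 330) (nat_lit 323) (nat_lit 292)) (XT.lf (nat_lit 0) (nat_lit 1027324081) (nat_lit 756) (nat_lit 2235319438) (nat_lit 840) (nat_lit 3839676558) (nat_lit 241) (nat_lit 5) (nat_lit 250) (nat_lit 5) (nat_lit 251) (nat_lit 5) (nat_lit 331) (nat_lit 323) (nat_lit 291))))) (XT.nd (nat_lit 282) (nat_lit 1512) (nat_lit 0) (XT.nd (nat_lit 94) (nat_lit 0) (nat_lit 84) (XT.lf (nat_lit 84) (nat_lit 1209918056) (nat_lit 0) (nat_lit 1638202221) (nat_lit 840) (nat_lit 4315131436)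 (nat_lit 242) (nat_lit 5) (nat_lit 241) (nat_lit 5) (nat_lit 251) (nat_lit 5) (nat_lit 332) (nat_lit 323) (nat_lit 290)) (XT.nd (nat_lit 94) (nat_lit 0) (nat_lit 0) (XT.lf (nat_lit 0) (nat_lit 4683523553) (nat_lit 756) (nat_lit 2464547042) (nat_lit 840) (nat_lit 79292579) (nat_lit 242) (nat_lit 5) (nat_lit 251) (nat_lit 5) (nat_lit 252) (nat_lit 5) (nat_lit 333) (nat_lit 323) (nat_lit 289)) (XT.lf (nat_lit 84) (nat_lit 1092261592) (nat_lit 0) (nat_lit 5447137116) (nat_lit 840) (nat_lit 755183939) (nat_lit 243) (nat_lit 5) (nat_lit 242) (nat_lit 5) (nat_lit 252) (nat_lit 5) (nat_lit 334) (nat_lit 323) (nat_lit 288)))) (XT.nd (nat_lit 188) (nat_lit 756) (nat_lit 0) (XT.nd (nat_lit 94) (nat_lit 0) (nat_lit 0) (XT.lf (nat_lit 0) (nat_lit 1030396818) (nat_lit 840) (nat_lit 2610145590) (nat_lit 924) (nat_lit 3724166941) (nat_lit 232) (nat_lit 5) (nat_lit 242) (nat_lit 5) (nat_lit 243) (nat_lit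 5) (nat_lit 335) (nat_lit 323) (nat_lit 287)) (XT.lf (nat_lit 84) (nat_lit 1061604475) (nat_lit 0) (nat_lit 1744079248) (nat_lit 924) (nat_lit 4632626791) (nat_lit 233) (nat_lit 5) (nat_lit 232) (nat_lit 5) (nat_lit 243) (nat_lit 5) (nat_lit 336) (nat_lit 323) (nat_lit 286))) (XT.nd (nat_lit 94) (nat_lit 840) (nat_lit 0) (XT.lf (nat_lit 0) (nat_lit 4605451503) (nat_lit 840) (nat_lit 2661628957) (nat_lit 84) (nat_lit 248033162) (nat_lit 233) (nat_lit 5) (nat_lit 243) (nat_lit 5) (nat_lit 234) (nat_lit 5) (nat_lit 337) (nat_lit 323) (nat_lit 285)) (XT.lf (nat_lit 0) (nat_lit 1127854661) (nat_lit 840) (nat_lit 5303731710) (nat_lit 924) (nat_lit 1163590001) (nat_lit 223) (nat_lit 5) (nat_lit 233) (nat_lit 5) (nat_lit 234) (nat_lit 5) (nat_lit 338) (nat_lit 323) (nat_lit 284))))))))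
noncomputable def xc105 : XT := (XT.nd (nat_lit 2538) (nat_lit 4536) (nat_lit 0) (XT.nd (nat_lit 1222) (nat_lit 4368) (nat_lit 0) (XT.nd (nat_lit 564) (nat_lit 3108) (nat_lit 0) (XT.nd (nat_lit 282) (nat_lit 2184) (nat_lit 0) (XT.nd (nat_lit 94) (nat_lit 924) (nat_lit 0) (XT.lf (nat_lit 0) (nat_lit 594448704) (nat_lit 924) (nat_lit 2640213929) (nat_lit 84) (nat_lit 4443755596) (nat_lit 222) (nat_lit 5) (nat_lit 233) (nat_lit 5) (nat_lit 223) (nat_lit 5) (nat_lit 339) (nat_lit 323) (nat_lit 283)) (XT.nd (nat_lit 94) (nat_lit 0) (nat_lit 0) (XT.lf (nat_lit 0) (nat_lit 1273687221) (nat_lit 924) (nat_lit 1066834276) (nat_lit 1008) (nat_lit 5424645840) (nat_lit 211) (nat_lit 5) (nat_lit 222) (nat_lit 5) (nat_lit 223) (nat_lit 5) (nat_lit 340) (nat_lit 323) (nat_lit 282)) (XT.lf (nat_lit 0) (nat_lit 4124823027) (nat_lit 1008) (nat_lit 2548807011) (nat_lit 84) (nat_lit 1181426118) (nat_lit 211)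 (nat_lit 5) (nat_lit 223) (nat_lit 5) (nat_lit 212) (nat_lit 5) (nat_lit 341) (nat_lit 323) (nat_lit 281)))) (XT.nd (nat_lit 94) (nat_lit 1176) (nat_lit 0) (XT.lf (nat_lit 0) (nat_lit 1489144500) (nat_lit 1008) (nat_lit 4447622322) (nat_lit 1092) (nat_lit 2011760775) (nat_lit 199) (nat_lit 5) (nat_lit 211) (nat_lit 5) (nat_lit 212) (nat_lit 5) (nat_lit 342) (nat_lit 323) (nat_lit 280)) (XT.nd (nat_lit 94) (nat_lit 1176) (nat_lit 0) (XT.lf (nat_lit 0) (nat_lit 5659391800) (nat_lit 1008) (nat_lit 2119734596) (nat_lit 1092) (nat_lit 266501230) (nat_lit 199) (nat_lit 5) (nat_lit 211) (nat_lit 5) (nat_lit 212) (nat_lit 5) (nat_lit 343) (nat_lit 323) (nat_lit 279)) (XT.lf (nat_lit 0) (nat_lit 1472680376) (nat_lit 1176) (nat_lit 6360992536) (nat_lit 84) (nat_lit 312483022) (nat_lit 185) (nat_lit 5) (nat_lit 199) (nat_lit 5) (nat_lit 186) (nat_lit 5) (nat_lit 344) (nat_lit 323) (nat_lit 278)))))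 (XT.nd (nat_lit 282) (nat_lit 1932) (nat_lit 0) (XT.nd (nat_lit 94) (nat_lit 1176) (nat_lit 0) (XT.lf (nat_lit 0) (nat_lit 3256292419) (nat_lit 1176) (nat_lit 2184385611) (nat_lit 84) (nat_lit 2809111720) (nat_lit 185) (nat_lit 5) (nat_lit 199) (nat_lit 5) (nat_lit 186) (nat_lit 5) (nat_lit 345) (nat_lit 323) (nat_lit 277)) (XT.nd (nat_lit 94) (nat_lit 0) (nat_lit 0) (XT.lf (nat_lit 0) (nat_lit 2117911854) (nat_lit 1176) (nat_lit 2949538320) (nat_lit 1260) (nat_lit 3289955614) (nat_lit 171) (nat_lit 5) (nat_lit 185) (nat_lit 5) (nat_lit 186) (nat_lit 5) (nat_lit 346) (nat_lit 323) (nat_lit 276)) (XT.lf (nat_lit 0) (nat_lit 6553521580) (nat_lit 1176) (nat_lit 356117303) (nat_lit 1260) (nat_lit 1559402120) (nat_lit 171) (nat_lit 5) (nat_lit 185) (nat_lit 5) (nat_lit 186) (nat_lit 5) (nat_lit 347) (nat_lit 323) (nat_lit 275)))) (XT.nd (nat_lit 188) (nat_lit 588) (nat_lit 0) (XT.nd (nat_lit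 94) (nat_lit 0) (nat_lit 0) (XT.lf (nat_lit 0) (nat_lit 221177425) (nat_lit 1344) (nat_lit 6061836191) (nat_lit 84) (nat_lit 2300959787) (nat_lit 155) (nat_lit 5) (nat_lit 171) (nat_lit 5) (nat_lit 156) (nat_lit 5) (nat_lit 348) (nat_lit 323) (nat_lit 274)) (XT.lf (nat_lit 0) (nat_lit 2003278407) (nat_lit 1344) (nat_lit 1630101440) (nat_lit 84) (nat_lit 5069211155) (nat_lit 155) (nat_lit 5) (nat_lit 171) (nat_lit 5) (nat_lit 156) (nat_lit 5) (nat_lit 349) (nat_lit 323) (nat_lit 273))) (XT.nd (nat_lit 94) (nat_lit 0) (nat_lit 0) (XT.lf (nat_lit 0) (nat_lit 2952034132) (nat_lit 588) (nat_lit 872841421) (nat_lit 672) (nat_lit 5000391951) (nat_lit 148) (nat_lit 5) (nat_lit 155) (nat_lit 5) (nat_lit 156) (nat_lit 5) (nat_lit 350) (nat_lit 323) (nat_lit 272)) (XT.lf (nat_lit 0) (nat_lit 5695210297) (nat_lit 672) (nat_lit 1306288740) (nat_lit 84) (nat_lit 1950381573) (nat_lit 148) (nat_lit 5)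 (nat_lit 156) (nat_lit 5) (nat_lit 149) (nat_lit 5) (nat_lit 351) (nat_lit 323) (nat_lit 271)))))) (XT.nd (nat_lit 658) (nat_lit 1932) (nat_lit 0) (XT.nd (nat_lit 282) (nat_lit 1176) (nat_lit 0) (XT.nd (nat_lit 94) (nat_lit 672) (nat_lit 0) (XT.lf (nat_lit 0) (nat_lit 3415770632) (nat_lit 588) (nat_lit 4207093056) (nat_lit 672) (nat_lit 1459468863) (nat_lit 141) (nat_lit 5) (nat_lit 148) (nat_lit 5) (nat_lit 149) (nat_lit 5) (nat_lit 352) (nat_lit 323) (nat_lit 270)) (XT.nd (nat_lit 94) (nat_lit 588) (nat_lit 0) (XT.lf (nat_lit 0) (nat_lit 357389010) (nat_lit 672) (nat_lit 954309781) (nat_lit 84) (nat_lit 7905757124) (nat_lit 140) (nat_lit 5) (nat_lit 148) (nat_lit 5) (nat_lit 141) (nat_lit 5) (nat_lit 353) (nat_lit 323) (nat_lit 269)) (XT.lf (nat_lit 0) (nat_lit 2214916444) (nat_lit 672) (nat_lit 5450682063) (nat_lit 84) (nat_lit 1690206228) (nat_lit 133) (nat_lit 5) (nat_lit 141) (nat_lit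 5) (nat_lit 134) (nat_lit 5) (nat_lit 354) (nat_lit 323) (nat_lit 268)))) (XT.nd (nat_lit 188) (nat_lit 588) (nat_lit 0) (XT.nd (nat_lit 94) (nat_lit 588) (nat_lit 0) (XT.lf (nat_lit 0) (nat_lit 4112861952) (nat_lit 672) (nat_lit 621218938) (nat_lit 84) (nat_lit 4764750508) (nat_lit 133) (nat_lit 5) (nat_lit 141) (nat_lit 5) (nat_lit 134) (nat_lit 5) (nat_lit 355) (nat_lit 323) (nat_lit 267)) (XT.lf (nat_lit 0) (nat_lit 4400134234) (nat_lit 588) (nat_lit 1672989016) (nat_lit 672) (nat_lit 3572930448) (nat_lit 126) (nat_lit 5) (nat_lit 133) (nat_lit 5) (nat_lit 134) (nat_lit 5) (nat_lit 356) (nat_lit 323) (nat_lit 266))) (XT.nd (nat_lit 94) (nat_lit 588) (nat_lit 0) (XT.lf (nat_lit 0) (nat_lit 8076518015) (nat_lit 672) (nat_lit 266534532) (nat_lit 84) (nat_lit 1455174584) (nat_lit 126) (nat_lit 5) (nat_lit 134) (nat_lit 5) (nat_lit 127) (nat_lit 5) (nat_lit 357) (nat_lit 323) (nat_lit 265))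 (XT.lf (nat_lit 0) (nat_lit 210172659) (nat_lit 588) (nat_lit 5053343258) (nat_lit 84) (nat_lit 4690594992) (nat_lit 119) (nat_lit 5) (nat_lit 126) (nat_lit 5) (nat_lit 120) (nat_lit 5) (nat_lit 358) (nat_lit 323) (nat_lit 264))))) (XT.nd (nat_lit 282) (nat_lit 1008) (nat_lit 0) (XT.nd (nat_lit 94) (nat_lit 420) (nat_lit 0) (XT.lf (nat_lit 0) (nat_lit 59216799) (nat_lit 504) (nat_lit 2074554094) (nat_lit 588) (nat_lit 7981396750) (nat_lit 113) (nat_lit 5) (nat_lit 119) (nat_lit 5) (nat_lit 120) (nat_lit 5) (nat_lit 359) (nat_lit 323) (nat_lit 263)) (XT.nd (nat_lit 94) (nat_lit 420) (nat_lit 0) (XT.lf (nat_lit 0) (nat_lit 4143927953) (nat_lit 588) (nat_lit 4902412370) (nat_lit 84) (nat_lit 1233907301) (nat_lit 113) (nat_lit 5) (nat_lit 120) (nat_lit 5) (nat_lit 114) (nat_lit 5) (nat_lit 360) (nat_lit 323) (nat_lit 262)) (XT.lf (nat_lit 0) (nat_lit 353753211) (nat_lit 420) (nat_lit 5851261405)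 (nat_lit 504) (nat_lit 4245602050) (nat_lit 108) (nat_lit 5) (nat_lit 113) (nat_lit 5) (nat_lit 114) (nat_lit 5) (nat_lit 361) (nat_lit 323) (nat_lit 261)))) (XT.nd (nat_lit 188) (nat_lit 504) (nat_lit 0) (XT.nd (nat_lit 94) (nat_lit 504) (nat_lit 0) (XT.lf (nat_lit 0) (nat_lit 5830132403) (nat_lit 420) (nat_lit 2514595898) (nat_lit 504) (nat_lit 2280918442) (nat_lit 108) (nat_lit 5) (nat_lit 113) (nat_lit 5) (nat_lit 114) (nat_lit 5) (nat_lit 362) (nat_lit 323) (nat_lit 260)) (XT.lf (nat_lit 0) (nat_lit 630497971) (nat_lit 504) (nat_lit 9901253963) (nat_lit 588) (nat_lit 274734458) (nat_lit 102) (nat_lit 5) (nat_lit 108) (nat_lit 5) (nat_lit 109) (nat_lit 5) (nat_lit 363) (nat_lit 323) (nat_lit 259))) (XT.nd (nat_lit 94) (nat_lit 420) (nat_lit 0) (XT.lf (nat_lit 0) (nat_lit 1798876311) (nat_lit 588) (nat_lit 4754426694) (nat_lit 84) (nat_lit 4437714712) (nat_lit 101) (nat_lit 5) (nat_lit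 108) (nat_lit 5) (nat_lit 102) (nat_lit 5) (nat_lit 364) (nat_lit 323) (nat_lit 258)) (XT.lf (nat_lit 0) (nat_lit 805772174) (nat_lit 420) (nat_lit 3100468061) (nat_lit 504) (nat_lit 7275498937) (nat_lit 96) (nat_lit 5) (nat_lit 101) (nat_lit 5) (nat_lit 102) (nat_lit 5) (nat_lit 365) (nat_lit 323) (nat_lit 257))))))) (XT.nd (nat_lit 1316) (nat_lit 2184) (nat_lit 0) (XT.nd (nat_lit 658) (nat_lit 1092) (nat_lit 0) (XT.nd (nat_lit 282) (nat_lit 840) (nat_lit 0) (XT.nd (nat_lit 94) (nat_lit 420) (nat_lit 0) (XT.lf (nat_lit 0) (nat_lit 6099493503) (nat_lit 504) (nat_lit 4788900242) (nat_lit 84) (nat_lit 489154878) (nat_lit 96) (nat_lit 5) (nat_lit 102) (nat_lit 5) (nat_lit 97) (nat_lit 5) (nat_lit 366) (nat_lit 323) (nat_lit 256)) (XT.nd (nat_lit 94) (nat_lit 0) (nat_lit 0) (XT.lf (nat_lit 0) (nat_lit 916520637) (nat_lit 420) (nat_lit 7452211007) (nat_lit 504) (nat_lit 3210240146) (nat_lit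 91) (nat_lit 5) (nat_lit 96) (nat_lit 5) (nat_lit 97) (nat_lit 5) (nat_lit 367) (nat_lit 323) (nat_lit 255)) (XT.lf (nat_lit 0) (nat_lit 6855184410) (nat_lit 420) (nat_lit 3870407540) (nat_lit 504) (nat_lit 1060303091) (nat_lit 91) (nat_lit 5) (nat_lit 96) (nat_lit 5) (nat_lit 97) (nat_lit 5) (nat_lit 368) (nat_lit 323) (nat_lit 254)))) (XT.nd (nat_lit 188) (nat_lit 420) (nat_lit 0) (XT.nd (nat_lit 94) (nat_lit 0) (nat_lit 0) (XT.lf (nat_lit 0) (nat_lit 944681302) (nat_lit 336) (nat_lit 167717488) (nat_lit 420) (nat_lit 10886911963) (nat_lit 86) (nat_lit 5) (nat_lit 90) (nat_lit 5) (nat_lit 91) (nat_lit 5) (nat_lit 369) (nat_lit 323) (nat_lit 253)) (XT.lf (nat_lit 0) (nat_lit 3386422292) (nat_lit 420) (nat_lit 5202358245) (nat_lit 84) (nat_lit 3628349939) (nat_lit 86) (nat_lit 5) (nat_lit 91) (nat_lit 5) (nat_lit 87) (nat_lit 5) (nat_lit 370) (nat_lit 323) (nat_lit 252))) (XT.nd (nat_lit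 94) (nat_lit 0) (nat_lit 0) (XT.lf (nat_lit 0) (nat_lit 804476400) (nat_lit 420) (nat_lit 4906515848) (nat_lit 504) (nat_lit 6731061632) (nat_lit 81) (nat_lit 5) (nat_lit 86) (nat_lit 5) (nat_lit 87) (nat_lit 5) (nat_lit 371) (nat_lit 323) (nat_lit 251)) (XT.lf (nat_lit 0) (nat_lit 7063460521) (nat_lit 420) (nat_lit 1067759302) (nat_lit 504) (nat_lit 4541765277) (nat_lit 81) (nat_lit 5) (nat_lit 86) (nat_lit 5) (nat_lit 87) (nat_lit 5) (nat_lit 372) (nat_lit 323) (nat_lit 250))))) (XT.nd (nat_lit 282) (nat_lit 336) (nat_lit 0) (XT.nd (nat_lit 94) (nat_lit 420) (nat_lit 0) (XT.lf (nat_lit 0) (nat_lit 547893270) (nat_lit 336) (nat_lit 10083257758) (nat_lit 420) (nat_lit 2279516958) (nat_lit 77) (nat_lit 5) (nat_lit 81) (nat_lit 5) (nat_lit 82) (nat_lit 5) (nat_lit 373) (nat_lit 323) (nat_lit 249)) (XT.nd (nat_lit 94) (nat_lit 336) (nat_lit 0) (XT.lf (nat_lit 0) (nat_lit 91615826) (nat_lit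 420) (nat_lit 6195012146) (nat_lit 84) (nat_lit 6867613191) (nat_lit 76) (nat_lit 5) (nat_lit 81) (nat_lit 5) (nat_lit 77) (nat_lit 5) (nat_lit 374) (nat_lit 323) (nat_lit 248)) (XT.lf (nat_lit 0) (nat_lit 103609949) (nat_lit 336) (nat_lit 2360429725) (nat_lit 420) (nat_lit 10941159108) (nat_lit 72) (nat_lit 5) (nat_lit 76) (nat_lit 5) (nat_lit 77) (nat_lit 5) (nat_lit 375) (nat_lit 323) (nat_lit 247)))) (XT.nd (nat_lit 188) (nat_lit 336) (nat_lit 0) (XT.nd (nat_lit 94) (nat_lit 0) (nat_lit 0) (XT.lf (nat_lit 0) (nat_lit 4962298904) (nat_lit 420) (nat_lit 6994412288) (nat_lit 84) (nat_lit 1705366605) (nat_lit 72) (nat_lit 5) (nat_lit 77) (nat_lit 5) (nat_lit 73) (nat_lit 5) (nat_lit 376) (nat_lit 323) (nat_lit 246)) (XT.lf (nat_lit 0) (nat_lit 7534898301) (nat_lit 420) (nat_lit 554384756) (nat_lit 84) (nat_lit 5837429951) (nat_lit 72) (nat_lit 5) (nat_lit 77) (nat_lit 5) (nat_lit 73) (nat_lit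 5) (nat_lit 377) (nat_lit 323) (nat_lit 245))) (XT.nd (nat_lit 94) (nat_lit 0) (nat_lit 0) (XT.lf (nat_lit 0) (nat_lit 6167154258) (nat_lit 336) (nat_lit 4053524075) (nat_lit 420) (nat_lit 3977559541) (nat_lit 68) (nat_lit 5) (nat_lit 72) (nat_lit 5) (nat_lit 73) (nat_lit 5) (nat_lit 378) (nat_lit 323) (nat_lit 244)) (XT.lf (nat_lit 0) (nat_lit 12970687090) (nat_lit 420) (nat_lit 1409436205) (nat_lit 84) (nat_lit 98305316) (nat_lit 68) (nat_lit 5) (nat_lit 73) (nat_lit 5) (nat_lit 69) (nat_lit 5) (nat_lit 379) (nat_lit 323) (nat_lit 243)))))) (XT.nd (nat_lit 658) (nat_lit 840) (nat_lit 0) (XT.nd (nat_lit 282) (nat_lit 672) (nat_lit 0) (XT.nd (nat_lit 94) (nat_lit 252) (nat_lit 0) (XT.lf (nat_lit 0) (nat_lit 1086776342) (nat_lit 420) (nat_lit 9330022989) (nat_lit 84) (nat_lit 4347830264) (nat_lit 63) (nat_lit 5) (nat_lit 68) (nat_lit 5) (nat_lit 64) (nat_lit 5) (nat_lit 380) (nat_lit 323)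 (nat_lit 242)) (XT.nd (nat_lit 94) (nat_lit 252) (nat_lit 0) (XT.lf (nat_lit 0) (nat_lit 3720983511) (nat_lit 420) (nat_lit 2592766087) (nat_lit 84) (nat_lit 8745481688) (nat_lit 63) (nat_lit 5) (nat_lit 68) (nat_lit 5) (nat_lit 64) (nat_lit 5) (nat_lit 381) (nat_lit 323) (nat_lit 241)) (XT.lf (nat_lit 0) (nat_lit 4401853896) (nat_lit 252) (nat_lit 2053107787) (nat_lit 336) (nat_lit 8907113462) (nat_lit 60) (nat_lit 5) (nat_lit 63) (nat_lit 5) (nat_lit 64) (nat_lit 5) (nat_lit 382) (nat_lit 323) (nat_lit 240)))) (XT.nd (nat_lit 188) (nat_lit 336) (nat_lit 0) (XT.nd (nat_lit 94) (nat_lit 336) (nat_lit 0) (XT.lf (nat_lit 0) (nat_lit 9298529421) (nat_lit 336) (nat_lit 4067390454) (nat_lit 84) (nat_lit 2307283034) (nat_lit 60) (nat_lit 5) (nat_lit 64) (nat_lit 5) (nat_lit 61) (nat_lit 5) (nat_lit 383) (nat_lit 323) (nat_lit 239)) (XT.lf (nat_lit 0) (nat_lit 3041218161) (nat_lit 336) (nat_lit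 9215049134) (nat_lit 420) (nat_lit 3736556260) (nat_lit 56) (nat_lit 5) (nat_lit 60) (nat_lit 5) (nat_lit 61) (nat_lit 5) (nat_lit 384) (nat_lit 323) (nat_lit 238))) (XT.nd (nat_lit 94) (nat_lit 336) (nat_lit 0) (XT.lf (nat_lit 0) (nat_lit 10416732482) (nat_lit 336) (nat_lit 4906695839) (nat_lit 420) (nat_lit 998007987) (nat_lit 56) (nat_lit 5) (nat_lit 60) (nat_lit 5) (nat_lit 61) (nat_lit 5) (nat_lit 385) (nat_lit 323) (nat_lit 237)) (XT.lf (nat_lit 0) (nat_lit 1332806619) (nat_lit 252) (nat_lit 447127503) (nat_lit 336) (nat_lit 14879686380) (nat_lit 52) (nat_lit 5) (nat_lit 55) (nat_lit 5) (nat_lit 56) (nat_lit 5) (nat_lit 386) (nat_lit 323) (nat_lit 236))))) (XT.nd (nat_lit 282) (nat_lit 588) (nat_lit 0) (XT.nd (nat_lit 94) (nat_lit 252) (nat_lit 0) (XT.lf (nat_lit 0) (nat_lit 4701435535) (nat_lit 336) (nat_lit 8177528072) (nat_lit 84) (nat_lit 4126303940) (nat_lit 52) (nat_lit 5)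 (nat_lit 56) (nat_lit 5) (nat_lit 53) (nat_lit 5) (nat_lit 387) (nat_lit 323) (nat_lit 235)) (XT.nd (nat_lit 94) (nat_lit 252) (nat_lit 0) (XT.lf (nat_lit 0) (nat_lit 7695793117) (nat_lit 336) (nat_lit 846852773) (nat_lit 84) (nat_lit 8819103297) (nat_lit 52) (nat_lit 5) (nat_lit 56) (nat_lit 5) (nat_lit 53) (nat_lit 5) (nat_lit 388) (nat_lit 323) (nat_lit 234)) (XT.lf (nat_lit 0) (nat_lit 6808779329) (nat_lit 252) (nat_lit 4017996056) (nat_lit 336) (nat_lit 6900766962) (nat_lit 49) (nat_lit 5) (nat_lit 52) (nat_lit 5) (nat_lit 53) (nat_lit 5) (nat_lit 389) (nat_lit 323) (nat_lit 233)))) (XT.nd (nat_lit 188) (nat_lit 336) (nat_lit 0) (XT.nd (nat_lit 94) (nat_lit 252) (nat_lit 0) (XT.lf (nat_lit 0) (nat_lit 14048032530) (nat_lit 336) (nat_lit 3426910302) (nat_lit 84) (nat_lit 629496390) (nat_lit 49) (nat_lit 5) (nat_lit 53) (nat_lit 5) (nat_lit 50) (nat_lit 5) (nat_lit 390) (nat_lit 323)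 (nat_lit 232)) (XT.lf (nat_lit 0) (nat_lit 4306734548) (nat_lit 252) (nat_lit 13122445897) (nat_lit 336) (nat_lit 1061584658) (nat_lit 46) (nat_lit 5) (nat_lit 49) (nat_lit 5) (nat_lit 50) (nat_lit 5) (nat_lit 391) (nat_lit 323) (nat_lit 231))) (XT.nd (nat_lit 94) (nat_lit 252) (nat_lit 0) (XT.lf (nat_lit 0) (nat_lit 2000693499) (nat_lit 336) (nat_lit 6592123607) (nat_lit 84) (nat_lit 10294786130) (nat_lit 45) (nat_lit 5) (nat_lit 49) (nat_lit 5) (nat_lit 46) (nat_lit 5) (nat_lit 392) (nat_lit 323) (nat_lit 230)) (XT.lf (nat_lit 0) (nat_lit 1214190694) (nat_lit 252) (nat_lit 3913645582) (nat_lit 336) (nat_lit 14168382942) (nat_lit 42) (nat_lit 5) (nat_lit 45) (nat_lit 5) (nat_lit 46) (nat_lit 5) (nat_lit 393) (nat_lit 323) (nat_lit 229))))))))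
noncomputable def xc106 : XT := (XT.nd (nat_lit 2538) (nat_lit 840) (nat_lit 0) (XT.nd (nat_lit 1222) (nat_lit 756) (nat_lit 0) (XT.nd (nat_lit 564) (nat_lit 588) (nat_lit 0) (XT.nd (nat_lit 282) (nat_lit 336) (nat_lit 0) (XT.nd (nat_lit 94) (nat_lit 168) (nat_lit 0) (XT.lf (nat_lit 0) (nat_lit 8407553711) (nat_lit 336) (nat_lit 10361351317) (nat_lit 84) (nat_lit 946443336) (nat_lit 42) (nat_lit 5) (nat_lit 46) (nat_lit 5) (nat_lit 43) (nat_lit 5) (nat_lit 394) (nat_lit 323) (nat_lit 228)) (XT.nd (nat_lit 94) (nat_lit 168) (nat_lit 0) (XT.lf (nat_lit 0) (nat_lit 11807737546) (nat_lit 336) (nat_lit 2473738682) (nat_lit 84) (nat_lit 5864929897) (nat_lit 42) (nat_lit 5) (nat_lit 46) (nat_lit 5) (nat_lit 43) (nat_lit 5) (nat_lit 395) (nat_lit 323) (nat_lit 227)) (XT.lf (nat_lit 0) (nat_lit 5737276759) (nat_lit 168) (nat_lit 9611611914) (nat_lit 252) (nat_lit 5240354582) (nat_lit 40) (nat_lit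 5) (nat_lit 42) (nat_lit 5) (nat_lit 43) (nat_lit 5) (nat_lit 396) (nat_lit 323) (nat_lit 226)))) (XT.nd (nat_lit 94) (nat_lit 336) (nat_lit 0) (XT.lf (nat_lit 0) (nat_lit 14220398244) (nat_lit 168) (nat_lit 4784899398) (nat_lit 252) (nat_lit 2039813171) (nat_lit 40) (nat_lit 5) (nat_lit 42) (nat_lit 5) (nat_lit 43) (nat_lit 5) (nat_lit 397) (nat_lit 323) (nat_lit 225)) (XT.nd (nat_lit 94) (nat_lit 0) (nat_lit 0) (XT.lf (nat_lit 0) (nat_lit 1232316719) (nat_lit 336) (nat_lit 20081586686) (nat_lit 84) (nat_lit 200400790) (nat_lit 36) (nat_lit 5) (nat_lit 40) (nat_lit 5) (nat_lit 37) (nat_lit 5) (nat_lit 398) (nat_lit 323) (nat_lit 224)) (XT.lf (nat_lit 0) (nat_lit 4663063079) (nat_lit 336) (nat_lit 12010675546) (nat_lit 84) (nat_lit 5320199995) (nat_lit 36) (nat_lit 5) (nat_lit 40) (nat_lit 5) (nat_lit 37) (nat_lit 5) (nat_lit 399) (nat_lit 323) (nat_lit 223))))) (XT.nd (nat_lit 282) (nat_lit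 420) (nat_lit 0) (XT.nd (nat_lit 94) (nat_lit 168) (nat_lit 0) (XT.lf (nat_lit 0) (nat_lit 8181660959) (nat_lit 336) (nat_lit 3721604366) (nat_lit 84) (nat_lit 10585163106) (nat_lit 36) (nat_lit 5) (nat_lit 40) (nat_lit 5) (nat_lit 37) (nat_lit 5) (nat_lit 400) (nat_lit 323) (nat_lit 222)) (XT.nd (nat_lit 94) (nat_lit 0) (nat_lit 0) (XT.lf (nat_lit 0) (nat_lit 4888257237) (nat_lit 168) (nat_lit 6949916543) (nat_lit 252) (nat_lit 11158622257) (nat_lit 34) (nat_lit 5) (nat_lit 36) (nat_lit 5) (nat_lit 37) (nat_lit 5) (nat_lit 401) (nat_lit 323) (nat_lit 221)) (XT.lf (nat_lit 0) (nat_lit 13809662844) (nat_lit 168) (nat_lit 1817872824) (nat_lit 252) (nat_lit 7892197802) (nat_lit 34) (nat_lit 5) (nat_lit 36) (nat_lit 5) (nat_lit 37) (nat_lit 5) (nat_lit 402) (nat_lit 323) (nat_lit 220)))) (XT.nd (nat_lit 188) (nat_lit 252) (nat_lit 0) (XT.nd (nat_lit 94) (nat_lit 168) (nat_lit 0) (XT.lf (nat_lit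 0) (nat_lit 19549828814) (nat_lit 252) (nat_lit 1115709043) (nat_lit 84) (nat_lit 3392256675) (nat_lit 34) (nat_lit 5) (nat_lit 37) (nat_lit 5) (nat_lit 35) (nat_lit 5) (nat_lit 403) (nat_lit 323) (nat_lit 219)) (XT.lf (nat_lit 0) (nat_lit 7849597572) (nat_lit 168) (nat_lit 15819969962) (nat_lit 252) (nat_lit 940049226) (nat_lit 32) (nat_lit 5) (nat_lit 34) (nat_lit 5) (nat_lit 35) (nat_lit 5) (nat_lit 404) (nat_lit 323) (nat_lit 218))) (XT.nd (nat_lit 94) (nat_lit 168) (nat_lit 0) (XT.lf (nat_lit 0) (nat_lit 2679280641) (nat_lit 252) (nat_lit 8119450437) (nat_lit 84) (nat_lit 14378553493) (nat_lit 31) (nat_lit 5) (nat_lit 34) (nat_lit 5) (nat_lit 32) (nat_lit 5) (nat_lit 405) (nat_lit 323) (nat_lit 217)) (XT.lf (nat_lit 0) (nat_lit 764461892) (nat_lit 168) (nat_lit 5617945745) (nat_lit 252) (nat_lit 19379483784) (nat_lit 29) (nat_lit 5) (nat_lit 31) (nat_lit 5) (nat_lit 32) (nat_lit 5)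 (nat_lit 406) (nat_lit 323) (nat_lit 216)))))) (XT.nd (nat_lit 658) (nat_lit 336) (nat_lit 0) (XT.nd (nat_lit 282) (nat_lit 252) (nat_lit 0) (XT.nd (nat_lit 94) (nat_lit 168) (nat_lit 0) (XT.lf (nat_lit 0) (nat_lit 10060059518) (nat_lit 168) (nat_lit 205503333) (nat_lit 252) (nat_lit 16096416824) (nat_lit 29) (nat_lit 5) (nat_lit 31) (nat_lit 5) (nat_lit 32) (nat_lit 5) (nat_lit 407) (nat_lit 323) (nat_lit 215)) (XT.nd (nat_lit 94) (nat_lit 168) (nat_lit 0) (XT.lf (nat_lit 0) (nat_lit 14304073306) (nat_lit 252) (nat_lit 7418126365) (nat_lit 84) (nat_lit 5256715990) (nat_lit 29) (nat_lit 5) (nat_lit 32) (nat_lit 5) (nat_lit 30) (nat_lit 5) (nat_lit 408) (nat_lit 323) (nat_lit 214)) (XT.lf (nat_lit 0) (nat_lit 1743817684) (nat_lit 168) (nat_lit 16726337621) (nat_lit 252) (nat_lit 9144022520) (nat_lit 27) (nat_lit 5) (nat_lit 29) (nat_lit 5) (nat_lit 30) (nat_lit 5) (nat_lit 409) (nat_lit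 323) (nat_lit 213)))) (XT.nd (nat_lit 188) (nat_lit 252) (nat_lit 0) (XT.nd (nat_lit 94) (nat_lit 0) (nat_lit 0) (XT.lf (nat_lit 0) (nat_lit 11312526917) (nat_lit 168) (nat_lit 11511387128) (nat_lit 252) (nat_lit 5442713256) (nat_lit 27) (nat_lit 5) (nat_lit 29) (nat_lit 5) (nat_lit 30) (nat_lit 5) (nat_lit 410) (nat_lit 323) (nat_lit 212)) (XT.lf (nat_lit 0) (nat_lit 21148727082) (nat_lit 168) (nat_lit 6147699973) (nat_lit 252) (nat_lit 1642588940) (nat_lit 27) (nat_lit 5) (nat_lit 29) (nat_lit 5) (nat_lit 30) (nat_lit 5) (nat_lit 411) (nat_lit 323) (nat_lit 211))) (XT.nd (nat_lit 94) (nat_lit 0) (nat_lit 0) (XT.lf (nat_lit 0) (nat_lit 1639349766) (nat_lit 168) (nat_lit 591985271) (nat_lit 252) (nat_lit 27399471998) (nat_lit 24) (nat_lit 5) (nat_lit 26) (nat_lit 5) (nat_lit 27) (nat_lit 5) (nat_lit 412) (nat_lit 323) (nat_lit 210)) (XT.lf (nat_lit 0) (nat_lit 6305670805) (nat_lit 252)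 (nat_lit 18915113063) (nat_lit 84) (nat_lit 5118572919) (nat_lit 24) (nat_lit 5) (nat_lit 27) (nat_lit 5) (nat_lit 25) (nat_lit 5) (nat_lit 413) (nat_lit 323) (nat_lit 209))))) (XT.nd (nat_lit 282) (nat_lit 168) (nat_lit 0) (XT.nd (nat_lit 94) (nat_lit 168) (nat_lit 0) (XT.lf (nat_lit 0) (nat_lit 10496880805) (nat_lit 252) (nat_lit 9591110120) (nat_lit 84) (nat_lit 10981341645) (nat_lit 24) (nat_lit 5) (nat_lit 27) (nat_lit 5) (nat_lit 25) (nat_lit 5) (nat_lit 414) (nat_lit 323) (nat_lit 208)) (XT.nd (nat_lit 94) (nat_lit 168) (nat_lit 0) (XT.lf (nat_lit 0) (nat_lit 14802936737) (nat_lit 252) (nat_lit 5610728) (nat_lit 84) (nat_lit 17012995479) (nat_lit 24) (nat_lit 5) (nat_lit 27) (nat_lit 5) (nat_lit 25) (nat_lit 5) (nat_lit 415) (nat_lit 323) (nat_lit 207)) (XT.lf (nat_lit 0) (nat_lit 10045790343) (nat_lit 168) (nat_lit 9278377113) (nat_lit 252) (nat_lit 13269580736) (nat_lit 22) (nat_lit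 5) (nat_lit 24) (nat_lit 5) (nat_lit 25) (nat_lit 5) (nat_lit 416) (nat_lit 323) (nat_lit 206)))) (XT.nd (nat_lit 188) (nat_lit 168) (nat_lit 0) (XT.nd (nat_lit 94) (nat_lit 0) (nat_lit 0) (XT.lf (nat_lit 0) (nat_lit 20381329067) (nat_lit 168) (nat_lit 3589329064) (nat_lit 252) (nat_lit 9418780889) (nat_lit 22) (nat_lit 5) (nat_lit 24) (nat_lit 5) (nat_lit 25) (nat_lit 5) (nat_lit 417) (nat_lit 323) (nat_lit 205)) (XT.lf (nat_lit 0) (nat_lit 28768172046) (nat_lit 252) (nat_lit 3221145763) (nat_lit 84) (nat_lit 2219341783) (nat_lit 22) (nat_lit 5) (nat_lit 25) (nat_lit 5) (nat_lit 23) (nat_lit 4) (nat_lit 418) (nat_lit 323) (nat_lit 204))) (XT.nd (nat_lit 94) (nat_lit 84) (nat_lit 0) (XT.lf (nat_lit 0) (nat_lit 6942612624) (nat_lit 84) (nat_lit 26859374412) (nat_lit 168) (nat_lit 1247706124) (nat_lit 21) (nat_lit 5) (nat_lit 22) (nat_lit 5) (nat_lit 23) (nat_lit 4) (nat_lit 419) (nat_lit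 323) (nat_lit 203)) (XT.lf (nat_lit 0) (nat_lit 3033910491) (nat_lit 168) (nat_lit 18484300526) (nat_lit 84) (nat_lit 14396179097) (nat_lit 20) (nat_lit 5) (nat_lit 22) (nat_lit 5) (nat_lit 21) (nat_lit 5) (nat_lit 420) (nat_lit 323) (nat_lit 202))))))) (XT.nd (nat_lit 1316) (nat_lit 252) (nat_lit 0) (XT.nd (nat_lit 658) (nat_lit 336) (nat_lit 0) (XT.nd (nat_lit 282) (nat_lit 84) (nat_lit 0) (XT.nd (nat_lit 94) (nat_lit 168) (nat_lit 0) (XT.lf (nat_lit 0) (nat_lit 7409311499) (nat_lit 168) (nat_lit 8601493242) (nat_lit 84) (nat_lit 20794147223) (nat_lit 20) (nat_lit 5) (nat_lit 22) (nat_lit 5) (nat_lit 21) (nat_lit 5) (nat_lit 421) (nat_lit 323) (nat_lit 201)) (XT.nd (nat_lit 94) (nat_lit 0) (nat_lit 0) (XT.lf (nat_lit 0) (nat_lit 1593056768) (nat_lit 168) (nat_lit 10328923973) (nat_lit 252) (nat_lit 25800076536) (nat_lit 18) (nat_lit 5) (nat_lit 20) (nat_lit 5) (nat_lit 21) (nat_lit 5)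 (nat_lit 422) (nat_lit 323) (nat_lit 200)) (XT.lf (nat_lit 0) (nat_lit 12254092864) (nat_lit 168) (nat_lit 4393608610) (nat_lit 252) (nat_lit 22016650728) (nat_lit 18) (nat_lit 5) (nat_lit 20) (nat_lit 5) (nat_lit 21) (nat_lit 5) (nat_lit 423) (nat_lit 323) (nat_lit 199)))) (XT.nd (nat_lit 188) (nat_lit 84) (nat_lit 0) (XT.nd (nat_lit 94) (nat_lit 0) (nat_lit 0) (XT.lf (nat_lit 0) (nat_lit 21522745520) (nat_lit 252) (nat_lit 16431916940) (nat_lit 84) (nat_lit 1680033370) (nat_lit 18) (nat_lit 5) (nat_lit 21) (nat_lit 5) (nat_lit 19) (nat_lit 4) (nat_lit 424) (nat_lit 323) (nat_lit 198)) (XT.lf (nat_lit 0) (nat_lit 26578823754) (nat_lit 252) (nat_lit 6212705500) (nat_lit 84) (nat_lit 7841583244) (nat_lit 18) (nat_lit 5) (nat_lit 21) (nat_lit 5) (nat_lit 19) (nat_lit 4) (nat_lit 425) (nat_lit 323) (nat_lit 197))) (XT.nd (nat_lit 94) (nat_lit 0) (nat_lit 0) (XT.lf (nat_lit 0) (nat_lit 4384087783)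 (nat_lit 84) (nat_lit 27436174803) (nat_lit 168) (nat_lit 9840214767) (nat_lit 17) (nat_lit 5) (nat_lit 18) (nat_lit 5) (nat_lit 19) (nat_lit 4) (nat_lit 426) (nat_lit 323) (nat_lit 196)) (XT.lf (nat_lit 0) (nat_lit 15411737984) (nat_lit 84) (nat_lit 21861586564) (nat_lit 168) (nat_lit 5443713070) (nat_lit 17) (nat_lit 5) (nat_lit 18) (nat_lit 5) (nat_lit 19) (nat_lit 4) (nat_lit 427) (nat_lit 323) (nat_lit 195))))) (XT.nd (nat_lit 282) (nat_lit 84) (nat_lit 0) (XT.nd (nat_lit 94) (nat_lit 252) (nat_lit 0) (XT.lf (nat_lit 0) (nat_lit 26756235889) (nat_lit 84) (nat_lit 16125629680) (nat_lit 168) (nat_lit 923678194) (nat_lit 17) (nat_lit 5) (nat_lit 18) (nat_lit 5) (nat_lit 19) (nat_lit 4) (nat_lit 428) (nat_lit 323) (nat_lit 194)) (XT.nd (nat_lit 94) (nat_lit 168) (nat_lit 0) (XT.lf (nat_lit 0) (nat_lit 3651173886) (nat_lit 168) (nat_lit 6535248568) (nat_lit 84) (nat_lit 34739450585) (nat_lit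 16) (nat_lit 5) (nat_lit 18) (nat_lit 5) (nat_lit 17) (nat_lit 5) (nat_lit 429) (nat_lit 323) (nat_lit 193)) (XT.lf (nat_lit 0) (nat_lit 4356765171) (nat_lit 168) (nat_lit 4022093171) (nat_lit 252) (nat_lit 37699660143) (nat_lit 14) (nat_lit 5) (nat_lit 16) (nat_lit 5) (nat_lit 17) (nat_lit 5) (nat_lit 430) (nat_lit 323) (nat_lit 192)))) (XT.nd (nat_lit 188) (nat_lit 84) (nat_lit 0) (XT.nd (nat_lit 94) (nat_lit 0) (nat_lit 0) (XT.lf (nat_lit 0) (nat_lit 13329706524) (nat_lit 252) (nat_lit 31590669300) (nat_lit 84) (nat_lit 2342932529) (nat_lit 14) (nat_lit 5) (nat_lit 17) (nat_lit 5) (nat_lit 15) (nat_lit 4) (nat_lit 431) (nat_lit 323) (nat_lit 191)) (XT.lf (nat_lit 0) (nat_lit 18461443103) (nat_lit 252) (nat_lit 21208473305) (nat_lit 84) (nat_lit 8812759529) (nat_lit 14) (nat_lit 5) (nat_lit 17) (nat_lit 5) (nat_lit 15) (nat_lit 4) (nat_lit 432) (nat_lit 323) (nat_lit 190))) (XT.nd (nat_lit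 94) (nat_lit 84) (nat_lit 0) (XT.lf (nat_lit 0) (nat_lit 23739889301) (nat_lit 252) (nat_lit 10527430689) (nat_lit 84) (nat_lit 15471526598) (nat_lit 14) (nat_lit 5) (nat_lit 17) (nat_lit 5) (nat_lit 15) (nat_lit 4) (nat_lit 433) (nat_lit 323) (nat_lit 189)) (XT.lf (nat_lit 0) (nat_lit 470982053) (nat_lit 84) (nat_lit 28703202667) (nat_lit 168) (nat_lit 21858597391) (nat_lit 13) (nat_lit 5) (nat_lit 14) (nat_lit 5) (nat_lit 15) (nat_lit 4) (nat_lit 434) (nat_lit 323) (nat_lit 188)))))) (XT.nd (nat_lit 658) (nat_lit 84) (nat_lit 0) (XT.nd (nat_lit 282) (nat_lit 168) (nat_lit 0) (XT.nd (nat_lit 94) (nat_lit 0) (nat_lit 0) (XT.lf (nat_lit 0) (nat_lit 12003017594) (nat_lit 84) (nat_lit 22867854469) (nat_lit 168) (nat_lit 17491687237) (nat_lit 13) (nat_lit 5) (nat_lit 14) (nat_lit 5) (nat_lit 15) (nat_lit 4) (nat_lit 435) (nat_lit 323) (nat_lit 187)) (XT.nd (nat_lit 94) (nat_lit 0) (nat_lit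 0) (XT.lf (nat_lit 0) (nat_lit 23869235957) (nat_lit 84) (nat_lit 16862482956) (nat_lit 168) (nat_lit 13000717485) (nat_lit 13) (nat_lit 5) (nat_lit 14) (nat_lit 5) (nat_lit 15) (nat_lit 4) (nat_lit 436) (nat_lit 323) (nat_lit 186)) (XT.lf (nat_lit 0) (nat_lit 36080005681) (nat_lit 84) (nat_lit 10681840717) (nat_lit 168) (nat_lit 8381763988) (nat_lit 13) (nat_lit 5) (nat_lit 14) (nat_lit 5) (nat_lit 15) (nat_lit 4) (nat_lit 437) (nat_lit 323) (nat_lit 185)))) (XT.nd (nat_lit 188) (nat_lit 0) (nat_lit 0) (XT.nd (nat_lit 94) (nat_lit 168) (nat_lit 0) (XT.lf (nat_lit 0) (nat_lit 48645996371) (nat_lit 84) (nat_lit 4320527190) (nat_lit 168) (nat_lit 3630790767) (nat_lit 13) (nat_lit 5) (nat_lit 14) (nat_lit 5) (nat_lit 15) (nat_lit 4) (nat_lit 438) (nat_lit 323) (nat_lit 184)) (XT.lf (nat_lit 0) (nat_lit 1287733778) (nat_lit 168) (nat_lit 54574920887) (nat_lit 84) (nat_lit 2230124594) (nat_lit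 11) (nat_lit 5) (nat_lit 13) (nat_lit 5) (nat_lit 12) (nat_lit 4) (nat_lit 439) (nat_lit 323) (nat_lit 183))) (XT.nd (nat_lit 94) (nat_lit 0) (nat_lit 0) (XT.lf (nat_lit 0) (nat_lit 6398503015) (nat_lit 168) (nat_lit 44227059633) (nat_lit 84) (nat_lit 9002940873) (nat_lit 11) (nat_lit 5) (nat_lit 13) (nat_lit 5) (nat_lit 12) (nat_lit 4) (nat_lit 440) (nat_lit 323) (nat_lit 182)) (XT.lf (nat_lit 0) (nat_lit 11656574997) (nat_lit 168) (nat_lit 33579387389) (nat_lit 84) (nat_lit 15974521386) (nat_lit 11) (nat_lit 5) (nat_lit 13) (nat_lit 5) (nat_lit 12) (nat_lit 4) (nat_lit 441) (nat_lit 323) (nat_lit 181))))) (XT.nd (nat_lit 282) (nat_lit 0) (nat_lit 0) (XT.nd (nat_lit 94) (nat_lit 84) (nat_lit 0) (XT.lf (nat_lit 0) (nat_lit 17066544155) (nat_lit 168) (nat_lit 22622600364) (nat_lit 84) (nat_lit 23150957805) (nat_lit 11) (nat_lit 5) (nat_lit 13) (nat_lit 5) (nat_lit 12) (nat_lit 4) (nat_lit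 442) (nat_lit 323) (nat_lit 180)) (XT.nd (nat_lit 94) (nat_lit 84) (nat_lit 0) (XT.lf (nat_lit 0) (nat_lit 22633137649) (nat_lit 168) (nat_lit 11347124668) (nat_lit 84) (nat_lit 30538520803) (nat_lit 11) (nat_lit 5) (nat_lit 13) (nat_lit 5) (nat_lit 12) (nat_lit 4) (nat_lit 443) (nat_lit 323) (nat_lit 179)) (XT.lf (nat_lit 0) (nat_lit 262004712) (nat_lit 84) (nat_lit 28101733327) (nat_lit 168) (nat_lit 37884179368) (nat_lit 10) (nat_lit 5) (nat_lit 11) (nat_lit 5) (nat_lit 12) (nat_lit 4) (nat_lit 444) (nat_lit 323) (nat_lit 178)))) (XT.nd (nat_lit 188) (nat_lit 0) (nat_lit 0) (XT.nd (nat_lit 94) (nat_lit 0) (nat_lit 0) (XT.lf (nat_lit 0) (nat_lit 12442384990) (nat_lit 84) (nat_lit 21933013626) (nat_lit 168) (nat_lit 33650256089) (nat_lit 10) (nat_lit 5) (nat_lit 11) (nat_lit 5) (nat_lit 12) (nat_lit 4) (nat_lit 445) (nat_lit 323) (nat_lit 177)) (XT.lf (nat_lit 0) (nat_lit 24978829185)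 (nat_lit 84) (nat_lit 15583296779) (nat_lit 168) (nat_lit 29294759797) (nat_lit 10) (nat_lit 5) (nat_lit 11) (nat_lit 5) (nat_lit 12) (nat_lit 4) (nat_lit 446) (nat_lit 323) (nat_lit 176))) (XT.nd (nat_lit 47752) (nat_lit 0) (nat_lit 20748) (XT.lf (nat_lit 0) (nat_lit 37882291473) (nat_lit 84) (nat_lit 9047034491) (nat_lit 168) (nat_lit 24813884721) (nat_lit 10) (nat_lit 5) (nat_lit 11) (nat_lit 5) (nat_lit 12) (nat_lit 4) (nat_lit 447) (nat_lit 323) (nat_lit 175)) (XT.lf (nat_lit 0) (nat_lit 868760234) (nat_lit 0) (nat_lit 868760234) (nat_lit 588) (nat_lit 1662280754) (nat_lit 257) (nat_lit 5) (nat_lit 257) (nat_lit 3) (nat_lit 264) (nat_lit 3) (nat_lit 324) (nat_lit 324) (nat_lit 297))))))))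
noncomputable def xc107 : XT := (XT.nd (nat_lit 2632) (nat_lit 6468) (nat_lit 0) (XT.nd (nat_lit 1316) (nat_lit 7560) (nat_lit 0) (XT.nd (nat_lit 658) (nat_lit 756) (nat_lit 0) (XT.nd (nat_lit 282) (nat_lit 756) (nat_lit 0) (XT.nd (nat_lit 94) (nat_lit 672) (nat_lit 0) (XT.lf (nat_lit 0) (nat_lit 4812090057) (nat_lit 0) (nat_lit 580204255) (nat_lit 588) (nat_lit 1448435032) (nat_lit 257) (nat_lit 5) (nat_lit 257) (nat_lit 3) (nat_lit 264) (nat_lit 3) (nat_lit 325) (nat_lit 324) (nat_lit 296)) (XT.nd (nat_lit 94) (nat_lit 0) (nat_lit 0) (XT.lf (nat_lit 0) (nat_lit 417528560) (nat_lit 672) (nat_lit 5817345179) (nat_lit 756) (nat_lit 649972988) (nat_lit 249) (nat_lit 5) (nat_lit 257) (nat_lit 5) (nat_lit 258) (nat_lit 5) (nat_lit 326) (nat_lit 324) (nat_lit 295)) (XT.lf (nat_lit 0) (nat_lit 2265205781) (nat_lit 672) (nat_lit 2692192305) (nat_lit 756) (nat_lit 1973994657) (nat_lit 249) (nat_lit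 5) (nat_lit 257) (nat_lit 5) (nat_lit 258) (nat_lit 5) (nat_lit 327) (nat_lit 324) (nat_lit 294)))) (XT.nd (nat_lit 188) (nat_lit 756) (nat_lit 0) (XT.nd (nat_lit 94) (nat_lit 0) (nat_lit 0) (XT.lf (nat_lit 84) (nat_lit 497250737) (nat_lit 0) (nat_lit 3606341613) (nat_lit 756) (nat_lit 2877859900) (nat_lit 250) (nat_lit 5) (nat_lit 249) (nat_lit 5) (nat_lit 258) (nat_lit 5) (nat_lit 328) (nat_lit 324) (nat_lit 293)) (XT.lf (nat_lit 84) (nat_lit 3798780800) (nat_lit 0) (nat_lit 2157686219) (nat_lit 756) (nat_lit 1077936796) (nat_lit 250) (nat_lit 5) (nat_lit 249) (nat_lit 5) (nat_lit 258) (nat_lit 5) (nat_lit 329) (nat_lit 324) (nat_lit 292))) (XT.nd (nat_lit 94) (nat_lit 0) (nat_lit 84) (XT.lf (nat_lit 84) (nat_lit 65081823) (nat_lit 0) (nat_lit 629697984) (nat_lit 840) (nat_lit 6396082793) (nat_lit 241) (nat_lit 5) (nat_lit 240) (nat_lit 5) (nat_lit 250) (nat_lit 5) (nat_lit 330) (nat_lit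 324) (nat_lit 291)) (XT.lf (nat_lit 0) (nat_lit 2476220571) (nat_lit 756) (nat_lit 3678092578) (nat_lit 840) (nat_lit 995221488) (nat_lit 241) (nat_lit 5) (nat_lit 250) (nat_lit 5) (nat_lit 251) (nat_lit 5) (nat_lit 331) (nat_lit 324) (nat_lit 290))))) (XT.nd (nat_lit 282) (nat_lit 0) (nat_lit 84) (XT.nd (nat_lit 94) (nat_lit 840) (nat_lit 0) (XT.lf (nat_lit 0) (nat_lit 4254364066) (nat_lit 756) (nat_lit 276131520) (nat_lit 840) (nat_lit 2681324835) (nat_lit 241) (nat_lit 5) (nat_lit 250) (nat_lit 5) (nat_lit 251) (nat_lit 5) (nat_lit 332) (nat_lit 324) (nat_lit 289)) (XT.nd (nat_lit 94) (nat_lit 840) (nat_lit 0) (XT.lf (nat_lit 84) (nat_lit 3252597927) (nat_lit 0) (nat_lit 2803379001) (nat_lit 840) (nat_lit 1221041062) (nat_lit 242) (nat_lit 5) (nat_lit 241) (nat_lit 5) (nat_lit 251) (nat_lit 5) (nat_lit 333) (nat_lit 324) (nat_lit 288)) (XT.lf (nat_lit 0) (nat_lit 498749062) (nat_lit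 840) (nat_lit 496442738) (nat_lit 924) (nat_lit 6350683896) (nat_lit 231) (nat_lit 5) (nat_lit 241) (nat_lit 5) (nat_lit 242) (nat_lit 5) (nat_lit 334) (nat_lit 324) (nat_lit 287)))) (XT.nd (nat_lit 188) (nat_lit 0) (nat_lit 0) (XT.nd (nat_lit 94) (nat_lit 0) (nat_lit 0) (XT.lf (nat_lit 0) (nat_lit 2226103115) (nat_lit 840) (nat_lit 4278222407) (nat_lit 924) (nat_lit 912830058) (nat_lit 232) (nat_lit 5) (nat_lit 242) (nat_lit 5) (nat_lit 243) (nat_lit 5) (nat_lit 335) (nat_lit 324) (nat_lit 286)) (XT.lf (nat_lit 0) (nat_lit 3963021464) (nat_lit 840) (nat_lit 647002179) (nat_lit 924) (nat_lit 2881948482) (nat_lit 232) (nat_lit 5) (nat_lit 242) (nat_lit 5) (nat_lit 243) (nat_lit 5) (nat_lit 336) (nat_lit 324) (nat_lit 285))) (XT.nd (nat_lit 94) (nat_lit 0) (nat_lit 0) (XT.lf (nat_lit 84) (nat_lit 3114886193) (nat_lit 0) (nat_lit 2611596134) (nat_lit 924) (nat_lit 1843444561) (nat_lit 233)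 (nat_lit 5) (nat_lit 232) (nat_lit 5) (nat_lit 243) (nat_lit 5) (nat_lit 337) (nat_lit 324) (nat_lit 284)) (XT.lf (nat_lit 84) (nat_lit 6964225871) (nat_lit 0) (nat_lit 530892385) (nat_lit 924) (nat_lit 156656980) (nat_lit 233) (nat_lit 5) (nat_lit 232) (nat_lit 5) (nat_lit 243) (nat_lit 5) (nat_lit 338) (nat_lit 324) (nat_lit 283)))))) (XT.nd (nat_lit 658) (nat_lit 3696) (nat_lit 0) (XT.nd (nat_lit 282) (nat_lit 2184) (nat_lit 0) (XT.nd (nat_lit 94) (nat_lit 924) (nat_lit 0) (XT.lf (nat_lit 0) (nat_lit 1543436178) (nat_lit 924) (nat_lit 4550983008) (nat_lit 84) (nat_lit 1641513579) (nat_lit 222) (nat_lit 5) (nat_lit 233) (nat_lit 5) (nat_lit 223) (nat_lit 5) (nat_lit 339) (nat_lit 324) (nat_lit 282)) (XT.nd (nat_lit 94) (nat_lit 924) (nat_lit 0) (XT.lf (nat_lit 0) (nat_lit 3251648061) (nat_lit 924) (nat_lit 681713880) (nat_lit 84) (nat_lit 3890511245) (nat_lit 222) (nat_lit 5) (nat_lit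 233) (nat_lit 5) (nat_lit 223) (nat_lit 5) (nat_lit 340) (nat_lit 324) (nat_lit 281)) (XT.lf (nat_lit 0) (nat_lit 3329626791) (nat_lit 924) (nat_lit 1662997158) (nat_lit 1008) (nat_lit 2922491695) (nat_lit 211) (nat_lit 5) (nat_lit 222) (nat_lit 5) (nat_lit 223) (nat_lit 5) (nat_lit 341) (nat_lit 324) (nat_lit 280)))) (XT.nd (nat_lit 188) (nat_lit 1092) (nat_lit 0) (XT.nd (nat_lit 94) (nat_lit 1092) (nat_lit 0) (XT.lf (nat_lit 0) (nat_lit 6749988860) (nat_lit 1008) (nat_lit 580456953) (nat_lit 84) (nat_lit 679830938) (nat_lit 211) (nat_lit 5) (nat_lit 223) (nat_lit 5) (nat_lit 212) (nat_lit 5) (nat_lit 342) (nat_lit 324) (nat_lit 279)) (XT.lf (nat_lit 0) (nat_lit 445715637) (nat_lit 1092) (nat_lit 4554094945) (nat_lit 84) (nat_lit 3108369415) (nat_lit 198) (nat_lit 5) (nat_lit 211) (nat_lit 5) (nat_lit 199) (nat_lit 5) (nat_lit 343) (nat_lit 324) (nat_lit 278))) (XT.nd (nat_lit 94) (nat_lit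 1092) (nat_lit 0) (XT.lf (nat_lit 0) (nat_lit 2136097848) (nat_lit 1092) (nat_lit 436590856) (nat_lit 84) (nat_lit 5637298578) (nat_lit 198) (nat_lit 5) (nat_lit 211) (nat_lit 5) (nat_lit 199) (nat_lit 5) (nat_lit 344) (nat_lit 324) (nat_lit 277)) (XT.lf (nat_lit 0) (nat_lit 3840771718) (nat_lit 1092) (nat_lit 27329561) (nat_lit 1176) (nat_lit 4447114545) (nat_lit 185) (nat_lit 5) (nat_lit 198) (nat_lit 5) (nat_lit 199) (nat_lit 5) (nat_lit 345) (nat_lit 324) (nat_lit 276))))) (XT.nd (nat_lit 282) (nat_lit 1176) (nat_lit 0) (XT.nd (nat_lit 94) (nat_lit 2520) (nat_lit 0) (XT.lf (nat_lit 0) (nat_lit 5636483894) (nat_lit 1176) (nat_lit 232790078) (nat_lit 84) (nat_lit 2554886259) (nat_lit 185) (nat_lit 5) (nat_lit 199) (nat_lit 5) (nat_lit 186) (nat_lit 5) (nat_lit 346) (nat_lit 324) (nat_lit 275)) (XT.nd (nat_lit 94) (nat_lit 1344) (nat_lit 0) (XT.lf (nat_lit 0) (nat_lit 4178800554) (nat_lit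 1176) (nat_lit 3275894929) (nat_lit 1260) (nat_lit 1081863077) (nat_lit 171) (nat_lit 5) (nat_lit 185) (nat_lit 5) (nat_lit 186) (nat_lit 5) (nat_lit 347) (nat_lit 324) (nat_lit 274)) (XT.lf (nat_lit 0) (nat_lit 30175942) (nat_lit 1260) (nat_lit 591172769) (nat_lit 1344) (nat_lit 8032087300) (nat_lit 155) (nat_lit 5) (nat_lit 170) (nat_lit 5) (nat_lit 171) (nat_lit 5) (nat_lit 348) (nat_lit 324) (nat_lit 273)))) (XT.nd (nat_lit 188) (nat_lit 588) (nat_lit 0) (XT.nd (nat_lit 94) (nat_lit 588) (nat_lit 0) (XT.lf (nat_lit 0) (nat_lit 2376908052) (nat_lit 1344) (nat_lit 4205623905) (nat_lit 84) (nat_lit 2190357986) (nat_lit 155) (nat_lit 5) (nat_lit 171) (nat_lit 5) (nat_lit 156) (nat_lit 5) (nat_lit 349) (nat_lit 324) (nat_lit 272)) (XT.lf (nat_lit 0) (nat_lit 305666354) (nat_lit 588) (nat_lit 3847148952) (nat_lit 672) (nat_lit 4744160752) (nat_lit 148) (nat_lit 5) (nat_lit 155) (nat_lit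 5) (nat_lit 156) (nat_lit 5) (nat_lit 350) (nat_lit 324) (nat_lit 271))) (XT.nd (nat_lit 94) (nat_lit 588) (nat_lit 0) (XT.lf (nat_lit 0) (nat_lit 4999902262) (nat_lit 588) (nat_lit 984282058) (nat_lit 672) (nat_lit 3040611599) (nat_lit 148) (nat_lit 5) (nat_lit 155) (nat_lit 5) (nat_lit 156) (nat_lit 5) (nat_lit 351) (nat_lit 324) (nat_lit 270)) (XT.lf (nat_lit 0) (nat_lit 633244767) (nat_lit 588) (nat_lit 7223125453) (nat_lit 672) (nat_lit 1300578345) (nat_lit 141) (nat_lit 5) (nat_lit 148) (nat_lit 5) (nat_lit 149) (nat_lit 5) (nat_lit 352) (nat_lit 324) (nat_lit 269))))))) (XT.nd (nat_lit 1316) (nat_lit 2688) (nat_lit 0) (XT.nd (nat_lit 658) (nat_lit 1932) (nat_lit 0) (XT.nd (nat_lit 282) (nat_lit 1176) (nat_lit 0) (XT.nd (nat_lit 94) (nat_lit 588) (nat_lit 0) (XT.lf (nat_lit 0) (nat_lit 494077800) (nat_lit 672) (nat_lit 3832291996) (nat_lit 84) (nat_lit 4966263927) (nat_lit 140) (nat_lit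 5) (nat_lit 148) (nat_lit 5) (nat_lit 141) (nat_lit 5) (nat_lit 353) (nat_lit 324) (nat_lit 268)) (XT.nd (nat_lit 94) (nat_lit 0) (nat_lit 0) (XT.lf (nat_lit 0) (nat_lit 967807097) (nat_lit 588) (nat_lit 1320283290) (nat_lit 672) (nat_lit 7144831169) (nat_lit 133) (nat_lit 5) (nat_lit 140) (nat_lit 5) (nat_lit 141) (nat_lit 5) (nat_lit 354) (nat_lit 324) (nat_lit 267)) (XT.lf (nat_lit 0) (nat_lit 4155157650) (nat_lit 672) (nat_lit 3642101005) (nat_lit 84) (nat_lit 1779648503) (nat_lit 133) (nat_lit 5) (nat_lit 141) (nat_lit 5) (nat_lit 134) (nat_lit 5) (nat_lit 355) (nat_lit 324) (nat_lit 266)))) (XT.nd (nat_lit 188) (nat_lit 588) (nat_lit 0) (XT.nd (nat_lit 94) (nat_lit 0) (nat_lit 0) (XT.lf (nat_lit 0) (nat_lit 1300177305) (nat_lit 588) (nat_lit 4767785801) (nat_lit 672) (nat_lit 3657621670) (nat_lit 126) (nat_lit 5) (nat_lit 133) (nat_lit 5) (nat_lit 134) (nat_lit 5) (nat_lit 356) (nat_lit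 324) (nat_lit 265)) (XT.lf (nat_lit 0) (nat_lit 6428028738) (nat_lit 588) (nat_lit 1611742957) (nat_lit 672) (nat_lit 1838964822) (nat_lit 126) (nat_lit 5) (nat_lit 133) (nat_lit 5) (nat_lit 134) (nat_lit 5) (nat_lit 357) (nat_lit 324) (nat_lit 264))) (XT.nd (nat_lit 94) (nat_lit 0) (nat_lit 0) (XT.lf (nat_lit 0) (nat_lit 30982208) (nat_lit 588) (nat_lit 8384531324) (nat_lit 84) (nat_lit 1621096217) (nat_lit 119) (nat_lit 5) (nat_lit 126) (nat_lit 5) (nat_lit 120) (nat_lit 5) (nat_lit 358) (nat_lit 324) (nat_lit 263)) (XT.lf (nat_lit 0) (nat_lit 1937308980) (nat_lit 588) (nat_lit 3291696604) (nat_lit 84) (nat_lit 4969207157) (nat_lit 119) (nat_lit 5) (nat_lit 126) (nat_lit 5) (nat_lit 120) (nat_lit 5) (nat_lit 359) (nat_lit 324) (nat_lit 262))))) (XT.nd (nat_lit 282) (nat_lit 1008) (nat_lit 0) (XT.nd (nat_lit 94) (nat_lit 420) (nat_lit 0) (XT.lf (nat_lit 0) (nat_lit 1955482931) (nat_lit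 504) (nat_lit 1931221928) (nat_lit 588) (nat_lit 6478437994) (nat_lit 113) (nat_lit 5) (nat_lit 119) (nat_lit 5) (nat_lit 120) (nat_lit 5) (nat_lit 360) (nat_lit 324) (nat_lit 261)) (XT.nd (nat_lit 94) (nat_lit 420) (nat_lit 0) (XT.lf (nat_lit 0) (nat_lit 5909893260) (nat_lit 588) (nat_lit 3160170766) (nat_lit 84) (nat_lit 1466611317) (nat_lit 113) (nat_lit 5) (nat_lit 120) (nat_lit 5) (nat_lit 114) (nat_lit 5) (nat_lit 361) (nat_lit 324) (nat_lit 260)) (XT.lf (nat_lit 0) (nat_lit 2235157097) (nat_lit 420) (nat_lit 5767823641) (nat_lit 504) (nat_lit 2710149195) (nat_lit 108) (nat_lit 5) (nat_lit 113) (nat_lit 5) (nat_lit 114) (nat_lit 5) (nat_lit 362) (nat_lit 324) (nat_lit 259)))) (XT.nd (nat_lit 188) (nat_lit 420) (nat_lit 0) (XT.nd (nat_lit 94) (nat_lit 588) (nat_lit 0) (XT.lf (nat_lit 0) (nat_lit 7821338599) (nat_lit 420) (nat_lit 2338601147) (nat_lit 504) (nat_lit 734956755) (nat_lit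 108) (nat_lit 5) (nat_lit 113) (nat_lit 5) (nat_lit 114) (nat_lit 5) (nat_lit 363) (nat_lit 324) (nat_lit 258)) (XT.lf (nat_lit 0) (nat_lit 1279610543) (nat_lit 588) (nat_lit 8599997191) (nat_lit 84) (nat_lit 1202017077) (nat_lit 101) (nat_lit 5) (nat_lit 108) (nat_lit 5) (nat_lit 102) (nat_lit 5) (nat_lit 364) (nat_lit 324) (nat_lit 257))) (XT.nd (nat_lit 94) (nat_lit 420) (nat_lit 0) (XT.lf (nat_lit 0) (nat_lit 3364556333) (nat_lit 588) (nat_lit 3073223825) (nat_lit 84) (nat_lit 4835261510) (nat_lit 101) (nat_lit 5) (nat_lit 108) (nat_lit 5) (nat_lit 102) (nat_lit 5) (nat_lit 365) (nat_lit 324) (nat_lit 256)) (XT.lf (nat_lit 0) (nat_lit 2635900269) (nat_lit 420) (nat_lit 2872570353) (nat_lit 504) (nat_lit 5961882859) (nat_lit 96) (nat_lit 5) (nat_lit 101) (nat_lit 5) (nat_lit 102) (nat_lit 5) (nat_lit 366) (nat_lit 324) (nat_lit 255)))))) (XT.nd (nat_lit 658) (nat_lit 1428) (nat_lit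 0) (XT.nd (nat_lit 282) (nat_lit 756) (nat_lit 0) (XT.nd (nat_lit 94) (nat_lit 504) (nat_lit 0) (XT.lf (nat_lit 0) (nat_lit 7727262754) (nat_lit 504) (nat_lit 3136734243) (nat_lit 84) (nat_lit 809314578) (nat_lit 96) (nat_lit 5) (nat_lit 102) (nat_lit 5) (nat_lit 97) (nat_lit 5) (nat_lit 367) (nat_lit 324) (nat_lit 254)) (XT.nd (nat_lit 94) (nat_lit 84) (nat_lit 0) (XT.lf (nat_lit 0) (nat_lit 2722243056) (nat_lit 420) (nat_lit 7317347287) (nat_lit 504) (nat_lit 1842001385) (nat_lit 91) (nat_lit 5) (nat_lit 96) (nat_lit 5) (nat_lit 97) (nat_lit 5) (nat_lit 368) (nat_lit 324) (nat_lit 253)) (XT.lf (nat_lit 0) (nat_lit 323341963) (nat_lit 504) (nat_lit 3311922343) (nat_lit 84) (nat_lit 8460666646) (nat_lit 90) (nat_lit 5) (nat_lit 96) (nat_lit 5) (nat_lit 91) (nat_lit 5) (nat_lit 369) (nat_lit 324) (nat_lit 252)))) (XT.nd (nat_lit 188) (nat_lit 420) (nat_lit 0) (XT.nd (nat_lit 94) (nat_lit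 0) (nat_lit 0) (XT.lf (nat_lit 0) (nat_lit 2517908013) (nat_lit 420) (nat_lit 9606078514) (nat_lit 84) (nat_lit 192167015) (nat_lit 86) (nat_lit 5) (nat_lit 91) (nat_lit 5) (nat_lit 87) (nat_lit 5) (nat_lit 370) (nat_lit 324) (nat_lit 251)) (XT.lf (nat_lit 0) (nat_lit 4821799259) (nat_lit 420) (nat_lit 3631701563) (nat_lit 84) (nat_lit 4088215072) (nat_lit 86) (nat_lit 5) (nat_lit 91) (nat_lit 5) (nat_lit 87) (nat_lit 5) (nat_lit 371) (nat_lit 324) (nat_lit 250))) (XT.nd (nat_lit 94) (nat_lit 0) (nat_lit 0) (XT.lf (nat_lit 0) (nat_lit 2538409421) (nat_lit 420) (nat_lit 4655284437) (nat_lit 504) (nat_lit 5580421290) (nat_lit 81) (nat_lit 5) (nat_lit 86) (nat_lit 5) (nat_lit 87) (nat_lit 5) (nat_lit 372) (nat_lit 324) (nat_lit 249)) (XT.lf (nat_lit 0) (nat_lit 8935363103) (nat_lit 420) (nat_lit 712969862) (nat_lit 504) (nat_lit 3364841351) (nat_lit 81) (nat_lit 5) (nat_lit 86) (nat_lit 5)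 (nat_lit 87) (nat_lit 5) (nat_lit 373) (nat_lit 324) (nat_lit 248))))) (XT.nd (nat_lit 282) (nat_lit 672) (nat_lit 0) (XT.nd (nat_lit 94) (nat_lit 420) (nat_lit 0) (XT.lf (nat_lit 0) (nat_lit 2243980596) (nat_lit 336) (nat_lit 9961954595) (nat_lit 420) (nat_lit 1052624878) (nat_lit 77) (nat_lit 5) (nat_lit 81) (nat_lit 5) (nat_lit 82) (nat_lit 5) (nat_lit 374) (nat_lit 324) (nat_lit 247)) (XT.nd (nat_lit 94) (nat_lit 336) (nat_lit 0) (XT.lf (nat_lit 0) (nat_lit 1327376008) (nat_lit 420) (nat_lit 4723942624) (nat_lit 84) (nat_lit 7458907548) (nat_lit 76) (nat_lit 5) (nat_lit 81) (nat_lit 5) (nat_lit 77) (nat_lit 5) (nat_lit 375) (nat_lit 324) (nat_lit 246)) (XT.lf (nat_lit 0) (nat_lit 1747393822) (nat_lit 336) (nat_lit 2003436964) (nat_lit 420) (nat_lit 10018534107) (nat_lit 72) (nat_lit 5) (nat_lit 76) (nat_lit 5) (nat_lit 77) (nat_lit 5) (nat_lit 376) (nat_lit 324) (nat_lit 245)))) (XT.nd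 (nat_lit 188) (nat_lit 336) (nat_lit 0) (XT.nd (nat_lit 94) (nat_lit 336) (nat_lit 0) (XT.lf (nat_lit 0) (nat_lit 6292704037) (nat_lit 420) (nat_lit 5578464950) (nat_lit 84) (nat_lit 2163768014) (nat_lit 72) (nat_lit 5) (nat_lit 77) (nat_lit 5) (nat_lit 73) (nat_lit 5) (nat_lit 377) (nat_lit 324) (nat_lit 244)) (XT.lf (nat_lit 0) (nat_lit 1027460046) (nat_lit 336) (nat_lit 7890484269) (nat_lit 420) (nat_lit 5390348417) (nat_lit 68) (nat_lit 5) (nat_lit 72) (nat_lit 5) (nat_lit 73) (nat_lit 5) (nat_lit 378) (nat_lit 324) (nat_lit 243))) (XT.nd (nat_lit 94) (nat_lit 336) (nat_lit 0) (XT.lf (nat_lit 0) (nat_lit 7915121012) (nat_lit 336) (nat_lit 3740912879) (nat_lit 420) (nat_lit 2932821399) (nat_lit 68) (nat_lit 5) (nat_lit 72) (nat_lit 5) (nat_lit 73) (nat_lit 5) (nat_lit 379) (nat_lit 324) (nat_lit 242)) (XT.lf (nat_lit 0) (nat_lit 97868025) (nat_lit 336) (nat_lit 14362792257) (nat_lit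 420) (nat_lit 417670694) (nat_lit 64) (nat_lit 5) (nat_lit 68) (nat_lit 5) (nat_lit 69) (nat_lit 5) (nat_lit 380) (nat_lit 324) (nat_lit 241))))))))
noncomputable def xc108 : XT := (XT.nd (nat_lit 2538) (nat_lit 1344) (nat_lit 0) (XT.nd (nat_lit 1222) (nat_lit 1344) (nat_lit 0) (XT.nd (nat_lit 564) (nat_lit 924) (nat_lit 0) (XT.nd (nat_lit 282) (nat_lit 336) (nat_lit 0) (XT.nd (nat_lit 94) (nat_lit 252) (nat_lit 0) (XT.lf (nat_lit 0) (nat_lit 2214061845) (nat_lit 420) (nat_lit 8054289985) (nat_lit 84) (nat_lit 4905033066) (nat_lit 63) (nat_lit 5) (nat_lit 68) (nat_lit 5) (nat_lit 64) (nat_lit 5) (nat_lit 381) (nat_lit 324) (nat_lit 240)) (XT.nd (nat_lit 94) (nat_lit 252) (nat_lit 0) (XT.lf (nat_lit 0) (nat_lit 4895411281) (nat_lit 420) (nat_lit 1160225096) (nat_lit 84) (nat_lit 9422183899) (nat_lit 63) (nat_lit 5) (nat_lit 68) (nat_lit 5) (nat_lit 64) (nat_lit 5) (nat_lit 382) (nat_lit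 324) (nat_lit 239)) (XT.lf (nat_lit 0) (nat_lit 6029426389) (nat_lit 252) (nat_lit 1665402944) (nat_lit 336) (nat_lit 8095455484) (nat_lit 60) (nat_lit 5) (nat_lit 63) (nat_lit 5) (nat_lit 64) (nat_lit 5) (nat_lit 383) (nat_lit 324) (nat_lit 238)))) (XT.nd (nat_lit 94) (nat_lit 336) (nat_lit 0) (XT.lf (nat_lit 0) (nat_lit 10597424844) (nat_lit 336) (nat_lit 2709945632) (nat_lit 84) (nat_lit 2804201188) (nat_lit 60) (nat_lit 5) (nat_lit 64) (nat_lit 5) (nat_lit 61) (nat_lit 5) (nat_lit 384) (nat_lit 324) (nat_lit 237)) (XT.nd (nat_lit 94) (nat_lit 0) (nat_lit 0) (XT.lf (nat_lit 0) (nat_lit 4597416667) (nat_lit 336) (nat_lit 9030853321) (nat_lit 420) (nat_lit 2813015489) (nat_lit 56) (nat_lit 5) (nat_lit 60) (nat_lit 5) (nat_lit 61) (nat_lit 5) (nat_lit 385) (nat_lit 324) (nat_lit 236)) (XT.lf (nat_lit 0) (nat_lit 12151527623) (nat_lit 336) (nat_lit 4606666339) (nat_lit 420) (nat_lit 22474965)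 (nat_lit 56) (nat_lit 5) (nat_lit 60) (nat_lit 5) (nat_lit 61) (nat_lit 5) (nat_lit 386) (nat_lit 324) (nat_lit 235))))) (XT.nd (nat_lit 282) (nat_lit 336) (nat_lit 0) (XT.nd (nat_lit 94) (nat_lit 252) (nat_lit 0) (XT.lf (nat_lit 0) (nat_lit 2801681796) (nat_lit 252) (nat_lit 2524420) (nat_lit 336) (nat_lit 14324984600) (nat_lit 52) (nat_lit 5) (nat_lit 55) (nat_lit 5) (nat_lit 56) (nat_lit 5) (nat_lit 387) (nat_lit 324) (nat_lit 234)) (XT.nd (nat_lit 94) (nat_lit 252) (nat_lit 0) (XT.lf (nat_lit 0) (nat_lit 5789349289) (nat_lit 336) (nat_lit 7010517467) (nat_lit 84) (nat_lit 4686092425) (nat_lit 52) (nat_lit 5) (nat_lit 56) (nat_lit 5) (nat_lit 53) (nat_lit 5) (nat_lit 388) (nat_lit 324) (nat_lit 233)) (XT.lf (nat_lit 0) (nat_lit 508872003) (nat_lit 252) (nat_lit 8341978427) (nat_lit 336) (nat_lit 9002996338) (nat_lit 49) (nat_lit 5) (nat_lit 52) (nat_lit 5) (nat_lit 53) (nat_lit 5) (nat_lit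 389) (nat_lit 324) (nat_lit 232)))) (XT.nd (nat_lit 188) (nat_lit 336) (nat_lit 0) (XT.nd (nat_lit 94) (nat_lit 0) (nat_lit 0) (XT.lf (nat_lit 0) (nat_lit 8370800002) (nat_lit 252) (nat_lit 3686346676) (nat_lit 336) (nat_lit 6174055492) (nat_lit 49) (nat_lit 5) (nat_lit 52) (nat_lit 5) (nat_lit 53) (nat_lit 5) (nat_lit 390) (nat_lit 324) (nat_lit 231)) (XT.lf (nat_lit 0) (nat_lit 15352885885) (nat_lit 336) (nat_lit 2188380697) (nat_lit 84) (nat_lit 1078833146) (nat_lit 49) (nat_lit 5) (nat_lit 53) (nat_lit 5) (nat_lit 50) (nat_lit 5) (nat_lit 391) (nat_lit 324) (nat_lit 230))) (XT.nd (nat_lit 94) (nat_lit 84) (nat_lit 0) (XT.lf (nat_lit 0) (nat_lit 5764123137) (nat_lit 252) (nat_lit 13058381985) (nat_lit 336) (nat_lit 195927419) (nat_lit 46) (nat_lit 5) (nat_lit 49) (nat_lit 5) (nat_lit 50) (nat_lit 5) (nat_lit 392) (nat_lit 324) (nat_lit 229)) (XT.lf (nat_lit 0) (nat_lit 2915074718) (nat_lit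 336) (nat_lit 5482494401) (nat_lit 84) (nat_lit 11030143440) (nat_lit 45) (nat_lit 5) (nat_lit 49) (nat_lit 5) (nat_lit 46) (nat_lit 5) (nat_lit 393) (nat_lit 324) (nat_lit 228)))))) (XT.nd (nat_lit 658) (nat_lit 588) (nat_lit 0) (XT.nd (nat_lit 282) (nat_lit 504) (nat_lit 0) (XT.nd (nat_lit 94) (nat_lit 0) (nat_lit 0) (XT.lf (nat_lit 0) (nat_lit 2545191752) (nat_lit 252) (nat_lit 3578399994) (nat_lit 336) (nat_lit 13725394340) (nat_lit 42) (nat_lit 5) (nat_lit 45) (nat_lit 5) (nat_lit 46) (nat_lit 5) (nat_lit 394) (nat_lit 324) (nat_lit 227)) (XT.nd (nat_lit 94) (nat_lit 0) (nat_lit 0) (XT.lf (nat_lit 0) (nat_lit 9481403213) (nat_lit 336) (nat_lit 9394188120) (nat_lit 84) (nat_lit 1405731809) (nat_lit 42) (nat_lit 5) (nat_lit 46) (nat_lit 5) (nat_lit 43) (nat_lit 5) (nat_lit 395) (nat_lit 324) (nat_lit 226)) (XT.lf (nat_lit 0) (nat_lit 12959661799) (nat_lit 336) (nat_lit 1307170515) (nat_lit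 84) (nat_lit 6459222622) (nat_lit 42) (nat_lit 5) (nat_lit 46) (nat_lit 5) (nat_lit 43) (nat_lit 5) (nat_lit 396) (nat_lit 324) (nat_lit 225)))) (XT.nd (nat_lit 188) (nat_lit 336) (nat_lit 0) (XT.nd (nat_lit 94) (nat_lit 0) (nat_lit 0) (XT.lf (nat_lit 0) (nat_lit 7138010877) (nat_lit 168) (nat_lit 9457613040) (nat_lit 252) (nat_lit 4586919639) (nat_lit 40) (nat_lit 5) (nat_lit 42) (nat_lit 5) (nat_lit 43) (nat_lit 5) (nat_lit 397) (nat_lit 324) (nat_lit 224)) (XT.lf (nat_lit 0) (nat_lit 15839841079) (nat_lit 168) (nat_lit 4498983048) (nat_lit 252) (nat_lit 1313973021) (nat_lit 40) (nat_lit 5) (nat_lit 42) (nat_lit 5) (nat_lit 43) (nat_lit 5) (nat_lit 398) (nat_lit 324) (nat_lit 223))) (XT.nd (nat_lit 94) (nat_lit 0) (nat_lit 0) (XT.lf (nat_lit 0) (nat_lit 2034188613) (nat_lit 336) (nat_lit 19467605600) (nat_lit 84) (nat_lit 634270043) (nat_lit 36) (nat_lit 5) (nat_lit 40) (nat_lit 5) (nat_lit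 37) (nat_lit 5) (nat_lit 399) (nat_lit 324) (nat_lit 222)) (XT.lf (nat_lit 0) (nat_lit 5545578653) (nat_lit 336) (nat_lit 11189997088) (nat_lit 84) (nat_lit 5895201364) (nat_lit 36) (nat_lit 5) (nat_lit 40) (nat_lit 5) (nat_lit 37) (nat_lit 5) (nat_lit 400) (nat_lit 324) (nat_lit 221))))) (XT.nd (nat_lit 282) (nat_lit 420) (nat_lit 0) (XT.nd (nat_lit 94) (nat_lit 168) (nat_lit 0) (XT.lf (nat_lit 0) (nat_lit 9148104654) (nat_lit 336) (nat_lit 2686651793) (nat_lit 84) (nat_lit 11306014474) (nat_lit 36) (nat_lit 5) (nat_lit 40) (nat_lit 5) (nat_lit 37) (nat_lit 5) (nat_lit 401) (nat_lit 324) (nat_lit 220)) (XT.nd (nat_lit 94) (nat_lit 0) (nat_lit 0) (XT.lf (nat_lit 0) (nat_lit 6170264475) (nat_lit 168) (nat_lit 6733962334) (nat_lit 252) (nat_lit 10760485149) (nat_lit 34) (nat_lit 5) (nat_lit 36) (nat_lit 5) (nat_lit 37) (nat_lit 5) (nat_lit 402) (nat_lit 324) (nat_lit 219)) (XT.lf (nat_lit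 0) (nat_lit 15326243526) (nat_lit 168) (nat_lit 1460319974) (nat_lit 252) (nat_lit 7417414440) (nat_lit 34) (nat_lit 5) (nat_lit 36) (nat_lit 5) (nat_lit 37) (nat_lit 5) (nat_lit 403) (nat_lit 324) (nat_lit 218)))) (XT.nd (nat_lit 188) (nat_lit 252) (nat_lit 0) (XT.nd (nat_lit 94) (nat_lit 168) (nat_lit 0) (XT.lf (nat_lit 0) (nat_lit 20810268352) (nat_lit 252) (nat_lit 62115189) (nat_lit 84) (nat_lit 3886303690) (nat_lit 34) (nat_lit 5) (nat_lit 37) (nat_lit 5) (nat_lit 35) (nat_lit 5) (nat_lit 404) (nat_lit 324) (nat_lit 217)) (XT.lf (nat_lit 0) (nat_lit 9161493123) (nat_lit 168) (nat_lit 15882823743) (nat_lit 252) (nat_lit 283043870) (nat_lit 32) (nat_lit 5) (nat_lit 34) (nat_lit 5) (nat_lit 35) (nat_lit 5) (nat_lit 405) (nat_lit 324) (nat_lit 216))) (XT.nd (nat_lit 94) (nat_lit 168) (nat_lit 0) (XT.lf (nat_lit 0) (nat_lit 3411927001) (nat_lit 252) (nat_lit 7304426646) (nat_lit 84) (nat_lit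 15196111476) (nat_lit 31) (nat_lit 5) (nat_lit 34) (nat_lit 5) (nat_lit 32) (nat_lit 5) (nat_lit 406) (nat_lit 324) (nat_lit 215)) (XT.lf (nat_lit 0) (nat_lit 1835624551) (nat_lit 168) (nat_lit 5381601378) (nat_lit 252) (nat_lit 19297668506) (nat_lit 29) (nat_lit 5) (nat_lit 31) (nat_lit 5) (nat_lit 32) (nat_lit 5) (nat_lit 407) (nat_lit 324) (nat_lit 214))))))) (XT.nd (nat_lit 1316) (nat_lit 588) (nat_lit 0) (XT.nd (nat_lit 658) (nat_lit 336) (nat_lit 0) (XT.nd (nat_lit 282) (nat_lit 252) (nat_lit 0) (XT.nd (nat_lit 94) (nat_lit 168) (nat_lit 0) (XT.lf (nat_lit 0) (nat_lit 11199881500) (nat_lit 252) (nat_lit 15755748367) (nat_lit 84) (nat_lit 177881415) (nat_lit 29) (nat_lit 5) (nat_lit 32) (nat_lit 5) (nat_lit 30) (nat_lit 5) (nat_lit 408) (nat_lit 324) (nat_lit 213)) (XT.nd (nat_lit 94) (nat_lit 168) (nat_lit 0) (XT.lf (nat_lit 0) (nat_lit 15343279436) (nat_lit 252) (nat_lit 6637568496)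 (nat_lit 84) (nat_lit 5788611097) (nat_lit 29) (nat_lit 5) (nat_lit 32) (nat_lit 5) (nat_lit 30) (nat_lit 5) (nat_lit 409) (nat_lit 324) (nat_lit 212)) (XT.lf (nat_lit 0) (nat_lit 2789399544) (nat_lit 168) (nat_lit 16836722809) (nat_lit 252) (nat_lit 8797918543) (nat_lit 27) (nat_lit 5) (nat_lit 29) (nat_lit 5) (nat_lit 30) (nat_lit 5) (nat_lit 410) (nat_lit 324) (nat_lit 211)))) (XT.nd (nat_lit 188) (nat_lit 252) (nat_lit 0) (XT.nd (nat_lit 94) (nat_lit 0) (nat_lit 0) (XT.lf (nat_lit 0) (nat_lit 12616239938) (nat_lit 168) (nat_lit 11476723946) (nat_lit 252) (nat_lit 5003640621) (nat_lit 27) (nat_lit 5) (nat_lit 29) (nat_lit 5) (nat_lit 30) (nat_lit 5) (nat_lit 411) (nat_lit 324) (nat_lit 210)) (XT.lf (nat_lit 0) (nat_lit 22719438617) (nat_lit 168) (nat_lit 5963194277) (nat_lit 252) (nat_lit 1107056868) (nat_lit 27) (nat_lit 5) (nat_lit 29) (nat_lit 5) (nat_lit 30) (nat_lit 5) (nat_lit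 412) (nat_lit 324) (nat_lit 209))) (XT.nd (nat_lit 94) (nat_lit 0) (nat_lit 0) (XT.lf (nat_lit 0) (nat_lit 2627359803) (nat_lit 168) (nat_lit 236636972) (nat_lit 252) (nat_lit 27638312899) (nat_lit 24) (nat_lit 5) (nat_lit 26) (nat_lit 5) (nat_lit 27) (nat_lit 5) (nat_lit 413) (nat_lit 324) (nat_lit 208)) (XT.lf (nat_lit 0) (nat_lit 7047567363) (nat_lit 252) (nat_lit 18557649391) (nat_lit 84) (nat_lit 5627302125) (nat_lit 24) (nat_lit 5) (nat_lit 27) (nat_lit 5) (nat_lit 25) (nat_lit 5) (nat_lit 414) (nat_lit 324) (nat_lit 207))))) (XT.nd (nat_lit 282) (nat_lit 168) (nat_lit 0) (XT.nd (nat_lit 94) (nat_lit 168) (nat_lit 0) (XT.lf (nat_lit 0) (nat_lit 11348414836) (nat_lit 252) (nat_lit 8980865691) (nat_lit 84) (nat_lit 11655609097) (nat_lit 24) (nat_lit 5) (nat_lit 27) (nat_lit 5) (nat_lit 25) (nat_lit 5) (nat_lit 415) (nat_lit 324) (nat_lit 206)) (XT.nd (nat_lit 94) (nat_lit 0) (nat_lit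 0) (XT.lf (nat_lit 0) (nat_lit 883279964) (nat_lit 168) (nat_lit 14893233179) (nat_lit 252) (nat_lit 16983379698) (nat_lit 22) (nat_lit 5) (nat_lit 24) (nat_lit 5) (nat_lit 25) (nat_lit 5) (nat_lit 416) (nat_lit 324) (nat_lit 205)) (XT.lf (nat_lit 0) (nat_lit 11210439809) (nat_lit 168) (nat_lit 9207573992) (nat_lit 252) (nat_lit 13137723447) (nat_lit 22) (nat_lit 5) (nat_lit 24) (nat_lit 5) (nat_lit 25) (nat_lit 5) (nat_lit 417) (nat_lit 324) (nat_lit 204)))) (XT.nd (nat_lit 188) (nat_lit 168) (nat_lit 0) (XT.nd (nat_lit 94) (nat_lit 0) (nat_lit 0) (XT.lf (nat_lit 0) (nat_lit 21830900741) (nat_lit 168) (nat_lit 3358024048) (nat_lit 252) (nat_lit 9186834888) (nat_lit 22) (nat_lit 5) (nat_lit 24) (nat_lit 5) (nat_lit 25) (nat_lit 5) (nat_lit 418) (nat_lit 324) (nat_lit 203)) (XT.lf (nat_lit 0) (nat_lit 30118989483) (nat_lit 252) (nat_lit 2492308499) (nat_lit 84) (nat_lit 2608611427) (nat_lit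 22) (nat_lit 5) (nat_lit 25) (nat_lit 5) (nat_lit 23) (nat_lit 4) (nat_lit 419) (nat_lit 324) (nat_lit 202))) (XT.nd (nat_lit 94) (nat_lit 84) (nat_lit 0) (XT.lf (nat_lit 0) (nat_lit 7968269781) (nat_lit 84) (nat_lit 27329199327) (nat_lit 168) (nat_lit 788906345) (nat_lit 21) (nat_lit 5) (nat_lit 22) (nat_lit 5) (nat_lit 23) (nat_lit 4) (nat_lit 420) (nat_lit 324) (nat_lit 201)) (XT.lf (nat_lit 0) (nat_lit 3597304223) (nat_lit 168) (nat_lit 18235511868) (nat_lit 84) (nat_lit 15144489607) (nat_lit 20) (nat_lit 5) (nat_lit 22) (nat_lit 5) (nat_lit 21) (nat_lit 5) (nat_lit 421) (nat_lit 324) (nat_lit 200)))))) (XT.nd (nat_lit 658) (nat_lit 336) (nat_lit 0) (XT.nd (nat_lit 282) (nat_lit 84) (nat_lit 0) (XT.nd (nat_lit 94) (nat_lit 168) (nat_lit 0) (XT.lf (nat_lit 0) (nat_lit 8090208725) (nat_lit 168) (nat_lit 8079617967) (nat_lit 84) (nat_lit 21725180510) (nat_lit 20) (nat_lit 5) (nat_lit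 22) (nat_lit 5) (nat_lit 21) (nat_lit 5) (nat_lit 422) (nat_lit 324) (nat_lit 199)) (XT.nd (nat_lit 94) (nat_lit 0) (nat_lit 0) (XT.lf (nat_lit 0) (nat_lit 2413122267) (nat_lit 168) (nat_lit 10319201542) (nat_lit 252) (nat_lit 26107489643) (nat_lit 18) (nat_lit 5) (nat_lit 20) (nat_lit 5) (nat_lit 21) (nat_lit 5) (nat_lit 423) (nat_lit 324) (nat_lit 198)) (XT.lf (nat_lit 0) (nat_lit 13371496035) (nat_lit 168) (nat_lit 4215135169) (nat_lit 252) (nat_lit 22224151037) (nat_lit 18) (nat_lit 5) (nat_lit 20) (nat_lit 5) (nat_lit 21) (nat_lit 5) (nat_lit 424) (nat_lit 324) (nat_lit 197)))) (XT.nd (nat_lit 188) (nat_lit 84) (nat_lit 0) (XT.nd (nat_lit 94) (nat_lit 0) (nat_lit 0) (XT.lf (nat_lit 0) (nat_lit 22598021384) (nat_lit 252) (nat_lit 16186720764) (nat_lit 84) (nat_lit 2025800377) (nat_lit 18) (nat_lit 5) (nat_lit 21) (nat_lit 5) (nat_lit 19) (nat_lit 4) (nat_lit 425) (nat_lit 324) (nat_lit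 196)) (XT.lf (nat_lit 0) (nat_lit 27793269532) (nat_lit 252) (nat_lit 5682432603) (nat_lit 84) (nat_lit 8363593853) (nat_lit 18) (nat_lit 5) (nat_lit 21) (nat_lit 5) (nat_lit 19) (nat_lit 4) (nat_lit 426) (nat_lit 324) (nat_lit 195))) (XT.nd (nat_lit 94) (nat_lit 0) (nat_lit 0) (XT.lf (nat_lit 0) (nat_lit 5225238459) (nat_lit 84) (nat_lit 27961386459) (nat_lit 168) (nat_lit 9711025336) (nat_lit 17) (nat_lit 5) (nat_lit 18) (nat_lit 5) (nat_lit 19) (nat_lit 4) (nat_lit 427) (nat_lit 324) (nat_lit 194)) (XT.lf (nat_lit 0) (nat_lit 16563049387) (nat_lit 84) (nat_lit 22228236502) (nat_lit 168) (nat_lit 5194989633) (nat_lit 17) (nat_lit 5) (nat_lit 18) (nat_lit 5) (nat_lit 19) (nat_lit 4) (nat_lit 428) (nat_lit 324) (nat_lit 193))))) (XT.nd (nat_lit 282) (nat_lit 84) (nat_lit 0) (XT.nd (nat_lit 94) (nat_lit 252) (nat_lit 0) (XT.lf (nat_lit 0) (nat_lit 28227815455) (nat_lit 84) (nat_lit 16328624145)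 (nat_lit 168) (nat_lit 551354725) (nat_lit 17) (nat_lit 5) (nat_lit 18) (nat_lit 5) (nat_lit 19) (nat_lit 4) (nat_lit 429) (nat_lit 324) (nat_lit 192)) (XT.nd (nat_lit 94) (nat_lit 168) (nat_lit 0) (XT.lf (nat_lit 0) (nat_lit 4141512709) (nat_lit 168) (nat_lit 6074060519) (nat_lit 84) (nat_lit 36046395310) (nat_lit 16) (nat_lit 5) (nat_lit 18) (nat_lit 5) (nat_lit 17) (nat_lit 5) (nat_lit 430) (nat_lit 324) (nat_lit 191)) (XT.lf (nat_lit 0) (nat_lit 5138270049) (nat_lit 168) (nat_lit 3867922189) (nat_lit 252) (nat_lit 38443153646) (nat_lit 14) (nat_lit 5) (nat_lit 16) (nat_lit 5) (nat_lit 17) (nat_lit 5) (nat_lit 431) (nat_lit 324) (nat_lit 190)))) (XT.nd (nat_lit 188) (nat_lit 84) (nat_lit 0) (XT.nd (nat_lit 94) (nat_lit 0) (nat_lit 0) (XT.lf (nat_lit 0) (nat_lit 14097180259) (nat_lit 252) (nat_lit 31897915390) (nat_lit 84) (nat_lit 2674842623) (nat_lit 14) (nat_lit 5) (nat_lit 17) (nat_lit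 5) (nat_lit 15) (nat_lit 4) (nat_lit 432) (nat_lit 324) (nat_lit 189)) (XT.lf (nat_lit 0) (nat_lit 19372162648) (nat_lit 252) (nat_lit 21222908098) (nat_lit 84) (nat_lit 9331144371) (nat_lit 14) (nat_lit 5) (nat_lit 17) (nat_lit 5) (nat_lit 15) (nat_lit 4) (nat_lit 433) (nat_lit 324) (nat_lit 188))) (XT.nd (nat_lit 94) (nat_lit 84) (nat_lit 0) (XT.lf (nat_lit 0) (nat_lit 24798567779) (nat_lit 252) (nat_lit 10239545449) (nat_lit 84) (nat_lit 16182276334) (nat_lit 14) (nat_lit 5) (nat_lit 17) (nat_lit 5) (nat_lit 15) (nat_lit 4) (nat_lit 434) (nat_lit 324) (nat_lit 187)) (XT.lf (nat_lit 0) (nat_lit 1082900969) (nat_lit 84) (nat_lit 29308645706) (nat_lit 168) (nat_lit 22161733476) (nat_lit 13) (nat_lit 5) (nat_lit 14) (nat_lit 5) (nat_lit 15) (nat_lit 4) (nat_lit 435) (nat_lit 324) (nat_lit 186))))))))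
noncomputable def xc109 : XT := (XT.nd (nat_lit 50290) (nat_lit 0) (nat_lit 7224) (XT.nd (nat_lit 48974) (nat_lit 0) (nat_lit 17724) (XT.nd (nat_lit 564) (nat_lit 84) (nat_lit 0) (XT.nd (nat_lit 282) (nat_lit 168) (nat_lit 0) (XT.nd (nat_lit 94) (nat_lit 0) (nat_lit 0) (XT.lf (nat_lit 0) (nat_lit 12943486233) (nat_lit 84) (nat_lit 23305683267) (nat_lit 168) (nat_lit 17674086555) (nat_lit 13) (nat_lit 5) (nat_lit 14) (nat_lit 5) (nat_lit 15) (nat_lit 4) (nat_lit 436) (nat_lit 324) (nat_lit 185)) (XT.nd (nat_lit 94) (nat_lit 0) (nat_lit 0) (XT.lf (nat_lit 0) (nat_lit 25148786929) (nat_lit 84) (nat_lit 17127379934) (nat_lit 168) (nat_lit 13058359108) (nat_lit 13) (nat_lit 5) (nat_lit 14) (nat_lit 5) (nat_lit 15) (nat_lit 4) (nat_lit 437) (nat_lit 324) (nat_lit 184)) (XT.lf (nat_lit 0) (nat_lit 37709467884) (nat_lit 84) (nat_lit 10768337190) (nat_lit 168) (nat_lit 8310517974) (nat_lit 13)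 (nat_lit 5) (nat_lit 14) (nat_lit 5) (nat_lit 15) (nat_lit 4) (nat_lit 438) (nat_lit 324) (nat_lit 183)))) (XT.nd (nat_lit 94) (nat_lit 168) (nat_lit 0) (XT.lf (nat_lit 0) (nat_lit 50636504449) (nat_lit 84) (nat_lit 4222998590) (nat_lit 168) (nat_lit 3426414555) (nat_lit 13) (nat_lit 5) (nat_lit 14) (nat_lit 5) (nat_lit 15) (nat_lit 4) (nat_lit 439) (nat_lit 324) (nat_lit 182)) (XT.nd (nat_lit 94) (nat_lit 0) (nat_lit 0) (XT.lf (nat_lit 0) (nat_lit 1631919880) (nat_lit 168) (nat_lit 55672918194) (nat_lit 84) (nat_lit 2521372579) (nat_lit 11) (nat_lit 5) (nat_lit 13) (nat_lit 5) (nat_lit 12) (nat_lit 4) (nat_lit 440) (nat_lit 324) (nat_lit 181)) (XT.lf (nat_lit 0) (nat_lit 6887112560) (nat_lit 168) (nat_lit 45030327422) (nat_lit 84) (nat_lit 9490839048) (nat_lit 11) (nat_lit 5) (nat_lit 13) (nat_lit 5) (nat_lit 12) (nat_lit 4) (nat_lit 441) (nat_lit 324) (nat_lit 180))))) (XT.nd (nat_lit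 282) (nat_lit 84) (nat_lit 0) (XT.nd (nat_lit 94) (nat_lit 0) (nat_lit 0) (XT.lf (nat_lit 0) (nat_lit 12294286280) (nat_lit 168) (nat_lit 34078473865) (nat_lit 84) (nat_lit 16665222997) (nat_lit 11) (nat_lit 5) (nat_lit 13) (nat_lit 5) (nat_lit 12) (nat_lit 4) (nat_lit 442) (nat_lit 324) (nat_lit 179)) (XT.nd (nat_lit 94) (nat_lit 0) (nat_lit 0) (XT.lf (nat_lit 0) (nat_lit 17858165755) (nat_lit 168) (nat_lit 22807787943) (nat_lit 84) (nat_lit 24050793306) (nat_lit 11) (nat_lit 5) (nat_lit 13) (nat_lit 5) (nat_lit 12) (nat_lit 4) (nat_lit 443) (nat_lit 324) (nat_lit 178)) (XT.lf (nat_lit 0) (nat_lit 23583612628) (nat_lit 168) (nat_lit 11208421484) (nat_lit 84) (nat_lit 31654003385) (nat_lit 11) (nat_lit 5) (nat_lit 13) (nat_lit 5) (nat_lit 12) (nat_lit 4) (nat_lit 444) (nat_lit 324) (nat_lit 177)))) (XT.nd (nat_lit 188) (nat_lit 0) (nat_lit 0) (XT.nd (nat_lit 94) (nat_lit 0) (nat_lit 0)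 (XT.lf (nat_lit 0) (nat_lit 744284553) (nat_lit 84) (nat_lit 28738499680) (nat_lit 168) (nat_lit 38744366780) (nat_lit 10) (nat_lit 5) (nat_lit 11) (nat_lit 5) (nat_lit 12) (nat_lit 4) (nat_lit 445) (nat_lit 324) (nat_lit 176)) (XT.lf (nat_lit 0) (nat_lit 13276258190) (nat_lit 84) (nat_lit 22390726707) (nat_lit 168) (nat_lit 34391474481) (nat_lit 10) (nat_lit 5) (nat_lit 11) (nat_lit 5) (nat_lit 12) (nat_lit 4) (nat_lit 446) (nat_lit 324) (nat_lit 175))) (XT.nd (nat_lit 47846) (nat_lit 0) (nat_lit 19992) (XT.lf (nat_lit 0) (nat_lit 26175380129) (nat_lit 84) (nat_lit 15856351675) (nat_lit 168) (nat_lit 29913127552) (nat_lit 10) (nat_lit 5) (nat_lit 11) (nat_lit 5) (nat_lit 12) (nat_lit 4) (nat_lit 447) (nat_lit 324) (nat_lit 174)) (XT.lf (nat_lit 0) (nat_lit 191520252) (nat_lit 756) (nat_lit 1624968316) (nat_lit 756) (nat_lit 1624968316) (nat_lit 248) (nat_lit 3) (nat_lit 257) (nat_lit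 3) (nat_lit 257) (nat_lit 5) (nat_lit 325) (nat_lit 325) (nat_lit 295)))))) (XT.nd (nat_lit 658) (nat_lit 1596) (nat_lit 0) (XT.nd (nat_lit 282) (nat_lit 672) (nat_lit 0) (XT.nd (nat_lit 94) (nat_lit 0) (nat_lit 0) (XT.lf (nat_lit 0) (nat_lit 2168795352) (nat_lit 756) (nat_lit 200311550) (nat_lit 756) (nat_lit 4559153926) (nat_lit 248) (nat_lit 3) (nat_lit 257) (nat_lit 3) (nat_lit 257) (nat_lit 5) (nat_lit 326) (nat_lit 325) (nat_lit 294)) (XT.nd (nat_lit 94) (nat_lit 0) (nat_lit 84) (XT.lf (nat_lit 84) (nat_lit 2962752084) (nat_lit 0) (nat_lit 1004381762) (nat_lit 756) (nat_lit 3009239603) (nat_lit 249) (nat_lit 5) (nat_lit 248) (nat_lit 3) (nat_lit 257) (nat_lit 5) (nat_lit 327) (nat_lit 325) (nat_lit 293)) (XT.lf (nat_lit 0) (nat_lit 5757846127) (nat_lit 672) (nat_lit 842959141) (nat_lit 756) (nat_lit 427141842) (nat_lit 249) (nat_lit 5) (nat_lit 257) (nat_lit 5) (nat_lit 258) (nat_lit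 5) (nat_lit 328) (nat_lit 325) (nat_lit 292)))) (XT.nd (nat_lit 188) (nat_lit 0) (nat_lit 0) (XT.nd (nat_lit 94) (nat_lit 0) (nat_lit 0) (XT.lf (nat_lit 0) (nat_lit 478286238) (nat_lit 756) (nat_lit 4663645029) (nat_lit 840) (nat_lit 1940129642) (nat_lit 240) (nat_lit 5) (nat_lit 249) (nat_lit 5) (nat_lit 250) (nat_lit 5) (nat_lit 329) (nat_lit 325) (nat_lit 291)) (XT.lf (nat_lit 0) (nat_lit 2197448620) (nat_lit 756) (nat_lit 1393292010) (nat_lit 840) (nat_lit 3548520607) (nat_lit 240) (nat_lit 5) (nat_lit 249) (nat_lit 5) (nat_lit 250) (nat_lit 5) (nat_lit 330) (nat_lit 325) (nat_lit 290))) (XT.nd (nat_lit 94) (nat_lit 0) (nat_lit 0) (XT.lf (nat_lit 84) (nat_lit 1976852244) (nat_lit 0) (nat_lit 1947476926) (nat_lit 840) (nat_lit 3275315479) (nat_lit 241) (nat_lit 5) (nat_lit 240) (nat_lit 5) (nat_lit 250) (nat_lit 5) (nat_lit 331) (nat_lit 325) (nat_lit 289)) (XT.lf (nat_lit 84) (nat_lit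 5440128800) (nat_lit 0) (nat_lit 215577115) (nat_lit 840) (nat_lit 1607699915) (nat_lit 241) (nat_lit 5) (nat_lit 240) (nat_lit 5) (nat_lit 250) (nat_lit 5) (nat_lit 332) (nat_lit 325) (nat_lit 288))))) (XT.nd (nat_lit 282) (nat_lit 840) (nat_lit 0) (XT.nd (nat_lit 94) (nat_lit 0) (nat_lit 0) (XT.lf (nat_lit 0) (nat_lit 79029745) (nat_lit 840) (nat_lit 5672979667) (nat_lit 924) (nat_lit 1578040327) (nat_lit 231) (nat_lit 5) (nat_lit 241) (nat_lit 5) (nat_lit 242) (nat_lit 5) (nat_lit 333) (nat_lit 325) (nat_lit 287)) (XT.nd (nat_lit 94) (nat_lit 0) (nat_lit 0) (XT.lf (nat_lit 0) (nat_lit 1746077036) (nat_lit 840) (nat_lit 2175737365) (nat_lit 924) (nat_lit 3477674651) (nat_lit 231) (nat_lit 5) (nat_lit 241) (nat_lit 5) (nat_lit 242) (nat_lit 5) (nat_lit 334) (nat_lit 325) (nat_lit 286)) (XT.lf (nat_lit 84) (nat_lit 1416623705) (nat_lit 0) (nat_lit 2003139858) (nat_lit 924) (nat_lit 4052679721)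 (nat_lit 232) (nat_lit 5) (nat_lit 231) (nat_lit 5) (nat_lit 242) (nat_lit 5) (nat_lit 335) (nat_lit 325) (nat_lit 285)))) (XT.nd (nat_lit 188) (nat_lit 924) (nat_lit 0) (XT.nd (nat_lit 94) (nat_lit 0) (nat_lit 0) (XT.lf (nat_lit 0) (nat_lit 5110083045) (nat_lit 840) (nat_lit 2424580946) (nat_lit 924) (nat_lit 14056253) (nat_lit 232) (nat_lit 5) (nat_lit 242) (nat_lit 5) (nat_lit 243) (nat_lit 5) (nat_lit 336) (nat_lit 325) (nat_lit 284)) (XT.lf (nat_lit 84) (nat_lit 1282881721) (nat_lit 0) (nat_lit 5546504789) (nat_lit 924) (nat_lit 798673848) (nat_lit 233) (nat_lit 5) (nat_lit 232) (nat_lit 5) (nat_lit 243) (nat_lit 5) (nat_lit 337) (nat_lit 325) (nat_lit 283))) (XT.nd (nat_lit 94) (nat_lit 0) (nat_lit 0) (XT.lf (nat_lit 0) (nat_lit 844517165) (nat_lit 924) (nat_lit 2605297895) (nat_lit 1008) (nat_lit 4260682672) (nat_lit 221) (nat_lit 5) (nat_lit 232) (nat_lit 5) (nat_lit 233) (nat_lit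 5) (nat_lit 338) (nat_lit 325) (nat_lit 282)) (XT.lf (nat_lit 84) (nat_lit 1225187990) (nat_lit 0) (nat_lit 1255773122) (nat_lit 1008) (nat_lit 5315522226) (nat_lit 222) (nat_lit 5) (nat_lit 221) (nat_lit 5) (nat_lit 233) (nat_lit 5) (nat_lit 339) (nat_lit 325) (nat_lit 281))))))) (XT.nd (nat_lit 1316) (nat_lit 3696) (nat_lit 0) (XT.nd (nat_lit 658) (nat_lit 3780) (nat_lit 0) (XT.nd (nat_lit 282) (nat_lit 2184) (nat_lit 0) (XT.nd (nat_lit 94) (nat_lit 924) (nat_lit 0) (XT.lf (nat_lit 0) (nat_lit 4152230425) (nat_lit 924) (nat_lit 2709156705) (nat_lit 84) (nat_lit 1024198773) (nat_lit 222) (nat_lit 5) (nat_lit 233) (nat_lit 5) (nat_lit 223) (nat_lit 5) (nat_lit 340) (nat_lit 325) (nat_lit 280)) (XT.nd (nat_lit 94) (nat_lit 0) (nat_lit 0) (XT.lf (nat_lit 0) (nat_lit 1242820385) (nat_lit 924) (nat_lit 4606179364) (nat_lit 1008) (nat_lit 2129207109) (nat_lit 211) (nat_lit 5) (nat_lit 222)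 (nat_lit 5) (nat_lit 223) (nat_lit 5) (nat_lit 341) (nat_lit 325) (nat_lit 279)) (XT.lf (nat_lit 0) (nat_lit 5331418651) (nat_lit 924) (nat_lit 2244659958) (nat_lit 1008) (nat_lit 498248715) (nat_lit 211) (nat_lit 5) (nat_lit 222) (nat_lit 5) (nat_lit 223) (nat_lit 5) (nat_lit 342) (nat_lit 325) (nat_lit 278)))) (XT.nd (nat_lit 188) (nat_lit 1092) (nat_lit 0) (XT.nd (nat_lit 94) (nat_lit 0) (nat_lit 0) (XT.lf (nat_lit 0) (nat_lit 1126552203) (nat_lit 1092) (nat_lit 6829400807) (nat_lit 84) (nat_lit 218095639) (nat_lit 198) (nat_lit 5) (nat_lit 211) (nat_lit 5) (nat_lit 199) (nat_lit 5) (nat_lit 343) (nat_lit 325) (nat_lit 277)) (XT.lf (nat_lit 0) (nat_lit 2794269344) (nat_lit 1092) (nat_lit 2730918357) (nat_lit 84) (nat_lit 2751394655) (nat_lit 198) (nat_lit 5) (nat_lit 211) (nat_lit 5) (nat_lit 199) (nat_lit 5) (nat_lit 344) (nat_lit 325) (nat_lit 276))) (XT.nd (nat_lit 94) (nat_lit 0)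 (nat_lit 0) (XT.lf (nat_lit 0) (nat_lit 1481947449) (nat_lit 1092) (nat_lit 2999645941) (nat_lit 1176) (nat_lit 3901603003) (nat_lit 185) (nat_lit 5) (nat_lit 198) (nat_lit 5) (nat_lit 199) (nat_lit 5) (nat_lit 345) (nat_lit 325) (nat_lit 275)) (XT.lf (nat_lit 0) (nat_lit 5840058671) (nat_lit 1092) (nat_lit 363329644) (nat_lit 1176) (nat_lit 2290193916) (nat_lit 185) (nat_lit 5) (nat_lit 198) (nat_lit 5) (nat_lit 199) (nat_lit 5) (nat_lit 346) (nat_lit 325) (nat_lit 274))))) (XT.nd (nat_lit 282) (nat_lit 1260) (nat_lit 0) (XT.nd (nat_lit 94) (nat_lit 1344) (nat_lit 0) (XT.lf (nat_lit 0) (nat_lit 1694630314) (nat_lit 1176) (nat_lit 6278715630) (nat_lit 1260) (nat_lit 634124760) (nat_lit 171) (nat_lit 5) (nat_lit 185) (nat_lit 5) (nat_lit 186) (nat_lit 5) (nat_lit 347) (nat_lit 325) (nat_lit 273)) (XT.nd (nat_lit 94) (nat_lit 1260) (nat_lit 0) (XT.lf (nat_lit 0) (nat_lit 1039367532) (nat_lit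 1260) (nat_lit 2548524393) (nat_lit 84) (nat_lit 5136996672) (nat_lit 170) (nat_lit 5) (nat_lit 185) (nat_lit 5) (nat_lit 171) (nat_lit 5) (nat_lit 348) (nat_lit 325) (nat_lit 272)) (XT.lf (nat_lit 0) (nat_lit 1941421796) (nat_lit 1260) (nat_lit 786777463) (nat_lit 1344) (nat_lit 6118184013) (nat_lit 155) (nat_lit 5) (nat_lit 170) (nat_lit 5) (nat_lit 171) (nat_lit 5) (nat_lit 349) (nat_lit 325) (nat_lit 271)))) (XT.nd (nat_lit 188) (nat_lit 672) (nat_lit 0) (XT.nd (nat_lit 94) (nat_lit 588) (nat_lit 0) (XT.lf (nat_lit 0) (nat_lit 4473943736) (nat_lit 1344) (nat_lit 2410718655) (nat_lit 84) (nat_lit 2086749662) (nat_lit 155) (nat_lit 5) (nat_lit 171) (nat_lit 5) (nat_lit 156) (nat_lit 5) (nat_lit 350) (nat_lit 325) (nat_lit 270)) (XT.lf (nat_lit 0) (nat_lit 2217076253) (nat_lit 588) (nat_lit 4045335649) (nat_lit 672) (nat_lit 2838143720) (nat_lit 148) (nat_lit 5) (nat_lit 155) (nat_lit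 5) (nat_lit 156) (nat_lit 5) (nat_lit 351) (nat_lit 325) (nat_lit 269))) (XT.nd (nat_lit 94) (nat_lit 672) (nat_lit 0) (XT.lf (nat_lit 0) (nat_lit 6996734192) (nat_lit 588) (nat_lit 1094171906) (nat_lit 672) (nat_lit 1143148534) (nat_lit 148) (nat_lit 5) (nat_lit 155) (nat_lit 5) (nat_lit 156) (nat_lit 5) (nat_lit 352) (nat_lit 325) (nat_lit 268)) (XT.lf (nat_lit 0) (nat_lit 597221194) (nat_lit 672) (nat_lit 6834677129) (nat_lit 84) (nat_lit 1939366069) (nat_lit 140) (nat_lit 5) (nat_lit 148) (nat_lit 5) (nat_lit 141) (nat_lit 5) (nat_lit 353) (nat_lit 325) (nat_lit 267)))))) (XT.nd (nat_lit 658) (nat_lit 1932) (nat_lit 0) (XT.nd (nat_lit 282) (nat_lit 1176) (nat_lit 0) (XT.nd (nat_lit 94) (nat_lit 588) (nat_lit 0) (XT.lf (nat_lit 0) (nat_lit 2363925914) (nat_lit 672) (nat_lit 2071667775) (nat_lit 84) (nat_lit 5076810365) (nat_lit 140) (nat_lit 5) (nat_lit 148) (nat_lit 5) (nat_lit 141)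 (nat_lit 5) (nat_lit 354) (nat_lit 325) (nat_lit 266)) (XT.nd (nat_lit 94) (nat_lit 0) (nat_lit 0) (XT.lf (nat_lit 0) (nat_lit 2854046125) (nat_lit 588) (nat_lit 1321535466) (nat_lit 672) (nat_lit 5482502053) (nat_lit 133) (nat_lit 5) (nat_lit 140) (nat_lit 5) (nat_lit 141) (nat_lit 5) (nat_lit 355) (nat_lit 325) (nat_lit 265)) (XT.lf (nat_lit 0) (nat_lit 6046042667) (nat_lit 672) (nat_lit 1892469211) (nat_lit 84) (nat_lit 1869550437) (nat_lit 133) (nat_lit 5) (nat_lit 141) (nat_lit 5) (nat_lit 134) (nat_lit 5) (nat_lit 356) (nat_lit 325) (nat_lit 264)))) (XT.nd (nat_lit 188) (nat_lit 588) (nat_lit 0) (XT.nd (nat_lit 94) (nat_lit 0) (nat_lit 0) (XT.lf (nat_lit 0) (nat_lit 3179852990) (nat_lit 588) (nat_lit 4802629345) (nat_lit 672) (nat_lit 1979822612) (nat_lit 126) (nat_lit 5) (nat_lit 133) (nat_lit 5) (nat_lit 134) (nat_lit 5) (nat_lit 357) (nat_lit 325) (nat_lit 263)) (XT.lf (nat_lit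 0) (nat_lit 8407928208) (nat_lit 588) (nat_lit 1555056382) (nat_lit 672) (nat_lit 158669972) (nat_lit 126) (nat_lit 5) (nat_lit 133) (nat_lit 5) (nat_lit 134) (nat_lit 5) (nat_lit 358) (nat_lit 325) (nat_lit 262))) (XT.nd (nat_lit 94) (nat_lit 0) (nat_lit 0) (XT.lf (nat_lit 0) (nat_lit 1702621520) (nat_lit 588) (nat_lit 6778545952) (nat_lit 84) (nat_lit 1803607079) (nat_lit 119) (nat_lit 5) (nat_lit 126) (nat_lit 5) (nat_lit 120) (nat_lit 5) (nat_lit 359) (nat_lit 325) (nat_lit 261)) (XT.lf (nat_lit 0) (nat_lit 3617476644) (nat_lit 588) (nat_lit 1587028753) (nat_lit 84) (nat_lit 5248261988) (nat_lit 119) (nat_lit 5) (nat_lit 126) (nat_lit 5) (nat_lit 120) (nat_lit 5) (nat_lit 360) (nat_lit 325) (nat_lit 260))))) (XT.nd (nat_lit 282) (nat_lit 1008) (nat_lit 0) (XT.nd (nat_lit 94) (nat_lit 420) (nat_lit 0) (XT.lf (nat_lit 0) (nat_lit 3799885592) (nat_lit 504) (nat_lit 1795390286) (nat_lit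 588) (nat_lit 5030411400) (nat_lit 113) (nat_lit 5) (nat_lit 119) (nat_lit 5) (nat_lit 120) (nat_lit 5) (nat_lit 361) (nat_lit 325) (nat_lit 259)) (XT.nd (nat_lit 94) (nat_lit 420) (nat_lit 0) (XT.lf (nat_lit 0) (nat_lit 7634600245) (nat_lit 588) (nat_lit 1474116264) (nat_lit 84) (nat_lit 1695063232) (nat_lit 113) (nat_lit 5) (nat_lit 120) (nat_lit 5) (nat_lit 114) (nat_lit 5) (nat_lit 362) (nat_lit 325) (nat_lit 258)) (XT.lf (nat_lit 0) (nat_lit 4065612027) (nat_lit 420) (nat_lit 5696749003) (nat_lit 504) (nat_lit 1224085476) (nat_lit 108) (nat_lit 5) (nat_lit 113) (nat_lit 5) (nat_lit 114) (nat_lit 5) (nat_lit 363) (nat_lit 325) (nat_lit 257)))) (XT.nd (nat_lit 188) (nat_lit 420) (nat_lit 0) (XT.nd (nat_lit 94) (nat_lit 504) (nat_lit 0) (XT.lf (nat_lit 0) (nat_lit 749788965) (nat_lit 504) (nat_lit 1414399452) (nat_lit 84) (nat_lit 9010657438) (nat_lit 107) (nat_lit 5) (nat_lit 113) (nat_lit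 5) (nat_lit 108) (nat_lit 5) (nat_lit 364) (nat_lit 325) (nat_lit 256)) (XT.lf (nat_lit 0) (nat_lit 2785682095) (nat_lit 588) (nat_lit 7087282863) (nat_lit 84) (nat_lit 1494791528) (nat_lit 101) (nat_lit 5) (nat_lit 108) (nat_lit 5) (nat_lit 102) (nat_lit 5) (nat_lit 365) (nat_lit 325) (nat_lit 255))) (XT.nd (nat_lit 94) (nat_lit 420) (nat_lit 0) (XT.lf (nat_lit 0) (nat_lit 4890428204) (nat_lit 588) (nat_lit 1446280497) (nat_lit 84) (nat_lit 5229556189) (nat_lit 101) (nat_lit 5) (nat_lit 108) (nat_lit 5) (nat_lit 102) (nat_lit 5) (nat_lit 366) (nat_lit 325) (nat_lit 254)) (XT.lf (nat_lit 0) (nat_lit 4417263005) (nat_lit 420) (nat_lit 2656257362) (nat_lit 504) (nat_lit 4696794537) (nat_lit 96) (nat_lit 5) (nat_lit 101) (nat_lit 5) (nat_lit 102) (nat_lit 5) (nat_lit 367) (nat_lit 325) (nat_lit 253))))))))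
noncomputable def xc110 : XT := (XT.nd (nat_lit 2538) (nat_lit 2100) (nat_lit 0) (XT.nd (nat_lit 1222) (nat_lit 1932) (nat_lit 0) (XT.nd (nat_lit 564) (nat_lit 1092) (nat_lit 0) (XT.nd (nat_lit 282) (nat_lit 756) (nat_lit 0) (XT.nd (nat_lit 94) (nat_lit 504) (nat_lit 0) (XT.lf (nat_lit 0) (nat_lit 9320928546) (nat_lit 504) (nat_lit 1538091426) (nat_lit 84) (nat_lit 1121542977) (nat_lit 96) (nat_lit 5) (nat_lit 102) (nat_lit 5) (nat_lit 97) (nat_lit 5) (nat_lit 368) (nat_lit 325) (nat_lit 252)) (XT.nd (nat_lit 94) (nat_lit 84) (nat_lit 0) (XT.lf (nat_lit 0) (nat_lit 4480059655) (nat_lit 420) (nat_lit 7199013006) (nat_lit 504) (nat_lit 516786391) (nat_lit 91) (nat_lit 5) (nat_lit 96) (nat_lit 5) (nat_lit 97) (nat_lit 5) (nat_lit 369) (nat_lit 325) (nat_lit 251)) (XT.lf (nat_lit 0) (nat_lit 1647155810) (nat_lit 504) (nat_lit 1755882184) (nat_lit 84) (nat_lit 9014432511) (nat_lit 90) (nat_lit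 5) (nat_lit 96) (nat_lit 5) (nat_lit 91) (nat_lit 5) (nat_lit 370) (nat_lit 325) (nat_lit 250)))) (XT.nd (nat_lit 94) (nat_lit 420) (nat_lit 0) (XT.lf (nat_lit 0) (nat_lit 3888381465) (nat_lit 420) (nat_lit 8217826472) (nat_lit 84) (nat_lit 538722932) (nat_lit 86) (nat_lit 5) (nat_lit 91) (nat_lit 5) (nat_lit 87) (nat_lit 5) (nat_lit 371) (nat_lit 325) (nat_lit 249)) (XT.nd (nat_lit 94) (nat_lit 420) (nat_lit 0) (XT.lf (nat_lit 0) (nat_lit 6223672859) (nat_lit 420) (nat_lit 2113046399) (nat_lit 84) (nat_lit 4541726482) (nat_lit 86) (nat_lit 5) (nat_lit 91) (nat_lit 5) (nat_lit 87) (nat_lit 5) (nat_lit 372) (nat_lit 325) (nat_lit 248)) (XT.lf (nat_lit 0) (nat_lit 4226210991) (nat_lit 420) (nat_lit 4419387418) (nat_lit 504) (nat_lit 4472904915) (nat_lit 81) (nat_lit 5) (nat_lit 86) (nat_lit 5) (nat_lit 87) (nat_lit 5) (nat_lit 373) (nat_lit 325) (nat_lit 247))))) (XT.nd (nat_lit 282) (nat_lit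 672) (nat_lit 0) (XT.nd (nat_lit 94) (nat_lit 420) (nat_lit 0) (XT.lf (nat_lit 0) (nat_lit 10768132042) (nat_lit 420) (nat_lit 369741917) (nat_lit 504) (nat_lit 2227991433) (nat_lit 81) (nat_lit 5) (nat_lit 86) (nat_lit 5) (nat_lit 87) (nat_lit 5) (nat_lit 374) (nat_lit 325) (nat_lit 246)) (XT.nd (nat_lit 94) (nat_lit 0) (nat_lit 0) (XT.lf (nat_lit 0) (nat_lit 134051836) (nat_lit 420) (nat_lit 9725934745) (nat_lit 84) (nat_lit 3759126233) (nat_lit 76) (nat_lit 5) (nat_lit 81) (nat_lit 5) (nat_lit 77) (nat_lit 5) (nat_lit 375) (nat_lit 325) (nat_lit 245)) (XT.lf (nat_lit 0) (nat_lit 2529429078) (nat_lit 420) (nat_lit 3303854995) (nat_lit 84) (nat_lit 8045824894) (nat_lit 76) (nat_lit 5) (nat_lit 81) (nat_lit 5) (nat_lit 77) (nat_lit 5) (nat_lit 376) (nat_lit 325) (nat_lit 244)))) (XT.nd (nat_lit 188) (nat_lit 336) (nat_lit 0) (XT.nd (nat_lit 94) (nat_lit 0) (nat_lit 0) (XT.lf (nat_lit 0)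 (nat_lit 3346309721) (nat_lit 336) (nat_lit 1660292214) (nat_lit 420) (nat_lit 9140034824) (nat_lit 72) (nat_lit 5) (nat_lit 76) (nat_lit 5) (nat_lit 77) (nat_lit 5) (nat_lit 377) (nat_lit 325) (nat_lit 243)) (XT.lf (nat_lit 0) (nat_lit 7595196314) (nat_lit 420) (nat_lit 4213365598) (nat_lit 84) (nat_lit 2612544200) (nat_lit 72) (nat_lit 5) (nat_lit 77) (nat_lit 5) (nat_lit 73) (nat_lit 5) (nat_lit 378) (nat_lit 325) (nat_lit 242))) (XT.nd (nat_lit 94) (nat_lit 0) (nat_lit 0) (XT.lf (nat_lit 0) (nat_lit 2575713096) (nat_lit 336) (nat_lit 7705628974) (nat_lit 420) (nat_lit 4421898745) (nat_lit 68) (nat_lit 5) (nat_lit 72) (nat_lit 5) (nat_lit 73) (nat_lit 5) (nat_lit 379) (nat_lit 325) (nat_lit 241)) (XT.lf (nat_lit 0) (nat_lit 9625806922) (nat_lit 336) (nat_lit 3443849176) (nat_lit 420) (nat_lit 1923563202) (nat_lit 68) (nat_lit 5) (nat_lit 72) (nat_lit 5) (nat_lit 73) (nat_lit 5) (nat_lit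 380) (nat_lit 325) (nat_lit 240)))))) (XT.nd (nat_lit 658) (nat_lit 840) (nat_lit 0) (XT.nd (nat_lit 282) (nat_lit 420) (nat_lit 0) (XT.nd (nat_lit 94) (nat_lit 252) (nat_lit 0) (XT.lf (nat_lit 0) (nat_lit 640992217) (nat_lit 420) (nat_lit 13709417513) (nat_lit 84) (nat_lit 941207289) (nat_lit 63) (nat_lit 5) (nat_lit 68) (nat_lit 5) (nat_lit 64) (nat_lit 5) (nat_lit 381) (nat_lit 325) (nat_lit 239)) (XT.nd (nat_lit 94) (nat_lit 252) (nat_lit 0) (XT.lf (nat_lit 0) (nat_lit 3312326677) (nat_lit 420) (nat_lit 6829584730) (nat_lit 84) (nat_lit 5454453728) (nat_lit 63) (nat_lit 5) (nat_lit 68) (nat_lit 5) (nat_lit 64) (nat_lit 5) (nat_lit 382) (nat_lit 325) (nat_lit 238)) (XT.lf (nat_lit 0) (nat_lit 233142806) (nat_lit 252) (nat_lit 5813161222) (nat_lit 336) (nat_lit 9864500799) (nat_lit 60) (nat_lit 5) (nat_lit 63) (nat_lit 5) (nat_lit 64) (nat_lit 5) (nat_lit 383) (nat_lit 325) (nat_lit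 237)))) (XT.nd (nat_lit 188) (nat_lit 420) (nat_lit 0) (XT.nd (nat_lit 94) (nat_lit 0) (nat_lit 0) (XT.lf (nat_lit 0) (nat_lit 7619977270) (nat_lit 252) (nat_lit 1291858503) (nat_lit 336) (nat_lit 7321379397) (nat_lit 60) (nat_lit 5) (nat_lit 63) (nat_lit 5) (nat_lit 64) (nat_lit 5) (nat_lit 384) (nat_lit 325) (nat_lit 236)) (XT.lf (nat_lit 0) (nat_lit 11876738428) (nat_lit 336) (nat_lit 1396704897) (nat_lit 84) (nat_lit 3291475177) (nat_lit 60) (nat_lit 5) (nat_lit 64) (nat_lit 5) (nat_lit 61) (nat_lit 5) (nat_lit 385) (nat_lit 325) (nat_lit 235))) (XT.nd (nat_lit 94) (nat_lit 84) (nat_lit 0) (XT.lf (nat_lit 0) (nat_lit 6116206319) (nat_lit 336) (nat_lit 8867574672) (nat_lit 420) (nat_lit 1921218321) (nat_lit 56) (nat_lit 5) (nat_lit 60) (nat_lit 5) (nat_lit 61) (nat_lit 5) (nat_lit 386) (nat_lit 325) (nat_lit 234)) (XT.lf (nat_lit 0) (nat_lit 906563379) (nat_lit 420) (nat_lit 3407590914)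 (nat_lit 84) (nat_lit 12941003280) (nat_lit 55) (nat_lit 5) (nat_lit 60) (nat_lit 5) (nat_lit 56) (nat_lit 5) (nat_lit 387) (nat_lit 325) (nat_lit 233))))) (XT.nd (nat_lit 282) (nat_lit 336) (nat_lit 0) (XT.nd (nat_lit 94) (nat_lit 252) (nat_lit 0) (XT.lf (nat_lit 0) (nat_lit 3807599339) (nat_lit 336) (nat_lit 13386108864) (nat_lit 84) (nat_lit 420750941) (nat_lit 52) (nat_lit 5) (nat_lit 56) (nat_lit 5) (nat_lit 53) (nat_lit 5) (nat_lit 388) (nat_lit 325) (nat_lit 232)) (XT.nd (nat_lit 94) (nat_lit 252) (nat_lit 0) (XT.lf (nat_lit 0) (nat_lit 6855546205) (nat_lit 336) (nat_lit 5889570434) (nat_lit 84) (nat_lit 5237646418) (nat_lit 52) (nat_lit 5) (nat_lit 56) (nat_lit 5) (nat_lit 53) (nat_lit 5) (nat_lit 389) (nat_lit 325) (nat_lit 231)) (XT.lf (nat_lit 0) (nat_lit 1842349126) (nat_lit 252) (nat_lit 8153219079) (nat_lit 336) (nat_lit 8366547899) (nat_lit 49) (nat_lit 5) (nat_lit 52) (nat_lit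 5) (nat_lit 53) (nat_lit 5) (nat_lit 390) (nat_lit 325) (nat_lit 230)))) (XT.nd (nat_lit 188) (nat_lit 336) (nat_lit 0) (XT.nd (nat_lit 94) (nat_lit 0) (nat_lit 0) (XT.lf (nat_lit 0) (nat_lit 9901740471) (nat_lit 252) (nat_lit 3370705328) (nat_lit 336) (nat_lit 5479142856) (nat_lit 49) (nat_lit 5) (nat_lit 52) (nat_lit 5) (nat_lit 53) (nat_lit 5) (nat_lit 391) (nat_lit 325) (nat_lit 229)) (XT.lf (nat_lit 0) (nat_lit 16646173357) (nat_lit 336) (nat_lit 989693431) (nat_lit 84) (nat_lit 1516940308) (nat_lit 49) (nat_lit 5) (nat_lit 53) (nat_lit 5) (nat_lit 50) (nat_lit 5) (nat_lit 392) (nat_lit 325) (nat_lit 228))) (XT.nd (nat_lit 94) (nat_lit 0) (nat_lit 0) (XT.lf (nat_lit 0) (nat_lit 631608836) (nat_lit 336) (nat_lit 12380685302) (nat_lit 84) (nat_lit 6551003194) (nat_lit 45) (nat_lit 5) (nat_lit 49) (nat_lit 5) (nat_lit 46) (nat_lit 5) (nat_lit 393) (nat_lit 325) (nat_lit 227)) (XT.lf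 (nat_lit 0) (nat_lit 3807843592) (nat_lit 336) (nat_lit 4414626020) (nat_lit 84) (nat_lit 11763077837) (nat_lit 45) (nat_lit 5) (nat_lit 49) (nat_lit 5) (nat_lit 46) (nat_lit 5) (nat_lit 394) (nat_lit 325) (nat_lit 226))))))) (XT.nd (nat_lit 1316) (nat_lit 756) (nat_lit 0) (XT.nd (nat_lit 658) (nat_lit 588) (nat_lit 0) (XT.nd (nat_lit 282) (nat_lit 504) (nat_lit 0) (XT.nd (nat_lit 94) (nat_lit 0) (nat_lit 0) (XT.lf (nat_lit 0) (nat_lit 3841808921) (nat_lit 252) (nat_lit 3259081284) (nat_lit 336) (nat_lit 13318945132) (nat_lit 42) (nat_lit 5) (nat_lit 45) (nat_lit 5) (nat_lit 46) (nat_lit 5) (nat_lit 395) (nat_lit 325) (nat_lit 225)) (XT.nd (nat_lit 94) (nat_lit 0) (nat_lit 0) (XT.lf (nat_lit 0) (nat_lit 10540303685) (nat_lit 336) (nat_lit 8471372668) (nat_lit 84) (nat_lit 1854063789) (nat_lit 42) (nat_lit 5) (nat_lit 46) (nat_lit 5) (nat_lit 43) (nat_lit 5) (nat_lit 396) (nat_lit 325)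 (nat_lit 224)) (XT.lf (nat_lit 0) (nat_lit 14100352988) (nat_lit 336) (nat_lit 176831170) (nat_lit 84) (nat_lit 7047329423) (nat_lit 42) (nat_lit 5) (nat_lit 46) (nat_lit 5) (nat_lit 43) (nat_lit 5) (nat_lit 397) (nat_lit 325) (nat_lit 223)))) (XT.nd (nat_lit 188) (nat_lit 336) (nat_lit 0) (XT.nd (nat_lit 94) (nat_lit 0) (nat_lit 0) (XT.lf (nat_lit 0) (nat_lit 8510239444) (nat_lit 168) (nat_lit 9324386740) (nat_lit 252) (nat_lit 3960416019) (nat_lit 40) (nat_lit 5) (nat_lit 42) (nat_lit 5) (nat_lit 43) (nat_lit 5) (nat_lit 398) (nat_lit 325) (nat_lit 222)) (XT.lf (nat_lit 0) (nat_lit 17439393827) (nat_lit 168) (nat_lit 4229142159) (nat_lit 252) (nat_lit 611536669) (nat_lit 40) (nat_lit 5) (nat_lit 42) (nat_lit 5) (nat_lit 43) (nat_lit 5) (nat_lit 399) (nat_lit 325) (nat_lit 221))) (XT.nd (nat_lit 94) (nat_lit 0) (nat_lit 0) (XT.lf (nat_lit 0) (nat_lit 2816208137) (nat_lit 336) (nat_lit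 18905033064) (nat_lit 84) (nat_lit 1056594619) (nat_lit 36) (nat_lit 5) (nat_lit 40) (nat_lit 5) (nat_lit 37) (nat_lit 5) (nat_lit 400) (nat_lit 325) (nat_lit 220)) (XT.lf (nat_lit 0) (nat_lit 6411940057) (nat_lit 336) (nat_lit 10412492433) (nat_lit 84) (nat_lit 6463607380) (nat_lit 36) (nat_lit 5) (nat_lit 40) (nat_lit 5) (nat_lit 37) (nat_lit 5) (nat_lit 401) (nat_lit 325) (nat_lit 219))))) (XT.nd (nat_lit 282) (nat_lit 420) (nat_lit 0) (XT.nd (nat_lit 94) (nat_lit 168) (nat_lit 0) (XT.lf (nat_lit 0) (nat_lit 10102153662) (nat_lit 336) (nat_lit 1686470214) (nat_lit 84) (nat_lit 12025340515) (nat_lit 36) (nat_lit 5) (nat_lit 40) (nat_lit 5) (nat_lit 37) (nat_lit 5) (nat_lit 402) (nat_lit 325) (nat_lit 218)) (XT.nd (nat_lit 94) (nat_lit 0) (nat_lit 0) (XT.lf (nat_lit 0) (nat_lit 7425557649) (nat_lit 168) (nat_lit 6535894762) (nat_lit 252) (nat_lit 10392475144) (nat_lit 34) (nat_lit 5)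 (nat_lit 36) (nat_lit 5) (nat_lit 37) (nat_lit 5) (nat_lit 403) (nat_lit 325) (nat_lit 217)) (XT.lf (nat_lit 0) (nat_lit 16825045627) (nat_lit 168) (nat_lit 1115696135) (nat_lit 252) (nat_lit 6969233418) (nat_lit 34) (nat_lit 5) (nat_lit 36) (nat_lit 5) (nat_lit 37) (nat_lit 5) (nat_lit 404) (nat_lit 325) (nat_lit 216)))) (XT.nd (nat_lit 188) (nat_lit 168) (nat_lit 0) (XT.nd (nat_lit 94) (nat_lit 84) (nat_lit 0) (XT.lf (nat_lit 0) (nat_lit 979804000) (nat_lit 168) (nat_lit 21099448369) (nat_lit 252) (nat_lit 3402268152) (nat_lit 32) (nat_lit 5) (nat_lit 34) (nat_lit 5) (nat_lit 35) (nat_lit 5) (nat_lit 405) (nat_lit 325) (nat_lit 215)) (XT.lf (nat_lit 0) (nat_lit 347423560) (nat_lit 252) (nat_lit 15620267145) (nat_lit 84) (nat_lit 10100023483) (nat_lit 31) (nat_lit 5) (nat_lit 34) (nat_lit 5) (nat_lit 32) (nat_lit 5) (nat_lit 406) (nat_lit 325) (nat_lit 214))) (XT.nd (nat_lit 94) (nat_lit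 168) (nat_lit 0) (XT.lf (nat_lit 0) (nat_lit 4129109904) (nat_lit 252) (nat_lit 6525720530) (nat_lit 84) (nat_lit 16016026658) (nat_lit 31) (nat_lit 5) (nat_lit 34) (nat_lit 5) (nat_lit 32) (nat_lit 5) (nat_lit 407) (nat_lit 325) (nat_lit 213)) (XT.lf (nat_lit 0) (nat_lit 2878749468) (nat_lit 168) (nat_lit 5161408605) (nat_lit 252) (nat_lit 19251469151) (nat_lit 29) (nat_lit 5) (nat_lit 31) (nat_lit 5) (nat_lit 32) (nat_lit 5) (nat_lit 408) (nat_lit 325) (nat_lit 212)))))) (XT.nd (nat_lit 658) (nat_lit 336) (nat_lit 0) (XT.nd (nat_lit 282) (nat_lit 252) (nat_lit 0) (XT.nd (nat_lit 94) (nat_lit 168) (nat_lit 0) (XT.lf (nat_lit 0) (nat_lit 12128192441) (nat_lit 252) (nat_lit 15254535711) (nat_lit 84) (nat_lit 546512641) (nat_lit 29) (nat_lit 5) (nat_lit 32) (nat_lit 5) (nat_lit 30) (nat_lit 5) (nat_lit 409) (nat_lit 325) (nat_lit 211)) (XT.nd (nat_lit 94) (nat_lit 168) (nat_lit 0) (XT.lf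 (nat_lit 0) (nat_lit 16378640438) (nat_lit 252) (nat_lit 5891176030) (nat_lit 84) (nat_lit 6314982812) (nat_lit 29) (nat_lit 5) (nat_lit 32) (nat_lit 5) (nat_lit 30) (nat_lit 5) (nat_lit 410) (nat_lit 325) (nat_lit 210)) (XT.lf (nat_lit 0) (nat_lit 3809331252) (nat_lit 168) (nat_lit 16972887798) (nat_lit 252) (nat_lit 8477046359) (nat_lit 27) (nat_lit 5) (nat_lit 29) (nat_lit 5) (nat_lit 30) (nat_lit 5) (nat_lit 411) (nat_lit 325) (nat_lit 209)))) (XT.nd (nat_lit 188) (nat_lit 252) (nat_lit 0) (XT.nd (nat_lit 94) (nat_lit 0) (nat_lit 0) (XT.lf (nat_lit 0) (nat_lit 13903707449) (nat_lit 168) (nat_lit 11462834698) (nat_lit 252) (nat_lit 4585973394) (nat_lit 27) (nat_lit 5) (nat_lit 29) (nat_lit 5) (nat_lit 30) (nat_lit 5) (nat_lit 412) (nat_lit 325) (nat_lit 208)) (XT.lf (nat_lit 0) (nat_lit 24283526933) (nat_lit 168) (nat_lit 5794331885) (nat_lit 252) (nat_lit 589029306) (nat_lit 27) (nat_lit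 5) (nat_lit 29) (nat_lit 5) (nat_lit 30) (nat_lit 5) (nat_lit 413) (nat_lit 325) (nat_lit 207))) (XT.nd (nat_lit 94) (nat_lit 0) (nat_lit 0) (XT.lf (nat_lit 0) (nat_lit 3484201345) (nat_lit 252) (nat_lit 27810877695) (nat_lit 84) (nat_lit 105847289) (nat_lit 24) (nat_lit 5) (nat_lit 27) (nat_lit 5) (nat_lit 25) (nat_lit 5) (nat_lit 414) (nat_lit 325) (nat_lit 206)) (XT.lf (nat_lit 0) (nat_lit 7779992060) (nat_lit 252) (nat_lit 18242555832) (nat_lit 84) (nat_lit 6130904880) (nat_lit 24) (nat_lit 5) (nat_lit 27) (nat_lit 5) (nat_lit 25) (nat_lit 5) (nat_lit 415) (nat_lit 325) (nat_lit 205))))) (XT.nd (nat_lit 282) (nat_lit 168) (nat_lit 0) (XT.nd (nat_lit 94) (nat_lit 168) (nat_lit 0) (XT.lf (nat_lit 0) (nat_lit 12194690267) (nat_lit 252) (nat_lit 8403861525) (nat_lit 84) (nat_lit 12330310080) (nat_lit 24) (nat_lit 5) (nat_lit 27) (nat_lit 5) (nat_lit 25) (nat_lit 5) (nat_lit 416) (nat_lit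 325) (nat_lit 204)) (XT.nd (nat_lit 94) (nat_lit 0) (nat_lit 0) (XT.lf (nat_lit 0) (nat_lit 1747910164) (nat_lit 168) (nat_lit 15001045286) (nat_lit 252) (nat_lit 16978371661) (nat_lit 22) (nat_lit 5) (nat_lit 24) (nat_lit 5) (nat_lit 25) (nat_lit 5) (nat_lit 417) (nat_lit 325) (nat_lit 203)) (XT.lf (nat_lit 0) (nat_lit 12360473200) (nat_lit 168) (nat_lit 9154689670) (nat_lit 252) (nat_lit 13032331434) (nat_lit 22) (nat_lit 5) (nat_lit 24) (nat_lit 5) (nat_lit 25) (nat_lit 5) (nat_lit 418) (nat_lit 325) (nat_lit 202)))) (XT.nd (nat_lit 188) (nat_lit 168) (nat_lit 0) (XT.nd (nat_lit 94) (nat_lit 0) (nat_lit 0) (XT.lf (nat_lit 0) (nat_lit 23275847371) (nat_lit 168) (nat_lit 3139239000) (nat_lit 252) (nat_lit 8977465452) (nat_lit 22) (nat_lit 5) (nat_lit 24) (nat_lit 5) (nat_lit 25) (nat_lit 5) (nat_lit 419) (nat_lit 325) (nat_lit 201)) (XT.lf (nat_lit 0) (nat_lit 31482331319) (nat_lit 252)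 (nat_lit 1788991566) (nat_lit 84) (nat_lit 2991035469) (nat_lit 22) (nat_lit 5) (nat_lit 25) (nat_lit 5) (nat_lit 23) (nat_lit 4) (nat_lit 420) (nat_lit 325) (nat_lit 200))) (XT.nd (nat_lit 94) (nat_lit 84) (nat_lit 0) (XT.lf (nat_lit 0) (nat_lit 8977775766) (nat_lit 84) (nat_lit 27832404257) (nat_lit 168) (nat_lit 344828260) (nat_lit 21) (nat_lit 5) (nat_lit 22) (nat_lit 5) (nat_lit 23) (nat_lit 4) (nat_lit 421) (nat_lit 325) (nat_lit 199)) (XT.lf (nat_lit 0) (nat_lit 4150483428) (nat_lit 168) (nat_lit 18025373271) (nat_lit 84) (nat_lit 15897085334) (nat_lit 20) (nat_lit 5) (nat_lit 22) (nat_lit 5) (nat_lit 21) (nat_lit 5) (nat_lit 422) (nat_lit 325) (nat_lit 198))))))))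
noncomputable def xc111 : XT := (XT.nd (nat_lit 50572) (nat_lit 0) (nat_lit 10332) (XT.nd (nat_lit 1316) (nat_lit 252) (nat_lit 0) (XT.nd (nat_lit 658) (nat_lit 336) (nat_lit 0) (XT.nd (nat_lit 282) (nat_lit 84) (nat_lit 0) (XT.nd (nat_lit 94) (nat_lit 168) (nat_lit 0) (XT.lf (nat_lit 0) (nat_lit 8765206324) (nat_lit 168) (nat_lit 7586857037) (nat_lit 84) (nat_lit 22666509750) (nat_lit 20) (nat_lit 5) (nat_lit 22) (nat_lit 5) (nat_lit 21) (nat_lit 5) (nat_lit 423) (nat_lit 325) (nat_lit 197)) (XT.nd (nat_lit 94) (nat_lit 0) (nat_lit 0) (XT.lf (nat_lit 0) (nat_lit 3213458057) (nat_lit 168) (nat_lit 10327533220) (nat_lit 252) (nat_lit 26450909271) (nat_lit 18) (nat_lit 5) (nat_lit 20) (nat_lit 5) (nat_lit 21) (nat_lit 5) (nat_lit 424) (nat_lit 325) (nat_lit 196)) (XT.lf (nat_lit 0) (nat_lit 14479380840) (nat_lit 168) (nat_lit 4049118964) (nat_lit 252) (nat_lit 22463880364) (nat_lit 18) (nat_lit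 5) (nat_lit 20) (nat_lit 5) (nat_lit 21) (nat_lit 5) (nat_lit 425) (nat_lit 325) (nat_lit 195)))) (XT.nd (nat_lit 188) (nat_lit 84) (nat_lit 0) (XT.nd (nat_lit 94) (nat_lit 0) (nat_lit 0) (XT.lf (nat_lit 0) (nat_lit 23680895100) (nat_lit 252) (nat_lit 15976541744) (nat_lit 84) (nat_lit 2364985177) (nat_lit 18) (nat_lit 5) (nat_lit 21) (nat_lit 5) (nat_lit 19) (nat_lit 4) (nat_lit 426) (nat_lit 325) (nat_lit 194)) (XT.lf (nat_lit 0) (nat_lit 29020206525) (nat_lit 252) (nat_lit 5177390394) (nat_lit 84) (nat_lit 8884803405) (nat_lit 18) (nat_lit 5) (nat_lit 21) (nat_lit 5) (nat_lit 19) (nat_lit 4) (nat_lit 427) (nat_lit 325) (nat_lit 193))) (XT.nd (nat_lit 94) (nat_lit 0) (nat_lit 0) (XT.lf (nat_lit 0) (nat_lit 6050888102) (nat_lit 84) (nat_lit 28519453626) (nat_lit 168) (nat_lit 9602322281) (nat_lit 17) (nat_lit 5) (nat_lit 18) (nat_lit 5) (nat_lit 19) (nat_lit 4) (nat_lit 428) (nat_lit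 325) (nat_lit 192)) (XT.lf (nat_lit 0) (nat_lit 17709351052) (nat_lit 84) (nat_lit 22622487066) (nat_lit 168) (nat_lit 4962456977) (nat_lit 17) (nat_lit 5) (nat_lit 18) (nat_lit 5) (nat_lit 19) (nat_lit 4) (nat_lit 429) (nat_lit 325) (nat_lit 191))))) (XT.nd (nat_lit 282) (nat_lit 84) (nat_lit 0) (XT.nd (nat_lit 94) (nat_lit 252) (nat_lit 0) (XT.lf (nat_lit 0) (nat_lit 29705145243) (nat_lit 84) (nat_lit 16553826043) (nat_lit 168) (nat_lit 190825129) (nat_lit 17) (nat_lit 5) (nat_lit 18) (nat_lit 5) (nat_lit 19) (nat_lit 4) (nat_lit 430) (nat_lit 325) (nat_lit 190)) (XT.nd (nat_lit 94) (nat_lit 168) (nat_lit 0) (XT.lf (nat_lit 0) (nat_lit 4624702012) (nat_lit 168) (nat_lit 5636765408) (nat_lit 84) (nat_lit 37377350000) (nat_lit 16) (nat_lit 5) (nat_lit 18) (nat_lit 5) (nat_lit 17) (nat_lit 5) (nat_lit 431) (nat_lit 325) (nat_lit 189)) (XT.lf (nat_lit 0) (nat_lit 5905861381) (nat_lit 168)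 (nat_lit 3724902660) (nat_lit 252) (nat_lit 39231195828) (nat_lit 14) (nat_lit 5) (nat_lit 16) (nat_lit 5) (nat_lit 17) (nat_lit 5) (nat_lit 432) (nat_lit 325) (nat_lit 188)))) (XT.nd (nat_lit 188) (nat_lit 84) (nat_lit 0) (XT.nd (nat_lit 94) (nat_lit 0) (nat_lit 0) (XT.lf (nat_lit 0) (nat_lit 14866577465) (nat_lit 252) (nat_lit 32251144690) (nat_lit 84) (nat_lit 3001691839) (nat_lit 14) (nat_lit 5) (nat_lit 17) (nat_lit 5) (nat_lit 15) (nat_lit 4) (nat_lit 433) (nat_lit 325) (nat_lit 187)) (XT.lf (nat_lit 0) (nat_lit 20289717623) (nat_lit 252) (nat_lit 21273470912) (nat_lit 84) (nat_lit 9850500000) (nat_lit 14) (nat_lit 5) (nat_lit 17) (nat_lit 5) (nat_lit 15) (nat_lit 4) (nat_lit 434) (nat_lit 325) (nat_lit 186))) (XT.nd (nat_lit 94) (nat_lit 84) (nat_lit 0) (XT.lf (nat_lit 0) (nat_lit 25869117137) (nat_lit 252) (nat_lit 9977678969) (nat_lit 84) (nat_lit 16900192487) (nat_lit 14) (nat_lit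 5) (nat_lit 17) (nat_lit 5) (nat_lit 15) (nat_lit 4) (nat_lit 435) (nat_lit 325) (nat_lit 185)) (XT.lf (nat_lit 0) (nat_lit 1678861892) (nat_lit 84) (nat_lit 29946927567) (nat_lit 168) (nat_lit 22494205578) (nat_lit 13) (nat_lit 5) (nat_lit 14) (nat_lit 5) (nat_lit 15) (nat_lit 4) (nat_lit 436) (nat_lit 325) (nat_lit 184)))))) (XT.nd (nat_lit 658) (nat_lit 84) (nat_lit 0) (XT.nd (nat_lit 282) (nat_lit 168) (nat_lit 0) (XT.nd (nat_lit 94) (nat_lit 0) (nat_lit 0) (XT.lf (nat_lit 0) (nat_lit 13878852853) (nat_lit 84) (nat_lit 23770895017) (nat_lit 168) (nat_lit 17881610218) (nat_lit 13) (nat_lit 5) (nat_lit 14) (nat_lit 5) (nat_lit 15) (nat_lit 4) (nat_lit 437) (nat_lit 325) (nat_lit 183)) (XT.nd (nat_lit 94) (nat_lit 0) (nat_lit 0) (XT.lf (nat_lit 0) (nat_lit 26434378725) (nat_lit 84) (nat_lit 17414056917) (nat_lit 168) (nat_lit 13136809946) (nat_lit 13) (nat_lit 5) (nat_lit 14) (nat_lit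 5) (nat_lit 15) (nat_lit 4) (nat_lit 438) (nat_lit 325) (nat_lit 182)) (XT.lf (nat_lit 0) (nat_lit 39356410355) (nat_lit 84) (nat_lit 10870858747) (nat_lit 168) (nat_lit 8255658819) (nat_lit 13) (nat_lit 5) (nat_lit 14) (nat_lit 5) (nat_lit 15) (nat_lit 4) (nat_lit 439) (nat_lit 325) (nat_lit 181)))) (XT.nd (nat_lit 188) (nat_lit 0) (nat_lit 0) (XT.nd (nat_lit 94) (nat_lit 168) (nat_lit 0) (XT.lf (nat_lit 0) (nat_lit 52656238839) (nat_lit 84) (nat_lit 4135583151) (nat_lit 168) (nat_lit 3233891754) (nat_lit 13) (nat_lit 5) (nat_lit 14) (nat_lit 5) (nat_lit 15) (nat_lit 4) (nat_lit 440) (nat_lit 325) (nat_lit 180)) (XT.lf (nat_lit 0) (nat_lit 1968891509) (nat_lit 168) (nat_lit 56834810595) (nat_lit 84) (nat_lit 2808479726) (nat_lit 11) (nat_lit 5) (nat_lit 13) (nat_lit 5) (nat_lit 12) (nat_lit 4) (nat_lit 441) (nat_lit 325) (nat_lit 179))) (XT.nd (nat_lit 94) (nat_lit 0) (nat_lit 0) (XT.lf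 (nat_lit 0) (nat_lit 7373351211) (nat_lit 168) (nat_lit 45887746812) (nat_lit 84) (nat_lit 9980870986) (nat_lit 11) (nat_lit 5) (nat_lit 13) (nat_lit 5) (nat_lit 12) (nat_lit 4) (nat_lit 442) (nat_lit 325) (nat_lit 178)) (XT.lf (nat_lit 0) (nat_lit 12934595718) (nat_lit 168) (nat_lit 34621711156) (nat_lit 84) (nat_lit 17364506645) (nat_lit 11) (nat_lit 5) (nat_lit 13) (nat_lit 5) (nat_lit 12) (nat_lit 4) (nat_lit 443) (nat_lit 325) (nat_lit 177))))) (XT.nd (nat_lit 48222) (nat_lit 0) (nat_lit 19236) (XT.nd (nat_lit 94) (nat_lit 84) (nat_lit 0) (XT.lf (nat_lit 0) (nat_lit 18657484368) (nat_lit 168) (nat_lit 23026859519) (nat_lit 84) (nat_lit 24965838423) (nat_lit 11) (nat_lit 5) (nat_lit 13) (nat_lit 5) (nat_lit 12) (nat_lit 4) (nat_lit 444) (nat_lit 325) (nat_lit 176)) (XT.nd (nat_lit 94) (nat_lit 84) (nat_lit 0) (XT.lf (nat_lit 0) (nat_lit 24547017745) (nat_lit 168) (nat_lit 11093060475)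 (nat_lit 84) (nat_lit 32791508261) (nat_lit 11) (nat_lit 5) (nat_lit 13) (nat_lit 5) (nat_lit 12) (nat_lit 4) (nat_lit 445) (nat_lit 325) (nat_lit 175)) (XT.lf (nat_lit 0) (nat_lit 1213799158) (nat_lit 84) (nat_lit 29406210663) (nat_lit 168) (nat_lit 39646222745) (nat_lit 10) (nat_lit 5) (nat_lit 11) (nat_lit 5) (nat_lit 12) (nat_lit 4) (nat_lit 446) (nat_lit 325) (nat_lit 174)))) (XT.nd (nat_lit 188) (nat_lit 756) (nat_lit 0) (XT.nd (nat_lit 94) (nat_lit 0) (nat_lit 0) (XT.lf (nat_lit 0) (nat_lit 1960164562) (nat_lit 756) (nat_lit 763597960) (nat_lit 756) (nat_lit 763597960) (nat_lit 248) (nat_lit 3) (nat_lit 257) (nat_lit 3) (nat_lit 257) (nat_lit 5) (nat_lit 326) (nat_lit 326) (nat_lit 293)) (XT.lf (nat_lit 84) (nat_lit 1591966245) (nat_lit 0) (nat_lit 4080300196) (nat_lit 756) (nat_lit 1352043105) (nat_lit 249) (nat_lit 5) (nat_lit 248) (nat_lit 3) (nat_lit 257) (nat_lit 5) (nat_lit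 327) (nat_lit 326) (nat_lit 292))) (XT.nd (nat_lit 94) (nat_lit 0) (nat_lit 0) (XT.lf (nat_lit 0) (nat_lit 342491968) (nat_lit 756) (nat_lit 2278889594) (nat_lit 840) (nat_lit 4455580620) (nat_lit 239) (nat_lit 5) (nat_lit 248) (nat_lit 3) (nat_lit 249) (nat_lit 5) (nat_lit 328) (nat_lit 326) (nat_lit 291)) (XT.lf (nat_lit 84) (nat_lit 939190884) (nat_lit 0) (nat_lit 1065839924) (nat_lit 840) (nat_lit 5127587632) (nat_lit 240) (nat_lit 5) (nat_lit 239) (nat_lit 5) (nat_lit 249) (nat_lit 5) (nat_lit 329) (nat_lit 326) (nat_lit 290))))))) (XT.nd (nat_lit 1316) (nat_lit 6468) (nat_lit 0) (XT.nd (nat_lit 658) (nat_lit 1680) (nat_lit 0) (XT.nd (nat_lit 282) (nat_lit 840) (nat_lit 0) (XT.nd (nat_lit 94) (nat_lit 0) (nat_lit 0) (XT.lf (nat_lit 0) (nat_lit 3682982455) (nat_lit 756) (nat_lit 2931003841) (nat_lit 840) (nat_lit 577143361) (nat_lit 240) (nat_lit 5) (nat_lit 249) (nat_lit 5) (nat_lit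 250) (nat_lit 5) (nat_lit 330) (nat_lit 326) (nat_lit 289)) (XT.nd (nat_lit 94) (nat_lit 0) (nat_lit 0) (XT.lf (nat_lit 84) (nat_lit 390540308) (nat_lit 0) (nat_lit 4974010766) (nat_lit 840) (nat_lit 1888393747) (nat_lit 241) (nat_lit 5) (nat_lit 240) (nat_lit 5) (nat_lit 250) (nat_lit 5) (nat_lit 331) (nat_lit 326) (nat_lit 288)) (XT.lf (nat_lit 84) (nat_lit 3836344414) (nat_lit 0) (nat_lit 3230227752) (nat_lit 840) (nat_lit 251084795) (nat_lit 241) (nat_lit 5) (nat_lit 240) (nat_lit 5) (nat_lit 250) (nat_lit 5) (nat_lit 332) (nat_lit 326) (nat_lit 287)))) (XT.nd (nat_lit 188) (nat_lit 0) (nat_lit 84) (XT.nd (nat_lit 94) (nat_lit 0) (nat_lit 84) (XT.lf (nat_lit 0) (nat_lit 1348769756) (nat_lit 840) (nat_lit 48321264) (nat_lit 924) (nat_lit 5988696960) (nat_lit 230) (nat_lit 5) (nat_lit 240) (nat_lit 5) (nat_lit 241) (nat_lit 5) (nat_lit 333) (nat_lit 326) (nat_lit 286)) (XT.lf (nat_lit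 0) (nat_lit 2973835214) (nat_lit 840) (nat_lit 3942852761) (nat_lit 924) (nat_lit 539863097) (nat_lit 231) (nat_lit 5) (nat_lit 241) (nat_lit 5) (nat_lit 242) (nat_lit 5) (nat_lit 334) (nat_lit 326) (nat_lit 285))) (XT.nd (nat_lit 94) (nat_lit 0) (nat_lit 0) (XT.lf (nat_lit 0) (nat_lit 4606648256) (nat_lit 840) (nat_lit 396042209) (nat_lit 924) (nat_lit 2528103492) (nat_lit 231) (nat_lit 5) (nat_lit 241) (nat_lit 5) (nat_lit 242) (nat_lit 5) (nat_lit 335) (nat_lit 326) (nat_lit 284)) (XT.lf (nat_lit 84) (nat_lit 3286001779) (nat_lit 0) (nat_lit 2980312772) (nat_lit 924) (nat_lit 1341736591) (nat_lit 232) (nat_lit 5) (nat_lit 231) (nat_lit 5) (nat_lit 242) (nat_lit 5) (nat_lit 336) (nat_lit 326) (nat_lit 283))))) (XT.nd (nat_lit 282) (nat_lit 840) (nat_lit 0) (XT.nd (nat_lit 94) (nat_lit 0) (nat_lit 84) (XT.lf (nat_lit 0) (nat_lit 233434516) (nat_lit 924) (nat_lit 639809859) (nat_lit 1008)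 (nat_lit 6815887213) (nat_lit 220) (nat_lit 5) (nat_lit 231) (nat_lit 5) (nat_lit 232) (nat_lit 5) (nat_lit 337) (nat_lit 326) (nat_lit 282)) (XT.nd (nat_lit 94) (nat_lit 0) (nat_lit 0) (XT.lf (nat_lit 0) (nat_lit 1820810386) (nat_lit 924) (nat_lit 4619721388) (nat_lit 1008) (nat_lit 1332069257) (nat_lit 221) (nat_lit 5) (nat_lit 232) (nat_lit 5) (nat_lit 233) (nat_lit 5) (nat_lit 338) (nat_lit 326) (nat_lit 281)) (XT.lf (nat_lit 0) (nat_lit 3420718599) (nat_lit 924) (nat_lit 831121931) (nat_lit 1008) (nat_lit 3607896047) (nat_lit 221) (nat_lit 5) (nat_lit 232) (nat_lit 5) (nat_lit 233) (nat_lit 5) (nat_lit 339) (nat_lit 326) (nat_lit 280)))) (XT.nd (nat_lit 188) (nat_lit 924) (nat_lit 0) (XT.nd (nat_lit 94) (nat_lit 0) (nat_lit 84) (XT.lf (nat_lit 84) (nat_lit 3096118384) (nat_lit 0) (nat_lit 1953471625) (nat_lit 1008) (nat_lit 2900573371) (nat_lit 222) (nat_lit 5) (nat_lit 221) (nat_lit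 5) (nat_lit 233) (nat_lit 5) (nat_lit 340) (nat_lit 326) (nat_lit 279)) (XT.lf (nat_lit 0) (nat_lit 6692191024) (nat_lit 924) (nat_lit 925641329) (nat_lit 84) (nat_lit 426627807) (nat_lit 222) (nat_lit 5) (nat_lit 233) (nat_lit 5) (nat_lit 223) (nat_lit 5) (nat_lit 341) (nat_lit 326) (nat_lit 278))) (XT.nd (nat_lit 94) (nat_lit 0) (nat_lit 0) (XT.lf (nat_lit 0) (nat_lit 240877814) (nat_lit 1008) (nat_lit 5017338892) (nat_lit 84) (nat_lit 2883302610) (nat_lit 210) (nat_lit 5) (nat_lit 222) (nat_lit 5) (nat_lit 211) (nat_lit 5) (nat_lit 342) (nat_lit 326) (nat_lit 277)) (XT.lf (nat_lit 0) (nat_lit 1818338694) (nat_lit 1008) (nat_lit 976546353) (nat_lit 84) (nat_lit 5447386901) (nat_lit 210) (nat_lit 5) (nat_lit 222) (nat_lit 5) (nat_lit 211) (nat_lit 5) (nat_lit 343) (nat_lit 326) (nat_lit 276)))))) (XT.nd (nat_lit 658) (nat_lit 1848) (nat_lit 0) (XT.nd (nat_lit 282) (nat_lit 2520) (nat_lit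 0) (XT.nd (nat_lit 94) (nat_lit 1092) (nat_lit 0) (XT.lf (nat_lit 0) (nat_lit 3212896461) (nat_lit 1008) (nat_lit 216702607) (nat_lit 1092) (nat_lit 4916945403) (nat_lit 198) (nat_lit 5) (nat_lit 210) (nat_lit 5) (nat_lit 211) (nat_lit 5) (nat_lit 344) (nat_lit 326) (nat_lit 275)) (XT.nd (nat_lit 94) (nat_lit 1092) (nat_lit 0) (XT.lf (nat_lit 0) (nat_lit 5079230649) (nat_lit 1092) (nat_lit 965546977) (nat_lit 84) (nat_lit 2409555457) (nat_lit 198) (nat_lit 5) (nat_lit 211) (nat_lit 5) (nat_lit 199) (nat_lit 5) (nat_lit 345) (nat_lit 326) (nat_lit 274)) (XT.lf (nat_lit 0) (nat_lit 3355594029) (nat_lit 1092) (nat_lit 3415052986) (nat_lit 1176) (nat_lit 1795025787) (nat_lit 185) (nat_lit 5) (nat_lit 198) (nat_lit 5) (nat_lit 199) (nat_lit 5) (nat_lit 346) (nat_lit 326) (nat_lit 273)))) (XT.nd (nat_lit 188) (nat_lit 1260) (nat_lit 0) (XT.nd (nat_lit 94) (nat_lit 1260) (nat_lit 0) (XT.lf (nat_lit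 0) (nat_lit 7791171264) (nat_lit 1092) (nat_lit 690169016) (nat_lit 1176) (nat_lit 200040213) (nat_lit 185) (nat_lit 5) (nat_lit 198) (nat_lit 5) (nat_lit 199) (nat_lit 5) (nat_lit 347) (nat_lit 326) (nat_lit 272)) (XT.lf (nat_lit 0) (nat_lit 1429443499) (nat_lit 1260) (nat_lit 5240884189) (nat_lit 84) (nat_lit 2129450572) (nat_lit 170) (nat_lit 5) (nat_lit 185) (nat_lit 5) (nat_lit 171) (nat_lit 5) (nat_lit 348) (nat_lit 326) (nat_lit 271))) (XT.nd (nat_lit 94) (nat_lit 1260) (nat_lit 0) (XT.lf (nat_lit 0) (nat_lit 3080108483) (nat_lit 1260) (nat_lit 806472406) (nat_lit 84) (nat_lit 5035874832) (nat_lit 170) (nat_lit 5) (nat_lit 185) (nat_lit 5) (nat_lit 171) (nat_lit 5) (nat_lit 349) (nat_lit 326) (nat_lit 270)) (XT.lf (nat_lit 0) (nat_lit 3800343661) (nat_lit 1260) (nat_lit 978039859) (nat_lit 1344) (nat_lit 4270561746) (nat_lit 155) (nat_lit 5) (nat_lit 170) (nat_lit 5) (nat_lit 171)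 (nat_lit 5) (nat_lit 350) (nat_lit 326) (nat_lit 269))))) (XT.nd (nat_lit 282) (nat_lit 1176) (nat_lit 0) (XT.nd (nat_lit 94) (nat_lit 672) (nat_lit 0) (XT.lf (nat_lit 0) (nat_lit 6517605390) (nat_lit 1344) (nat_lit 672243752) (nat_lit 84) (nat_lit 1989752696) (nat_lit 155) (nat_lit 5) (nat_lit 171) (nat_lit 5) (nat_lit 156) (nat_lit 5) (nat_lit 351) (nat_lit 326) (nat_lit 268)) (XT.nd (nat_lit 94) (nat_lit 84) (nat_lit 0) (XT.lf (nat_lit 0) (nat_lit 4076632096) (nat_lit 588) (nat_lit 4244716482) (nat_lit 672) (nat_lit 992529378) (nat_lit 148) (nat_lit 5) (nat_lit 155) (nat_lit 5) (nat_lit 156) (nat_lit 5) (nat_lit 352) (nat_lit 326) (nat_lit 267)) (XT.lf (nat_lit 0) (nat_lit 683477432) (nat_lit 672) (nat_lit 512366163) (nat_lit 84) (nat_lit 8257075990) (nat_lit 147) (nat_lit 5) (nat_lit 155) (nat_lit 5) (nat_lit 148) (nat_lit 5) (nat_lit 353) (nat_lit 326) (nat_lit 266)))) (XT.nd (nat_lit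 188) (nat_lit 588) (nat_lit 0) (XT.nd (nat_lit 94) (nat_lit 0) (nat_lit 0) (XT.lf (nat_lit 0) (nat_lit 2416133733) (nat_lit 672) (nat_lit 5218753383) (nat_lit 84) (nat_lit 1960225225) (nat_lit 140) (nat_lit 5) (nat_lit 148) (nat_lit 5) (nat_lit 141) (nat_lit 5) (nat_lit 354) (nat_lit 326) (nat_lit 265)) (XT.lf (nat_lit 0) (nat_lit 4183383403) (nat_lit 672) (nat_lit 365891537) (nat_lit 84) (nat_lit 5192879894) (nat_lit 140) (nat_lit 5) (nat_lit 148) (nat_lit 5) (nat_lit 141) (nat_lit 5) (nat_lit 355) (nat_lit 326) (nat_lit 264))) (XT.nd (nat_lit 94) (nat_lit 0) (nat_lit 0) (XT.lf (nat_lit 0) (nat_lit 4690261170) (nat_lit 588) (nat_lit 1325027017) (nat_lit 672) (nat_lit 3878031831) (nat_lit 133) (nat_lit 5) (nat_lit 140) (nat_lit 5) (nat_lit 141) (nat_lit 5) (nat_lit 356) (nat_lit 326) (nat_lit 263)) (XT.lf (nat_lit 0) (nat_lit 7892265391) (nat_lit 672) (nat_lit 197056629) (nat_lit 84) (nat_lit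 1960053463) (nat_lit 133) (nat_lit 5) (nat_lit 141) (nat_lit 5) (nat_lit 134) (nat_lit 5) (nat_lit 357) (nat_lit 326) (nat_lit 262))))))))
noncomputable def xc112 : XT := (XT.nd (nat_lit 2538) (nat_lit 2772) (nat_lit 0) (XT.nd (nat_lit 1222) (nat_lit 2520) (nat_lit 0) (XT.nd (nat_lit 564) (nat_lit 1512) (nat_lit 0) (XT.nd (nat_lit 282) (nat_lit 924) (nat_lit 0) (XT.nd (nat_lit 94) (nat_lit 588) (nat_lit 0) (XT.lf (nat_lit 0) (nat_lit 5010256937) (nat_lit 588) (nat_lit 4844728747) (nat_lit 672) (nat_lit 354300985) (nat_lit 126) (nat_lit 5) (nat_lit 133) (nat_lit 5) (nat_lit 134) (nat_lit 5) (nat_lit 358) (nat_lit 326) (nat_lit 261)) (XT.nd (nat_lit 94) (nat_lit 504) (nat_lit 0) (XT.lf (nat_lit 0) (nat_lit 1443678958) (nat_lit 672) (nat_lit 44441585) (nat_lit 84) (nat_lit 8886382901) (nat_lit 125) (nat_lit 5) (nat_lit 133) (nat_lit 5) (nat_lit 126) (nat_lit 5) (nat_lit 359) (nat_lit 326)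 (nat_lit 260)) (XT.lf (nat_lit 0) (nat_lit 3328504432) (nat_lit 588) (nat_lit 5231010341) (nat_lit 84) (nat_lit 1983908124) (nat_lit 119) (nat_lit 5) (nat_lit 126) (nat_lit 5) (nat_lit 120) (nat_lit 5) (nat_lit 360) (nat_lit 326) (nat_lit 259)))) (XT.nd (nat_lit 94) (nat_lit 420) (nat_lit 0) (XT.lf (nat_lit 0) (nat_lit 66554232) (nat_lit 504) (nat_lit 5189022651) (nat_lit 588) (nat_lit 5462312689) (nat_lit 113) (nat_lit 5) (nat_lit 119) (nat_lit 5) (nat_lit 120) (nat_lit 5) (nat_lit 361) (nat_lit 326) (nat_lit 258)) (XT.nd (nat_lit 94) (nat_lit 420) (nat_lit 0) (XT.lf (nat_lit 0) (nat_lit 5597111656) (nat_lit 504) (nat_lit 1666606789) (nat_lit 588) (nat_lit 3633223324) (nat_lit 113) (nat_lit 5) (nat_lit 119) (nat_lit 5) (nat_lit 120) (nat_lit 5) (nat_lit 362) (nat_lit 326) (nat_lit 257)) (XT.lf (nat_lit 0) (nat_lit 163481354) (nat_lit 420) (nat_lit 9160310893) (nat_lit 504) (nat_lit 1757870442)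 (nat_lit 108) (nat_lit 5) (nat_lit 113) (nat_lit 5) (nat_lit 114) (nat_lit 5) (nat_lit 363) (nat_lit 326) (nat_lit 256))))) (XT.nd (nat_lit 282) (nat_lit 924) (nat_lit 0) (XT.nd (nat_lit 94) (nat_lit 504) (nat_lit 0) (XT.lf (nat_lit 0) (nat_lit 212360418) (nat_lit 504) (nat_lit 5423050159) (nat_lit 84) (nat_lit 5635249376) (nat_lit 107) (nat_lit 5) (nat_lit 113) (nat_lit 5) (nat_lit 108) (nat_lit 5) (nat_lit 364) (nat_lit 326) (nat_lit 255)) (XT.nd (nat_lit 94) (nat_lit 0) (nat_lit 0) (XT.lf (nat_lit 0) (nat_lit 190863579) (nat_lit 504) (nat_lit 1989628076) (nat_lit 588) (nat_lit 9285133333) (nat_lit 101) (nat_lit 5) (nat_lit 107) (nat_lit 5) (nat_lit 108) (nat_lit 5) (nat_lit 365) (nat_lit 326) (nat_lit 254)) (XT.lf (nat_lit 0) (nat_lit 4252684772) (nat_lit 588) (nat_lit 5630833347) (nat_lit 84) (nat_lit 1781612783) (nat_lit 101) (nat_lit 5) (nat_lit 108) (nat_lit 5) (nat_lit 102) (nat_lit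 5) (nat_lit 366) (nat_lit 326) (nat_lit 253)))) (XT.nd (nat_lit 188) (nat_lit 504) (nat_lit 0) (XT.nd (nat_lit 94) (nat_lit 0) (nat_lit 0) (XT.lf (nat_lit 0) (nat_lit 133388345) (nat_lit 420) (nat_lit 6248172987) (nat_lit 504) (nat_lit 5489266360) (nat_lit 96) (nat_lit 5) (nat_lit 101) (nat_lit 5) (nat_lit 102) (nat_lit 5) (nat_lit 367) (nat_lit 326) (nat_lit 252)) (XT.lf (nat_lit 0) (nat_lit 6154348458) (nat_lit 420) (nat_lit 2450819150) (nat_lit 504) (nat_lit 3476641904) (nat_lit 96) (nat_lit 5) (nat_lit 101) (nat_lit 5) (nat_lit 102) (nat_lit 5) (nat_lit 368) (nat_lit 326) (nat_lit 251))) (XT.nd (nat_lit 94) (nat_lit 84) (nat_lit 0) (XT.lf (nat_lit 0) (nat_lit 11565888) (nat_lit 420) (nat_lit 10872773959) (nat_lit 504) (nat_lit 1415154069) (nat_lit 91) (nat_lit 5) (nat_lit 96) (nat_lit 5) (nat_lit 97) (nat_lit 5) (nat_lit 369) (nat_lit 326) (nat_lit 250)) (XT.lf (nat_lit 0) (nat_lit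 753935346) (nat_lit 504) (nat_lit 6334974324) (nat_lit 84) (nat_lit 5432844309) (nat_lit 90) (nat_lit 5) (nat_lit 96) (nat_lit 5) (nat_lit 91) (nat_lit 5) (nat_lit 370) (nat_lit 326) (nat_lit 249)))))) (XT.nd (nat_lit 658) (nat_lit 1344) (nat_lit 0) (XT.nd (nat_lit 282) (nat_lit 840) (nat_lit 0) (XT.nd (nat_lit 94) (nat_lit 336) (nat_lit 0) (XT.lf (nat_lit 0) (nat_lit 2935248576) (nat_lit 504) (nat_lit 248187428) (nat_lit 84) (nat_lit 9567593232) (nat_lit 90) (nat_lit 5) (nat_lit 96) (nat_lit 5) (nat_lit 91) (nat_lit 5) (nat_lit 371) (nat_lit 326) (nat_lit 248)) (XT.nd (nat_lit 94) (nat_lit 0) (nat_lit 0) (XT.lf (nat_lit 0) (nat_lit 5225634485) (nat_lit 420) (nat_lit 6884161062) (nat_lit 84) (nat_lit 876112735) (nat_lit 86) (nat_lit 5) (nat_lit 91) (nat_lit 5) (nat_lit 87) (nat_lit 5) (nat_lit 372) (nat_lit 326) (nat_lit 247)) (XT.lf (nat_lit 0) (nat_lit 7595433119) (nat_lit 420) (nat_lit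 642262835) (nat_lit 84) (nat_lit 4989850233) (nat_lit 86) (nat_lit 5) (nat_lit 91) (nat_lit 5) (nat_lit 87) (nat_lit 5) (nat_lit 373) (nat_lit 326) (nat_lit 246)))) (XT.nd (nat_lit 188) (nat_lit 420) (nat_lit 0) (XT.nd (nat_lit 94) (nat_lit 0) (nat_lit 0) (XT.lf (nat_lit 0) (nat_lit 5872131346) (nat_lit 420) (nat_lit 4197971913) (nat_lit 504) (nat_lit 3405349190) (nat_lit 81) (nat_lit 5) (nat_lit 86) (nat_lit 5) (nat_lit 87) (nat_lit 5) (nat_lit 374) (nat_lit 326) (nat_lit 245)) (XT.lf (nat_lit 0) (nat_lit 12566063406) (nat_lit 420) (nat_lit 37147643) (nat_lit 504) (nat_lit 1128090523) (nat_lit 81) (nat_lit 5) (nat_lit 86) (nat_lit 5) (nat_lit 87) (nat_lit 5) (nat_lit 375) (nat_lit 326) (nat_lit 244))) (XT.nd (nat_lit 94) (nat_lit 0) (nat_lit 0) (XT.lf (nat_lit 0) (nat_lit 1266453770) (nat_lit 420) (nat_lit 8501396373) (nat_lit 84) (nat_lit 4224472951) (nat_lit 76) (nat_lit 5) (nat_lit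 81) (nat_lit 5) (nat_lit 77) (nat_lit 5) (nat_lit 376) (nat_lit 326) (nat_lit 243)) (XT.lf (nat_lit 0) (nat_lit 3700826881) (nat_lit 420) (nat_lit 1930818786) (nat_lit 84) (nat_lit 8629503457) (nat_lit 76) (nat_lit 5) (nat_lit 81) (nat_lit 5) (nat_lit 77) (nat_lit 5) (nat_lit 377) (nat_lit 326) (nat_lit 242))))) (XT.nd (nat_lit 282) (nat_lit 672) (nat_lit 0) (XT.nd (nat_lit 94) (nat_lit 336) (nat_lit 0) (XT.lf (nat_lit 0) (nat_lit 4904418010) (nat_lit 336) (nat_lit 1330001199) (nat_lit 420) (nat_lit 8302863161) (nat_lit 72) (nat_lit 5) (nat_lit 76) (nat_lit 5) (nat_lit 77) (nat_lit 5) (nat_lit 378) (nat_lit 326) (nat_lit 241)) (XT.nd (nat_lit 94) (nat_lit 336) (nat_lit 0) (XT.lf (nat_lit 0) (nat_lit 8872831784) (nat_lit 420) (nat_lit 2895282355) (nat_lit 84) (nat_lit 3052748357) (nat_lit 72) (nat_lit 5) (nat_lit 77) (nat_lit 5) (nat_lit 73) (nat_lit 5) (nat_lit 379) (nat_lit 326) (nat_lit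 240)) (XT.lf (nat_lit 0) (nat_lit 4083307091) (nat_lit 336) (nat_lit 7539427853) (nat_lit 420) (nat_lit 3489271398) (nat_lit 68) (nat_lit 5) (nat_lit 72) (nat_lit 5) (nat_lit 73) (nat_lit 5) (nat_lit 380) (nat_lit 326) (nat_lit 239)))) (XT.nd (nat_lit 188) (nat_lit 252) (nat_lit 0) (XT.nd (nat_lit 94) (nat_lit 420) (nat_lit 0) (XT.lf (nat_lit 0) (nat_lit 11303243850) (nat_lit 336) (nat_lit 3161368544) (nat_lit 420) (nat_lit 947013486) (nat_lit 68) (nat_lit 5) (nat_lit 72) (nat_lit 5) (nat_lit 73) (nat_lit 5) (nat_lit 381) (nat_lit 326) (nat_lit 238)) (XT.lf (nat_lit 0) (nat_lit 1662011281) (nat_lit 420) (nat_lit 12697074839) (nat_lit 84) (nat_lit 1359996585) (nat_lit 63) (nat_lit 5) (nat_lit 68) (nat_lit 5) (nat_lit 64) (nat_lit 5) (nat_lit 382) (nat_lit 326) (nat_lit 237))) (XT.nd (nat_lit 94) (nat_lit 252) (nat_lit 0) (XT.lf (nat_lit 0) (nat_lit 4384307445) (nat_lit 420) (nat_lit 5652311884)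 (nat_lit 84) (nat_lit 5997265086) (nat_lit 63) (nat_lit 5) (nat_lit 68) (nat_lit 5) (nat_lit 64) (nat_lit 5) (nat_lit 383) (nat_lit 326) (nat_lit 236)) (XT.lf (nat_lit 0) (nat_lit 1608746885) (nat_lit 252) (nat_lit 5576384671) (nat_lit 336) (nat_lit 9173115676) (nat_lit 60) (nat_lit 5) (nat_lit 63) (nat_lit 5) (nat_lit 64) (nat_lit 5) (nat_lit 384) (nat_lit 326) (nat_lit 235))))))) (XT.nd (nat_lit 1316) (nat_lit 1092) (nat_lit 0) (XT.nd (nat_lit 658) (nat_lit 756) (nat_lit 0) (XT.nd (nat_lit 282) (nat_lit 588) (nat_lit 0) (XT.nd (nat_lit 94) (nat_lit 336) (nat_lit 0) (XT.lf (nat_lit 0) (nat_lit 9177323963) (nat_lit 252) (nat_lit 931418736) (nat_lit 336) (nat_lit 6582457529) (nat_lit 60) (nat_lit 5) (nat_lit 63) (nat_lit 5) (nat_lit 64) (nat_lit 5) (nat_lit 385) (nat_lit 326) (nat_lit 234)) (XT.nd (nat_lit 94) (nat_lit 336) (nat_lit 0) (XT.lf (nat_lit 0) (nat_lit 13139243653) (nat_lit 336)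 (nat_lit 124119189) (nat_lit 84) (nat_lit 3770225043) (nat_lit 60) (nat_lit 5) (nat_lit 64) (nat_lit 5) (nat_lit 61) (nat_lit 5) (nat_lit 386) (nat_lit 326) (nat_lit 233)) (XT.lf (nat_lit 0) (nat_lit 7601292237) (nat_lit 336) (nat_lit 8724322764) (nat_lit 420) (nat_lit 1058704402) (nat_lit 56) (nat_lit 5) (nat_lit 60) (nat_lit 5) (nat_lit 61) (nat_lit 5) (nat_lit 387) (nat_lit 326) (nat_lit 232)))) (XT.nd (nat_lit 188) (nat_lit 252) (nat_lit 0) (XT.nd (nat_lit 94) (nat_lit 252) (nat_lit 0) (XT.lf (nat_lit 0) (nat_lit 1809677775) (nat_lit 420) (nat_lit 2227697702) (nat_lit 84) (nat_lit 13708159892) (nat_lit 55) (nat_lit 5) (nat_lit 60) (nat_lit 5) (nat_lit 56) (nat_lit 5) (nat_lit 388) (nat_lit 326) (nat_lit 231)) (XT.lf (nat_lit 0) (nat_lit 4788348132) (nat_lit 336) (nat_lit 12495204210) (nat_lit 84) (nat_lit 832374653) (nat_lit 52) (nat_lit 5) (nat_lit 56) (nat_lit 5) (nat_lit 53) (nat_lit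 5) (nat_lit 389) (nat_lit 326) (nat_lit 230))) (XT.nd (nat_lit 94) (nat_lit 252) (nat_lit 0) (XT.lf (nat_lit 0) (nat_lit 7902494934) (nat_lit 336) (nat_lit 4811414907) (nat_lit 84) (nat_lit 5782155601) (nat_lit 52) (nat_lit 5) (nat_lit 56) (nat_lit 5) (nat_lit 53) (nat_lit 5) (nat_lit 390) (nat_lit 326) (nat_lit 229)) (XT.lf (nat_lit 0) (nat_lit 3140159862) (nat_lit 252) (nat_lit 7983998419) (nat_lit 336) (nat_lit 7763045016) (nat_lit 49) (nat_lit 5) (nat_lit 52) (nat_lit 5) (nat_lit 53) (nat_lit 5) (nat_lit 391) (nat_lit 326) (nat_lit 228))))) (XT.nd (nat_lit 282) (nat_lit 420) (nat_lit 0) (XT.nd (nat_lit 94) (nat_lit 336) (nat_lit 0) (XT.lf (nat_lit 0) (nat_lit 11405142454) (nat_lit 252) (nat_lit 3070062185) (nat_lit 336) (nat_lit 4813906151) (nat_lit 49) (nat_lit 5) (nat_lit 52) (nat_lit 5) (nat_lit 53) (nat_lit 5) (nat_lit 392) (nat_lit 326) (nat_lit 227)) (XT.nd (nat_lit 94) (nat_lit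 84) (nat_lit 0) (XT.lf (nat_lit 0) (nat_lit 175806865) (nat_lit 252) (nat_lit 17756342112) (nat_lit 336) (nat_lit 1770782521) (nat_lit 46) (nat_lit 5) (nat_lit 49) (nat_lit 5) (nat_lit 50) (nat_lit 5) (nat_lit 393) (nat_lit 326) (nat_lit 226)) (XT.lf (nat_lit 0) (nat_lit 1432417908) (nat_lit 336) (nat_lit 11555656140) (nat_lit 84) (nat_lit 7137853769) (nat_lit 45) (nat_lit 5) (nat_lit 49) (nat_lit 5) (nat_lit 46) (nat_lit 5) (nat_lit 394) (nat_lit 326) (nat_lit 225)))) (XT.nd (nat_lit 188) (nat_lit 168) (nat_lit 0) (XT.nd (nat_lit 94) (nat_lit 252) (nat_lit 0) (XT.lf (nat_lit 0) (nat_lit 4681167063) (nat_lit 336) (nat_lit 3385463130) (nat_lit 84) (nat_lit 12494922094) (nat_lit 45) (nat_lit 5) (nat_lit 49) (nat_lit 5) (nat_lit 46) (nat_lit 5) (nat_lit 395) (nat_lit 326) (nat_lit 224)) (XT.lf (nat_lit 0) (nat_lit 5107276608) (nat_lit 252) (nat_lit 2954675658) (nat_lit 336) (nat_lit 12947271109)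 (nat_lit 42) (nat_lit 5) (nat_lit 45) (nat_lit 5) (nat_lit 46) (nat_lit 5) (nat_lit 396) (nat_lit 326) (nat_lit 223))) (XT.nd (nat_lit 94) (nat_lit 168) (nat_lit 0) (XT.lf (nat_lit 0) (nat_lit 11586514092) (nat_lit 336) (nat_lit 7590024081) (nat_lit 84) (nat_lit 2292530482) (nat_lit 42) (nat_lit 5) (nat_lit 46) (nat_lit 5) (nat_lit 43) (nat_lit 5) (nat_lit 397) (nat_lit 326) (nat_lit 222)) (XT.lf (nat_lit 0) (nat_lit 938596544) (nat_lit 168) (nat_lit 14302528521) (nat_lit 252) (nat_lit 6700869086) (nat_lit 40) (nat_lit 5) (nat_lit 42) (nat_lit 5) (nat_lit 43) (nat_lit 5) (nat_lit 398) (nat_lit 326) (nat_lit 221)))))) (XT.nd (nat_lit 658) (nat_lit 588) (nat_lit 0) (XT.nd (nat_lit 282) (nat_lit 168) (nat_lit 0) (XT.nd (nat_lit 94) (nat_lit 336) (nat_lit 0) (XT.lf (nat_lit 0) (nat_lit 9857155865) (nat_lit 168) (nat_lit 9211098555) (nat_lit 252) (nat_lit 3358980400) (nat_lit 40) (nat_lit 5)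 (nat_lit 42) (nat_lit 5) (nat_lit 43) (nat_lit 5) (nat_lit 399) (nat_lit 326) (nat_lit 220)) (XT.nd (nat_lit 94) (nat_lit 252) (nat_lit 0) (XT.lf (nat_lit 0) (nat_lit 68033234) (nat_lit 252) (nat_lit 3905723579) (nat_lit 84) (nat_lit 18953670199) (nat_lit 39) (nat_lit 5) (nat_lit 42) (nat_lit 5) (nat_lit 40) (nat_lit 5) (nat_lit 400) (nat_lit 326) (nat_lit 219)) (XT.lf (nat_lit 0) (nat_lit 3580300249) (nat_lit 336) (nat_lit 18391402923) (nat_lit 84) (nat_lit 1468438065) (nat_lit 36) (nat_lit 5) (nat_lit 40) (nat_lit 5) (nat_lit 37) (nat_lit 5) (nat_lit 401) (nat_lit 326) (nat_lit 218)))) (XT.nd (nat_lit 188) (nat_lit 168) (nat_lit 0) (XT.nd (nat_lit 94) (nat_lit 0) (nat_lit 0) (XT.lf (nat_lit 0) (nat_lit 7264109782) (nat_lit 336) (nat_lit 9675565136) (nat_lit 84) (nat_lit 7026589006) (nat_lit 36) (nat_lit 5) (nat_lit 40) (nat_lit 5) (nat_lit 37) (nat_lit 5) (nat_lit 402) (nat_lit 326)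 (nat_lit 217)) (XT.lf (nat_lit 0) (nat_lit 11045811983) (nat_lit 336) (nat_lit 718324446) (nat_lit 84) (nat_lit 12744424424) (nat_lit 36) (nat_lit 5) (nat_lit 40) (nat_lit 5) (nat_lit 37) (nat_lit 5) (nat_lit 403) (nat_lit 326) (nat_lit 216))) (XT.nd (nat_lit 94) (nat_lit 0) (nat_lit 0) (XT.lf (nat_lit 0) (nat_lit 8657076607) (nat_lit 168) (nat_lit 6354851762) (nat_lit 252) (nat_lit 10053080995) (nat_lit 34) (nat_lit 5) (nat_lit 36) (nat_lit 5) (nat_lit 37) (nat_lit 5) (nat_lit 404) (nat_lit 326) (nat_lit 215)) (XT.lf (nat_lit 0) (nat_lit 18309168092) (nat_lit 168) (nat_lit 783031249) (nat_lit 252) (nat_lit 6546108087) (nat_lit 34) (nat_lit 5) (nat_lit 36) (nat_lit 5) (nat_lit 37) (nat_lit 5) (nat_lit 405) (nat_lit 326) (nat_lit 214))))) (XT.nd (nat_lit 282) (nat_lit 336) (nat_lit 0) (XT.nd (nat_lit 94) (nat_lit 84) (nat_lit 0) (XT.lf (nat_lit 0) (nat_lit 1994263579) (nat_lit 168) (nat_lit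 21355626526) (nat_lit 252) (nat_lit 2877274879) (nat_lit 32) (nat_lit 5) (nat_lit 34) (nat_lit 5) (nat_lit 35) (nat_lit 5) (nat_lit 406) (nat_lit 326) (nat_lit 213)) (XT.nd (nat_lit 94) (nat_lit 0) (nat_lit 0) (XT.lf (nat_lit 0) (nat_lit 954763832) (nat_lit 252) (nat_lit 15120099514) (nat_lit 84) (nat_lit 10756453157) (nat_lit 31) (nat_lit 5) (nat_lit 34) (nat_lit 5) (nat_lit 32) (nat_lit 5) (nat_lit 407) (nat_lit 326) (nat_lit 212)) (XT.lf (nat_lit 0) (nat_lit 4832514819) (nat_lit 252) (nat_lit 5780933267) (nat_lit 84) (nat_lit 16839642380) (nat_lit 31) (nat_lit 5) (nat_lit 34) (nat_lit 5) (nat_lit 32) (nat_lit 5) (nat_lit 408) (nat_lit 326) (nat_lit 211)))) (XT.nd (nat_lit 188) (nat_lit 168) (nat_lit 0) (XT.nd (nat_lit 94) (nat_lit 0) (nat_lit 0) (XT.lf (nat_lit 0) (nat_lit 3896449666) (nat_lit 168) (nat_lit 4956517793) (nat_lit 252) (nat_lit 19239768800) (nat_lit 29) (nat_lit 5) (nat_lit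 31) (nat_lit 5) (nat_lit 32) (nat_lit 5) (nat_lit 409) (nat_lit 326) (nat_lit 210)) (XT.lf (nat_lit 0) (nat_lit 13050351436) (nat_lit 252) (nat_lit 14794191665) (nat_lit 84) (nat_lit 905348198) (nat_lit 29) (nat_lit 5) (nat_lit 32) (nat_lit 5) (nat_lit 30) (nat_lit 5) (nat_lit 410) (nat_lit 326) (nat_lit 209))) (XT.nd (nat_lit 94) (nat_lit 168) (nat_lit 0) (XT.lf (nat_lit 0) (nat_lit 17412051322) (nat_lit 252) (nat_lit 5176668479) (nat_lit 84) (nat_lit 6836898488) (nat_lit 29) (nat_lit 5) (nat_lit 32) (nat_lit 5) (nat_lit 30) (nat_lit 5) (nat_lit 411) (nat_lit 326) (nat_lit 208)) (XT.lf (nat_lit 0) (nat_lit 4806116347) (nat_lit 168) (nat_lit 17134316213) (nat_lit 252) (nat_lit 8180118482) (nat_lit 27) (nat_lit 5) (nat_lit 29) (nat_lit 5) (nat_lit 30) (nat_lit 5) (nat_lit 412) (nat_lit 326) (nat_lit 207))))))))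
noncomputable def xc113 : XT := (XT.nd (nat_lit 2538) (nat_lit 168) (nat_lit 0) (XT.nd (nat_lit 1222) (nat_lit 420) (nat_lit 0) (XT.nd (nat_lit 564) (nat_lit 336) (nat_lit 0) (XT.nd (nat_lit 282) (nat_lit 168) (nat_lit 0) (XT.nd (nat_lit 94) (nat_lit 252) (nat_lit 0) (XT.lf (nat_lit 0) (nat_lit 15177619796) (nat_lit 168) (nat_lit 11469090400) (nat_lit 252) (nat_lit 4188368840) (nat_lit 27) (nat_lit 5) (nat_lit 29) (nat_lit 5) (nat_lit 30) (nat_lit 5) (nat_lit 413) (nat_lit 326) (nat_lit 206)) (XT.nd (nat_lit 94) (nat_lit 252) (nat_lit 0) (XT.lf (nat_lit 0) (nat_lit 25843878492) (nat_lit 168) (nat_lit 5640366366) (nat_lit 252) (nat_lit 87104306) (nat_lit 27) (nat_lit 5) (nat_lit 29) (nat_lit 5) (nat_lit 30) (nat_lit 5) (nat_lit 414) (nat_lit 326) (nat_lit 205)) (XT.lf (nat_lit 0) (nat_lit 4094550372) (nat_lit 252) (nat_lit 27798773889) (nat_lit 84) (nat_lit 434055418) (nat_lit 24) (nat_lit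 5) (nat_lit 27) (nat_lit 5) (nat_lit 25) (nat_lit 5) (nat_lit 415) (nat_lit 326) (nat_lit 204)))) (XT.nd (nat_lit 94) (nat_lit 168) (nat_lit 0) (XT.lf (nat_lit 0) (nat_lit 8504482100) (nat_lit 252) (nat_lit 17968055675) (nat_lit 84) (nat_lit 6630397765) (nat_lit 24) (nat_lit 5) (nat_lit 27) (nat_lit 5) (nat_lit 25) (nat_lit 5) (nat_lit 416) (nat_lit 326) (nat_lit 203)) (XT.nd (nat_lit 94) (nat_lit 168) (nat_lit 0) (XT.lf (nat_lit 0) (nat_lit 13037317653) (nat_lit 252) (nat_lit 7858135787) (nat_lit 84) (nat_lit 13006593886) (nat_lit 24) (nat_lit 5) (nat_lit 27) (nat_lit 5) (nat_lit 25) (nat_lit 5) (nat_lit 417) (nat_lit 326) (nat_lit 202)) (XT.lf (nat_lit 0) (nat_lit 2590367077) (nat_lit 168) (nat_lit 15131550876) (nat_lit 252) (nat_lit 17002748329) (nat_lit 22) (nat_lit 5) (nat_lit 24) (nat_lit 5) (nat_lit 25) (nat_lit 5) (nat_lit 418) (nat_lit 326) (nat_lit 201))))) (XT.nd (nat_lit 282)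 (nat_lit 336) (nat_lit 0) (XT.nd (nat_lit 94) (nat_lit 0) (nat_lit 0) (XT.lf (nat_lit 0) (nat_lit 13498296724) (nat_lit 168) (nat_lit 9119111167) (nat_lit 252) (nat_lit 12952452365) (nat_lit 22) (nat_lit 5) (nat_lit 24) (nat_lit 5) (nat_lit 25) (nat_lit 5) (nat_lit 419) (nat_lit 326) (nat_lit 200)) (XT.nd (nat_lit 94) (nat_lit 0) (nat_lit 0) (XT.lf (nat_lit 0) (nat_lit 24718792042) (nat_lit 168) (nat_lit 2932232488) (nat_lit 252) (nat_lit 8789654453) (nat_lit 22) (nat_lit 5) (nat_lit 24) (nat_lit 5) (nat_lit 25) (nat_lit 5) (nat_lit 420) (nat_lit 326) (nat_lit 199)) (XT.lf (nat_lit 0) (nat_lit 32860180608) (nat_lit 252) (nat_lit 1109240455) (nat_lit 84) (nat_lit 3367471877) (nat_lit 22) (nat_lit 5) (nat_lit 25) (nat_lit 5) (nat_lit 23) (nat_lit 4) (nat_lit 421) (nat_lit 326) (nat_lit 198)))) (XT.nd (nat_lit 188) (nat_lit 168) (nat_lit 0) (XT.nd (nat_lit 94) (nat_lit 0) (nat_lit 0) (XT.lf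 (nat_lit 0) (nat_lit 84048936) (nat_lit 168) (nat_lit 28283985883) (nat_lit 84) (nat_lit 9888441831) (nat_lit 20) (nat_lit 5) (nat_lit 22) (nat_lit 5) (nat_lit 21) (nat_lit 5) (nat_lit 422) (nat_lit 326) (nat_lit 197)) (XT.lf (nat_lit 0) (nat_lit 4694698259) (nat_lit 168) (nat_lit 17852397120) (nat_lit 84) (nat_lit 16655137530) (nat_lit 20) (nat_lit 5) (nat_lit 22) (nat_lit 5) (nat_lit 21) (nat_lit 5) (nat_lit 423) (nat_lit 326) (nat_lit 196))) (XT.nd (nat_lit 94) (nat_lit 168) (nat_lit 0) (XT.lf (nat_lit 0) (nat_lit 9435638561) (nat_lit 168) (nat_lit 7121513866) (nat_lit 84) (nat_lit 23619456145) (nat_lit 20) (nat_lit 5) (nat_lit 22) (nat_lit 5) (nat_lit 21) (nat_lit 5) (nat_lit 424) (nat_lit 326) (nat_lit 195)) (XT.lf (nat_lit 0) (nat_lit 3996017064) (nat_lit 168) (nat_lit 10353407508) (nat_lit 252) (nat_lit 26829878098) (nat_lit 18) (nat_lit 5) (nat_lit 20) (nat_lit 5) (nat_lit 21)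 (nat_lit 5) (nat_lit 425) (nat_lit 326) (nat_lit 194)))))) (XT.nd (nat_lit 658) (nat_lit 252) (nat_lit 0) (XT.nd (nat_lit 282) (nat_lit 168) (nat_lit 0) (XT.nd (nat_lit 94) (nat_lit 0) (nat_lit 0) (XT.lf (nat_lit 0) (nat_lit 15579932426) (nat_lit 168) (nat_lit 3894911262) (nat_lit 252) (nat_lit 22735312842) (nat_lit 18) (nat_lit 5) (nat_lit 20) (nat_lit 5) (nat_lit 21) (nat_lit 5) (nat_lit 426) (nat_lit 326) (nat_lit 193)) (XT.nd (nat_lit 94) (nat_lit 0) (nat_lit 0) (XT.lf (nat_lit 0) (nat_lit 24773010212) (nat_lit 252) (nat_lit 15799998009) (nat_lit 84) (nat_lit 2698363602) (nat_lit 18) (nat_lit 5) (nat_lit 21) (nat_lit 5) (nat_lit 19) (nat_lit 4) (nat_lit 427) (nat_lit 326) (nat_lit 192)) (XT.lf (nat_lit 0) (nat_lit 30261383846) (nat_lit 252) (nat_lit 4695974254) (nat_lit 84) (nat_lit 9406132818) (nat_lit 18) (nat_lit 5) (nat_lit 21) (nat_lit 5) (nat_lit 19) (nat_lit 4) (nat_lit 428)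 (nat_lit 326) (nat_lit 191)))) (XT.nd (nat_lit 188) (nat_lit 84) (nat_lit 0) (XT.nd (nat_lit 94) (nat_lit 0) (nat_lit 0) (XT.lf (nat_lit 0) (nat_lit 6862910069) (nat_lit 84) (nat_lit 29110380409) (nat_lit 168) (nat_lit 9513321712) (nat_lit 17) (nat_lit 5) (nat_lit 18) (nat_lit 5) (nat_lit 19) (nat_lit 4) (nat_lit 429) (nat_lit 326) (nat_lit 190)) (XT.lf (nat_lit 0) (nat_lit 18852762967) (nat_lit 84) (nat_lit 23044213304) (nat_lit 168) (nat_lit 4745243077) (nat_lit 17) (nat_lit 5) (nat_lit 18) (nat_lit 5) (nat_lit 19) (nat_lit 4) (nat_lit 430) (nat_lit 326) (nat_lit 189))) (XT.nd (nat_lit 94) (nat_lit 0) (nat_lit 0) (XT.lf (nat_lit 0) (nat_lit 155774757) (nat_lit 168) (nat_lit 16643628607) (nat_lit 84) (nat_lit 31033254137) (nat_lit 16) (nat_lit 5) (nat_lit 18) (nat_lit 5) (nat_lit 17) (nat_lit 5) (nat_lit 431) (nat_lit 326) (nat_lit 188)) (XT.lf (nat_lit 0) (nat_lit 5101782144) (nat_lit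 168) (nat_lit 5221914251) (nat_lit 84) (nat_lit 38733907404) (nat_lit 16) (nat_lit 5) (nat_lit 18) (nat_lit 5) (nat_lit 17) (nat_lit 5) (nat_lit 432) (nat_lit 326) (nat_lit 187))))) (XT.nd (nat_lit 282) (nat_lit 84) (nat_lit 0) (XT.nd (nat_lit 94) (nat_lit 0) (nat_lit 0) (XT.lf (nat_lit 0) (nat_lit 6661266302) (nat_lit 168) (nat_lit 3592463488) (nat_lit 252) (nat_lit 40063846258) (nat_lit 14) (nat_lit 5) (nat_lit 16) (nat_lit 5) (nat_lit 17) (nat_lit 5) (nat_lit 433) (nat_lit 326) (nat_lit 186)) (XT.nd (nat_lit 94) (nat_lit 0) (nat_lit 0) (XT.lf (nat_lit 0) (nat_lit 15639167115) (nat_lit 252) (nat_lit 32649626188) (nat_lit 84) (nat_lit 3324190457) (nat_lit 14) (nat_lit 5) (nat_lit 17) (nat_lit 5) (nat_lit 15) (nat_lit 4) (nat_lit 434) (nat_lit 326) (nat_lit 185)) (XT.lf (nat_lit 0) (nat_lit 21215489080) (nat_lit 252) (nat_lit 21359196551) (nat_lit 84) (nat_lit 10371692537) (nat_lit 14)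 (nat_lit 5) (nat_lit 17) (nat_lit 5) (nat_lit 15) (nat_lit 4) (nat_lit 435) (nat_lit 326) (nat_lit 184)))) (XT.nd (nat_lit 188) (nat_lit 0) (nat_lit 0) (XT.nd (nat_lit 94) (nat_lit 84) (nat_lit 0) (XT.lf (nat_lit 0) (nat_lit 26953035242) (nat_lit 252) (nat_lit 9740622456) (nat_lit 84) (nat_lit 17626302666) (nat_lit 14) (nat_lit 5) (nat_lit 17) (nat_lit 5) (nat_lit 15) (nat_lit 4) (nat_lit 436) (nat_lit 326) (nat_lit 183)) (XT.lf (nat_lit 0) (nat_lit 2260355936) (nat_lit 84) (nat_lit 30618190979) (nat_lit 168) (nat_lit 22855731810) (nat_lit 13) (nat_lit 5) (nat_lit 14) (nat_lit 5) (nat_lit 15) (nat_lit 4) (nat_lit 437) (nat_lit 326) (nat_lit 182))) (XT.nd (nat_lit 94) (nat_lit 0) (nat_lit 0) (XT.lf (nat_lit 0) (nat_lit 14810876873) (nat_lit 84) (nat_lit 24263493309) (nat_lit 168) (nat_lit 18113883830) (nat_lit 13) (nat_lit 5) (nat_lit 14) (nat_lit 5) (nat_lit 15) (nat_lit 4) (nat_lit 438)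 (nat_lit 326) (nat_lit 181)) (XT.lf (nat_lit 0) (nat_lit 27728049343) (nat_lit 84) (nat_lit 17722373227) (nat_lit 168) (nat_lit 13235599007) (nat_lit 13) (nat_lit 5) (nat_lit 14) (nat_lit 5) (nat_lit 15) (nat_lit 4) (nat_lit 439) (nat_lit 326) (nat_lit 180))))))) (XT.nd (nat_lit 49350) (nat_lit 0) (nat_lit 14532) (XT.nd (nat_lit 48692) (nat_lit 0) (nat_lit 18396) (XT.nd (nat_lit 282) (nat_lit 0) (nat_lit 0) (XT.nd (nat_lit 94) (nat_lit 168) (nat_lit 0) (XT.lf (nat_lit 0) (nat_lit 41023160196) (nat_lit 84) (nat_lit 10989115192) (nat_lit 168) (nat_lit 8216614761) (nat_lit 13) (nat_lit 5) (nat_lit 14) (nat_lit 5) (nat_lit 15) (nat_lit 4) (nat_lit 440) (nat_lit 326) (nat_lit 179)) (XT.nd (nat_lit 94) (nat_lit 168) (nat_lit 0) (XT.lf (nat_lit 0) (nat_lit 54707826520) (nat_lit 84) (nat_lit 4057835774) (nat_lit 168) (nat_lit 3052545572) (nat_lit 13) (nat_lit 5) (nat_lit 14) (nat_lit 5) (nat_lit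 15) (nat_lit 4) (nat_lit 441) (nat_lit 326) (nat_lit 178)) (XT.lf (nat_lit 0) (nat_lit 2299439104) (nat_lit 168) (nat_lit 58060737988) (nat_lit 84) (nat_lit 3092061076) (nat_lit 11) (nat_lit 5) (nat_lit 13) (nat_lit 5) (nat_lit 12) (nat_lit 4) (nat_lit 442) (nat_lit 326) (nat_lit 177)))) (XT.nd (nat_lit 188) (nat_lit 0) (nat_lit 0) (XT.nd (nat_lit 94) (nat_lit 0) (nat_lit 0) (XT.lf (nat_lit 0) (nat_lit 7858125388) (nat_lit 168) (nat_lit 46799217154) (nat_lit 84) (nat_lit 10473818434) (nat_lit 11) (nat_lit 5) (nat_lit 13) (nat_lit 5) (nat_lit 12) (nat_lit 4) (nat_lit 443) (nat_lit 326) (nat_lit 176)) (XT.lf (nat_lit 0) (nat_lit 13578530327) (nat_lit 168) (nat_lit 35208748838) (nat_lit 84) (nat_lit 18073326619) (nat_lit 11) (nat_lit 5) (nat_lit 13) (nat_lit 5) (nat_lit 12) (nat_lit 4) (nat_lit 444) (nat_lit 326) (nat_lit 175))) (XT.nd (nat_lit 94) (nat_lit 0) (nat_lit 0) (XT.lf (nat_lit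 0) (nat_lit 19465652334) (nat_lit 168) (nat_lit 23279205447) (nat_lit 84) (nat_lit 25897225979) (nat_lit 11) (nat_lit 5) (nat_lit 13) (nat_lit 5) (nat_lit 12) (nat_lit 4) (nat_lit 445) (nat_lit 326) (nat_lit 174)) (XT.lf (nat_lit 0) (nat_lit 25524635495) (nat_lit 168) (nat_lit 11000163107) (nat_lit 84) (nat_lit 33952352930) (nat_lit 11) (nat_lit 5) (nat_lit 13) (nat_lit 5) (nat_lit 12) (nat_lit 4) (nat_lit 446) (nat_lit 326) (nat_lit 173))))) (XT.nd (nat_lit 282) (nat_lit 756) (nat_lit 0) (XT.nd (nat_lit 94) (nat_lit 0) (nat_lit 0) (XT.lf (nat_lit 0) (nat_lit 70669234) (nat_lit 0) (nat_lit 70669234) (nat_lit 756) (nat_lit 3396511534) (nat_lit 239) (nat_lit 5) (nat_lit 239) (nat_lit 3) (nat_lit 248) (nat_lit 3) (nat_lit 327) (nat_lit 327) (nat_lit 291)) (XT.nd (nat_lit 94) (nat_lit 0) (nat_lit 0) (XT.lf (nat_lit 0) (nat_lit 1917605303) (nat_lit 756) (nat_lit 3809746490) (nat_lit 840) (nat_lit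 1401684457) (nat_lit 239) (nat_lit 5) (nat_lit 248) (nat_lit 3) (nat_lit 249) (nat_lit 5) (nat_lit 328) (nat_lit 327) (nat_lit 290)) (XT.lf (nat_lit 0) (nat_lit 3540179324) (nat_lit 756) (nat_lit 626692646) (nat_lit 840) (nat_lit 3019094050) (nat_lit 239) (nat_lit 5) (nat_lit 248) (nat_lit 3) (nat_lit 249) (nat_lit 5) (nat_lit 329) (nat_lit 327) (nat_lit 289)))) (XT.nd (nat_lit 188) (nat_lit 756) (nat_lit 0) (XT.nd (nat_lit 94) (nat_lit 0) (nat_lit 0) (XT.lf (nat_lit 84) (nat_lit 2671061975) (nat_lit 0) (nat_lit 2505072056) (nat_lit 840) (nat_lit 2069675510) (nat_lit 240) (nat_lit 5) (nat_lit 239) (nat_lit 5) (nat_lit 249) (nat_lit 5) (nat_lit 330) (nat_lit 327) (nat_lit 288)) (XT.lf (nat_lit 84) (nat_lit 6048005618) (nat_lit 0) (nat_lit 759980332) (nat_lit 840) (nat_lit 501200543) (nat_lit 240) (nat_lit 5) (nat_lit 239) (nat_lit 5) (nat_lit 249) (nat_lit 5) (nat_lit 331) (nat_lit 327)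 (nat_lit 287))) (XT.nd (nat_lit 94) (nat_lit 0) (nat_lit 0) (XT.lf (nat_lit 0) (nat_lit 1065296778) (nat_lit 840) (nat_lit 5235843425) (nat_lit 924) (nat_lit 1073956313) (nat_lit 230) (nat_lit 5) (nat_lit 240) (nat_lit 5) (nat_lit 241) (nat_lit 5) (nat_lit 332) (nat_lit 327) (nat_lit 286)) (XT.lf (nat_lit 0) (nat_lit 2632242317) (nat_lit 840) (nat_lit 1822356948) (nat_lit 924) (nat_lit 2989460470) (nat_lit 230) (nat_lit 5) (nat_lit 240) (nat_lit 5) (nat_lit 241) (nat_lit 5) (nat_lit 333) (nat_lit 327) (nat_lit 285)))))) (XT.nd (nat_lit 658) (nat_lit 3024) (nat_lit 0) (XT.nd (nat_lit 282) (nat_lit 840) (nat_lit 0) (XT.nd (nat_lit 94) (nat_lit 0) (nat_lit 0) (XT.lf (nat_lit 84) (nat_lit 1692883732) (nat_lit 0) (nat_lit 2514382442) (nat_lit 924) (nat_lit 3309120347) (nat_lit 231) (nat_lit 5) (nat_lit 230) (nat_lit 5) (nat_lit 241) (nat_lit 5) (nat_lit 334) (nat_lit 327) (nat_lit 284)) (XT.nd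 (nat_lit 94) (nat_lit 0) (nat_lit 84) (XT.lf (nat_lit 84) (nat_lit 5317583758) (nat_lit 0) (nat_lit 476443376) (nat_lit 924) (nat_lit 1798044466) (nat_lit 231) (nat_lit 5) (nat_lit 230) (nat_lit 5) (nat_lit 241) (nat_lit 5) (nat_lit 335) (nat_lit 327) (nat_lit 283)) (XT.lf (nat_lit 84) (nat_lit 1357627331) (nat_lit 0) (nat_lit 6047258095) (nat_lit 924) (nat_lit 265966464) (nat_lit 232) (nat_lit 5) (nat_lit 231) (nat_lit 5) (nat_lit 242) (nat_lit 5) (nat_lit 336) (nat_lit 327) (nat_lit 282)))) (XT.nd (nat_lit 188) (nat_lit 0) (nat_lit 84) (XT.nd (nat_lit 94) (nat_lit 0) (nat_lit 0) (XT.lf (nat_lit 0) (nat_lit 1262804116) (nat_lit 924) (nat_lit 2658600842) (nat_lit 1008) (nat_lit 3831034885) (nat_lit 220) (nat_lit 5) (nat_lit 231) (nat_lit 5) (nat_lit 232) (nat_lit 5) (nat_lit 337) (nat_lit 327) (nat_lit 281)) (XT.lf (nat_lit 84) (nat_lit 1090256582) (nat_lit 0) (nat_lit 1702239075) (nat_lit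 1008) (nat_lit 5045198027) (nat_lit 221) (nat_lit 5) (nat_lit 220) (nat_lit 5) (nat_lit 232) (nat_lit 5) (nat_lit 338) (nat_lit 327) (nat_lit 280))) (XT.nd (nat_lit 94) (nat_lit 0) (nat_lit 0) (XT.lf (nat_lit 0) (nat_lit 4352003551) (nat_lit 924) (nat_lit 2959929631) (nat_lit 1008) (nat_lit 614160358) (nat_lit 221) (nat_lit 5) (nat_lit 232) (nat_lit 5) (nat_lit 233) (nat_lit 5) (nat_lit 339) (nat_lit 327) (nat_lit 279)) (XT.lf (nat_lit 84) (nat_lit 907659415) (nat_lit 0) (nat_lit 5028841500) (nat_lit 1008) (nat_lit 2081401426) (nat_lit 222) (nat_lit 5) (nat_lit 221) (nat_lit 5) (nat_lit 233) (nat_lit 5) (nat_lit 340) (nat_lit 327) (nat_lit 278))))) (XT.nd (nat_lit 282) (nat_lit 2100) (nat_lit 0) (XT.nd (nat_lit 94) (nat_lit 1008) (nat_lit 0) (XT.lf (nat_lit 84) (nat_lit 4917887556) (nat_lit 0) (nat_lit 2634212929) (nat_lit 1008) (nat_lit 560957976) (nat_lit 222) (nat_lit 5) (nat_lit 221)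 (nat_lit 5) (nat_lit 233) (nat_lit 5) (nat_lit 341) (nat_lit 327) (nat_lit 277)) (XT.nd (nat_lit 94) (nat_lit 0) (nat_lit 84) (XT.lf (nat_lit 84) (nat_lit 809414025) (nat_lit 0) (nat_lit 138338687) (nat_lit 1092) (nat_lit 7264253024) (nat_lit 210) (nat_lit 5) (nat_lit 209) (nat_lit 5) (nat_lit 222) (nat_lit 5) (nat_lit 342) (nat_lit 327) (nat_lit 276)) (XT.lf (nat_lit 0) (nat_lit 2502007610) (nat_lit 1008) (nat_lit 3377843112) (nat_lit 84) (nat_lit 2433648940) (nat_lit 210) (nat_lit 5) (nat_lit 222) (nat_lit 5) (nat_lit 211) (nat_lit 5) (nat_lit 343) (nat_lit 327) (nat_lit 275)))) (XT.nd (nat_lit 188) (nat_lit 1176) (nat_lit 0) (XT.nd (nat_lit 94) (nat_lit 0) (nat_lit 0) (XT.lf (nat_lit 0) (nat_lit 746605784) (nat_lit 1008) (nat_lit 3321715690) (nat_lit 1092) (nat_lit 4350842906) (nat_lit 198) (nat_lit 5) (nat_lit 210) (nat_lit 5) (nat_lit 211) (nat_lit 5) (nat_lit 344) (nat_lit 327) (nat_lit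 274)) (XT.lf (nat_lit 0) (nat_lit 5030124880) (nat_lit 1008) (nat_lit 643424125) (nat_lit 1092) (nat_lit 2854778634) (nat_lit 198) (nat_lit 5) (nat_lit 210) (nat_lit 5) (nat_lit 211) (nat_lit 5) (nat_lit 345) (nat_lit 327) (nat_lit 273))) (XT.nd (nat_lit 94) (nat_lit 84) (nat_lit 0) (XT.lf (nat_lit 0) (nat_lit 761604679) (nat_lit 1092) (nat_lit 6552103072) (nat_lit 1176) (nat_lit 1327538622) (nat_lit 185) (nat_lit 5) (nat_lit 198) (nat_lit 5) (nat_lit 199) (nat_lit 5) (nat_lit 346) (nat_lit 327) (nat_lit 272)) (XT.lf (nat_lit 0) (nat_lit 242281675) (nat_lit 1176) (nat_lit 3579513691) (nat_lit 84) (nat_lit 4935718879) (nat_lit 184) (nat_lit 5) (nat_lit 198) (nat_lit 5) (nat_lit 185) (nat_lit 5) (nat_lit 347) (nat_lit 327) (nat_lit 271))))))))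
noncomputable def xc114 : XT := (XT.nd (nat_lit 2538) (nat_lit 3780) (nat_lit 0) (XT.nd (nat_lit 1222) (nat_lit 3192) (nat_lit 0) (XT.nd (nat_lit 564) (nat_lit 2352) (nat_lit 0) (XT.nd (nat_lit 282) (nat_lit 672) (nat_lit 0) (XT.nd (nat_lit 94) (nat_lit 1260) (nat_lit 0) (XT.lf (nat_lit 0) (nat_lit 818606936) (nat_lit 1176) (nat_lit 982464501) (nat_lit 1260) (nat_lit 7076824385) (nat_lit 170) (nat_lit 5) (nat_lit 184) (nat_lit 5) (nat_lit 185) (nat_lit 5) (nat_lit 348) (nat_lit 327) (nat_lit 270)) (XT.nd (nat_lit 94) (nat_lit 1260) (nat_lit 0) (XT.lf (nat_lit 0) (nat_lit 3423355858) (nat_lit 1260) (nat_lit 3632569241) (nat_lit 84) (nat_lit 1945536283) (nat_lit 170) (nat_lit 5) (nat_lit 185) (nat_lit 5) (nat_lit 171) (nat_lit 5) (nat_lit 349) (nat_lit 327) (nat_lit 269)) (XT.lf (nat_lit 0) (nat_lit 901033772) (nat_lit 1260) (nat_lit 4174342219) (nat_lit 1344) (nat_lit 4053998198) (nat_lit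 155) (nat_lit 5) (nat_lit 170) (nat_lit 5) (nat_lit 171) (nat_lit 5) (nat_lit 350) (nat_lit 327) (nat_lit 268)))) (XT.nd (nat_lit 94) (nat_lit 672) (nat_lit 0) (XT.lf (nat_lit 0) (nat_lit 5611666830) (nat_lit 1260) (nat_lit 1165415811) (nat_lit 1344) (nat_lit 2484108151) (nat_lit 155) (nat_lit 5) (nat_lit 170) (nat_lit 5) (nat_lit 171) (nat_lit 5) (nat_lit 351) (nat_lit 327) (nat_lit 267)) (XT.nd (nat_lit 94) (nat_lit 84) (nat_lit 0) (XT.lf (nat_lit 0) (nat_lit 1034627583) (nat_lit 588) (nat_lit 7488284925) (nat_lit 672) (nat_lit 874325372) (nat_lit 148) (nat_lit 5) (nat_lit 155) (nat_lit 5) (nat_lit 156) (nat_lit 5) (nat_lit 352) (nat_lit 327) (nat_lit 266)) (XT.lf (nat_lit 0) (nat_lit 782055509) (nat_lit 672) (nat_lit 3655647291) (nat_lit 84) (nat_lit 5099093843) (nat_lit 147) (nat_lit 5) (nat_lit 155) (nat_lit 5) (nat_lit 148) (nat_lit 5) (nat_lit 353) (nat_lit 327) (nat_lit 265)))))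 (XT.nd (nat_lit 282) (nat_lit 1176) (nat_lit 0) (XT.nd (nat_lit 94) (nat_lit 588) (nat_lit 0) (XT.lf (nat_lit 0) (nat_lit 1173698877) (nat_lit 588) (nat_lit 1274003939) (nat_lit 672) (nat_lit 7233327575) (nat_lit 140) (nat_lit 5) (nat_lit 147) (nat_lit 5) (nat_lit 148) (nat_lit 5) (nat_lit 354) (nat_lit 327) (nat_lit 264)) (XT.nd (nat_lit 94) (nat_lit 588) (nat_lit 0) (XT.lf (nat_lit 0) (nat_lit 4186229116) (nat_lit 672) (nat_lit 3658882711) (nat_lit 84) (nat_lit 1983852582) (nat_lit 140) (nat_lit 5) (nat_lit 148) (nat_lit 5) (nat_lit 141) (nat_lit 5) (nat_lit 355) (nat_lit 327) (nat_lit 263)) (XT.lf (nat_lit 0) (nat_lit 1315236795) (nat_lit 588) (nat_lit 4654457350) (nat_lit 672) (nat_lit 4011917599) (nat_lit 133) (nat_lit 5) (nat_lit 140) (nat_lit 5) (nat_lit 141) (nat_lit 5) (nat_lit 356) (nat_lit 327) (nat_lit 262)))) (XT.nd (nat_lit 188) (nat_lit 588) (nat_lit 0) (XT.nd (nat_lit 94)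 (nat_lit 588) (nat_lit 0) (XT.lf (nat_lit 0) (nat_lit 6481071429) (nat_lit 588) (nat_lit 1330698731) (nat_lit 672) (nat_lit 2326972198) (nat_lit 133) (nat_lit 5) (nat_lit 140) (nat_lit 5) (nat_lit 141) (nat_lit 5) (nat_lit 357) (nat_lit 327) (nat_lit 261)) (XT.lf (nat_lit 0) (nat_lit 1477466336) (nat_lit 588) (nat_lit 8235042061) (nat_lit 672) (nat_lit 588031904) (nat_lit 126) (nat_lit 5) (nat_lit 133) (nat_lit 5) (nat_lit 134) (nat_lit 5) (nat_lit 358) (nat_lit 327) (nat_lit 260))) (XT.nd (nat_lit 94) (nat_lit 504) (nat_lit 0) (XT.lf (nat_lit 0) (nat_lit 1199394890) (nat_lit 672) (nat_lit 3682438742) (nat_lit 84) (nat_lit 5584469997) (nat_lit 125) (nat_lit 5) (nat_lit 133) (nat_lit 5) (nat_lit 126) (nat_lit 5) (nat_lit 359) (nat_lit 327) (nat_lit 259)) (XT.lf (nat_lit 0) (nat_lit 1606004835) (nat_lit 504) (nat_lit 1408270749) (nat_lit 588) (nat_lit 7623070819) (nat_lit 119) (nat_lit 5)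 (nat_lit 125) (nat_lit 5) (nat_lit 126) (nat_lit 5) (nat_lit 360) (nat_lit 327) (nat_lit 258)))))) (XT.nd (nat_lit 658) (nat_lit 1680) (nat_lit 0) (XT.nd (nat_lit 282) (nat_lit 1008) (nat_lit 0) (XT.nd (nat_lit 94) (nat_lit 504) (nat_lit 0) (XT.lf (nat_lit 0) (nat_lit 4912763623) (nat_lit 588) (nat_lit 3737557025) (nat_lit 84) (nat_lit 2162374215) (nat_lit 119) (nat_lit 5) (nat_lit 126) (nat_lit 5) (nat_lit 120) (nat_lit 5) (nat_lit 361) (nat_lit 327) (nat_lit 257)) (XT.nd (nat_lit 94) (nat_lit 0) (nat_lit 0) (XT.lf (nat_lit 0) (nat_lit 1702754254) (nat_lit 504) (nat_lit 5167367888) (nat_lit 588) (nat_lit 4123171955) (nat_lit 113) (nat_lit 5) (nat_lit 119) (nat_lit 5) (nat_lit 120) (nat_lit 5) (nat_lit 362) (nat_lit 327) (nat_lit 256)) (XT.lf (nat_lit 0) (nat_lit 7351630244) (nat_lit 504) (nat_lit 1544444368) (nat_lit 588) (nat_lit 2282986903) (nat_lit 113) (nat_lit 5) (nat_lit 119) (nat_lit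 5) (nat_lit 120) (nat_lit 5) (nat_lit 363) (nat_lit 327) (nat_lit 255)))) (XT.nd (nat_lit 188) (nat_lit 504) (nat_lit 0) (XT.nd (nat_lit 94) (nat_lit 84) (nat_lit 0) (XT.lf (nat_lit 0) (nat_lit 1782146795) (nat_lit 420) (nat_lit 9211725587) (nat_lit 504) (nat_lit 376242625) (nat_lit 108) (nat_lit 5) (nat_lit 113) (nat_lit 5) (nat_lit 114) (nat_lit 5) (nat_lit 364) (nat_lit 327) (nat_lit 254)) (XT.lf (nat_lit 0) (nat_lit 1584143195) (nat_lit 504) (nat_lit 3989653723) (nat_lit 84) (nat_lit 5991865161) (nat_lit 107) (nat_lit 5) (nat_lit 113) (nat_lit 5) (nat_lit 108) (nat_lit 5) (nat_lit 365) (nat_lit 327) (nat_lit 253))) (XT.nd (nat_lit 94) (nat_lit 0) (nat_lit 0) (XT.lf (nat_lit 0) (nat_lit 1777029506) (nat_lit 504) (nat_lit 1809711738) (nat_lit 588) (nat_lit 8180534911) (nat_lit 101) (nat_lit 5) (nat_lit 107) (nat_lit 5) (nat_lit 108) (nat_lit 5) (nat_lit 366) (nat_lit 327) (nat_lit 252))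 (XT.lf (nat_lit 0) (nat_lit 5684282861) (nat_lit 588) (nat_lit 4226501676) (nat_lit 84) (nat_lit 2063148176) (nat_lit 101) (nat_lit 5) (nat_lit 108) (nat_lit 5) (nat_lit 102) (nat_lit 5) (nat_lit 367) (nat_lit 327) (nat_lit 251))))) (XT.nd (nat_lit 282) (nat_lit 840) (nat_lit 0) (XT.nd (nat_lit 94) (nat_lit 420) (nat_lit 0) (XT.lf (nat_lit 0) (nat_lit 1695222581) (nat_lit 420) (nat_lit 6158796883) (nat_lit 504) (nat_lit 4332530303) (nat_lit 96) (nat_lit 5) (nat_lit 101) (nat_lit 5) (nat_lit 102) (nat_lit 5) (nat_lit 368) (nat_lit 327) (nat_lit 250)) (XT.nd (nat_lit 94) (nat_lit 420) (nat_lit 0) (XT.lf (nat_lit 0) (nat_lit 7851437733) (nat_lit 420) (nat_lit 2255585187) (nat_lit 504) (nat_lit 2298014901) (nat_lit 96) (nat_lit 5) (nat_lit 101) (nat_lit 5) (nat_lit 102) (nat_lit 5) (nat_lit 369) (nat_lit 327) (nat_lit 249)) (XT.lf (nat_lit 0) (nat_lit 1545826923) (nat_lit 420) (nat_lit 10889772268)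 (nat_lit 504) (nat_lit 194278476) (nat_lit 91) (nat_lit 5) (nat_lit 96) (nat_lit 5) (nat_lit 97) (nat_lit 5) (nat_lit 370) (nat_lit 327) (nat_lit 248)))) (XT.nd (nat_lit 188) (nat_lit 420) (nat_lit 0) (XT.nd (nat_lit 94) (nat_lit 336) (nat_lit 0) (XT.lf (nat_lit 0) (nat_lit 1979153496) (nat_lit 504) (nat_lit 5010100037) (nat_lit 84) (nat_lit 5870322596) (nat_lit 90) (nat_lit 5) (nat_lit 96) (nat_lit 5) (nat_lit 91) (nat_lit 5) (nat_lit 371) (nat_lit 327) (nat_lit 247)) (XT.lf (nat_lit 0) (nat_lit 1239350674) (nat_lit 336) (nat_lit 2963441658) (nat_lit 420) (nat_lit 8893681768) (nat_lit 86) (nat_lit 5) (nat_lit 90) (nat_lit 5) (nat_lit 91) (nat_lit 5) (nat_lit 372) (nat_lit 327) (nat_lit 246))) (XT.nd (nat_lit 94) (nat_lit 420) (nat_lit 0) (XT.lf (nat_lit 0) (nat_lit 6532937572) (nat_lit 420) (nat_lit 5601195645) (nat_lit 84) (nat_lit 1205184424) (nat_lit 86) (nat_lit 5) (nat_lit 91) (nat_lit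 5) (nat_lit 87) (nat_lit 5) (nat_lit 373) (nat_lit 327) (nat_lit 245)) (XT.lf (nat_lit 0) (nat_lit 800190924) (nat_lit 420) (nat_lit 8147820465) (nat_lit 504) (nat_lit 4641015970) (nat_lit 81) (nat_lit 5) (nat_lit 86) (nat_lit 5) (nat_lit 87) (nat_lit 5) (nat_lit 374) (nat_lit 327) (nat_lit 244))))))) (XT.nd (nat_lit 1316) (nat_lit 1680) (nat_lit 0) (XT.nd (nat_lit 658) (nat_lit 1008) (nat_lit 0) (XT.nd (nat_lit 282) (nat_lit 672) (nat_lit 0) (XT.nd (nat_lit 94) (nat_lit 420) (nat_lit 0) (XT.lf (nat_lit 0) (nat_lit 7480224804) (nat_lit 420) (nat_lit 3990234826) (nat_lit 504) (nat_lit 2374751750) (nat_lit 81) (nat_lit 5) (nat_lit 86) (nat_lit 5) (nat_lit 87) (nat_lit 5) (nat_lit 375) (nat_lit 327) (nat_lit 243)) (XT.nd (nat_lit 94) (nat_lit 84) (nat_lit 0) (XT.lf (nat_lit 0) (nat_lit 225174866) (nat_lit 336) (nat_lit 13827308626) (nat_lit 420) (nat_lit 57110150) (nat_lit 77) (nat_lit 5)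 (nat_lit 81) (nat_lit 5) (nat_lit 82) (nat_lit 5) (nat_lit 376) (nat_lit 327) (nat_lit 242)) (XT.lf (nat_lit 0) (nat_lit 2368054113) (nat_lit 420) (nat_lit 7327164615) (nat_lit 84) (nat_lit 4683540942) (nat_lit 76) (nat_lit 5) (nat_lit 81) (nat_lit 5) (nat_lit 77) (nat_lit 5) (nat_lit 377) (nat_lit 327) (nat_lit 241)))) (XT.nd (nat_lit 188) (nat_lit 336) (nat_lit 0) (XT.nd (nat_lit 94) (nat_lit 336) (nat_lit 0) (XT.lf (nat_lit 0) (nat_lit 4844479580) (nat_lit 420) (nat_lit 601099030) (nat_lit 84) (nat_lit 9211042738) (nat_lit 76) (nat_lit 5) (nat_lit 81) (nat_lit 5) (nat_lit 77) (nat_lit 5) (nat_lit 378) (nat_lit 327) (nat_lit 240)) (XT.lf (nat_lit 0) (nat_lit 6425590514) (nat_lit 336) (nat_lit 1011620736) (nat_lit 420) (nat_lit 7504373687) (nat_lit 72) (nat_lit 5) (nat_lit 76) (nat_lit 5) (nat_lit 77) (nat_lit 5) (nat_lit 379) (nat_lit 327) (nat_lit 239))) (XT.nd (nat_lit 94) (nat_lit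 336) (nat_lit 0) (XT.lf (nat_lit 0) (nat_lit 10128534675) (nat_lit 420) (nat_lit 1620575916) (nat_lit 84) (nat_lit 3485388241) (nat_lit 72) (nat_lit 5) (nat_lit 77) (nat_lit 5) (nat_lit 73) (nat_lit 5) (nat_lit 380) (nat_lit 327) (nat_lit 238)) (XT.lf (nat_lit 0) (nat_lit 5554022537) (nat_lit 336) (nat_lit 7391051362) (nat_lit 420) (nat_lit 2589816907) (nat_lit 68) (nat_lit 5) (nat_lit 72) (nat_lit 5) (nat_lit 73) (nat_lit 5) (nat_lit 381) (nat_lit 327) (nat_lit 237))))) (XT.nd (nat_lit 282) (nat_lit 588) (nat_lit 0) (XT.nd (nat_lit 94) (nat_lit 420) (nat_lit 0) (XT.lf (nat_lit 0) (nat_lit 12951288965) (nat_lit 336) (nat_lit 2892559768) (nat_lit 420) (nat_lit 537840) (nat_lit 68) (nat_lit 5) (nat_lit 72) (nat_lit 5) (nat_lit 73) (nat_lit 5) (nat_lit 382) (nat_lit 327) (nat_lit 236)) (XT.nd (nat_lit 94) (nat_lit 0) (nat_lit 0) (XT.lf (nat_lit 0) (nat_lit 2656154112) (nat_lit 420) (nat_lit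 11736083796) (nat_lit 84) (nat_lit 1768930217) (nat_lit 63) (nat_lit 5) (nat_lit 68) (nat_lit 5) (nat_lit 64) (nat_lit 5) (nat_lit 383) (nat_lit 327) (nat_lit 235)) (XT.lf (nat_lit 0) (nat_lit 5432615788) (nat_lit 420) (nat_lit 4519062514) (nat_lit 84) (nat_lit 6534594431) (nat_lit 63) (nat_lit 5) (nat_lit 68) (nat_lit 5) (nat_lit 64) (nat_lit 5) (nat_lit 384) (nat_lit 327) (nat_lit 234)))) (XT.nd (nat_lit 188) (nat_lit 336) (nat_lit 0) (XT.nd (nat_lit 94) (nat_lit 0) (nat_lit 0) (XT.lf (nat_lit 0) (nat_lit 2947055286) (nat_lit 252) (nat_lit 5356107743) (nat_lit 336) (nat_lit 8517665215) (nat_lit 60) (nat_lit 5) (nat_lit 63) (nat_lit 5) (nat_lit 64) (nat_lit 5) (nat_lit 385) (nat_lit 327) (nat_lit 233)) (XT.lf (nat_lit 0) (nat_lit 10705115521) (nat_lit 252) (nat_lit 583081232) (nat_lit 336) (nat_lit 5876393457) (nat_lit 60) (nat_lit 5) (nat_lit 63) (nat_lit 5) (nat_lit 64) (nat_lit 5)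 (nat_lit 386) (nat_lit 327) (nat_lit 232))) (XT.nd (nat_lit 94) (nat_lit 0) (nat_lit 0) (XT.lf (nat_lit 0) (nat_lit 1133301969) (nat_lit 336) (nat_lit 13265196293) (nat_lit 420) (nat_lit 3119115552) (nat_lit 56) (nat_lit 5) (nat_lit 60) (nat_lit 5) (nat_lit 61) (nat_lit 5) (nat_lit 387) (nat_lit 327) (nat_lit 231)) (XT.lf (nat_lit 0) (nat_lit 9056213583) (nat_lit 336) (nat_lit 8600267597) (nat_lit 420) (nat_lit 223135466) (nat_lit 56) (nat_lit 5) (nat_lit 60) (nat_lit 5) (nat_lit 61) (nat_lit 5) (nat_lit 388) (nat_lit 327) (nat_lit 230)))))) (XT.nd (nat_lit 658) (nat_lit 756) (nat_lit 0) (XT.nd (nat_lit 282) (nat_lit 588) (nat_lit 0) (XT.nd (nat_lit 94) (nat_lit 252) (nat_lit 0) (XT.lf (nat_lit 0) (nat_lit 2689604355) (nat_lit 420) (nat_lit 1086006680) (nat_lit 84) (nat_lit 14476579270) (nat_lit 55) (nat_lit 5) (nat_lit 60) (nat_lit 5) (nat_lit 56) (nat_lit 5) (nat_lit 389) (nat_lit 327)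 (nat_lit 229)) (XT.nd (nat_lit 94) (nat_lit 0) (nat_lit 0) (XT.lf (nat_lit 0) (nat_lit 5748777549) (nat_lit 336) (nat_lit 11651766510) (nat_lit 84) (nat_lit 1233442777) (nat_lit 52) (nat_lit 5) (nat_lit 56) (nat_lit 5) (nat_lit 53) (nat_lit 5) (nat_lit 390) (nat_lit 327) (nat_lit 228)) (XT.lf (nat_lit 0) (nat_lit 8932559076) (nat_lit 336) (nat_lit 3772947814) (nat_lit 84) (nat_lit 6320762875) (nat_lit 52) (nat_lit 5) (nat_lit 56) (nat_lit 5) (nat_lit 53) (nat_lit 5) (nat_lit 391) (nat_lit 327) (nat_lit 227)))) (XT.nd (nat_lit 188) (nat_lit 336) (nat_lit 0) (XT.nd (nat_lit 94) (nat_lit 0) (nat_lit 0) (XT.lf (nat_lit 0) (nat_lit 4405578025) (nat_lit 252) (nat_lit 7833455943) (nat_lit 336) (nat_lit 7190488803) (nat_lit 49) (nat_lit 5) (nat_lit 52) (nat_lit 5) (nat_lit 53) (nat_lit 5) (nat_lit 392) (nat_lit 327) (nat_lit 226)) (XT.lf (nat_lit 0) (nat_lit 12884397085) (nat_lit 252) (nat_lit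 2783462663) (nat_lit 336) (nat_lit 4176335410) (nat_lit 49) (nat_lit 5) (nat_lit 52) (nat_lit 5) (nat_lit 53) (nat_lit 5) (nat_lit 393) (nat_lit 327) (nat_lit 225))) (XT.nd (nat_lit 94) (nat_lit 84) (nat_lit 0) (XT.lf (nat_lit 0) (nat_lit 1326786458) (nat_lit 252) (nat_lit 17894184169) (nat_lit 336) (nat_lit 1049710491) (nat_lit 46) (nat_lit 5) (nat_lit 49) (nat_lit 5) (nat_lit 50) (nat_lit 5) (nat_lit 394) (nat_lit 327) (nat_lit 224)) (XT.lf (nat_lit 0) (nat_lit 2212369245) (nat_lit 336) (nat_lit 10774557212) (nat_lit 84) (nat_lit 7719903870) (nat_lit 45) (nat_lit 5) (nat_lit 49) (nat_lit 5) (nat_lit 46) (nat_lit 5) (nat_lit 395) (nat_lit 327) (nat_lit 223))))) (XT.nd (nat_lit 282) (nat_lit 504) (nat_lit 0) (XT.nd (nat_lit 94) (nat_lit 252) (nat_lit 0) (XT.lf (nat_lit 0) (nat_lit 5537115472) (nat_lit 336) (nat_lit 2392106041) (nat_lit 84) (nat_lit 13226968289) (nat_lit 45) (nat_lit 5)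 (nat_lit 49) (nat_lit 5) (nat_lit 46) (nat_lit 5) (nat_lit 396) (nat_lit 327) (nat_lit 222)) (XT.nd (nat_lit 94) (nat_lit 0) (nat_lit 0) (XT.lf (nat_lit 0) (nat_lit 6344681370) (nat_lit 252) (nat_lit 2664224528) (nat_lit 336) (nat_lit 12608719333) (nat_lit 42) (nat_lit 5) (nat_lit 45) (nat_lit 5) (nat_lit 46) (nat_lit 5) (nat_lit 397) (nat_lit 327) (nat_lit 221)) (XT.lf (nat_lit 0) (nat_lit 12622205751) (nat_lit 336) (nat_lit 6747416793) (nat_lit 84) (nat_lit 2722174320) (nat_lit 42) (nat_lit 5) (nat_lit 46) (nat_lit 5) (nat_lit 43) (nat_lit 5) (nat_lit 398) (nat_lit 327) (nat_lit 220)))) (XT.nd (nat_lit 188) (nat_lit 336) (nat_lit 0) (XT.nd (nat_lit 94) (nat_lit 0) (nat_lit 0) (XT.lf (nat_lit 0) (nat_lit 2026569235) (nat_lit 168) (nat_lit 14350031768) (nat_lit 252) (nat_lit 6202625159) (nat_lit 40) (nat_lit 5) (nat_lit 42) (nat_lit 5) (nat_lit 43) (nat_lit 5) (nat_lit 399) (nat_lit 327)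 (nat_lit 219)) (XT.lf (nat_lit 0) (nat_lit 11181816943) (nat_lit 168) (nat_lit 9116972669) (nat_lit 252) (nat_lit 2780846900) (nat_lit 40) (nat_lit 5) (nat_lit 42) (nat_lit 5) (nat_lit 43) (nat_lit 5) (nat_lit 400) (nat_lit 327) (nat_lit 218))) (XT.nd (nat_lit 94) (nat_lit 252) (nat_lit 0) (XT.lf (nat_lit 0) (nat_lit 716341291) (nat_lit 252) (nat_lit 3010433417) (nat_lit 84) (nat_lit 19868464305) (nat_lit 39) (nat_lit 5) (nat_lit 42) (nat_lit 5) (nat_lit 40) (nat_lit 5) (nat_lit 401) (nat_lit 327) (nat_lit 217)) (XT.lf (nat_lit 0) (nat_lit 4328302968) (nat_lit 336) (nat_lit 17924405136) (nat_lit 84) (nat_lit 1870814901) (nat_lit 36) (nat_lit 5) (nat_lit 40) (nat_lit 5) (nat_lit 37) (nat_lit 5) (nat_lit 402) (nat_lit 327) (nat_lit 216))))))))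
noncomputable def xc115 : XT := (XT.nd (nat_lit 2632) (nat_lit 504) (nat_lit 0) (XT.nd (nat_lit 1316) (nat_lit 588) (nat_lit 0) (XT.nd (nat_lit 658) (nat_lit 588) (nat_lit 0) (XT.nd (nat_lit 282) (nat_lit 252) (nat_lit 0) (XT.nd (nat_lit 94) (nat_lit 168) (nat_lit 0) (XT.lf (nat_lit 0) (nat_lit 8103968717) (nat_lit 336) (nat_lit 8976764250) (nat_lit 84) (nat_lit 7585273758) (nat_lit 36) (nat_lit 5) (nat_lit 40) (nat_lit 5) (nat_lit 37) (nat_lit 5) (nat_lit 403) (nat_lit 327) (nat_lit 215)) (XT.nd (nat_lit 94) (nat_lit 0) (nat_lit 0) (XT.lf (nat_lit 0) (nat_lit 224771969) (nat_lit 168) (nat_lit 11758396031) (nat_lit 252) (nat_lit 13241900281) (nat_lit 34) (nat_lit 5) (nat_lit 36) (nat_lit 5) (nat_lit 37) (nat_lit 5) (nat_lit 404) (nat_lit 327) (nat_lit 214)) (XT.lf (nat_lit 0) (nat_lit 9867634630) (nat_lit 168) (nat_lit 6190025693) (nat_lit 252) (nat_lit 9740884751) (nat_lit 34) (nat_lit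 5) (nat_lit 36) (nat_lit 5) (nat_lit 37) (nat_lit 5) (nat_lit 405) (nat_lit 327) (nat_lit 213)))) (XT.nd (nat_lit 188) (nat_lit 84) (nat_lit 0) (XT.nd (nat_lit 94) (nat_lit 168) (nat_lit 0) (XT.lf (nat_lit 0) (nat_lit 19781594323) (nat_lit 168) (nat_lit 461404107) (nat_lit 252) (nat_lit 6146579996) (nat_lit 34) (nat_lit 5) (nat_lit 36) (nat_lit 5) (nat_lit 37) (nat_lit 5) (nat_lit 406) (nat_lit 327) (nat_lit 212)) (XT.lf (nat_lit 0) (nat_lit 2982610159) (nat_lit 168) (nat_lit 21641120193) (nat_lit 252) (nat_lit 2372527692) (nat_lit 32) (nat_lit 5) (nat_lit 34) (nat_lit 5) (nat_lit 35) (nat_lit 5) (nat_lit 407) (nat_lit 327) (nat_lit 211))) (XT.nd (nat_lit 94) (nat_lit 0) (nat_lit 0) (XT.lf (nat_lit 0) (nat_lit 1546058803) (nat_lit 252) (nat_lit 14660538539) (nat_lit 84) (nat_lit 11412287453) (nat_lit 31) (nat_lit 5) (nat_lit 34) (nat_lit 5) (nat_lit 32) (nat_lit 5) (nat_lit 408) (nat_lit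 327) (nat_lit 210)) (XT.lf (nat_lit 0) (nat_lit 5523754395) (nat_lit 252) (nat_lit 5067794313) (nat_lit 84) (nat_lit 17668269225) (nat_lit 31) (nat_lit 5) (nat_lit 34) (nat_lit 5) (nat_lit 32) (nat_lit 5) (nat_lit 409) (nat_lit 327) (nat_lit 209))))) (XT.nd (nat_lit 282) (nat_lit 420) (nat_lit 0) (XT.nd (nat_lit 94) (nat_lit 0) (nat_lit 0) (XT.lf (nat_lit 0) (nat_lit 4891218275) (nat_lit 168) (nat_lit 4766130407) (nat_lit 252) (nat_lit 19261542480) (nat_lit 29) (nat_lit 5) (nat_lit 31) (nat_lit 5) (nat_lit 32) (nat_lit 5) (nat_lit 410) (nat_lit 327) (nat_lit 208)) (XT.nd (nat_lit 94) (nat_lit 0) (nat_lit 0) (XT.lf (nat_lit 0) (nat_lit 13968125737) (nat_lit 252) (nat_lit 14372733112) (nat_lit 84) (nat_lit 1255291353) (nat_lit 29) (nat_lit 5) (nat_lit 32) (nat_lit 5) (nat_lit 30) (nat_lit 5) (nat_lit 411) (nat_lit 327) (nat_lit 207)) (XT.lf (nat_lit 0) (nat_lit 18445348549) (nat_lit 252)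 (nat_lit 4491886685) (nat_lit 84) (nat_lit 7355386714) (nat_lit 29) (nat_lit 5) (nat_lit 32) (nat_lit 5) (nat_lit 30) (nat_lit 5) (nat_lit 412) (nat_lit 327) (nat_lit 206)))) (XT.nd (nat_lit 188) (nat_lit 252) (nat_lit 0) (XT.nd (nat_lit 94) (nat_lit 0) (nat_lit 0) (XT.lf (nat_lit 0) (nat_lit 5782145589) (nat_lit 168) (nat_lit 17320550224) (nat_lit 252) (nat_lit 7905926157) (nat_lit 27) (nat_lit 5) (nat_lit 29) (nat_lit 5) (nat_lit 30) (nat_lit 5) (nat_lit 413) (nat_lit 327) (nat_lit 205)) (XT.lf (nat_lit 0) (nat_lit 16440565624) (nat_lit 168) (nat_lit 11494915078) (nat_lit 252) (nat_lit 3809557887) (nat_lit 27) (nat_lit 5) (nat_lit 29) (nat_lit 5) (nat_lit 30) (nat_lit 5) (nat_lit 414) (nat_lit 327) (nat_lit 204))) (XT.nd (nat_lit 94) (nat_lit 168) (nat_lit 0) (XT.lf (nat_lit 0) (nat_lit 392245068) (nat_lit 252) (nat_lit 5104392709) (nat_lit 84) (nat_lit 27007083274) (nat_lit 26) (nat_lit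 5) (nat_lit 29) (nat_lit 5) (nat_lit 27) (nat_lit 5) (nat_lit 415) (nat_lit 327) (nat_lit 203)) (XT.lf (nat_lit 0) (nat_lit 4694173561) (nat_lit 252) (nat_lit 27834895522) (nat_lit 84) (nat_lit 753451584) (nat_lit 24) (nat_lit 5) (nat_lit 27) (nat_lit 5) (nat_lit 25) (nat_lit 5) (nat_lit 416) (nat_lit 327) (nat_lit 202)))))) (XT.nd (nat_lit 658) (nat_lit 252) (nat_lit 0) (XT.nd (nat_lit 282) (nat_lit 168) (nat_lit 0) (XT.nd (nat_lit 94) (nat_lit 168) (nat_lit 0) (XT.lf (nat_lit 0) (nat_lit 9222516251) (nat_lit 252) (nat_lit 17732493866) (nat_lit 84) (nat_lit 7126760672) (nat_lit 24) (nat_lit 5) (nat_lit 27) (nat_lit 5) (nat_lit 25) (nat_lit 5) (nat_lit 417) (nat_lit 327) (nat_lit 201)) (XT.nd (nat_lit 94) (nat_lit 168) (nat_lit 0) (XT.lf (nat_lit 0) (nat_lit 13877854355) (nat_lit 252) (nat_lit 7341837647) (nat_lit 84) (nat_lit 13685579055) (nat_lit 24) (nat_lit 5) (nat_lit 27) (nat_lit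 5) (nat_lit 25) (nat_lit 5) (nat_lit 418) (nat_lit 327) (nat_lit 200)) (XT.lf (nat_lit 0) (nat_lit 3412747340) (nat_lit 168) (nat_lit 15284313720) (nat_lit 252) (nat_lit 17055695816) (nat_lit 22) (nat_lit 5) (nat_lit 24) (nat_lit 5) (nat_lit 25) (nat_lit 5) (nat_lit 419) (nat_lit 327) (nat_lit 199)))) (XT.nd (nat_lit 188) (nat_lit 168) (nat_lit 0) (XT.nd (nat_lit 94) (nat_lit 0) (nat_lit 0) (XT.lf (nat_lit 0) (nat_lit 14626225480) (nat_lit 168) (nat_lit 9100273159) (nat_lit 252) (nat_lit 12897205584) (nat_lit 22) (nat_lit 5) (nat_lit 24) (nat_lit 5) (nat_lit 25) (nat_lit 5) (nat_lit 420) (nat_lit 327) (nat_lit 198)) (XT.lf (nat_lit 0) (nat_lit 26162277993) (nat_lit 168) (nat_lit 2736304955) (nat_lit 252) (nat_lit 8622450541) (nat_lit 22) (nat_lit 5) (nat_lit 24) (nat_lit 5) (nat_lit 25) (nat_lit 5) (nat_lit 421) (nat_lit 327) (nat_lit 197))) (XT.nd (nat_lit 94) (nat_lit 168) (nat_lit 0)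 (XT.lf (nat_lit 0) (nat_lit 34254487628) (nat_lit 252) (nat_lit 451198168) (nat_lit 84) (nat_lit 3738743317) (nat_lit 22) (nat_lit 5) (nat_lit 25) (nat_lit 5) (nat_lit 23) (nat_lit 4) (nat_lit 422) (nat_lit 327) (nat_lit 196)) (XT.lf (nat_lit 0) (nat_lit 494046451) (nat_lit 168) (nat_lit 28439556577) (nat_lit 84) (nat_lit 10458046188) (nat_lit 20) (nat_lit 5) (nat_lit 22) (nat_lit 5) (nat_lit 21) (nat_lit 5) (nat_lit 423) (nat_lit 327) (nat_lit 195))))) (XT.nd (nat_lit 282) (nat_lit 84) (nat_lit 0) (XT.nd (nat_lit 94) (nat_lit 168) (nat_lit 0) (XT.lf (nat_lit 0) (nat_lit 5231147019) (nat_lit 168) (nat_lit 17715203129) (nat_lit 84) (nat_lit 17419792726) (nat_lit 20) (nat_lit 5) (nat_lit 22) (nat_lit 5) (nat_lit 21) (nat_lit 5) (nat_lit 424) (nat_lit 327) (nat_lit 194)) (XT.nd (nat_lit 94) (nat_lit 168) (nat_lit 0) (XT.lf (nat_lit 0) (nat_lit 10102792972) (nat_lit 168) (nat_lit 6681988501)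 (nat_lit 84) (nat_lit 24585322422) (nat_lit 20) (nat_lit 5) (nat_lit 22) (nat_lit 5) (nat_lit 21) (nat_lit 5) (nat_lit 425) (nat_lit 327) (nat_lit 193)) (XT.lf (nat_lit 0) (nat_lit 4762664722) (nat_lit 168) (nat_lit 10396358014) (nat_lit 252) (nat_lit 27244013341) (nat_lit 18) (nat_lit 5) (nat_lit 20) (nat_lit 5) (nat_lit 21) (nat_lit 5) (nat_lit 426) (nat_lit 327) (nat_lit 192)))) (XT.nd (nat_lit 188) (nat_lit 84) (nat_lit 0) (XT.nd (nat_lit 94) (nat_lit 0) (nat_lit 0) (XT.lf (nat_lit 0) (nat_lit 16675259667) (nat_lit 168) (nat_lit 3751902562) (nat_lit 252) (nat_lit 23037992518) (nat_lit 18) (nat_lit 5) (nat_lit 20) (nat_lit 5) (nat_lit 21) (nat_lit 5) (nat_lit 427) (nat_lit 327) (nat_lit 191)) (XT.lf (nat_lit 0) (nat_lit 25875978310) (nat_lit 252) (nat_lit 15655805860) (nat_lit 84) (nat_lit 3026678890) (nat_lit 18) (nat_lit 5) (nat_lit 21) (nat_lit 5) (nat_lit 19) (nat_lit 4) (nat_lit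 428) (nat_lit 327) (nat_lit 190))) (XT.nd (nat_lit 94) (nat_lit 84) (nat_lit 0) (XT.lf (nat_lit 0) (nat_lit 31518524189) (nat_lit 252) (nat_lit 4236666987) (nat_lit 84) (nat_lit 9928476395) (nat_lit 18) (nat_lit 5) (nat_lit 21) (nat_lit 5) (nat_lit 19) (nat_lit 4) (nat_lit 429) (nat_lit 327) (nat_lit 189)) (XT.lf (nat_lit 0) (nat_lit 7663099684) (nat_lit 84) (nat_lit 29734227380) (nat_lit 168) (nat_lit 9443296499) (nat_lit 17) (nat_lit 5) (nat_lit 18) (nat_lit 5) (nat_lit 19) (nat_lit 4) (nat_lit 430) (nat_lit 327) (nat_lit 188))))))) (XT.nd (nat_lit 1316) (nat_lit 0) (nat_lit 0) (XT.nd (nat_lit 658) (nat_lit 252) (nat_lit 0) (XT.nd (nat_lit 282) (nat_lit 168) (nat_lit 0) (XT.nd (nat_lit 94) (nat_lit 84) (nat_lit 0) (XT.lf (nat_lit 0) (nat_lit 19995338393) (nat_lit 84) (nat_lit 23493341216) (nat_lit 168) (nat_lit 4542527686) (nat_lit 17) (nat_lit 5) (nat_lit 18) (nat_lit 5) (nat_lit 19)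 (nat_lit 4) (nat_lit 431) (nat_lit 327) (nat_lit 187)) (XT.nd (nat_lit 94) (nat_lit 0) (nat_lit 0) (XT.lf (nat_lit 0) (nat_lit 488932535) (nat_lit 168) (nat_lit 16575991717) (nat_lit 84) (nat_lit 32192637104) (nat_lit 16) (nat_lit 5) (nat_lit 18) (nat_lit 5) (nat_lit 17) (nat_lit 5) (nat_lit 432) (nat_lit 327) (nat_lit 186)) (XT.lf (nat_lit 0) (nat_lit 5573752634) (nat_lit 168) (nat_lit 4828138914) (nat_lit 84) (nat_lit 40117657969) (nat_lit 16) (nat_lit 5) (nat_lit 18) (nat_lit 5) (nat_lit 17) (nat_lit 5) (nat_lit 433) (nat_lit 327) (nat_lit 185)))) (XT.nd (nat_lit 188) (nat_lit 0) (nat_lit 0) (XT.nd (nat_lit 94) (nat_lit 0) (nat_lit 0) (XT.lf (nat_lit 0) (nat_lit 7406140655) (nat_lit 168) (nat_lit 3470068430) (nat_lit 252) (nat_lit 40941239594) (nat_lit 14) (nat_lit 5) (nat_lit 16) (nat_lit 5) (nat_lit 17) (nat_lit 5) (nat_lit 434) (nat_lit 327) (nat_lit 184)) (XT.lf (nat_lit 0) (nat_lit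 16416186718) (nat_lit 252) (nat_lit 33092728091) (nat_lit 84) (nat_lit 3643020575) (nat_lit 14) (nat_lit 5) (nat_lit 17) (nat_lit 5) (nat_lit 15) (nat_lit 4) (nat_lit 435) (nat_lit 327) (nat_lit 183))) (XT.nd (nat_lit 94) (nat_lit 0) (nat_lit 0) (XT.lf (nat_lit 0) (nat_lit 22150831995) (nat_lit 252) (nat_lit 21479208484) (nat_lit 84) (nat_lit 10895566036) (nat_lit 14) (nat_lit 5) (nat_lit 17) (nat_lit 5) (nat_lit 15) (nat_lit 4) (nat_lit 436) (nat_lit 327) (nat_lit 182)) (XT.lf (nat_lit 0) (nat_lit 28051799350) (nat_lit 252) (nat_lit 9527245048) (nat_lit 84) (nat_lit 18361618661) (nat_lit 14) (nat_lit 5) (nat_lit 17) (nat_lit 5) (nat_lit 15) (nat_lit 4) (nat_lit 437) (nat_lit 327) (nat_lit 181))))) (XT.nd (nat_lit 282) (nat_lit 168) (nat_lit 0) (XT.nd (nat_lit 94) (nat_lit 0) (nat_lit 0) (XT.lf (nat_lit 0) (nat_lit 2828805870) (nat_lit 84) (nat_lit 31322631311) (nat_lit 168) (nat_lit 23246088527)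 (nat_lit 13) (nat_lit 5) (nat_lit 14) (nat_lit 5) (nat_lit 15) (nat_lit 4) (nat_lit 438) (nat_lit 327) (nat_lit 180)) (XT.nd (nat_lit 94) (nat_lit 0) (nat_lit 0) (XT.lf (nat_lit 0) (nat_lit 15741260709) (nat_lit 84) (nat_lit 24783528791) (nat_lit 168) (nat_lit 18370586523) (nat_lit 13) (nat_lit 5) (nat_lit 14) (nat_lit 5) (nat_lit 15) (nat_lit 4) (nat_lit 439) (nat_lit 327) (nat_lit 179)) (XT.lf (nat_lit 0) (nat_lit 29031791338) (nat_lit 84) (nat_lit 18052229553) (nat_lit 168) (nat_lit 13354304042) (nat_lit 13) (nat_lit 5) (nat_lit 14) (nat_lit 5) (nat_lit 15) (nat_lit 4) (nat_lit 440) (nat_lit 327) (nat_lit 178)))) (XT.nd (nat_lit 188) (nat_lit 168) (nat_lit 0) (XT.nd (nat_lit 94) (nat_lit 0) (nat_lit 0) (XT.lf (nat_lit 0) (nat_lit 42712010842) (nat_lit 84) (nat_lit 11122851880) (nat_lit 168) (nat_lit 8192857927) (nat_lit 13) (nat_lit 5) (nat_lit 14) (nat_lit 5) (nat_lit 15) (nat_lit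 4) (nat_lit 441) (nat_lit 327) (nat_lit 177)) (XT.lf (nat_lit 0) (nat_lit 56793872810) (nat_lit 84) (nat_lit 3989340976) (nat_lit 168) (nat_lit 2881738176) (nat_lit 13) (nat_lit 5) (nat_lit 14) (nat_lit 5) (nat_lit 15) (nat_lit 4) (nat_lit 442) (nat_lit 327) (nat_lit 176))) (XT.nd (nat_lit 94) (nat_lit 0) (nat_lit 0) (XT.lf (nat_lit 0) (nat_lit 2624319015) (nat_lit 168) (nat_lit 59350946475) (nat_lit 84) (nat_lit 3372707683) (nat_lit 11) (nat_lit 5) (nat_lit 13) (nat_lit 5) (nat_lit 12) (nat_lit 4) (nat_lit 443) (nat_lit 327) (nat_lit 175)) (XT.lf (nat_lit 0) (nat_lit 8342312585) (nat_lit 168) (nat_lit 47764733811) (nat_lit 84) (nat_lit 10970445390) (nat_lit 11) (nat_lit 5) (nat_lit 13) (nat_lit 5) (nat_lit 12) (nat_lit 4) (nat_lit 444) (nat_lit 327) (nat_lit 174)))))) (XT.nd (nat_lit 48786) (nat_lit 0) (nat_lit 17472) (XT.nd (nat_lit 48410) (nat_lit 0) (nat_lit 18312) (XT.nd (nat_lit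 94) (nat_lit 0) (nat_lit 0) (XT.lf (nat_lit 0) (nat_lit 14227093456) (nat_lit 168) (nat_lit 35839322121) (nat_lit 84) (nat_lit 18792625838) (nat_lit 11) (nat_lit 5) (nat_lit 13) (nat_lit 5) (nat_lit 12) (nat_lit 4) (nat_lit 445) (nat_lit 327) (nat_lit 173)) (XT.nd (nat_lit 48222) (nat_lit 0) (nat_lit 19152) (XT.lf (nat_lit 0) (nat_lit 20283803670) (nat_lit 168) (nat_lit 23564291142) (nat_lit 84) (nat_lit 26846083943) (nat_lit 11) (nat_lit 5) (nat_lit 13) (nat_lit 5) (nat_lit 12) (nat_lit 4) (nat_lit 446) (nat_lit 327) (nat_lit 172)) (XT.lf (nat_lit 0) (nat_lit 873490877) (nat_lit 0) (nat_lit 873490877) (nat_lit 756) (nat_lit 1845120330) (nat_lit 239) (nat_lit 5) (nat_lit 239) (nat_lit 3) (nat_lit 248) (nat_lit 3) (nat_lit 328) (nat_lit 328) (nat_lit 289)))) (XT.nd (nat_lit 188) (nat_lit 840) (nat_lit 0) (XT.nd (nat_lit 94) (nat_lit 0) (nat_lit 0) (XT.lf (nat_lit 0) (nat_lit 4988207668)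 (nat_lit 0) (nat_lit 82292173) (nat_lit 756) (nat_lit 2172087622) (nat_lit 239) (nat_lit 5) (nat_lit 239) (nat_lit 3) (nat_lit 248) (nat_lit 3) (nat_lit 329) (nat_lit 328) (nat_lit 288)) (XT.lf (nat_lit 84) (nat_lit 995733159) (nat_lit 0) (nat_lit 5664665214) (nat_lit 840) (nat_lit 643484583) (nat_lit 240) (nat_lit 5) (nat_lit 239) (nat_lit 5) (nat_lit 249) (nat_lit 5) (nat_lit 330) (nat_lit 328) (nat_lit 287))) (XT.nd (nat_lit 94) (nat_lit 0) (nat_lit 0) (XT.lf (nat_lit 0) (nat_lit 878130456) (nat_lit 840) (nat_lit 3019700994) (nat_lit 924) (nat_lit 3470092264) (nat_lit 229) (nat_lit 5) (nat_lit 239) (nat_lit 5) (nat_lit 240) (nat_lit 5) (nat_lit 331) (nat_lit 328) (nat_lit 286)) (XT.lf (nat_lit 84) (nat_lit 335598864) (nat_lit 0) (nat_lit 2043306720) (nat_lit 924) (nat_lit 5056526199) (nat_lit 230) (nat_lit 5) (nat_lit 229) (nat_lit 5) (nat_lit 240) (nat_lit 5) (nat_lit 332) (nat_lit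 328) (nat_lit 285))))) (XT.nd (nat_lit 282) (nat_lit 840) (nat_lit 0) (XT.nd (nat_lit 94) (nat_lit 0) (nat_lit 84) (XT.lf (nat_lit 84) (nat_lit 3821792140) (nat_lit 0) (nat_lit 77973360) (nat_lit 924) (nat_lit 3606074518) (nat_lit 230) (nat_lit 5) (nat_lit 229) (nat_lit 5) (nat_lit 240) (nat_lit 5) (nat_lit 333) (nat_lit 328) (nat_lit 284)) (XT.nd (nat_lit 94) (nat_lit 0) (nat_lit 0) (XT.lf (nat_lit 0) (nat_lit 5431365209) (nat_lit 840) (nat_lit 217202049) (nat_lit 924) (nat_lit 1930962902) (nat_lit 230) (nat_lit 5) (nat_lit 240) (nat_lit 5) (nat_lit 241) (nat_lit 5) (nat_lit 334) (nat_lit 328) (nat_lit 283)) (XT.lf (nat_lit 84) (nat_lit 3387223052) (nat_lit 0) (nat_lit 3602987733) (nat_lit 924) (nat_lit 665900780) (nat_lit 231) (nat_lit 5) (nat_lit 230) (nat_lit 5) (nat_lit 241) (nat_lit 5) (nat_lit 335) (nat_lit 328) (nat_lit 282)))) (XT.nd (nat_lit 188) (nat_lit 0) (nat_lit 84) (XT.nd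 (nat_lit 94) (nat_lit 0) (nat_lit 84) (XT.lf (nat_lit 0) (nat_lit 794810645) (nat_lit 924) (nat_lit 671563903) (nat_lit 1008) (nat_lit 6269956934) (nat_lit 219) (nat_lit 5) (nat_lit 230) (nat_lit 5) (nat_lit 231) (nat_lit 5) (nat_lit 336) (nat_lit 328) (nat_lit 281)) (XT.lf (nat_lit 0) (nat_lit 2272978096) (nat_lit 924) (nat_lit 4772002060) (nat_lit 1008) (nat_lit 774278844) (nat_lit 220) (nat_lit 5) (nat_lit 231) (nat_lit 5) (nat_lit 232) (nat_lit 5) (nat_lit 337) (nat_lit 328) (nat_lit 280))) (XT.nd (nat_lit 94) (nat_lit 0) (nat_lit 0) (XT.lf (nat_lit 0) (nat_lit 3768239590) (nat_lit 924) (nat_lit 1060702650) (nat_lit 1008) (nat_lit 3076655801) (nat_lit 220) (nat_lit 5) (nat_lit 231) (nat_lit 5) (nat_lit 232) (nat_lit 5) (nat_lit 338) (nat_lit 328) (nat_lit 279)) (XT.lf (nat_lit 84) (nat_lit 2784172887) (nat_lit 0) (nat_lit 2503747116) (nat_lit 1008) (nat_lit 2707323495) (nat_lit 221)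 (nat_lit 5) (nat_lit 220) (nat_lit 5) (nat_lit 232) (nat_lit 5) (nat_lit 339) (nat_lit 328) (nat_lit 278))))))))
noncomputable def xc116 : XT := (XT.nd (nat_lit 2538) (nat_lit 4872) (nat_lit 0) (XT.nd (nat_lit 1222) (nat_lit 4032) (nat_lit 0) (XT.nd (nat_lit 564) (nat_lit 3612) (nat_lit 0) (XT.nd (nat_lit 282) (nat_lit 924) (nat_lit 0) (XT.nd (nat_lit 94) (nat_lit 924) (nat_lit 0) (XT.lf (nat_lit 84) (nat_lit 6734360588) (nat_lit 0) (nat_lit 83408513) (nat_lit 1008) (nat_lit 1270971945) (nat_lit 221) (nat_lit 5) (nat_lit 220) (nat_lit 5) (nat_lit 232) (nat_lit 5) (nat_lit 340) (nat_lit 328) (nat_lit 277)) (XT.nd (nat_lit 94) (nat_lit 0) (nat_lit 0) (XT.lf (nat_lit 0) (nat_lit 207971468) (nat_lit 1008) (nat_lit 5573651829) (nat_lit 1092) (nat_lit 2403347354) (nat_lit 209) (nat_lit 5) (nat_lit 221) (nat_lit 5) (nat_lit 222) (nat_lit 5) (nat_lit 341) (nat_lit 328) (nat_lit 276)) (XT.lf (nat_lit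 0) (nat_lit 1676187818) (nat_lit 1008) (nat_lit 1606549226) (nat_lit 1092) (nat_lit 5001950667) (nat_lit 209) (nat_lit 5) (nat_lit 221) (nat_lit 5) (nat_lit 222) (nat_lit 5) (nat_lit 342) (nat_lit 328) (nat_lit 275)))) (XT.nd (nat_lit 94) (nat_lit 924) (nat_lit 0) (XT.lf (nat_lit 84) (nat_lit 2496159186) (nat_lit 0) (nat_lit 673385196) (nat_lit 1092) (nat_lit 5218508006) (nat_lit 210) (nat_lit 5) (nat_lit 209) (nat_lit 5) (nat_lit 222) (nat_lit 5) (nat_lit 343) (nat_lit 328) (nat_lit 274)) (XT.nd (nat_lit 94) (nat_lit 1008) (nat_lit 0) (XT.lf (nat_lit 0) (nat_lit 4701588021) (nat_lit 1008) (nat_lit 1791916696) (nat_lit 84) (nat_lit 2001283021) (nat_lit 210) (nat_lit 5) (nat_lit 222) (nat_lit 5) (nat_lit 211) (nat_lit 5) (nat_lit 344) (nat_lit 328) (nat_lit 273)) (XT.lf (nat_lit 0) (nat_lit 2439723885) (nat_lit 1008) (nat_lit 3829348170) (nat_lit 1092) (nat_lit 2336052533) (nat_lit 198)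 (nat_lit 5) (nat_lit 210) (nat_lit 5) (nat_lit 211) (nat_lit 5) (nat_lit 345) (nat_lit 328) (nat_lit 272))))) (XT.nd (nat_lit 282) (nat_lit 2436) (nat_lit 0) (XT.nd (nat_lit 94) (nat_lit 1176) (nat_lit 0) (XT.lf (nat_lit 0) (nat_lit 6803086808) (nat_lit 1008) (nat_lit 1058824915) (nat_lit 1092) (nat_lit 857591254) (nat_lit 198) (nat_lit 5) (nat_lit 210) (nat_lit 5) (nat_lit 211) (nat_lit 5) (nat_lit 346) (nat_lit 328) (nat_lit 271)) (XT.nd (nat_lit 94) (nat_lit 0) (nat_lit 0) (XT.lf (nat_lit 0) (nat_lit 654540727) (nat_lit 1176) (nat_lit 6385319122) (nat_lit 84) (nat_lit 1797268799) (nat_lit 184) (nat_lit 5) (nat_lit 198) (nat_lit 5) (nat_lit 185) (nat_lit 5) (nat_lit 347) (nat_lit 328) (nat_lit 270)) (XT.lf (nat_lit 0) (nat_lit 2186660122) (nat_lit 1176) (nat_lit 2019357474) (nat_lit 84) (nat_lit 4752329422) (nat_lit 184) (nat_lit 5) (nat_lit 198) (nat_lit 5) (nat_lit 185) (nat_lit 5)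 (nat_lit 348) (nat_lit 328) (nat_lit 269)))) (XT.nd (nat_lit 188) (nat_lit 1260) (nat_lit 0) (XT.nd (nat_lit 94) (nat_lit 0) (nat_lit 0) (XT.lf (nat_lit 0) (nat_lit 2494358325) (nat_lit 1176) (nat_lit 1257306852) (nat_lit 1260) (nat_lit 5332001395) (nat_lit 170) (nat_lit 5) (nat_lit 184) (nat_lit 5) (nat_lit 185) (nat_lit 5) (nat_lit 349) (nat_lit 328) (nat_lit 268)) (XT.lf (nat_lit 0) (nat_lit 5365088539) (nat_lit 1260) (nat_lit 2077354147) (nat_lit 84) (nat_lit 1770329173) (nat_lit 170) (nat_lit 5) (nat_lit 185) (nat_lit 5) (nat_lit 171) (nat_lit 5) (nat_lit 350) (nat_lit 328) (nat_lit 267))) (XT.nd (nat_lit 94) (nat_lit 0) (nat_lit 0) (XT.lf (nat_lit 0) (nat_lit 2575941346) (nat_lit 1260) (nat_lit 4453004287) (nat_lit 1344) (nat_lit 2316811885) (nat_lit 155) (nat_lit 5) (nat_lit 170) (nat_lit 5) (nat_lit 171) (nat_lit 5) (nat_lit 351) (nat_lit 328) (nat_lit 266)) (XT.lf (nat_lit 0)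 (nat_lit 7379896991) (nat_lit 1260) (nat_lit 1349341200) (nat_lit 1344) (nat_lit 753965125) (nat_lit 155) (nat_lit 5) (nat_lit 170) (nat_lit 5) (nat_lit 171) (nat_lit 5) (nat_lit 352) (nat_lit 328) (nat_lit 265)))))) (XT.nd (nat_lit 658) (nat_lit 1512) (nat_lit 0) (XT.nd (nat_lit 282) (nat_lit 1260) (nat_lit 0) (XT.nd (nat_lit 94) (nat_lit 588) (nat_lit 0) (XT.lf (nat_lit 0) (nat_lit 849456690) (nat_lit 672) (nat_lit 6926298986) (nat_lit 84) (nat_lit 1848520728) (nat_lit 147) (nat_lit 5) (nat_lit 155) (nat_lit 5) (nat_lit 148) (nat_lit 5) (nat_lit 353) (nat_lit 328) (nat_lit 264)) (XT.nd (nat_lit 94) (nat_lit 588) (nat_lit 0) (XT.lf (nat_lit 0) (nat_lit 2487496543) (nat_lit 672) (nat_lit 2135673086) (nat_lit 84) (nat_lit 5146198572) (nat_lit 147) (nat_lit 5) (nat_lit 155) (nat_lit 5) (nat_lit 148) (nat_lit 5) (nat_lit 354) (nat_lit 328) (nat_lit 263)) (XT.lf (nat_lit 0) (nat_lit 2822576569)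 (nat_lit 588) (nat_lit 1347058561) (nat_lit 672) (nat_lit 5749387678) (nat_lit 140) (nat_lit 5) (nat_lit 147) (nat_lit 5) (nat_lit 148) (nat_lit 5) (nat_lit 355) (nat_lit 328) (nat_lit 262)))) (XT.nd (nat_lit 188) (nat_lit 672) (nat_lit 0) (XT.nd (nat_lit 94) (nat_lit 588) (nat_lit 0) (XT.lf (nat_lit 0) (nat_lit 5911977523) (nat_lit 672) (nat_lit 2150746211) (nat_lit 84) (nat_lit 2010208202) (nat_lit 140) (nat_lit 5) (nat_lit 148) (nat_lit 5) (nat_lit 141) (nat_lit 5) (nat_lit 356) (nat_lit 328) (nat_lit 261)) (XT.lf (nat_lit 0) (nat_lit 2956735086) (nat_lit 588) (nat_lit 4761004570) (nat_lit 672) (nat_lit 2513439605) (nat_lit 133) (nat_lit 5) (nat_lit 140) (nat_lit 5) (nat_lit 141) (nat_lit 5) (nat_lit 357) (nat_lit 328) (nat_lit 260))) (XT.nd (nat_lit 94) (nat_lit 672) (nat_lit 0) (XT.lf (nat_lit 0) (nat_lit 8230883365) (nat_lit 588) (nat_lit 1338496877) (nat_lit 672) (nat_lit 825096392)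 (nat_lit 133) (nat_lit 5) (nat_lit 140) (nat_lit 5) (nat_lit 141) (nat_lit 5) (nat_lit 358) (nat_lit 328) (nat_lit 259)) (XT.lf (nat_lit 0) (nat_lit 917994353) (nat_lit 672) (nat_lit 7461503356) (nat_lit 84) (nat_lit 2182304456) (nat_lit 125) (nat_lit 5) (nat_lit 133) (nat_lit 5) (nat_lit 126) (nat_lit 5) (nat_lit 359) (nat_lit 328) (nat_lit 258))))) (XT.nd (nat_lit 282) (nat_lit 1008) (nat_lit 0) (XT.nd (nat_lit 94) (nat_lit 504) (nat_lit 0) (XT.lf (nat_lit 0) (nat_lit 2703190676) (nat_lit 672) (nat_lit 2219668477) (nat_lit 84) (nat_lit 5810900569) (nat_lit 125) (nat_lit 5) (nat_lit 133) (nat_lit 5) (nat_lit 126) (nat_lit 5) (nat_lit 360) (nat_lit 328) (nat_lit 257)) (XT.nd (nat_lit 94) (nat_lit 0) (nat_lit 0) (XT.lf (nat_lit 0) (nat_lit 3212004453) (nat_lit 504) (nat_lit 1332736189) (nat_lit 588) (nat_lit 6366099226) (nat_lit 119) (nat_lit 5) (nat_lit 125) (nat_lit 5) (nat_lit 126) (nat_lit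 5) (nat_lit 361) (nat_lit 328) (nat_lit 256)) (XT.lf (nat_lit 0) (nat_lit 6459339725) (nat_lit 588) (nat_lit 2294038880) (nat_lit 84) (nat_lit 2339366138) (nat_lit 119) (nat_lit 5) (nat_lit 126) (nat_lit 5) (nat_lit 120) (nat_lit 5) (nat_lit 362) (nat_lit 328) (nat_lit 255)))) (XT.nd (nat_lit 188) (nat_lit 504) (nat_lit 0) (XT.nd (nat_lit 94) (nat_lit 0) (nat_lit 0) (XT.lf (nat_lit 0) (nat_lit 3294230316) (nat_lit 504) (nat_lit 5155242687) (nat_lit 588) (nat_lit 2830135929) (nat_lit 113) (nat_lit 5) (nat_lit 119) (nat_lit 5) (nat_lit 120) (nat_lit 5) (nat_lit 363) (nat_lit 328) (nat_lit 254)) (XT.lf (nat_lit 0) (nat_lit 9067706758) (nat_lit 504) (nat_lit 1428499799) (nat_lit 588) (nat_lit 976009340) (nat_lit 113) (nat_lit 5) (nat_lit 119) (nat_lit 5) (nat_lit 120) (nat_lit 5) (nat_lit 364) (nat_lit 328) (nat_lit 253))) (XT.nd (nat_lit 94) (nat_lit 0) (nat_lit 0) (XT.lf (nat_lit 0) (nat_lit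 945674884) (nat_lit 504) (nat_lit 8322282142) (nat_lit 84) (nat_lit 2401511370) (nat_lit 107) (nat_lit 5) (nat_lit 113) (nat_lit 5) (nat_lit 108) (nat_lit 5) (nat_lit 365) (nat_lit 328) (nat_lit 252)) (XT.lf (nat_lit 0) (nat_lit 2918699223) (nat_lit 504) (nat_lit 2604877370) (nat_lit 84) (nat_lit 6348412807) (nat_lit 107) (nat_lit 5) (nat_lit 113) (nat_lit 5) (nat_lit 108) (nat_lit 5) (nat_lit 366) (nat_lit 328) (nat_lit 251))))))) (XT.nd (nat_lit 1316) (nat_lit 1932) (nat_lit 0) (XT.nd (nat_lit 658) (nat_lit 1176) (nat_lit 0) (XT.nd (nat_lit 282) (nat_lit 840) (nat_lit 0) (XT.nd (nat_lit 94) (nat_lit 420) (nat_lit 0) (XT.lf (nat_lit 0) (nat_lit 3320056689) (nat_lit 504) (nat_lit 1638152228) (nat_lit 588) (nat_lit 7122197143) (nat_lit 101) (nat_lit 5) (nat_lit 107) (nat_lit 5) (nat_lit 108) (nat_lit 5) (nat_lit 367) (nat_lit 328) (nat_lit 250)) (XT.nd (nat_lit 94) (nat_lit 420) (nat_lit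 0) (XT.lf (nat_lit 0) (nat_lit 7083972950) (nat_lit 588) (nat_lit 2870351425) (nat_lit 84) (nat_lit 2340036503) (nat_lit 101) (nat_lit 5) (nat_lit 108) (nat_lit 5) (nat_lit 102) (nat_lit 5) (nat_lit 368) (nat_lit 328) (nat_lit 249)) (XT.lf (nat_lit 0) (nat_lit 3214485881) (nat_lit 420) (nat_lit 6082630170) (nat_lit 504) (nat_lit 3216946737) (nat_lit 96) (nat_lit 5) (nat_lit 101) (nat_lit 5) (nat_lit 102) (nat_lit 5) (nat_lit 369) (nat_lit 328) (nat_lit 248)))) (XT.nd (nat_lit 188) (nat_lit 336) (nat_lit 0) (XT.nd (nat_lit 94) (nat_lit 504) (nat_lit 0) (XT.lf (nat_lit 0) (nat_lit 9512618363) (nat_lit 420) (nat_lit 2069922044) (nat_lit 504) (nat_lit 1157674304) (nat_lit 96) (nat_lit 5) (nat_lit 101) (nat_lit 5) (nat_lit 102) (nat_lit 5) (nat_lit 370) (nat_lit 328) (nat_lit 247)) (XT.lf (nat_lit 0) (nat_lit 971370876) (nat_lit 504) (nat_lit 9943849187) (nat_lit 84) (nat_lit 2056883030) (nat_lit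 90) (nat_lit 5) (nat_lit 96) (nat_lit 5) (nat_lit 91) (nat_lit 5) (nat_lit 371) (nat_lit 328) (nat_lit 246))) (XT.nd (nat_lit 94) (nat_lit 336) (nat_lit 0) (XT.lf (nat_lit 0) (nat_lit 3172094025) (nat_lit 504) (nat_lit 3732442329) (nat_lit 84) (nat_lit 6305168213) (nat_lit 90) (nat_lit 5) (nat_lit 96) (nat_lit 5) (nat_lit 91) (nat_lit 5) (nat_lit 372) (nat_lit 328) (nat_lit 245)) (XT.lf (nat_lit 0) (nat_lit 2690492289) (nat_lit 336) (nat_lit 2752525113) (nat_lit 420) (nat_lit 8011322927) (nat_lit 86) (nat_lit 5) (nat_lit 90) (nat_lit 5) (nat_lit 91) (nat_lit 5) (nat_lit 373) (nat_lit 328) (nat_lit 244))))) (XT.nd (nat_lit 282) (nat_lit 756) (nat_lit 0) (XT.nd (nat_lit 94) (nat_lit 420) (nat_lit 0) (XT.lf (nat_lit 0) (nat_lit 7813414390) (nat_lit 420) (nat_lit 4365244099) (nat_lit 84) (nat_lit 1526746976) (nat_lit 86) (nat_lit 5) (nat_lit 91) (nat_lit 5) (nat_lit 87) (nat_lit 5) (nat_lit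 374) (nat_lit 328) (nat_lit 243)) (XT.nd (nat_lit 94) (nat_lit 0) (nat_lit 0) (XT.lf (nat_lit 0) (nat_lit 2214419484) (nat_lit 420) (nat_lit 8068297560) (nat_lit 504) (nat_lit 3680481483) (nat_lit 81) (nat_lit 5) (nat_lit 86) (nat_lit 5) (nat_lit 87) (nat_lit 5) (nat_lit 375) (nat_lit 328) (nat_lit 242)) (XT.lf (nat_lit 0) (nat_lit 9054362453) (nat_lit 420) (nat_lit 3795420008) (nat_lit 504) (nat_lit 1378261325) (nat_lit 81) (nat_lit 5) (nat_lit 86) (nat_lit 5) (nat_lit 87) (nat_lit 5) (nat_lit 376) (nat_lit 328) (nat_lit 241)))) (XT.nd (nat_lit 188) (nat_lit 336) (nat_lit 0) (XT.nd (nat_lit 94) (nat_lit 0) (nat_lit 0) (XT.lf (nat_lit 0) (nat_lit 974952294) (nat_lit 420) (nat_lit 12912741573) (nat_lit 84) (nat_lit 612842297) (nat_lit 76) (nat_lit 5) (nat_lit 81) (nat_lit 5) (nat_lit 77) (nat_lit 5) (nat_lit 377) (nat_lit 328) (nat_lit 240)) (XT.lf (nat_lit 0) (nat_lit 3441647088) (nat_lit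 420) (nat_lit 6199752059) (nat_lit 84) (nat_lit 5137303653) (nat_lit 76) (nat_lit 5) (nat_lit 81) (nat_lit 5) (nat_lit 77) (nat_lit 5) (nat_lit 378) (nat_lit 328) (nat_lit 239))) (XT.nd (nat_lit 94) (nat_lit 0) (nat_lit 0) (XT.lf (nat_lit 0) (nat_lit 702565439) (nat_lit 336) (nat_lit 5267352844) (nat_lit 420) (nat_lit 9095694576) (nat_lit 72) (nat_lit 5) (nat_lit 76) (nat_lit 5) (nat_lit 77) (nat_lit 5) (nat_lit 379) (nat_lit 328) (nat_lit 238)) (XT.lf (nat_lit 0) (nat_lit 7913522678) (nat_lit 336) (nat_lit 704255625) (nat_lit 420) (nat_lit 6742064641) (nat_lit 72) (nat_lit 5) (nat_lit 76) (nat_lit 5) (nat_lit 77) (nat_lit 5) (nat_lit 380) (nat_lit 328) (nat_lit 237)))))) (XT.nd (nat_lit 658) (nat_lit 924) (nat_lit 0) (XT.nd (nat_lit 282) (nat_lit 588) (nat_lit 0) (XT.nd (nat_lit 94) (nat_lit 420) (nat_lit 0) (XT.lf (nat_lit 0) (nat_lit 11365106276) (nat_lit 420) (nat_lit 385787681) (nat_lit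 84) (nat_lit 3911429229) (nat_lit 72) (nat_lit 5) (nat_lit 77) (nat_lit 5) (nat_lit 73) (nat_lit 5) (nat_lit 381) (nat_lit 328) (nat_lit 236)) (XT.nd (nat_lit 94) (nat_lit 84) (nat_lit 0) (XT.lf (nat_lit 0) (nat_lit 6991466319) (nat_lit 336) (nat_lit 7259724813) (nat_lit 420) (nat_lit 1721020103) (nat_lit 68) (nat_lit 5) (nat_lit 72) (nat_lit 5) (nat_lit 73) (nat_lit 5) (nat_lit 382) (nat_lit 328) (nat_lit 235)) (XT.lf (nat_lit 0) (nat_lit 900448928) (nat_lit 420) (nat_lit 1727020020) (nat_lit 84) (nat_lit 13664094778) (nat_lit 67) (nat_lit 5) (nat_lit 72) (nat_lit 5) (nat_lit 68) (nat_lit 5) (nat_lit 383) (nat_lit 328) (nat_lit 234)))) (XT.nd (nat_lit 188) (nat_lit 252) (nat_lit 0) (XT.nd (nat_lit 94) (nat_lit 0) (nat_lit 0) (XT.lf (nat_lit 0) (nat_lit 3625915551) (nat_lit 420) (nat_lit 10823293759) (nat_lit 84) (nat_lit 2168999475) (nat_lit 63) (nat_lit 5) (nat_lit 68) (nat_lit 5) (nat_lit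 64) (nat_lit 5) (nat_lit 384) (nat_lit 328) (nat_lit 233)) (XT.lf (nat_lit 0) (nat_lit 6459746510) (nat_lit 420) (nat_lit 3426602787) (nat_lit 84) (nat_lit 7067526780) (nat_lit 63) (nat_lit 5) (nat_lit 68) (nat_lit 5) (nat_lit 64) (nat_lit 5) (nat_lit 385) (nat_lit 328) (nat_lit 232))) (XT.nd (nat_lit 94) (nat_lit 0) (nat_lit 0) (XT.lf (nat_lit 0) (nat_lit 4251459022) (nat_lit 252) (nat_lit 5151470523) (nat_lit 336) (nat_lit 7895974009) (nat_lit 60) (nat_lit 5) (nat_lit 63) (nat_lit 5) (nat_lit 64) (nat_lit 5) (nat_lit 386) (nat_lit 328) (nat_lit 231)) (XT.lf (nat_lit 0) (nat_lit 12206843818) (nat_lit 252) (nat_lit 245893618) (nat_lit 336) (nat_lit 5201014229) (nat_lit 60) (nat_lit 5) (nat_lit 63) (nat_lit 5) (nat_lit 64) (nat_lit 5) (nat_lit 387) (nat_lit 328) (nat_lit 230))))) (XT.nd (nat_lit 282) (nat_lit 252) (nat_lit 0) (XT.nd (nat_lit 94) (nat_lit 336) (nat_lit 0) (XT.lf (nat_lit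 0) (nat_lit 2358449163) (nat_lit 336) (nat_lit 13288603783) (nat_lit 420) (nat_lit 2370620991) (nat_lit 56) (nat_lit 5) (nat_lit 60) (nat_lit 5) (nat_lit 61) (nat_lit 5) (nat_lit 388) (nat_lit 328) (nat_lit 229)) (XT.nd (nat_lit 94) (nat_lit 252) (nat_lit 0) (XT.lf (nat_lit 0) (nat_lit 576243860) (nat_lit 420) (nat_lit 7912573609) (nat_lit 84) (nat_lit 9902291697) (nat_lit 55) (nat_lit 5) (nat_lit 60) (nat_lit 5) (nat_lit 56) (nat_lit 5) (nat_lit 389) (nat_lit 328) (nat_lit 228)) (XT.lf (nat_lit 0) (nat_lit 20970171) (nat_lit 252) (nat_lit 3527765241) (nat_lit 336) (nat_lit 15226779353) (nat_lit 52) (nat_lit 5) (nat_lit 55) (nat_lit 5) (nat_lit 56) (nat_lit 5) (nat_lit 390) (nat_lit 328) (nat_lit 227)))) (XT.nd (nat_lit 188) (nat_lit 252) (nat_lit 0) (XT.nd (nat_lit 94) (nat_lit 0) (nat_lit 0) (XT.lf (nat_lit 0) (nat_lit 6691133394) (nat_lit 336) (nat_lit 10852960729) (nat_lit 84) (nat_lit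 1624953445) (nat_lit 52) (nat_lit 5) (nat_lit 56) (nat_lit 5) (nat_lit 53) (nat_lit 5) (nat_lit 391) (nat_lit 328) (nat_lit 226)) (XT.lf (nat_lit 0) (nat_lit 9948004313) (nat_lit 336) (nat_lit 2771224815) (nat_lit 84) (nat_lit 6854567688) (nat_lit 52) (nat_lit 5) (nat_lit 56) (nat_lit 5) (nat_lit 53) (nat_lit 5) (nat_lit 392) (nat_lit 328) (nat_lit 225))) (XT.nd (nat_lit 94) (nat_lit 0) (nat_lit 0) (XT.lf (nat_lit 0) (nat_lit 5641726295) (nat_lit 252) (nat_lit 7700788371) (nat_lit 336) (nat_lit 6646991888) (nat_lit 49) (nat_lit 5) (nat_lit 52) (nat_lit 5) (nat_lit 53) (nat_lit 5) (nat_lit 393) (nat_lit 328) (nat_lit 224)) (XT.lf (nat_lit 0) (nat_lit 14342755142) (nat_lit 252) (nat_lit 2510004164) (nat_lit 336) (nat_lit 3564526852) (nat_lit 49) (nat_lit 5) (nat_lit 52) (nat_lit 5) (nat_lit 53) (nat_lit 5) (nat_lit 394) (nat_lit 328) (nat_lit 223))))))))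
noncomputable def xc117 : XT := (XT.nd (nat_lit 2538) (nat_lit 924) (nat_lit 0) (XT.nd (nat_lit 1222) (nat_lit 1008) (nat_lit 0) (XT.nd (nat_lit 564) (nat_lit 504) (nat_lit 0) (XT.nd (nat_lit 282) (nat_lit 420) (nat_lit 0) (XT.nd (nat_lit 94) (nat_lit 84) (nat_lit 0) (XT.lf (nat_lit 0) (nat_lit 2446527262) (nat_lit 252) (nat_lit 18058827390) (nat_lit 336) (nat_lit 351448289) (nat_lit 46) (nat_lit 5) (nat_lit 49) (nat_lit 5) (nat_lit 50) (nat_lit 5) (nat_lit 395) (nat_lit 328) (nat_lit 222)) (XT.nd (nat_lit 94) (nat_lit 0) (nat_lit 0) (XT.lf (nat_lit 0) (nat_lit 2973413523) (nat_lit 336) (nat_lit 10034763847) (nat_lit 84) (nat_lit 8298295676) (nat_lit 45) (nat_lit 5) (nat_lit 49) (nat_lit 5) (nat_lit 46) (nat_lit 5) (nat_lit 396) (nat_lit 328) (nat_lit 221)) (XT.lf (nat_lit 0) (nat_lit 6377668937) (nat_lit 336) (nat_lit 1431801182) (nat_lit 84) (nat_lit 13960471212) (nat_lit 45) (nat_lit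 5) (nat_lit 49) (nat_lit 5) (nat_lit 46) (nat_lit 5) (nat_lit 397) (nat_lit 328) (nat_lit 220)))) (XT.nd (nat_lit 94) (nat_lit 168) (nat_lit 0) (XT.lf (nat_lit 0) (nat_lit 7556971537) (nat_lit 252) (nat_lit 2386821262) (nat_lit 336) (nat_lit 12301742050) (nat_lit 42) (nat_lit 5) (nat_lit 45) (nat_lit 5) (nat_lit 46) (nat_lit 5) (nat_lit 398) (nat_lit 328) (nat_lit 219)) (XT.nd (nat_lit 94) (nat_lit 168) (nat_lit 0) (XT.lf (nat_lit 0) (nat_lit 13649468621) (nat_lit 336) (nat_lit 5940971345) (nat_lit 84) (nat_lit 3143992177) (nat_lit 42) (nat_lit 5) (nat_lit 46) (nat_lit 5) (nat_lit 43) (nat_lit 5) (nat_lit 399) (nat_lit 328) (nat_lit 218)) (XT.lf (nat_lit 0) (nat_lit 3086343401) (nat_lit 168) (nat_lit 14420863942) (nat_lit 252) (nat_lit 5729574873) (nat_lit 40) (nat_lit 5) (nat_lit 42) (nat_lit 5) (nat_lit 43) (nat_lit 5) (nat_lit 400) (nat_lit 328) (nat_lit 217))))) (XT.nd (nat_lit 282)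 (nat_lit 168) (nat_lit 0) (XT.nd (nat_lit 94) (nat_lit 336) (nat_lit 0) (XT.lf (nat_lit 0) (nat_lit 12487152121) (nat_lit 168) (nat_lit 9041288860) (nat_lit 252) (nat_lit 2224341199) (nat_lit 40) (nat_lit 5) (nat_lit 42) (nat_lit 5) (nat_lit 43) (nat_lit 5) (nat_lit 401) (nat_lit 328) (nat_lit 216)) (XT.nd (nat_lit 94) (nat_lit 252) (nat_lit 0) (XT.lf (nat_lit 0) (nat_lit 1347000216) (nat_lit 252) (nat_lit 2146404004) (nat_lit 84) (nat_lit 20790829856) (nat_lit 39) (nat_lit 5) (nat_lit 42) (nat_lit 5) (nat_lit 40) (nat_lit 5) (nat_lit 402) (nat_lit 328) (nat_lit 215)) (XT.lf (nat_lit 0) (nat_lit 5061973069) (nat_lit 336) (nat_lit 17501877252) (nat_lit 84) (nat_lit 2264693796) (nat_lit 36) (nat_lit 5) (nat_lit 40) (nat_lit 5) (nat_lit 37) (nat_lit 5) (nat_lit 403) (nat_lit 328) (nat_lit 214)))) (XT.nd (nat_lit 188) (nat_lit 0) (nat_lit 0) (XT.nd (nat_lit 94) (nat_lit 168) (nat_lit 0) (XT.lf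 (nat_lit 0) (nat_lit 8933321771) (nat_lit 336) (nat_lit 8313775878) (nat_lit 84) (nat_lit 8140748910) (nat_lit 36) (nat_lit 5) (nat_lit 40) (nat_lit 5) (nat_lit 37) (nat_lit 5) (nat_lit 404) (nat_lit 328) (nat_lit 213)) (XT.lf (nat_lit 0) (nat_lit 1154666316) (nat_lit 168) (nat_lit 11766029833) (nat_lit 252) (nat_lit 13043245956) (nat_lit 34) (nat_lit 5) (nat_lit 36) (nat_lit 5) (nat_lit 37) (nat_lit 5) (nat_lit 405) (nat_lit 328) (nat_lit 212))) (XT.nd (nat_lit 94) (nat_lit 0) (nat_lit 0) (XT.lf (nat_lit 0) (nat_lit 11059926958) (nat_lit 168) (nat_lit 6040660368) (nat_lit 252) (nat_lit 9454556601) (nat_lit 34) (nat_lit 5) (nat_lit 36) (nat_lit 5) (nat_lit 37) (nat_lit 5) (nat_lit 406) (nat_lit 328) (nat_lit 211)) (XT.lf (nat_lit 0) (nat_lit 21245200686) (nat_lit 168) (nat_lit 149939341) (nat_lit 252) (nat_lit 5769273811) (nat_lit 34) (nat_lit 5) (nat_lit 36) (nat_lit 5) (nat_lit 37) (nat_lit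 5) (nat_lit 407) (nat_lit 328) (nat_lit 210)))))) (XT.nd (nat_lit 658) (nat_lit 420) (nat_lit 0) (XT.nd (nat_lit 282) (nat_lit 336) (nat_lit 0) (XT.nd (nat_lit 94) (nat_lit 84) (nat_lit 0) (XT.lf (nat_lit 0) (nat_lit 3947306366) (nat_lit 168) (nat_lit 21955567176) (nat_lit 252) (nat_lit 1886567664) (nat_lit 32) (nat_lit 5) (nat_lit 34) (nat_lit 5) (nat_lit 35) (nat_lit 5) (nat_lit 408) (nat_lit 328) (nat_lit 209)) (XT.nd (nat_lit 94) (nat_lit 0) (nat_lit 0) (XT.lf (nat_lit 0) (nat_lit 2122794093) (nat_lit 252) (nat_lit 14239610082) (nat_lit 84) (nat_lit 12068673138) (nat_lit 31) (nat_lit 5) (nat_lit 34) (nat_lit 5) (nat_lit 32) (nat_lit 5) (nat_lit 409) (nat_lit 328) (nat_lit 208)) (XT.lf (nat_lit 0) (nat_lit 6204373363) (nat_lit 252) (nat_lit 4384153760) (nat_lit 84) (nat_lit 18503188235) (nat_lit 31) (nat_lit 5) (nat_lit 34) (nat_lit 5) (nat_lit 32) (nat_lit 5) (nat_lit 410) (nat_lit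 328) (nat_lit 207)))) (XT.nd (nat_lit 188) (nat_lit 168) (nat_lit 0) (XT.nd (nat_lit 94) (nat_lit 0) (nat_lit 0) (XT.lf (nat_lit 0) (nat_lit 5865436319) (nat_lit 168) (nat_lit 4589496146) (nat_lit 252) (nat_lit 19315852714) (nat_lit 29) (nat_lit 5) (nat_lit 31) (nat_lit 5) (nat_lit 32) (nat_lit 5) (nat_lit 411) (nat_lit 328) (nat_lit 206)) (XT.lf (nat_lit 0) (nat_lit 14883223575) (nat_lit 252) (nat_lit 13988301661) (nat_lit 84) (nat_lit 1597203756) (nat_lit 29) (nat_lit 5) (nat_lit 32) (nat_lit 5) (nat_lit 30) (nat_lit 5) (nat_lit 412) (nat_lit 328) (nat_lit 205))) (XT.nd (nat_lit 94) (nat_lit 168) (nat_lit 0) (XT.lf (nat_lit 0) (nat_lit 19480314895) (nat_lit 252) (nat_lit 3834785573) (nat_lit 84) (nat_lit 7871440220) (nat_lit 29) (nat_lit 5) (nat_lit 32) (nat_lit 5) (nat_lit 30) (nat_lit 5) (nat_lit 413) (nat_lit 328) (nat_lit 204)) (XT.lf (nat_lit 0) (nat_lit 6739704359) (nat_lit 168)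 (nat_lit 17531188056) (nat_lit 252) (nat_lit 7653334992) (nat_lit 27) (nat_lit 5) (nat_lit 29) (nat_lit 5) (nat_lit 30) (nat_lit 5) (nat_lit 414) (nat_lit 328) (nat_lit 203))))) (XT.nd (nat_lit 282) (nat_lit 168) (nat_lit 0) (XT.nd (nat_lit 94) (nat_lit 252) (nat_lit 0) (XT.lf (nat_lit 0) (nat_lit 17695039294) (nat_lit 168) (nat_lit 11539783235) (nat_lit 252) (nat_lit 3448340788) (nat_lit 27) (nat_lit 5) (nat_lit 29) (nat_lit 5) (nat_lit 30) (nat_lit 5) (nat_lit 415) (nat_lit 328) (nat_lit 202)) (XT.nd (nat_lit 94) (nat_lit 168) (nat_lit 0) (XT.lf (nat_lit 0) (nat_lit 856658092) (nat_lit 252) (nat_lit 4509065950) (nat_lit 84) (nat_lit 28099163442) (nat_lit 26) (nat_lit 5) (nat_lit 29) (nat_lit 5) (nat_lit 27) (nat_lit 5) (nat_lit 416) (nat_lit 328) (nat_lit 201)) (XT.lf (nat_lit 0) (nat_lit 5284415940) (nat_lit 252) (nat_lit 27917900174) (nat_lit 84) (nat_lit 1064842485) (nat_lit 24) (nat_lit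 5) (nat_lit 27) (nat_lit 5) (nat_lit 25) (nat_lit 5) (nat_lit 417) (nat_lit 328) (nat_lit 200)))) (XT.nd (nat_lit 188) (nat_lit 168) (nat_lit 0) (XT.nd (nat_lit 94) (nat_lit 0) (nat_lit 0) (XT.lf (nat_lit 0) (nat_lit 9935519090) (nat_lit 252) (nat_lit 17534330610) (nat_lit 84) (nat_lit 7620939563) (nat_lit 24) (nat_lit 5) (nat_lit 27) (nat_lit 5) (nat_lit 25) (nat_lit 5) (nat_lit 418) (nat_lit 328) (nat_lit 199)) (XT.lf (nat_lit 0) (nat_lit 14717808774) (nat_lit 252) (nat_lit 6853220863) (nat_lit 84) (nat_lit 14368356205) (nat_lit 24) (nat_lit 5) (nat_lit 27) (nat_lit 5) (nat_lit 25) (nat_lit 5) (nat_lit 419) (nat_lit 328) (nat_lit 198))) (XT.nd (nat_lit 94) (nat_lit 0) (nat_lit 0) (XT.lf (nat_lit 0) (nat_lit 4217051950) (nat_lit 168) (nat_lit 15458948624) (nat_lit 252) (nat_lit 17136473144) (nat_lit 22) (nat_lit 5) (nat_lit 24) (nat_lit 5) (nat_lit 25) (nat_lit 5) (nat_lit 420) (nat_lit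 328) (nat_lit 197)) (XT.lf (nat_lit 0) (nat_lit 15746490098) (nat_lit 168) (nat_lit 9097655619) (nat_lit 252) (nat_lit 12865778503) (nat_lit 22) (nat_lit 5) (nat_lit 24) (nat_lit 5) (nat_lit 25) (nat_lit 5) (nat_lit 421) (nat_lit 328) (nat_lit 196))))))) (XT.nd (nat_lit 1316) (nat_lit 252) (nat_lit 0) (XT.nd (nat_lit 658) (nat_lit 336) (nat_lit 0) (XT.nd (nat_lit 282) (nat_lit 168) (nat_lit 0) (XT.nd (nat_lit 94) (nat_lit 168) (nat_lit 0) (XT.lf (nat_lit 0) (nat_lit 27608775317) (nat_lit 168) (nat_lit 2550796303) (nat_lit 252) (nat_lit 8474965563) (nat_lit 22) (nat_lit 5) (nat_lit 24) (nat_lit 5) (nat_lit 25) (nat_lit 5) (nat_lit 422) (nat_lit 328) (nat_lit 195)) (XT.nd (nat_lit 94) (nat_lit 84) (nat_lit 0) (XT.lf (nat_lit 0) (nat_lit 190620511) (nat_lit 84) (nat_lit 35478386045) (nat_lit 168) (nat_lit 3916851451) (nat_lit 21) (nat_lit 5) (nat_lit 22) (nat_lit 5) (nat_lit 23) (nat_lit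 4) (nat_lit 423) (nat_lit 328) (nat_lit 194)) (XT.lf (nat_lit 0) (nat_lit 892953099) (nat_lit 168) (nat_lit 28639572493) (nat_lit 84) (nat_lit 11029070166) (nat_lit 20) (nat_lit 5) (nat_lit 22) (nat_lit 5) (nat_lit 21) (nat_lit 5) (nat_lit 424) (nat_lit 328) (nat_lit 193)))) (XT.nd (nat_lit 188) (nat_lit 168) (nat_lit 0) (XT.nd (nat_lit 94) (nat_lit 0) (nat_lit 0) (XT.lf (nat_lit 0) (nat_lit 5760979735) (nat_lit 168) (nat_lit 17612512833) (nat_lit 84) (nat_lit 18192175433) (nat_lit 20) (nat_lit 5) (nat_lit 22) (nat_lit 5) (nat_lit 21) (nat_lit 5) (nat_lit 425) (nat_lit 328) (nat_lit 192)) (XT.lf (nat_lit 0) (nat_lit 10767913951) (nat_lit 168) (nat_lit 6266772049) (nat_lit 84) (nat_lit 25565395613) (nat_lit 20) (nat_lit 5) (nat_lit 22) (nat_lit 5) (nat_lit 21) (nat_lit 5) (nat_lit 426) (nat_lit 328) (nat_lit 191))) (XT.nd (nat_lit 94) (nat_lit 0) (nat_lit 0) (XT.lf (nat_lit 0) (nat_lit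 5515184730) (nat_lit 168) (nat_lit 10455961338) (nat_lit 252) (nat_lit 27693003927) (nat_lit 18) (nat_lit 5) (nat_lit 20) (nat_lit 5) (nat_lit 21) (nat_lit 5) (nat_lit 427) (nat_lit 328) (nat_lit 190)) (XT.lf (nat_lit 0) (nat_lit 17767401017) (nat_lit 168) (nat_lit 3619520400) (nat_lit 252) (nat_lit 23371530532) (nat_lit 18) (nat_lit 5) (nat_lit 20) (nat_lit 5) (nat_lit 21) (nat_lit 5) (nat_lit 428) (nat_lit 328) (nat_lit 189))))) (XT.nd (nat_lit 282) (nat_lit 252) (nat_lit 0) (XT.nd (nat_lit 94) (nat_lit 84) (nat_lit 0) (XT.lf (nat_lit 0) (nat_lit 26991382734) (nat_lit 252) (nat_lit 15542774701) (nat_lit 84) (nat_lit 3350643909) (nat_lit 18) (nat_lit 5) (nat_lit 21) (nat_lit 5) (nat_lit 19) (nat_lit 4) (nat_lit 429) (nat_lit 328) (nat_lit 188)) (XT.nd (nat_lit 94) (nat_lit 84) (nat_lit 0) (XT.lf (nat_lit 0) (nat_lit 32793327559) (nat_lit 252) (nat_lit 3798033662) (nat_lit 84) (nat_lit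 10452704135) (nat_lit 18) (nat_lit 5) (nat_lit 21) (nat_lit 5) (nat_lit 19) (nat_lit 4) (nat_lit 430) (nat_lit 328) (nat_lit 187)) (XT.lf (nat_lit 0) (nat_lit 8453179604) (nat_lit 84) (nat_lit 30391110040) (nat_lit 168) (nat_lit 9391573372) (nat_lit 17) (nat_lit 5) (nat_lit 18) (nat_lit 5) (nat_lit 19) (nat_lit 4) (nat_lit 431) (nat_lit 328) (nat_lit 186)))) (XT.nd (nat_lit 188) (nat_lit 168) (nat_lit 0) (XT.nd (nat_lit 94) (nat_lit 84) (nat_lit 0) (XT.lf (nat_lit 0) (nat_lit 21139069349) (nat_lit 84) (nat_lit 23969846150) (nat_lit 168) (nat_lit 4353539418) (nat_lit 17) (nat_lit 5) (nat_lit 18) (nat_lit 5) (nat_lit 19) (nat_lit 4) (nat_lit 432) (nat_lit 328) (nat_lit 185)) (XT.lf (nat_lit 0) (nat_lit 813228691) (nat_lit 168) (nat_lit 16538870727) (nat_lit 84) (nat_lit 33373691308) (nat_lit 16) (nat_lit 5) (nat_lit 18) (nat_lit 5) (nat_lit 17) (nat_lit 5) (nat_lit 433) (nat_lit 328) (nat_lit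 184))) (XT.nd (nat_lit 94) (nat_lit 168) (nat_lit 0) (XT.lf (nat_lit 0) (nat_lit 6041575096) (nat_lit 168) (nat_lit 4454147409) (nat_lit 84) (nat_lit 41530192651) (nat_lit 16) (nat_lit 5) (nat_lit 18) (nat_lit 5) (nat_lit 17) (nat_lit 5) (nat_lit 434) (nat_lit 328) (nat_lit 183)) (XT.lf (nat_lit 0) (nat_lit 8142073923) (nat_lit 168) (nat_lit 3357214161) (nat_lit 252) (nat_lit 41863583624) (nat_lit 14) (nat_lit 5) (nat_lit 16) (nat_lit 5) (nat_lit 17) (nat_lit 5) (nat_lit 435) (nat_lit 328) (nat_lit 182)))))) (XT.nd (nat_lit 658) (nat_lit 168) (nat_lit 0) (XT.nd (nat_lit 282) (nat_lit 84) (nat_lit 0) (XT.nd (nat_lit 94) (nat_lit 0) (nat_lit 0) (XT.lf (nat_lit 0) (nat_lit 17198845371) (nat_lit 252) (nat_lit 33579913853) (nat_lit 84) (nat_lit 3958838107) (nat_lit 14) (nat_lit 5) (nat_lit 17) (nat_lit 5) (nat_lit 15) (nat_lit 4) (nat_lit 436) (nat_lit 328) (nat_lit 181)) (XT.nd (nat_lit 94)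 (nat_lit 0) (nat_lit 0) (XT.lf (nat_lit 0) (nat_lit 23097078363) (nat_lit 252) (nat_lit 21632714757) (nat_lit 84) (nat_lit 11422944585) (nat_lit 14) (nat_lit 5) (nat_lit 17) (nat_lit 5) (nat_lit 15) (nat_lit 4) (nat_lit 437) (nat_lit 328) (nat_lit 180)) (XT.lf (nat_lit 0) (nat_lit 29166869261) (nat_lit 252) (nat_lit 9336489602) (nat_lit 84) (nat_lit 19107138646) (nat_lit 14) (nat_lit 5) (nat_lit 17) (nat_lit 5) (nat_lit 15) (nat_lit 4) (nat_lit 438) (nat_lit 328) (nat_lit 179)))) (XT.nd (nat_lit 188) (nat_lit 0) (nat_lit 0) (XT.nd (nat_lit 94) (nat_lit 0) (nat_lit 0) (XT.lf (nat_lit 0) (nat_lit 3385570562) (nat_lit 84) (nat_lit 32060495379) (nat_lit 168) (nat_lit 23665108248) (nat_lit 13) (nat_lit 5) (nat_lit 14) (nat_lit 5) (nat_lit 15) (nat_lit 4) (nat_lit 439) (nat_lit 328) (nat_lit 178)) (XT.lf (nat_lit 0) (nat_lit 16671654371) (nat_lit 84) (nat_lit 25331097886) (nat_lit 168) (nat_lit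 18651448842) (nat_lit 13) (nat_lit 5) (nat_lit 14) (nat_lit 5) (nat_lit 15) (nat_lit 4) (nat_lit 440) (nat_lit 328) (nat_lit 177))) (XT.nd (nat_lit 94) (nat_lit 0) (nat_lit 0) (XT.lf (nat_lit 0) (nat_lit 30347556574) (nat_lit 84) (nat_lit 18403566567) (nat_lit 168) (nat_lit 13492549400) (nat_lit 13) (nat_lit 5) (nat_lit 14) (nat_lit 5) (nat_lit 15) (nat_lit 4) (nat_lit 441) (nat_lit 328) (nat_lit 176)) (XT.lf (nat_lit 0) (nat_lit 44425226988) (nat_lit 84) (nat_lit 11271848240) (nat_lit 168) (nat_lit 8183902147) (nat_lit 13) (nat_lit 5) (nat_lit 14) (nat_lit 5) (nat_lit 15) (nat_lit 4) (nat_lit 442) (nat_lit 328) (nat_lit 175))))) (XT.nd (nat_lit 282) (nat_lit 0) (nat_lit 0) (XT.nd (nat_lit 94) (nat_lit 168) (nat_lit 0) (XT.lf (nat_lit 0) (nat_lit 58916966490) (nat_lit 84) (nat_lit 3929711306) (nat_lit 168) (nat_lit 2720868459) (nat_lit 13) (nat_lit 5) (nat_lit 14) (nat_lit 5) (nat_lit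 15) (nat_lit 4) (nat_lit 443) (nat_lit 328) (nat_lit 174)) (XT.nd (nat_lit 94) (nat_lit 0) (nat_lit 0) (XT.lf (nat_lit 0) (nat_lit 2944255804) (nat_lit 168) (nat_lit 60705785687) (nat_lit 84) (nat_lit 3650988334) (nat_lit 11) (nat_lit 5) (nat_lit 13) (nat_lit 5) (nat_lit 12) (nat_lit 4) (nat_lit 444) (nat_lit 328) (nat_lit 173)) (XT.lf (nat_lit 0) (nat_lit 8826763728) (nat_lit 168) (nat_lit 48784385357) (nat_lit 84) (nat_lit 11471499937) (nat_lit 11) (nat_lit 5) (nat_lit 13) (nat_lit 5) (nat_lit 12) (nat_lit 4) (nat_lit 445) (nat_lit 328) (nat_lit 172)))) (XT.nd (nat_lit 48410) (nat_lit 0) (nat_lit 18228) (XT.nd (nat_lit 48316) (nat_lit 0) (nat_lit 19152) (XT.lf (nat_lit 0) (nat_lit 14881267197) (nat_lit 168) (nat_lit 36513248903) (nat_lit 84) (nat_lit 19523337803) (nat_lit 11) (nat_lit 5) (nat_lit 13) (nat_lit 5) (nat_lit 12) (nat_lit 4) (nat_lit 446) (nat_lit 328) (nat_lit 171)) (XT.lf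 (nat_lit 0) (nat_lit 1654433623) (nat_lit 0) (nat_lit 1654433623) (nat_lit 756) (nat_lit 342092800) (nat_lit 239) (nat_lit 5) (nat_lit 239) (nat_lit 3) (nat_lit 248) (nat_lit 3) (nat_lit 329) (nat_lit 329) (nat_lit 287))) (XT.nd (nat_lit 94) (nat_lit 0) (nat_lit 84) (XT.lf (nat_lit 0) (nat_lit 773341530) (nat_lit 924) (nat_lit 769120894) (nat_lit 924) (nat_lit 5822213854) (nat_lit 228) (nat_lit 3) (nat_lit 239) (nat_lit 3) (nat_lit 239) (nat_lit 5) (nat_lit 330) (nat_lit 329) (nat_lit 286)) (XT.lf (nat_lit 0) (nat_lit 2231986810) (nat_lit 840) (nat_lit 4867919115) (nat_lit 924) (nat_lit 330202256) (nat_lit 229) (nat_lit 5) (nat_lit 239) (nat_lit 5) (nat_lit 240) (nat_lit 5) (nat_lit 331) (nat_lit 329) (nat_lit 285))))))))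
noncomputable def xc118 : XT := (XT.nd (nat_lit 2538) (nat_lit 5880) (nat_lit 0) (XT.nd (nat_lit 1222) (nat_lit 6300) (nat_lit 0) (XT.nd (nat_lit 564) (nat_lit 924) (nat_lit 0) (XT.nd (nat_lit 282) (nat_lit 840) (nat_lit 0) (XT.nd (nat_lit 94) (nat_lit 0) (nat_lit 0) (XT.lf (nat_lit 0) (nat_lit 3702379736) (nat_lit 840) (nat_lit 1534462857) (nat_lit 924) (nat_lit 2261747572) (nat_lit 229) (nat_lit 5) (nat_lit 239) (nat_lit 5) (nat_lit 240) (nat_lit 5) (nat_lit 332) (nat_lit 329) (nat_lit 284)) (XT.nd (nat_lit 94) (nat_lit 0) (nat_lit 0) (XT.lf (nat_lit 84) (nat_lit 1906046691) (nat_lit 0) (nat_lit 3275638364) (nat_lit 924) (nat_lit 2388620615) (nat_lit 230) (nat_lit 5) (nat_lit 229) (nat_lit 5) (nat_lit 240) (nat_lit 5) (nat_lit 333) (nat_lit 329) (nat_lit 283)) (XT.lf (nat_lit 84) (nat_lit 5451377808) (nat_lit 0) (nat_lit 1217237262) (nat_lit 924) (nat_lit 976779696) (nat_lit 230) (nat_lit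 5) (nat_lit 229) (nat_lit 5) (nat_lit 240) (nat_lit 5) (nat_lit 334) (nat_lit 329) (nat_lit 282)))) (XT.nd (nat_lit 94) (nat_lit 0) (nat_lit 0) (XT.lf (nat_lit 0) (nat_lit 439008589) (nat_lit 924) (nat_lit 6360505575) (nat_lit 1008) (nat_lit 924070082) (nat_lit 219) (nat_lit 5) (nat_lit 230) (nat_lit 5) (nat_lit 231) (nat_lit 5) (nat_lit 335) (nat_lit 329) (nat_lit 281)) (XT.nd (nat_lit 94) (nat_lit 0) (nat_lit 0) (XT.lf (nat_lit 0) (nat_lit 1862125106) (nat_lit 924) (nat_lit 2785161941) (nat_lit 1008) (nat_lit 3157116978) (nat_lit 219) (nat_lit 5) (nat_lit 230) (nat_lit 5) (nat_lit 231) (nat_lit 5) (nat_lit 336) (nat_lit 329) (nat_lit 280)) (XT.lf (nat_lit 84) (nat_lit 883985670) (nat_lit 0) (nat_lit 2403961814) (nat_lit 1008) (nat_lit 4601006710) (nat_lit 220) (nat_lit 5) (nat_lit 219) (nat_lit 5) (nat_lit 231) (nat_lit 5) (nat_lit 337) (nat_lit 329) (nat_lit 279))))) (XT.nd (nat_lit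 282) (nat_lit 924) (nat_lit 0) (XT.nd (nat_lit 94) (nat_lit 0) (nat_lit 84) (XT.lf (nat_lit 84) (nat_lit 4689895766) (nat_lit 0) (nat_lit 47408314) (nat_lit 1008) (nat_lit 3239417080) (nat_lit 220) (nat_lit 5) (nat_lit 219) (nat_lit 5) (nat_lit 231) (nat_lit 5) (nat_lit 338) (nat_lit 329) (nat_lit 278)) (XT.nd (nat_lit 94) (nat_lit 0) (nat_lit 0) (XT.lf (nat_lit 84) (nat_lit 498556797) (nat_lit 0) (nat_lit 5713426223) (nat_lit 1008) (nat_lit 1855782939) (nat_lit 221) (nat_lit 5) (nat_lit 220) (nat_lit 5) (nat_lit 232) (nat_lit 5) (nat_lit 339) (nat_lit 329) (nat_lit 277)) (XT.lf (nat_lit 84) (nat_lit 4433546512) (nat_lit 0) (nat_lit 3286222023) (nat_lit 1008) (nat_lit 442204740) (nat_lit 221) (nat_lit 5) (nat_lit 220) (nat_lit 5) (nat_lit 232) (nat_lit 5) (nat_lit 340) (nat_lit 329) (nat_lit 276)))) (XT.nd (nat_lit 188) (nat_lit 0) (nat_lit 84) (XT.nd (nat_lit 94) (nat_lit 0) (nat_lit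 84) (XT.lf (nat_lit 84) (nat_lit 190633236) (nat_lit 0) (nat_lit 761189969) (nat_lit 1092) (nat_lit 7308248087) (nat_lit 209) (nat_lit 5) (nat_lit 208) (nat_lit 5) (nat_lit 221) (nat_lit 5) (nat_lit 341) (nat_lit 329) (nat_lit 275)) (XT.lf (nat_lit 0) (nat_lit 2391589091) (nat_lit 1008) (nat_lit 4110839280) (nat_lit 1092) (nat_lit 1858257297) (nat_lit 209) (nat_lit 5) (nat_lit 221) (nat_lit 5) (nat_lit 222) (nat_lit 5) (nat_lit 342) (nat_lit 329) (nat_lit 274))) (XT.nd (nat_lit 94) (nat_lit 0) (nat_lit 0) (XT.lf (nat_lit 0) (nat_lit 3840433142) (nat_lit 1008) (nat_lit 72199971) (nat_lit 1092) (nat_lit 4552795131) (nat_lit 209) (nat_lit 5) (nat_lit 221) (nat_lit 5) (nat_lit 222) (nat_lit 5) (nat_lit 343) (nat_lit 329) (nat_lit 273)) (XT.lf (nat_lit 84) (nat_lit 4138074539) (nat_lit 0) (nat_lit 1194007479) (nat_lit 1092) (nat_lit 3241334706) (nat_lit 210) (nat_lit 5) (nat_lit 209) (nat_lit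 5) (nat_lit 222) (nat_lit 5) (nat_lit 344) (nat_lit 329) (nat_lit 272)))))) (XT.nd (nat_lit 658) (nat_lit 3108) (nat_lit 0) (XT.nd (nat_lit 282) (nat_lit 2268) (nat_lit 0) (XT.nd (nat_lit 94) (nat_lit 1092) (nat_lit 0) (XT.lf (nat_lit 0) (nat_lit 6845199695) (nat_lit 1008) (nat_lit 255268213) (nat_lit 84) (nat_lit 1584956739) (nat_lit 210) (nat_lit 5) (nat_lit 222) (nat_lit 5) (nat_lit 211) (nat_lit 5) (nat_lit 345) (nat_lit 329) (nat_lit 271)) (XT.nd (nat_lit 94) (nat_lit 84) (nat_lit 0) (XT.lf (nat_lit 0) (nat_lit 4087729370) (nat_lit 1008) (nat_lit 4328789845) (nat_lit 1092) (nat_lit 383968343) (nat_lit 198) (nat_lit 5) (nat_lit 210) (nat_lit 5) (nat_lit 211) (nat_lit 5) (nat_lit 346) (nat_lit 329) (nat_lit 270)) (XT.lf (nat_lit 0) (nat_lit 1058875052) (nat_lit 1092) (nat_lit 394382466) (nat_lit 84) (nat_lit 7466557205) (nat_lit 197) (nat_lit 5) (nat_lit 210) (nat_lit 5) (nat_lit 198)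 (nat_lit 5) (nat_lit 347) (nat_lit 329) (nat_lit 269)))) (XT.nd (nat_lit 188) (nat_lit 1176) (nat_lit 0) (XT.nd (nat_lit 94) (nat_lit 0) (nat_lit 0) (XT.lf (nat_lit 0) (nat_lit 2554866267) (nat_lit 1176) (nat_lit 4957906241) (nat_lit 84) (nat_lit 1529380044) (nat_lit 184) (nat_lit 5) (nat_lit 198) (nat_lit 5) (nat_lit 185) (nat_lit 5) (nat_lit 348) (nat_lit 329) (nat_lit 268)) (XT.lf (nat_lit 0) (nat_lit 4078171885) (nat_lit 1176) (nat_lit 508120281) (nat_lit 84) (nat_lit 4582465500) (nat_lit 184) (nat_lit 5) (nat_lit 198) (nat_lit 5) (nat_lit 185) (nat_lit 5) (nat_lit 349) (nat_lit 329) (nat_lit 267))) (XT.nd (nat_lit 94) (nat_lit 0) (nat_lit 0) (XT.lf (nat_lit 0) (nat_lit 4125597012) (nat_lit 1176) (nat_lit 1526309322) (nat_lit 1260) (nat_lit 3647180854) (nat_lit 170) (nat_lit 5) (nat_lit 184) (nat_lit 5) (nat_lit 185) (nat_lit 5) (nat_lit 350) (nat_lit 329) (nat_lit 266)) (XT.lf (nat_lit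 0) (nat_lit 7259505240) (nat_lit 1260) (nat_lit 571014039) (nat_lit 84) (nat_lit 1603273907) (nat_lit 170) (nat_lit 5) (nat_lit 185) (nat_lit 5) (nat_lit 171) (nat_lit 5) (nat_lit 351) (nat_lit 329) (nat_lit 265))))) (XT.nd (nat_lit 282) (nat_lit 1176) (nat_lit 0) (XT.nd (nat_lit 94) (nat_lit 672) (nat_lit 0) (XT.lf (nat_lit 0) (nat_lit 4206501292) (nat_lit 1260) (nat_lit 4731218605) (nat_lit 1344) (nat_lit 634213066) (nat_lit 155) (nat_lit 5) (nat_lit 170) (nat_lit 5) (nat_lit 171) (nat_lit 5) (nat_lit 352) (nat_lit 329) (nat_lit 264)) (XT.nd (nat_lit 94) (nat_lit 588) (nat_lit 0) (XT.lf (nat_lit 0) (nat_lit 906446895) (nat_lit 1344) (nat_lit 614633039) (nat_lit 84) (nat_lit 8193734161) (nat_lit 154) (nat_lit 5) (nat_lit 170) (nat_lit 5) (nat_lit 155) (nat_lit 5) (nat_lit 353) (nat_lit 329) (nat_lit 263)) (XT.lf (nat_lit 0) (nat_lit 2507930069) (nat_lit 672) (nat_lit 5551909680) (nat_lit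 84) (nat_lit 1801191800) (nat_lit 147) (nat_lit 5) (nat_lit 155) (nat_lit 5) (nat_lit 148) (nat_lit 5) (nat_lit 354) (nat_lit 329) (nat_lit 262)))) (XT.nd (nat_lit 188) (nat_lit 588) (nat_lit 0) (XT.nd (nat_lit 94) (nat_lit 588) (nat_lit 0) (XT.lf (nat_lit 0) (nat_lit 4147548312) (nat_lit 672) (nat_lit 663647864) (nat_lit 84) (nat_lit 5200793704) (nat_lit 147) (nat_lit 5) (nat_lit 155) (nat_lit 5) (nat_lit 148) (nat_lit 5) (nat_lit 355) (nat_lit 329) (nat_lit 261)) (XT.lf (nat_lit 0) (nat_lit 4428289521) (nat_lit 588) (nat_lit 1420305178) (nat_lit 672) (nat_lit 4318570483) (nat_lit 140) (nat_lit 5) (nat_lit 147) (nat_lit 5) (nat_lit 148) (nat_lit 5) (nat_lit 356) (nat_lit 329) (nat_lit 260))) (XT.nd (nat_lit 94) (nat_lit 588) (nat_lit 0) (XT.lf (nat_lit 0) (nat_lit 7597642564) (nat_lit 672) (nat_lit 690239865) (nat_lit 84) (nat_lit 2039258006) (nat_lit 140) (nat_lit 5) (nat_lit 148) (nat_lit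 5) (nat_lit 141) (nat_lit 5) (nat_lit 357) (nat_lit 329) (nat_lit 259)) (XT.lf (nat_lit 0) (nat_lit 4555514609) (nat_lit 588) (nat_lit 4872647506) (nat_lit 672) (nat_lit 1062935053) (nat_lit 133) (nat_lit 5) (nat_lit 140) (nat_lit 5) (nat_lit 141) (nat_lit 5) (nat_lit 358) (nat_lit 329) (nat_lit 258))))))) (XT.nd (nat_lit 1316) (nat_lit 2268) (nat_lit 0) (XT.nd (nat_lit 658) (nat_lit 1848) (nat_lit 0) (XT.nd (nat_lit 282) (nat_lit 1092) (nat_lit 0) (XT.nd (nat_lit 94) (nat_lit 588) (nat_lit 0) (XT.lf (nat_lit 0) (nat_lit 619289467) (nat_lit 672) (nat_lit 722829871) (nat_lit 84) (nat_lit 9318361420) (nat_lit 132) (nat_lit 5) (nat_lit 140) (nat_lit 5) (nat_lit 133) (nat_lit 5) (nat_lit 359) (nat_lit 329) (nat_lit 257)) (XT.nd (nat_lit 94) (nat_lit 0) (nat_lit 0) (XT.lf (nat_lit 0) (nat_lit 2370596260) (nat_lit 672) (nat_lit 6157927654) (nat_lit 84) (nat_lit 2304954631) (nat_lit 125) (nat_lit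 5) (nat_lit 133) (nat_lit 5) (nat_lit 126) (nat_lit 5) (nat_lit 360) (nat_lit 329) (nat_lit 256)) (XT.lf (nat_lit 0) (nat_lit 4167841810) (nat_lit 672) (nat_lit 803325713) (nat_lit 84) (nat_lit 6040743160) (nat_lit 125) (nat_lit 5) (nat_lit 133) (nat_lit 5) (nat_lit 126) (nat_lit 5) (nat_lit 361) (nat_lit 329) (nat_lit 255)))) (XT.nd (nat_lit 188) (nat_lit 588) (nat_lit 0) (XT.nd (nat_lit 94) (nat_lit 0) (nat_lit 0) (XT.lf (nat_lit 0) (nat_lit 4776758848) (nat_lit 504) (nat_lit 1261696800) (nat_lit 588) (nat_lit 5156701661) (nat_lit 119) (nat_lit 5) (nat_lit 125) (nat_lit 5) (nat_lit 126) (nat_lit 5) (nat_lit 362) (nat_lit 329) (nat_lit 254)) (XT.lf (nat_lit 0) (nat_lit 7971993697) (nat_lit 588) (nat_lit 896515570) (nat_lit 84) (nat_lit 2515231633) (nat_lit 119) (nat_lit 5) (nat_lit 126) (nat_lit 5) (nat_lit 120) (nat_lit 5) (nat_lit 363) (nat_lit 329) (nat_lit 253))) (XT.nd (nat_lit 94)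 (nat_lit 84) (nat_lit 0) (XT.lf (nat_lit 0) (nat_lit 4845025776) (nat_lit 504) (nat_lit 5152348608) (nat_lit 588) (nat_lit 1579634987) (nat_lit 113) (nat_lit 5) (nat_lit 119) (nat_lit 5) (nat_lit 120) (nat_lit 5) (nat_lit 364) (nat_lit 329) (nat_lit 252)) (XT.lf (nat_lit 0) (nat_lit 285537353) (nat_lit 588) (nat_lit 1029971587) (nat_lit 84) (nat_lit 10460995444) (nat_lit 112) (nat_lit 5) (nat_lit 119) (nat_lit 5) (nat_lit 113) (nat_lit 5) (nat_lit 365) (nat_lit 329) (nat_lit 251))))) (XT.nd (nat_lit 282) (nat_lit 924) (nat_lit 0) (XT.nd (nat_lit 94) (nat_lit 504) (nat_lit 0) (XT.lf (nat_lit 0) (nat_lit 2223590501) (nat_lit 504) (nat_lit 7111304039) (nat_lit 84) (nat_lit 2645199129) (nat_lit 107) (nat_lit 5) (nat_lit 113) (nat_lit 5) (nat_lit 108) (nat_lit 5) (nat_lit 366) (nat_lit 329) (nat_lit 250)) (XT.nd (nat_lit 94) (nat_lit 504) (nat_lit 0) (XT.lf (nat_lit 0) (nat_lit 4219411045)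 (nat_lit 504) (nat_lit 1264920228) (nat_lit 84) (nat_lit 6705508315) (nat_lit 107) (nat_lit 5) (nat_lit 113) (nat_lit 5) (nat_lit 108) (nat_lit 5) (nat_lit 367) (nat_lit 329) (nat_lit 249)) (XT.lf (nat_lit 0) (nat_lit 4823858878) (nat_lit 504) (nat_lit 1474410696) (nat_lit 588) (nat_lit 6106950044) (nat_lit 101) (nat_lit 5) (nat_lit 107) (nat_lit 5) (nat_lit 108) (nat_lit 5) (nat_lit 368) (nat_lit 329) (nat_lit 248)))) (XT.nd (nat_lit 188) (nat_lit 504) (nat_lit 0) (XT.nd (nat_lit 94) (nat_lit 420) (nat_lit 0) (XT.lf (nat_lit 0) (nat_lit 8455094838) (nat_lit 588) (nat_lit 1558643792) (nat_lit 84) (nat_lit 2612889952) (nat_lit 101) (nat_lit 5) (nat_lit 108) (nat_lit 5) (nat_lit 102) (nat_lit 5) (nat_lit 369) (nat_lit 329) (nat_lit 247)) (XT.lf (nat_lit 0) (nat_lit 4695034533) (nat_lit 420) (nat_lit 6019156941) (nat_lit 504) (nat_lit 2139395873) (nat_lit 96) (nat_lit 5) (nat_lit 101) (nat_lit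 5) (nat_lit 102) (nat_lit 5) (nat_lit 370) (nat_lit 329) (nat_lit 246))) (XT.nd (nat_lit 94) (nat_lit 504) (nat_lit 0) (XT.lf (nat_lit 0) (nat_lit 11141796987) (nat_lit 420) (nat_lit 1893231225) (nat_lit 504) (nat_lit 52541168) (nat_lit 96) (nat_lit 5) (nat_lit 101) (nat_lit 5) (nat_lit 102) (nat_lit 5) (nat_lit 371) (nat_lit 329) (nat_lit 245)) (XT.lf (nat_lit 0) (nat_lit 2101061443) (nat_lit 504) (nat_lit 8855795042) (nat_lit 84) (nat_lit 2369789461) (nat_lit 90) (nat_lit 5) (nat_lit 96) (nat_lit 5) (nat_lit 91) (nat_lit 5) (nat_lit 372) (nat_lit 329) (nat_lit 244)))))) (XT.nd (nat_lit 658) (nat_lit 1092) (nat_lit 0) (XT.nd (nat_lit 282) (nat_lit 840) (nat_lit 0) (XT.nd (nat_lit 94) (nat_lit 336) (nat_lit 0) (XT.lf (nat_lit 0) (nat_lit 4335751449) (nat_lit 504) (nat_lit 2498425676) (nat_lit 84) (nat_lit 6738206696) (nat_lit 90) (nat_lit 5) (nat_lit 96) (nat_lit 5) (nat_lit 91) (nat_lit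 5) (nat_lit 373) (nat_lit 329) (nat_lit 243)) (XT.nd (nat_lit 94) (nat_lit 0) (nat_lit 0) (XT.lf (nat_lit 0) (nat_lit 4104001001) (nat_lit 336) (nat_lit 2552491955) (nat_lit 420) (nat_lit 7168460338) (nat_lit 86) (nat_lit 5) (nat_lit 90) (nat_lit 5) (nat_lit 91) (nat_lit 5) (nat_lit 374) (nat_lit 329) (nat_lit 242)) (XT.lf (nat_lit 0) (nat_lit 9070051425) (nat_lit 420) (nat_lit 3172808628) (nat_lit 84) (nat_lit 1841572874) (nat_lit 86) (nat_lit 5) (nat_lit 91) (nat_lit 5) (nat_lit 87) (nat_lit 5) (nat_lit 375) (nat_lit 329) (nat_lit 241)))) (XT.nd (nat_lit 188) (nat_lit 420) (nat_lit 0) (XT.nd (nat_lit 94) (nat_lit 0) (nat_lit 0) (XT.lf (nat_lit 0) (nat_lit 3591270423) (nat_lit 420) (nat_lit 8004985455) (nat_lit 504) (nat_lit 2754261969) (nat_lit 81) (nat_lit 5) (nat_lit 86) (nat_lit 5) (nat_lit 87) (nat_lit 5) (nat_lit 376) (nat_lit 329) (nat_lit 240)) (XT.lf (nat_lit 0) (nat_lit 10598244157)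 (nat_lit 420) (nat_lit 3612815588) (nat_lit 504) (nat_lit 413168429) (nat_lit 81) (nat_lit 5) (nat_lit 86) (nat_lit 5) (nat_lit 87) (nat_lit 5) (nat_lit 377) (nat_lit 329) (nat_lit 239))) (XT.nd (nat_lit 94) (nat_lit 0) (nat_lit 0) (XT.lf (nat_lit 0) (nat_lit 1977551690) (nat_lit 420) (nat_lit 11992135961) (nat_lit 84) (nat_lit 935360074) (nat_lit 76) (nat_lit 5) (nat_lit 81) (nat_lit 5) (nat_lit 77) (nat_lit 5) (nat_lit 378) (nat_lit 329) (nat_lit 238)) (XT.lf (nat_lit 0) (nat_lit 4489897303) (nat_lit 420) (nat_lit 5115853495) (nat_lit 84) (nat_lit 5586697042) (nat_lit 76) (nat_lit 5) (nat_lit 81) (nat_lit 5) (nat_lit 77) (nat_lit 5) (nat_lit 379) (nat_lit 329) (nat_lit 237))))) (XT.nd (nat_lit 282) (nat_lit 420) (nat_lit 0) (XT.nd (nat_lit 94) (nat_lit 336) (nat_lit 0) (XT.lf (nat_lit 0) (nat_lit 1981083615) (nat_lit 336) (nat_lit 5097496019) (nat_lit 420) (nat_lit 8409885553) (nat_lit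 72) (nat_lit 5) (nat_lit 76) (nat_lit 5) (nat_lit 77) (nat_lit 5) (nat_lit 380) (nat_lit 329) (nat_lit 236)) (XT.nd (nat_lit 94) (nat_lit 336) (nat_lit 0) (XT.lf (nat_lit 0) (nat_lit 9371745070) (nat_lit 336) (nat_lit 407055711) (nat_lit 420) (nat_lit 6013569434) (nat_lit 72) (nat_lit 5) (nat_lit 76) (nat_lit 5) (nat_lit 77) (nat_lit 5) (nat_lit 381) (nat_lit 329) (nat_lit 235)) (XT.lf (nat_lit 0) (nat_lit 828539260) (nat_lit 336) (nat_lit 11764658501) (nat_lit 420) (nat_lit 3511222384) (nat_lit 68) (nat_lit 5) (nat_lit 72) (nat_lit 5) (nat_lit 73) (nat_lit 5) (nat_lit 382) (nat_lit 329) (nat_lit 234)))) (XT.nd (nat_lit 188) (nat_lit 336) (nat_lit 0) (XT.nd (nat_lit 94) (nat_lit 84) (nat_lit 0) (XT.lf (nat_lit 0) (nat_lit 8399082970) (nat_lit 336) (nat_lit 7144725446) (nat_lit 420) (nat_lit 880491867) (nat_lit 68) (nat_lit 5) (nat_lit 72) (nat_lit 5) (nat_lit 73) (nat_lit 5) (nat_lit 383)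 (nat_lit 329) (nat_lit 233)) (XT.lf (nat_lit 0) (nat_lit 1776733858) (nat_lit 420) (nat_lit 597885016) (nat_lit 84) (nat_lit 14379153348) (nat_lit 67) (nat_lit 5) (nat_lit 72) (nat_lit 5) (nat_lit 68) (nat_lit 5) (nat_lit 384) (nat_lit 329) (nat_lit 232))) (XT.nd (nat_lit 94) (nat_lit 0) (nat_lit 0) (XT.lf (nat_lit 0) (nat_lit 4573675782) (nat_lit 420) (nat_lit 9955728880) (nat_lit 84) (nat_lit 2561151514) (nat_lit 63) (nat_lit 5) (nat_lit 68) (nat_lit 5) (nat_lit 64) (nat_lit 5) (nat_lit 385) (nat_lit 329) (nat_lit 231)) (XT.lf (nat_lit 0) (nat_lit 7468085279) (nat_lit 420) (nat_lit 2371863305) (nat_lit 84) (nat_lit 7597107976) (nat_lit 63) (nat_lit 5) (nat_lit 68) (nat_lit 5) (nat_lit 64) (nat_lit 5) (nat_lit 386) (nat_lit 329) (nat_lit 230))))))))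
noncomputable def xc119 : XT := (XT.nd (nat_lit 2632) (nat_lit 1344) (nat_lit 0) (XT.nd (nat_lit 1316) (nat_lit 1092) (nat_lit 0) (XT.nd (nat_lit 658) (nat_lit 840) (nat_lit 0) (XT.nd (nat_lit 282) (nat_lit 336) (nat_lit 0) (XT.nd (nat_lit 94) (nat_lit 336) (nat_lit 0) (XT.lf (nat_lit 0) (nat_lit 5525191950) (nat_lit 252) (nat_lit 4961665075) (nat_lit 336) (nat_lit 7305988149) (nat_lit 60) (nat_lit 5) (nat_lit 63) (nat_lit 5) (nat_lit 64) (nat_lit 5) (nat_lit 387) (nat_lit 329) (nat_lit 229)) (XT.nd (nat_lit 94) (nat_lit 336) (nat_lit 0) (XT.lf (nat_lit 0) (nat_lit 13605583700) (nat_lit 336) (nat_lit 4473992585) (nat_lit 84) (nat_lit 79467969) (nat_lit 60) (nat_lit 5) (nat_lit 64) (nat_lit 5) (nat_lit 61) (nat_lit 5) (nat_lit 388) (nat_lit 329) (nat_lit 228)) (XT.lf (nat_lit 0) (nat_lit 3551973998) (nat_lit 336) (nat_lit 13334214108) (nat_lit 420) (nat_lit 1648009744) (nat_lit 56) (nat_lit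 5) (nat_lit 60) (nat_lit 5) (nat_lit 61) (nat_lit 5) (nat_lit 389) (nat_lit 329) (nat_lit 227)))) (XT.nd (nat_lit 188) (nat_lit 0) (nat_lit 0) (XT.nd (nat_lit 94) (nat_lit 252) (nat_lit 0) (XT.lf (nat_lit 0) (nat_lit 1349105301) (nat_lit 420) (nat_lit 7043982032) (nat_lit 84) (nat_lit 10526225787) (nat_lit 55) (nat_lit 5) (nat_lit 60) (nat_lit 5) (nat_lit 56) (nat_lit 5) (nat_lit 390) (nat_lit 329) (nat_lit 226)) (XT.lf (nat_lit 0) (nat_lit 1116725230) (nat_lit 252) (nat_lit 3282566377) (nat_lit 336) (nat_lit 14916328790) (nat_lit 52) (nat_lit 5) (nat_lit 55) (nat_lit 5) (nat_lit 56) (nat_lit 5) (nat_lit 391) (nat_lit 329) (nat_lit 225))) (XT.nd (nat_lit 94) (nat_lit 0) (nat_lit 0) (XT.lf (nat_lit 0) (nat_lit 7617564935) (nat_lit 336) (nat_lit 10096111267) (nat_lit 84) (nat_lit 2007859259) (nat_lit 52) (nat_lit 5) (nat_lit 56) (nat_lit 5) (nat_lit 53) (nat_lit 5) (nat_lit 392) (nat_lit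 329) (nat_lit 224)) (XT.lf (nat_lit 0) (nat_lit 10951005160) (nat_lit 336) (nat_lit 1803450604) (nat_lit 84) (nat_lit 7384629195) (nat_lit 52) (nat_lit 5) (nat_lit 56) (nat_lit 5) (nat_lit 53) (nat_lit 5) (nat_lit 393) (nat_lit 329) (nat_lit 223))))) (XT.nd (nat_lit 282) (nat_lit 252) (nat_lit 0) (XT.nd (nat_lit 94) (nat_lit 336) (nat_lit 0) (XT.lf (nat_lit 0) (nat_lit 6851585991) (nat_lit 252) (nat_lit 7585246605) (nat_lit 336) (nat_lit 6130771916) (nat_lit 49) (nat_lit 5) (nat_lit 52) (nat_lit 5) (nat_lit 53) (nat_lit 5) (nat_lit 394) (nat_lit 329) (nat_lit 222)) (XT.nd (nat_lit 94) (nat_lit 336) (nat_lit 0) (XT.lf (nat_lit 0) (nat_lit 15783336736) (nat_lit 252) (nat_lit 2248833011) (nat_lit 336) (nat_lit 2976676514) (nat_lit 49) (nat_lit 5) (nat_lit 52) (nat_lit 5) (nat_lit 53) (nat_lit 5) (nat_lit 395) (nat_lit 329) (nat_lit 221)) (XT.lf (nat_lit 0) (nat_lit 319512025) (nat_lit 336)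 (nat_lit 17927036224) (nat_lit 84) (nat_lit 3215129006) (nat_lit 45) (nat_lit 5) (nat_lit 49) (nat_lit 5) (nat_lit 46) (nat_lit 5) (nat_lit 396) (nat_lit 329) (nat_lit 220)))) (XT.nd (nat_lit 188) (nat_lit 252) (nat_lit 0) (XT.nd (nat_lit 94) (nat_lit 0) (nat_lit 0) (XT.lf (nat_lit 0) (nat_lit 3717412046) (nat_lit 336) (nat_lit 9333798957) (nat_lit 84) (nat_lit 8874131803) (nat_lit 45) (nat_lit 5) (nat_lit 49) (nat_lit 5) (nat_lit 46) (nat_lit 5) (nat_lit 397) (nat_lit 329) (nat_lit 219)) (XT.lf (nat_lit 0) (nat_lit 7204723391) (nat_lit 336) (nat_lit 501932106) (nat_lit 84) (nat_lit 14696651616) (nat_lit 45) (nat_lit 5) (nat_lit 49) (nat_lit 5) (nat_lit 46) (nat_lit 5) (nat_lit 398) (nat_lit 329) (nat_lit 218))) (XT.nd (nat_lit 94) (nat_lit 0) (nat_lit 0) (XT.lf (nat_lit 0) (nat_lit 8746966313) (nat_lit 252) (nat_lit 2121608102) (nat_lit 336) (nat_lit 12024890962) (nat_lit 42) (nat_lit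 5) (nat_lit 45) (nat_lit 5) (nat_lit 46) (nat_lit 5) (nat_lit 399) (nat_lit 329) (nat_lit 217)) (XT.lf (nat_lit 0) (nat_lit 14670317273) (nat_lit 336) (nat_lit 5168245681) (nat_lit 84) (nat_lit 3558938418) (nat_lit 42) (nat_lit 5) (nat_lit 46) (nat_lit 5) (nat_lit 43) (nat_lit 5) (nat_lit 400) (nat_lit 329) (nat_lit 216)))))) (XT.nd (nat_lit 658) (nat_lit 420) (nat_lit 0) (XT.nd (nat_lit 282) (nat_lit 420) (nat_lit 0) (XT.nd (nat_lit 94) (nat_lit 84) (nat_lit 0) (XT.lf (nat_lit 0) (nat_lit 4120565421) (nat_lit 168) (nat_lit 14514467540) (nat_lit 252) (nat_lit 5280169782) (nat_lit 40) (nat_lit 5) (nat_lit 42) (nat_lit 5) (nat_lit 43) (nat_lit 5) (nat_lit 401) (nat_lit 329) (nat_lit 215)) (XT.nd (nat_lit 94) (nat_lit 84) (nat_lit 0) (XT.lf (nat_lit 0) (nat_lit 13775972236) (nat_lit 168) (nat_lit 8983379642) (nat_lit 252) (nat_lit 1687874991) (nat_lit 40) (nat_lit 5) (nat_lit 42) (nat_lit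 5) (nat_lit 43) (nat_lit 5) (nat_lit 402) (nat_lit 329) (nat_lit 214)) (XT.lf (nat_lit 0) (nat_lit 1961610134) (nat_lit 252) (nat_lit 1311236867) (nat_lit 84) (nat_lit 21722134752) (nat_lit 39) (nat_lit 5) (nat_lit 42) (nat_lit 5) (nat_lit 40) (nat_lit 5) (nat_lit 403) (nat_lit 329) (nat_lit 213)))) (XT.nd (nat_lit 188) (nat_lit 168) (nat_lit 0) (XT.nd (nat_lit 94) (nat_lit 0) (nat_lit 0) (XT.lf (nat_lit 0) (nat_lit 5782991476) (nat_lit 336) (nat_lit 17121796385) (nat_lit 84) (nat_lit 2651000571) (nat_lit 36) (nat_lit 5) (nat_lit 40) (nat_lit 5) (nat_lit 37) (nat_lit 5) (nat_lit 404) (nat_lit 329) (nat_lit 212)) (XT.lf (nat_lit 0) (nat_lit 9753903187) (nat_lit 336) (nat_lit 7684415190) (nat_lit 84) (nat_lit 8694064544) (nat_lit 36) (nat_lit 5) (nat_lit 40) (nat_lit 5) (nat_lit 37) (nat_lit 5) (nat_lit 405) (nat_lit 329) (nat_lit 211))) (XT.nd (nat_lit 94) (nat_lit 0) (nat_lit 0) (XT.lf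 (nat_lit 0) (nat_lit 2059464840) (nat_lit 168) (nat_lit 11793703838) (nat_lit 252) (nat_lit 12872839750) (nat_lit 34) (nat_lit 5) (nat_lit 36) (nat_lit 5) (nat_lit 37) (nat_lit 5) (nat_lit 406) (nat_lit 329) (nat_lit 210)) (XT.lf (nat_lit 0) (nat_lit 12236538877) (nat_lit 168) (nat_lit 5906048248) (nat_lit 252) (nat_lit 9192850013) (nat_lit 34) (nat_lit 5) (nat_lit 36) (nat_lit 5) (nat_lit 37) (nat_lit 5) (nat_lit 407) (nat_lit 329) (nat_lit 209))))) (XT.nd (nat_lit 282) (nat_lit 168) (nat_lit 0) (XT.nd (nat_lit 94) (nat_lit 252) (nat_lit 0) (XT.lf (nat_lit 0) (nat_lit 22552032155) (nat_lit 252) (nat_lit 5262160097) (nat_lit 84) (nat_lit 149225540) (nat_lit 34) (nat_lit 5) (nat_lit 37) (nat_lit 5) (nat_lit 35) (nat_lit 5) (nat_lit 408) (nat_lit 329) (nat_lit 208)) (XT.nd (nat_lit 94) (nat_lit 84) (nat_lit 0) (XT.lf (nat_lit 0) (nat_lit 4890702371) (nat_lit 168) (nat_lit 22298665690) (nat_lit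 252) (nat_lit 1418010712) (nat_lit 32) (nat_lit 5) (nat_lit 34) (nat_lit 5) (nat_lit 35) (nat_lit 5) (nat_lit 409) (nat_lit 329) (nat_lit 207)) (XT.lf (nat_lit 0) (nat_lit 2686386980) (nat_lit 252) (nat_lit 13855464033) (nat_lit 84) (nat_lit 12726724530) (nat_lit 31) (nat_lit 5) (nat_lit 34) (nat_lit 5) (nat_lit 32) (nat_lit 5) (nat_lit 410) (nat_lit 329) (nat_lit 206)))) (XT.nd (nat_lit 188) (nat_lit 0) (nat_lit 0) (XT.nd (nat_lit 94) (nat_lit 168) (nat_lit 0) (XT.lf (nat_lit 0) (nat_lit 6875853170) (nat_lit 252) (nat_lit 3727975119) (nat_lit 84) (nat_lit 19345653977) (nat_lit 31) (nat_lit 5) (nat_lit 34) (nat_lit 5) (nat_lit 32) (nat_lit 5) (nat_lit 411) (nat_lit 329) (nat_lit 205)) (XT.lf (nat_lit 0) (nat_lit 6821380081) (nat_lit 168) (nat_lit 4425910247) (nat_lit 252) (nat_lit 19401845366) (nat_lit 29) (nat_lit 5) (nat_lit 31) (nat_lit 5) (nat_lit 32) (nat_lit 5) (nat_lit 412) (nat_lit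 329) (nat_lit 204))) (XT.nd (nat_lit 94) (nat_lit 0) (nat_lit 0) (XT.lf (nat_lit 0) (nat_lit 15797298816) (nat_lit 252) (nat_lit 13639156814) (nat_lit 84) (nat_lit 1931908125) (nat_lit 29) (nat_lit 5) (nat_lit 32) (nat_lit 5) (nat_lit 30) (nat_lit 5) (nat_lit 413) (nat_lit 329) (nat_lit 203)) (XT.lf (nat_lit 0) (nat_lit 20518684083) (nat_lit 252) (nat_lit 3203427299) (nat_lit 84) (nat_lit 8386018628) (nat_lit 29) (nat_lit 5) (nat_lit 32) (nat_lit 5) (nat_lit 30) (nat_lit 5) (nat_lit 414) (nat_lit 329) (nat_lit 202))))))) (XT.nd (nat_lit 1316) (nat_lit 420) (nat_lit 0) (XT.nd (nat_lit 658) (nat_lit 336) (nat_lit 0) (XT.nd (nat_lit 282) (nat_lit 336) (nat_lit 0) (XT.nd (nat_lit 94) (nat_lit 84) (nat_lit 0) (XT.lf (nat_lit 0) (nat_lit 7680979666) (nat_lit 168) (nat_lit 17765881664) (nat_lit 252) (nat_lit 7421280833) (nat_lit 27) (nat_lit 5) (nat_lit 29) (nat_lit 5) (nat_lit 30) (nat_lit 5)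 (nat_lit 415) (nat_lit 329) (nat_lit 201)) (XT.nd (nat_lit 94) (nat_lit 84) (nat_lit 0) (XT.lf (nat_lit 0) (nat_lit 18943447925) (nat_lit 168) (nat_lit 11603217475) (nat_lit 252) (nat_lit 3103583042) (nat_lit 27) (nat_lit 5) (nat_lit 29) (nat_lit 5) (nat_lit 30) (nat_lit 5) (nat_lit 416) (nat_lit 329) (nat_lit 200)) (XT.lf (nat_lit 0) (nat_lit 1309019794) (nat_lit 252) (nat_lit 3938843970) (nat_lit 84) (nat_lit 29207825658) (nat_lit 26) (nat_lit 5) (nat_lit 29) (nat_lit 5) (nat_lit 27) (nat_lit 5) (nat_lit 417) (nat_lit 329) (nat_lit 199)))) (XT.nd (nat_lit 188) (nat_lit 168) (nat_lit 0) (XT.nd (nat_lit 94) (nat_lit 0) (nat_lit 0) (XT.lf (nat_lit 0) (nat_lit 5866567206) (nat_lit 252) (nat_lit 28046565265) (nat_lit 84) (nat_lit 1368997537) (nat_lit 24) (nat_lit 5) (nat_lit 27) (nat_lit 5) (nat_lit 25) (nat_lit 5) (nat_lit 418) (nat_lit 329) (nat_lit 198)) (XT.lf (nat_lit 0) (nat_lit 10644865039)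 (nat_lit 252) (nat_lit 17372135370) (nat_lit 84) (nat_lit 8113849088) (nat_lit 24) (nat_lit 5) (nat_lit 27) (nat_lit 5) (nat_lit 25) (nat_lit 5) (nat_lit 419) (nat_lit 329) (nat_lit 197))) (XT.nd (nat_lit 94) (nat_lit 168) (nat_lit 0) (XT.lf (nat_lit 0) (nat_lit 15558644373) (nat_lit 252) (nat_lit 6390637723) (nat_lit 84) (nat_lit 15055990714) (nat_lit 24) (nat_lit 5) (nat_lit 27) (nat_lit 5) (nat_lit 25) (nat_lit 5) (nat_lit 420) (nat_lit 329) (nat_lit 196)) (XT.lf (nat_lit 0) (nat_lit 5005192492) (nat_lit 168) (nat_lit 15655119282) (nat_lit 252) (nat_lit 17244408845) (nat_lit 22) (nat_lit 5) (nat_lit 24) (nat_lit 5) (nat_lit 25) (nat_lit 5) (nat_lit 421) (nat_lit 329) (nat_lit 195))))) (XT.nd (nat_lit 282) (nat_lit 252) (nat_lit 0) (XT.nd (nat_lit 94) (nat_lit 84) (nat_lit 0) (XT.lf (nat_lit 0) (nat_lit 16861243038) (nat_lit 168) (nat_lit 9110781597) (nat_lit 252) (nat_lit 12857423224)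 (nat_lit 22) (nat_lit 5) (nat_lit 24) (nat_lit 5) (nat_lit 25) (nat_lit 5) (nat_lit 422) (nat_lit 329) (nat_lit 194)) (XT.nd (nat_lit 94) (nat_lit 84) (nat_lit 0) (XT.lf (nat_lit 0) (nat_lit 29060687350) (nat_lit 168) (nat_lit 2375083599) (nat_lit 252) (nat_lit 8346371196) (nat_lit 22) (nat_lit 5) (nat_lit 24) (nat_lit 5) (nat_lit 25) (nat_lit 5) (nat_lit 423) (nat_lit 329) (nat_lit 193)) (XT.lf (nat_lit 0) (nat_lit 822791899) (nat_lit 84) (nat_lit 36285255084) (nat_lit 168) (nat_lit 3654037281) (nat_lit 21) (nat_lit 5) (nat_lit 22) (nat_lit 5) (nat_lit 23) (nat_lit 4) (nat_lit 424) (nat_lit 329) (nat_lit 192)))) (XT.nd (nat_lit 188) (nat_lit 168) (nat_lit 0) (XT.nd (nat_lit 94) (nat_lit 0) (nat_lit 0) (XT.lf (nat_lit 0) (nat_lit 1281778882) (nat_lit 168) (nat_lit 28883083561) (nat_lit 84) (nat_lit 11602455790) (nat_lit 20) (nat_lit 5) (nat_lit 22) (nat_lit 5) (nat_lit 21) (nat_lit 5)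 (nat_lit 425) (nat_lit 329) (nat_lit 191)) (XT.lf (nat_lit 0) (nat_lit 6285301544) (nat_lit 168) (nat_lit 17543144425) (nat_lit 84) (nat_lit 18973390714) (nat_lit 20) (nat_lit 5) (nat_lit 22) (nat_lit 5) (nat_lit 21) (nat_lit 5) (nat_lit 426) (nat_lit 329) (nat_lit 190))) (XT.nd (nat_lit 94) (nat_lit 168) (nat_lit 0) (XT.lf (nat_lit 0) (nat_lit 11432206144) (nat_lit 168) (nat_lit 5874441431) (nat_lit 84) (nat_lit 26560949733) (nat_lit 20) (nat_lit 5) (nat_lit 22) (nat_lit 5) (nat_lit 21) (nat_lit 5) (nat_lit 427) (nat_lit 329) (nat_lit 189)) (XT.lf (nat_lit 0) (nat_lit 6255284505) (nat_lit 168) (nat_lit 10531835092) (nat_lit 252) (nat_lit 28176607868) (nat_lit 18) (nat_lit 5) (nat_lit 20) (nat_lit 5) (nat_lit 21) (nat_lit 5) (nat_lit 428) (nat_lit 329) (nat_lit 188)))))) (XT.nd (nat_lit 658) (nat_lit 252) (nat_lit 0) (XT.nd (nat_lit 282) (nat_lit 168) (nat_lit 0) (XT.nd (nat_lit 94) (nat_lit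 0) (nat_lit 0) (XT.lf (nat_lit 0) (nat_lit 18858330069) (nat_lit 168) (nat_lit 3497227288) (nat_lit 252) (nat_lit 23735602490) (nat_lit 18) (nat_lit 5) (nat_lit 20) (nat_lit 5) (nat_lit 21) (nat_lit 5) (nat_lit 429) (nat_lit 329) (nat_lit 187)) (XT.nd (nat_lit 94) (nat_lit 0) (nat_lit 0) (XT.lf (nat_lit 0) (nat_lit 28120782124) (nat_lit 252) (nat_lit 15459802278) (nat_lit 84) (nat_lit 3670943273) (nat_lit 18) (nat_lit 5) (nat_lit 21) (nat_lit 5) (nat_lit 19) (nat_lit 4) (nat_lit 430) (nat_lit 329) (nat_lit 186)) (XT.lf (nat_lit 0) (nat_lit 34087474870) (nat_lit 252) (nat_lit 3378716746) (nat_lit 84) (nat_lit 10979663946) (nat_lit 18) (nat_lit 5) (nat_lit 21) (nat_lit 5) (nat_lit 19) (nat_lit 4) (nat_lit 431) (nat_lit 329) (nat_lit 185)))) (XT.nd (nat_lit 188) (nat_lit 84) (nat_lit 0) (XT.nd (nat_lit 94) (nat_lit 0) (nat_lit 0) (XT.lf (nat_lit 0) (nat_lit 9234804900) (nat_lit 84) (nat_lit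 31081197416) (nat_lit 168) (nat_lit 9357530186) (nat_lit 17) (nat_lit 5) (nat_lit 18) (nat_lit 5) (nat_lit 19) (nat_lit 4) (nat_lit 432) (nat_lit 329) (nat_lit 184)) (XT.lf (nat_lit 0) (nat_lit 22285891826) (nat_lit 84) (nat_lit 24473751316) (nat_lit 168) (nat_lit 4177552991) (nat_lit 17) (nat_lit 5) (nat_lit 18) (nat_lit 5) (nat_lit 19) (nat_lit 4) (nat_lit 433) (nat_lit 329) (nat_lit 183))) (XT.nd (nat_lit 94) (nat_lit 0) (nat_lit 0) (XT.lf (nat_lit 0) (nat_lit 1129479808) (nat_lit 168) (nat_lit 16531312895) (nat_lit 84) (nat_lit 34577819467) (nat_lit 16) (nat_lit 5) (nat_lit 18) (nat_lit 5) (nat_lit 17) (nat_lit 5) (nat_lit 434) (nat_lit 329) (nat_lit 182)) (XT.lf (nat_lit 0) (nat_lit 6506175995) (nat_lit 168) (nat_lit 4098719449) (nat_lit 84) (nat_lit 42973105634) (nat_lit 16) (nat_lit 5) (nat_lit 18) (nat_lit 5) (nat_lit 17) (nat_lit 5) (nat_lit 435) (nat_lit 329) (nat_lit 181)))))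 (XT.nd (nat_lit 282) (nat_lit 84) (nat_lit 0) (XT.nd (nat_lit 94) (nat_lit 0) (nat_lit 0) (XT.lf (nat_lit 0) (nat_lit 8870593892) (nat_lit 168) (nat_lit 3253428444) (nat_lit 252) (nat_lit 42831157493) (nat_lit 14) (nat_lit 5) (nat_lit 16) (nat_lit 5) (nat_lit 17) (nat_lit 5) (nat_lit 436) (nat_lit 329) (nat_lit 180)) (XT.nd (nat_lit 94) (nat_lit 0) (nat_lit 0) (XT.lf (nat_lit 0) (nat_lit 17988326663) (nat_lit 252) (nat_lit 34110738471) (nat_lit 84) (nat_lit 4272274676) (nat_lit 14) (nat_lit 5) (nat_lit 17) (nat_lit 5) (nat_lit 15) (nat_lit 4) (nat_lit 437) (nat_lit 329) (nat_lit 179)) (XT.lf (nat_lit 0) (nat_lit 24055540162) (nat_lit 252) (nat_lit 21819004164) (nat_lit 84) (nat_lit 11954634307) (nat_lit 14) (nat_lit 5) (nat_lit 17) (nat_lit 5) (nat_lit 15) (nat_lit 4) (nat_lit 438) (nat_lit 329) (nat_lit 178)))) (XT.nd (nat_lit 188) (nat_lit 0) (nat_lit 0) (XT.nd (nat_lit 94) (nat_lit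 84) (nat_lit 0) (XT.lf (nat_lit 0) (nat_lit 30299690337) (nat_lit 252) (nat_lit 9167368721) (nat_lit 84) (nat_lit 19863849295) (nat_lit 14) (nat_lit 5) (nat_lit 17) (nat_lit 5) (nat_lit 15) (nat_lit 4) (nat_lit 439) (nat_lit 329) (nat_lit 177)) (XT.lf (nat_lit 0) (nat_lit 3931949173) (nat_lit 84) (nat_lit 32832080369) (nat_lit 168) (nat_lit 24112677732) (nat_lit 13) (nat_lit 5) (nat_lit 14) (nat_lit 5) (nat_lit 15) (nat_lit 4) (nat_lit 440) (nat_lit 329) (nat_lit 176))) (XT.nd (nat_lit 94) (nat_lit 0) (nat_lit 0) (XT.lf (nat_lit 0) (nat_lit 17603659822) (nat_lit 84) (nat_lit 25906341627) (nat_lit 168) (nat_lit 18956250789) (nat_lit 13) (nat_lit 5) (nat_lit 14) (nat_lit 5) (nat_lit 15) (nat_lit 4) (nat_lit 441) (nat_lit 329) (nat_lit 175)) (XT.lf (nat_lit 0) (nat_lit 31677260766) (nat_lit 84) (nat_lit 18776363665) (nat_lit 168) (nat_lit 13650004020) (nat_lit 13) (nat_lit 5) (nat_lit 14)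 (nat_lit 5) (nat_lit 15) (nat_lit 4) (nat_lit 442) (nat_lit 329) (nat_lit 174))))))))
noncomputable def xc120 : XT := (XT.nd (nat_lit 50854) (nat_lit 0) (nat_lit 5460) (XT.nd (nat_lit 49538) (nat_lit 0) (nat_lit 12096) (XT.nd (nat_lit 48880) (nat_lit 0) (nat_lit 17388) (XT.nd (nat_lit 282) (nat_lit 0) (nat_lit 0) (XT.nd (nat_lit 94) (nat_lit 168) (nat_lit 0) (XT.lf (nat_lit 0) (nat_lit 46165049327) (nat_lit 84) (nat_lit 11435916407) (nat_lit 168) (nat_lit 8189300899) (nat_lit 13) (nat_lit 5) (nat_lit 14) (nat_lit 5) (nat_lit 15) (nat_lit 4) (nat_lit 443) (nat_lit 329) (nat_lit 173)) (XT.nd (nat_lit 94) (nat_lit 168) (nat_lit 0) (XT.lf (nat_lit 0) (nat_lit 61079684737) (nat_lit 84) (nat_lit 3878585868) (nat_lit 168) (nat_lit 2569369937) (nat_lit 13) (nat_lit 5) (nat_lit 14) (nat_lit 5) (nat_lit 15) (nat_lit 4) (nat_lit 444) (nat_lit 329) (nat_lit 172)) (XT.lf (nat_lit 0) (nat_lit 3259944416)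 (nat_lit 168) (nat_lit 62125706376) (nat_lit 84) (nat_lit 3927451173) (nat_lit 11) (nat_lit 5) (nat_lit 13) (nat_lit 5) (nat_lit 12) (nat_lit 4) (nat_lit 445) (nat_lit 329) (nat_lit 171)))) (XT.nd (nat_lit 48410) (nat_lit 0) (nat_lit 18228) (XT.lf (nat_lit 0) (nat_lit 9312305414) (nat_lit 168) (nat_lit 49858351014) (nat_lit 84) (nat_lit 11977715992) (nat_lit 11) (nat_lit 5) (nat_lit 13) (nat_lit 5) (nat_lit 12) (nat_lit 4) (nat_lit 446) (nat_lit 329) (nat_lit 170)) (XT.nd (nat_lit 94) (nat_lit 0) (nat_lit 0) (XT.lf (nat_lit 0) (nat_lit 1094779836) (nat_lit 924) (nat_lit 1309644636) (nat_lit 924) (nat_lit 1309644636) (nat_lit 228) (nat_lit 3) (nat_lit 239) (nat_lit 3) (nat_lit 239) (nat_lit 5) (nat_lit 330) (nat_lit 330) (nat_lit 285)) (XT.lf (nat_lit 84) (nat_lit 664244015) (nat_lit 0) (nat_lit 2935303646) (nat_lit 924) (nat_lit 3895544629) (nat_lit 229) (nat_lit 5) (nat_lit 228) (nat_lit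 3) (nat_lit 239) (nat_lit 5) (nat_lit 331) (nat_lit 330) (nat_lit 284))))) (XT.nd (nat_lit 282) (nat_lit 0) (nat_lit 0) (XT.nd (nat_lit 94) (nat_lit 840) (nat_lit 0) (XT.lf (nat_lit 84) (nat_lit 4071814177) (nat_lit 0) (nat_lit 952703180) (nat_lit 924) (nat_lit 2540480244) (nat_lit 229) (nat_lit 5) (nat_lit 228) (nat_lit 3) (nat_lit 239) (nat_lit 5) (nat_lit 332) (nat_lit 330) (nat_lit 283)) (XT.nd (nat_lit 94) (nat_lit 924) (nat_lit 0) (XT.lf (nat_lit 0) (nat_lit 6450745281) (nat_lit 840) (nat_lit 95126617) (nat_lit 924) (nat_lit 1092492393) (nat_lit 229) (nat_lit 5) (nat_lit 239) (nat_lit 5) (nat_lit 240) (nat_lit 5) (nat_lit 333) (nat_lit 330) (nat_lit 282)) (XT.lf (nat_lit 0) (nat_lit 193612220) (nat_lit 924) (nat_lit 4282150580) (nat_lit 1008) (nat_lit 3238468441) (nat_lit 218) (nat_lit 5) (nat_lit 229) (nat_lit 5) (nat_lit 230) (nat_lit 5) (nat_lit 334) (nat_lit 330) (nat_lit 281))))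 (XT.nd (nat_lit 188) (nat_lit 0) (nat_lit 84) (XT.nd (nat_lit 94) (nat_lit 0) (nat_lit 0) (XT.lf (nat_lit 0) (nat_lit 1543532270) (nat_lit 924) (nat_lit 766296033) (nat_lit 1008) (nat_lit 5483768837) (nat_lit 218) (nat_lit 5) (nat_lit 229) (nat_lit 5) (nat_lit 230) (nat_lit 5) (nat_lit 335) (nat_lit 330) (nat_lit 280)) (XT.lf (nat_lit 84) (nat_lit 2882904866) (nat_lit 0) (nat_lit 30360938) (nat_lit 1008) (nat_lit 4962804904) (nat_lit 219) (nat_lit 5) (nat_lit 218) (nat_lit 5) (nat_lit 230) (nat_lit 5) (nat_lit 336) (nat_lit 330) (nat_lit 279))) (XT.nd (nat_lit 94) (nat_lit 0) (nat_lit 0) (XT.lf (nat_lit 0) (nat_lit 4307110325) (nat_lit 924) (nat_lit 1355661704) (nat_lit 1008) (nat_lit 2298858961) (nat_lit 219) (nat_lit 5) (nat_lit 230) (nat_lit 5) (nat_lit 231) (nat_lit 5) (nat_lit 337) (nat_lit 330) (nat_lit 278)) (XT.lf (nat_lit 84) (nat_lit 2408726462) (nat_lit 0) (nat_lit 3311796670)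 (nat_lit 1008) (nat_lit 2330002435) (nat_lit 220) (nat_lit 5) (nat_lit 219) (nat_lit 5) (nat_lit 231) (nat_lit 5) (nat_lit 338) (nat_lit 330) (nat_lit 277)))))) (XT.nd (nat_lit 658) (nat_lit 4452) (nat_lit 0) (XT.nd (nat_lit 282) (nat_lit 0) (nat_lit 0) (XT.nd (nat_lit 94) (nat_lit 924) (nat_lit 0) (XT.lf (nat_lit 84) (nat_lit 6285176348) (nat_lit 0) (nat_lit 860205322) (nat_lit 1008) (nat_lit 997731169) (nat_lit 220) (nat_lit 5) (nat_lit 219) (nat_lit 5) (nat_lit 231) (nat_lit 5) (nat_lit 339) (nat_lit 330) (nat_lit 276)) (XT.nd (nat_lit 94) (nat_lit 0) (nat_lit 0) (XT.lf (nat_lit 0) (nat_lit 359389521) (nat_lit 1008) (nat_lit 6208570061) (nat_lit 1092) (nat_lit 1670736052) (nat_lit 208) (nat_lit 5) (nat_lit 220) (nat_lit 5) (nat_lit 221) (nat_lit 5) (nat_lit 340) (nat_lit 330) (nat_lit 275)) (XT.lf (nat_lit 0) (nat_lit 1721908789) (nat_lit 1008) (nat_lit 2312268984) (nat_lit 1092) (nat_lit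 4303218547) (nat_lit 208) (nat_lit 5) (nat_lit 220) (nat_lit 5) (nat_lit 221) (nat_lit 5) (nat_lit 341) (nat_lit 330) (nat_lit 274)))) (XT.nd (nat_lit 188) (nat_lit 0) (nat_lit 84) (XT.nd (nat_lit 94) (nat_lit 0) (nat_lit 84) (XT.lf (nat_lit 84) (nat_lit 1705046980) (nat_lit 0) (nat_lit 1395165259) (nat_lit 1092) (nat_lit 5339684855) (nat_lit 209) (nat_lit 5) (nat_lit 208) (nat_lit 5) (nat_lit 221) (nat_lit 5) (nat_lit 342) (nat_lit 330) (nat_lit 273)) (XT.lf (nat_lit 0) (nat_lit 4515724812) (nat_lit 1008) (nat_lit 2697712292) (nat_lit 1092) (nat_lit 1332243797) (nat_lit 209) (nat_lit 5) (nat_lit 221) (nat_lit 5) (nat_lit 222) (nat_lit 5) (nat_lit 343) (nat_lit 330) (nat_lit 272))) (XT.nd (nat_lit 94) (nat_lit 0) (nat_lit 0) (XT.lf (nat_lit 84) (nat_lit 1445542910) (nat_lit 0) (nat_lit 4516608423) (nat_lit 1092) (nat_lit 2692914800) (nat_lit 210) (nat_lit 5) (nat_lit 209) (nat_lit 5) (nat_lit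 222) (nat_lit 5) (nat_lit 344) (nat_lit 330) (nat_lit 271)) (XT.lf (nat_lit 84) (nat_lit 5739293387) (nat_lit 0) (nat_lit 1701522233) (nat_lit 1092) (nat_lit 1327330954) (nat_lit 210) (nat_lit 5) (nat_lit 209) (nat_lit 5) (nat_lit 222) (nat_lit 5) (nat_lit 345) (nat_lit 330) (nat_lit 270))))) (XT.nd (nat_lit 282) (nat_lit 2436) (nat_lit 0) (XT.nd (nat_lit 94) (nat_lit 1092) (nat_lit 0) (XT.lf (nat_lit 0) (nat_lit 63909077) (nat_lit 1092) (nat_lit 7624942969) (nat_lit 84) (nat_lit 1196231965) (nat_lit 197) (nat_lit 5) (nat_lit 210) (nat_lit 5) (nat_lit 198) (nat_lit 5) (nat_lit 346) (nat_lit 330) (nat_lit 269)) (XT.nd (nat_lit 94) (nat_lit 1092) (nat_lit 0) (XT.lf (nat_lit 0) (nat_lit 1481120581) (nat_lit 1092) (nat_lit 3325062387) (nat_lit 84) (nat_lit 4198697272) (nat_lit 197) (nat_lit 5) (nat_lit 210) (nat_lit 5) (nat_lit 198) (nat_lit 5) (nat_lit 347) (nat_lit 330) (nat_lit 268)) (XT.lf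 (nat_lit 0) (nat_lit 1096024791) (nat_lit 1092) (nat_lit 1819609058) (nat_lit 1176) (nat_lit 6213463135) (nat_lit 184) (nat_lit 5) (nat_lit 197) (nat_lit 5) (nat_lit 198) (nat_lit 5) (nat_lit 348) (nat_lit 330) (nat_lit 267)))) (XT.nd (nat_lit 188) (nat_lit 1260) (nat_lit 0) (XT.nd (nat_lit 94) (nat_lit 1176) (nat_lit 0) (XT.lf (nat_lit 0) (nat_lit 4404242312) (nat_lit 1176) (nat_lit 3580606616) (nat_lit 84) (nat_lit 1271927654) (nat_lit 184) (nat_lit 5) (nat_lit 198) (nat_lit 5) (nat_lit 185) (nat_lit 5) (nat_lit 349) (nat_lit 330) (nat_lit 266)) (XT.lf (nat_lit 0) (nat_lit 977295809) (nat_lit 1176) (nat_lit 4953712740) (nat_lit 1260) (nat_lit 3457539194) (nat_lit 170) (nat_lit 5) (nat_lit 184) (nat_lit 5) (nat_lit 185) (nat_lit 5) (nat_lit 350) (nat_lit 330) (nat_lit 265))) (XT.nd (nat_lit 94) (nat_lit 1260) (nat_lit 0) (XT.lf (nat_lit 0) (nat_lit 5716428677) (nat_lit 1176) (nat_lit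 1790105262) (nat_lit 1260) (nat_lit 2017713649) (nat_lit 170) (nat_lit 5) (nat_lit 184) (nat_lit 5) (nat_lit 185) (nat_lit 5) (nat_lit 351) (nat_lit 330) (nat_lit 264)) (XT.lf (nat_lit 0) (nat_lit 908190802) (nat_lit 1260) (nat_lit 8211785797) (nat_lit 1344) (nat_lit 544384646) (nat_lit 155) (nat_lit 5) (nat_lit 170) (nat_lit 5) (nat_lit 171) (nat_lit 5) (nat_lit 352) (nat_lit 330) (nat_lit 263))))))) (XT.nd (nat_lit 1316) (nat_lit 2604) (nat_lit 0) (XT.nd (nat_lit 658) (nat_lit 2100) (nat_lit 0) (XT.nd (nat_lit 282) (nat_lit 1260) (nat_lit 0) (XT.nd (nat_lit 94) (nat_lit 588) (nat_lit 0) (XT.lf (nat_lit 0) (nat_lit 978805675) (nat_lit 1344) (nat_lit 4020787638) (nat_lit 84) (nat_lit 4808123619) (nat_lit 154) (nat_lit 5) (nat_lit 170) (nat_lit 5) (nat_lit 155) (nat_lit 5) (nat_lit 353) (nat_lit 330) (nat_lit 262)) (XT.nd (nat_lit 94) (nat_lit 0) (nat_lit 0) (XT.lf (nat_lit 0) (nat_lit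 838956950) (nat_lit 588) (nat_lit 1674881976) (nat_lit 672) (nat_lit 7442117072) (nat_lit 147) (nat_lit 5) (nat_lit 154) (nat_lit 5) (nat_lit 155) (nat_lit 5) (nat_lit 354) (nat_lit 330) (nat_lit 261)) (XT.lf (nat_lit 0) (nat_lit 4122417361) (nat_lit 672) (nat_lit 4227112199) (nat_lit 84) (nat_lit 1758343257) (nat_lit 147) (nat_lit 5) (nat_lit 155) (nat_lit 5) (nat_lit 148) (nat_lit 5) (nat_lit 355) (nat_lit 330) (nat_lit 260)))) (XT.nd (nat_lit 188) (nat_lit 672) (nat_lit 0) (XT.nd (nat_lit 94) (nat_lit 0) (nat_lit 0) (XT.lf (nat_lit 0) (nat_lit 779572213) (nat_lit 588) (nat_lit 4994313156) (nat_lit 672) (nat_lit 4490676603) (nat_lit 140) (nat_lit 5) (nat_lit 147) (nat_lit 5) (nat_lit 148) (nat_lit 5) (nat_lit 356) (nat_lit 330) (nat_lit 259)) (XT.lf (nat_lit 0) (nat_lit 5994860193) (nat_lit 588) (nat_lit 1493864339) (nat_lit 672) (nat_lit 2936864683) (nat_lit 140) (nat_lit 5) (nat_lit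 147) (nat_lit 5) (nat_lit 148) (nat_lit 5) (nat_lit 357) (nat_lit 330) (nat_lit 258))) (XT.nd (nat_lit 94) (nat_lit 84) (nat_lit 0) (XT.lf (nat_lit 0) (nat_lit 740998328) (nat_lit 588) (nat_lit 8513419239) (nat_lit 672) (nat_lit 1337098154) (nat_lit 133) (nat_lit 5) (nat_lit 140) (nat_lit 5) (nat_lit 141) (nat_lit 5) (nat_lit 358) (nat_lit 330) (nat_lit 257)) (XT.lf (nat_lit 0) (nat_lit 336788537) (nat_lit 672) (nat_lit 4649240563) (nat_lit 84) (nat_lit 5775383451) (nat_lit 132) (nat_lit 5) (nat_lit 140) (nat_lit 5) (nat_lit 133) (nat_lit 5) (nat_lit 359) (nat_lit 330) (nat_lit 256))))) (XT.nd (nat_lit 282) (nat_lit 1008) (nat_lit 0) (XT.nd (nat_lit 94) (nat_lit 504) (nat_lit 0) (XT.lf (nat_lit 0) (nat_lit 680299514) (nat_lit 588) (nat_lit 1333280615) (nat_lit 672) (nat_lit 8923088523) (nat_lit 125) (nat_lit 5) (nat_lit 132) (nat_lit 5) (nat_lit 133) (nat_lit 5) (nat_lit 360) (nat_lit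 330) (nat_lit 255)) (XT.nd (nat_lit 94) (nat_lit 504) (nat_lit 0) (XT.lf (nat_lit 0) (nat_lit 3784971831) (nat_lit 672) (nat_lit 4902924883) (nat_lit 84) (nat_lit 2428001885) (nat_lit 125) (nat_lit 5) (nat_lit 133) (nat_lit 5) (nat_lit 126) (nat_lit 5) (nat_lit 361) (nat_lit 330) (nat_lit 254)) (XT.lf (nat_lit 0) (nat_lit 581732622) (nat_lit 504) (nat_lit 5020870084) (nat_lit 588) (nat_lit 5698153555) (nat_lit 119) (nat_lit 5) (nat_lit 125) (nat_lit 5) (nat_lit 126) (nat_lit 5) (nat_lit 362) (nat_lit 330) (nat_lit 253)))) (XT.nd (nat_lit 188) (nat_lit 504) (nat_lit 0) (XT.nd (nat_lit 94) (nat_lit 504) (nat_lit 0) (XT.lf (nat_lit 0) (nat_lit 6304164037) (nat_lit 504) (nat_lit 1194899317) (nat_lit 588) (nat_lit 3991409740) (nat_lit 119) (nat_lit 5) (nat_lit 125) (nat_lit 5) (nat_lit 126) (nat_lit 5) (nat_lit 363) (nat_lit 330) (nat_lit 252)) (XT.lf (nat_lit 0) (nat_lit 467889475) (nat_lit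 504) (nat_lit 8990926702) (nat_lit 588) (nat_lit 2226914533) (nat_lit 113) (nat_lit 5) (nat_lit 119) (nat_lit 5) (nat_lit 120) (nat_lit 5) (nat_lit 364) (nat_lit 330) (nat_lit 251))) (XT.nd (nat_lit 94) (nat_lit 504) (nat_lit 0) (XT.lf (nat_lit 0) (nat_lit 6358996164) (nat_lit 504) (nat_lit 5158411800) (nat_lit 588) (nat_lit 368276728) (nat_lit 113) (nat_lit 5) (nat_lit 119) (nat_lit 5) (nat_lit 120) (nat_lit 5) (nat_lit 365) (nat_lit 330) (nat_lit 250)) (XT.lf (nat_lit 0) (nat_lit 299492596) (nat_lit 420) (nat_lit 1195727274) (nat_lit 504) (nat_lit 10596631187) (nat_lit 107) (nat_lit 5) (nat_lit 112) (nat_lit 5) (nat_lit 113) (nat_lit 5) (nat_lit 366) (nat_lit 330) (nat_lit 249)))))) (XT.nd (nat_lit 658) (nat_lit 1176) (nat_lit 0) (XT.nd (nat_lit 282) (nat_lit 924) (nat_lit 0) (XT.nd (nat_lit 94) (nat_lit 504) (nat_lit 0) (XT.lf (nat_lit 0) (nat_lit 3468114571) (nat_lit 504) (nat_lit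 5947843681) (nat_lit 84) (nat_lit 2886344544) (nat_lit 107) (nat_lit 5) (nat_lit 113) (nat_lit 5) (nat_lit 108) (nat_lit 5) (nat_lit 367) (nat_lit 330) (nat_lit 248)) (XT.nd (nat_lit 94) (nat_lit 0) (nat_lit 0) (XT.lf (nat_lit 0) (nat_lit 34503984) (nat_lit 504) (nat_lit 5455332090) (nat_lit 588) (nat_lit 7029578381) (nat_lit 101) (nat_lit 5) (nat_lit 107) (nat_lit 5) (nat_lit 108) (nat_lit 5) (nat_lit 368) (nat_lit 330) (nat_lit 247)) (XT.lf (nat_lit 0) (nat_lit 6292168280) (nat_lit 504) (nat_lit 1317977451) (nat_lit 588) (nat_lit 5131790167) (nat_lit 101) (nat_lit 5) (nat_lit 107) (nat_lit 5) (nat_lit 108) (nat_lit 5) (nat_lit 369) (nat_lit 330) (nat_lit 246)))) (XT.nd (nat_lit 188) (nat_lit 504) (nat_lit 0) (XT.nd (nat_lit 94) (nat_lit 420) (nat_lit 0) (XT.lf (nat_lit 0) (nat_lit 9800841848) (nat_lit 588) (nat_lit 287825413) (nat_lit 84) (nat_lit 2882295930) (nat_lit 101) (nat_lit 5)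 (nat_lit 108) (nat_lit 5) (nat_lit 102) (nat_lit 5) (nat_lit 370) (nat_lit 330) (nat_lit 245)) (XT.lf (nat_lit 0) (nat_lit 6140545834) (nat_lit 420) (nat_lit 5967898173) (nat_lit 504) (nat_lit 1096914288) (nat_lit 96) (nat_lit 5) (nat_lit 101) (nat_lit 5) (nat_lit 102) (nat_lit 5) (nat_lit 371) (nat_lit 330) (nat_lit 244))) (XT.nd (nat_lit 94) (nat_lit 420) (nat_lit 0) (XT.lf (nat_lit 0) (nat_lit 1000403156) (nat_lit 504) (nat_lit 714441851) (nat_lit 84) (nat_lit 11732206081) (nat_lit 95) (nat_lit 5) (nat_lit 101) (nat_lit 5) (nat_lit 96) (nat_lit 5) (nat_lit 372) (nat_lit 330) (nat_lit 243)) (XT.lf (nat_lit 0) (nat_lit 3201466688) (nat_lit 504) (nat_lit 7814682561) (nat_lit 84) (nat_lit 2677663182) (nat_lit 90) (nat_lit 5) (nat_lit 96) (nat_lit 5) (nat_lit 91) (nat_lit 5) (nat_lit 373) (nat_lit 330) (nat_lit 242))))) (XT.nd (nat_lit 282) (nat_lit 840) (nat_lit 0) (XT.nd (nat_lit 94) (nat_lit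 336) (nat_lit 0) (XT.lf (nat_lit 0) (nat_lit 5472982635) (nat_lit 504) (nat_lit 1304653852) (nat_lit 84) (nat_lit 7170236428) (nat_lit 90) (nat_lit 5) (nat_lit 96) (nat_lit 5) (nat_lit 91) (nat_lit 5) (nat_lit 374) (nat_lit 330) (nat_lit 241)) (XT.nd (nat_lit 94) (nat_lit 0) (nat_lit 0) (XT.lf (nat_lit 0) (nat_lit 5483407150) (nat_lit 336) (nat_lit 2362680710) (nat_lit 420) (nat_lit 6362492114) (nat_lit 86) (nat_lit 5) (nat_lit 90) (nat_lit 5) (nat_lit 91) (nat_lit 5) (nat_lit 375) (nat_lit 330) (nat_lit 240)) (XT.lf (nat_lit 0) (nat_lit 10305707123) (nat_lit 420) (nat_lit 2020568254) (nat_lit 84) (nat_lit 2150400500) (nat_lit 86) (nat_lit 5) (nat_lit 91) (nat_lit 5) (nat_lit 87) (nat_lit 5) (nat_lit 376) (nat_lit 330) (nat_lit 239)))) (XT.nd (nat_lit 188) (nat_lit 336) (nat_lit 0) (XT.nd (nat_lit 94) (nat_lit 84) (nat_lit 0) (XT.lf (nat_lit 0) (nat_lit 4934203516) (nat_lit 420) (nat_lit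 7957302959) (nat_lit 504) (nat_lit 1859762899) (nat_lit 81) (nat_lit 5) (nat_lit 86) (nat_lit 5) (nat_lit 87) (nat_lit 5) (nat_lit 377) (nat_lit 330) (nat_lit 238)) (XT.lf (nat_lit 0) (nat_lit 512895806) (nat_lit 504) (nat_lit 2923676405) (nat_lit 84) (nat_lit 11597334860) (nat_lit 80) (nat_lit 5) (nat_lit 86) (nat_lit 5) (nat_lit 81) (nat_lit 5) (nat_lit 378) (nat_lit 330) (nat_lit 237))) (XT.nd (nat_lit 94) (nat_lit 0) (nat_lit 0) (XT.lf (nat_lit 0) (nat_lit 2954354749) (nat_lit 420) (nat_lit 11118996035) (nat_lit 84) (nat_lit 1250094933) (nat_lit 76) (nat_lit 5) (nat_lit 81) (nat_lit 5) (nat_lit 77) (nat_lit 5) (nat_lit 379) (nat_lit 330) (nat_lit 236)) (XT.lf (nat_lit 0) (nat_lit 5515348114) (nat_lit 420) (nat_lit 4072334920) (nat_lit 84) (nat_lit 6032622281) (nat_lit 76) (nat_lit 5) (nat_lit 81) (nat_lit 5) (nat_lit 77) (nat_lit 5) (nat_lit 380) (nat_lit 330) (nat_lit 235))))))))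
noncomputable def xc121 : XT := (XT.nd (nat_lit 2538) (nat_lit 1512) (nat_lit 0) (XT.nd (nat_lit 1222) (nat_lit 1512) (nat_lit 0) (XT.nd (nat_lit 564) (nat_lit 924) (nat_lit 0) (XT.nd (nat_lit 282) (nat_lit 420) (nat_lit 0) (XT.nd (nat_lit 94) (nat_lit 336) (nat_lit 0) (XT.lf (nat_lit 0) (nat_lit 3225775066) (nat_lit 336) (nat_lit 4941364993) (nat_lit 420) (nat_lit 7758534404) (nat_lit 72) (nat_lit 5) (nat_lit 76) (nat_lit 5) (nat_lit 77) (nat_lit 5) (nat_lit 381) (nat_lit 330) (nat_lit 234)) (XT.nd (nat_lit 94) (nat_lit 336) (nat_lit 0) (XT.lf (nat_lit 0) (nat_lit 10803634259) (nat_lit 336) (nat_lit 119213105) (nat_lit 420) (nat_lit 5316648638) (nat_lit 72) (nat_lit 5) (nat_lit 76) (nat_lit 5) (nat_lit 77) (nat_lit 5) (nat_lit 382) (nat_lit 330) (nat_lit 233)) (XT.lf (nat_lit 0) (nat_lit 2016378604) (nat_lit 336) (nat_lit 11794500090) (nat_lit 420) (nat_lit 2750385426) (nat_lit 68) (nat_lit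 5) (nat_lit 72) (nat_lit 5) (nat_lit 73) (nat_lit 5) (nat_lit 383) (nat_lit 330) (nat_lit 232)))) (XT.nd (nat_lit 94) (nat_lit 420) (nat_lit 0) (XT.lf (nat_lit 0) (nat_lit 9780165329) (nat_lit 336) (nat_lit 7045379670) (nat_lit 420) (nat_lit 65961352) (nat_lit 68) (nat_lit 5) (nat_lit 72) (nat_lit 5) (nat_lit 73) (nat_lit 5) (nat_lit 384) (nat_lit 330) (nat_lit 231)) (XT.nd (nat_lit 94) (nat_lit 0) (nat_lit 0) (XT.lf (nat_lit 0) (nat_lit 507230829) (nat_lit 336) (nat_lit 2128200664) (nat_lit 420) (nat_lit 14595792620) (nat_lit 63) (nat_lit 5) (nat_lit 67) (nat_lit 5) (nat_lit 68) (nat_lit 5) (nat_lit 385) (nat_lit 330) (nat_lit 230)) (XT.lf (nat_lit 0) (nat_lit 5501707778) (nat_lit 420) (nat_lit 9130577868) (nat_lit 84) (nat_lit 2946292265) (nat_lit 63) (nat_lit 5) (nat_lit 68) (nat_lit 5) (nat_lit 64) (nat_lit 5) (nat_lit 386) (nat_lit 330) (nat_lit 229))))) (XT.nd (nat_lit 282) (nat_lit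 672) (nat_lit 0) (XT.nd (nat_lit 94) (nat_lit 252) (nat_lit 0) (XT.lf (nat_lit 0) (nat_lit 8459915916) (nat_lit 420) (nat_lit 1351929031) (nat_lit 84) (nat_lit 8124347629) (nat_lit 63) (nat_lit 5) (nat_lit 68) (nat_lit 5) (nat_lit 64) (nat_lit 5) (nat_lit 387) (nat_lit 330) (nat_lit 228)) (XT.nd (nat_lit 94) (nat_lit 0) (nat_lit 0) (XT.lf (nat_lit 0) (nat_lit 6771340919) (nat_lit 252) (nat_lit 4785932537) (nat_lit 336) (nat_lit 6745768152) (nat_lit 60) (nat_lit 5) (nat_lit 63) (nat_lit 5) (nat_lit 64) (nat_lit 5) (nat_lit 388) (nat_lit 330) (nat_lit 227)) (XT.lf (nat_lit 0) (nat_lit 14750577236) (nat_lit 336) (nat_lit 3539414260) (nat_lit 84) (nat_lit 390831345) (nat_lit 60) (nat_lit 5) (nat_lit 64) (nat_lit 5) (nat_lit 61) (nat_lit 5) (nat_lit 389) (nat_lit 330) (nat_lit 226)))) (XT.nd (nat_lit 188) (nat_lit 252) (nat_lit 0) (XT.nd (nat_lit 94) (nat_lit 84) (nat_lit 0) (XT.lf (nat_lit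 0) (nat_lit 4716852908) (nat_lit 336) (nat_lit 13401459130) (nat_lit 420) (nat_lit 949283500) (nat_lit 56) (nat_lit 5) (nat_lit 60) (nat_lit 5) (nat_lit 61) (nat_lit 5) (nat_lit 390) (nat_lit 330) (nat_lit 225)) (XT.lf (nat_lit 0) (nat_lit 2101779539) (nat_lit 420) (nat_lit 6212819840) (nat_lit 84) (nat_lit 11150114492) (nat_lit 55) (nat_lit 5) (nat_lit 60) (nat_lit 5) (nat_lit 56) (nat_lit 5) (nat_lit 391) (nat_lit 330) (nat_lit 224))) (XT.nd (nat_lit 94) (nat_lit 0) (nat_lit 0) (XT.lf (nat_lit 0) (nat_lit 2182488231) (nat_lit 252) (nat_lit 3050162209) (nat_lit 336) (nat_lit 14640608225) (nat_lit 52) (nat_lit 5) (nat_lit 55) (nat_lit 5) (nat_lit 56) (nat_lit 5) (nat_lit 392) (nat_lit 330) (nat_lit 223)) (XT.lf (nat_lit 0) (nat_lit 8530131414) (nat_lit 336) (nat_lit 9378692705) (nat_lit 84) (nat_lit 2383070256) (nat_lit 52) (nat_lit 5) (nat_lit 56) (nat_lit 5) (nat_lit 53) (nat_lit 5)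 (nat_lit 393) (nat_lit 330) (nat_lit 222)))))) (XT.nd (nat_lit 658) (nat_lit 672) (nat_lit 0) (XT.nd (nat_lit 282) (nat_lit 588) (nat_lit 0) (XT.nd (nat_lit 94) (nat_lit 252) (nat_lit 0) (XT.lf (nat_lit 0) (nat_lit 11943651364) (nat_lit 336) (nat_lit 866969754) (nat_lit 84) (nat_lit 7911969254) (nat_lit 52) (nat_lit 5) (nat_lit 56) (nat_lit 5) (nat_lit 53) (nat_lit 5) (nat_lit 394) (nat_lit 330) (nat_lit 221)) (XT.nd (nat_lit 94) (nat_lit 0) (nat_lit 0) (XT.lf (nat_lit 0) (nat_lit 8038006328) (nat_lit 252) (nat_lit 7486132860) (nat_lit 336) (nat_lit 5640145420) (nat_lit 49) (nat_lit 5) (nat_lit 52) (nat_lit 5) (nat_lit 53) (nat_lit 5) (nat_lit 395) (nat_lit 330) (nat_lit 220)) (XT.lf (nat_lit 0) (nat_lit 17209140485) (nat_lit 252) (nat_lit 1999141551) (nat_lit 336) (nat_lit 2411074232) (nat_lit 49) (nat_lit 5) (nat_lit 52) (nat_lit 5) (nat_lit 53) (nat_lit 5) (nat_lit 396) (nat_lit 330)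 (nat_lit 219)))) (XT.nd (nat_lit 188) (nat_lit 252) (nat_lit 0) (XT.nd (nat_lit 94) (nat_lit 0) (nat_lit 0) (XT.lf (nat_lit 0) (nat_lit 964821772) (nat_lit 336) (nat_lit 17492024199) (nat_lit 84) (nat_lit 3628949145) (nat_lit 45) (nat_lit 5) (nat_lit 49) (nat_lit 5) (nat_lit 46) (nat_lit 5) (nat_lit 397) (nat_lit 330) (nat_lit 218)) (XT.lf (nat_lit 0) (nat_lit 4446142549) (nat_lit 336) (nat_lit 8669324468) (nat_lit 84) (nat_lit 9448478348) (nat_lit 45) (nat_lit 5) (nat_lit 49) (nat_lit 5) (nat_lit 46) (nat_lit 5) (nat_lit 398) (nat_lit 330) (nat_lit 217))) (XT.nd (nat_lit 94) (nat_lit 0) (nat_lit 0) (XT.lf (nat_lit 0) (nat_lit 407949582) (nat_lit 252) (nat_lit 7616068177) (nat_lit 336) (nat_lit 15032671190) (nat_lit 42) (nat_lit 5) (nat_lit 45) (nat_lit 5) (nat_lit 46) (nat_lit 5) (nat_lit 399) (nat_lit 330) (nat_lit 216)) (XT.lf (nat_lit 0) (nat_lit 9917364397) (nat_lit 252) (nat_lit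 1867773266) (nat_lit 336) (nat_lit 11776811837) (nat_lit 42) (nat_lit 5) (nat_lit 45) (nat_lit 5) (nat_lit 46) (nat_lit 5) (nat_lit 400) (nat_lit 330) (nat_lit 215))))) (XT.nd (nat_lit 282) (nat_lit 504) (nat_lit 0) (XT.nd (nat_lit 94) (nat_lit 168) (nat_lit 0) (XT.lf (nat_lit 0) (nat_lit 15686696555) (nat_lit 336) (nat_lit 4426926943) (nat_lit 84) (nat_lit 3967927774) (nat_lit 42) (nat_lit 5) (nat_lit 46) (nat_lit 5) (nat_lit 43) (nat_lit 5) (nat_lit 401) (nat_lit 330) (nat_lit 214)) (XT.nd (nat_lit 94) (nat_lit 0) (nat_lit 0) (XT.lf (nat_lit 0) (nat_lit 5131760589) (nat_lit 168) (nat_lit 14630340514) (nat_lit 252) (nat_lit 4852947259) (nat_lit 40) (nat_lit 5) (nat_lit 42) (nat_lit 5) (nat_lit 43) (nat_lit 5) (nat_lit 402) (nat_lit 330) (nat_lit 213)) (XT.lf (nat_lit 0) (nat_lit 15050977816) (nat_lit 168) (nat_lit 8942627582) (nat_lit 252) (nat_lit 1169940740) (nat_lit 40) (nat_lit 5)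 (nat_lit 42) (nat_lit 5) (nat_lit 43) (nat_lit 5) (nat_lit 403) (nat_lit 330) (nat_lit 212)))) (XT.nd (nat_lit 188) (nat_lit 168) (nat_lit 0) (XT.nd (nat_lit 94) (nat_lit 252) (nat_lit 0) (XT.lf (nat_lit 0) (nat_lit 2561696925) (nat_lit 252) (nat_lit 502653098) (nat_lit 84) (nat_lit 22663722445) (nat_lit 39) (nat_lit 5) (nat_lit 42) (nat_lit 5) (nat_lit 40) (nat_lit 5) (nat_lit 404) (nat_lit 330) (nat_lit 211)) (XT.lf (nat_lit 0) (nat_lit 6492968369) (nat_lit 336) (nat_lit 16782271670) (nat_lit 84) (nat_lit 3030621040) (nat_lit 36) (nat_lit 5) (nat_lit 40) (nat_lit 5) (nat_lit 37) (nat_lit 5) (nat_lit 405) (nat_lit 330) (nat_lit 210))) (XT.nd (nat_lit 94) (nat_lit 168) (nat_lit 0) (XT.lf (nat_lit 0) (nat_lit 10567381591) (nat_lit 336) (nat_lit 7086618901) (nat_lit 84) (nat_lit 9246236434) (nat_lit 36) (nat_lit 5) (nat_lit 40) (nat_lit 5) (nat_lit 37) (nat_lit 5) (nat_lit 406) (nat_lit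 330) (nat_lit 209)) (XT.lf (nat_lit 0) (nat_lit 2941456659) (nat_lit 168) (nat_lit 11840882010) (nat_lit 252) (nat_lit 12729565441) (nat_lit 34) (nat_lit 5) (nat_lit 36) (nat_lit 5) (nat_lit 37) (nat_lit 5) (nat_lit 407) (nat_lit 330) (nat_lit 208))))))) (XT.nd (nat_lit 1316) (nat_lit 672) (nat_lit 0) (XT.nd (nat_lit 658) (nat_lit 420) (nat_lit 0) (XT.nd (nat_lit 282) (nat_lit 252) (nat_lit 0) (XT.nd (nat_lit 94) (nat_lit 168) (nat_lit 0) (XT.lf (nat_lit 0) (nat_lit 13399953368) (nat_lit 168) (nat_lit 5785527808) (nat_lit 252) (nat_lit 8954597162) (nat_lit 34) (nat_lit 5) (nat_lit 36) (nat_lit 5) (nat_lit 37) (nat_lit 5) (nat_lit 408) (nat_lit 330) (nat_lit 207)) (XT.nd (nat_lit 94) (nat_lit 168) (nat_lit 0) (XT.lf (nat_lit 0) (nat_lit 23715465091) (nat_lit 252) (nat_lit 4634705924) (nat_lit 84) (nat_lit 437093229) (nat_lit 34) (nat_lit 5) (nat_lit 37) (nat_lit 5) (nat_lit 35) (nat_lit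 5) (nat_lit 409) (nat_lit 330) (nat_lit 206)) (XT.lf (nat_lit 0) (nat_lit 5815043212) (nat_lit 168) (nat_lit 22670172082) (nat_lit 252) (nat_lit 965543039) (nat_lit 32) (nat_lit 5) (nat_lit 34) (nat_lit 5) (nat_lit 35) (nat_lit 5) (nat_lit 410) (nat_lit 330) (nat_lit 205)))) (XT.nd (nat_lit 188) (nat_lit 168) (nat_lit 0) (XT.nd (nat_lit 94) (nat_lit 0) (nat_lit 0) (XT.lf (nat_lit 0) (nat_lit 3238190828) (nat_lit 252) (nat_lit 13506367513) (nat_lit 84) (nat_lit 13387526358) (nat_lit 31) (nat_lit 5) (nat_lit 34) (nat_lit 5) (nat_lit 32) (nat_lit 5) (nat_lit 411) (nat_lit 330) (nat_lit 204)) (XT.lf (nat_lit 0) (nat_lit 7539616375) (nat_lit 252) (nat_lit 3097328508) (nat_lit 84) (nat_lit 20196897473) (nat_lit 31) (nat_lit 5) (nat_lit 34) (nat_lit 5) (nat_lit 32) (nat_lit 5) (nat_lit 412) (nat_lit 330) (nat_lit 203))) (XT.nd (nat_lit 94) (nat_lit 0) (nat_lit 0) (XT.lf (nat_lit 0) (nat_lit 7761228075)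 (nat_lit 168) (nat_lit 4274710947) (nat_lit 252) (nat_lit 19518745737) (nat_lit 29) (nat_lit 5) (nat_lit 31) (nat_lit 5) (nat_lit 32) (nat_lit 5) (nat_lit 413) (nat_lit 330) (nat_lit 202)) (XT.lf (nat_lit 0) (nat_lit 16711955393) (nat_lit 252) (nat_lit 13323669537) (nat_lit 84) (nat_lit 2260190807) (nat_lit 29) (nat_lit 5) (nat_lit 32) (nat_lit 5) (nat_lit 30) (nat_lit 5) (nat_lit 414) (nat_lit 330) (nat_lit 201))))) (XT.nd (nat_lit 282) (nat_lit 252) (nat_lit 0) (XT.nd (nat_lit 94) (nat_lit 168) (nat_lit 0) (XT.lf (nat_lit 0) (nat_lit 21562145200) (nat_lit 252) (nat_lit 2595974796) (nat_lit 84) (nat_lit 8900051068) (nat_lit 29) (nat_lit 5) (nat_lit 32) (nat_lit 5) (nat_lit 30) (nat_lit 5) (nat_lit 415) (nat_lit 330) (nat_lit 200)) (XT.nd (nat_lit 94) (nat_lit 0) (nat_lit 0) (XT.lf (nat_lit 0) (nat_lit 8608066776) (nat_lit 168) (nat_lit 18024334564) (nat_lit 252) (nat_lit 7208765889) (nat_lit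 27) (nat_lit 5) (nat_lit 29) (nat_lit 5) (nat_lit 30) (nat_lit 5) (nat_lit 416) (nat_lit 330) (nat_lit 199)) (XT.lf (nat_lit 0) (nat_lit 20188118082) (nat_lit 168) (nat_lit 11684786281) (nat_lit 252) (nat_lit 2774211535) (nat_lit 27) (nat_lit 5) (nat_lit 29) (nat_lit 5) (nat_lit 30) (nat_lit 5) (nat_lit 417) (nat_lit 330) (nat_lit 198)))) (XT.nd (nat_lit 188) (nat_lit 0) (nat_lit 0) (XT.nd (nat_lit 94) (nat_lit 168) (nat_lit 0) (XT.lf (nat_lit 0) (nat_lit 1750460205) (nat_lit 252) (nat_lit 3392013570) (nat_lit 84) (nat_lit 30334496202) (nat_lit 26) (nat_lit 5) (nat_lit 29) (nat_lit 5) (nat_lit 27) (nat_lit 5) (nat_lit 418) (nat_lit 330) (nat_lit 197)) (XT.lf (nat_lit 0) (nat_lit 6441865559) (nat_lit 252) (nat_lit 28219782457) (nat_lit 84) (nat_lit 1666651287) (nat_lit 24) (nat_lit 5) (nat_lit 27) (nat_lit 5) (nat_lit 25) (nat_lit 5) (nat_lit 419) (nat_lit 330) (nat_lit 196))) (XT.nd (nat_lit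 94) (nat_lit 0) (nat_lit 0) (XT.lf (nat_lit 0) (nat_lit 11351882191) (nat_lit 252) (nat_lit 17244581211) (nat_lit 84) (nat_lit 8606375068) (nat_lit 24) (nat_lit 5) (nat_lit 27) (nat_lit 5) (nat_lit 25) (nat_lit 5) (nat_lit 420) (nat_lit 330) (nat_lit 195)) (XT.lf (nat_lit 0) (nat_lit 16401783511) (nat_lit 252) (nat_lit 5952533340) (nat_lit 84) (nat_lit 15749525298) (nat_lit 24) (nat_lit 5) (nat_lit 27) (nat_lit 5) (nat_lit 25) (nat_lit 5) (nat_lit 421) (nat_lit 330) (nat_lit 194)))))) (XT.nd (nat_lit 658) (nat_lit 336) (nat_lit 0) (XT.nd (nat_lit 282) (nat_lit 168) (nat_lit 0) (XT.nd (nat_lit 94) (nat_lit 0) (nat_lit 0) (XT.lf (nat_lit 0) (nat_lit 5778997041) (nat_lit 168) (nat_lit 15872536268) (nat_lit 252) (nat_lit 17378897776) (nat_lit 22) (nat_lit 5) (nat_lit 24) (nat_lit 5) (nat_lit 25) (nat_lit 5) (nat_lit 422) (nat_lit 330) (nat_lit 193)) (XT.nd (nat_lit 94) (nat_lit 0) (nat_lit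 0) (XT.lf (nat_lit 0) (nat_lit 17972564576) (nat_lit 168) (nat_lit 9139215150) (nat_lit 252) (nat_lit 12871453362) (nat_lit 22) (nat_lit 5) (nat_lit 24) (nat_lit 5) (nat_lit 25) (nat_lit 5) (nat_lit 423) (nat_lit 330) (nat_lit 192)) (XT.lf (nat_lit 0) (nat_lit 30520356753) (nat_lit 168) (nat_lit 2208578927) (nat_lit 252) (nat_lit 8235895770) (nat_lit 22) (nat_lit 5) (nat_lit 24) (nat_lit 5) (nat_lit 25) (nat_lit 5) (nat_lit 424) (nat_lit 330) (nat_lit 191)))) (XT.nd (nat_lit 188) (nat_lit 0) (nat_lit 0) (XT.nd (nat_lit 94) (nat_lit 84) (nat_lit 0) (XT.lf (nat_lit 0) (nat_lit 1437967476) (nat_lit 84) (nat_lit 37131110745) (nat_lit 168) (nat_lit 3405170594) (nat_lit 21) (nat_lit 5) (nat_lit 22) (nat_lit 5) (nat_lit 23) (nat_lit 4) (nat_lit 425) (nat_lit 330) (nat_lit 190)) (XT.lf (nat_lit 0) (nat_lit 1661487022) (nat_lit 168) (nat_lit 29169242289) (nat_lit 84) (nat_lit 12179121715) (nat_lit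 20) (nat_lit 5) (nat_lit 22) (nat_lit 5) (nat_lit 21) (nat_lit 5) (nat_lit 426) (nat_lit 330) (nat_lit 189))) (XT.nd (nat_lit 94) (nat_lit 0) (nat_lit 0) (XT.lf (nat_lit 0) (nat_lit 6805175905) (nat_lit 168) (nat_lit 17506007904) (nat_lit 84) (nat_lit 19764526660) (nat_lit 20) (nat_lit 5) (nat_lit 22) (nat_lit 5) (nat_lit 21) (nat_lit 5) (nat_lit 427) (nat_lit 330) (nat_lit 188)) (XT.lf (nat_lit 0) (nat_lit 12096837682) (nat_lit 168) (nat_lit 5503654428) (nat_lit 84) (nat_lit 27573248346) (nat_lit 20) (nat_lit 5) (nat_lit 22) (nat_lit 5) (nat_lit 21) (nat_lit 5) (nat_lit 428) (nat_lit 330) (nat_lit 187))))) (XT.nd (nat_lit 282) (nat_lit 168) (nat_lit 0) (XT.nd (nat_lit 94) (nat_lit 0) (nat_lit 0) (XT.lf (nat_lit 0) (nat_lit 6984600343) (nat_lit 168) (nat_lit 10623636044) (nat_lit 252) (nat_lit 28694649835) (nat_lit 18) (nat_lit 5) (nat_lit 20) (nat_lit 5) (nat_lit 21) (nat_lit 5) (nat_lit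 429) (nat_lit 330) (nat_lit 186)) (XT.nd (nat_lit 94) (nat_lit 0) (nat_lit 0) (XT.lf (nat_lit 0) (nat_lit 19949960848) (nat_lit 168) (nat_lit 3384518765) (nat_lit 252) (nat_lit 24129946031) (nat_lit 18) (nat_lit 5) (nat_lit 20) (nat_lit 5) (nat_lit 21) (nat_lit 5) (nat_lit 430) (nat_lit 330) (nat_lit 185)) (XT.lf (nat_lit 0) (nat_lit 29265713824) (nat_lit 252) (nat_lit 15405870204) (nat_lit 84) (nat_lit 3988235345) (nat_lit 18) (nat_lit 5) (nat_lit 21) (nat_lit 5) (nat_lit 19) (nat_lit 4) (nat_lit 431) (nat_lit 330) (nat_lit 184)))) (XT.nd (nat_lit 188) (nat_lit 84) (nat_lit 0) (XT.nd (nat_lit 94) (nat_lit 84) (nat_lit 0) (XT.lf (nat_lit 0) (nat_lit 35402631384) (nat_lit 252) (nat_lit 2977431508) (nat_lit 84) (nat_lit 11510183742) (nat_lit 18) (nat_lit 5) (nat_lit 21) (nat_lit 5) (nat_lit 19) (nat_lit 4) (nat_lit 432) (nat_lit 330) (nat_lit 183)) (XT.lf (nat_lit 0) (nat_lit 10009567878)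 (nat_lit 84) (nat_lit 31804710796) (nat_lit 168) (nat_lit 9340593364) (nat_lit 17) (nat_lit 5) (nat_lit 18) (nat_lit 5) (nat_lit 19) (nat_lit 4) (nat_lit 433) (nat_lit 330) (nat_lit 182))) (XT.nd (nat_lit 94) (nat_lit 84) (nat_lit 0) (XT.lf (nat_lit 0) (nat_lit 23437690747) (nat_lit 84) (nat_lit 25005126436) (nat_lit 168) (nat_lit 4013886641) (nat_lit 17) (nat_lit 5) (nat_lit 18) (nat_lit 5) (nat_lit 19) (nat_lit 4) (nat_lit 434) (nat_lit 330) (nat_lit 181)) (XT.lf (nat_lit 0) (nat_lit 1438464829) (nat_lit 168) (nat_lit 16552444144) (nat_lit 84) (nat_lit 35806423180) (nat_lit 16) (nat_lit 5) (nat_lit 18) (nat_lit 5) (nat_lit 17) (nat_lit 5) (nat_lit 435) (nat_lit 330) (nat_lit 180))))))))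
noncomputable def xc122 : XT := (XT.nd (nat_lit 50948) (nat_lit 0) (nat_lit 6636) (XT.nd (nat_lit 49632) (nat_lit 0) (nat_lit 15540) (XT.nd (nat_lit 564) (nat_lit 168) (nat_lit 0) (XT.nd (nat_lit 282) (nat_lit 84) (nat_lit 0) (XT.nd (nat_lit 94) (nat_lit 168) (nat_lit 0) (XT.lf (nat_lit 0) (nat_lit 6968449263) (nat_lit 168) (nat_lit 3760702258) (nat_lit 84) (nat_lit 44447996987) (nat_lit 16) (nat_lit 5) (nat_lit 18) (nat_lit 5) (nat_lit 17) (nat_lit 5) (nat_lit 436) (nat_lit 330) (nat_lit 179)) (XT.nd (nat_lit 94) (nat_lit 0) (nat_lit 0) (XT.lf (nat_lit 0) (nat_lit 9593171083) (nat_lit 168) (nat_lit 3158268415) (nat_lit 252) (nat_lit 43844310109) (nat_lit 14) (nat_lit 5) (nat_lit 16) (nat_lit 5) (nat_lit 17) (nat_lit 5) (nat_lit 437) (nat_lit 330) (nat_lit 178)) (XT.lf (nat_lit 0) (nat_lit 18785791460) (nat_lit 252) (nat_lit 34684845056) (nat_lit 84) (nat_lit 4583939406) (nat_lit 14) (nat_lit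 5) (nat_lit 17) (nat_lit 5) (nat_lit 15) (nat_lit 4) (nat_lit 438) (nat_lit 330) (nat_lit 177)))) (XT.nd (nat_lit 94) (nat_lit 84) (nat_lit 0) (XT.lf (nat_lit 0) (nat_lit 25027512189) (nat_lit 252) (nat_lit 22037442668) (nat_lit 84) (nat_lit 12491425267) (nat_lit 14) (nat_lit 5) (nat_lit 17) (nat_lit 5) (nat_lit 15) (nat_lit 4) (nat_lit 439) (nat_lit 330) (nat_lit 176)) (XT.nd (nat_lit 94) (nat_lit 84) (nat_lit 0) (XT.lf (nat_lit 0) (nat_lit 31451696409) (nat_lit 252) (nat_lit 9018961025) (nat_lit 84) (nat_lit 20632727814) (nat_lit 14) (nat_lit 5) (nat_lit 17) (nat_lit 5) (nat_lit 15) (nat_lit 4) (nat_lit 440) (nat_lit 330) (nat_lit 175)) (XT.lf (nat_lit 0) (nat_lit 4469185144) (nat_lit 84) (nat_lit 33637732880) (nat_lit 168) (nat_lit 24588736202) (nat_lit 13) (nat_lit 5) (nat_lit 14) (nat_lit 5) (nat_lit 15) (nat_lit 4) (nat_lit 441) (nat_lit 330) (nat_lit 174))))) (XT.nd (nat_lit 282)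 (nat_lit 168) (nat_lit 0) (XT.nd (nat_lit 94) (nat_lit 0) (nat_lit 0) (XT.lf (nat_lit 0) (nat_lit 18538835147) (nat_lit 84) (nat_lit 26509444595) (nat_lit 168) (nat_lit 19284820000) (nat_lit 13) (nat_lit 5) (nat_lit 14) (nat_lit 5) (nat_lit 15) (nat_lit 4) (nat_lit 442) (nat_lit 330) (nat_lit 173)) (XT.nd (nat_lit 94) (nat_lit 0) (nat_lit 0) (XT.lf (nat_lit 0) (nat_lit 33022787842) (nat_lit 84) (nat_lit 19170637798) (nat_lit 168) (nat_lit 13826379565) (nat_lit 13) (nat_lit 5) (nat_lit 14) (nat_lit 5) (nat_lit 15) (nat_lit 4) (nat_lit 443) (nat_lit 330) (nat_lit 172)) (XT.lf (nat_lit 0) (nat_lit 47933699110) (nat_lit 84) (nat_lit 11614899940) (nat_lit 168) (nat_lit 8208645386) (nat_lit 13) (nat_lit 5) (nat_lit 14) (nat_lit 5) (nat_lit 15) (nat_lit 4) (nat_lit 444) (nat_lit 330) (nat_lit 171)))) (XT.nd (nat_lit 48598) (nat_lit 0) (nat_lit 18228) (XT.nd (nat_lit 94) (nat_lit 168) (nat_lit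 0) (XT.lf (nat_lit 0) (nat_lit 63284597904) (nat_lit 84) (nat_lit 3835628921) (nat_lit 168) (nat_lit 2426708764) (nat_lit 13) (nat_lit 5) (nat_lit 14) (nat_lit 5) (nat_lit 15) (nat_lit 4) (nat_lit 445) (nat_lit 330) (nat_lit 170)) (XT.lf (nat_lit 0) (nat_lit 3572052238) (nat_lit 168) (nat_lit 63611258243) (nat_lit 84) (nat_lit 4202625250) (nat_lit 11) (nat_lit 5) (nat_lit 13) (nat_lit 5) (nat_lit 12) (nat_lit 4) (nat_lit 446) (nat_lit 330) (nat_lit 169))) (XT.nd (nat_lit 94) (nat_lit 0) (nat_lit 0) (XT.lf (nat_lit 0) (nat_lit 2485206127) (nat_lit 924) (nat_lit 648217110) (nat_lit 924) (nat_lit 648217110) (nat_lit 228) (nat_lit 3) (nat_lit 239) (nat_lit 3) (nat_lit 239) (nat_lit 5) (nat_lit 331) (nat_lit 331) (nat_lit 283)) (XT.lf (nat_lit 84) (nat_lit 2071865521) (nat_lit 0) (nat_lit 4285091229) (nat_lit 924) (nat_lit 1277440875) (nat_lit 229) (nat_lit 5) (nat_lit 228) (nat_lit 3) (nat_lit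 239) (nat_lit 5) (nat_lit 332) (nat_lit 331) (nat_lit 282)))))) (XT.nd (nat_lit 658) (nat_lit 1764) (nat_lit 0) (XT.nd (nat_lit 282) (nat_lit 0) (nat_lit 84) (XT.nd (nat_lit 94) (nat_lit 0) (nat_lit 0) (XT.lf (nat_lit 0) (nat_lit 37862578) (nat_lit 924) (nat_lit 2168018460) (nat_lit 1008) (nat_lit 5502999594) (nat_lit 217) (nat_lit 5) (nat_lit 228) (nat_lit 3) (nat_lit 229) (nat_lit 5) (nat_lit 333) (nat_lit 331) (nat_lit 281)) (XT.nd (nat_lit 94) (nat_lit 0) (nat_lit 84) (XT.lf (nat_lit 84) (nat_lit 1314459775) (nat_lit 0) (nat_lit 15322852) (nat_lit 1008) (nat_lit 6456660434) (nat_lit 218) (nat_lit 5) (nat_lit 217) (nat_lit 5) (nat_lit 229) (nat_lit 5) (nat_lit 334) (nat_lit 331) (nat_lit 280)) (XT.lf (nat_lit 0) (nat_lit 2655714812) (nat_lit 924) (nat_lit 2969964274) (nat_lit 1008) (nat_lit 2240901809) (nat_lit 218) (nat_lit 5) (nat_lit 229) (nat_lit 5) (nat_lit 230) (nat_lit 5) (nat_lit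 335) (nat_lit 331) (nat_lit 279)))) (XT.nd (nat_lit 188) (nat_lit 0) (nat_lit 84) (XT.nd (nat_lit 94) (nat_lit 0) (nat_lit 0) (XT.lf (nat_lit 84) (nat_lit 621533564) (nat_lit 0) (nat_lit 3359030911) (nat_lit 1008) (nat_lit 3969887282) (nat_lit 219) (nat_lit 5) (nat_lit 218) (nat_lit 5) (nat_lit 230) (nat_lit 5) (nat_lit 336) (nat_lit 331) (nat_lit 278)) (XT.lf (nat_lit 84) (nat_lit 4354369484) (nat_lit 0) (nat_lit 974900434) (nat_lit 1008) (nat_lit 2708145591) (nat_lit 219) (nat_lit 5) (nat_lit 218) (nat_lit 5) (nat_lit 230) (nat_lit 5) (nat_lit 337) (nat_lit 331) (nat_lit 277))) (XT.nd (nat_lit 94) (nat_lit 0) (nat_lit 0) (XT.lf (nat_lit 84) (nat_lit 30462417) (nat_lit 0) (nat_lit 6658130160) (nat_lit 1008) (nat_lit 1439388074) (nat_lit 220) (nat_lit 5) (nat_lit 219) (nat_lit 5) (nat_lit 231) (nat_lit 5) (nat_lit 338) (nat_lit 331) (nat_lit 276)) (XT.lf (nat_lit 84) (nat_lit 3893205450)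 (nat_lit 0) (nat_lit 4198893054) (nat_lit 1008) (nat_lit 129156466) (nat_lit 220) (nat_lit 5) (nat_lit 219) (nat_lit 5) (nat_lit 231) (nat_lit 5) (nat_lit 339) (nat_lit 331) (nat_lit 275))))) (XT.nd (nat_lit 282) (nat_lit 924) (nat_lit 0) (XT.nd (nat_lit 94) (nat_lit 0) (nat_lit 84) (XT.lf (nat_lit 0) (nat_lit 1153978272) (nat_lit 1008) (nat_lit 485178820) (nat_lit 1092) (nat_lit 6679185103) (nat_lit 207) (nat_lit 5) (nat_lit 219) (nat_lit 5) (nat_lit 220) (nat_lit 5) (nat_lit 340) (nat_lit 331) (nat_lit 274)) (XT.nd (nat_lit 94) (nat_lit 0) (nat_lit 0) (XT.lf (nat_lit 0) (nat_lit 2475503046) (nat_lit 1008) (nat_lit 4915572486) (nat_lit 1092) (nat_lit 1027239709) (nat_lit 208) (nat_lit 5) (nat_lit 220) (nat_lit 5) (nat_lit 221) (nat_lit 5) (nat_lit 341) (nat_lit 331) (nat_lit 273)) (XT.lf (nat_lit 0) (nat_lit 3817577548) (nat_lit 1008) (nat_lit 945467463) (nat_lit 1092) (nat_lit 3758899157)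 (nat_lit 208) (nat_lit 5) (nat_lit 220) (nat_lit 5) (nat_lit 221) (nat_lit 5) (nat_lit 342) (nat_lit 331) (nat_lit 272)))) (XT.nd (nat_lit 188) (nat_lit 1008) (nat_lit 0) (XT.nd (nat_lit 94) (nat_lit 0) (nat_lit 84) (XT.lf (nat_lit 84) (nat_lit 3178287885) (nat_lit 0) (nat_lit 2013077894) (nat_lit 1092) (nat_lit 3437654009) (nat_lit 209) (nat_lit 5) (nat_lit 208) (nat_lit 5) (nat_lit 221) (nat_lit 5) (nat_lit 343) (nat_lit 331) (nat_lit 271)) (XT.lf (nat_lit 0) (nat_lit 6585769134) (nat_lit 1008) (nat_lit 1330390133) (nat_lit 1092) (nat_lit 823845365) (nat_lit 209) (nat_lit 5) (nat_lit 221) (nat_lit 5) (nat_lit 222) (nat_lit 5) (nat_lit 344) (nat_lit 331) (nat_lit 270))) (XT.nd (nat_lit 94) (nat_lit 1092) (nat_lit 0) (XT.lf (nat_lit 84) (nat_lit 2922964161) (nat_lit 0) (nat_lit 5110062530) (nat_lit 1092) (nat_lit 821038367) (nat_lit 210) (nat_lit 5) (nat_lit 209) (nat_lit 5) (nat_lit 222)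 (nat_lit 5) (nat_lit 345) (nat_lit 331) (nat_lit 269)) (XT.lf (nat_lit 0) (nat_lit 518323632) (nat_lit 1092) (nat_lit 1673627549) (nat_lit 1176) (nat_lit 6780200876) (nat_lit 196) (nat_lit 5) (nat_lit 209) (nat_lit 5) (nat_lit 210) (nat_lit 5) (nat_lit 346) (nat_lit 331) (nat_lit 268))))))) (XT.nd (nat_lit 1316) (nat_lit 3528) (nat_lit 0) (XT.nd (nat_lit 658) (nat_lit 1848) (nat_lit 0) (XT.nd (nat_lit 282) (nat_lit 2520) (nat_lit 0) (XT.nd (nat_lit 94) (nat_lit 1092) (nat_lit 0) (XT.lf (nat_lit 0) (nat_lit 1880283234) (nat_lit 1092) (nat_lit 6372839918) (nat_lit 84) (nat_lit 840517268) (nat_lit 197) (nat_lit 5) (nat_lit 210) (nat_lit 5) (nat_lit 198) (nat_lit 5) (nat_lit 347) (nat_lit 331) (nat_lit 267)) (XT.nd (nat_lit 94) (nat_lit 1092) (nat_lit 0) (XT.lf (nat_lit 0) (nat_lit 3287162825) (nat_lit 1092) (nat_lit 1987094511) (nat_lit 84) (nat_lit 3944462408) (nat_lit 197) (nat_lit 5) (nat_lit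 210) (nat_lit 5) (nat_lit 198) (nat_lit 5) (nat_lit 348) (nat_lit 331) (nat_lit 266)) (XT.lf (nat_lit 0) (nat_lit 2552529990) (nat_lit 1092) (nat_lit 2174557260) (nat_lit 1176) (nat_lit 4620805204) (nat_lit 184) (nat_lit 5) (nat_lit 197) (nat_lit 5) (nat_lit 198) (nat_lit 5) (nat_lit 349) (nat_lit 331) (nat_lit 265)))) (XT.nd (nat_lit 188) (nat_lit 1344) (nat_lit 0) (XT.nd (nat_lit 94) (nat_lit 1176) (nat_lit 0) (XT.lf (nat_lit 0) (nat_lit 6207337681) (nat_lit 1176) (nat_lit 2249588758) (nat_lit 84) (nat_lit 1024164293) (nat_lit 184) (nat_lit 5) (nat_lit 198) (nat_lit 5) (nat_lit 185) (nat_lit 5) (nat_lit 350) (nat_lit 331) (nat_lit 264)) (XT.lf (nat_lit 0) (nat_lit 2430948426) (nat_lit 1176) (nat_lit 5313981073) (nat_lit 1260) (nat_lit 1873029806) (nat_lit 170) (nat_lit 5) (nat_lit 184) (nat_lit 5) (nat_lit 185) (nat_lit 5) (nat_lit 351) (nat_lit 331) (nat_lit 263))) (XT.nd (nat_lit 94)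 (nat_lit 1344) (nat_lit 0) (XT.lf (nat_lit 0) (nat_lit 7270769831) (nat_lit 1176) (nat_lit 2049300605) (nat_lit 1260) (nat_lit 439181404) (nat_lit 170) (nat_lit 5) (nat_lit 184) (nat_lit 5) (nat_lit 185) (nat_lit 5) (nat_lit 352) (nat_lit 331) (nat_lit 262)) (XT.lf (nat_lit 0) (nat_lit 1022359463) (nat_lit 1344) (nat_lit 7557807701) (nat_lit 84) (nat_lit 1324226034) (nat_lit 154) (nat_lit 5) (nat_lit 170) (nat_lit 5) (nat_lit 155) (nat_lit 5) (nat_lit 353) (nat_lit 331) (nat_lit 261))))) (XT.nd (nat_lit 282) (nat_lit 1260) (nat_lit 0) (XT.nd (nat_lit 94) (nat_lit 588) (nat_lit 0) (XT.lf (nat_lit 0) (nat_lit 2534513591) (nat_lit 1344) (nat_lit 2728151162) (nat_lit 84) (nat_lit 4790681181) (nat_lit 154) (nat_lit 5) (nat_lit 170) (nat_lit 5) (nat_lit 155) (nat_lit 5) (nat_lit 354) (nat_lit 331) (nat_lit 260)) (XT.nd (nat_lit 94) (nat_lit 0) (nat_lit 0) (XT.lf (nat_lit 0) (nat_lit 2263530272)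 (nat_lit 588) (nat_lit 1821062886) (nat_lit 672) (nat_lit 6122451061) (nat_lit 147) (nat_lit 5) (nat_lit 154) (nat_lit 5) (nat_lit 155) (nat_lit 5) (nat_lit 355) (nat_lit 331) (nat_lit 259)) (XT.lf (nat_lit 0) (nat_lit 5696980061) (nat_lit 672) (nat_lit 2948180660) (nat_lit 84) (nat_lit 1719770814) (nat_lit 147) (nat_lit 5) (nat_lit 155) (nat_lit 5) (nat_lit 148) (nat_lit 5) (nat_lit 356) (nat_lit 331) (nat_lit 258)))) (XT.nd (nat_lit 188) (nat_lit 672) (nat_lit 0) (XT.nd (nat_lit 94) (nat_lit 0) (nat_lit 0) (XT.lf (nat_lit 0) (nat_lit 2194922473) (nat_lit 588) (nat_lit 5174191099) (nat_lit 672) (nat_lit 3158151353) (nat_lit 140) (nat_lit 5) (nat_lit 147) (nat_lit 5) (nat_lit 148) (nat_lit 5) (nat_lit 357) (nat_lit 331) (nat_lit 257)) (XT.lf (nat_lit 0) (nat_lit 7526126477) (nat_lit 588) (nat_lit 1567853618) (nat_lit 672) (nat_lit 1600460383) (nat_lit 140) (nat_lit 5) (nat_lit 147) (nat_lit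 5) (nat_lit 148) (nat_lit 5) (nat_lit 358) (nat_lit 331) (nat_lit 256))) (XT.nd (nat_lit 94) (nat_lit 0) (nat_lit 0) (XT.lf (nat_lit 0) (nat_lit 18835773) (nat_lit 672) (nat_lit 8721255131) (nat_lit 84) (nat_lit 2126137101) (nat_lit 132) (nat_lit 5) (nat_lit 140) (nat_lit 5) (nat_lit 133) (nat_lit 5) (nat_lit 359) (nat_lit 331) (nat_lit 255)) (XT.lf (nat_lit 0) (nat_lit 1676185905) (nat_lit 672) (nat_lit 3418291383) (nat_lit 84) (nat_lit 5947612256) (nat_lit 132) (nat_lit 5) (nat_lit 140) (nat_lit 5) (nat_lit 133) (nat_lit 5) (nat_lit 360) (nat_lit 331) (nat_lit 254)))))) (XT.nd (nat_lit 658) (nat_lit 1428) (nat_lit 0) (XT.nd (nat_lit 282) (nat_lit 1008) (nat_lit 0) (XT.nd (nat_lit 94) (nat_lit 504) (nat_lit 0) (XT.lf (nat_lit 0) (nat_lit 2057699343) (nat_lit 588) (nat_lit 1319908836) (nat_lit 672) (nat_lit 7845831941) (nat_lit 125) (nat_lit 5) (nat_lit 132) (nat_lit 5) (nat_lit 133) (nat_lit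 5) (nat_lit 361) (nat_lit 331) (nat_lit 253)) (XT.nd (nat_lit 94) (nat_lit 504) (nat_lit 0) (XT.lf (nat_lit 0) (nat_lit 5164670183) (nat_lit 672) (nat_lit 3692919029) (nat_lit 84) (nat_lit 2551646556) (nat_lit 125) (nat_lit 5) (nat_lit 133) (nat_lit 5) (nat_lit 126) (nat_lit 5) (nat_lit 362) (nat_lit 331) (nat_lit 252)) (XT.lf (nat_lit 0) (nat_lit 1942973362) (nat_lit 504) (nat_lit 5069895811) (nat_lit 588) (nat_lit 4587551588) (nat_lit 119) (nat_lit 5) (nat_lit 125) (nat_lit 5) (nat_lit 126) (nat_lit 5) (nat_lit 363) (nat_lit 331) (nat_lit 251)))) (XT.nd (nat_lit 188) (nat_lit 504) (nat_lit 0) (XT.nd (nat_lit 94) (nat_lit 504) (nat_lit 0) (XT.lf (nat_lit 0) (nat_lit 7797938241) (nat_lit 504) (nat_lit 1132105154) (nat_lit 588) (nat_lit 2866932058) (nat_lit 119) (nat_lit 5) (nat_lit 125) (nat_lit 5) (nat_lit 126) (nat_lit 5) (nat_lit 364) (nat_lit 331) (nat_lit 250)) (XT.lf (nat_lit 0)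 (nat_lit 1810683068) (nat_lit 504) (nat_lit 9116472691) (nat_lit 588) (nat_lit 1071637203) (nat_lit 113) (nat_lit 5) (nat_lit 119) (nat_lit 5) (nat_lit 120) (nat_lit 5) (nat_lit 365) (nat_lit 331) (nat_lit 249))) (XT.nd (nat_lit 94) (nat_lit 420) (nat_lit 0) (XT.lf (nat_lit 0) (nat_lit 791414336) (nat_lit 588) (nat_lit 4373775742) (nat_lit 84) (nat_lit 7040415231) (nat_lit 112) (nat_lit 5) (nat_lit 119) (nat_lit 5) (nat_lit 113) (nat_lit 5) (nat_lit 366) (nat_lit 331) (nat_lit 248)) (XT.lf (nat_lit 0) (nat_lit 1610651696) (nat_lit 420) (nat_lit 1071395822) (nat_lit 504) (nat_lit 9736494897) (nat_lit 107) (nat_lit 5) (nat_lit 112) (nat_lit 5) (nat_lit 113) (nat_lit 5) (nat_lit 367) (nat_lit 331) (nat_lit 247))))) (XT.nd (nat_lit 282) (nat_lit 924) (nat_lit 0) (XT.nd (nat_lit 94) (nat_lit 504) (nat_lit 0) (XT.lf (nat_lit 0) (nat_lit 4682362886) (nat_lit 504) (nat_lit 4828513435) (nat_lit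 84) (nat_lit 3125436945) (nat_lit 107) (nat_lit 5) (nat_lit 113) (nat_lit 5) (nat_lit 108) (nat_lit 5) (nat_lit 368) (nat_lit 331) (nat_lit 246)) (XT.nd (nat_lit 94) (nat_lit 0) (nat_lit 0) (XT.lf (nat_lit 0) (nat_lit 1320581468) (nat_lit 504) (nat_lit 5424171115) (nat_lit 588) (nat_lit 6115836239) (nat_lit 101) (nat_lit 5) (nat_lit 107) (nat_lit 5) (nat_lit 108) (nat_lit 5) (nat_lit 369) (nat_lit 331) (nat_lit 245)) (XT.lf (nat_lit 0) (nat_lit 7728547274) (nat_lit 504) (nat_lit 1168370233) (nat_lit 588) (nat_lit 4193870577) (nat_lit 101) (nat_lit 5) (nat_lit 107) (nat_lit 5) (nat_lit 108) (nat_lit 5) (nat_lit 370) (nat_lit 331) (nat_lit 244)))) (XT.nd (nat_lit 188) (nat_lit 504) (nat_lit 0) (XT.nd (nat_lit 94) (nat_lit 0) (nat_lit 0) (XT.lf (nat_lit 0) (nat_lit 964300137) (nat_lit 420) (nat_lit 10169239901) (nat_lit 504) (nat_lit 2193788105) (nat_lit 96) (nat_lit 5) (nat_lit 101) (nat_lit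 5) (nat_lit 102) (nat_lit 5) (nat_lit 371) (nat_lit 331) (nat_lit 243)) (XT.lf (nat_lit 0) (nat_lit 7554529638) (nat_lit 420) (nat_lit 5928409833) (nat_lit 504) (nat_lit 86685265) (nat_lit 96) (nat_lit 5) (nat_lit 101) (nat_lit 5) (nat_lit 102) (nat_lit 5) (nat_lit 372) (nat_lit 331) (nat_lit 242))) (XT.nd (nat_lit 94) (nat_lit 0) (nat_lit 0) (XT.lf (nat_lit 0) (nat_lit 488843080) (nat_lit 420) (nat_lit 1539262590) (nat_lit 504) (nat_lit 11790958575) (nat_lit 90) (nat_lit 5) (nat_lit 95) (nat_lit 5) (nat_lit 96) (nat_lit 5) (nat_lit 373) (nat_lit 331) (nat_lit 241)) (XT.lf (nat_lit 0) (nat_lit 4275334612) (nat_lit 504) (nat_lit 6817351586) (nat_lit 84) (nat_lit 2981180971) (nat_lit 90) (nat_lit 5) (nat_lit 96) (nat_lit 5) (nat_lit 91) (nat_lit 5) (nat_lit 374) (nat_lit 331) (nat_lit 240))))))))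
noncomputable def xc123 : XT := (XT.nd (nat_lit 2632) (nat_lit 2016) (nat_lit 0) (XT.nd (nat_lit 1316) (nat_lit 1764) (nat_lit 0) (XT.nd (nat_lit 658) (nat_lit 1092) (nat_lit 0) (XT.nd (nat_lit 282) (nat_lit 840) (nat_lit 0) (XT.nd (nat_lit 94) (nat_lit 336) (nat_lit 0) (XT.lf (nat_lit 0) (nat_lit 6586515729) (nat_lit 504) (nat_lit 147898854) (nat_lit 84) (nat_lit 7602030796) (nat_lit 90) (nat_lit 5) (nat_lit 96) (nat_lit 5) (nat_lit 91) (nat_lit 5) (nat_lit 375) (nat_lit 331) (nat_lit 239)) (XT.nd (nat_lit 94) (nat_lit 0) (nat_lit 0) (XT.lf (nat_lit 0) (nat_lit 6832079520) (nat_lit 336) (nat_lit 2182466774) (nat_lit 420) (nat_lit 5590955685) (nat_lit 86) (nat_lit 5) (nat_lit 90) (nat_lit 5) (nat_lit 91) (nat_lit 5) (nat_lit 376) (nat_lit 331) (nat_lit 238)) (XT.lf (nat_lit 0) (nat_lit 11523120542) (nat_lit 420) (nat_lit 905367945) (nat_lit 84) (nat_lit 2453936401) (nat_lit 86) (nat_lit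 5) (nat_lit 91) (nat_lit 5) (nat_lit 87) (nat_lit 5) (nat_lit 377) (nat_lit 331) (nat_lit 237)))) (XT.nd (nat_lit 188) (nat_lit 336) (nat_lit 0) (XT.nd (nat_lit 94) (nat_lit 84) (nat_lit 0) (XT.lf (nat_lit 0) (nat_lit 6246519357) (nat_lit 420) (nat_lit 7924712726) (nat_lit 504) (nat_lit 994519940) (nat_lit 81) (nat_lit 5) (nat_lit 86) (nat_lit 5) (nat_lit 87) (nat_lit 5) (nat_lit 378) (nat_lit 331) (nat_lit 236)) (XT.lf (nat_lit 0) (nat_lit 1405042990) (nat_lit 504) (nat_lit 1862365719) (nat_lit 84) (nat_lit 12190019421) (nat_lit 80) (nat_lit 5) (nat_lit 86) (nat_lit 5) (nat_lit 81) (nat_lit 5) (nat_lit 379) (nat_lit 331) (nat_lit 235))) (XT.nd (nat_lit 94) (nat_lit 0) (nat_lit 0) (XT.lf (nat_lit 0) (nat_lit 3907794994) (nat_lit 420) (nat_lit 10290435644) (nat_lit 84) (nat_lit 1557815575) (nat_lit 76) (nat_lit 5) (nat_lit 81) (nat_lit 5) (nat_lit 77) (nat_lit 5) (nat_lit 380) (nat_lit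 331) (nat_lit 234)) (XT.lf (nat_lit 0) (nat_lit 6520429531) (nat_lit 420) (nat_lit 3066223150) (nat_lit 84) (nat_lit 6475948321) (nat_lit 76) (nat_lit 5) (nat_lit 81) (nat_lit 5) (nat_lit 77) (nat_lit 5) (nat_lit 381) (nat_lit 331) (nat_lit 233))))) (XT.nd (nat_lit 282) (nat_lit 420) (nat_lit 0) (XT.nd (nat_lit 94) (nat_lit 336) (nat_lit 0) (XT.lf (nat_lit 0) (nat_lit 4439768549) (nat_lit 336) (nat_lit 4798291111) (nat_lit 420) (nat_lit 7139515797) (nat_lit 72) (nat_lit 5) (nat_lit 76) (nat_lit 5) (nat_lit 77) (nat_lit 5) (nat_lit 382) (nat_lit 331) (nat_lit 232)) (XT.nd (nat_lit 94) (nat_lit 336) (nat_lit 0) (XT.lf (nat_lit 0) (nat_lit 12053921093) (nat_lit 420) (nat_lit 4490680398) (nat_lit 84) (nat_lit 156917470) (nat_lit 72) (nat_lit 5) (nat_lit 77) (nat_lit 5) (nat_lit 73) (nat_lit 5) (nat_lit 383) (nat_lit 331) (nat_lit 231)) (XT.lf (nat_lit 0) (nat_lit 3173093137) (nat_lit 336)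 (nat_lit 11843784084) (nat_lit 420) (nat_lit 2016445269) (nat_lit 68) (nat_lit 5) (nat_lit 72) (nat_lit 5) (nat_lit 73) (nat_lit 5) (nat_lit 384) (nat_lit 331) (nat_lit 230)))) (XT.nd (nat_lit 188) (nat_lit 0) (nat_lit 0) (XT.nd (nat_lit 94) (nat_lit 336) (nat_lit 0) (XT.lf (nat_lit 0) (nat_lit 710589260) (nat_lit 420) (nat_lit 6243295650) (nat_lit 84) (nat_lit 10420099815) (nat_lit 67) (nat_lit 5) (nat_lit 72) (nat_lit 5) (nat_lit 68) (nat_lit 5) (nat_lit 385) (nat_lit 331) (nat_lit 229)) (XT.lf (nat_lit 0) (nat_lit 1592584858) (nat_lit 336) (nat_lit 1886763087) (nat_lit 420) (nat_lit 14244925249) (nat_lit 63) (nat_lit 5) (nat_lit 67) (nat_lit 5) (nat_lit 68) (nat_lit 5) (nat_lit 386) (nat_lit 331) (nat_lit 228))) (XT.nd (nat_lit 94) (nat_lit 0) (nat_lit 0) (XT.lf (nat_lit 0) (nat_lit 6412184331) (nat_lit 420) (nat_lit 8345184356) (nat_lit 84) (nat_lit 3325289202) (nat_lit 63) (nat_lit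 5) (nat_lit 68) (nat_lit 5) (nat_lit 64) (nat_lit 5) (nat_lit 387) (nat_lit 331) (nat_lit 227)) (XT.lf (nat_lit 0) (nat_lit 9437427297) (nat_lit 420) (nat_lit 364029769) (nat_lit 84) (nat_lit 8650221911) (nat_lit 63) (nat_lit 5) (nat_lit 68) (nat_lit 5) (nat_lit 64) (nat_lit 5) (nat_lit 388) (nat_lit 331) (nat_lit 226)))))) (XT.nd (nat_lit 658) (nat_lit 588) (nat_lit 0) (XT.nd (nat_lit 282) (nat_lit 588) (nat_lit 0) (XT.nd (nat_lit 94) (nat_lit 336) (nat_lit 0) (XT.lf (nat_lit 0) (nat_lit 7992855367) (nat_lit 252) (nat_lit 4623560385) (nat_lit 336) (nat_lit 6213482284) (nat_lit 60) (nat_lit 5) (nat_lit 63) (nat_lit 5) (nat_lit 64) (nat_lit 5) (nat_lit 389) (nat_lit 331) (nat_lit 225)) (XT.nd (nat_lit 94) (nat_lit 336) (nat_lit 0) (XT.lf (nat_lit 0) (nat_lit 15887623751) (nat_lit 336) (nat_lit 2638151968) (nat_lit 84) (nat_lit 693798944) (nat_lit 60) (nat_lit 5) (nat_lit 64) (nat_lit 5)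 (nat_lit 61) (nat_lit 5) (nat_lit 390) (nat_lit 331) (nat_lit 224)) (XT.lf (nat_lit 0) (nat_lit 5855926306) (nat_lit 336) (nat_lit 13489824517) (nat_lit 420) (nat_lit 272543290) (nat_lit 56) (nat_lit 5) (nat_lit 60) (nat_lit 5) (nat_lit 61) (nat_lit 5) (nat_lit 391) (nat_lit 331) (nat_lit 223)))) (XT.nd (nat_lit 188) (nat_lit 252) (nat_lit 0) (XT.nd (nat_lit 94) (nat_lit 252) (nat_lit 0) (XT.lf (nat_lit 0) (nat_lit 2836150749) (nat_lit 420) (nat_lit 5416565494) (nat_lit 84) (nat_lit 11775033547) (nat_lit 55) (nat_lit 5) (nat_lit 60) (nat_lit 5) (nat_lit 56) (nat_lit 5) (nat_lit 392) (nat_lit 331) (nat_lit 222)) (XT.lf (nat_lit 0) (nat_lit 3220968104) (nat_lit 252) (nat_lit 2829779848) (nat_lit 336) (nat_lit 14398131280) (nat_lit 52) (nat_lit 5) (nat_lit 55) (nat_lit 5) (nat_lit 56) (nat_lit 5) (nat_lit 393) (nat_lit 331) (nat_lit 221))) (XT.nd (nat_lit 94) (nat_lit 252) (nat_lit 0) (XT.lf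 (nat_lit 0) (nat_lit 9430808220) (nat_lit 336) (nat_lit 8698321090) (nat_lit 84) (nat_lit 2751456717) (nat_lit 52) (nat_lit 5) (nat_lit 56) (nat_lit 5) (nat_lit 53) (nat_lit 5) (nat_lit 394) (nat_lit 331) (nat_lit 220)) (XT.lf (nat_lit 0) (nat_lit 41552770) (nat_lit 252) (nat_lit 12886800637) (nat_lit 336) (nat_lit 8396421937) (nat_lit 49) (nat_lit 5) (nat_lit 52) (nat_lit 5) (nat_lit 53) (nat_lit 5) (nat_lit 395) (nat_lit 331) (nat_lit 219))))) (XT.nd (nat_lit 282) (nat_lit 252) (nat_lit 0) (XT.nd (nat_lit 94) (nat_lit 336) (nat_lit 0) (XT.lf (nat_lit 0) (nat_lit 9203713165) (nat_lit 252) (nat_lit 7402797962) (nat_lit 336) (nat_lit 5173522038) (nat_lit 49) (nat_lit 5) (nat_lit 52) (nat_lit 5) (nat_lit 53) (nat_lit 5) (nat_lit 396) (nat_lit 331) (nat_lit 218)) (XT.nd (nat_lit 94) (nat_lit 336) (nat_lit 0) (XT.lf (nat_lit 0) (nat_lit 18623052222) (nat_lit 252) (nat_lit 1760165425) (nat_lit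 336) (nat_lit 1866097969) (nat_lit 49) (nat_lit 5) (nat_lit 52) (nat_lit 5) (nat_lit 53) (nat_lit 5) (nat_lit 397) (nat_lit 331) (nat_lit 217)) (XT.lf (nat_lit 0) (nat_lit 1592997631) (nat_lit 336) (nat_lit 17099805839) (nat_lit 84) (nat_lit 4036965766) (nat_lit 45) (nat_lit 5) (nat_lit 49) (nat_lit 5) (nat_lit 46) (nat_lit 5) (nat_lit 398) (nat_lit 331) (nat_lit 216)))) (XT.nd (nat_lit 188) (nat_lit 0) (nat_lit 0) (XT.nd (nat_lit 94) (nat_lit 252) (nat_lit 0) (XT.lf (nat_lit 0) (nat_lit 5161304695) (nat_lit 336) (nat_lit 8039133245) (nat_lit 84) (nat_lit 10022367792) (nat_lit 45) (nat_lit 5) (nat_lit 49) (nat_lit 5) (nat_lit 46) (nat_lit 5) (nat_lit 399) (nat_lit 331) (nat_lit 215)) (XT.lf (nat_lit 0) (nat_lit 1301730879) (nat_lit 252) (nat_lit 7536314224) (nat_lit 336) (nat_lit 14892558264) (nat_lit 42) (nat_lit 5) (nat_lit 45) (nat_lit 5) (nat_lit 46) (nat_lit 5) (nat_lit 400) (nat_lit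 331) (nat_lit 214))) (XT.nd (nat_lit 94) (nat_lit 0) (nat_lit 0) (XT.lf (nat_lit 0) (nat_lit 11070752136) (nat_lit 252) (nat_lit 1624548213) (nat_lit 336) (nat_lit 11556239432) (nat_lit 42) (nat_lit 5) (nat_lit 45) (nat_lit 5) (nat_lit 46) (nat_lit 5) (nat_lit 401) (nat_lit 331) (nat_lit 213)) (XT.lf (nat_lit 0) (nat_lit 16700486975) (nat_lit 336) (nat_lit 3714823725) (nat_lit 84) (nat_lit 4371838078) (nat_lit 42) (nat_lit 5) (nat_lit 46) (nat_lit 5) (nat_lit 43) (nat_lit 5) (nat_lit 402) (nat_lit 331) (nat_lit 212))))))) (XT.nd (nat_lit 1316) (nat_lit 924) (nat_lit 0) (XT.nd (nat_lit 658) (nat_lit 420) (nat_lit 0) (XT.nd (nat_lit 282) (nat_lit 168) (nat_lit 0) (XT.nd (nat_lit 94) (nat_lit 336) (nat_lit 0) (XT.lf (nat_lit 0) (nat_lit 6122340992) (nat_lit 168) (nat_lit 14768033789) (nat_lit 252) (nat_lit 4446525482) (nat_lit 40) (nat_lit 5) (nat_lit 42) (nat_lit 5) (nat_lit 43) (nat_lit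 5) (nat_lit 403) (nat_lit 331) (nat_lit 211)) (XT.nd (nat_lit 94) (nat_lit 336) (nat_lit 0) (XT.lf (nat_lit 0) (nat_lit 16314766942) (nat_lit 168) (nat_lit 8918462778) (nat_lit 252) (nat_lit 669106734) (nat_lit 40) (nat_lit 5) (nat_lit 42) (nat_lit 5) (nat_lit 43) (nat_lit 5) (nat_lit 404) (nat_lit 331) (nat_lit 210)) (XT.lf (nat_lit 0) (nat_lit 287116739) (nat_lit 252) (nat_lit 2864360220) (nat_lit 336) (nat_lit 23332558168) (nat_lit 36) (nat_lit 5) (nat_lit 39) (nat_lit 5) (nat_lit 40) (nat_lit 5) (nat_lit 405) (nat_lit 331) (nat_lit 209)))) (XT.nd (nat_lit 188) (nat_lit 168) (nat_lit 0) (XT.nd (nat_lit 94) (nat_lit 0) (nat_lit 0) (XT.lf (nat_lit 0) (nat_lit 7193448011) (nat_lit 336) (nat_lit 16481537156) (nat_lit 84) (nat_lit 3404403704) (nat_lit 36) (nat_lit 5) (nat_lit 40) (nat_lit 5) (nat_lit 37) (nat_lit 5) (nat_lit 406) (nat_lit 331) (nat_lit 208)) (XT.lf (nat_lit 0) (nat_lit 11375364778)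 (nat_lit 336) (nat_lit 6518438183) (nat_lit 84) (nat_lit 9798248802) (nat_lit 36) (nat_lit 5) (nat_lit 40) (nat_lit 5) (nat_lit 37) (nat_lit 5) (nat_lit 407) (nat_lit 331) (nat_lit 207))) (XT.nd (nat_lit 94) (nat_lit 0) (nat_lit 0) (XT.lf (nat_lit 0) (nat_lit 3802824946) (nat_lit 168) (nat_lit 11907077513) (nat_lit 252) (nat_lit 12612386044) (nat_lit 34) (nat_lit 5) (nat_lit 36) (nat_lit 5) (nat_lit 37) (nat_lit 5) (nat_lit 408) (nat_lit 331) (nat_lit 206)) (XT.lf (nat_lit 0) (nat_lit 14552558364) (nat_lit 168) (nat_lit 5678481062) (nat_lit 252) (nat_lit 8738704630) (nat_lit 34) (nat_lit 5) (nat_lit 36) (nat_lit 5) (nat_lit 37) (nat_lit 5) (nat_lit 409) (nat_lit 331) (nat_lit 205))))) (XT.nd (nat_lit 282) (nat_lit 168) (nat_lit 0) (XT.nd (nat_lit 94) (nat_lit 252) (nat_lit 0) (XT.lf (nat_lit 0) (nat_lit 24885852572) (nat_lit 252) (nat_lit 4033508648) (nat_lit 84) (nat_lit 717329151) (nat_lit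 34) (nat_lit 5) (nat_lit 37) (nat_lit 5) (nat_lit 35) (nat_lit 5) (nat_lit 410) (nat_lit 331) (nat_lit 204)) (XT.nd (nat_lit 94) (nat_lit 84) (nat_lit 0) (XT.lf (nat_lit 0) (nat_lit 6722475722) (nat_lit 168) (nat_lit 23069898718) (nat_lit 252) (nat_lit 527916819) (nat_lit 32) (nat_lit 5) (nat_lit 34) (nat_lit 5) (nat_lit 35) (nat_lit 5) (nat_lit 411) (nat_lit 331) (nat_lit 203)) (XT.lf (nat_lit 0) (nat_lit 3779499282) (nat_lit 252) (nat_lit 13190698476) (nat_lit 84) (nat_lit 14052136494) (nat_lit 31) (nat_lit 5) (nat_lit 34) (nat_lit 5) (nat_lit 32) (nat_lit 5) (nat_lit 412) (nat_lit 331) (nat_lit 202)))) (XT.nd (nat_lit 188) (nat_lit 0) (nat_lit 0) (XT.nd (nat_lit 94) (nat_lit 168) (nat_lit 0) (XT.lf (nat_lit 0) (nat_lit 8197030816) (nat_lit 252) (nat_lit 2490384225) (nat_lit 84) (nat_lit 21058129004) (nat_lit 31) (nat_lit 5) (nat_lit 34) (nat_lit 5) (nat_lit 32) (nat_lit 5) (nat_lit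 413) (nat_lit 331) (nat_lit 201)) (XT.lf (nat_lit 0) (nat_lit 8687067643) (nat_lit 168) (nat_lit 4135277087) (nat_lit 252) (nat_lit 19665854918) (nat_lit 29) (nat_lit 5) (nat_lit 31) (nat_lit 5) (nat_lit 32) (nat_lit 5) (nat_lit 414) (nat_lit 331) (nat_lit 200))) (XT.nd (nat_lit 94) (nat_lit 0) (nat_lit 0) (XT.lf (nat_lit 0) (nat_lit 17628751525) (nat_lit 252) (nat_lit 13040316204) (nat_lit 84) (nat_lit 2582804183) (nat_lit 29) (nat_lit 5) (nat_lit 32) (nat_lit 5) (nat_lit 30) (nat_lit 5) (nat_lit 415) (nat_lit 331) (nat_lit 199)) (XT.lf (nat_lit 0) (nat_lit 22612346906) (nat_lit 252) (nat_lit 2010685672) (nat_lit 84) (nat_lit 9414438670) (nat_lit 29) (nat_lit 5) (nat_lit 32) (nat_lit 5) (nat_lit 30) (nat_lit 5) (nat_lit 416) (nat_lit 331) (nat_lit 198)))))) (XT.nd (nat_lit 658) (nat_lit 336) (nat_lit 0) (XT.nd (nat_lit 282) (nat_lit 336) (nat_lit 0) (XT.nd (nat_lit 94) (nat_lit 84) (nat_lit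 0) (XT.lf (nat_lit 0) (nat_lit 9522975497) (nat_lit 168) (nat_lit 18306299826) (nat_lit 252) (nat_lit 7014855081) (nat_lit 27) (nat_lit 5) (nat_lit 29) (nat_lit 5) (nat_lit 30) (nat_lit 5) (nat_lit 417) (nat_lit 331) (nat_lit 197)) (XT.nd (nat_lit 94) (nat_lit 84) (nat_lit 0) (XT.lf (nat_lit 0) (nat_lit 21431302127) (nat_lit 168) (nat_lit 11784101933) (nat_lit 252) (nat_lit 2459210905) (nat_lit 27) (nat_lit 5) (nat_lit 29) (nat_lit 5) (nat_lit 30) (nat_lit 5) (nat_lit 418) (nat_lit 331) (nat_lit 196)) (XT.lf (nat_lit 0) (nat_lit 2182057636) (nat_lit 252) (nat_lit 2866951733) (nat_lit 84) (nat_lit 31480590823) (nat_lit 26) (nat_lit 5) (nat_lit 29) (nat_lit 5) (nat_lit 27) (nat_lit 5) (nat_lit 419) (nat_lit 331) (nat_lit 195)))) (XT.nd (nat_lit 188) (nat_lit 168) (nat_lit 0) (XT.nd (nat_lit 94) (nat_lit 0) (nat_lit 0) (XT.lf (nat_lit 0) (nat_lit 7011501332) (nat_lit 252) (nat_lit 28436552417)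 (nat_lit 84) (nat_lit 1958505687) (nat_lit 24) (nat_lit 5) (nat_lit 27) (nat_lit 5) (nat_lit 25) (nat_lit 5) (nat_lit 420) (nat_lit 331) (nat_lit 194)) (XT.lf (nat_lit 0) (nat_lit 12057855944) (nat_lit 252) (nat_lit 17150439508) (nat_lit 84) (nat_lit 9099376866) (nat_lit 24) (nat_lit 5) (nat_lit 27) (nat_lit 5) (nat_lit 25) (nat_lit 5) (nat_lit 421) (nat_lit 331) (nat_lit 193))) (XT.nd (nat_lit 94) (nat_lit 168) (nat_lit 0) (XT.lf (nat_lit 0) (nat_lit 17248611082) (nat_lit 252) (nat_lit 5537440273) (nat_lit 84) (nat_lit 16449982460) (nat_lit 24) (nat_lit 5) (nat_lit 27) (nat_lit 5) (nat_lit 25) (nat_lit 5) (nat_lit 422) (nat_lit 331) (nat_lit 192)) (XT.lf (nat_lit 0) (nat_lit 6540215735) (nat_lit 168) (nat_lit 16110955176) (nat_lit 252) (nat_lit 17539398148) (nat_lit 22) (nat_lit 5) (nat_lit 24) (nat_lit 5) (nat_lit 25) (nat_lit 5) (nat_lit 423) (nat_lit 331) (nat_lit 191))))) (XT.nd (nat_lit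 282) (nat_lit 252) (nat_lit 0) (XT.nd (nat_lit 94) (nat_lit 84) (nat_lit 0) (XT.lf (nat_lit 0) (nat_lit 19082468487) (nat_lit 168) (nat_lit 9182559390) (nat_lit 252) (nat_lit 12907241079) (nat_lit 22) (nat_lit 5) (nat_lit 24) (nat_lit 5) (nat_lit 25) (nat_lit 5) (nat_lit 424) (nat_lit 331) (nat_lit 190)) (XT.nd (nat_lit 94) (nat_lit 84) (nat_lit 0) (XT.lf (nat_lit 0) (nat_lit 31990071314) (nat_lit 168) (nat_lit 2050727350) (nat_lit 252) (nat_lit 8142821299) (nat_lit 22) (nat_lit 5) (nat_lit 24) (nat_lit 5) (nat_lit 25) (nat_lit 5) (nat_lit 425) (nat_lit 331) (nat_lit 189)) (XT.lf (nat_lit 0) (nat_lit 2037701674) (nat_lit 84) (nat_lit 38016274163) (nat_lit 168) (nat_lit 3169416573) (nat_lit 21) (nat_lit 5) (nat_lit 22) (nat_lit 5) (nat_lit 23) (nat_lit 4) (nat_lit 426) (nat_lit 331) (nat_lit 188)))) (XT.nd (nat_lit 188) (nat_lit 168) (nat_lit 0) (XT.nd (nat_lit 94) (nat_lit 0) (nat_lit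 0) (XT.lf (nat_lit 0) (nat_lit 2032996987) (nat_lit 168) (nat_lit 29497299311) (nat_lit 84) (nat_lit 12759965487) (nat_lit 20) (nat_lit 5) (nat_lit 22) (nat_lit 5) (nat_lit 21) (nat_lit 5) (nat_lit 427) (nat_lit 331) (nat_lit 187)) (XT.lf (nat_lit 0) (nat_lit 7321627643) (nat_lit 168) (nat_lit 17500100524) (nat_lit 84) (nat_lit 20566656752) (nat_lit 20) (nat_lit 5) (nat_lit 22) (nat_lit 5) (nat_lit 21) (nat_lit 5) (nat_lit 428) (nat_lit 331) (nat_lit 186))) (XT.nd (nat_lit 94) (nat_lit 168) (nat_lit 0) (XT.lf (nat_lit 0) (nat_lit 12762943260) (nat_lit 168) (nat_lit 5153145014) (nat_lit 84) (nat_lit 28603547050) (nat_lit 20) (nat_lit 5) (nat_lit 22) (nat_lit 5) (nat_lit 21) (nat_lit 5) (nat_lit 429) (nat_lit 331) (nat_lit 185)) (XT.lf (nat_lit 0) (nat_lit 7704702311) (nat_lit 168) (nat_lit 10731058386) (nat_lit 252) (nat_lit 29247018909) (nat_lit 18) (nat_lit 5) (nat_lit 20) (nat_lit 5)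 (nat_lit 21) (nat_lit 5) (nat_lit 430) (nat_lit 331) (nat_lit 184))))))))
noncomputable def xc124 : XT := (XT.nd (nat_lit 51042) (nat_lit 0) (nat_lit 7392) (XT.nd (nat_lit 1222) (nat_lit 0) (nat_lit 0) (XT.nd (nat_lit 564) (nat_lit 252) (nat_lit 0) (XT.nd (nat_lit 282) (nat_lit 168) (nat_lit 0) (XT.nd (nat_lit 94) (nat_lit 0) (nat_lit 0) (XT.lf (nat_lit 0) (nat_lit 21044152836) (nat_lit 168) (nat_lit 3280921572) (nat_lit 252) (nat_lit 24554358567) (nat_lit 18) (nat_lit 5) (nat_lit 20) (nat_lit 5) (nat_lit 21) (nat_lit 5) (nat_lit 431) (nat_lit 331) (nat_lit 183)) (XT.nd (nat_lit 94) (nat_lit 0) (nat_lit 0) (XT.lf (nat_lit 0) (nat_lit 30427697149) (nat_lit 252) (nat_lit 15380039766) (nat_lit 84) (nat_lit 4303154131) (nat_lit 18) (nat_lit 5) (nat_lit 21) (nat_lit 5) (nat_lit 19) (nat_lit 4) (nat_lit 432) (nat_lit 331) (nat_lit 182)) (XT.lf (nat_lit 0) (nat_lit 36740450045) (nat_lit 252)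 (nat_lit 2592961692) (nat_lit 84) (nat_lit 12045073454) (nat_lit 18) (nat_lit 5) (nat_lit 21) (nat_lit 5) (nat_lit 19) (nat_lit 4) (nat_lit 433) (nat_lit 331) (nat_lit 181)))) (XT.nd (nat_lit 94) (nat_lit 84) (nat_lit 0) (XT.lf (nat_lit 0) (nat_lit 10779002648) (nat_lit 84) (nat_lit 32561922587) (nat_lit 168) (nat_lit 9340235495) (nat_lit 17) (nat_lit 5) (nat_lit 18) (nat_lit 5) (nat_lit 19) (nat_lit 4) (nat_lit 434) (nat_lit 331) (nat_lit 180)) (XT.nd (nat_lit 94) (nat_lit 84) (nat_lit 0) (XT.lf (nat_lit 0) (nat_lit 24596304706) (nat_lit 84) (nat_lit 25564086508) (nat_lit 168) (nat_lit 3861899678) (nat_lit 17) (nat_lit 5) (nat_lit 18) (nat_lit 5) (nat_lit 19) (nat_lit 4) (nat_lit 435) (nat_lit 331) (nat_lit 179)) (XT.lf (nat_lit 0) (nat_lit 1740927500) (nat_lit 168) (nat_lit 16601465260) (nat_lit 84) (nat_lit 37060905375) (nat_lit 16) (nat_lit 5) (nat_lit 18) (nat_lit 5) (nat_lit 17)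 (nat_lit 5) (nat_lit 436) (nat_lit 331) (nat_lit 178))))) (XT.nd (nat_lit 282) (nat_lit 84) (nat_lit 0) (XT.nd (nat_lit 94) (nat_lit 168) (nat_lit 0) (XT.lf (nat_lit 0) (nat_lit 7429258786) (nat_lit 168) (nat_lit 3439006619) (nat_lit 84) (nat_lit 45956475245) (nat_lit 16) (nat_lit 5) (nat_lit 18) (nat_lit 5) (nat_lit 17) (nat_lit 5) (nat_lit 437) (nat_lit 331) (nat_lit 177)) (XT.nd (nat_lit 94) (nat_lit 0) (nat_lit 0) (XT.lf (nat_lit 0) (nat_lit 10311222955) (nat_lit 168) (nat_lit 3071318964) (nat_lit 252) (nat_lit 44903458708) (nat_lit 14) (nat_lit 5) (nat_lit 16) (nat_lit 5) (nat_lit 17) (nat_lit 5) (nat_lit 438) (nat_lit 331) (nat_lit 176)) (XT.lf (nat_lit 0) (nat_lit 19592380566) (nat_lit 252) (nat_lit 35301961650) (nat_lit 84) (nat_lit 4894420628) (nat_lit 14) (nat_lit 5) (nat_lit 17) (nat_lit 5) (nat_lit 15) (nat_lit 4) (nat_lit 439) (nat_lit 331) (nat_lit 175)))) (XT.nd (nat_lit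 188) (nat_lit 84) (nat_lit 0) (XT.nd (nat_lit 94) (nat_lit 0) (nat_lit 0) (XT.lf (nat_lit 0) (nat_lit 26014274800) (nat_lit 252) (nat_lit 22287470067) (nat_lit 84) (nat_lit 13034093307) (nat_lit 14) (nat_lit 5) (nat_lit 17) (nat_lit 5) (nat_lit 15) (nat_lit 4) (nat_lit 440) (nat_lit 331) (nat_lit 174)) (XT.lf (nat_lit 0) (nat_lit 32624312587) (nat_lit 252) (nat_lit 8890407641) (nat_lit 84) (nat_lit 21414743902) (nat_lit 14) (nat_lit 5) (nat_lit 17) (nat_lit 5) (nat_lit 15) (nat_lit 4) (nat_lit 441) (nat_lit 331) (nat_lit 173))) (XT.nd (nat_lit 94) (nat_lit 0) (nat_lit 0) (XT.lf (nat_lit 0) (nat_lit 4998469951) (nat_lit 84) (nat_lit 34477848089) (nat_lit 168) (nat_lit 25093273713) (nat_lit 13) (nat_lit 5) (nat_lit 14) (nat_lit 5) (nat_lit 15) (nat_lit 4) (nat_lit 442) (nat_lit 331) (nat_lit 172)) (XT.lf (nat_lit 0) (nat_lit 19478698504) (nat_lit 84) (nat_lit 27140633974) (nat_lit 168) (nat_lit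 19637030061) (nat_lit 13) (nat_lit 5) (nat_lit 14) (nat_lit 5) (nat_lit 15) (nat_lit 4) (nat_lit 443) (nat_lit 331) (nat_lit 171)))))) (XT.nd (nat_lit 49162) (nat_lit 0) (nat_lit 16296) (XT.nd (nat_lit 48786) (nat_lit 0) (nat_lit 17136) (XT.nd (nat_lit 94) (nat_lit 0) (nat_lit 0) (XT.lf (nat_lit 0) (nat_lit 34385994101) (nat_lit 84) (nat_lit 19586442409) (nat_lit 168) (nat_lit 14021428681) (nat_lit 13) (nat_lit 5) (nat_lit 14) (nat_lit 5) (nat_lit 15) (nat_lit 4) (nat_lit 444) (nat_lit 331) (nat_lit 170)) (XT.nd (nat_lit 94) (nat_lit 0) (nat_lit 0) (XT.lf (nat_lit 0) (nat_lit 49733382534) (nat_lit 84) (nat_lit 11808672644) (nat_lit 168) (nat_lit 8241562737) (nat_lit 13) (nat_lit 5) (nat_lit 14) (nat_lit 5) (nat_lit 15) (nat_lit 4) (nat_lit 445) (nat_lit 331) (nat_lit 169)) (XT.lf (nat_lit 0) (nat_lit 65534274143) (nat_lit 84) (nat_lit 3800528571) (nat_lit 168) (nat_lit 2292381861) (nat_lit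 13) (nat_lit 5) (nat_lit 14) (nat_lit 5) (nat_lit 15) (nat_lit 4) (nat_lit 446) (nat_lit 331) (nat_lit 168)))) (XT.nd (nat_lit 188) (nat_lit 0) (nat_lit 0) (XT.nd (nat_lit 94) (nat_lit 924) (nat_lit 0) (XT.lf (nat_lit 0) (nat_lit 3839414395) (nat_lit 924) (nat_lit 7170772) (nat_lit 924) (nat_lit 7170772) (nat_lit 228) (nat_lit 3) (nat_lit 239) (nat_lit 3) (nat_lit 239) (nat_lit 5) (nat_lit 332) (nat_lit 332) (nat_lit 281)) (XT.lf (nat_lit 0) (nat_lit 1237577305) (nat_lit 924) (nat_lit 4352869654) (nat_lit 1008) (nat_lit 2191981940) (nat_lit 217) (nat_lit 5) (nat_lit 228) (nat_lit 3) (nat_lit 229) (nat_lit 5) (nat_lit 333) (nat_lit 332) (nat_lit 280))) (XT.nd (nat_lit 94) (nat_lit 0) (nat_lit 0) (XT.lf (nat_lit 0) (nat_lit 2493043223) (nat_lit 924) (nat_lit 908893495) (nat_lit 1008) (nat_lit 4459200534) (nat_lit 217) (nat_lit 5) (nat_lit 228) (nat_lit 3) (nat_lit 229) (nat_lit 5) (nat_lit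 334) (nat_lit 332) (nat_lit 279)) (XT.lf (nat_lit 84) (nat_lit 2665077072) (nat_lit 0) (nat_lit 1099770667) (nat_lit 1008) (nat_lit 4178101954) (nat_lit 218) (nat_lit 5) (nat_lit 217) (nat_lit 5) (nat_lit 229) (nat_lit 5) (nat_lit 335) (nat_lit 332) (nat_lit 278))))) (XT.nd (nat_lit 282) (nat_lit 924) (nat_lit 0) (XT.nd (nat_lit 94) (nat_lit 0) (nat_lit 0) (XT.lf (nat_lit 0) (nat_lit 5050679146) (nat_lit 924) (nat_lit 1701111629) (nat_lit 1008) (nat_lit 1276249624) (nat_lit 218) (nat_lit 5) (nat_lit 229) (nat_lit 5) (nat_lit 230) (nat_lit 5) (nat_lit 336) (nat_lit 332) (nat_lit 277)) (XT.nd (nat_lit 94) (nat_lit 0) (nat_lit 0) (XT.lf (nat_lit 84) (nat_lit 1984817893) (nat_lit 0) (nat_lit 4375946176) (nat_lit 1008) (nat_lit 1755446560) (nat_lit 219) (nat_lit 5) (nat_lit 218) (nat_lit 5) (nat_lit 230) (nat_lit 5) (nat_lit 337) (nat_lit 332) (nat_lit 276)) (XT.lf (nat_lit 84) (nat_lit 5790474668)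 (nat_lit 0) (nat_lit 1893607969) (nat_lit 1008) (nat_lit 523819725) (nat_lit 219) (nat_lit 5) (nat_lit 218) (nat_lit 5) (nat_lit 230) (nat_lit 5) (nat_lit 338) (nat_lit 332) (nat_lit 275)))) (XT.nd (nat_lit 188) (nat_lit 0) (nat_lit 0) (XT.nd (nat_lit 94) (nat_lit 0) (nat_lit 0) (XT.lf (nat_lit 0) (nat_lit 707948527) (nat_lit 1008) (nat_lit 6907575174) (nat_lit 1092) (nat_lit 687363525) (nat_lit 207) (nat_lit 5) (nat_lit 219) (nat_lit 5) (nat_lit 220) (nat_lit 5) (nat_lit 339) (nat_lit 332) (nat_lit 274)) (XT.lf (nat_lit 0) (nat_lit 1968193852) (nat_lit 1008) (nat_lit 3079313938) (nat_lit 1092) (nat_lit 3353083012) (nat_lit 207) (nat_lit 5) (nat_lit 219) (nat_lit 5) (nat_lit 220) (nat_lit 5) (nat_lit 340) (nat_lit 332) (nat_lit 273))) (XT.nd (nat_lit 94) (nat_lit 0) (nat_lit 84) (XT.lf (nat_lit 84) (nat_lit 854115492) (nat_lit 0) (nat_lit 2380196385) (nat_lit 1092) (nat_lit 5267955459)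 (nat_lit 208) (nat_lit 5) (nat_lit 207) (nat_lit 5) (nat_lit 220) (nat_lit 5) (nat_lit 341) (nat_lit 332) (nat_lit 272)) (XT.lf (nat_lit 0) (nat_lit 4534245317) (nat_lit 1008) (nat_lit 3668700252) (nat_lit 1092) (nat_lit 404255010) (nat_lit 208) (nat_lit 5) (nat_lit 220) (nat_lit 5) (nat_lit 221) (nat_lit 5) (nat_lit 342) (nat_lit 332) (nat_lit 271))))))) (XT.nd (nat_lit 1316) (nat_lit 3864) (nat_lit 0) (XT.nd (nat_lit 658) (nat_lit 4116) (nat_lit 0) (XT.nd (nat_lit 282) (nat_lit 1008) (nat_lit 0) (XT.nd (nat_lit 94) (nat_lit 0) (nat_lit 0) (XT.lf (nat_lit 84) (nat_lit 387456769) (nat_lit 0) (nat_lit 5475049449) (nat_lit 1092) (nat_lit 2853174717) (nat_lit 209) (nat_lit 5) (nat_lit 208) (nat_lit 5) (nat_lit 221) (nat_lit 5) (nat_lit 343) (nat_lit 332) (nat_lit 270)) (XT.nd (nat_lit 94) (nat_lit 0) (nat_lit 84) (XT.lf (nat_lit 84) (nat_lit 4614092263) (nat_lit 0) (nat_lit 2616459842) (nat_lit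 1092) (nat_lit 1596942181) (nat_lit 209) (nat_lit 5) (nat_lit 208) (nat_lit 5) (nat_lit 221) (nat_lit 5) (nat_lit 344) (nat_lit 332) (nat_lit 269)) (XT.lf (nat_lit 0) (nat_lit 8606862406) (nat_lit 1008) (nat_lit 5183987) (nat_lit 1092) (nat_lit 331673418) (nat_lit 209) (nat_lit 5) (nat_lit 221) (nat_lit 5) (nat_lit 222) (nat_lit 5) (nat_lit 345) (nat_lit 332) (nat_lit 268)))) (XT.nd (nat_lit 188) (nat_lit 0) (nat_lit 84) (XT.nd (nat_lit 94) (nat_lit 0) (nat_lit 0) (XT.lf (nat_lit 0) (nat_lit 975489314) (nat_lit 1092) (nat_lit 4709691877) (nat_lit 1176) (nat_lit 3377047584) (nat_lit 196) (nat_lit 5) (nat_lit 209) (nat_lit 5) (nat_lit 210) (nat_lit 5) (nat_lit 346) (nat_lit 332) (nat_lit 267)) (XT.lf (nat_lit 0) (nat_lit 2285967296) (nat_lit 1092) (nat_lit 373144187) (nat_lit 1176) (nat_lit 6526183672) (nat_lit 196) (nat_lit 5) (nat_lit 209) (nat_lit 5) (nat_lit 210) (nat_lit 5) (nat_lit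 347) (nat_lit 332) (nat_lit 266))) (XT.nd (nat_lit 94) (nat_lit 0) (nat_lit 0) (XT.lf (nat_lit 0) (nat_lit 3646991368) (nat_lit 1092) (nat_lit 5168180701) (nat_lit 84) (nat_lit 496610667) (nat_lit 197) (nat_lit 5) (nat_lit 210) (nat_lit 5) (nat_lit 198) (nat_lit 5) (nat_lit 348) (nat_lit 332) (nat_lit 265)) (XT.lf (nat_lit 0) (nat_lit 5046262794) (nat_lit 1092) (nat_lit 691518594) (nat_lit 84) (nat_lit 3704425291) (nat_lit 197) (nat_lit 5) (nat_lit 210) (nat_lit 5) (nat_lit 198) (nat_lit 5) (nat_lit 349) (nat_lit 332) (nat_lit 264))))) (XT.nd (nat_lit 282) (nat_lit 1932) (nat_lit 0) (XT.nd (nat_lit 94) (nat_lit 1176) (nat_lit 0) (XT.lf (nat_lit 0) (nat_lit 3971008478) (nat_lit 1092) (nat_lit 2522912020) (nat_lit 1176) (nat_lit 3082492961) (nat_lit 184) (nat_lit 5) (nat_lit 197) (nat_lit 5) (nat_lit 198) (nat_lit 5) (nat_lit 350) (nat_lit 332) (nat_lit 263)) (XT.nd (nat_lit 94) (nat_lit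 1176) (nat_lit 0) (XT.lf (nat_lit 0) (nat_lit 7968605506) (nat_lit 1176) (nat_lit 961212478) (nat_lit 84) (nat_lit 785381077) (nat_lit 184) (nat_lit 5) (nat_lit 198) (nat_lit 5) (nat_lit 185) (nat_lit 5) (nat_lit 351) (nat_lit 332) (nat_lit 262)) (XT.lf (nat_lit 0) (nat_lit 3846448037) (nat_lit 1176) (nat_lit 5672907481) (nat_lit 1260) (nat_lit 337896763) (nat_lit 170) (nat_lit 5) (nat_lit 184) (nat_lit 5) (nat_lit 185) (nat_lit 5) (nat_lit 352) (nat_lit 332) (nat_lit 261)))) (XT.nd (nat_lit 188) (nat_lit 588) (nat_lit 0) (XT.nd (nat_lit 94) (nat_lit 1260) (nat_lit 0) (XT.lf (nat_lit 0) (nat_lit 1071296939) (nat_lit 1260) (nat_lit 1222360778) (nat_lit 84) (nat_lit 7710245132) (nat_lit 169) (nat_lit 5) (nat_lit 184) (nat_lit 5) (nat_lit 170) (nat_lit 5) (nat_lit 353) (nat_lit 332) (nat_lit 260)) (XT.lf (nat_lit 0) (nat_lit 2534917379) (nat_lit 1344) (nat_lit 6412444743) (nat_lit 84) (nat_lit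 1206975973) (nat_lit 154) (nat_lit 5) (nat_lit 170) (nat_lit 5) (nat_lit 155) (nat_lit 5) (nat_lit 354) (nat_lit 332) (nat_lit 259))) (XT.nd (nat_lit 94) (nat_lit 588) (nat_lit 0) (XT.lf (nat_lit 0) (nat_lit 4049274368) (nat_lit 1344) (nat_lit 1477862502) (nat_lit 84) (nat_lit 4781996915) (nat_lit 154) (nat_lit 5) (nat_lit 170) (nat_lit 5) (nat_lit 155) (nat_lit 5) (nat_lit 355) (nat_lit 332) (nat_lit 258)) (XT.lf (nat_lit 0) (nat_lit 3650509245) (nat_lit 588) (nat_lit 1966122193) (nat_lit 672) (nat_lit 4851765537) (nat_lit 147) (nat_lit 5) (nat_lit 154) (nat_lit 5) (nat_lit 155) (nat_lit 5) (nat_lit 356) (nat_lit 332) (nat_lit 257)))))) (XT.nd (nat_lit 658) (nat_lit 2016) (nat_lit 0) (XT.nd (nat_lit 282) (nat_lit 1260) (nat_lit 0) (XT.nd (nat_lit 94) (nat_lit 588) (nat_lit 0) (XT.lf (nat_lit 0) (nat_lit 7235492609) (nat_lit 672) (nat_lit 1711576682) (nat_lit 84) (nat_lit 1685283496) (nat_lit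 147) (nat_lit 5) (nat_lit 155) (nat_lit 5) (nat_lit 148) (nat_lit 5) (nat_lit 357) (nat_lit 332) (nat_lit 256)) (XT.nd (nat_lit 94) (nat_lit 0) (nat_lit 0) (XT.lf (nat_lit 0) (nat_lit 3572828864) (nat_lit 588) (nat_lit 5357740472) (nat_lit 672) (nat_lit 1869876242) (nat_lit 140) (nat_lit 5) (nat_lit 147) (nat_lit 5) (nat_lit 148) (nat_lit 5) (nat_lit 358) (nat_lit 332) (nat_lit 255)) (XT.lf (nat_lit 0) (nat_lit 9025753686) (nat_lit 588) (nat_lit 1642387905) (nat_lit 672) (nat_lit 305736669) (nat_lit 140) (nat_lit 5) (nat_lit 147) (nat_lit 5) (nat_lit 148) (nat_lit 5) (nat_lit 359) (nat_lit 332) (nat_lit 254)))) (XT.nd (nat_lit 188) (nat_lit 588) (nat_lit 0) (XT.nd (nat_lit 94) (nat_lit 0) (nat_lit 0) (XT.lf (nat_lit 0) (nat_lit 1309977267) (nat_lit 672) (nat_lit 7652381720) (nat_lit 84) (nat_lit 2188918593) (nat_lit 132) (nat_lit 5) (nat_lit 140) (nat_lit 5) (nat_lit 133) (nat_lit 5) (nat_lit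 360) (nat_lit 332) (nat_lit 253)) (XT.lf (nat_lit 0) (nat_lit 2979458298) (nat_lit 672) (nat_lit 2229081810) (nat_lit 84) (nat_lit 6125067205) (nat_lit 132) (nat_lit 5) (nat_lit 140) (nat_lit 5) (nat_lit 133) (nat_lit 5) (nat_lit 361) (nat_lit 332) (nat_lit 252))) (XT.nd (nat_lit 94) (nat_lit 0) (nat_lit 0) (XT.lf (nat_lit 0) (nat_lit 3398524341) (nat_lit 588) (nat_lit 1309199572) (nat_lit 672) (nat_lit 6813463249) (nat_lit 125) (nat_lit 5) (nat_lit 132) (nat_lit 5) (nat_lit 133) (nat_lit 5) (nat_lit 362) (nat_lit 332) (nat_lit 251)) (XT.lf (nat_lit 0) (nat_lit 6513077343) (nat_lit 672) (nat_lit 2524515724) (nat_lit 84) (nat_lit 2676084174) (nat_lit 125) (nat_lit 5) (nat_lit 133) (nat_lit 5) (nat_lit 126) (nat_lit 5) (nat_lit 363) (nat_lit 332) (nat_lit 250))))) (XT.nd (nat_lit 282) (nat_lit 924) (nat_lit 0) (XT.nd (nat_lit 94) (nat_lit 588) (nat_lit 0) (XT.lf (nat_lit 0) (nat_lit 3267912352)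 (nat_lit 504) (nat_lit 5126224586) (nat_lit 588) (nat_lit 3517197578) (nat_lit 119) (nat_lit 5) (nat_lit 125) (nat_lit 5) (nat_lit 126) (nat_lit 5) (nat_lit 364) (nat_lit 332) (nat_lit 249)) (XT.nd (nat_lit 94) (nat_lit 588) (nat_lit 0) (XT.lf (nat_lit 0) (nat_lit 9261633465) (nat_lit 504) (nat_lit 1073089572) (nat_lit 588) (nat_lit 1780143362) (nat_lit 119) (nat_lit 5) (nat_lit 125) (nat_lit 5) (nat_lit 126) (nat_lit 5) (nat_lit 365) (nat_lit 332) (nat_lit 248)) (XT.lf (nat_lit 0) (nat_lit 47206282) (nat_lit 588) (nat_lit 9206378711) (nat_lit 84) (nat_lit 3069801412) (nat_lit 112) (nat_lit 5) (nat_lit 119) (nat_lit 5) (nat_lit 113) (nat_lit 5) (nat_lit 366) (nat_lit 332) (nat_lit 247)))) (XT.nd (nat_lit 188) (nat_lit 504) (nat_lit 0) (XT.nd (nat_lit 94) (nat_lit 420) (nat_lit 0) (XT.lf (nat_lit 0) (nat_lit 1911713811) (nat_lit 588) (nat_lit 3265412111) (nat_lit 84) (nat_lit 7359998369)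 (nat_lit 112) (nat_lit 5) (nat_lit 119) (nat_lit 5) (nat_lit 113) (nat_lit 5) (nat_lit 367) (nat_lit 332) (nat_lit 246)) (XT.lf (nat_lit 0) (nat_lit 2886395436) (nat_lit 420) (nat_lit 952530749) (nat_lit 504) (nat_lit 8918178561) (nat_lit 107) (nat_lit 5) (nat_lit 112) (nat_lit 5) (nat_lit 113) (nat_lit 5) (nat_lit 368) (nat_lit 332) (nat_lit 245))) (XT.nd (nat_lit 94) (nat_lit 504) (nat_lit 0) (XT.lf (nat_lit 0) (nat_lit 5869308349) (nat_lit 504) (nat_lit 3750100334) (nat_lit 84) (nat_lit 3362947877) (nat_lit 107) (nat_lit 5) (nat_lit 113) (nat_lit 5) (nat_lit 108) (nat_lit 5) (nat_lit 369) (nat_lit 332) (nat_lit 244)) (XT.lf (nat_lit 0) (nat_lit 2571474588) (nat_lit 504) (nat_lit 5403258830) (nat_lit 588) (nat_lit 5239240166) (nat_lit 101) (nat_lit 5) (nat_lit 107) (nat_lit 5) (nat_lit 108) (nat_lit 5) (nat_lit 370) (nat_lit 332) (nat_lit 243))))))))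
noncomputable def xc125 : XT := (XT.nd (nat_lit 2632) (nat_lit 2268) (nat_lit 0) (XT.nd (nat_lit 1316) (nat_lit 1932) (nat_lit 0) (XT.nd (nat_lit 658) (nat_lit 1176) (nat_lit 0) (XT.nd (nat_lit 282) (nat_lit 756) (nat_lit 0) (XT.nd (nat_lit 94) (nat_lit 504) (nat_lit 0) (XT.lf (nat_lit 0) (nat_lit 9136399495) (nat_lit 504) (nat_lit 1025132583) (nat_lit 588) (nat_lit 3290491393) (nat_lit 101) (nat_lit 5) (nat_lit 107) (nat_lit 5) (nat_lit 108) (nat_lit 5) (nat_lit 371) (nat_lit 332) (nat_lit 242)) (XT.nd (nat_lit 94) (nat_lit 84) (nat_lit 0) (XT.lf (nat_lit 0) (nat_lit 2187178101) (nat_lit 420) (nat_lit 10262156627) (nat_lit 504) (nat_lit 1246847912) (nat_lit 96) (nat_lit 5) (nat_lit 101) (nat_lit 5) (nat_lit 102) (nat_lit 5) (nat_lit 372) (nat_lit 332) (nat_lit 241)) (XT.lf (nat_lit 0) (nat_lit 876525747) (nat_lit 504) (nat_lit 5014904149) (nat_lit 84) (nat_lit 8054962336) (nat_lit 95)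 (nat_lit 5) (nat_lit 101) (nat_lit 5) (nat_lit 96) (nat_lit 5) (nat_lit 373) (nat_lit 332) (nat_lit 240)))) (XT.nd (nat_lit 188) (nat_lit 336) (nat_lit 0) (XT.nd (nat_lit 94) (nat_lit 0) (nat_lit 0) (XT.lf (nat_lit 0) (nat_lit 1671727380) (nat_lit 420) (nat_lit 1364440691) (nat_lit 504) (nat_lit 11167668111) (nat_lit 90) (nat_lit 5) (nat_lit 95) (nat_lit 5) (nat_lit 96) (nat_lit 5) (nat_lit 374) (nat_lit 332) (nat_lit 239)) (XT.lf (nat_lit 0) (nat_lit 5325287481) (nat_lit 504) (nat_lit 5860809403) (nat_lit 84) (nat_lit 3280992395) (nat_lit 90) (nat_lit 5) (nat_lit 96) (nat_lit 5) (nat_lit 91) (nat_lit 5) (nat_lit 375) (nat_lit 332) (nat_lit 238))) (XT.nd (nat_lit 94) (nat_lit 0) (nat_lit 0) (XT.lf (nat_lit 0) (nat_lit 994312161) (nat_lit 336) (nat_lit 6694204385) (nat_lit 420) (nat_lit 7049586035) (nat_lit 86) (nat_lit 5) (nat_lit 90) (nat_lit 5) (nat_lit 91) (nat_lit 5) (nat_lit 376)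 (nat_lit 332) (nat_lit 237)) (XT.lf (nat_lit 0) (nat_lit 8153235851) (nat_lit 336) (nat_lit 2011260263) (nat_lit 420) (nat_lit 4851519503) (nat_lit 86) (nat_lit 5) (nat_lit 90) (nat_lit 5) (nat_lit 91) (nat_lit 5) (nat_lit 377) (nat_lit 332) (nat_lit 236))))) (XT.nd (nat_lit 282) (nat_lit 672) (nat_lit 0) (XT.nd (nat_lit 94) (nat_lit 84) (nat_lit 0) (XT.lf (nat_lit 0) (nat_lit 179290245) (nat_lit 420) (nat_lit 12547352747) (nat_lit 504) (nat_lit 2575290632) (nat_lit 81) (nat_lit 5) (nat_lit 86) (nat_lit 5) (nat_lit 87) (nat_lit 5) (nat_lit 378) (nat_lit 332) (nat_lit 235)) (XT.nd (nat_lit 94) (nat_lit 84) (nat_lit 0) (XT.lf (nat_lit 0) (nat_lit 7531369680) (nat_lit 420) (nat_lit 7906719051) (nat_lit 504) (nat_lit 156190918) (nat_lit 81) (nat_lit 5) (nat_lit 86) (nat_lit 5) (nat_lit 87) (nat_lit 5) (nat_lit 379) (nat_lit 332) (nat_lit 234)) (XT.lf (nat_lit 0) (nat_lit 2273624961) (nat_lit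 504) (nat_lit 835174218) (nat_lit 84) (nat_lit 12786434033) (nat_lit 80) (nat_lit 5) (nat_lit 86) (nat_lit 5) (nat_lit 81) (nat_lit 5) (nat_lit 380) (nat_lit 332) (nat_lit 233)))) (XT.nd (nat_lit 188) (nat_lit 336) (nat_lit 0) (XT.nd (nat_lit 94) (nat_lit 0) (nat_lit 0) (XT.lf (nat_lit 0) (nat_lit 4840194838) (nat_lit 420) (nat_lit 9503729474) (nat_lit 84) (nat_lit 1859256229) (nat_lit 76) (nat_lit 5) (nat_lit 81) (nat_lit 5) (nat_lit 77) (nat_lit 5) (nat_lit 381) (nat_lit 332) (nat_lit 232)) (XT.lf (nat_lit 0) (nat_lit 7507465712) (nat_lit 420) (nat_lit 2094696020) (nat_lit 84) (nat_lit 6917514331) (nat_lit 76) (nat_lit 5) (nat_lit 81) (nat_lit 5) (nat_lit 77) (nat_lit 5) (nat_lit 382) (nat_lit 332) (nat_lit 231))) (XT.nd (nat_lit 94) (nat_lit 0) (nat_lit 0) (XT.lf (nat_lit 0) (nat_lit 5626048824) (nat_lit 336) (nat_lit 4667647675) (nat_lit 420) (nat_lit 6550821980) (nat_lit 72) (nat_lit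 5) (nat_lit 76) (nat_lit 5) (nat_lit 77) (nat_lit 5) (nat_lit 383) (nat_lit 332) (nat_lit 230)) (XT.lf (nat_lit 0) (nat_lit 13173921831) (nat_lit 420) (nat_lit 3581874682) (nat_lit 84) (nat_lit 423017118) (nat_lit 72) (nat_lit 5) (nat_lit 77) (nat_lit 5) (nat_lit 73) (nat_lit 5) (nat_lit 384) (nat_lit 332) (nat_lit 229)))))) (XT.nd (nat_lit 658) (nat_lit 924) (nat_lit 0) (XT.nd (nat_lit 282) (nat_lit 252) (nat_lit 0) (XT.nd (nat_lit 94) (nat_lit 420) (nat_lit 0) (XT.lf (nat_lit 0) (nat_lit 4301581411) (nat_lit 336) (nat_lit 11912029070) (nat_lit 420) (nat_lit 1307354576) (nat_lit 68) (nat_lit 5) (nat_lit 72) (nat_lit 5) (nat_lit 73) (nat_lit 5) (nat_lit 385) (nat_lit 332) (nat_lit 228)) (XT.nd (nat_lit 94) (nat_lit 336) (nat_lit 0) (XT.lf (nat_lit 0) (nat_lit 1464495961) (nat_lit 420) (nat_lit 5411900467) (nat_lit 84) (nat_lit 10995915568) (nat_lit 67) (nat_lit 5) (nat_lit 72) (nat_lit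 5) (nat_lit 68) (nat_lit 5) (nat_lit 386) (nat_lit 332) (nat_lit 227)) (XT.lf (nat_lit 0) (nat_lit 2649069259) (nat_lit 336) (nat_lit 1655606910) (nat_lit 420) (nat_lit 13928808826) (nat_lit 63) (nat_lit 5) (nat_lit 67) (nat_lit 5) (nat_lit 68) (nat_lit 5) (nat_lit 387) (nat_lit 332) (nat_lit 226)))) (XT.nd (nat_lit 188) (nat_lit 0) (nat_lit 0) (XT.nd (nat_lit 94) (nat_lit 252) (nat_lit 0) (XT.lf (nat_lit 0) (nat_lit 7307184718) (nat_lit 420) (nat_lit 7597037815) (nat_lit 84) (nat_lit 3698973950) (nat_lit 63) (nat_lit 5) (nat_lit 68) (nat_lit 5) (nat_lit 64) (nat_lit 5) (nat_lit 388) (nat_lit 332) (nat_lit 225)) (XT.lf (nat_lit 0) (nat_lit 606299920) (nat_lit 252) (nat_lit 9802248086) (nat_lit 336) (nat_lit 8575204416) (nat_lit 60) (nat_lit 5) (nat_lit 63) (nat_lit 5) (nat_lit 64) (nat_lit 5) (nat_lit 389) (nat_lit 332) (nat_lit 224))) (XT.nd (nat_lit 94) (nat_lit 0) (nat_lit 0) (XT.lf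 (nat_lit 0) (nat_lit 9192556403) (nat_lit 252) (nat_lit 4473879858) (nat_lit 336) (nat_lit 5707400266) (nat_lit 60) (nat_lit 5) (nat_lit 63) (nat_lit 5) (nat_lit 64) (nat_lit 5) (nat_lit 390) (nat_lit 332) (nat_lit 223)) (XT.lf (nat_lit 0) (nat_lit 17018912843) (nat_lit 336) (nat_lit 1767683255) (nat_lit 84) (nat_lit 989137051) (nat_lit 60) (nat_lit 5) (nat_lit 64) (nat_lit 5) (nat_lit 61) (nat_lit 5) (nat_lit 391) (nat_lit 332) (nat_lit 222))))) (XT.nd (nat_lit 282) (nat_lit 252) (nat_lit 0) (XT.nd (nat_lit 94) (nat_lit 252) (nat_lit 0) (XT.lf (nat_lit 0) (nat_lit 376523138) (nat_lit 420) (nat_lit 13218522004) (nat_lit 84) (nat_lit 6591582148) (nat_lit 55) (nat_lit 5) (nat_lit 60) (nat_lit 5) (nat_lit 56) (nat_lit 5) (nat_lit 392) (nat_lit 332) (nat_lit 221)) (XT.nd (nat_lit 94) (nat_lit 252) (nat_lit 0) (XT.lf (nat_lit 0) (nat_lit 3554016706) (nat_lit 420) (nat_lit 4652831013) (nat_lit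 84) (nat_lit 12402029129) (nat_lit 55) (nat_lit 5) (nat_lit 60) (nat_lit 5) (nat_lit 56) (nat_lit 5) (nat_lit 393) (nat_lit 332) (nat_lit 220)) (XT.lf (nat_lit 0) (nat_lit 4234747893) (nat_lit 252) (nat_lit 2620689619) (nat_lit 336) (nat_lit 14187512119) (nat_lit 52) (nat_lit 5) (nat_lit 55) (nat_lit 5) (nat_lit 56) (nat_lit 5) (nat_lit 394) (nat_lit 332) (nat_lit 219)))) (XT.nd (nat_lit 188) (nat_lit 0) (nat_lit 0) (XT.nd (nat_lit 94) (nat_lit 252) (nat_lit 0) (XT.lf (nat_lit 0) (nat_lit 10321492730) (nat_lit 336) (nat_lit 8052745701) (nat_lit 84) (nat_lit 3113851821) (nat_lit 52) (nat_lit 5) (nat_lit 56) (nat_lit 5) (nat_lit 53) (nat_lit 5) (nat_lit 395) (nat_lit 332) (nat_lit 218)) (XT.lf (nat_lit 0) (nat_lit 940436875) (nat_lit 252) (nat_lit 12974454284) (nat_lit 336) (nat_lit 8031006106) (nat_lit 49) (nat_lit 5) (nat_lit 52) (nat_lit 5) (nat_lit 53) (nat_lit 5) (nat_lit 396) (nat_lit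 332) (nat_lit 217))) (XT.nd (nat_lit 94) (nat_lit 0) (nat_lit 0) (XT.lf (nat_lit 0) (nat_lit 10351317300) (nat_lit 252) (nat_lit 7334638820) (nat_lit 336) (nat_lit 4729399068) (nat_lit 49) (nat_lit 5) (nat_lit 52) (nat_lit 5) (nat_lit 53) (nat_lit 5) (nat_lit 397) (nat_lit 332) (nat_lit 216)) (XT.lf (nat_lit 0) (nat_lit 20027853244) (nat_lit 252) (nat_lit 1531180989) (nat_lit 336) (nat_lit 1340208451) (nat_lit 49) (nat_lit 5) (nat_lit 52) (nat_lit 5) (nat_lit 53) (nat_lit 5) (nat_lit 398) (nat_lit 332) (nat_lit 215))))))) (XT.nd (nat_lit 1316) (nat_lit 840) (nat_lit 0) (XT.nd (nat_lit 658) (nat_lit 672) (nat_lit 0) (XT.nd (nat_lit 282) (nat_lit 168) (nat_lit 0) (XT.nd (nat_lit 94) (nat_lit 252) (nat_lit 0) (XT.lf (nat_lit 0) (nat_lit 2205620442) (nat_lit 336) (nat_lit 16748459279) (nat_lit 84) (nat_lit 4440050558) (nat_lit 45) (nat_lit 5) (nat_lit 49) (nat_lit 5) (nat_lit 46) (nat_lit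 5) (nat_lit 399) (nat_lit 332) (nat_lit 214)) (XT.nd (nat_lit 94) (nat_lit 252) (nat_lit 0) (XT.lf (nat_lit 0) (nat_lit 5864525276) (nat_lit 336) (nat_lit 7441141480) (nat_lit 84) (nat_lit 10596801757) (nat_lit 45) (nat_lit 5) (nat_lit 49) (nat_lit 5) (nat_lit 46) (nat_lit 5) (nat_lit 400) (nat_lit 332) (nat_lit 213)) (XT.lf (nat_lit 0) (nat_lit 2171721453) (nat_lit 252) (nat_lit 7471861659) (nat_lit 336) (nat_lit 14782173109) (nat_lit 42) (nat_lit 5) (nat_lit 45) (nat_lit 5) (nat_lit 46) (nat_lit 5) (nat_lit 401) (nat_lit 332) (nat_lit 212)))) (XT.nd (nat_lit 188) (nat_lit 168) (nat_lit 0) (XT.nd (nat_lit 94) (nat_lit 0) (nat_lit 0) (XT.lf (nat_lit 0) (nat_lit 12209611250) (nat_lit 252) (nat_lit 1391205056) (nat_lit 336) (nat_lit 11361992729) (nat_lit 42) (nat_lit 5) (nat_lit 45) (nat_lit 5) (nat_lit 46) (nat_lit 5) (nat_lit 402) (nat_lit 332) (nat_lit 211)) (XT.lf (nat_lit 0) (nat_lit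 17713509806) (nat_lit 336) (nat_lit 3029858759) (nat_lit 84) (nat_lit 4771512846) (nat_lit 42) (nat_lit 5) (nat_lit 46) (nat_lit 5) (nat_lit 43) (nat_lit 5) (nat_lit 403) (nat_lit 332) (nat_lit 210))) (XT.nd (nat_lit 94) (nat_lit 0) (nat_lit 0) (XT.lf (nat_lit 0) (nat_lit 7094612961) (nat_lit 168) (nat_lit 14927148947) (nat_lit 252) (nat_lit 4059598695) (nat_lit 40) (nat_lit 5) (nat_lit 42) (nat_lit 5) (nat_lit 43) (nat_lit 5) (nat_lit 404) (nat_lit 332) (nat_lit 209)) (XT.lf (nat_lit 0) (nat_lit 17569842707) (nat_lit 168) (nat_lit 8910360491) (nat_lit 252) (nat_lit 184012411) (nat_lit 40) (nat_lit 5) (nat_lit 42) (nat_lit 5) (nat_lit 43) (nat_lit 5) (nat_lit 405) (nat_lit 332) (nat_lit 208))))) (XT.nd (nat_lit 282) (nat_lit 336) (nat_lit 0) (XT.nd (nat_lit 94) (nat_lit 0) (nat_lit 0) (XT.lf (nat_lit 0) (nat_lit 1064090431) (nat_lit 252) (nat_lit 2670200171) (nat_lit 336) (nat_lit 23529154078)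 (nat_lit 36) (nat_lit 5) (nat_lit 39) (nat_lit 5) (nat_lit 40) (nat_lit 5) (nat_lit 406) (nat_lit 332) (nat_lit 207)) (XT.nd (nat_lit 94) (nat_lit 0) (nat_lit 0) (XT.lf (nat_lit 0) (nat_lit 7885913334) (nat_lit 336) (nat_lit 16217945129) (nat_lit 84) (nat_lit 3773162296) (nat_lit 36) (nat_lit 5) (nat_lit 40) (nat_lit 5) (nat_lit 37) (nat_lit 5) (nat_lit 407) (nat_lit 332) (nat_lit 206)) (XT.lf (nat_lit 0) (nat_lit 12179404248) (nat_lit 336) (nat_lit 5978031968) (nat_lit 84) (nat_lit 10351056926) (nat_lit 36) (nat_lit 5) (nat_lit 40) (nat_lit 5) (nat_lit 37) (nat_lit 5) (nat_lit 408) (nat_lit 332) (nat_lit 205)))) (XT.nd (nat_lit 188) (nat_lit 168) (nat_lit 0) (XT.nd (nat_lit 94) (nat_lit 0) (nat_lit 0) (XT.lf (nat_lit 0) (nat_lit 4645653767) (nat_lit 168) (nat_lit 11991850440) (nat_lit 252) (nat_lit 12520339716) (nat_lit 34) (nat_lit 5) (nat_lit 36) (nat_lit 5) (nat_lit 37) (nat_lit 5)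 (nat_lit 409) (nat_lit 332) (nat_lit 204)) (XT.lf (nat_lit 0) (nat_lit 15696653633) (nat_lit 168) (nat_lit 5584331224) (nat_lit 252) (nat_lit 8544149352) (nat_lit 34) (nat_lit 5) (nat_lit 36) (nat_lit 5) (nat_lit 37) (nat_lit 5) (nat_lit 410) (nat_lit 332) (nat_lit 203))) (XT.nd (nat_lit 94) (nat_lit 168) (nat_lit 0) (XT.lf (nat_lit 0) (nat_lit 26065007590) (nat_lit 252) (nat_lit 3456768170) (nat_lit 84) (nat_lit 990638190) (nat_lit 34) (nat_lit 5) (nat_lit 37) (nat_lit 5) (nat_lit 35) (nat_lit 5) (nat_lit 411) (nat_lit 332) (nat_lit 202)) (XT.lf (nat_lit 0) (nat_lit 7615055088) (nat_lit 168) (nat_lit 23497712027) (nat_lit 252) (nat_lit 103946131) (nat_lit 32) (nat_lit 5) (nat_lit 34) (nat_lit 5) (nat_lit 35) (nat_lit 5) (nat_lit 412) (nat_lit 332) (nat_lit 201)))))) (XT.nd (nat_lit 658) (nat_lit 420) (nat_lit 0) (XT.nd (nat_lit 282) (nat_lit 168) (nat_lit 0) (XT.nd (nat_lit 94) (nat_lit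 168) (nat_lit 0) (XT.lf (nat_lit 0) (nat_lit 4311550231) (nat_lit 252) (nat_lit 12906939684) (nat_lit 84) (nat_lit 14721588557) (nat_lit 31) (nat_lit 5) (nat_lit 34) (nat_lit 5) (nat_lit 32) (nat_lit 5) (nat_lit 413) (nat_lit 332) (nat_lit 200)) (XT.nd (nat_lit 94) (nat_lit 168) (nat_lit 0) (XT.lf (nat_lit 0) (nat_lit 8849413557) (nat_lit 252) (nat_lit 1905406678) (nat_lit 84) (nat_lit 21930540804) (nat_lit 31) (nat_lit 5) (nat_lit 34) (nat_lit 5) (nat_lit 32) (nat_lit 5) (nat_lit 414) (nat_lit 332) (nat_lit 199)) (XT.lf (nat_lit 0) (nat_lit 9600901206) (nat_lit 168) (nat_lit 4007025862) (nat_lit 252) (nat_lit 19842546381) (nat_lit 29) (nat_lit 5) (nat_lit 31) (nat_lit 5) (nat_lit 32) (nat_lit 5) (nat_lit 415) (nat_lit 332) (nat_lit 198)))) (XT.nd (nat_lit 188) (nat_lit 168) (nat_lit 0) (XT.nd (nat_lit 94) (nat_lit 0) (nat_lit 0) (XT.lf (nat_lit 0) (nat_lit 18549203731) (nat_lit 252) (nat_lit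 12787672905) (nat_lit 84) (nat_lit 2900468959) (nat_lit 29) (nat_lit 5) (nat_lit 32) (nat_lit 5) (nat_lit 30) (nat_lit 5) (nat_lit 416) (nat_lit 332) (nat_lit 197)) (XT.lf (nat_lit 0) (nat_lit 23670901449) (nat_lit 252) (nat_lit 1445906451) (nat_lit 84) (nat_lit 9930056927) (nat_lit 29) (nat_lit 5) (nat_lit 32) (nat_lit 5) (nat_lit 30) (nat_lit 5) (nat_lit 417) (nat_lit 332) (nat_lit 196))) (XT.nd (nat_lit 94) (nat_lit 0) (nat_lit 0) (XT.lf (nat_lit 0) (nat_lit 10427636124) (nat_lit 168) (nat_lit 18611578202) (nat_lit 252) (nat_lit 6838672601) (nat_lit 27) (nat_lit 5) (nat_lit 29) (nat_lit 5) (nat_lit 30) (nat_lit 5) (nat_lit 418) (nat_lit 332) (nat_lit 195)) (XT.lf (nat_lit 0) (nat_lit 22675184260) (nat_lit 168) (nat_lit 11900818565) (nat_lit 252) (nat_lit 2157620114) (nat_lit 27) (nat_lit 5) (nat_lit 29) (nat_lit 5) (nat_lit 30) (nat_lit 5) (nat_lit 419) (nat_lit 332) (nat_lit 194)))))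 (XT.nd (nat_lit 282) (nat_lit 168) (nat_lit 0) (XT.nd (nat_lit 94) (nat_lit 168) (nat_lit 0) (XT.lf (nat_lit 0) (nat_lit 2604842039) (nat_lit 252) (nat_lit 2362120202) (nat_lit 84) (nat_lit 32647517490) (nat_lit 26) (nat_lit 5) (nat_lit 29) (nat_lit 5) (nat_lit 27) (nat_lit 5) (nat_lit 420) (nat_lit 332) (nat_lit 193)) (XT.nd (nat_lit 94) (nat_lit 0) (nat_lit 0) (XT.lf (nat_lit 0) (nat_lit 7576620437) (nat_lit 252) (nat_lit 28695979922) (nat_lit 84) (nat_lit 2245232261) (nat_lit 24) (nat_lit 5) (nat_lit 27) (nat_lit 5) (nat_lit 25) (nat_lit 5) (nat_lit 421) (nat_lit 332) (nat_lit 192)) (XT.lf (nat_lit 0) (nat_lit 12764032463) (nat_lit 252) (nat_lit 17088574957) (nat_lit 84) (nat_lit 9593689632) (nat_lit 24) (nat_lit 5) (nat_lit 27) (nat_lit 5) (nat_lit 25) (nat_lit 5) (nat_lit 422) (nat_lit 332) (nat_lit 191)))) (XT.nd (nat_lit 188) (nat_lit 0) (nat_lit 0) (XT.nd (nat_lit 94) (nat_lit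 168) (nat_lit 0) (XT.lf (nat_lit 0) (nat_lit 18100477997) (nat_lit 252) (nat_lit 5143973446) (nat_lit 84) (nat_lit 17158366846) (nat_lit 24) (nat_lit 5) (nat_lit 27) (nat_lit 5) (nat_lit 25) (nat_lit 5) (nat_lit 423) (nat_lit 332) (nat_lit 190)) (XT.lf (nat_lit 0) (nat_lit 7290526065) (nat_lit 168) (nat_lit 16370174886) (nat_lit 252) (nat_lit 17725428748) (nat_lit 22) (nat_lit 5) (nat_lit 24) (nat_lit 5) (nat_lit 25) (nat_lit 5) (nat_lit 424) (nat_lit 332) (nat_lit 189))) (XT.nd (nat_lit 94) (nat_lit 0) (nat_lit 0) (XT.lf (nat_lit 0) (nat_lit 20192907452) (nat_lit 168) (nat_lit 9240454672) (nat_lit 252) (nat_lit 12964214288) (nat_lit 22) (nat_lit 5) (nat_lit 24) (nat_lit 5) (nat_lit 25) (nat_lit 5) (nat_lit 425) (nat_lit 332) (nat_lit 188)) (XT.lf (nat_lit 0) (nat_lit 33472069483) (nat_lit 168) (nat_lit 1901004995) (nat_lit 252) (nat_lit 8066480673) (nat_lit 22) (nat_lit 5) (nat_lit 24)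 (nat_lit 5) (nat_lit 25) (nat_lit 5) (nat_lit 426) (nat_lit 332) (nat_lit 187))))))))
noncomputable def xc126 : XT := (XT.nd (nat_lit 51136) (nat_lit 0) (nat_lit 8316) (XT.nd (nat_lit 1222) (nat_lit 84) (nat_lit 0) (XT.nd (nat_lit 564) (nat_lit 336) (nat_lit 0) (XT.nd (nat_lit 282) (nat_lit 168) (nat_lit 0) (XT.nd (nat_lit 94) (nat_lit 84) (nat_lit 0) (XT.lf (nat_lit 0) (nat_lit 2623477059) (nat_lit 84) (nat_lit 38941124812) (nat_lit 168) (nat_lit 2945987298) (nat_lit 21) (nat_lit 5) (nat_lit 22) (nat_lit 5) (nat_lit 23) (nat_lit 4) (nat_lit 427) (nat_lit 332) (nat_lit 186)) (XT.nd (nat_lit 94) (nat_lit 0) (nat_lit 0) (XT.lf (nat_lit 0) (nat_lit 2397187344) (nat_lit 168) (nat_lit 29866599244) (nat_lit 84) (nat_lit 13345865706) (nat_lit 20) (nat_lit 5) (nat_lit 22) (nat_lit 5) (nat_lit 21) (nat_lit 5) (nat_lit 428) (nat_lit 332) (nat_lit 185)) (XT.lf (nat_lit 0) (nat_lit 7835645838) (nat_lit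 168) (nat_lit 17524502523) (nat_lit 84) (nat_lit 21380842138) (nat_lit 20) (nat_lit 5) (nat_lit 22) (nat_lit 5) (nat_lit 21) (nat_lit 5) (nat_lit 429) (nat_lit 332) (nat_lit 184)))) (XT.nd (nat_lit 94) (nat_lit 168) (nat_lit 0) (XT.lf (nat_lit 0) (nat_lit 13431627058) (nat_lit 168) (nat_lit 4821718961) (nat_lit 84) (nat_lit 29653095873) (nat_lit 20) (nat_lit 5) (nat_lit 22) (nat_lit 5) (nat_lit 21) (nat_lit 5) (nat_lit 430) (nat_lit 332) (nat_lit 183)) (XT.nd (nat_lit 94) (nat_lit 0) (nat_lit 0) (XT.lf (nat_lit 0) (nat_lit 8417098878) (nat_lit 168) (nat_lit 10853832122) (nat_lit 252) (nat_lit 29833666519) (nat_lit 18) (nat_lit 5) (nat_lit 20) (nat_lit 5) (nat_lit 21) (nat_lit 5) (nat_lit 431) (nat_lit 332) (nat_lit 182)) (XT.lf (nat_lit 0) (nat_lit 22142715769) (nat_lit 168) (nat_lit 3185991922) (nat_lit 252) (nat_lit 25008695191) (nat_lit 18) (nat_lit 5) (nat_lit 20) (nat_lit 5) (nat_lit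 21) (nat_lit 5) (nat_lit 432) (nat_lit 332) (nat_lit 181))))) (XT.nd (nat_lit 282) (nat_lit 252) (nat_lit 0) (XT.nd (nat_lit 94) (nat_lit 84) (nat_lit 0) (XT.lf (nat_lit 0) (nat_lit 31608236529) (nat_lit 252) (nat_lit 15381447987) (nat_lit 84) (nat_lit 4616311085) (nat_lit 18) (nat_lit 5) (nat_lit 21) (nat_lit 5) (nat_lit 19) (nat_lit 4) (nat_lit 433) (nat_lit 332) (nat_lit 180)) (XT.nd (nat_lit 94) (nat_lit 84) (nat_lit 0) (XT.lf (nat_lit 0) (nat_lit 38102574678) (nat_lit 252) (nat_lit 2224155425) (nat_lit 84) (nat_lit 12585126948) (nat_lit 18) (nat_lit 5) (nat_lit 21) (nat_lit 5) (nat_lit 19) (nat_lit 4) (nat_lit 434) (nat_lit 332) (nat_lit 179)) (XT.lf (nat_lit 0) (nat_lit 11544589462) (nat_lit 84) (nat_lit 33353155292) (nat_lit 168) (nat_lit 9355973082) (nat_lit 17) (nat_lit 5) (nat_lit 18) (nat_lit 5) (nat_lit 19) (nat_lit 4) (nat_lit 435) (nat_lit 332) (nat_lit 178)))) (XT.nd (nat_lit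 188) (nat_lit 168) (nat_lit 0) (XT.nd (nat_lit 94) (nat_lit 84) (nat_lit 0) (XT.lf (nat_lit 0) (nat_lit 25763530483) (nat_lit 84) (nat_lit 26150790683) (nat_lit 168) (nat_lit 3720990185) (nat_lit 17) (nat_lit 5) (nat_lit 18) (nat_lit 5) (nat_lit 19) (nat_lit 4) (nat_lit 436) (nat_lit 332) (nat_lit 177)) (XT.lf (nat_lit 0) (nat_lit 2037578670) (nat_lit 168) (nat_lit 16677648337) (nat_lit 84) (nat_lit 38342672680) (nat_lit 16) (nat_lit 5) (nat_lit 18) (nat_lit 5) (nat_lit 17) (nat_lit 5) (nat_lit 437) (nat_lit 332) (nat_lit 176))) (XT.nd (nat_lit 94) (nat_lit 168) (nat_lit 0) (XT.lf (nat_lit 0) (nat_lit 7889440767) (nat_lit 168) (nat_lit 3132603147) (nat_lit 84) (nat_lit 47500159934) (nat_lit 16) (nat_lit 5) (nat_lit 18) (nat_lit 5) (nat_lit 17) (nat_lit 5) (nat_lit 438) (nat_lit 332) (nat_lit 175)) (XT.lf (nat_lit 0) (nat_lit 11026117886) (nat_lit 168) (nat_lit 2992191209) (nat_lit 252)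 (nat_lit 46009087586) (nat_lit 14) (nat_lit 5) (nat_lit 16) (nat_lit 5) (nat_lit 17) (nat_lit 5) (nat_lit 439) (nat_lit 332) (nat_lit 174)))))) (XT.nd (nat_lit 49256) (nat_lit 0) (nat_lit 16212) (XT.nd (nat_lit 282) (nat_lit 84) (nat_lit 0) (XT.nd (nat_lit 94) (nat_lit 0) (nat_lit 0) (XT.lf (nat_lit 0) (nat_lit 20409217269) (nat_lit 252) (nat_lit 35961898284) (nat_lit 84) (nat_lit 5204287501) (nat_lit 14) (nat_lit 5) (nat_lit 17) (nat_lit 5) (nat_lit 15) (nat_lit 4) (nat_lit 440) (nat_lit 332) (nat_lit 173)) (XT.nd (nat_lit 94) (nat_lit 0) (nat_lit 0) (XT.lf (nat_lit 0) (nat_lit 27017096526) (nat_lit 252) (nat_lit 22568596872) (nat_lit 84) (nat_lit 13583401790) (nat_lit 14) (nat_lit 5) (nat_lit 17) (nat_lit 5) (nat_lit 15) (nat_lit 4) (nat_lit 441) (nat_lit 332) (nat_lit 172)) (XT.lf (nat_lit 0) (nat_lit 33818957967) (nat_lit 252) (nat_lit 8780908903) (nat_lit 84) (nat_lit 22210861641)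 (nat_lit 14) (nat_lit 5) (nat_lit 17) (nat_lit 5) (nat_lit 15) (nat_lit 4) (nat_lit 442) (nat_lit 332) (nat_lit 171)))) (XT.nd (nat_lit 188) (nat_lit 0) (nat_lit 0) (XT.nd (nat_lit 94) (nat_lit 0) (nat_lit 0) (XT.lf (nat_lit 0) (nat_lit 5520946674) (nat_lit 84) (nat_lit 35352869009) (nat_lit 168) (nat_lit 25626329653) (nat_lit 13) (nat_lit 5) (nat_lit 14) (nat_lit 5) (nat_lit 15) (nat_lit 4) (nat_lit 443) (nat_lit 332) (nat_lit 170)) (XT.lf (nat_lit 0) (nat_lit 20424731910) (nat_lit 84) (nat_lit 27800178699) (nat_lit 168) (nat_lit 20012798952) (nat_lit 13) (nat_lit 5) (nat_lit 14) (nat_lit 5) (nat_lit 15) (nat_lit 4) (nat_lit 444) (nat_lit 332) (nat_lit 169))) (XT.nd (nat_lit 94) (nat_lit 0) (nat_lit 0) (XT.lf (nat_lit 0) (nat_lit 35768712226) (nat_lit 84) (nat_lit 20023866464) (nat_lit 168) (nat_lit 14234943375) (nat_lit 13) (nat_lit 5) (nat_lit 14) (nat_lit 5) (nat_lit 15) (nat_lit 4)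 (nat_lit 445) (nat_lit 332) (nat_lit 168)) (XT.lf (nat_lit 0) (nat_lit 51566294983) (nat_lit 84) (nat_lit 12017137467) (nat_lit 168) (nat_lit 8287714313) (nat_lit 13) (nat_lit 5) (nat_lit 14) (nat_lit 5) (nat_lit 15) (nat_lit 4) (nat_lit 446) (nat_lit 332) (nat_lit 167))))) (XT.nd (nat_lit 282) (nat_lit 924) (nat_lit 0) (XT.nd (nat_lit 94) (nat_lit 0) (nat_lit 0) (XT.lf (nat_lit 0) (nat_lit 609160670) (nat_lit 0) (nat_lit 609160670) (nat_lit 924) (nat_lit 2711373162) (nat_lit 217) (nat_lit 5) (nat_lit 217) (nat_lit 3) (nat_lit 228) (nat_lit 3) (nat_lit 333) (nat_lit 333) (nat_lit 279)) (XT.nd (nat_lit 94) (nat_lit 0) (nat_lit 0) (XT.lf (nat_lit 0) (nat_lit 3657272359) (nat_lit 924) (nat_lit 3197858153) (nat_lit 1008) (nat_lit 1084062711) (nat_lit 217) (nat_lit 5) (nat_lit 228) (nat_lit 3) (nat_lit 229) (nat_lit 5) (nat_lit 334) (nat_lit 333) (nat_lit 278)) (XT.lf (nat_lit 84) (nat_lit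 318201966) (nat_lit 0) (nat_lit 4565863863) (nat_lit 1008) (nat_lit 3138339464) (nat_lit 218) (nat_lit 5) (nat_lit 217) (nat_lit 5) (nat_lit 229) (nat_lit 5) (nat_lit 335) (nat_lit 333) (nat_lit 277)))) (XT.nd (nat_lit 188) (nat_lit 924) (nat_lit 0) (XT.nd (nat_lit 94) (nat_lit 0) (nat_lit 84) (XT.lf (nat_lit 84) (nat_lit 3980945591) (nat_lit 0) (nat_lit 2154526563) (nat_lit 1008) (nat_lit 1973104460) (nat_lit 218) (nat_lit 5) (nat_lit 217) (nat_lit 5) (nat_lit 229) (nat_lit 5) (nat_lit 336) (nat_lit 333) (nat_lit 276)) (XT.lf (nat_lit 0) (nat_lit 7384585126) (nat_lit 924) (nat_lit 472145381) (nat_lit 1008) (nat_lit 341891963) (nat_lit 218) (nat_lit 5) (nat_lit 229) (nat_lit 5) (nat_lit 230) (nat_lit 5) (nat_lit 337) (nat_lit 333) (nat_lit 275))) (XT.nd (nat_lit 94) (nat_lit 0) (nat_lit 0) (XT.lf (nat_lit 0) (nat_lit 383833749) (nat_lit 1008) (nat_lit 4983068748) (nat_lit 1092) (nat_lit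 2924103294) (nat_lit 206) (nat_lit 5) (nat_lit 218) (nat_lit 5) (nat_lit 219) (nat_lit 5) (nat_lit 338) (nat_lit 333) (nat_lit 274)) (XT.lf (nat_lit 0) (nat_lit 1564839541) (nat_lit 1008) (nat_lit 1208176705) (nat_lit 1092) (nat_lit 5614082101) (nat_lit 206) (nat_lit 5) (nat_lit 218) (nat_lit 5) (nat_lit 219) (nat_lit 5) (nat_lit 339) (nat_lit 333) (nat_lit 273))))))) (XT.nd (nat_lit 1316) (nat_lit 4788) (nat_lit 0) (XT.nd (nat_lit 658) (nat_lit 2184) (nat_lit 0) (XT.nd (nat_lit 282) (nat_lit 924) (nat_lit 0) (XT.nd (nat_lit 94) (nat_lit 0) (nat_lit 84) (XT.lf (nat_lit 84) (nat_lit 2708392592) (nat_lit 0) (nat_lit 58864206) (nat_lit 1092) (nat_lit 5719321253) (nat_lit 207) (nat_lit 5) (nat_lit 206) (nat_lit 5) (nat_lit 219) (nat_lit 5) (nat_lit 340) (nat_lit 333) (nat_lit 272)) (XT.nd (nat_lit 94) (nat_lit 0) (nat_lit 0) (XT.lf (nat_lit 0) (nat_lit 4005398868) (nat_lit 1008) (nat_lit 1873457620)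 (nat_lit 1092) (nat_lit 2710277459) (nat_lit 207) (nat_lit 5) (nat_lit 219) (nat_lit 5) (nat_lit 220) (nat_lit 5) (nat_lit 341) (nat_lit 333) (nat_lit 271)) (XT.lf (nat_lit 84) (nat_lit 2165246891) (nat_lit 0) (nat_lit 3098994345) (nat_lit 1092) (nat_lit 3431097603) (nat_lit 208) (nat_lit 5) (nat_lit 207) (nat_lit 5) (nat_lit 220) (nat_lit 5) (nat_lit 342) (nat_lit 333) (nat_lit 270)))) (XT.nd (nat_lit 188) (nat_lit 1008) (nat_lit 0) (XT.nd (nat_lit 94) (nat_lit 0) (nat_lit 84) (XT.lf (nat_lit 84) (nat_lit 6338925941) (nat_lit 0) (nat_lit 203866496) (nat_lit 1092) (nat_lit 2262555831) (nat_lit 208) (nat_lit 5) (nat_lit 207) (nat_lit 5) (nat_lit 220) (nat_lit 5) (nat_lit 343) (nat_lit 333) (nat_lit 269)) (XT.lf (nat_lit 84) (nat_lit 1700493814) (nat_lit 0) (nat_lit 6166475312) (nat_lit 1092) (nat_lit 1051545252) (nat_lit 209) (nat_lit 5) (nat_lit 208) (nat_lit 5) (nat_lit 221) (nat_lit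 5) (nat_lit 344) (nat_lit 333) (nat_lit 268))) (XT.nd (nat_lit 94) (nat_lit 0) (nat_lit 0) (XT.lf (nat_lit 0) (nat_lit 183749572) (nat_lit 1092) (nat_lit 3021168340) (nat_lit 1176) (nat_lit 5830418046) (nat_lit 195) (nat_lit 5) (nat_lit 208) (nat_lit 5) (nat_lit 209) (nat_lit 5) (nat_lit 345) (nat_lit 333) (nat_lit 267)) (XT.lf (nat_lit 84) (nat_lit 1291457201) (nat_lit 0) (nat_lit 121559766) (nat_lit 1176) (nat_lit 7743059562) (nat_lit 196) (nat_lit 5) (nat_lit 195) (nat_lit 5) (nat_lit 209) (nat_lit 5) (nat_lit 346) (nat_lit 333) (nat_lit 266))))) (XT.nd (nat_lit 282) (nat_lit 2268) (nat_lit 0) (XT.nd (nat_lit 94) (nat_lit 0) (nat_lit 0) (XT.lf (nat_lit 0) (nat_lit 2705816086) (nat_lit 1092) (nat_lit 3539630994) (nat_lit 1176) (nat_lit 3034258788) (nat_lit 196) (nat_lit 5) (nat_lit 209) (nat_lit 5) (nat_lit 210) (nat_lit 5) (nat_lit 347) (nat_lit 333) (nat_lit 265)) (XT.nd (nat_lit 94)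 (nat_lit 0) (nat_lit 84) (XT.lf (nat_lit 84) (nat_lit 906507647) (nat_lit 0) (nat_lit 3108269168) (nat_lit 1176) (nat_lit 5393010175) (nat_lit 197) (nat_lit 5) (nat_lit 196) (nat_lit 5) (nat_lit 210) (nat_lit 5) (nat_lit 348) (nat_lit 333) (nat_lit 264)) (XT.lf (nat_lit 0) (nat_lit 5368522550) (nat_lit 1092) (nat_lit 4007508887) (nat_lit 84) (nat_lit 163575988) (nat_lit 197) (nat_lit 5) (nat_lit 210) (nat_lit 5) (nat_lit 198) (nat_lit 5) (nat_lit 349) (nat_lit 333) (nat_lit 263)))) (XT.nd (nat_lit 188) (nat_lit 1260) (nat_lit 0) (XT.nd (nat_lit 94) (nat_lit 0) (nat_lit 0) (XT.lf (nat_lit 0) (nat_lit 576378440) (nat_lit 1092) (nat_lit 6191979187) (nat_lit 1176) (nat_lit 2906921082) (nat_lit 184) (nat_lit 5) (nat_lit 197) (nat_lit 5) (nat_lit 198) (nat_lit 5) (nat_lit 350) (nat_lit 333) (nat_lit 262)) (XT.lf (nat_lit 0) (nat_lit 5355010622) (nat_lit 1092) (nat_lit 2865465288) (nat_lit 1176)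 (nat_lit 1594294361) (nat_lit 184) (nat_lit 5) (nat_lit 197) (nat_lit 5) (nat_lit 198) (nat_lit 5) (nat_lit 351) (nat_lit 333) (nat_lit 261))) (XT.nd (nat_lit 94) (nat_lit 84) (nat_lit 0) (XT.lf (nat_lit 0) (nat_lit 293714378) (nat_lit 1176) (nat_lit 9401406170) (nat_lit 1260) (nat_lit 264014219) (nat_lit 170) (nat_lit 5) (nat_lit 184) (nat_lit 5) (nat_lit 185) (nat_lit 5) (nat_lit 352) (nat_lit 333) (nat_lit 260)) (XT.lf (nat_lit 0) (nat_lit 1129463232) (nat_lit 1260) (nat_lit 4890280568) (nat_lit 84) (nat_lit 4086474964) (nat_lit 169) (nat_lit 5) (nat_lit 184) (nat_lit 5) (nat_lit 170) (nat_lit 5) (nat_lit 353) (nat_lit 333) (nat_lit 259)))))) (XT.nd (nat_lit 658) (nat_lit 2268) (nat_lit 0) (XT.nd (nat_lit 282) (nat_lit 1260) (nat_lit 0) (XT.nd (nat_lit 94) (nat_lit 0) (nat_lit 0) (XT.lf (nat_lit 0) (nat_lit 692881) (nat_lit 1260) (nat_lit 2530619053) (nat_lit 1344) (nat_lit 7727220956)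 (nat_lit 154) (nat_lit 5) (nat_lit 169) (nat_lit 5) (nat_lit 170) (nat_lit 5) (nat_lit 354) (nat_lit 333) (nat_lit 258)) (XT.nd (nat_lit 94) (nat_lit 0) (nat_lit 0) (XT.lf (nat_lit 0) (nat_lit 4007785648) (nat_lit 1344) (nat_lit 5311484887) (nat_lit 84) (nat_lit 1095219524) (nat_lit 154) (nat_lit 5) (nat_lit 170) (nat_lit 5) (nat_lit 155) (nat_lit 5) (nat_lit 355) (nat_lit 333) (nat_lit 257)) (XT.lf (nat_lit 0) (nat_lit 5526889248) (nat_lit 1344) (nat_lit 266535078) (nat_lit 84) (nat_lit 4781800776) (nat_lit 154) (nat_lit 5) (nat_lit 170) (nat_lit 5) (nat_lit 155) (nat_lit 5) (nat_lit 356) (nat_lit 333) (nat_lit 256)))) (XT.nd (nat_lit 188) (nat_lit 672) (nat_lit 0) (XT.nd (nat_lit 94) (nat_lit 0) (nat_lit 0) (XT.lf (nat_lit 0) (nat_lit 5003377397) (nat_lit 588) (nat_lit 2110342375) (nat_lit 672) (nat_lit 3626445607) (nat_lit 147) (nat_lit 5) (nat_lit 154) (nat_lit 5) (nat_lit 155) (nat_lit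 5) (nat_lit 357) (nat_lit 333) (nat_lit 255)) (XT.lf (nat_lit 0) (nat_lit 8741654519) (nat_lit 672) (nat_lit 513937841) (nat_lit 84) (nat_lit 1654702928) (nat_lit 147) (nat_lit 5) (nat_lit 155) (nat_lit 5) (nat_lit 148) (nat_lit 5) (nat_lit 358) (nat_lit 333) (nat_lit 254))) (XT.nd (nat_lit 94) (nat_lit 84) (nat_lit 0) (XT.lf (nat_lit 0) (nat_lit 4916754910) (nat_lit 588) (nat_lit 5545170432) (nat_lit 672) (nat_lit 622343864) (nat_lit 140) (nat_lit 5) (nat_lit 147) (nat_lit 5) (nat_lit 148) (nat_lit 5) (nat_lit 359) (nat_lit 333) (nat_lit 253)) (XT.lf (nat_lit 0) (nat_lit 932197569) (nat_lit 672) (nat_lit 775968747) (nat_lit 84) (nat_lit 9555634951) (nat_lit 139) (nat_lit 5) (nat_lit 147) (nat_lit 5) (nat_lit 140) (nat_lit 5) (nat_lit 360) (nat_lit 333) (nat_lit 252))))) (XT.nd (nat_lit 282) (nat_lit 1092) (nat_lit 0) (XT.nd (nat_lit 94) (nat_lit 588) (nat_lit 0) (XT.lf (nat_lit 0) (nat_lit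 2565768639) (nat_lit 672) (nat_lit 6627818886) (nat_lit 84) (nat_lit 2253641085) (nat_lit 132) (nat_lit 5) (nat_lit 140) (nat_lit 5) (nat_lit 133) (nat_lit 5) (nat_lit 361) (nat_lit 333) (nat_lit 251)) (XT.nd (nat_lit 94) (nat_lit 588) (nat_lit 0) (XT.lf (nat_lit 0) (nat_lit 4249902294) (nat_lit 672) (nat_lit 1078348161) (nat_lit 84) (nat_lit 6307901681) (nat_lit 132) (nat_lit 5) (nat_lit 140) (nat_lit 5) (nat_lit 133) (nat_lit 5) (nat_lit 362) (nat_lit 333) (nat_lit 250)) (XT.lf (nat_lit 0) (nat_lit 4706148860) (nat_lit 588) (nat_lit 1301056830) (nat_lit 672) (nat_lit 5822897169) (nat_lit 125) (nat_lit 5) (nat_lit 132) (nat_lit 5) (nat_lit 133) (nat_lit 5) (nat_lit 363) (nat_lit 333) (nat_lit 249)))) (XT.nd (nat_lit 188) (nat_lit 588) (nat_lit 0) (XT.nd (nat_lit 94) (nat_lit 504) (nat_lit 0) (XT.lf (nat_lit 0) (nat_lit 7833426825) (nat_lit 672) (nat_lit 1394491109) (nat_lit 84) (nat_lit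 2801505941) (nat_lit 125) (nat_lit 5) (nat_lit 133) (nat_lit 5) (nat_lit 126) (nat_lit 5) (nat_lit 364) (nat_lit 333) (nat_lit 248)) (XT.lf (nat_lit 0) (nat_lit 4559888632) (nat_lit 504) (nat_lit 5189740705) (nat_lit 588) (nat_lit 2484075974) (nat_lit 119) (nat_lit 5) (nat_lit 125) (nat_lit 5) (nat_lit 126) (nat_lit 5) (nat_lit 365) (nat_lit 333) (nat_lit 247))) (XT.nd (nat_lit 94) (nat_lit 588) (nat_lit 0) (XT.lf (nat_lit 0) (nat_lit 10698646459) (nat_lit 504) (nat_lit 1017640882) (nat_lit 588) (nat_lit 728074331) (nat_lit 119) (nat_lit 5) (nat_lit 125) (nat_lit 5) (nat_lit 126) (nat_lit 5) (nat_lit 366) (nat_lit 333) (nat_lit 246)) (XT.lf (nat_lit 0) (nat_lit 1113240961) (nat_lit 588) (nat_lit 8279097350) (nat_lit 84) (nat_lit 3267109708) (nat_lit 112) (nat_lit 5) (nat_lit 119) (nat_lit 5) (nat_lit 113) (nat_lit 5) (nat_lit 367) (nat_lit 333) (nat_lit 245))))))))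
noncomputable def xc127 : XT := (XT.nd (nat_lit 2632) (nat_lit 2352) (nat_lit 0) (XT.nd (nat_lit 1316) (nat_lit 2016) (nat_lit 0) (XT.nd (nat_lit 658) (nat_lit 1596) (nat_lit 0) (XT.nd (nat_lit 282) (nat_lit 1008) (nat_lit 0) (XT.nd (nat_lit 94) (nat_lit 420) (nat_lit 0) (XT.lf (nat_lit 0) (nat_lit 3002675410) (nat_lit 588) (nat_lit 2194954355) (nat_lit 84) (nat_lit 7682948081) (nat_lit 112) (nat_lit 5) (nat_lit 119) (nat_lit 5) (nat_lit 113) (nat_lit 5) (nat_lit 368) (nat_lit 333) (nat_lit 244)) (XT.nd (nat_lit 94) (nat_lit 0) (nat_lit 0) (XT.lf (nat_lit 0) (nat_lit 4129952319) (nat_lit 420) (nat_lit 838768141) (nat_lit 504) (nat_lit 8139054878) (nat_lit 107) (nat_lit 5) (nat_lit 112) (nat_lit 5) (nat_lit 113) (nat_lit 5) (nat_lit 369) (nat_lit 333) (nat_lit 243)) (XT.lf (nat_lit 0) (nat_lit 7031790254) (nat_lit 504) (nat_lit 2709555456) (nat_lit 84) (nat_lit 3599332423) (nat_lit 107)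 (nat_lit 5) (nat_lit 113) (nat_lit 5) (nat_lit 108) (nat_lit 5) (nat_lit 370) (nat_lit 333) (nat_lit 242)))) (XT.nd (nat_lit 188) (nat_lit 504) (nat_lit 0) (XT.nd (nat_lit 94) (nat_lit 0) (nat_lit 0) (XT.lf (nat_lit 0) (nat_lit 3790362323) (nat_lit 504) (nat_lit 5392260715) (nat_lit 588) (nat_lit 4397198632) (nat_lit 101) (nat_lit 5) (nat_lit 107) (nat_lit 5) (nat_lit 108) (nat_lit 5) (nat_lit 371) (nat_lit 333) (nat_lit 241)) (XT.lf (nat_lit 0) (nat_lit 10518980312) (nat_lit 504) (nat_lit 887832308) (nat_lit 588) (nat_lit 2419090855) (nat_lit 101) (nat_lit 5) (nat_lit 107) (nat_lit 5) (nat_lit 108) (nat_lit 5) (nat_lit 372) (nat_lit 333) (nat_lit 240))) (XT.nd (nat_lit 94) (nat_lit 84) (nat_lit 0) (XT.lf (nat_lit 0) (nat_lit 3378204849) (nat_lit 420) (nat_lit 10370039733) (nat_lit 504) (nat_lit 329635726) (nat_lit 96) (nat_lit 5) (nat_lit 101) (nat_lit 5) (nat_lit 102) (nat_lit 5) (nat_lit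 373) (nat_lit 333) (nat_lit 239)) (XT.lf (nat_lit 0) (nat_lit 1811549281) (nat_lit 504) (nat_lit 4053290257) (nat_lit 84) (nat_lit 8471339508) (nat_lit 95) (nat_lit 5) (nat_lit 101) (nat_lit 5) (nat_lit 96) (nat_lit 5) (nat_lit 374) (nat_lit 333) (nat_lit 238))))) (XT.nd (nat_lit 282) (nat_lit 840) (nat_lit 0) (XT.nd (nat_lit 94) (nat_lit 336) (nat_lit 0) (XT.lf (nat_lit 0) (nat_lit 2823037659) (nat_lit 420) (nat_lit 1197060426) (nat_lit 504) (nat_lit 10581763833) (nat_lit 90) (nat_lit 5) (nat_lit 95) (nat_lit 5) (nat_lit 96) (nat_lit 5) (nat_lit 375) (nat_lit 333) (nat_lit 237)) (XT.nd (nat_lit 94) (nat_lit 336) (nat_lit 0) (XT.lf (nat_lit 0) (nat_lit 6353829998) (nat_lit 504) (nat_lit 4942220704) (nat_lit 84) (nat_lit 3577721720) (nat_lit 90) (nat_lit 5) (nat_lit 96) (nat_lit 5) (nat_lit 91) (nat_lit 5) (nat_lit 376) (nat_lit 333) (nat_lit 236)) (XT.lf (nat_lit 0) (nat_lit 2107824967)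 (nat_lit 336) (nat_lit 6665243610) (nat_lit 420) (nat_lit 6380331040) (nat_lit 86) (nat_lit 5) (nat_lit 90) (nat_lit 5) (nat_lit 91) (nat_lit 5) (nat_lit 377) (nat_lit 333) (nat_lit 235)))) (XT.nd (nat_lit 188) (nat_lit 420) (nat_lit 0) (XT.nd (nat_lit 94) (nat_lit 420) (nat_lit 0) (XT.lf (nat_lit 0) (nat_lit 9449952772) (nat_lit 336) (nat_lit 1848503987) (nat_lit 420) (nat_lit 4141975208) (nat_lit 86) (nat_lit 5) (nat_lit 90) (nat_lit 5) (nat_lit 91) (nat_lit 5) (nat_lit 378) (nat_lit 333) (nat_lit 234)) (XT.lf (nat_lit 0) (nat_lit 1250158993) (nat_lit 420) (nat_lit 12675486867) (nat_lit 504) (nat_lit 1809671079) (nat_lit 81) (nat_lit 5) (nat_lit 86) (nat_lit 5) (nat_lit 87) (nat_lit 5) (nat_lit 379) (nat_lit 333) (nat_lit 233))) (XT.nd (nat_lit 94) (nat_lit 336) (nat_lit 0) (XT.lf (nat_lit 0) (nat_lit 644622520) (nat_lit 504) (nat_lit 7251733860) (nat_lit 84) (nat_lit 8140635176) (nat_lit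 80) (nat_lit 5) (nat_lit 86) (nat_lit 5) (nat_lit 81) (nat_lit 5) (nat_lit 380) (nat_lit 333) (nat_lit 232)) (XT.lf (nat_lit 0) (nat_lit 163858277) (nat_lit 336) (nat_lit 2958540717) (nat_lit 420) (nat_lit 13225213984) (nat_lit 76) (nat_lit 5) (nat_lit 80) (nat_lit 5) (nat_lit 81) (nat_lit 5) (nat_lit 381) (nat_lit 333) (nat_lit 231)))))) (XT.nd (nat_lit 658) (nat_lit 924) (nat_lit 0) (XT.nd (nat_lit 282) (nat_lit 756) (nat_lit 0) (XT.nd (nat_lit 94) (nat_lit 336) (nat_lit 0) (XT.lf (nat_lit 0) (nat_lit 5753772814) (nat_lit 420) (nat_lit 8756303664) (nat_lit 84) (nat_lit 2155118926) (nat_lit 76) (nat_lit 5) (nat_lit 81) (nat_lit 5) (nat_lit 77) (nat_lit 5) (nat_lit 382) (nat_lit 333) (nat_lit 230)) (XT.nd (nat_lit 94) (nat_lit 336) (nat_lit 0) (XT.lf (nat_lit 0) (nat_lit 8478682043) (nat_lit 420) (nat_lit 1155073119) (nat_lit 84) (nat_lit 7358132004) (nat_lit 76) (nat_lit 5) (nat_lit 81)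 (nat_lit 5) (nat_lit 77) (nat_lit 5) (nat_lit 383) (nat_lit 333) (nat_lit 229)) (XT.lf (nat_lit 0) (nat_lit 6787465994) (nat_lit 336) (nat_lit 4548847649) (nat_lit 420) (nat_lit 5990555904) (nat_lit 72) (nat_lit 5) (nat_lit 76) (nat_lit 5) (nat_lit 77) (nat_lit 5) (nat_lit 384) (nat_lit 333) (nat_lit 228)))) (XT.nd (nat_lit 188) (nat_lit 420) (nat_lit 0) (XT.nd (nat_lit 94) (nat_lit 336) (nat_lit 0) (XT.lf (nat_lit 0) (nat_lit 14283988297) (nat_lit 420) (nat_lit 2705707463) (nat_lit 84) (nat_lit 682094777) (nat_lit 72) (nat_lit 5) (nat_lit 77) (nat_lit 5) (nat_lit 73) (nat_lit 5) (nat_lit 385) (nat_lit 333) (nat_lit 227)) (XT.lf (nat_lit 0) (nat_lit 5404608945) (nat_lit 336) (nat_lit 11998800315) (nat_lit 420) (nat_lit 621168435) (nat_lit 68) (nat_lit 5) (nat_lit 72) (nat_lit 5) (nat_lit 73) (nat_lit 5) (nat_lit 386) (nat_lit 333) (nat_lit 226))) (XT.nd (nat_lit 94) (nat_lit 336) (nat_lit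 0) (XT.lf (nat_lit 0) (nat_lit 2198966257) (nat_lit 420) (nat_lit 4614040634) (nat_lit 84) (nat_lit 11573896305) (nat_lit 67) (nat_lit 5) (nat_lit 72) (nat_lit 5) (nat_lit 68) (nat_lit 5) (nat_lit 387) (nat_lit 333) (nat_lit 225)) (XT.lf (nat_lit 0) (nat_lit 3679344293) (nat_lit 336) (nat_lit 1434034596) (nat_lit 420) (nat_lit 13645886796) (nat_lit 63) (nat_lit 5) (nat_lit 67) (nat_lit 5) (nat_lit 68) (nat_lit 5) (nat_lit 388) (nat_lit 333) (nat_lit 224))))) (XT.nd (nat_lit 282) (nat_lit 672) (nat_lit 0) (XT.nd (nat_lit 94) (nat_lit 252) (nat_lit 0) (XT.lf (nat_lit 0) (nat_lit 8188701002) (nat_lit 420) (nat_lit 6883764982) (nat_lit 84) (nat_lit 4068144762) (nat_lit 63) (nat_lit 5) (nat_lit 68) (nat_lit 5) (nat_lit 64) (nat_lit 5) (nat_lit 389) (nat_lit 333) (nat_lit 223)) (XT.nd (nat_lit 94) (nat_lit 0) (nat_lit 0) (XT.lf (nat_lit 0) (nat_lit 1556445591) (nat_lit 252) (nat_lit 9816327821)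 (nat_lit 336) (nat_lit 8160143571) (nat_lit 60) (nat_lit 5) (nat_lit 63) (nat_lit 5) (nat_lit 64) (nat_lit 5) (nat_lit 390) (nat_lit 333) (nat_lit 222)) (XT.lf (nat_lit 0) (nat_lit 10373145400) (nat_lit 252) (nat_lit 4336263528) (nat_lit 336) (nat_lit 5225887344) (nat_lit 60) (nat_lit 5) (nat_lit 63) (nat_lit 5) (nat_lit 64) (nat_lit 5) (nat_lit 391) (nat_lit 333) (nat_lit 221)))) (XT.nd (nat_lit 188) (nat_lit 252) (nat_lit 0) (XT.nd (nat_lit 94) (nat_lit 420) (nat_lit 0) (XT.lf (nat_lit 0) (nat_lit 18146560424) (nat_lit 336) (nat_lit 925612168) (nat_lit 84) (nat_lit 1277576492) (nat_lit 60) (nat_lit 5) (nat_lit 64) (nat_lit 5) (nat_lit 61) (nat_lit 5) (nat_lit 392) (nat_lit 333) (nat_lit 220)) (XT.lf (nat_lit 0) (nat_lit 1002169740) (nat_lit 420) (nat_lit 12715823833) (nat_lit 84) (nat_lit 7055101045) (nat_lit 55) (nat_lit 5) (nat_lit 60) (nat_lit 5) (nat_lit 56) (nat_lit 5) (nat_lit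 393) (nat_lit 333) (nat_lit 219))) (XT.nd (nat_lit 94) (nat_lit 252) (nat_lit 0) (XT.lf (nat_lit 0) (nat_lit 4257094399) (nat_lit 420) (nat_lit 3919353972) (nat_lit 84) (nat_lit 13032120520) (nat_lit 55) (nat_lit 5) (nat_lit 60) (nat_lit 5) (nat_lit 56) (nat_lit 5) (nat_lit 394) (nat_lit 333) (nat_lit 218)) (XT.lf (nat_lit 0) (nat_lit 5226292871) (nat_lit 252) (nat_lit 2422202546) (nat_lit 336) (nat_lit 14007460134) (nat_lit 52) (nat_lit 5) (nat_lit 55) (nat_lit 5) (nat_lit 56) (nat_lit 5) (nat_lit 395) (nat_lit 333) (nat_lit 217))))))) (XT.nd (nat_lit 1316) (nat_lit 1008) (nat_lit 0) (XT.nd (nat_lit 658) (nat_lit 504) (nat_lit 0) (XT.nd (nat_lit 282) (nat_lit 588) (nat_lit 0) (XT.nd (nat_lit 94) (nat_lit 252) (nat_lit 0) (XT.lf (nat_lit 0) (nat_lit 11204009851) (nat_lit 336) (nat_lit 7439841294) (nat_lit 84) (nat_lit 3471054163) (nat_lit 52) (nat_lit 5) (nat_lit 56) (nat_lit 5) (nat_lit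 53) (nat_lit 5) (nat_lit 396) (nat_lit 333) (nat_lit 216)) (XT.nd (nat_lit 94) (nat_lit 0) (nat_lit 0) (XT.lf (nat_lit 0) (nat_lit 1814759437) (nat_lit 252) (nat_lit 13081898514) (nat_lit 336) (nat_lit 7690063832) (nat_lit 49) (nat_lit 5) (nat_lit 52) (nat_lit 5) (nat_lit 53) (nat_lit 5) (nat_lit 397) (nat_lit 333) (nat_lit 215)) (XT.lf (nat_lit 0) (nat_lit 11483322311) (nat_lit 252) (nat_lit 7281096045) (nat_lit 336) (nat_lit 4306356324) (nat_lit 49) (nat_lit 5) (nat_lit 52) (nat_lit 5) (nat_lit 53) (nat_lit 5) (nat_lit 398) (nat_lit 333) (nat_lit 214)))) (XT.nd (nat_lit 188) (nat_lit 252) (nat_lit 0) (XT.nd (nat_lit 94) (nat_lit 336) (nat_lit 0) (XT.lf (nat_lit 0) (nat_lit 21426228154) (nat_lit 252) (nat_lit 1311502885) (nat_lit 336) (nat_lit 831944107) (nat_lit 49) (nat_lit 5) (nat_lit 52) (nat_lit 5) (nat_lit 53) (nat_lit 5) (nat_lit 399) (nat_lit 333) (nat_lit 213)) (XT.lf (nat_lit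 0) (nat_lit 2804198220) (nat_lit 336) (nat_lit 16436189017) (nat_lit 84) (nat_lit 4839041328) (nat_lit 45) (nat_lit 5) (nat_lit 49) (nat_lit 5) (nat_lit 46) (nat_lit 5) (nat_lit 400) (nat_lit 333) (nat_lit 212))) (XT.nd (nat_lit 94) (nat_lit 252) (nat_lit 0) (XT.lf (nat_lit 0) (nat_lit 6557363136) (nat_lit 336) (nat_lit 6873381510) (nat_lit 84) (nat_lit 11172753629) (nat_lit 45) (nat_lit 5) (nat_lit 49) (nat_lit 5) (nat_lit 46) (nat_lit 5) (nat_lit 401) (nat_lit 333) (nat_lit 211)) (XT.lf (nat_lit 0) (nat_lit 3020112465) (nat_lit 252) (nat_lit 7422153816) (nat_lit 336) (nat_lit 14700459772) (nat_lit 42) (nat_lit 5) (nat_lit 45) (nat_lit 5) (nat_lit 46) (nat_lit 5) (nat_lit 402) (nat_lit 333) (nat_lit 210))))) (XT.nd (nat_lit 282) (nat_lit 336) (nat_lit 0) (XT.nd (nat_lit 94) (nat_lit 168) (nat_lit 0) (XT.lf (nat_lit 0) (nat_lit 13336326160) (nat_lit 252) (nat_lit 1167054128) (nat_lit 336)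 (nat_lit 11192970443) (nat_lit 42) (nat_lit 5) (nat_lit 45) (nat_lit 5) (nat_lit 46) (nat_lit 5) (nat_lit 403) (nat_lit 333) (nat_lit 209)) (XT.nd (nat_lit 94) (nat_lit 168) (nat_lit 0) (XT.lf (nat_lit 0) (nat_lit 18727531956) (nat_lit 336) (nat_lit 2370062018) (nat_lit 84) (nat_lit 5167763732) (nat_lit 42) (nat_lit 5) (nat_lit 46) (nat_lit 5) (nat_lit 43) (nat_lit 5) (nat_lit 404) (nat_lit 333) (nat_lit 208)) (XT.lf (nat_lit 0) (nat_lit 8050784123) (nat_lit 168) (nat_lit 15107336065) (nat_lit 252) (nat_lit 3690932748) (nat_lit 40) (nat_lit 5) (nat_lit 42) (nat_lit 5) (nat_lit 43) (nat_lit 5) (nat_lit 405) (nat_lit 333) (nat_lit 207)))) (XT.nd (nat_lit 188) (nat_lit 0) (nat_lit 0) (XT.nd (nat_lit 94) (nat_lit 252) (nat_lit 0) (XT.lf (nat_lit 0) (nat_lit 281042757) (nat_lit 252) (nat_lit 8633958188) (nat_lit 84) (nat_lit 18534739554) (nat_lit 39) (nat_lit 5) (nat_lit 42) (nat_lit 5) (nat_lit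 40) (nat_lit 5) (nat_lit 406) (nat_lit 333) (nat_lit 206)) (XT.lf (nat_lit 0) (nat_lit 1820266317) (nat_lit 252) (nat_lit 2486293681) (nat_lit 336) (nat_lit 23760543986) (nat_lit 36) (nat_lit 5) (nat_lit 39) (nat_lit 5) (nat_lit 40) (nat_lit 5) (nat_lit 407) (nat_lit 333) (nat_lit 205))) (XT.nd (nat_lit 94) (nat_lit 0) (nat_lit 0) (XT.lf (nat_lit 0) (nat_lit 8571790275) (nat_lit 336) (nat_lit 15989959832) (nat_lit 84) (nat_lit 4137678194) (nat_lit 36) (nat_lit 5) (nat_lit 40) (nat_lit 5) (nat_lit 37) (nat_lit 5) (nat_lit 408) (nat_lit 333) (nat_lit 204)) (XT.lf (nat_lit 0) (nat_lit 12980999522) (nat_lit 336) (nat_lit 5463660644) (nat_lit 84) (nat_lit 10905589634) (nat_lit 36) (nat_lit 5) (nat_lit 40) (nat_lit 5) (nat_lit 37) (nat_lit 5) (nat_lit 409) (nat_lit 333) (nat_lit 203)))))) (XT.nd (nat_lit 658) (nat_lit 420) (nat_lit 0) (XT.nd (nat_lit 282) (nat_lit 420) (nat_lit 0) (XT.nd (nat_lit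 94) (nat_lit 0) (nat_lit 0) (XT.lf (nat_lit 0) (nat_lit 5471934562) (nat_lit 168) (nat_lit 12094805690) (nat_lit 252) (nat_lit 12452535910) (nat_lit 34) (nat_lit 5) (nat_lit 36) (nat_lit 5) (nat_lit 37) (nat_lit 5) (nat_lit 410) (nat_lit 333) (nat_lit 202)) (XT.nd (nat_lit 94) (nat_lit 0) (nat_lit 0) (XT.lf (nat_lit 0) (nat_lit 16834457302) (nat_lit 168) (nat_lit 5502540517) (nat_lit 252) (nat_lit 8369974807) (nat_lit 34) (nat_lit 5) (nat_lit 36) (nat_lit 5) (nat_lit 37) (nat_lit 5) (nat_lit 411) (nat_lit 333) (nat_lit 201)) (XT.lf (nat_lit 0) (nat_lit 27254705429) (nat_lit 252) (nat_lit 2902778936) (nat_lit 84) (nat_lit 1257692772) (nat_lit 34) (nat_lit 5) (nat_lit 37) (nat_lit 5) (nat_lit 35) (nat_lit 5) (nat_lit 412) (nat_lit 333) (nat_lit 200)))) (XT.nd (nat_lit 188) (nat_lit 168) (nat_lit 0) (XT.nd (nat_lit 94) (nat_lit 0) (nat_lit 0) (XT.lf (nat_lit 0) (nat_lit 301496514) (nat_lit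 252) (nat_lit 23648989660) (nat_lit 84) (nat_lit 8190210017) (nat_lit 31) (nat_lit 5) (nat_lit 34) (nat_lit 5) (nat_lit 32) (nat_lit 5) (nat_lit 413) (nat_lit 333) (nat_lit 199)) (XT.lf (nat_lit 0) (nat_lit 4835529570) (nat_lit 252) (nat_lit 12653673046) (nat_lit 84) (nat_lit 15396894399) (nat_lit 31) (nat_lit 5) (nat_lit 34) (nat_lit 5) (nat_lit 32) (nat_lit 5) (nat_lit 414) (nat_lit 333) (nat_lit 198))) (XT.nd (nat_lit 94) (nat_lit 168) (nat_lit 0) (XT.lf (nat_lit 0) (nat_lit 9498034635) (nat_lit 252) (nat_lit 1340748656) (nat_lit 84) (nat_lit 22815309635) (nat_lit 31) (nat_lit 5) (nat_lit 34) (nat_lit 5) (nat_lit 32) (nat_lit 5) (nat_lit 415) (nat_lit 333) (nat_lit 197)) (XT.lf (nat_lit 0) (nat_lit 10504652188) (nat_lit 168) (nat_lit 3889410700) (nat_lit 252) (nat_lit 20048262791) (nat_lit 29) (nat_lit 5) (nat_lit 31) (nat_lit 5) (nat_lit 32) (nat_lit 5) (nat_lit 416) (nat_lit 333)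 (nat_lit 196))))) (XT.nd (nat_lit 282) (nat_lit 252) (nat_lit 0) (XT.nd (nat_lit 94) (nat_lit 168) (nat_lit 0) (XT.lf (nat_lit 0) (nat_lit 19474790655) (nat_lit 252) (nat_lit 12564410092) (nat_lit 84) (nat_lit 3213876326) (nat_lit 29) (nat_lit 5) (nat_lit 32) (nat_lit 5) (nat_lit 30) (nat_lit 5) (nat_lit 417) (nat_lit 333) (nat_lit 195)) (XT.nd (nat_lit 94) (nat_lit 168) (nat_lit 0) (XT.lf (nat_lit 0) (nat_lit 24739388504) (nat_lit 252) (nat_lit 900067138) (nat_lit 84) (nat_lit 10447757954) (nat_lit 29) (nat_lit 5) (nat_lit 32) (nat_lit 5) (nat_lit 30) (nat_lit 5) (nat_lit 418) (nat_lit 333) (nat_lit 194)) (XT.lf (nat_lit 0) (nat_lit 11323905081) (nat_lit 168) (nat_lit 18940016397) (nat_lit 252) (nat_lit 6679398684) (nat_lit 27) (nat_lit 5) (nat_lit 29) (nat_lit 5) (nat_lit 30) (nat_lit 5) (nat_lit 419) (nat_lit 333) (nat_lit 193)))) (XT.nd (nat_lit 188) (nat_lit 168) (nat_lit 0) (XT.nd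 (nat_lit 94) (nat_lit 84) (nat_lit 0) (XT.lf (nat_lit 0) (nat_lit 23921886267) (nat_lit 168) (nat_lit 12034630354) (nat_lit 252) (nat_lit 1868529207) (nat_lit 27) (nat_lit 5) (nat_lit 29) (nat_lit 5) (nat_lit 30) (nat_lit 5) (nat_lit 420) (nat_lit 333) (nat_lit 192)) (XT.lf (nat_lit 0) (nat_lit 3019798190) (nat_lit 252) (nat_lit 1876060363) (nat_lit 84) (nat_lit 33836679032) (nat_lit 26) (nat_lit 5) (nat_lit 29) (nat_lit 5) (nat_lit 27) (nat_lit 5) (nat_lit 421) (nat_lit 333) (nat_lit 191))) (XT.nd (nat_lit 94) (nat_lit 0) (nat_lit 0) (XT.lf (nat_lit 0) (nat_lit 8138327634) (nat_lit 252) (nat_lit 28997269285) (nat_lit 84) (nat_lit 2527474141) (nat_lit 24) (nat_lit 5) (nat_lit 27) (nat_lit 5) (nat_lit 25) (nat_lit 5) (nat_lit 422) (nat_lit 333) (nat_lit 190)) (XT.lf (nat_lit 0) (nat_lit 13471621964) (nat_lit 252) (nat_lit 17057940910) (nat_lit 84) (nat_lit 10090126449) (nat_lit 24) (nat_lit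 5) (nat_lit 27) (nat_lit 5) (nat_lit 25) (nat_lit 5) (nat_lit 423) (nat_lit 333) (nat_lit 189))))))))
noncomputable def xc128 : XT := (XT.nd (nat_lit 51230) (nat_lit 0) (nat_lit 9408) (XT.nd (nat_lit 1222) (nat_lit 336) (nat_lit 0) (XT.nd (nat_lit 564) (nat_lit 252) (nat_lit 0) (XT.nd (nat_lit 282) (nat_lit 168) (nat_lit 0) (XT.nd (nat_lit 94) (nat_lit 168) (nat_lit 0) (XT.lf (nat_lit 0) (nat_lit 18958704500) (nat_lit 252) (nat_lit 4770825372) (nat_lit 84) (nat_lit 17875667491) (nat_lit 24) (nat_lit 5) (nat_lit 27) (nat_lit 5) (nat_lit 25) (nat_lit 5) (nat_lit 424) (nat_lit 333) (nat_lit 188)) (XT.nd (nat_lit 94) (nat_lit 0) (nat_lit 0) (XT.lf (nat_lit 0) (nat_lit 8031537876) (nat_lit 168) (nat_lit 16650035957) (nat_lit 252) (nat_lit 17936566345) (nat_lit 22) (nat_lit 5) (nat_lit 24) (nat_lit 5) (nat_lit 25) (nat_lit 5) (nat_lit 425) (nat_lit 333) (nat_lit 187)) (XT.lf (nat_lit 0) (nat_lit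 21305778200) (nat_lit 168) (nat_lit 9312576879) (nat_lit 252) (nat_lit 13041854051) (nat_lit 22) (nat_lit 5) (nat_lit 24) (nat_lit 5) (nat_lit 25) (nat_lit 5) (nat_lit 426) (nat_lit 333) (nat_lit 186)))) (XT.nd (nat_lit 94) (nat_lit 168) (nat_lit 0) (XT.lf (nat_lit 0) (nat_lit 34968545668) (nat_lit 168) (nat_lit 1758917249) (nat_lit 252) (nat_lit 8006255029) (nat_lit 22) (nat_lit 5) (nat_lit 24) (nat_lit 5) (nat_lit 25) (nat_lit 5) (nat_lit 427) (nat_lit 333) (nat_lit 185)) (XT.nd (nat_lit 94) (nat_lit 84) (nat_lit 0) (XT.lf (nat_lit 0) (nat_lit 3196708973) (nat_lit 84) (nat_lit 39906099460) (nat_lit 168) (nat_lit 2734139023) (nat_lit 21) (nat_lit 5) (nat_lit 22) (nat_lit 5) (nat_lit 23) (nat_lit 4) (nat_lit 428) (nat_lit 333) (nat_lit 184)) (XT.lf (nat_lit 0) (nat_lit 2754898465) (nat_lit 168) (nat_lit 30276576817) (nat_lit 84) (nat_lit 13937684089) (nat_lit 20) (nat_lit 5) (nat_lit 22)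 (nat_lit 5) (nat_lit 21) (nat_lit 5) (nat_lit 429) (nat_lit 333) (nat_lit 183))))) (XT.nd (nat_lit 282) (nat_lit 84) (nat_lit 0) (XT.nd (nat_lit 94) (nat_lit 168) (nat_lit 0) (XT.lf (nat_lit 0) (nat_lit 8348186573) (nat_lit 168) (nat_lit 17578373129) (nat_lit 84) (nat_lit 22208133821) (nat_lit 20) (nat_lit 5) (nat_lit 22) (nat_lit 5) (nat_lit 21) (nat_lit 5) (nat_lit 430) (nat_lit 333) (nat_lit 182)) (XT.nd (nat_lit 94) (nat_lit 168) (nat_lit 0) (XT.lf (nat_lit 0) (nat_lit 14103965540) (nat_lit 168) (nat_lit 4508249685) (nat_lit 84) (nat_lit 30723141583) (nat_lit 20) (nat_lit 5) (nat_lit 22) (nat_lit 5) (nat_lit 21) (nat_lit 5) (nat_lit 431) (nat_lit 333) (nat_lit 181)) (XT.lf (nat_lit 0) (nat_lit 9123241308) (nat_lit 168) (nat_lit 10991721555) (nat_lit 252) (nat_lit 30454604541) (nat_lit 18) (nat_lit 5) (nat_lit 20) (nat_lit 5) (nat_lit 21) (nat_lit 5) (nat_lit 432) (nat_lit 333) (nat_lit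 180)))) (XT.nd (nat_lit 188) (nat_lit 84) (nat_lit 0) (XT.nd (nat_lit 94) (nat_lit 0) (nat_lit 0) (XT.lf (nat_lit 0) (nat_lit 23247414197) (nat_lit 168) (nat_lit 3099313883) (nat_lit 252) (nat_lit 25492866752) (nat_lit 18) (nat_lit 5) (nat_lit 20) (nat_lit 5) (nat_lit 21) (nat_lit 5) (nat_lit 433) (nat_lit 333) (nat_lit 179)) (XT.lf (nat_lit 0) (nat_lit 32808824529) (nat_lit 252) (nat_lit 15409303933) (nat_lit 84) (nat_lit 4928296816) (nat_lit 18) (nat_lit 5) (nat_lit 21) (nat_lit 5) (nat_lit 19) (nat_lit 4) (nat_lit 434) (nat_lit 333) (nat_lit 178))) (XT.nd (nat_lit 94) (nat_lit 84) (nat_lit 0) (XT.lf (nat_lit 0) (nat_lit 39490643087) (nat_lit 252) (nat_lit 1869921356) (nat_lit 84) (nat_lit 13131123862) (nat_lit 18) (nat_lit 5) (nat_lit 21) (nat_lit 5) (nat_lit 19) (nat_lit 4) (nat_lit 435) (nat_lit 333) (nat_lit 177)) (XT.lf (nat_lit 0) (nat_lit 12307758831) (nat_lit 84) (nat_lit 34178780611)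 (nat_lit 168) (nat_lit 9387364426) (nat_lit 17) (nat_lit 5) (nat_lit 18) (nat_lit 5) (nat_lit 19) (nat_lit 4) (nat_lit 436) (nat_lit 333) (nat_lit 176)))))) (XT.nd (nat_lit 658) (nat_lit 84) (nat_lit 0) (XT.nd (nat_lit 282) (nat_lit 168) (nat_lit 0) (XT.nd (nat_lit 94) (nat_lit 84) (nat_lit 0) (XT.lf (nat_lit 0) (nat_lit 26941127354) (nat_lit 84) (nat_lit 26765441258) (nat_lit 168) (nat_lit 3590592853) (nat_lit 17) (nat_lit 5) (nat_lit 18) (nat_lit 5) (nat_lit 19) (nat_lit 4) (nat_lit 437) (nat_lit 333) (nat_lit 175)) (XT.nd (nat_lit 94) (nat_lit 0) (nat_lit 0) (XT.lf (nat_lit 0) (nat_lit 2329098474) (nat_lit 168) (nat_lit 16780333447) (nat_lit 84) (nat_lit 39653137746) (nat_lit 16) (nat_lit 5) (nat_lit 18) (nat_lit 5) (nat_lit 17) (nat_lit 5) (nat_lit 438) (nat_lit 333) (nat_lit 174)) (XT.lf (nat_lit 0) (nat_lit 8349805975) (nat_lit 168) (nat_lit 2840518775) (nat_lit 84) (nat_lit 49080684038)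 (nat_lit 16) (nat_lit 5) (nat_lit 18) (nat_lit 5) (nat_lit 17) (nat_lit 5) (nat_lit 439) (nat_lit 333) (nat_lit 173)))) (XT.nd (nat_lit 188) (nat_lit 0) (nat_lit 0) (XT.nd (nat_lit 94) (nat_lit 0) (nat_lit 0) (XT.lf (nat_lit 0) (nat_lit 11739178963) (nat_lit 168) (nat_lit 2920521066) (nat_lit 252) (nat_lit 47161746976) (nat_lit 14) (nat_lit 5) (nat_lit 16) (nat_lit 5) (nat_lit 17) (nat_lit 5) (nat_lit 440) (nat_lit 333) (nat_lit 172)) (XT.lf (nat_lit 0) (nat_lit 21237409789) (nat_lit 252) (nat_lit 36664544266) (nat_lit 84) (nat_lit 5514091547) (nat_lit 14) (nat_lit 5) (nat_lit 17) (nat_lit 5) (nat_lit 15) (nat_lit 4) (nat_lit 441) (nat_lit 333) (nat_lit 171))) (XT.nd (nat_lit 94) (nat_lit 0) (nat_lit 0) (XT.lf (nat_lit 0) (nat_lit 28037236607) (nat_lit 252) (nat_lit 22880401412) (nat_lit 84) (nat_lit 14140103281) (nat_lit 14) (nat_lit 5) (nat_lit 17) (nat_lit 5) (nat_lit 15) (nat_lit 4)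 (nat_lit 442) (nat_lit 333) (nat_lit 170)) (XT.lf (nat_lit 0) (nat_lit 35037048245) (nat_lit 252) (nat_lit 8689721251) (nat_lit 84) (nat_lit 23022041313) (nat_lit 14) (nat_lit 5) (nat_lit 17) (nat_lit 5) (nat_lit 15) (nat_lit 4) (nat_lit 443) (nat_lit 333) (nat_lit 169))))) (XT.nd (nat_lit 48974) (nat_lit 0) (nat_lit 16128) (XT.nd (nat_lit 94) (nat_lit 0) (nat_lit 0) (XT.lf (nat_lit 0) (nat_lit 6037713376) (nat_lit 84) (nat_lit 36263285862) (nat_lit 168) (nat_lit 26187991377) (nat_lit 13) (nat_lit 5) (nat_lit 14) (nat_lit 5) (nat_lit 15) (nat_lit 4) (nat_lit 444) (nat_lit 333) (nat_lit 168)) (XT.nd (nat_lit 94) (nat_lit 0) (nat_lit 0) (XT.lf (nat_lit 0) (nat_lit 21378384840) (nat_lit 84) (nat_lit 28488388703) (nat_lit 168) (nat_lit 20412087614) (nat_lit 13) (nat_lit 5) (nat_lit 14) (nat_lit 5) (nat_lit 15) (nat_lit 4) (nat_lit 445) (nat_lit 333) (nat_lit 167)) (XT.lf (nat_lit 0) (nat_lit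 37172755120) (nat_lit 84) (nat_lit 20483033567) (nat_lit 168) (nat_lit 14466753515) (nat_lit 13) (nat_lit 5) (nat_lit 14) (nat_lit 5) (nat_lit 15) (nat_lit 4) (nat_lit 446) (nat_lit 333) (nat_lit 166)))) (XT.nd (nat_lit 188) (nat_lit 1008) (nat_lit 0) (XT.nd (nat_lit 94) (nat_lit 0) (nat_lit 0) (XT.lf (nat_lit 0) (nat_lit 1208521507) (nat_lit 0) (nat_lit 1208521507) (nat_lit 924) (nat_lit 1593137594) (nat_lit 217) (nat_lit 5) (nat_lit 217) (nat_lit 3) (nat_lit 228) (nat_lit 3) (nat_lit 334) (nat_lit 334) (nat_lit 277)) (XT.lf (nat_lit 0) (nat_lit 6012789130) (nat_lit 924) (nat_lit 2081994868) (nat_lit 1008) (nat_lit 10279863) (nat_lit 217) (nat_lit 5) (nat_lit 228) (nat_lit 3) (nat_lit 229) (nat_lit 5) (nat_lit 335) (nat_lit 334) (nat_lit 276))) (XT.nd (nat_lit 94) (nat_lit 1008) (nat_lit 0) (XT.lf (nat_lit 84) (nat_lit 1527666672) (nat_lit 0) (nat_lit 5694842474) (nat_lit 1008) (nat_lit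 970023092) (nat_lit 218) (nat_lit 5) (nat_lit 217) (nat_lit 5) (nat_lit 229) (nat_lit 5) (nat_lit 336) (nat_lit 334) (nat_lit 275)) (XT.lf (nat_lit 0) (nat_lit 161066341) (nat_lit 1008) (nat_lit 3019578977) (nat_lit 1092) (nat_lit 5102650723) (nat_lit 205) (nat_lit 5) (nat_lit 217) (nat_lit 5) (nat_lit 218) (nat_lit 5) (nat_lit 337) (nat_lit 334) (nat_lit 274))))))) (XT.nd (nat_lit 1316) (nat_lit 4956) (nat_lit 0) (XT.nd (nat_lit 658) (nat_lit 1764) (nat_lit 0) (XT.nd (nat_lit 282) (nat_lit 0) (nat_lit 84) (XT.nd (nat_lit 94) (nat_lit 0) (nat_lit 84) (XT.lf (nat_lit 84) (nat_lit 716247484) (nat_lit 0) (nat_lit 556030958) (nat_lit 1092) (nat_lit 7105331920) (nat_lit 206) (nat_lit 5) (nat_lit 205) (nat_lit 5) (nat_lit 218) (nat_lit 5) (nat_lit 338) (nat_lit 334) (nat_lit 273)) (XT.nd (nat_lit 94) (nat_lit 0) (nat_lit 0) (XT.lf (nat_lit 0) (nat_lit 2428208568) (nat_lit 1008) (nat_lit 3893155484)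 (nat_lit 1092) (nat_lit 2153132422) (nat_lit 206) (nat_lit 5) (nat_lit 218) (nat_lit 5) (nat_lit 219) (nat_lit 5) (nat_lit 339) (nat_lit 334) (nat_lit 272)) (XT.lf (nat_lit 0) (nat_lit 3585435025) (nat_lit 1008) (nat_lit 41115863) (nat_lit 1092) (nat_lit 4948821097) (nat_lit 206) (nat_lit 5) (nat_lit 218) (nat_lit 5) (nat_lit 219) (nat_lit 5) (nat_lit 340) (nat_lit 334) (nat_lit 271)))) (XT.nd (nat_lit 188) (nat_lit 0) (nat_lit 84) (XT.nd (nat_lit 94) (nat_lit 0) (nat_lit 84) (XT.lf (nat_lit 84) (nat_lit 3981153393) (nat_lit 0) (nat_lit 796739961) (nat_lit 1092) (nat_lit 3901443956) (nat_lit 207) (nat_lit 5) (nat_lit 206) (nat_lit 5) (nat_lit 219) (nat_lit 5) (nat_lit 341) (nat_lit 334) (nat_lit 270)) (XT.lf (nat_lit 0) (nat_lit 5990165605) (nat_lit 1008) (nat_lit 705949656) (nat_lit 1092) (nat_lit 2090861827) (nat_lit 207) (nat_lit 5) (nat_lit 219) (nat_lit 5) (nat_lit 220) (nat_lit 5)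 (nat_lit 342) (nat_lit 334) (nat_lit 269))) (XT.nd (nat_lit 94) (nat_lit 0) (nat_lit 0) (XT.lf (nat_lit 84) (nat_lit 3441918818) (nat_lit 0) (nat_lit 3802193290) (nat_lit 1092) (nat_lit 1653649232) (nat_lit 208) (nat_lit 5) (nat_lit 207) (nat_lit 5) (nat_lit 220) (nat_lit 5) (nat_lit 343) (nat_lit 334) (nat_lit 268)) (XT.lf (nat_lit 84) (nat_lit 7705515584) (nat_lit 0) (nat_lit 802437942) (nat_lit 1092) (nat_lit 504819595) (nat_lit 208) (nat_lit 5) (nat_lit 207) (nat_lit 5) (nat_lit 220) (nat_lit 5) (nat_lit 344) (nat_lit 334) (nat_lit 267))))) (XT.nd (nat_lit 282) (nat_lit 924) (nat_lit 0) (XT.nd (nat_lit 94) (nat_lit 0) (nat_lit 0) (XT.lf (nat_lit 0) (nat_lit 682221140) (nat_lit 1092) (nat_lit 6159271749) (nat_lit 1176) (nat_lit 2289105283) (nat_lit 195) (nat_lit 5) (nat_lit 208) (nat_lit 5) (nat_lit 209) (nat_lit 5) (nat_lit 345) (nat_lit 334) (nat_lit 266)) (XT.nd (nat_lit 94) (nat_lit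 0) (nat_lit 0) (XT.lf (nat_lit 0) (nat_lit 1882638497) (nat_lit 1092) (nat_lit 1883766406) (nat_lit 1176) (nat_lit 5485831932) (nat_lit 195) (nat_lit 5) (nat_lit 208) (nat_lit 5) (nat_lit 209) (nat_lit 5) (nat_lit 346) (nat_lit 334) (nat_lit 265)) (XT.lf (nat_lit 84) (nat_lit 2546198322) (nat_lit 0) (nat_lit 564952859) (nat_lit 1176) (nat_lit 6266675228) (nat_lit 196) (nat_lit 5) (nat_lit 195) (nat_lit 5) (nat_lit 209) (nat_lit 5) (nat_lit 347) (nat_lit 334) (nat_lit 264)))) (XT.nd (nat_lit 188) (nat_lit 1008) (nat_lit 0) (XT.nd (nat_lit 94) (nat_lit 0) (nat_lit 0) (XT.lf (nat_lit 0) (nat_lit 4390404738) (nat_lit 1092) (nat_lit 2409745233) (nat_lit 1176) (nat_lit 2706679497) (nat_lit 196) (nat_lit 5) (nat_lit 209) (nat_lit 5) (nat_lit 210) (nat_lit 5) (nat_lit 348) (nat_lit 334) (nat_lit 263)) (XT.lf (nat_lit 84) (nat_lit 2157659188) (nat_lit 0) (nat_lit 3546039135) (nat_lit 1176) (nat_lit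 3936194970) (nat_lit 197) (nat_lit 5) (nat_lit 196) (nat_lit 5) (nat_lit 210) (nat_lit 5) (nat_lit 349) (nat_lit 334) (nat_lit 262))) (XT.nd (nat_lit 94) (nat_lit 1008) (nat_lit 0) (XT.lf (nat_lit 84) (nat_lit 6888069944) (nat_lit 0) (nat_lit 162650857) (nat_lit 1176) (nat_lit 2726457112) (nat_lit 197) (nat_lit 5) (nat_lit 196) (nat_lit 5) (nat_lit 210) (nat_lit 5) (nat_lit 350) (nat_lit 334) (nat_lit 261)) (XT.lf (nat_lit 0) (nat_lit 1821700755) (nat_lit 1092) (nat_lit 6636831677) (nat_lit 1176) (nat_lit 1459494356) (nat_lit 184) (nat_lit 5) (nat_lit 197) (nat_lit 5) (nat_lit 198) (nat_lit 5) (nat_lit 351) (nat_lit 334) (nat_lit 260)))))) (XT.nd (nat_lit 658) (nat_lit 1848) (nat_lit 0) (XT.nd (nat_lit 282) (nat_lit 1848) (nat_lit 0) (XT.nd (nat_lit 94) (nat_lit 1260) (nat_lit 0) (XT.lf (nat_lit 0) (nat_lit 6707924010) (nat_lit 1092) (nat_lit 3202975960) (nat_lit 1176) (nat_lit 152186921)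 (nat_lit 184) (nat_lit 5) (nat_lit 197) (nat_lit 5) (nat_lit 198) (nat_lit 5) (nat_lit 352) (nat_lit 334) (nat_lit 259)) (XT.nd (nat_lit 94) (nat_lit 0) (nat_lit 0) (XT.lf (nat_lit 0) (nat_lit 1161241204) (nat_lit 1260) (nat_lit 8693058036) (nat_lit 84) (nat_lit 358201143) (nat_lit 169) (nat_lit 5) (nat_lit 184) (nat_lit 5) (nat_lit 170) (nat_lit 5) (nat_lit 353) (nat_lit 334) (nat_lit 258)) (XT.lf (nat_lit 0) (nat_lit 2549628126) (nat_lit 1260) (nat_lit 3813968633) (nat_lit 84) (nat_lit 4001646582) (nat_lit 169) (nat_lit 5) (nat_lit 184) (nat_lit 5) (nat_lit 170) (nat_lit 5) (nat_lit 354) (nat_lit 334) (nat_lit 257)))) (XT.nd (nat_lit 188) (nat_lit 588) (nat_lit 0) (XT.nd (nat_lit 94) (nat_lit 0) (nat_lit 0) (XT.lf (nat_lit 0) (nat_lit 1211743624) (nat_lit 1260) (nat_lit 2753052709) (nat_lit 1344) (nat_lit 6558267594) (nat_lit 154) (nat_lit 5) (nat_lit 169) (nat_lit 5) (nat_lit 170) (nat_lit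 5) (nat_lit 355) (nat_lit 334) (nat_lit 256)) (XT.lf (nat_lit 0) (nat_lit 5444656739) (nat_lit 1344) (nat_lit 4251738852) (nat_lit 84) (nat_lit 988604219) (nat_lit 154) (nat_lit 5) (nat_lit 170) (nat_lit 5) (nat_lit 155) (nat_lit 5) (nat_lit 356) (nat_lit 334) (nat_lit 255))) (XT.nd (nat_lit 94) (nat_lit 0) (nat_lit 0) (XT.lf (nat_lit 0) (nat_lit 927143874) (nat_lit 588) (nat_lit 6052753182) (nat_lit 672) (nat_lit 3871613596) (nat_lit 147) (nat_lit 5) (nat_lit 154) (nat_lit 5) (nat_lit 155) (nat_lit 5) (nat_lit 357) (nat_lit 334) (nat_lit 254)) (XT.lf (nat_lit 0) (nat_lit 6325458052) (nat_lit 588) (nat_lit 2253996238) (nat_lit 672) (nat_lit 2443059790) (nat_lit 147) (nat_lit 5) (nat_lit 154) (nat_lit 5) (nat_lit 155) (nat_lit 5) (nat_lit 358) (nat_lit 334) (nat_lit 253))))) (XT.nd (nat_lit 282) (nat_lit 588) (nat_lit 0) (XT.nd (nat_lit 94) (nat_lit 672) (nat_lit 0) (XT.lf (nat_lit 0) (nat_lit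 660828393) (nat_lit 588) (nat_lit 9564525731) (nat_lit 672) (nat_lit 973386551) (nat_lit 140) (nat_lit 5) (nat_lit 147) (nat_lit 5) (nat_lit 148) (nat_lit 5) (nat_lit 359) (nat_lit 334) (nat_lit 252)) (XT.nd (nat_lit 94) (nat_lit 588) (nat_lit 0) (XT.lf (nat_lit 0) (nat_lit 576311144) (nat_lit 672) (nat_lit 5154559975) (nat_lit 84) (nat_lit 5647873976) (nat_lit 139) (nat_lit 5) (nat_lit 147) (nat_lit 5) (nat_lit 140) (nat_lit 5) (nat_lit 360) (nat_lit 334) (nat_lit 251)) (XT.lf (nat_lit 0) (nat_lit 364979032) (nat_lit 588) (nat_lit 1768417943) (nat_lit 672) (nat_lit 9431089737) (nat_lit 132) (nat_lit 5) (nat_lit 139) (nat_lit 5) (nat_lit 140) (nat_lit 5) (nat_lit 361) (nat_lit 334) (nat_lit 250)))) (XT.nd (nat_lit 188) (nat_lit 0) (nat_lit 0) (XT.nd (nat_lit 94) (nat_lit 588) (nat_lit 0) (XT.lf (nat_lit 0) (nat_lit 3789402131) (nat_lit 672) (nat_lit 5644511604) (nat_lit 84) (nat_lit 2320359502)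 (nat_lit 132) (nat_lit 5) (nat_lit 140) (nat_lit 5) (nat_lit 133) (nat_lit 5) (nat_lit 362) (nat_lit 334) (nat_lit 249)) (XT.lf (nat_lit 0) (nat_lit 37748535) (nat_lit 588) (nat_lit 5453276246) (nat_lit 672) (nat_lit 6458888189) (nat_lit 125) (nat_lit 5) (nat_lit 132) (nat_lit 5) (nat_lit 133) (nat_lit 5) (nat_lit 363) (nat_lit 334) (nat_lit 248))) (XT.nd (nat_lit 94) (nat_lit 0) (nat_lit 0) (XT.lf (nat_lit 0) (nat_lit 5983791794) (nat_lit 588) (nat_lit 1295391835) (nat_lit 672) (nat_lit 4871210271) (nat_lit 125) (nat_lit 5) (nat_lit 132) (nat_lit 5) (nat_lit 133) (nat_lit 5) (nat_lit 364) (nat_lit 334) (nat_lit 247)) (XT.lf (nat_lit 0) (nat_lit 9128809649) (nat_lit 672) (nat_lit 299781317) (nat_lit 84) (nat_lit 2928099183) (nat_lit 125) (nat_lit 5) (nat_lit 133) (nat_lit 5) (nat_lit 126) (nat_lit 5) (nat_lit 365) (nat_lit 334) (nat_lit 246))))))))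
noncomputable def xc129 : XT := (XT.nd (nat_lit 2538) (nat_lit 2772) (nat_lit 0) (XT.nd (nat_lit 1222) (nat_lit 2184) (nat_lit 0) (XT.nd (nat_lit 564) (nat_lit 1764) (nat_lit 0) (XT.nd (nat_lit 282) (nat_lit 420) (nat_lit 0) (XT.nd (nat_lit 94) (nat_lit 588) (nat_lit 0) (XT.lf (nat_lit 0) (nat_lit 5822087223) (nat_lit 504) (nat_lit 5260344211) (nat_lit 588) (nat_lit 1485323173) (nat_lit 119) (nat_lit 5) (nat_lit 125) (nat_lit 5) (nat_lit 126) (nat_lit 5) (nat_lit 366) (nat_lit 334) (nat_lit 245)) (XT.nd (nat_lit 94) (nat_lit 504) (nat_lit 0) (XT.lf (nat_lit 0) (nat_lit 286398193) (nat_lit 588) (nat_lit 676269451) (nat_lit 84) (nat_lit 11822938834) (nat_lit 118) (nat_lit 5) (nat_lit 125) (nat_lit 5) (nat_lit 119) (nat_lit 5) (nat_lit 367) (nat_lit 334) (nat_lit 244)) (XT.lf (nat_lit 0) (nat_lit 2150143224) (nat_lit 588) (nat_lit 7393081805) (nat_lit 84) (nat_lit 3464297524) (nat_lit 112)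 (nat_lit 5) (nat_lit 119) (nat_lit 5) (nat_lit 113) (nat_lit 5) (nat_lit 368) (nat_lit 334) (nat_lit 243)))) (XT.nd (nat_lit 94) (nat_lit 420) (nat_lit 0) (XT.lf (nat_lit 0) (nat_lit 4067032403) (nat_lit 588) (nat_lit 1159454961) (nat_lit 84) (nat_lit 8009722470) (nat_lit 112) (nat_lit 5) (nat_lit 119) (nat_lit 5) (nat_lit 113) (nat_lit 5) (nat_lit 369) (nat_lit 334) (nat_lit 242)) (XT.nd (nat_lit 94) (nat_lit 0) (nat_lit 0) (XT.lf (nat_lit 0) (nat_lit 5344401383) (nat_lit 420) (nat_lit 729763469) (nat_lit 504) (nat_lit 7396640570) (nat_lit 107) (nat_lit 5) (nat_lit 112) (nat_lit 5) (nat_lit 113) (nat_lit 5) (nat_lit 370) (nat_lit 334) (nat_lit 241)) (XT.lf (nat_lit 0) (nat_lit 8172523069) (nat_lit 504) (nat_lit 1703983897) (nat_lit 84) (nat_lit 3835030474) (nat_lit 107) (nat_lit 5) (nat_lit 113) (nat_lit 5) (nat_lit 108) (nat_lit 5) (nat_lit 371) (nat_lit 334) (nat_lit 240))))) (XT.nd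 (nat_lit 282) (nat_lit 756) (nat_lit 0) (XT.nd (nat_lit 94) (nat_lit 504) (nat_lit 0) (XT.lf (nat_lit 0) (nat_lit 4980275942) (nat_lit 504) (nat_lit 5390869068) (nat_lit 588) (nat_lit 3587255095) (nat_lit 101) (nat_lit 5) (nat_lit 107) (nat_lit 5) (nat_lit 108) (nat_lit 5) (nat_lit 372) (nat_lit 334) (nat_lit 239)) (XT.nd (nat_lit 94) (nat_lit 504) (nat_lit 0) (XT.lf (nat_lit 0) (nat_lit 11879406759) (nat_lit 504) (nat_lit 756060027) (nat_lit 588) (nat_lit 1577236886) (nat_lit 101) (nat_lit 5) (nat_lit 107) (nat_lit 5) (nat_lit 108) (nat_lit 5) (nat_lit 373) (nat_lit 334) (nat_lit 238)) (XT.lf (nat_lit 0) (nat_lit 549360516) (nat_lit 504) (nat_lit 9937731113) (nat_lit 84) (nat_lit 3985451201) (nat_lit 95) (nat_lit 5) (nat_lit 101) (nat_lit 5) (nat_lit 96) (nat_lit 5) (nat_lit 374) (nat_lit 334) (nat_lit 237)))) (XT.nd (nat_lit 188) (nat_lit 336) (nat_lit 0) (XT.nd (nat_lit 94) (nat_lit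 420) (nat_lit 0) (XT.lf (nat_lit 0) (nat_lit 2722458831) (nat_lit 504) (nat_lit 3126664799) (nat_lit 84) (nat_lit 8890177876) (nat_lit 95) (nat_lit 5) (nat_lit 101) (nat_lit 5) (nat_lit 96) (nat_lit 5) (nat_lit 375) (nat_lit 334) (nat_lit 236)) (XT.lf (nat_lit 0) (nat_lit 3945676247) (nat_lit 420) (nat_lit 1036616799) (nat_lit 504) (nat_lit 10031147825) (nat_lit 90) (nat_lit 5) (nat_lit 95) (nat_lit 5) (nat_lit 96) (nat_lit 5) (nat_lit 376) (nat_lit 334) (nat_lit 235))) (XT.nd (nat_lit 94) (nat_lit 336) (nat_lit 0) (XT.lf (nat_lit 0) (nat_lit 7363357040) (nat_lit 504) (nat_lit 4058898127) (nat_lit 84) (nat_lit 3871969719) (nat_lit 90) (nat_lit 5) (nat_lit 96) (nat_lit 5) (nat_lit 91) (nat_lit 5) (nat_lit 377) (nat_lit 334) (nat_lit 234)) (XT.lf (nat_lit 0) (nat_lit 3192535295) (nat_lit 336) (nat_lit 6648604720) (nat_lit 420) (nat_lit 5741556622) (nat_lit 86) (nat_lit 5) (nat_lit 90) (nat_lit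 5) (nat_lit 91) (nat_lit 5) (nat_lit 378) (nat_lit 334) (nat_lit 233)))))) (XT.nd (nat_lit 658) (nat_lit 1008) (nat_lit 0) (XT.nd (nat_lit 282) (nat_lit 672) (nat_lit 0) (XT.nd (nat_lit 94) (nat_lit 504) (nat_lit 0) (XT.lf (nat_lit 0) (nat_lit 10725175218) (nat_lit 336) (nat_lit 1693671535) (nat_lit 420) (nat_lit 3460230242) (nat_lit 86) (nat_lit 5) (nat_lit 90) (nat_lit 5) (nat_lit 91) (nat_lit 5) (nat_lit 379) (nat_lit 334) (nat_lit 232)) (XT.nd (nat_lit 94) (nat_lit 84) (nat_lit 0) (XT.lf (nat_lit 0) (nat_lit 2291990316) (nat_lit 420) (nat_lit 12821717669) (nat_lit 504) (nat_lit 1069467600) (nat_lit 81) (nat_lit 5) (nat_lit 86) (nat_lit 5) (nat_lit 87) (nat_lit 5) (nat_lit 380) (nat_lit 334) (nat_lit 231)) (XT.lf (nat_lit 0) (nat_lit 1420262341) (nat_lit 504) (nat_lit 6478130287) (nat_lit 84) (nat_lit 8595990252) (nat_lit 80) (nat_lit 5) (nat_lit 86) (nat_lit 5) (nat_lit 81) (nat_lit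 5) (nat_lit 381) (nat_lit 334) (nat_lit 230)))) (XT.nd (nat_lit 188) (nat_lit 336) (nat_lit 0) (XT.nd (nat_lit 94) (nat_lit 0) (nat_lit 0) (XT.lf (nat_lit 0) (nat_lit 1150212402) (nat_lit 336) (nat_lit 2809565704) (nat_lit 420) (nat_lit 12854952640) (nat_lit 76) (nat_lit 5) (nat_lit 80) (nat_lit 5) (nat_lit 81) (nat_lit 5) (nat_lit 382) (nat_lit 334) (nat_lit 229)) (XT.lf (nat_lit 0) (nat_lit 6650650426) (nat_lit 420) (nat_lit 8045726967) (nat_lit 84) (nat_lit 2446075641) (nat_lit 76) (nat_lit 5) (nat_lit 81) (nat_lit 5) (nat_lit 77) (nat_lit 5) (nat_lit 383) (nat_lit 334) (nat_lit 228))) (XT.nd (nat_lit 94) (nat_lit 336) (nat_lit 0) (XT.lf (nat_lit 0) (nat_lit 9436211852) (nat_lit 420) (nat_lit 244807054) (nat_lit 84) (nat_lit 7798587758) (nat_lit 76) (nat_lit 5) (nat_lit 81) (nat_lit 5) (nat_lit 77) (nat_lit 5) (nat_lit 384) (nat_lit 334) (nat_lit 227)) (XT.lf (nat_lit 0) (nat_lit 7926744328)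 (nat_lit 336) (nat_lit 4441341493) (nat_lit 420) (nat_lit 5456924731) (nat_lit 72) (nat_lit 5) (nat_lit 76) (nat_lit 5) (nat_lit 77) (nat_lit 5) (nat_lit 385) (nat_lit 334) (nat_lit 226))))) (XT.nd (nat_lit 282) (nat_lit 588) (nat_lit 0) (XT.nd (nat_lit 94) (nat_lit 420) (nat_lit 0) (XT.lf (nat_lit 0) (nat_lit 15386321512) (nat_lit 420) (nat_lit 1859719237) (nat_lit 84) (nat_lit 934801137) (nat_lit 72) (nat_lit 5) (nat_lit 77) (nat_lit 5) (nat_lit 73) (nat_lit 5) (nat_lit 386) (nat_lit 334) (nat_lit 225)) (XT.nd (nat_lit 94) (nat_lit 0) (nat_lit 0) (XT.lf (nat_lit 0) (nat_lit 43104116) (nat_lit 420) (nat_lit 12060168265) (nat_lit 84) (nat_lit 6441277481) (nat_lit 67) (nat_lit 5) (nat_lit 72) (nat_lit 5) (nat_lit 68) (nat_lit 5) (nat_lit 387) (nat_lit 334) (nat_lit 224)) (XT.lf (nat_lit 0) (nat_lit 2915831104) (nat_lit 420) (nat_lit 3847365382) (nat_lit 84) (nat_lit 12154974321) (nat_lit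 67) (nat_lit 5) (nat_lit 72) (nat_lit 5) (nat_lit 68) (nat_lit 5) (nat_lit 388) (nat_lit 334) (nat_lit 223)))) (XT.nd (nat_lit 188) (nat_lit 252) (nat_lit 0) (XT.nd (nat_lit 94) (nat_lit 0) (nat_lit 0) (XT.lf (nat_lit 0) (nat_lit 4685947598) (nat_lit 336) (nat_lit 1221385428) (nat_lit 420) (nat_lit 13394705104) (nat_lit 63) (nat_lit 5) (nat_lit 67) (nat_lit 5) (nat_lit 68) (nat_lit 5) (nat_lit 389) (nat_lit 334) (nat_lit 222)) (XT.lf (nat_lit 0) (nat_lit 9058644002) (nat_lit 420) (nat_lit 6203121773) (nat_lit 84) (nat_lit 4433568871) (nat_lit 63) (nat_lit 5) (nat_lit 68) (nat_lit 5) (nat_lit 64) (nat_lit 5) (nat_lit 390) (nat_lit 334) (nat_lit 221))) (XT.nd (nat_lit 94) (nat_lit 0) (nat_lit 0) (XT.lf (nat_lit 0) (nat_lit 2481597508) (nat_lit 252) (nat_lit 9846902388) (nat_lit 336) (nat_lit 7771224646) (nat_lit 60) (nat_lit 5) (nat_lit 63) (nat_lit 5) (nat_lit 64) (nat_lit 5) (nat_lit 391)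 (nat_lit 334) (nat_lit 220)) (XT.lf (nat_lit 0) (nat_lit 11537212139) (nat_lit 252) (nat_lit 4210123019) (nat_lit 336) (nat_lit 4767398691) (nat_lit 60) (nat_lit 5) (nat_lit 63) (nat_lit 5) (nat_lit 64) (nat_lit 5) (nat_lit 392) (nat_lit 334) (nat_lit 219))))))) (XT.nd (nat_lit 1316) (nat_lit 1092) (nat_lit 0) (XT.nd (nat_lit 658) (nat_lit 756) (nat_lit 0) (XT.nd (nat_lit 282) (nat_lit 504) (nat_lit 0) (XT.nd (nat_lit 94) (nat_lit 420) (nat_lit 0) (XT.lf (nat_lit 0) (nat_lit 19272614505) (nat_lit 336) (nat_lit 109661441) (nat_lit 84) (nat_lit 1559814929) (nat_lit 60) (nat_lit 5) (nat_lit 64) (nat_lit 5) (nat_lit 61) (nat_lit 5) (nat_lit 393) (nat_lit 334) (nat_lit 218)) (XT.nd (nat_lit 94) (nat_lit 0) (nat_lit 0) (XT.lf (nat_lit 0) (nat_lit 1611319484) (nat_lit 420) (nat_lit 12249665565) (nat_lit 84) (nat_lit 7517269142) (nat_lit 55) (nat_lit 5) (nat_lit 60) (nat_lit 5) (nat_lit 56) (nat_lit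 5) (nat_lit 394) (nat_lit 334) (nat_lit 217)) (XT.lf (nat_lit 0) (nat_lit 4947025339) (nat_lit 420) (nat_lit 3213989948) (nat_lit 84) (nat_lit 13666302645) (nat_lit 55) (nat_lit 5) (nat_lit 60) (nat_lit 5) (nat_lit 56) (nat_lit 5) (nat_lit 395) (nat_lit 334) (nat_lit 216)))) (XT.nd (nat_lit 188) (nat_lit 252) (nat_lit 0) (XT.nd (nat_lit 94) (nat_lit 0) (nat_lit 0) (XT.lf (nat_lit 0) (nat_lit 6197958215) (nat_lit 252) (nat_lit 2233667980) (nat_lit 336) (nat_lit 13856774947) (nat_lit 52) (nat_lit 5) (nat_lit 55) (nat_lit 5) (nat_lit 56) (nat_lit 5) (nat_lit 396) (nat_lit 334) (nat_lit 215)) (XT.lf (nat_lit 0) (nat_lit 12080117269) (nat_lit 336) (nat_lit 6857600792) (nat_lit 84) (nat_lit 3823830135) (nat_lit 52) (nat_lit 5) (nat_lit 56) (nat_lit 5) (nat_lit 53) (nat_lit 5) (nat_lit 397) (nat_lit 334) (nat_lit 214))) (XT.nd (nat_lit 94) (nat_lit 0) (nat_lit 0) (XT.lf (nat_lit 0) (nat_lit 2666741533)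 (nat_lit 252) (nat_lit 13208741935) (nat_lit 336) (nat_lit 7372295149) (nat_lit 49) (nat_lit 5) (nat_lit 52) (nat_lit 5) (nat_lit 53) (nat_lit 5) (nat_lit 398) (nat_lit 334) (nat_lit 213)) (XT.lf (nat_lit 0) (nat_lit 12602131992) (nat_lit 252) (nat_lit 7241651709) (nat_lit 336) (nat_lit 3903051287) (nat_lit 49) (nat_lit 5) (nat_lit 52) (nat_lit 5) (nat_lit 53) (nat_lit 5) (nat_lit 399) (nat_lit 334) (nat_lit 212))))) (XT.nd (nat_lit 282) (nat_lit 420) (nat_lit 0) (XT.nd (nat_lit 94) (nat_lit 336) (nat_lit 0) (XT.lf (nat_lit 0) (nat_lit 22820772291) (nat_lit 252) (nat_lit 1100481741) (nat_lit 336) (nat_lit 339916288) (nat_lit 49) (nat_lit 5) (nat_lit 52) (nat_lit 5) (nat_lit 53) (nat_lit 5) (nat_lit 400) (nat_lit 334) (nat_lit 211)) (XT.nd (nat_lit 94) (nat_lit 0) (nat_lit 0) (XT.lf (nat_lit 0) (nat_lit 3390170868) (nat_lit 336) (nat_lit 16161319139) (nat_lit 84) (nat_lit 5234744431) (nat_lit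 45) (nat_lit 5) (nat_lit 49) (nat_lit 5) (nat_lit 46) (nat_lit 5) (nat_lit 401) (nat_lit 334) (nat_lit 210)) (XT.lf (nat_lit 0) (nat_lit 7241313836) (nat_lit 336) (nat_lit 6333995045) (nat_lit 84) (nat_lit 11751171056) (nat_lit 45) (nat_lit 5) (nat_lit 49) (nat_lit 5) (nat_lit 46) (nat_lit 5) (nat_lit 402) (nat_lit 334) (nat_lit 209)))) (XT.nd (nat_lit 188) (nat_lit 168) (nat_lit 0) (XT.nd (nat_lit 94) (nat_lit 0) (nat_lit 0) (XT.lf (nat_lit 0) (nat_lit 3848994065) (nat_lit 252) (nat_lit 7386675635) (nat_lit 336) (nat_lit 14646442431) (nat_lit 42) (nat_lit 5) (nat_lit 45) (nat_lit 5) (nat_lit 46) (nat_lit 5) (nat_lit 403) (nat_lit 334) (nat_lit 208)) (XT.lf (nat_lit 0) (nat_lit 14453190920) (nat_lit 252) (nat_lit 951441678) (nat_lit 336) (nat_lit 11048146805) (nat_lit 42) (nat_lit 5) (nat_lit 45) (nat_lit 5) (nat_lit 46) (nat_lit 5) (nat_lit 404) (nat_lit 334) (nat_lit 207))) (XT.nd (nat_lit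 94) (nat_lit 168) (nat_lit 0) (XT.lf (nat_lit 0) (nat_lit 19744270588) (nat_lit 336) (nat_lit 1733564196) (nat_lit 84) (nat_lit 5561372853) (nat_lit 42) (nat_lit 5) (nat_lit 46) (nat_lit 5) (nat_lit 43) (nat_lit 5) (nat_lit 405) (nat_lit 334) (nat_lit 206)) (XT.lf (nat_lit 0) (nat_lit 8992970078) (nat_lit 168) (nat_lit 15308291702) (nat_lit 252) (nat_lit 3339360882) (nat_lit 40) (nat_lit 5) (nat_lit 42) (nat_lit 5) (nat_lit 43) (nat_lit 5) (nat_lit 406) (nat_lit 334) (nat_lit 205)))))) (XT.nd (nat_lit 658) (nat_lit 588) (nat_lit 0) (XT.nd (nat_lit 282) (nat_lit 168) (nat_lit 0) (XT.nd (nat_lit 94) (nat_lit 252) (nat_lit 0) (XT.lf (nat_lit 0) (nat_lit 729550460) (nat_lit 252) (nat_lit 8203539668) (nat_lit 84) (nat_lit 19326516199) (nat_lit 39) (nat_lit 5) (nat_lit 42) (nat_lit 5) (nat_lit 40) (nat_lit 5) (nat_lit 407) (nat_lit 334) (nat_lit 204)) (XT.nd (nat_lit 94) (nat_lit 0) (nat_lit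 0) (XT.lf (nat_lit 0) (nat_lit 2557552383) (nat_lit 252) (nat_lit 2312025393) (nat_lit 336) (nat_lit 24026112954) (nat_lit 36) (nat_lit 5) (nat_lit 39) (nat_lit 5) (nat_lit 40) (nat_lit 5) (nat_lit 408) (nat_lit 334) (nat_lit 203)) (XT.lf (nat_lit 0) (nat_lit 9252451892) (nat_lit 336) (nat_lit 15796151556) (nat_lit 84) (nat_lit 4498702714) (nat_lit 36) (nat_lit 5) (nat_lit 40) (nat_lit 5) (nat_lit 37) (nat_lit 5) (nat_lit 409) (nat_lit 334) (nat_lit 202)))) (XT.nd (nat_lit 188) (nat_lit 0) (nat_lit 0) (XT.nd (nat_lit 94) (nat_lit 168) (nat_lit 0) (XT.lf (nat_lit 0) (nat_lit 13781602235) (nat_lit 336) (nat_lit 4973680103) (nat_lit 84) (nat_lit 11462751667) (nat_lit 36) (nat_lit 5) (nat_lit 40) (nat_lit 5) (nat_lit 37) (nat_lit 5) (nat_lit 410) (nat_lit 334) (nat_lit 201)) (XT.lf (nat_lit 0) (nat_lit 6283572269) (nat_lit 168) (nat_lit 12215590984) (nat_lit 252) (nat_lit 12408151768) (nat_lit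 34) (nat_lit 5) (nat_lit 36) (nat_lit 5) (nat_lit 37) (nat_lit 5) (nat_lit 411) (nat_lit 334) (nat_lit 200))) (XT.nd (nat_lit 94) (nat_lit 0) (nat_lit 0) (XT.lf (nat_lit 0) (nat_lit 17968112060) (nat_lit 168) (nat_lit 5432608114) (nat_lit 252) (nat_lit 8215287430) (nat_lit 34) (nat_lit 5) (nat_lit 36) (nat_lit 5) (nat_lit 37) (nat_lit 5) (nat_lit 412) (nat_lit 334) (nat_lit 199)) (XT.lf (nat_lit 0) (nat_lit 28456687822) (nat_lit 252) (nat_lit 2369924253) (nat_lit 84) (nat_lit 1519134966) (nat_lit 34) (nat_lit 5) (nat_lit 37) (nat_lit 5) (nat_lit 35) (nat_lit 5) (nat_lit 413) (nat_lit 334) (nat_lit 198))))) (XT.nd (nat_lit 282) (nat_lit 336) (nat_lit 0) (XT.nd (nat_lit 94) (nat_lit 0) (nat_lit 0) (XT.lf (nat_lit 0) (nat_lit 693680081) (nat_lit 252) (nat_lit 23736639128) (nat_lit 84) (nat_lit 8662768924) (nat_lit 31) (nat_lit 5) (nat_lit 34) (nat_lit 5) (nat_lit 32) (nat_lit 5) (nat_lit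 414) (nat_lit 334) (nat_lit 197)) (XT.nd (nat_lit 94) (nat_lit 0) (nat_lit 0) (XT.lf (nat_lit 0) (nat_lit 5352574749) (nat_lit 252) (nat_lit 12429574283) (nat_lit 84) (nat_lit 16079046480) (nat_lit 31) (nat_lit 5) (nat_lit 34) (nat_lit 5) (nat_lit 32) (nat_lit 5) (nat_lit 415) (nat_lit 334) (nat_lit 196)) (XT.lf (nat_lit 0) (nat_lit 10144120619) (nat_lit 252) (nat_lit 794845918) (nat_lit 84) (nat_lit 23713599263) (nat_lit 31) (nat_lit 5) (nat_lit 34) (nat_lit 5) (nat_lit 32) (nat_lit 5) (nat_lit 416) (nat_lit 334) (nat_lit 195)))) (XT.nd (nat_lit 188) (nat_lit 168) (nat_lit 0) (XT.nd (nat_lit 94) (nat_lit 0) (nat_lit 0) (XT.lf (nat_lit 0) (nat_lit 11400170626) (nat_lit 168) (nat_lit 3781919265) (nat_lit 252) (nat_lit 20282513030) (nat_lit 29) (nat_lit 5) (nat_lit 31) (nat_lit 5) (nat_lit 32) (nat_lit 5) (nat_lit 417) (nat_lit 334) (nat_lit 194)) (XT.lf (nat_lit 0) (nat_lit 20406956716)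 (nat_lit 252) (nat_lit 12369287534) (nat_lit 84) (nat_lit 3523690013) (nat_lit 29) (nat_lit 5) (nat_lit 32) (nat_lit 5) (nat_lit 30) (nat_lit 5) (nat_lit 418) (nat_lit 334) (nat_lit 193))) (XT.nd (nat_lit 94) (nat_lit 168) (nat_lit 0) (XT.lf (nat_lit 0) (nat_lit 25819358840) (nat_lit 252) (nat_lit 371676085) (nat_lit 84) (nat_lit 10968372631) (nat_lit 29) (nat_lit 5) (nat_lit 32) (nat_lit 5) (nat_lit 30) (nat_lit 5) (nat_lit 419) (nat_lit 334) (nat_lit 192)) (XT.lf (nat_lit 0) (nat_lit 12213570271) (nat_lit 168) (nat_lit 19291505464) (nat_lit 252) (nat_lit 6536266556) (nat_lit 27) (nat_lit 5) (nat_lit 29) (nat_lit 5) (nat_lit 30) (nat_lit 5) (nat_lit 420) (nat_lit 334) (nat_lit 191))))))))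
noncomputable def xc130 : XT := (XT.nd (nat_lit 51324) (nat_lit 0) (nat_lit 9996) (XT.nd (nat_lit 1222) (nat_lit 420) (nat_lit 0) (XT.nd (nat_lit 564) (nat_lit 336) (nat_lit 0) (XT.nd (nat_lit 282) (nat_lit 168) (nat_lit 0) (XT.nd (nat_lit 94) (nat_lit 252) (nat_lit 0) (XT.lf (nat_lit 0) (nat_lit 25173472989) (nat_lit 168) (nat_lit 12185269822) (nat_lit 252) (nat_lit 1591076260) (nat_lit 27) (nat_lit 5) (nat_lit 29) (nat_lit 5) (nat_lit 30) (nat_lit 5) (nat_lit 421) (nat_lit 334) (nat_lit 190)) (XT.nd (nat_lit 94) (nat_lit 168) (nat_lit 0) (XT.lf (nat_lit 0) (nat_lit 3427868704) (nat_lit 252) (nat_lit 1407388412) (nat_lit 84) (nat_lit 35049475715) (nat_lit 26) (nat_lit 5) (nat_lit 29) (nat_lit 5) (nat_lit 27) (nat_lit 5) (nat_lit 422) (nat_lit 334) (nat_lit 189)) (XT.lf (nat_lit 0) (nat_lit 8697689625) (nat_lit 252) (nat_lit 29339720086) (nat_lit 84) (nat_lit 2805848005) (nat_lit 24) (nat_lit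 5) (nat_lit 27) (nat_lit 5) (nat_lit 25) (nat_lit 5) (nat_lit 423) (nat_lit 334) (nat_lit 188)))) (XT.nd (nat_lit 94) (nat_lit 168) (nat_lit 0) (XT.lf (nat_lit 0) (nat_lit 14181801849) (nat_lit 252) (nat_lit 17057574985) (nat_lit 84) (nat_lit 10589480378) (nat_lit 24) (nat_lit 5) (nat_lit 27) (nat_lit 5) (nat_lit 25) (nat_lit 5) (nat_lit 424) (nat_lit 334) (nat_lit 187)) (XT.nd (nat_lit 94) (nat_lit 168) (nat_lit 0) (XT.lf (nat_lit 0) (nat_lit 19824583329) (nat_lit 252) (nat_lit 4416761635) (nat_lit 84) (nat_lit 18602859977) (nat_lit 24) (nat_lit 5) (nat_lit 27) (nat_lit 5) (nat_lit 25) (nat_lit 5) (nat_lit 425) (nat_lit 334) (nat_lit 186)) (XT.lf (nat_lit 0) (nat_lit 8764798114) (nat_lit 168) (nat_lit 16950419140) (nat_lit 252) (nat_lit 18172443272) (nat_lit 22) (nat_lit 5) (nat_lit 24) (nat_lit 5) (nat_lit 25) (nat_lit 5) (nat_lit 426) (nat_lit 334) (nat_lit 185))))) (XT.nd (nat_lit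 282) (nat_lit 252) (nat_lit 0) (XT.nd (nat_lit 94) (nat_lit 84) (nat_lit 0) (XT.lf (nat_lit 0) (nat_lit 22422926401) (nat_lit 168) (nat_lit 9398635841) (nat_lit 252) (nat_lit 13139692135) (nat_lit 22) (nat_lit 5) (nat_lit 24) (nat_lit 5) (nat_lit 25) (nat_lit 5) (nat_lit 427) (nat_lit 334) (nat_lit 184)) (XT.nd (nat_lit 94) (nat_lit 84) (nat_lit 0) (XT.lf (nat_lit 0) (nat_lit 36481655296) (nat_lit 168) (nat_lit 1623997053) (nat_lit 252) (nat_lit 7961571285) (nat_lit 22) (nat_lit 5) (nat_lit 24) (nat_lit 5) (nat_lit 25) (nat_lit 5) (nat_lit 428) (nat_lit 334) (nat_lit 183)) (XT.lf (nat_lit 0) (nat_lit 3758749938) (nat_lit 84) (nat_lit 40911691250) (nat_lit 168) (nat_lit 2533169610) (nat_lit 21) (nat_lit 5) (nat_lit 22) (nat_lit 5) (nat_lit 23) (nat_lit 4) (nat_lit 429) (nat_lit 334) (nat_lit 182)))) (XT.nd (nat_lit 188) (nat_lit 168) (nat_lit 0) (XT.nd (nat_lit 94) (nat_lit 0) (nat_lit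 0) (XT.lf (nat_lit 0) (nat_lit 3106935089) (nat_lit 168) (nat_lit 30726753277) (nat_lit 84) (nat_lit 14536267446) (nat_lit 20) (nat_lit 5) (nat_lit 22) (nat_lit 5) (nat_lit 21) (nat_lit 5) (nat_lit 430) (nat_lit 334) (nat_lit 181)) (XT.lf (nat_lit 0) (nat_lit 8860175539) (nat_lit 168) (nat_lit 17660946804) (nat_lit 84) (nat_lit 23049574762) (nat_lit 20) (nat_lit 5) (nat_lit 22) (nat_lit 5) (nat_lit 21) (nat_lit 5) (nat_lit 431) (nat_lit 334) (nat_lit 180))) (XT.nd (nat_lit 94) (nat_lit 168) (nat_lit 0) (XT.lf (nat_lit 0) (nat_lit 14781010107) (nat_lit 168) (nat_lit 4211674342) (nat_lit 84) (nat_lit 31814929934) (nat_lit 20) (nat_lit 5) (nat_lit 22) (nat_lit 5) (nat_lit 21) (nat_lit 5) (nat_lit 432) (nat_lit 334) (nat_lit 179)) (XT.lf (nat_lit 0) (nat_lit 9824527824) (nat_lit 168) (nat_lit 11144523884) (nat_lit 252) (nat_lit 31109903556) (nat_lit 18) (nat_lit 5) (nat_lit 20) (nat_lit 5)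 (nat_lit 21) (nat_lit 5) (nat_lit 433) (nat_lit 334) (nat_lit 178)))))) (XT.nd (nat_lit 658) (nat_lit 252) (nat_lit 0) (XT.nd (nat_lit 282) (nat_lit 168) (nat_lit 0) (XT.nd (nat_lit 94) (nat_lit 0) (nat_lit 0) (XT.lf (nat_lit 0) (nat_lit 24359971843) (nat_lit 168) (nat_lit 3020497846) (nat_lit 252) (nat_lit 26006838074) (nat_lit 18) (nat_lit 5) (nat_lit 20) (nat_lit 5) (nat_lit 21) (nat_lit 5) (nat_lit 434) (nat_lit 334) (nat_lit 177)) (XT.nd (nat_lit 94) (nat_lit 0) (nat_lit 0) (XT.lf (nat_lit 0) (nat_lit 34030944770) (nat_lit 252) (nat_lit 15462885254) (nat_lit 84) (nat_lit 5239682716) (nat_lit 18) (nat_lit 5) (nat_lit 21) (nat_lit 5) (nat_lit 19) (nat_lit 4) (nat_lit 435) (nat_lit 334) (nat_lit 176)) (XT.lf (nat_lit 0) (nat_lit 40906290054) (nat_lit 252) (nat_lit 1529225018) (nat_lit 84) (nat_lit 13683831361) (nat_lit 18) (nat_lit 5) (nat_lit 21) (nat_lit 5) (nat_lit 19) (nat_lit 4)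 (nat_lit 436) (nat_lit 334) (nat_lit 175)))) (XT.nd (nat_lit 188) (nat_lit 84) (nat_lit 0) (XT.nd (nat_lit 94) (nat_lit 0) (nat_lit 0) (XT.lf (nat_lit 0) (nat_lit 13069895437) (nat_lit 84) (nat_lit 35039218645) (nat_lit 168) (nat_lit 9434007653) (nat_lit 17) (nat_lit 5) (nat_lit 18) (nat_lit 5) (nat_lit 19) (nat_lit 4) (nat_lit 437) (nat_lit 334) (nat_lit 174)) (XT.lf (nat_lit 0) (nat_lit 28130821214) (nat_lit 84) (nat_lit 27408282764) (nat_lit 168) (nat_lit 3470176944) (nat_lit 17) (nat_lit 5) (nat_lit 18) (nat_lit 5) (nat_lit 19) (nat_lit 4) (nat_lit 438) (nat_lit 334) (nat_lit 173))) (XT.nd (nat_lit 94) (nat_lit 0) (nat_lit 0) (XT.lf (nat_lit 0) (nat_lit 2616138404) (nat_lit 168) (nat_lit 16908925522) (nat_lit 84) (nat_lit 40993721495) (nat_lit 16) (nat_lit 5) (nat_lit 18) (nat_lit 5) (nat_lit 17) (nat_lit 5) (nat_lit 439) (nat_lit 334) (nat_lit 172)) (XT.lf (nat_lit 0) (nat_lit 8811141878)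 (nat_lit 168) (nat_lit 2561833437) (nat_lit 84) (nat_lit 50699696420) (nat_lit 16) (nat_lit 5) (nat_lit 18) (nat_lit 5) (nat_lit 17) (nat_lit 5) (nat_lit 440) (nat_lit 334) (nat_lit 171))))) (XT.nd (nat_lit 282) (nat_lit 84) (nat_lit 0) (XT.nd (nat_lit 94) (nat_lit 0) (nat_lit 0) (XT.lf (nat_lit 0) (nat_lit 12451687578) (nat_lit 168) (nat_lit 2855967899) (nat_lit 252) (nat_lit 48362052079) (nat_lit 14) (nat_lit 5) (nat_lit 16) (nat_lit 5) (nat_lit 17) (nat_lit 5) (nat_lit 441) (nat_lit 334) (nat_lit 170)) (XT.nd (nat_lit 94) (nat_lit 0) (nat_lit 0) (XT.lf (nat_lit 0) (nat_lit 22078053623) (nat_lit 252) (nat_lit 37409865675) (nat_lit 84) (nat_lit 5824368117) (nat_lit 14) (nat_lit 5) (nat_lit 17) (nat_lit 5) (nat_lit 15) (nat_lit 4) (nat_lit 442) (nat_lit 334) (nat_lit 169)) (XT.lf (nat_lit 0) (nat_lit 29075947434) (nat_lit 252) (nat_lit 23222527126) (nat_lit 84) (nat_lit 14704941160) (nat_lit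 14) (nat_lit 5) (nat_lit 17) (nat_lit 5) (nat_lit 15) (nat_lit 4) (nat_lit 443) (nat_lit 334) (nat_lit 168)))) (XT.nd (nat_lit 188) (nat_lit 0) (nat_lit 0) (XT.nd (nat_lit 94) (nat_lit 84) (nat_lit 0) (XT.lf (nat_lit 0) (nat_lit 36279998264) (nat_lit 252) (nat_lit 8616154317) (nat_lit 84) (nat_lit 23849241173) (nat_lit 14) (nat_lit 5) (nat_lit 17) (nat_lit 5) (nat_lit 15) (nat_lit 4) (nat_lit 444) (nat_lit 334) (nat_lit 167)) (XT.lf (nat_lit 0) (nat_lit 6549826304) (nat_lit 84) (nat_lit 37209635548) (nat_lit 168) (nat_lit 26778392956) (nat_lit 13) (nat_lit 5) (nat_lit 14) (nat_lit 5) (nat_lit 15) (nat_lit 4) (nat_lit 445) (nat_lit 334) (nat_lit 166))) (XT.nd (nat_lit 48880) (nat_lit 0) (nat_lit 17136) (XT.lf (nat_lit 0) (nat_lit 22341077673) (nat_lit 84) (nat_lit 29205614257) (nat_lit 168) (nat_lit 20834898629) (nat_lit 13) (nat_lit 5) (nat_lit 14) (nat_lit 5) (nat_lit 15) (nat_lit 4)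 (nat_lit 446) (nat_lit 334) (nat_lit 165)) (XT.lf (nat_lit 0) (nat_lit 1792506454) (nat_lit 0) (nat_lit 1792506454) (nat_lit 924) (nat_lit 510215573) (nat_lit 217) (nat_lit 5) (nat_lit 217) (nat_lit 3) (nat_lit 228) (nat_lit 3) (nat_lit 335) (nat_lit 335) (nat_lit 275))))))) (XT.nd (nat_lit 1316) (nat_lit 5208) (nat_lit 0) (XT.nd (nat_lit 658) (nat_lit 840) (nat_lit 0) (XT.nd (nat_lit 282) (nat_lit 0) (nat_lit 84) (XT.nd (nat_lit 94) (nat_lit 0) (nat_lit 84) (XT.lf (nat_lit 0) (nat_lit 39626793) (nat_lit 1092) (nat_lit 1012726110) (nat_lit 1092) (nat_lit 7227393081) (nat_lit 204) (nat_lit 3) (nat_lit 217) (nat_lit 3) (nat_lit 217) (nat_lit 5) (nat_lit 336) (nat_lit 335) (nat_lit 274)) (XT.nd (nat_lit 94) (nat_lit 0) (nat_lit 0) (XT.lf (nat_lit 0) (nat_lit 1111349893) (nat_lit 1008) (nat_lit 5678173083) (nat_lit 1092) (nat_lit 1581962732) (nat_lit 205) (nat_lit 5) (nat_lit 217) (nat_lit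 5) (nat_lit 218) (nat_lit 5) (nat_lit 337) (nat_lit 335) (nat_lit 273)) (XT.lf (nat_lit 0) (nat_lit 2195973259) (nat_lit 1008) (nat_lit 1967414636) (nat_lit 1092) (nat_lit 4303251083) (nat_lit 205) (nat_lit 5) (nat_lit 217) (nat_lit 5) (nat_lit 218) (nat_lit 5) (nat_lit 338) (nat_lit 335) (nat_lit 272)))) (XT.nd (nat_lit 188) (nat_lit 0) (nat_lit 84) (XT.nd (nat_lit 94) (nat_lit 0) (nat_lit 84) (XT.lf (nat_lit 84) (nat_lit 1869283170) (nat_lit 0) (nat_lit 1422987290) (nat_lit 1092) (nat_lit 5273083700) (nat_lit 206) (nat_lit 5) (nat_lit 205) (nat_lit 5) (nat_lit 218) (nat_lit 5) (nat_lit 339) (nat_lit 335) (nat_lit 271)) (XT.lf (nat_lit 0) (nat_lit 4417220163) (nat_lit 1008) (nat_lit 2841691758) (nat_lit 1092) (nat_lit 1408324970) (nat_lit 206) (nat_lit 5) (nat_lit 218) (nat_lit 5) (nat_lit 219) (nat_lit 5) (nat_lit 340) (nat_lit 335) (nat_lit 270))) (XT.nd (nat_lit 94) (nat_lit 0) (nat_lit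 0) (XT.lf (nat_lit 84) (nat_lit 1113612702) (nat_lit 0) (nat_lit 4450444797) (nat_lit 1092) (nat_lit 3208551128) (nat_lit 207) (nat_lit 5) (nat_lit 206) (nat_lit 5) (nat_lit 219) (nat_lit 5) (nat_lit 341) (nat_lit 335) (nat_lit 269)) (XT.lf (nat_lit 84) (nat_lit 5223699526) (nat_lit 0) (nat_lit 1514496272) (nat_lit 1092) (nat_lit 2143233308) (nat_lit 207) (nat_lit 5) (nat_lit 206) (nat_lit 5) (nat_lit 219) (nat_lit 5) (nat_lit 342) (nat_lit 335) (nat_lit 268))))) (XT.nd (nat_lit 282) (nat_lit 0) (nat_lit 84) (XT.nd (nat_lit 94) (nat_lit 1092) (nat_lit 0) (XT.lf (nat_lit 84) (nat_lit 434822442) (nat_lit 0) (nat_lit 7496796738) (nat_lit 1092) (nat_lit 1062445485) (nat_lit 208) (nat_lit 5) (nat_lit 207) (nat_lit 5) (nat_lit 220) (nat_lit 5) (nat_lit 343) (nat_lit 335) (nat_lit 267)) (XT.nd (nat_lit 94) (nat_lit 0) (nat_lit 0) (XT.lf (nat_lit 0) (nat_lit 67831038) (nat_lit 1092) (nat_lit 4422942556)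 (nat_lit 1176) (nat_lit 4618817533) (nat_lit 194) (nat_lit 5) (nat_lit 207) (nat_lit 5) (nat_lit 208) (nat_lit 5) (nat_lit 344) (nat_lit 335) (nat_lit 266)) (XT.lf (nat_lit 0) (nat_lit 1177418148) (nat_lit 1092) (nat_lit 195649402) (nat_lit 1176) (nat_lit 7856263725) (nat_lit 194) (nat_lit 5) (nat_lit 207) (nat_lit 5) (nat_lit 208) (nat_lit 5) (nat_lit 345) (nat_lit 335) (nat_lit 265)))) (XT.nd (nat_lit 188) (nat_lit 0) (nat_lit 0) (XT.nd (nat_lit 94) (nat_lit 0) (nat_lit 0) (XT.lf (nat_lit 0) (nat_lit 2346742568) (nat_lit 1092) (nat_lit 5151780985) (nat_lit 1176) (nat_lit 1853410815) (nat_lit 195) (nat_lit 5) (nat_lit 208) (nat_lit 5) (nat_lit 209) (nat_lit 5) (nat_lit 346) (nat_lit 335) (nat_lit 264)) (XT.lf (nat_lit 0) (nat_lit 3535287355) (nat_lit 1092) (nat_lit 782736762) (nat_lit 1176) (nat_lit 5160729583) (nat_lit 195) (nat_lit 5) (nat_lit 208) (nat_lit 5) (nat_lit 209) (nat_lit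 5) (nat_lit 347) (nat_lit 335) (nat_lit 263))) (XT.nd (nat_lit 94) (nat_lit 0) (nat_lit 84) (XT.lf (nat_lit 84) (nat_lit 3768778452) (nat_lit 0) (nat_lit 996404508) (nat_lit 1176) (nat_lit 4844084363) (nat_lit 196) (nat_lit 5) (nat_lit 195) (nat_lit 5) (nat_lit 209) (nat_lit 5) (nat_lit 348) (nat_lit 335) (nat_lit 262)) (XT.lf (nat_lit 0) (nat_lit 6033488517) (nat_lit 1092) (nat_lit 1316918643) (nat_lit 1176) (nat_lit 2393302586) (nat_lit 196) (nat_lit 5) (nat_lit 209) (nat_lit 5) (nat_lit 210) (nat_lit 5) (nat_lit 349) (nat_lit 335) (nat_lit 261)))))) (XT.nd (nat_lit 658) (nat_lit 1848) (nat_lit 0) (XT.nd (nat_lit 282) (nat_lit 2520) (nat_lit 0) (XT.nd (nat_lit 94) (nat_lit 1008) (nat_lit 0) (XT.lf (nat_lit 84) (nat_lit 3376085176) (nat_lit 0) (nat_lit 3977165234) (nat_lit 1176) (nat_lit 2528589887) (nat_lit 197) (nat_lit 5) (nat_lit 196) (nat_lit 5) (nat_lit 210) (nat_lit 5) (nat_lit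 350) (nat_lit 335) (nat_lit 260)) (XT.nd (nat_lit 94) (nat_lit 1008) (nat_lit 0) (XT.lf (nat_lit 84) (nat_lit 8214805452) (nat_lit 0) (nat_lit 482816718) (nat_lit 1176) (nat_lit 1326997493) (nat_lit 197) (nat_lit 5) (nat_lit 196) (nat_lit 5) (nat_lit 210) (nat_lit 5) (nat_lit 351) (nat_lit 335) (nat_lit 259)) (XT.lf (nat_lit 0) (nat_lit 3033888738) (nat_lit 1092) (nat_lit 7080156737) (nat_lit 1176) (nat_lit 56739119) (nat_lit 184) (nat_lit 5) (nat_lit 197) (nat_lit 5) (nat_lit 198) (nat_lit 5) (nat_lit 352) (nat_lit 335) (nat_lit 258)))) (XT.nd (nat_lit 188) (nat_lit 1260) (nat_lit 0) (XT.nd (nat_lit 94) (nat_lit 1176) (nat_lit 0) (XT.lf (nat_lit 0) (nat_lit 1223309055) (nat_lit 1176) (nat_lit 2300510064) (nat_lit 84) (nat_lit 6797321943) (nat_lit 183) (nat_lit 5) (nat_lit 197) (nat_lit 5) (nat_lit 184) (nat_lit 5) (nat_lit 353) (nat_lit 335) (nat_lit 257)) (XT.lf (nat_lit 0) (nat_lit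 2541982321) (nat_lit 1260) (nat_lit 7766451377) (nat_lit 84) (nat_lit 167565982) (nat_lit 169) (nat_lit 5) (nat_lit 184) (nat_lit 5) (nat_lit 170) (nat_lit 5) (nat_lit 354) (nat_lit 335) (nat_lit 256))) (XT.nd (nat_lit 94) (nat_lit 1260) (nat_lit 0) (XT.lf (nat_lit 0) (nat_lit 3932819766) (nat_lit 1260) (nat_lit 2775573711) (nat_lit 84) (nat_lit 3926180256) (nat_lit 169) (nat_lit 5) (nat_lit 184) (nat_lit 5) (nat_lit 170) (nat_lit 5) (nat_lit 355) (nat_lit 335) (nat_lit 255)) (XT.lf (nat_lit 0) (nat_lit 2389607815) (nat_lit 1260) (nat_lit 2973748809) (nat_lit 1344) (nat_lit 5434655559) (nat_lit 154) (nat_lit 5) (nat_lit 169) (nat_lit 5) (nat_lit 170) (nat_lit 5) (nat_lit 356) (nat_lit 335) (nat_lit 254))))) (XT.nd (nat_lit 282) (nat_lit 1260) (nat_lit 0) (XT.nd (nat_lit 94) (nat_lit 588) (nat_lit 0) (XT.lf (nat_lit 0) (nat_lit 6849053584) (nat_lit 1344) (nat_lit 3230181223) (nat_lit 84)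 (nat_lit 886796712) (nat_lit 154) (nat_lit 5) (nat_lit 170) (nat_lit 5) (nat_lit 155) (nat_lit 5) (nat_lit 357) (nat_lit 335) (nat_lit 253)) (XT.nd (nat_lit 94) (nat_lit 0) (nat_lit 0) (XT.lf (nat_lit 0) (nat_lit 2092802202) (nat_lit 588) (nat_lit 6312339265) (nat_lit 672) (nat_lit 2733219107) (nat_lit 147) (nat_lit 5) (nat_lit 154) (nat_lit 5) (nat_lit 155) (nat_lit 5) (nat_lit 358) (nat_lit 335) (nat_lit 252)) (XT.lf (nat_lit 0) (nat_lit 7619924719) (nat_lit 588) (nat_lit 2397347666) (nat_lit 672) (nat_lit 1298348771) (nat_lit 147) (nat_lit 5) (nat_lit 154) (nat_lit 5) (nat_lit 155) (nat_lit 5) (nat_lit 359) (nat_lit 335) (nat_lit 251)))) (XT.nd (nat_lit 188) (nat_lit 588) (nat_lit 0) (XT.nd (nat_lit 94) (nat_lit 0) (nat_lit 0) (XT.lf (nat_lit 0) (nat_lit 186701034) (nat_lit 672) (nat_lit 9687307374) (nat_lit 84) (nat_lit 1623860270) (nat_lit 139) (nat_lit 5) (nat_lit 147) (nat_lit 5)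 (nat_lit 140) (nat_lit 5) (nat_lit 360) (nat_lit 335) (nat_lit 250)) (XT.lf (nat_lit 0) (nat_lit 1729255894) (nat_lit 672) (nat_lit 4185794068) (nat_lit 84) (nat_lit 5769015407) (nat_lit 139) (nat_lit 5) (nat_lit 147) (nat_lit 5) (nat_lit 140) (nat_lit 5) (nat_lit 361) (nat_lit 335) (nat_lit 249))) (XT.nd (nat_lit 94) (nat_lit 0) (nat_lit 0) (XT.lf (nat_lit 0) (nat_lit 1488317357) (nat_lit 588) (nat_lit 1822352564) (nat_lit 672) (nat_lit 8565438294) (nat_lit 132) (nat_lit 5) (nat_lit 139) (nat_lit 5) (nat_lit 140) (nat_lit 5) (nat_lit 362) (nat_lit 335) (nat_lit 248)) (XT.lf (nat_lit 0) (nat_lit 4983921629) (nat_lit 672) (nat_lit 4699564883) (nat_lit 84) (nat_lit 2389130608) (nat_lit 132) (nat_lit 5) (nat_lit 140) (nat_lit 5) (nat_lit 133) (nat_lit 5) (nat_lit 363) (nat_lit 335) (nat_lit 247))))))))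
noncomputable def xc131 : XT := (XT.nd (nat_lit 2632) (nat_lit 2856) (nat_lit 0) (XT.nd (nat_lit 1316) (nat_lit 2268) (nat_lit 0) (XT.nd (nat_lit 658) (nat_lit 1848) (nat_lit 0) (XT.nd (nat_lit 282) (nat_lit 588) (nat_lit 0) (XT.nd (nat_lit 94) (nat_lit 504) (nat_lit 0) (XT.lf (nat_lit 0) (nat_lit 1142238727) (nat_lit 588) (nat_lit 5573479679) (nat_lit 672) (nat_lit 5559088026) (nat_lit 125) (nat_lit 5) (nat_lit 132) (nat_lit 5) (nat_lit 133) (nat_lit 5) (nat_lit 364) (nat_lit 335) (nat_lit 246)) (XT.nd (nat_lit 94) (nat_lit 504) (nat_lit 0) (XT.lf (nat_lit 0) (nat_lit 7234526650) (nat_lit 588) (nat_lit 1292122663) (nat_lit 672) (nat_lit 3955631231) (nat_lit 125) (nat_lit 5) (nat_lit 132) (nat_lit 5) (nat_lit 133) (nat_lit 5) (nat_lit 365) (nat_lit 335) (nat_lit 245)) (XT.lf (nat_lit 0) (nat_lit 777703254) (nat_lit 504) (nat_lit 9631956312) (nat_lit 588) (nat_lit 2285820295) (nat_lit 119)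 (nat_lit 5) (nat_lit 125) (nat_lit 5) (nat_lit 126) (nat_lit 5) (nat_lit 366) (nat_lit 335) (nat_lit 244)))) (XT.nd (nat_lit 188) (nat_lit 0) (nat_lit 0) (XT.nd (nat_lit 94) (nat_lit 588) (nat_lit 0) (XT.lf (nat_lit 0) (nat_lit 7057549096) (nat_lit 504) (nat_lit 5337950262) (nat_lit 588) (nat_lit 518218169) (nat_lit 119) (nat_lit 5) (nat_lit 125) (nat_lit 5) (nat_lit 126) (nat_lit 5) (nat_lit 367) (nat_lit 335) (nat_lit 243)) (XT.lf (nat_lit 0) (nat_lit 361114581) (nat_lit 504) (nat_lit 900379314) (nat_lit 588) (nat_lit 11877128621) (nat_lit 112) (nat_lit 5) (nat_lit 118) (nat_lit 5) (nat_lit 119) (nat_lit 5) (nat_lit 368) (nat_lit 335) (nat_lit 242))) (XT.nd (nat_lit 94) (nat_lit 0) (nat_lit 0) (XT.lf (nat_lit 0) (nat_lit 3160547260) (nat_lit 588) (nat_lit 6545604333) (nat_lit 84) (nat_lit 3661707951) (nat_lit 112) (nat_lit 5) (nat_lit 119) (nat_lit 5) (nat_lit 113) (nat_lit 5) (nat_lit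 369) (nat_lit 335) (nat_lit 241)) (XT.lf (nat_lit 0) (nat_lit 5107392637) (nat_lit 588) (nat_lit 156112468) (nat_lit 84) (nat_lit 8340772883) (nat_lit 112) (nat_lit 5) (nat_lit 119) (nat_lit 5) (nat_lit 113) (nat_lit 5) (nat_lit 370) (nat_lit 335) (nat_lit 240))))) (XT.nd (nat_lit 282) (nat_lit 924) (nat_lit 0) (XT.nd (nat_lit 94) (nat_lit 504) (nat_lit 0) (XT.lf (nat_lit 0) (nat_lit 6532681859) (nat_lit 420) (nat_lit 625190432) (nat_lit 504) (nat_lit 6688587902) (nat_lit 107) (nat_lit 5) (nat_lit 112) (nat_lit 5) (nat_lit 113) (nat_lit 5) (nat_lit 371) (nat_lit 335) (nat_lit 239)) (XT.nd (nat_lit 94) (nat_lit 504) (nat_lit 0) (XT.lf (nat_lit 0) (nat_lit 9294104743) (nat_lit 504) (nat_lit 730635300) (nat_lit 84) (nat_lit 4070467927) (nat_lit 107) (nat_lit 5) (nat_lit 113) (nat_lit 5) (nat_lit 108) (nat_lit 5) (nat_lit 372) (nat_lit 335) (nat_lit 238)) (XT.lf (nat_lit 0) (nat_lit 6144108529)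 (nat_lit 504) (nat_lit 5398801692) (nat_lit 588) (nat_lit 2807079841) (nat_lit 101) (nat_lit 5) (nat_lit 107) (nat_lit 5) (nat_lit 108) (nat_lit 5) (nat_lit 373) (nat_lit 335) (nat_lit 237)))) (XT.nd (nat_lit 188) (nat_lit 420) (nat_lit 0) (XT.nd (nat_lit 94) (nat_lit 504) (nat_lit 0) (XT.lf (nat_lit 0) (nat_lit 13220666932) (nat_lit 504) (nat_lit 629427801) (nat_lit 588) (nat_lit 762619130) (nat_lit 101) (nat_lit 5) (nat_lit 107) (nat_lit 5) (nat_lit 108) (nat_lit 5) (nat_lit 374) (nat_lit 335) (nat_lit 236)) (XT.lf (nat_lit 0) (nat_lit 1397455964) (nat_lit 504) (nat_lit 9218169683) (nat_lit 84) (nat_lit 4264915885) (nat_lit 95) (nat_lit 5) (nat_lit 101) (nat_lit 5) (nat_lit 96) (nat_lit 5) (nat_lit 375) (nat_lit 335) (nat_lit 235))) (XT.nd (nat_lit 94) (nat_lit 420) (nat_lit 0) (XT.lf (nat_lit 0) (nat_lit 3611525442) (nat_lit 504) (nat_lit 2232412934) (nat_lit 84) (nat_lit 9312127045)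 (nat_lit 95) (nat_lit 5) (nat_lit 101) (nat_lit 5) (nat_lit 96) (nat_lit 5) (nat_lit 376) (nat_lit 335) (nat_lit 234)) (XT.lf (nat_lit 0) (nat_lit 5042411561) (nat_lit 420) (nat_lit 882631469) (nat_lit 504) (nat_lit 9513844043) (nat_lit 90) (nat_lit 5) (nat_lit 95) (nat_lit 5) (nat_lit 96) (nat_lit 5) (nat_lit 377) (nat_lit 335) (nat_lit 233)))))) (XT.nd (nat_lit 658) (nat_lit 1092) (nat_lit 0) (XT.nd (nat_lit 282) (nat_lit 840) (nat_lit 0) (XT.nd (nat_lit 94) (nat_lit 336) (nat_lit 0) (XT.lf (nat_lit 0) (nat_lit 8356160986) (nat_lit 504) (nat_lit 3208293312) (nat_lit 84) (nat_lit 4164315395) (nat_lit 90) (nat_lit 5) (nat_lit 96) (nat_lit 5) (nat_lit 91) (nat_lit 5) (nat_lit 378) (nat_lit 335) (nat_lit 232)) (XT.nd (nat_lit 94) (nat_lit 0) (nat_lit 0) (XT.lf (nat_lit 0) (nat_lit 4251150056) (nat_lit 336) (nat_lit 6643900171) (nat_lit 420) (nat_lit 5131274950) (nat_lit 86) (nat_lit 5) (nat_lit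 90) (nat_lit 5) (nat_lit 91) (nat_lit 5) (nat_lit 379) (nat_lit 335) (nat_lit 231)) (XT.lf (nat_lit 0) (nat_lit 11981725331) (nat_lit 336) (nat_lit 1546265477) (nat_lit 420) (nat_lit 2804300867) (nat_lit 86) (nat_lit 5) (nat_lit 90) (nat_lit 5) (nat_lit 91) (nat_lit 5) (nat_lit 380) (nat_lit 335) (nat_lit 230)))) (XT.nd (nat_lit 188) (nat_lit 336) (nat_lit 0) (XT.nd (nat_lit 94) (nat_lit 84) (nat_lit 0) (XT.lf (nat_lit 0) (nat_lit 3307424126) (nat_lit 420) (nat_lit 12985769892) (nat_lit 504) (nat_lit 352665200) (nat_lit 81) (nat_lit 5) (nat_lit 86) (nat_lit 5) (nat_lit 87) (nat_lit 5) (nat_lit 381) (nat_lit 335) (nat_lit 229)) (XT.lf (nat_lit 0) (nat_lit 2175756576) (nat_lit 504) (nat_lit 5738214992) (nat_lit 84) (nat_lit 9052885908) (nat_lit 80) (nat_lit 5) (nat_lit 86) (nat_lit 5) (nat_lit 81) (nat_lit 5) (nat_lit 382) (nat_lit 335) (nat_lit 228))) (XT.nd (nat_lit 94) (nat_lit 0) (nat_lit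 0) (XT.lf (nat_lit 0) (nat_lit 2109818574) (nat_lit 336) (nat_lit 2669768185) (nat_lit 420) (nat_lit 12517613413) (nat_lit 76) (nat_lit 5) (nat_lit 80) (nat_lit 5) (nat_lit 81) (nat_lit 5) (nat_lit 383) (nat_lit 335) (nat_lit 227)) (XT.lf (nat_lit 0) (nat_lit 7532858625) (nat_lit 420) (nat_lit 7369702408) (nat_lit 84) (nat_lit 2732770332) (nat_lit 76) (nat_lit 5) (nat_lit 81) (nat_lit 5) (nat_lit 77) (nat_lit 5) (nat_lit 384) (nat_lit 335) (nat_lit 226))))) (XT.nd (nat_lit 282) (nat_lit 756) (nat_lit 0) (XT.nd (nat_lit 94) (nat_lit 0) (nat_lit 0) (XT.lf (nat_lit 0) (nat_lit 651232715) (nat_lit 336) (nat_lit 9737130089) (nat_lit 420) (nat_lit 7594672161) (nat_lit 72) (nat_lit 5) (nat_lit 76) (nat_lit 5) (nat_lit 77) (nat_lit 5) (nat_lit 385) (nat_lit 335) (nat_lit 225)) (XT.nd (nat_lit 94) (nat_lit 0) (nat_lit 0) (XT.lf (nat_lit 0) (nat_lit 9046490625) (nat_lit 336) (nat_lit 4344615119)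 (nat_lit 420) (nat_lit 4948233707) (nat_lit 72) (nat_lit 5) (nat_lit 76) (nat_lit 5) (nat_lit 77) (nat_lit 5) (nat_lit 386) (nat_lit 335) (nat_lit 224)) (XT.lf (nat_lit 0) (nat_lit 16483045068) (nat_lit 420) (nat_lit 1041574111) (nat_lit 84) (nat_lit 1181756959) (nat_lit 72) (nat_lit 5) (nat_lit 77) (nat_lit 5) (nat_lit 73) (nat_lit 5) (nat_lit 387) (nat_lit 335) (nat_lit 223)))) (XT.nd (nat_lit 188) (nat_lit 336) (nat_lit 0) (XT.nd (nat_lit 94) (nat_lit 0) (nat_lit 0) (XT.lf (nat_lit 0) (nat_lit 676334967) (nat_lit 420) (nat_lit 11543238875) (nat_lit 84) (nat_lit 6861565443) (nat_lit 67) (nat_lit 5) (nat_lit 72) (nat_lit 5) (nat_lit 68) (nat_lit 5) (nat_lit 388) (nat_lit 335) (nat_lit 222)) (XT.lf (nat_lit 0) (nat_lit 3616837811) (nat_lit 420) (nat_lit 3109646112) (nat_lit 84) (nat_lit 12740060093) (nat_lit 67) (nat_lit 5) (nat_lit 72) (nat_lit 5) (nat_lit 68) (nat_lit 5) (nat_lit 389)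 (nat_lit 335) (nat_lit 221))) (XT.nd (nat_lit 94) (nat_lit 0) (nat_lit 0) (XT.lf (nat_lit 0) (nat_lit 5671302138) (nat_lit 336) (nat_lit 1017033301) (nat_lit 420) (nat_lit 13173906711) (nat_lit 63) (nat_lit 5) (nat_lit 67) (nat_lit 5) (nat_lit 68) (nat_lit 5) (nat_lit 390) (nat_lit 335) (nat_lit 220)) (XT.lf (nat_lit 0) (nat_lit 9918848953) (nat_lit 420) (nat_lit 5552985661) (nat_lit 84) (nat_lit 4795984710) (nat_lit 63) (nat_lit 5) (nat_lit 68) (nat_lit 5) (nat_lit 64) (nat_lit 5) (nat_lit 391) (nat_lit 335) (nat_lit 219))))))) (XT.nd (nat_lit 1316) (nat_lit 1092) (nat_lit 0) (XT.nd (nat_lit 658) (nat_lit 840) (nat_lit 0) (XT.nd (nat_lit 282) (nat_lit 336) (nat_lit 0) (XT.nd (nat_lit 94) (nat_lit 336) (nat_lit 0) (XT.lf (nat_lit 0) (nat_lit 3384076867) (nat_lit 252) (nat_lit 9893544008) (nat_lit 336) (nat_lit 7407016459) (nat_lit 60) (nat_lit 5) (nat_lit 63) (nat_lit 5) (nat_lit 64) (nat_lit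 5) (nat_lit 392) (nat_lit 335) (nat_lit 218)) (XT.nd (nat_lit 94) (nat_lit 336) (nat_lit 0) (XT.lf (nat_lit 0) (nat_lit 12687242517) (nat_lit 252) (nat_lit 4094906854) (nat_lit 336) (nat_lit 4330474121) (nat_lit 60) (nat_lit 5) (nat_lit 63) (nat_lit 5) (nat_lit 64) (nat_lit 5) (nat_lit 393) (nat_lit 335) (nat_lit 217)) (XT.lf (nat_lit 0) (nat_lit 695914682) (nat_lit 336) (nat_lit 19709835578) (nat_lit 420) (nat_lit 1147293897) (nat_lit 56) (nat_lit 5) (nat_lit 60) (nat_lit 5) (nat_lit 61) (nat_lit 5) (nat_lit 394) (nat_lit 335) (nat_lit 216)))) (XT.nd (nat_lit 188) (nat_lit 252) (nat_lit 0) (XT.nd (nat_lit 94) (nat_lit 0) (nat_lit 0) (XT.lf (nat_lit 0) (nat_lit 2205501892) (nat_lit 420) (nat_lit 11818180150) (nat_lit 84) (nat_lit 7978921691) (nat_lit 55) (nat_lit 5) (nat_lit 60) (nat_lit 5) (nat_lit 56) (nat_lit 5) (nat_lit 395) (nat_lit 335) (nat_lit 215)) (XT.lf (nat_lit 0) (nat_lit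 5625380589) (nat_lit 420) (nat_lit 2534705392) (nat_lit 84) (nat_lit 14305548497) (nat_lit 55) (nat_lit 5) (nat_lit 60) (nat_lit 5) (nat_lit 56) (nat_lit 5) (nat_lit 396) (nat_lit 335) (nat_lit 214))) (XT.nd (nat_lit 94) (nat_lit 0) (nat_lit 0) (XT.lf (nat_lit 0) (nat_lit 7151996272) (nat_lit 252) (nat_lit 2054471362) (nat_lit 336) (nat_lit 13734341716) (nat_lit 52) (nat_lit 5) (nat_lit 55) (nat_lit 5) (nat_lit 56) (nat_lit 5) (nat_lit 397) (nat_lit 335) (nat_lit 213)) (XT.lf (nat_lit 0) (nat_lit 12951510440) (nat_lit 336) (nat_lit 6304128382) (nat_lit 84) (nat_lit 4172916183) (nat_lit 52) (nat_lit 5) (nat_lit 56) (nat_lit 5) (nat_lit 53) (nat_lit 5) (nat_lit 398) (nat_lit 335) (nat_lit 212))))) (XT.nd (nat_lit 282) (nat_lit 504) (nat_lit 0) (XT.nd (nat_lit 94) (nat_lit 84) (nat_lit 0) (XT.lf (nat_lit 0) (nat_lit 3498501071) (nat_lit 252) (nat_lit 13354637963) (nat_lit 336) (nat_lit 7076477861)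 (nat_lit 49) (nat_lit 5) (nat_lit 52) (nat_lit 5) (nat_lit 53) (nat_lit 5) (nat_lit 399) (nat_lit 335) (nat_lit 211)) (XT.nd (nat_lit 94) (nat_lit 84) (nat_lit 0) (XT.lf (nat_lit 0) (nat_lit 13710057401) (nat_lit 252) (nat_lit 7215827250) (nat_lit 336) (nat_lit 3518214533) (nat_lit 49) (nat_lit 5) (nat_lit 52) (nat_lit 5) (nat_lit 53) (nat_lit 5) (nat_lit 400) (nat_lit 335) (nat_lit 210)) (XT.lf (nat_lit 0) (nat_lit 134518071) (nat_lit 336) (nat_lit 761625568) (nat_lit 84) (nat_lit 24078122369) (nat_lit 48) (nat_lit 5) (nat_lit 52) (nat_lit 5) (nat_lit 49) (nat_lit 5) (nat_lit 401) (nat_lit 335) (nat_lit 209)))) (XT.nd (nat_lit 188) (nat_lit 252) (nat_lit 0) (XT.nd (nat_lit 94) (nat_lit 0) (nat_lit 0) (XT.lf (nat_lit 0) (nat_lit 3964914641) (nat_lit 336) (nat_lit 15922286956) (nat_lit 84) (nat_lit 5627937074) (nat_lit 45) (nat_lit 5) (nat_lit 49) (nat_lit 5) (nat_lit 46) (nat_lit 5) (nat_lit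 402) (nat_lit 335) (nat_lit 208)) (XT.lf (nat_lit 0) (nat_lit 7917814074) (nat_lit 336) (nat_lit 5821226782) (nat_lit 84) (nat_lit 12332978333) (nat_lit 45) (nat_lit 5) (nat_lit 49) (nat_lit 5) (nat_lit 46) (nat_lit 5) (nat_lit 403) (nat_lit 335) (nat_lit 207))) (XT.nd (nat_lit 94) (nat_lit 0) (nat_lit 0) (XT.lf (nat_lit 0) (nat_lit 4660361922) (nat_lit 252) (nat_lit 7364951560) (nat_lit 336) (nat_lit 14619221382) (nat_lit 42) (nat_lit 5) (nat_lit 45) (nat_lit 5) (nat_lit 46) (nat_lit 5) (nat_lit 404) (nat_lit 335) (nat_lit 206)) (XT.lf (nat_lit 0) (nat_lit 15562415808) (nat_lit 252) (nat_lit 743747701) (nat_lit 336) (nat_lit 10926567595) (nat_lit 42) (nat_lit 5) (nat_lit 45) (nat_lit 5) (nat_lit 46) (nat_lit 5) (nat_lit 405) (nat_lit 335) (nat_lit 205)))))) (XT.nd (nat_lit 658) (nat_lit 420) (nat_lit 0) (XT.nd (nat_lit 282) (nat_lit 420) (nat_lit 0) (XT.nd (nat_lit 94) (nat_lit 252) (nat_lit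 0) (XT.lf (nat_lit 0) (nat_lit 20765397531) (nat_lit 336) (nat_lit 1118590555) (nat_lit 84) (nat_lit 5953094998) (nat_lit 42) (nat_lit 5) (nat_lit 46) (nat_lit 5) (nat_lit 43) (nat_lit 5) (nat_lit 406) (nat_lit 335) (nat_lit 204)) (XT.nd (nat_lit 94) (nat_lit 84) (nat_lit 0) (XT.lf (nat_lit 0) (nat_lit 9923200722) (nat_lit 168) (nat_lit 15529757018) (nat_lit 252) (nat_lit 3003779764) (nat_lit 40) (nat_lit 5) (nat_lit 42) (nat_lit 5) (nat_lit 43) (nat_lit 5) (nat_lit 407) (nat_lit 335) (nat_lit 203)) (XT.lf (nat_lit 0) (nat_lit 1166251207) (nat_lit 252) (nat_lit 7799785111) (nat_lit 84) (nat_lit 20128514022) (nat_lit 39) (nat_lit 5) (nat_lit 42) (nat_lit 5) (nat_lit 40) (nat_lit 5) (nat_lit 408) (nat_lit 335) (nat_lit 202)))) (XT.nd (nat_lit 188) (nat_lit 168) (nat_lit 0) (XT.nd (nat_lit 94) (nat_lit 0) (nat_lit 0) (XT.lf (nat_lit 0) (nat_lit 3277768518) (nat_lit 252) (nat_lit 2146814473)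 (nat_lit 336) (nat_lit 24325322818) (nat_lit 36) (nat_lit 5) (nat_lit 39) (nat_lit 5) (nat_lit 40) (nat_lit 5) (nat_lit 409) (nat_lit 335) (nat_lit 201)) (XT.lf (nat_lit 0) (nat_lit 9929222271) (nat_lit 336) (nat_lit 15635191094) (nat_lit 84) (nat_lit 4856959276) (nat_lit 36) (nat_lit 5) (nat_lit 40) (nat_lit 5) (nat_lit 37) (nat_lit 5) (nat_lit 410) (nat_lit 335) (nat_lit 200))) (XT.nd (nat_lit 94) (nat_lit 168) (nat_lit 0) (XT.lf (nat_lit 0) (nat_lit 14582620032) (nat_lit 336) (nat_lit 4506536128) (nat_lit 84) (nat_lit 12023425945) (nat_lit 36) (nat_lit 5) (nat_lit 40) (nat_lit 5) (nat_lit 37) (nat_lit 5) (nat_lit 411) (nat_lit 335) (nat_lit 199)) (XT.lf (nat_lit 0) (nat_lit 7082391125) (nat_lit 168) (nat_lit 12353895006) (nat_lit 252) (nat_lit 12386428728) (nat_lit 34) (nat_lit 5) (nat_lit 36) (nat_lit 5) (nat_lit 37) (nat_lit 5) (nat_lit 412) (nat_lit 335) (nat_lit 198))))) (XT.nd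 (nat_lit 282) (nat_lit 168) (nat_lit 0) (XT.nd (nat_lit 94) (nat_lit 252) (nat_lit 0) (XT.lf (nat_lit 0) (nat_lit 19099691041) (nat_lit 168) (nat_lit 5374068196) (nat_lit 252) (nat_lit 8079253244) (nat_lit 34) (nat_lit 5) (nat_lit 36) (nat_lit 5) (nat_lit 37) (nat_lit 5) (nat_lit 413) (nat_lit 335) (nat_lit 197)) (XT.nd (nat_lit 94) (nat_lit 252) (nat_lit 0) (XT.lf (nat_lit 0) (nat_lit 29672666928) (nat_lit 252) (nat_lit 1856670909) (nat_lit 84) (nat_lit 1775578477) (nat_lit 34) (nat_lit 5) (nat_lit 37) (nat_lit 5) (nat_lit 35) (nat_lit 5) (nat_lit 414) (nat_lit 335) (nat_lit 196)) (XT.lf (nat_lit 0) (nat_lit 1075635428) (nat_lit 252) (nat_lit 23862613104) (nat_lit 84) (nat_lit 9136482331) (nat_lit 31) (nat_lit 5) (nat_lit 34) (nat_lit 5) (nat_lit 32) (nat_lit 5) (nat_lit 415) (nat_lit 335) (nat_lit 195)))) (XT.nd (nat_lit 188) (nat_lit 168) (nat_lit 0) (XT.nd (nat_lit 94) (nat_lit 0)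 (nat_lit 0) (XT.lf (nat_lit 0) (nat_lit 5863778151) (nat_lit 252) (nat_lit 12233407921) (nat_lit 84) (nat_lit 16769020145) (nat_lit 31) (nat_lit 5) (nat_lit 34) (nat_lit 5) (nat_lit 32) (nat_lit 5) (nat_lit 416) (nat_lit 335) (nat_lit 194)) (XT.lf (nat_lit 0) (nat_lit 10788857984) (nat_lit 252) (nat_lit 266212081) (nat_lit 84) (nat_lit 24626562844) (nat_lit 31) (nat_lit 5) (nat_lit 34) (nat_lit 5) (nat_lit 32) (nat_lit 5) (nat_lit 417) (nat_lit 335) (nat_lit 193))) (XT.nd (nat_lit 94) (nat_lit 0) (nat_lit 0) (XT.lf (nat_lit 0) (nat_lit 12289238496) (nat_lit 168) (nat_lit 3684071577) (nat_lit 252) (nat_lit 20544869423) (nat_lit 29) (nat_lit 5) (nat_lit 31) (nat_lit 5) (nat_lit 32) (nat_lit 5) (nat_lit 418) (nat_lit 335) (nat_lit 192)) (XT.lf (nat_lit 0) (nat_lit 21347115593) (nat_lit 252) (nat_lit 12201149590) (nat_lit 84) (nat_lit 3830548226) (nat_lit 29) (nat_lit 5) (nat_lit 32) (nat_lit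 5) (nat_lit 30) (nat_lit 5) (nat_lit 419) (nat_lit 335) (nat_lit 191))))))))
noncomputable def xc132 : XT := (XT.nd (nat_lit 51418) (nat_lit 0) (nat_lit 9996) (XT.nd (nat_lit 1222) (nat_lit 588) (nat_lit 0) (XT.nd (nat_lit 564) (nat_lit 336) (nat_lit 0) (XT.nd (nat_lit 282) (nat_lit 252) (nat_lit 0) (XT.nd (nat_lit 94) (nat_lit 0) (nat_lit 0) (XT.lf (nat_lit 0) (nat_lit 143484770) (nat_lit 168) (nat_lit 26770232327) (nat_lit 252) (nat_lit 11350607151) (nat_lit 27) (nat_lit 5) (nat_lit 29) (nat_lit 5) (nat_lit 30) (nat_lit 5) (nat_lit 420) (nat_lit 335) (nat_lit 190)) (XT.nd (nat_lit 94) (nat_lit 0) (nat_lit 0) (XT.lf (nat_lit 0) (nat_lit 13098356150) (nat_lit 168) (nat_lit 19665979325) (nat_lit 252) (nat_lit 6408559580) (nat_lit 27) (nat_lit 5) (nat_lit 29) (nat_lit 5) (nat_lit 30) (nat_lit 5) (nat_lit 421) (nat_lit 335) (nat_lit 189)) (XT.lf (nat_lit 0) (nat_lit 26431957539) (nat_lit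 168) (nat_lit 12352506264) (nat_lit 252) (nat_lit 1324444496) (nat_lit 27) (nat_lit 5) (nat_lit 29) (nat_lit 5) (nat_lit 30) (nat_lit 5) (nat_lit 422) (nat_lit 335) (nat_lit 188)))) (XT.nd (nat_lit 94) (nat_lit 168) (nat_lit 0) (XT.lf (nat_lit 0) (nat_lit 3829956878) (nat_lit 252) (nat_lit 954790797) (nat_lit 84) (nat_lit 36287307722) (nat_lit 26) (nat_lit 5) (nat_lit 29) (nat_lit 5) (nat_lit 27) (nat_lit 5) (nat_lit 423) (nat_lit 335) (nat_lit 187)) (XT.nd (nat_lit 94) (nat_lit 0) (nat_lit 0) (XT.lf (nat_lit 0) (nat_lit 9255738008) (nat_lit 252) (nat_lit 29722723190) (nat_lit 84) (nat_lit 3080945907) (nat_lit 24) (nat_lit 5) (nat_lit 27) (nat_lit 5) (nat_lit 25) (nat_lit 5) (nat_lit 424) (nat_lit 335) (nat_lit 186)) (XT.lf (nat_lit 0) (nat_lit 14895719685) (nat_lit 252) (nat_lit 17086594955) (nat_lit 84) (nat_lit 11092526402) (nat_lit 24) (nat_lit 5) (nat_lit 27) (nat_lit 5) (nat_lit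 25) (nat_lit 5) (nat_lit 425) (nat_lit 335) (nat_lit 185))))) (XT.nd (nat_lit 282) (nat_lit 168) (nat_lit 0) (XT.nd (nat_lit 94) (nat_lit 168) (nat_lit 0) (XT.lf (nat_lit 0) (nat_lit 20699382753) (nat_lit 252) (nat_lit 4080616640) (nat_lit 84) (nat_lit 19340908507) (nat_lit 24) (nat_lit 5) (nat_lit 27) (nat_lit 5) (nat_lit 25) (nat_lit 5) (nat_lit 426) (nat_lit 335) (nat_lit 184)) (XT.nd (nat_lit 94) (nat_lit 0) (nat_lit 0) (XT.lf (nat_lit 0) (nat_lit 9491795314) (nat_lit 168) (nat_lit 17271244001) (nat_lit 252) (nat_lit 18432745174) (nat_lit 22) (nat_lit 5) (nat_lit 24) (nat_lit 5) (nat_lit 25) (nat_lit 5) (nat_lit 427) (nat_lit 335) (nat_lit 183)) (XT.lf (nat_lit 0) (nat_lit 23546151336) (nat_lit 168) (nat_lit 9498373835) (nat_lit 252) (nat_lit 13257308728) (nat_lit 22) (nat_lit 5) (nat_lit 24) (nat_lit 5) (nat_lit 25) (nat_lit 5) (nat_lit 428) (nat_lit 335) (nat_lit 182)))) (XT.nd (nat_lit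 188) (nat_lit 84) (nat_lit 0) (XT.nd (nat_lit 94) (nat_lit 84) (nat_lit 0) (XT.lf (nat_lit 0) (nat_lit 38013519657) (nat_lit 168) (nat_lit 1495803294) (nat_lit 252) (nat_lit 7931899811) (nat_lit 22) (nat_lit 5) (nat_lit 24) (nat_lit 5) (nat_lit 25) (nat_lit 5) (nat_lit 429) (nat_lit 335) (nat_lit 181)) (XT.lf (nat_lit 0) (nat_lit 4310893807) (nat_lit 84) (nat_lit 41958448913) (nat_lit 168) (nat_lit 2342416103) (nat_lit 21) (nat_lit 5) (nat_lit 22) (nat_lit 5) (nat_lit 23) (nat_lit 4) (nat_lit 430) (nat_lit 335) (nat_lit 180))) (XT.nd (nat_lit 94) (nat_lit 0) (nat_lit 0) (XT.lf (nat_lit 0) (nat_lit 3454068742) (nat_lit 168) (nat_lit 31216733041) (nat_lit 84) (nat_lit 15142449572) (nat_lit 20) (nat_lit 5) (nat_lit 22) (nat_lit 5) (nat_lit 21) (nat_lit 5) (nat_lit 431) (nat_lit 335) (nat_lit 179)) (XT.lf (nat_lit 0) (nat_lit 9372510515) (nat_lit 168) (nat_lit 17771529738) (nat_lit 84) (nat_lit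 23906201911) (nat_lit 20) (nat_lit 5) (nat_lit 22) (nat_lit 5) (nat_lit 21) (nat_lit 5) (nat_lit 432) (nat_lit 335) (nat_lit 178)))))) (XT.nd (nat_lit 658) (nat_lit 336) (nat_lit 0) (XT.nd (nat_lit 282) (nat_lit 84) (nat_lit 0) (XT.nd (nat_lit 94) (nat_lit 168) (nat_lit 0) (XT.lf (nat_lit 0) (nat_lit 15463789643) (nat_lit 168) (nat_lit 3930990135) (nat_lit 84) (nat_lit 32929707838) (nat_lit 20) (nat_lit 5) (nat_lit 22) (nat_lit 5) (nat_lit 21) (nat_lit 5) (nat_lit 433) (nat_lit 335) (nat_lit 177)) (XT.nd (nat_lit 94) (nat_lit 0) (nat_lit 0) (XT.lf (nat_lit 0) (nat_lit 10522307562) (nat_lit 168) (nat_lit 11312067898) (nat_lit 252) (nat_lit 31799691264) (nat_lit 18) (nat_lit 5) (nat_lit 20) (nat_lit 5) (nat_lit 21) (nat_lit 5) (nat_lit 434) (nat_lit 335) (nat_lit 176)) (XT.lf (nat_lit 0) (nat_lit 25482075758) (nat_lit 168) (nat_lit 2949179089) (nat_lit 252) (nat_lit 26550626324) (nat_lit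 18) (nat_lit 5) (nat_lit 20) (nat_lit 5) (nat_lit 21) (nat_lit 5) (nat_lit 435) (nat_lit 335) (nat_lit 175)))) (XT.nd (nat_lit 188) (nat_lit 84) (nat_lit 0) (XT.nd (nat_lit 94) (nat_lit 0) (nat_lit 0) (XT.lf (nat_lit 0) (nat_lit 35276074738) (nat_lit 252) (nat_lit 15541534939) (nat_lit 84) (nat_lit 5551022501) (nat_lit 18) (nat_lit 5) (nat_lit 21) (nat_lit 5) (nat_lit 19) (nat_lit 4) (nat_lit 436) (nat_lit 335) (nat_lit 174)) (XT.lf (nat_lit 0) (nat_lit 42351150236) (nat_lit 252) (nat_lit 1201085388) (nat_lit 84) (nat_lit 14244005819) (nat_lit 18) (nat_lit 5) (nat_lit 21) (nat_lit 5) (nat_lit 19) (nat_lit 4) (nat_lit 437) (nat_lit 335) (nat_lit 173))) (XT.nd (nat_lit 94) (nat_lit 0) (nat_lit 0) (XT.lf (nat_lit 0) (nat_lit 13832341854) (nat_lit 84) (nat_lit 35934937212) (nat_lit 168) (nat_lit 9495538858) (nat_lit 17) (nat_lit 5) (nat_lit 18) (nat_lit 5) (nat_lit 19) (nat_lit 4) (nat_lit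 438) (nat_lit 335) (nat_lit 172)) (XT.lf (nat_lit 0) (nat_lit 29334308524) (nat_lit 84) (nat_lit 28079601157) (nat_lit 168) (nat_lit 3359244364) (nat_lit 17) (nat_lit 5) (nat_lit 18) (nat_lit 5) (nat_lit 19) (nat_lit 4) (nat_lit 439) (nat_lit 335) (nat_lit 171))))) (XT.nd (nat_lit 282) (nat_lit 84) (nat_lit 0) (XT.nd (nat_lit 94) (nat_lit 168) (nat_lit 0) (XT.lf (nat_lit 0) (nat_lit 2899323259) (nat_lit 168) (nat_lit 17062891441) (nat_lit 84) (nat_lit 42365855336) (nat_lit 16) (nat_lit 5) (nat_lit 18) (nat_lit 5) (nat_lit 17) (nat_lit 5) (nat_lit 440) (nat_lit 335) (nat_lit 170)) (XT.nd (nat_lit 94) (nat_lit 168) (nat_lit 0) (XT.lf (nat_lit 0) (nat_lit 9274214681) (nat_lit 168) (nat_lit 2295676939) (nat_lit 84) (nat_lit 52358864201) (nat_lit 16) (nat_lit 5) (nat_lit 18) (nat_lit 5) (nat_lit 17) (nat_lit 5) (nat_lit 441) (nat_lit 335) (nat_lit 169)) (XT.lf (nat_lit 0) (nat_lit 13164886848)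 (nat_lit 168) (nat_lit 2798213248) (nat_lit 252) (nat_lit 49610682228) (nat_lit 14) (nat_lit 5) (nat_lit 16) (nat_lit 5) (nat_lit 17) (nat_lit 5) (nat_lit 442) (nat_lit 335) (nat_lit 168)))) (XT.nd (nat_lit 188) (nat_lit 84) (nat_lit 0) (XT.nd (nat_lit 94) (nat_lit 0) (nat_lit 0) (XT.lf (nat_lit 0) (nat_lit 22932233802) (nat_lit 252) (nat_lit 38197903074) (nat_lit 84) (nat_lit 6135637781) (nat_lit 14) (nat_lit 5) (nat_lit 17) (nat_lit 5) (nat_lit 15) (nat_lit 4) (nat_lit 443) (nat_lit 335) (nat_lit 167)) (XT.lf (nat_lit 0) (nat_lit 30134476896) (nat_lit 252) (nat_lit 23594680055) (nat_lit 84) (nat_lit 15278651162) (nat_lit 14) (nat_lit 5) (nat_lit 17) (nat_lit 5) (nat_lit 15) (nat_lit 4) (nat_lit 444) (nat_lit 335) (nat_lit 166))) (XT.nd (nat_lit 94) (nat_lit 84) (nat_lit 0) (XT.lf (nat_lit 0) (nat_lit 37549224464) (nat_lit 252) (nat_lit 8559568184) (nat_lit 84) (nat_lit 24693419154) (nat_lit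 14) (nat_lit 5) (nat_lit 17) (nat_lit 5) (nat_lit 15) (nat_lit 4) (nat_lit 445) (nat_lit 335) (nat_lit 165)) (XT.lf (nat_lit 0) (nat_lit 7058302926) (nat_lit 84) (nat_lit 38192501209) (nat_lit 168) (nat_lit 27397714052) (nat_lit 13) (nat_lit 5) (nat_lit 14) (nat_lit 5) (nat_lit 15) (nat_lit 4) (nat_lit 446) (nat_lit 335) (nat_lit 164))))))) (XT.nd (nat_lit 1316) (nat_lit 5208) (nat_lit 0) (XT.nd (nat_lit 658) (nat_lit 840) (nat_lit 0) (XT.nd (nat_lit 282) (nat_lit 0) (nat_lit 84) (XT.nd (nat_lit 94) (nat_lit 0) (nat_lit 0) (XT.lf (nat_lit 0) (nat_lit 529743442) (nat_lit 1092) (nat_lit 1827476235) (nat_lit 1092) (nat_lit 1827476235) (nat_lit 204) (nat_lit 3) (nat_lit 217) (nat_lit 3) (nat_lit 217) (nat_lit 5) (nat_lit 336) (nat_lit 336) (nat_lit 273)) (XT.nd (nat_lit 94) (nat_lit 0) (nat_lit 84) (XT.lf (nat_lit 84) (nat_lit 4109807) (nat_lit 0) (nat_lit 2065892199) (nat_lit 1092) (nat_lit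 6393007068) (nat_lit 205) (nat_lit 5) (nat_lit 204) (nat_lit 3) (nat_lit 217) (nat_lit 5) (nat_lit 337) (nat_lit 336) (nat_lit 272)) (XT.lf (nat_lit 0) (nat_lit 3115636921) (nat_lit 1008) (nat_lit 4739050595) (nat_lit 1092) (nat_lit 704684564) (nat_lit 205) (nat_lit 5) (nat_lit 217) (nat_lit 5) (nat_lit 218) (nat_lit 5) (nat_lit 338) (nat_lit 336) (nat_lit 271)))) (XT.nd (nat_lit 188) (nat_lit 0) (nat_lit 84) (XT.nd (nat_lit 94) (nat_lit 0) (nat_lit 0) (XT.lf (nat_lit 0) (nat_lit 4175392778) (nat_lit 1008) (nat_lit 949283988) (nat_lit 1092) (nat_lit 3534545654) (nat_lit 205) (nat_lit 5) (nat_lit 217) (nat_lit 5) (nat_lit 218) (nat_lit 5) (nat_lit 339) (nat_lit 336) (nat_lit 270)) (XT.lf (nat_lit 84) (nat_lit 2991954428) (nat_lit 0) (nat_lit 2267143025) (nat_lit 1092) (nat_lit 3503282830) (nat_lit 206) (nat_lit 5) (nat_lit 205) (nat_lit 5) (nat_lit 218) (nat_lit 5) (nat_lit 340) (nat_lit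 336) (nat_lit 269))) (XT.nd (nat_lit 94) (nat_lit 0) (nat_lit 0) (XT.lf (nat_lit 0) (nat_lit 6355906377) (nat_lit 1008) (nat_lit 1825746930) (nat_lit 1092) (nat_lit 687636247) (nat_lit 206) (nat_lit 5) (nat_lit 218) (nat_lit 5) (nat_lit 219) (nat_lit 5) (nat_lit 341) (nat_lit 336) (nat_lit 268)) (XT.lf (nat_lit 84) (nat_lit 2237420628) (nat_lit 0) (nat_lit 5257602910) (nat_lit 1092) (nat_lit 1484172742) (nat_lit 207) (nat_lit 5) (nat_lit 206) (nat_lit 5) (nat_lit 219) (nat_lit 5) (nat_lit 342) (nat_lit 336) (nat_lit 267))))) (XT.nd (nat_lit 282) (nat_lit 0) (nat_lit 0) (XT.nd (nat_lit 94) (nat_lit 1008) (nat_lit 0) (XT.lf (nat_lit 84) (nat_lit 6439050846) (nat_lit 0) (nat_lit 2213955208) (nat_lit 1092) (nat_lit 439923588) (nat_lit 207) (nat_lit 5) (nat_lit 206) (nat_lit 5) (nat_lit 219) (nat_lit 5) (nat_lit 343) (nat_lit 336) (nat_lit 266)) (XT.nd (nat_lit 94) (nat_lit 0) (nat_lit 0) (XT.lf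 (nat_lit 0) (nat_lit 614271209) (nat_lit 1092) (nat_lit 7659672580) (nat_lit 1176) (nat_lit 936283407) (nat_lit 194) (nat_lit 5) (nat_lit 207) (nat_lit 5) (nat_lit 208) (nat_lit 5) (nat_lit 344) (nat_lit 336) (nat_lit 265)) (XT.lf (nat_lit 0) (nat_lit 1707959132) (nat_lit 1092) (nat_lit 3443176806) (nat_lit 1176) (nat_lit 4179340024) (nat_lit 194) (nat_lit 5) (nat_lit 207) (nat_lit 5) (nat_lit 208) (nat_lit 5) (nat_lit 345) (nat_lit 336) (nat_lit 264)))) (XT.nd (nat_lit 188) (nat_lit 0) (nat_lit 84) (XT.nd (nat_lit 94) (nat_lit 0) (nat_lit 84) (XT.lf (nat_lit 84) (nat_lit 896018109) (nat_lit 0) (nat_lit 1915717368) (nat_lit 1176) (nat_lit 6643340742) (nat_lit 195) (nat_lit 5) (nat_lit 194) (nat_lit 5) (nat_lit 208) (nat_lit 5) (nat_lit 346) (nat_lit 336) (nat_lit 263)) (XT.lf (nat_lit 0) (nat_lit 3966824169) (nat_lit 1092) (nat_lit 4182506612) (nat_lit 1176) (nat_lit 1433598279) (nat_lit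 195) (nat_lit 5) (nat_lit 208) (nat_lit 5) (nat_lit 209) (nat_lit 5) (nat_lit 347) (nat_lit 336) (nat_lit 262))) (XT.nd (nat_lit 94) (nat_lit 0) (nat_lit 0) (XT.lf (nat_lit 84) (nat_lit 290545682) (nat_lit 0) (nat_lit 4858136229) (nat_lit 1176) (nat_lit 4566230864) (nat_lit 196) (nat_lit 5) (nat_lit 195) (nat_lit 5) (nat_lit 209) (nat_lit 5) (nat_lit 348) (nat_lit 336) (nat_lit 261)) (XT.lf (nat_lit 84) (nat_lit 4962239750) (nat_lit 0) (nat_lit 1417005535) (nat_lit 1176) (nat_lit 3471270292) (nat_lit 196) (nat_lit 5) (nat_lit 195) (nat_lit 5) (nat_lit 209) (nat_lit 5) (nat_lit 349) (nat_lit 336) (nat_lit 260)))))) (XT.nd (nat_lit 658) (nat_lit 3108) (nat_lit 0) (XT.nd (nat_lit 282) (nat_lit 1092) (nat_lit 0) (XT.nd (nat_lit 94) (nat_lit 1176) (nat_lit 0) (XT.lf (nat_lit 0) (nat_lit 7639105895) (nat_lit 1092) (nat_lit 258189849) (nat_lit 1176) (nat_lit 2093174717) (nat_lit 196) (nat_lit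 5) (nat_lit 209) (nat_lit 5) (nat_lit 210) (nat_lit 5) (nat_lit 350) (nat_lit 336) (nat_lit 259)) (XT.nd (nat_lit 94) (nat_lit 1176) (nat_lit 0) (XT.lf (nat_lit 84) (nat_lit 4564837061) (nat_lit 0) (nat_lit 4402583429) (nat_lit 1176) (nat_lit 1166337552) (nat_lit 197) (nat_lit 5) (nat_lit 196) (nat_lit 5) (nat_lit 210) (nat_lit 5) (nat_lit 351) (nat_lit 336) (nat_lit 258)) (XT.lf (nat_lit 0) (nat_lit 28841903) (nat_lit 1176) (nat_lit 765355680) (nat_lit 1260) (nat_lit 9487911932) (nat_lit 182) (nat_lit 5) (nat_lit 196) (nat_lit 5) (nat_lit 197) (nat_lit 5) (nat_lit 352) (nat_lit 336) (nat_lit 257)))) (XT.nd (nat_lit 188) (nat_lit 1176) (nat_lit 0) (XT.nd (nat_lit 94) (nat_lit 0) (nat_lit 0) (XT.lf (nat_lit 0) (nat_lit 1279595008) (nat_lit 1176) (nat_lit 6230245906) (nat_lit 84) (nat_lit 2923478594) (nat_lit 183) (nat_lit 5) (nat_lit 197) (nat_lit 5) (nat_lit 184) (nat_lit 5) (nat_lit 353)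 (nat_lit 336) (nat_lit 256)) (XT.lf (nat_lit 0) (nat_lit 2557965512) (nat_lit 1176) (nat_lit 1281957354) (nat_lit 84) (nat_lit 6749487888) (nat_lit 183) (nat_lit 5) (nat_lit 197) (nat_lit 5) (nat_lit 184) (nat_lit 5) (nat_lit 354) (nat_lit 336) (nat_lit 255))) (XT.nd (nat_lit 94) (nat_lit 0) (nat_lit 0) (XT.lf (nat_lit 0) (nat_lit 3869483183) (nat_lit 1176) (nat_lit 17571001) (nat_lit 1260) (nat_lit 6862805945) (nat_lit 169) (nat_lit 5) (nat_lit 183) (nat_lit 5) (nat_lit 184) (nat_lit 5) (nat_lit 355) (nat_lit 336) (nat_lit 254)) (XT.lf (nat_lit 0) (nat_lit 5282497069) (nat_lit 1260) (nat_lit 1772203181) (nat_lit 84) (nat_lit 3859673342) (nat_lit 169) (nat_lit 5) (nat_lit 184) (nat_lit 5) (nat_lit 170) (nat_lit 5) (nat_lit 356) (nat_lit 336) (nat_lit 253))))) (XT.nd (nat_lit 282) (nat_lit 1260) (nat_lit 0) (XT.nd (nat_lit 94) (nat_lit 588) (nat_lit 0) (XT.lf (nat_lit 0) (nat_lit 3537280481)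 (nat_lit 1260) (nat_lit 3193138028) (nat_lit 1344) (nat_lit 4353129232) (nat_lit 154) (nat_lit 5) (nat_lit 169) (nat_lit 5) (nat_lit 170) (nat_lit 5) (nat_lit 357) (nat_lit 336) (nat_lit 252)) (XT.nd (nat_lit 94) (nat_lit 588) (nat_lit 0) (XT.lf (nat_lit 0) (nat_lit 8224340577) (nat_lit 1344) (nat_lit 2243940467) (nat_lit 84) (nat_lit 789481645) (nat_lit 154) (nat_lit 5) (nat_lit 170) (nat_lit 5) (nat_lit 155) (nat_lit 5) (nat_lit 358) (nat_lit 336) (nat_lit 251)) (XT.lf (nat_lit 0) (nat_lit 3228113380) (nat_lit 588) (nat_lit 6575235210) (nat_lit 672) (nat_lit 1632688677) (nat_lit 147) (nat_lit 5) (nat_lit 154) (nat_lit 5) (nat_lit 155) (nat_lit 5) (nat_lit 359) (nat_lit 336) (nat_lit 250)))) (XT.nd (nat_lit 188) (nat_lit 588) (nat_lit 0) (XT.nd (nat_lit 94) (nat_lit 672) (nat_lit 0) (XT.lf (nat_lit 0) (nat_lit 8889810918) (nat_lit 588) (nat_lit 2540652336) (nat_lit 672) (nat_lit 189214765)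 (nat_lit 147) (nat_lit 5) (nat_lit 154) (nat_lit 5) (nat_lit 155) (nat_lit 5) (nat_lit 360) (nat_lit 336) (nat_lit 249)) (XT.lf (nat_lit 0) (nat_lit 1294880138) (nat_lit 672) (nat_lit 8887244356) (nat_lit 84) (nat_lit 1625687934) (nat_lit 139) (nat_lit 5) (nat_lit 147) (nat_lit 5) (nat_lit 140) (nat_lit 5) (nat_lit 361) (nat_lit 336) (nat_lit 248))) (XT.nd (nat_lit 94) (nat_lit 588) (nat_lit 0) (XT.lf (nat_lit 0) (nat_lit 2851597719) (nat_lit 672) (nat_lit 3252453095) (nat_lit 84) (nat_lit 5896563399) (nat_lit 139) (nat_lit 5) (nat_lit 147) (nat_lit 5) (nat_lit 140) (nat_lit 5) (nat_lit 362) (nat_lit 336) (nat_lit 247)) (XT.lf (nat_lit 0) (nat_lit 2581500155) (nat_lit 588) (nat_lit 1877854587) (nat_lit 672) (nat_lit 7739750736) (nat_lit 132) (nat_lit 5) (nat_lit 139) (nat_lit 5) (nat_lit 140) (nat_lit 5) (nat_lit 363) (nat_lit 336) (nat_lit 246))))))))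
noncomputable def xc133 : XT := (XT.nd (nat_lit 2538) (nat_lit 3192) (nat_lit 0) (XT.nd (nat_lit 1222) (nat_lit 2352) (nat_lit 0) (XT.nd (nat_lit 564) (nat_lit 1428) (nat_lit 0) (XT.nd (nat_lit 282) (nat_lit 1092) (nat_lit 0) (XT.nd (nat_lit 94) (nat_lit 588) (nat_lit 0) (XT.lf (nat_lit 0) (nat_lit 6152232221) (nat_lit 672) (nat_lit 3790234109) (nat_lit 84) (nat_lit 2460013048) (nat_lit 132) (nat_lit 5) (nat_lit 140) (nat_lit 5) (nat_lit 133) (nat_lit 5) (nat_lit 364) (nat_lit 336) (nat_lit 245)) (XT.nd (nat_lit 94) (nat_lit 0) (nat_lit 0) (XT.lf (nat_lit 0) (nat_lit 2216526377) (nat_lit 588) (nat_lit 5699780257) (nat_lit 672) (nat_lit 4695069066) (nat_lit 125) (nat_lit 5) (nat_lit 132) (nat_lit 5) (nat_lit 133) (nat_lit 5) (nat_lit 365) (nat_lit 336) (nat_lit 244)) (XT.lf (nat_lit 0) (nat_lit 8461291079) (nat_lit 588) (nat_lit 1291173904) (nat_lit 672) (nat_lit 3073531624) (nat_lit 125)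 (nat_lit 5) (nat_lit 132) (nat_lit 5) (nat_lit 133) (nat_lit 5) (nat_lit 366) (nat_lit 336) (nat_lit 243)))) (XT.nd (nat_lit 94) (nat_lit 588) (nat_lit 0) (XT.lf (nat_lit 0) (nat_lit 1830936543) (nat_lit 504) (nat_lit 9843046773) (nat_lit 588) (nat_lit 1372196167) (nat_lit 119) (nat_lit 5) (nat_lit 125) (nat_lit 5) (nat_lit 126) (nat_lit 5) (nat_lit 367) (nat_lit 336) (nat_lit 242)) (XT.nd (nat_lit 94) (nat_lit 504) (nat_lit 0) (XT.lf (nat_lit 0) (nat_lit 411633968) (nat_lit 588) (nat_lit 5006697883) (nat_lit 84) (nat_lit 7853389944) (nat_lit 118) (nat_lit 5) (nat_lit 125) (nat_lit 5) (nat_lit 119) (nat_lit 5) (nat_lit 368) (nat_lit 336) (nat_lit 241)) (XT.lf (nat_lit 0) (nat_lit 1381972505) (nat_lit 504) (nat_lit 834825677) (nat_lit 588) (nat_lit 11286991562) (nat_lit 112) (nat_lit 5) (nat_lit 118) (nat_lit 5) (nat_lit 119) (nat_lit 5) (nat_lit 369) (nat_lit 336) (nat_lit 240))))) (XT.nd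 (nat_lit 282) (nat_lit 1008) (nat_lit 0) (XT.nd (nat_lit 94) (nat_lit 420) (nat_lit 0) (XT.lf (nat_lit 0) (nat_lit 4146964902) (nat_lit 588) (nat_lit 5734083005) (nat_lit 84) (nat_lit 3859674471) (nat_lit 112) (nat_lit 5) (nat_lit 119) (nat_lit 5) (nat_lit 113) (nat_lit 5) (nat_lit 370) (nat_lit 336) (nat_lit 239)) (XT.nd (nat_lit 94) (nat_lit 0) (nat_lit 0) (XT.lf (nat_lit 0) (nat_lit 834012193) (nat_lit 420) (nat_lit 5300251515) (nat_lit 504) (nat_lit 7850549728) (nat_lit 107) (nat_lit 5) (nat_lit 112) (nat_lit 5) (nat_lit 113) (nat_lit 5) (nat_lit 371) (nat_lit 336) (nat_lit 238)) (XT.lf (nat_lit 0) (nat_lit 7697602305) (nat_lit 420) (nat_lit 524739867) (nat_lit 504) (nat_lit 6012676697) (nat_lit 107) (nat_lit 5) (nat_lit 112) (nat_lit 5) (nat_lit 113) (nat_lit 5) (nat_lit 372) (nat_lit 336) (nat_lit 237)))) (XT.nd (nat_lit 188) (nat_lit 504) (nat_lit 0) (XT.nd (nat_lit 94) (nat_lit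 0) (nat_lit 0) (XT.lf (nat_lit 0) (nat_lit 217346303) (nat_lit 504) (nat_lit 10183767542) (nat_lit 588) (nat_lit 4090800786) (nat_lit 101) (nat_lit 5) (nat_lit 107) (nat_lit 5) (nat_lit 108) (nat_lit 5) (nat_lit 373) (nat_lit 336) (nat_lit 236)) (XT.lf (nat_lit 0) (nat_lit 7284623989) (nat_lit 504) (nat_lit 5415800669) (nat_lit 588) (nat_lit 2054462273) (nat_lit 101) (nat_lit 5) (nat_lit 107) (nat_lit 5) (nat_lit 108) (nat_lit 5) (nat_lit 374) (nat_lit 336) (nat_lit 235))) (XT.nd (nat_lit 94) (nat_lit 420) (nat_lit 0) (XT.lf (nat_lit 0) (nat_lit 26432510) (nat_lit 588) (nat_lit 480868417) (nat_lit 84) (nat_lit 14518929458) (nat_lit 100) (nat_lit 5) (nat_lit 107) (nat_lit 5) (nat_lit 101) (nat_lit 5) (nat_lit 375) (nat_lit 336) (nat_lit 234)) (XT.lf (nat_lit 0) (nat_lit 2223256193) (nat_lit 504) (nat_lit 8535441172) (nat_lit 84) (nat_lit 4543585530) (nat_lit 95) (nat_lit 5) (nat_lit 101)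 (nat_lit 5) (nat_lit 96) (nat_lit 5) (nat_lit 376) (nat_lit 336) (nat_lit 233)))))) (XT.nd (nat_lit 658) (nat_lit 1092) (nat_lit 0) (XT.nd (nat_lit 282) (nat_lit 840) (nat_lit 0) (XT.nd (nat_lit 94) (nat_lit 420) (nat_lit 0) (XT.lf (nat_lit 0) (nat_lit 4480916400) (nat_lit 504) (nat_lit 1368051728) (nat_lit 84) (nat_lit 9737823058) (nat_lit 95) (nat_lit 5) (nat_lit 101) (nat_lit 5) (nat_lit 96) (nat_lit 5) (nat_lit 377) (nat_lit 336) (nat_lit 232)) (XT.nd (nat_lit 94) (nat_lit 0) (nat_lit 0) (XT.lf (nat_lit 0) (nat_lit 6115886781) (nat_lit 420) (nat_lit 734651148) (nat_lit 504) (nat_lit 9027991369) (nat_lit 90) (nat_lit 5) (nat_lit 95) (nat_lit 5) (nat_lit 96) (nat_lit 5) (nat_lit 378) (nat_lit 336) (nat_lit 231)) (XT.lf (nat_lit 0) (nat_lit 9334438648) (nat_lit 504) (nat_lit 2387988470) (nat_lit 84) (nat_lit 4455317610) (nat_lit 90) (nat_lit 5) (nat_lit 96) (nat_lit 5) (nat_lit 91) (nat_lit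 5) (nat_lit 379) (nat_lit 336) (nat_lit 230)))) (XT.nd (nat_lit 188) (nat_lit 504) (nat_lit 0) (XT.nd (nat_lit 94) (nat_lit 0) (nat_lit 0) (XT.lf (nat_lit 0) (nat_lit 5286252379) (nat_lit 336) (nat_lit 6650774259) (nat_lit 420) (nat_lit 4547605157) (nat_lit 86) (nat_lit 5) (nat_lit 90) (nat_lit 5) (nat_lit 91) (nat_lit 5) (nat_lit 380) (nat_lit 336) (nat_lit 229)) (XT.lf (nat_lit 0) (nat_lit 13222310899) (nat_lit 336) (nat_lit 1405815658) (nat_lit 420) (nat_lit 2172305581) (nat_lit 86) (nat_lit 5) (nat_lit 90) (nat_lit 5) (nat_lit 91) (nat_lit 5) (nat_lit 381) (nat_lit 336) (nat_lit 228))) (XT.nd (nat_lit 94) (nat_lit 0) (nat_lit 0) (XT.lf (nat_lit 0) (nat_lit 335965749) (nat_lit 504) (nat_lit 12828048641) (nat_lit 84) (nat_lit 3959619640) (nat_lit 80) (nat_lit 5) (nat_lit 86) (nat_lit 5) (nat_lit 81) (nat_lit 5) (nat_lit 382) (nat_lit 336) (nat_lit 227)) (XT.lf (nat_lit 0) (nat_lit 2912993045)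 (nat_lit 504) (nat_lit 5029732539) (nat_lit 84) (nat_lit 9512064105) (nat_lit 80) (nat_lit 5) (nat_lit 86) (nat_lit 5) (nat_lit 81) (nat_lit 5) (nat_lit 383) (nat_lit 336) (nat_lit 226))))) (XT.nd (nat_lit 282) (nat_lit 420) (nat_lit 0) (XT.nd (nat_lit 94) (nat_lit 336) (nat_lit 0) (XT.lf (nat_lit 0) (nat_lit 3045108418) (nat_lit 336) (nat_lit 2538640107) (nat_lit 420) (nat_lit 12211656466) (nat_lit 76) (nat_lit 5) (nat_lit 80) (nat_lit 5) (nat_lit 81) (nat_lit 5) (nat_lit 384) (nat_lit 336) (nat_lit 225)) (XT.nd (nat_lit 94) (nat_lit 336) (nat_lit 0) (XT.lf (nat_lit 0) (nat_lit 8402343947) (nat_lit 420) (nat_lit 6726059417) (nat_lit 84) (nat_lit 3015820858) (nat_lit 76) (nat_lit 5) (nat_lit 81) (nat_lit 5) (nat_lit 77) (nat_lit 5) (nat_lit 385) (nat_lit 336) (nat_lit 224)) (XT.lf (nat_lit 0) (nat_lit 1527025974) (nat_lit 336) (nat_lit 9805975430) (nat_lit 420) (nat_lit 7169697990) (nat_lit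 72) (nat_lit 5) (nat_lit 76) (nat_lit 5) (nat_lit 77) (nat_lit 5) (nat_lit 386) (nat_lit 336) (nat_lit 223)))) (XT.nd (nat_lit 188) (nat_lit 420) (nat_lit 0) (XT.nd (nat_lit 94) (nat_lit 0) (nat_lit 0) (XT.lf (nat_lit 0) (nat_lit 10149202119) (nat_lit 336) (nat_lit 4258187978) (nat_lit 420) (nat_lit 4462880392) (nat_lit 72) (nat_lit 5) (nat_lit 76) (nat_lit 5) (nat_lit 77) (nat_lit 5) (nat_lit 387) (nat_lit 336) (nat_lit 222)) (XT.lf (nat_lit 0) (nat_lit 17576211046) (nat_lit 420) (nat_lit 249052172) (nat_lit 84) (nat_lit 1423555024) (nat_lit 72) (nat_lit 5) (nat_lit 77) (nat_lit 5) (nat_lit 73) (nat_lit 5) (nat_lit 388) (nat_lit 336) (nat_lit 221))) (XT.nd (nat_lit 94) (nat_lit 0) (nat_lit 0) (XT.lf (nat_lit 0) (nat_lit 1292286932) (nat_lit 420) (nat_lit 11061244554) (nat_lit 84) (nat_lit 7281428466) (nat_lit 67) (nat_lit 5) (nat_lit 72) (nat_lit 5) (nat_lit 68) (nat_lit 5) (nat_lit 389)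 (nat_lit 336) (nat_lit 220)) (XT.lf (nat_lit 0) (nat_lit 4303655485) (nat_lit 420) (nat_lit 2398769004) (nat_lit 84) (nat_lit 13330044478) (nat_lit 67) (nat_lit 5) (nat_lit 72) (nat_lit 5) (nat_lit 68) (nat_lit 5) (nat_lit 390) (nat_lit 336) (nat_lit 219))))))) (XT.nd (nat_lit 1316) (nat_lit 1344) (nat_lit 0) (XT.nd (nat_lit 658) (nat_lit 840) (nat_lit 0) (XT.nd (nat_lit 282) (nat_lit 420) (nat_lit 0) (XT.nd (nat_lit 94) (nat_lit 252) (nat_lit 0) (XT.lf (nat_lit 0) (nat_lit 6637723709) (nat_lit 336) (nat_lit 820384633) (nat_lit 420) (nat_lit 12982226422) (nat_lit 63) (nat_lit 5) (nat_lit 67) (nat_lit 5) (nat_lit 68) (nat_lit 5) (nat_lit 391) (nat_lit 336) (nat_lit 218)) (XT.nd (nat_lit 94) (nat_lit 252) (nat_lit 0) (XT.lf (nat_lit 0) (nat_lit 10771080866) (nat_lit 420) (nat_lit 4931348475) (nat_lit 84) (nat_lit 5156104021) (nat_lit 63) (nat_lit 5) (nat_lit 68) (nat_lit 5) (nat_lit 64)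 (nat_lit 5) (nat_lit 392) (nat_lit 336) (nat_lit 217)) (XT.lf (nat_lit 0) (nat_lit 4266098216) (nat_lit 252) (nat_lit 9955865031) (nat_lit 336) (nat_lit 7066172069) (nat_lit 60) (nat_lit 5) (nat_lit 63) (nat_lit 5) (nat_lit 64) (nat_lit 5) (nat_lit 393) (nat_lit 336) (nat_lit 216)))) (XT.nd (nat_lit 188) (nat_lit 84) (nat_lit 0) (XT.nd (nat_lit 94) (nat_lit 336) (nat_lit 0) (XT.lf (nat_lit 0) (nat_lit 13825625854) (nat_lit 252) (nat_lit 3990098431) (nat_lit 336) (nat_lit 3913733117) (nat_lit 60) (nat_lit 5) (nat_lit 63) (nat_lit 5) (nat_lit 64) (nat_lit 5) (nat_lit 394) (nat_lit 336) (nat_lit 215)) (XT.lf (nat_lit 0) (nat_lit 1481344784) (nat_lit 336) (nat_lit 20060722281) (nat_lit 420) (nat_lit 641221290) (nat_lit 56) (nat_lit 5) (nat_lit 60) (nat_lit 5) (nat_lit 61) (nat_lit 5) (nat_lit 395) (nat_lit 336) (nat_lit 214))) (XT.nd (nat_lit 94) (nat_lit 0) (nat_lit 0) (XT.lf (nat_lit 0)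 (nat_lit 2786176162) (nat_lit 420) (nat_lit 11419614629) (nat_lit 84) (nat_lit 8440868733) (nat_lit 55) (nat_lit 5) (nat_lit 60) (nat_lit 5) (nat_lit 56) (nat_lit 5) (nat_lit 396) (nat_lit 336) (nat_lit 213)) (XT.lf (nat_lit 0) (nat_lit 6293665514) (nat_lit 420) (nat_lit 1879570897) (nat_lit 84) (nat_lit 14950811448) (nat_lit 55) (nat_lit 5) (nat_lit 60) (nat_lit 5) (nat_lit 56) (nat_lit 5) (nat_lit 397) (nat_lit 336) (nat_lit 212))))) (XT.nd (nat_lit 282) (nat_lit 336) (nat_lit 0) (XT.nd (nat_lit 94) (nat_lit 252) (nat_lit 0) (XT.lf (nat_lit 0) (nat_lit 8090563428) (nat_lit 252) (nat_lit 1884032115) (nat_lit 336) (nat_lit 13639126724) (nat_lit 52) (nat_lit 5) (nat_lit 55) (nat_lit 5) (nat_lit 56) (nat_lit 5) (nat_lit 398) (nat_lit 336) (nat_lit 211)) (XT.nd (nat_lit 94) (nat_lit 252) (nat_lit 0) (XT.lf (nat_lit 0) (nat_lit 13819827317) (nat_lit 336) (nat_lit 5777633009) (nat_lit 84) (nat_lit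 4519020950) (nat_lit 52) (nat_lit 5) (nat_lit 56) (nat_lit 5) (nat_lit 53) (nat_lit 5) (nat_lit 399) (nat_lit 336) (nat_lit 210)) (XT.lf (nat_lit 0) (nat_lit 4312059453) (nat_lit 252) (nat_lit 13519282917) (nat_lit 336) (nat_lit 6801463175) (nat_lit 49) (nat_lit 5) (nat_lit 52) (nat_lit 5) (nat_lit 53) (nat_lit 5) (nat_lit 400) (nat_lit 336) (nat_lit 209)))) (XT.nd (nat_lit 188) (nat_lit 252) (nat_lit 0) (XT.nd (nat_lit 94) (nat_lit 84) (nat_lit 0) (XT.lf (nat_lit 0) (nat_lit 14809323540) (nat_lit 252) (nat_lit 7203181499) (nat_lit 336) (nat_lit 3150645413) (nat_lit 49) (nat_lit 5) (nat_lit 52) (nat_lit 5) (nat_lit 53) (nat_lit 5) (nat_lit 401) (nat_lit 336) (nat_lit 208)) (XT.lf (nat_lit 0) (nat_lit 588925815) (nat_lit 336) (nat_lit 107107104) (nat_lit 84) (nat_lit 25013472580) (nat_lit 48) (nat_lit 5) (nat_lit 52) (nat_lit 5) (nat_lit 49) (nat_lit 5) (nat_lit 402) (nat_lit 336) (nat_lit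 207))) (XT.nd (nat_lit 94) (nat_lit 0) (nat_lit 0) (XT.lf (nat_lit 0) (nat_lit 4529746374) (nat_lit 336) (nat_lit 15717637007) (nat_lit 84) (nat_lit 6019369501) (nat_lit 45) (nat_lit 5) (nat_lit 49) (nat_lit 5) (nat_lit 46) (nat_lit 5) (nat_lit 403) (nat_lit 336) (nat_lit 206)) (XT.lf (nat_lit 0) (nat_lit 8588245869) (nat_lit 336) (nat_lit 5333418383) (nat_lit 84) (nat_lit 12919078669) (nat_lit 45) (nat_lit 5) (nat_lit 49) (nat_lit 5) (nat_lit 46) (nat_lit 5) (nat_lit 404) (nat_lit 336) (nat_lit 205)))))) (XT.nd (nat_lit 658) (nat_lit 588) (nat_lit 0) (XT.nd (nat_lit 282) (nat_lit 504) (nat_lit 0) (XT.nd (nat_lit 94) (nat_lit 0) (nat_lit 0) (XT.lf (nat_lit 0) (nat_lit 5456123420) (nat_lit 252) (nat_lit 7356543576) (nat_lit 336) (nat_lit 14617969272) (nat_lit 42) (nat_lit 5) (nat_lit 45) (nat_lit 5) (nat_lit 46) (nat_lit 5) (nat_lit 405) (nat_lit 336) (nat_lit 204)) (XT.nd (nat_lit 94)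 (nat_lit 0) (nat_lit 0) (XT.lf (nat_lit 0) (nat_lit 16666133565) (nat_lit 252) (nat_lit 543383888) (nat_lit 336) (nat_lit 10827346418) (nat_lit 42) (nat_lit 5) (nat_lit 45) (nat_lit 5) (nat_lit 46) (nat_lit 5) (nat_lit 406) (nat_lit 336) (nat_lit 203)) (XT.lf (nat_lit 0) (nat_lit 21792543476) (nat_lit 336) (nat_lit 523455118) (nat_lit 84) (nat_lit 6343659720) (nat_lit 42) (nat_lit 5) (nat_lit 46) (nat_lit 5) (nat_lit 43) (nat_lit 5) (nat_lit 407) (nat_lit 336) (nat_lit 202)))) (XT.nd (nat_lit 188) (nat_lit 252) (nat_lit 0) (XT.nd (nat_lit 94) (nat_lit 84) (nat_lit 0) (XT.lf (nat_lit 0) (nat_lit 10843426239) (nat_lit 168) (nat_lit 15771516037) (nat_lit 252) (nat_lit 2683145729) (nat_lit 40) (nat_lit 5) (nat_lit 42) (nat_lit 5) (nat_lit 43) (nat_lit 5) (nat_lit 408) (nat_lit 336) (nat_lit 201)) (XT.lf (nat_lit 0) (nat_lit 1592240942) (nat_lit 252) (nat_lit 7421222583) (nat_lit 84) (nat_lit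 20941816456) (nat_lit 39) (nat_lit 5) (nat_lit 42) (nat_lit 5) (nat_lit 40) (nat_lit 5) (nat_lit 409) (nat_lit 336) (nat_lit 200))) (XT.nd (nat_lit 94) (nat_lit 0) (nat_lit 0) (XT.lf (nat_lit 0) (nat_lit 3982652203) (nat_lit 252) (nat_lit 1990112598) (nat_lit 336) (nat_lit 24657709024) (nat_lit 36) (nat_lit 5) (nat_lit 39) (nat_lit 5) (nat_lit 40) (nat_lit 5) (nat_lit 410) (nat_lit 336) (nat_lit 199)) (XT.lf (nat_lit 0) (nat_lit 10603380231) (nat_lit 336) (nat_lit 15505844518) (nat_lit 84) (nat_lit 5213145459) (nat_lit 36) (nat_lit 5) (nat_lit 40) (nat_lit 5) (nat_lit 37) (nat_lit 5) (nat_lit 411) (nat_lit 336) (nat_lit 198))))) (XT.nd (nat_lit 282) (nat_lit 420) (nat_lit 0) (XT.nd (nat_lit 94) (nat_lit 168) (nat_lit 0) (XT.lf (nat_lit 0) (nat_lit 15385420275) (nat_lit 336) (nat_lit 4060759097) (nat_lit 84) (nat_lit 12588475719) (nat_lit 36) (nat_lit 5) (nat_lit 40) (nat_lit 5) (nat_lit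 37) (nat_lit 5) (nat_lit 412) (nat_lit 336) (nat_lit 197)) (XT.nd (nat_lit 94) (nat_lit 0) (nat_lit 0) (XT.lf (nat_lit 0) (nat_lit 7870140160) (nat_lit 168) (nat_lit 12509445680) (nat_lit 252) (nat_lit 12386669348) (nat_lit 34) (nat_lit 5) (nat_lit 36) (nat_lit 5) (nat_lit 37) (nat_lit 5) (nat_lit 413) (nat_lit 336) (nat_lit 196)) (XT.lf (nat_lit 0) (nat_lit 20231203423) (nat_lit 168) (nat_lit 5326488128) (nat_lit 252) (nat_lit 7961094684) (nat_lit 34) (nat_lit 5) (nat_lit 36) (nat_lit 5) (nat_lit 37) (nat_lit 5) (nat_lit 414) (nat_lit 336) (nat_lit 195)))) (XT.nd (nat_lit 188) (nat_lit 168) (nat_lit 0) (XT.nd (nat_lit 94) (nat_lit 252) (nat_lit 0) (XT.lf (nat_lit 0) (nat_lit 30904329141) (nat_lit 252) (nat_lit 1361564108) (nat_lit 84) (nat_lit 2027610522) (nat_lit 34) (nat_lit 5) (nat_lit 37) (nat_lit 5) (nat_lit 35) (nat_lit 5) (nat_lit 415) (nat_lit 336) (nat_lit 194)) (XT.lf (nat_lit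 0) (nat_lit 1448318238) (nat_lit 252) (nat_lit 24026012283) (nat_lit 84) (nat_lit 9612132403) (nat_lit 31) (nat_lit 5) (nat_lit 34) (nat_lit 5) (nat_lit 32) (nat_lit 5) (nat_lit 416) (nat_lit 336) (nat_lit 193))) (XT.nd (nat_lit 94) (nat_lit 168) (nat_lit 0) (XT.lf (nat_lit 0) (nat_lit 6370190279) (nat_lit 252) (nat_lit 12064022573) (nat_lit 84) (nat_lit 17467775801) (nat_lit 31) (nat_lit 5) (nat_lit 34) (nat_lit 5) (nat_lit 32) (nat_lit 5) (nat_lit 417) (nat_lit 336) (nat_lit 192)) (XT.lf (nat_lit 0) (nat_lit 251473353) (nat_lit 168) (nat_lit 11184340291) (nat_lit 252) (nat_lit 25306289178) (nat_lit 29) (nat_lit 5) (nat_lit 31) (nat_lit 5) (nat_lit 32) (nat_lit 5) (nat_lit 418) (nat_lit 336) (nat_lit 191))))))))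
noncomputable def xc134 : XT := (XT.nd (nat_lit 2538) (nat_lit 0) (nat_lit 0) (XT.nd (nat_lit 1222) (nat_lit 588) (nat_lit 0) (XT.nd (nat_lit 564) (nat_lit 420) (nat_lit 0) (XT.nd (nat_lit 282) (nat_lit 84) (nat_lit 0) (XT.nd (nat_lit 94) (nat_lit 168) (nat_lit 0) (XT.lf (nat_lit 0) (nat_lit 13173574762) (nat_lit 168) (nat_lit 3595418246) (nat_lit 252) (nat_lit 20834965154) (nat_lit 29) (nat_lit 5) (nat_lit 31) (nat_lit 5) (nat_lit 32) (nat_lit 5) (nat_lit 419) (nat_lit 336) (nat_lit 190)) (XT.nd (nat_lit 94) (nat_lit 168) (nat_lit 0) (XT.lf (nat_lit 0) (nat_lit 22296653555) (nat_lit 252) (nat_lit 12058920743) (nat_lit 84) (nat_lit 4135065496) (nat_lit 29) (nat_lit 5) (nat_lit 32) (nat_lit 5) (nat_lit 30) (nat_lit 5) (nat_lit 420) (nat_lit 336) (nat_lit 189)) (XT.lf (nat_lit 0) (nat_lit 651069673) (nat_lit 168) (nat_lit 27375017643) (nat_lit 252) (nat_lit 11376761313) (nat_lit 27) (nat_lit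 5) (nat_lit 29) (nat_lit 5) (nat_lit 30) (nat_lit 5) (nat_lit 421) (nat_lit 336) (nat_lit 188)))) (XT.nd (nat_lit 94) (nat_lit 84) (nat_lit 0) (XT.lf (nat_lit 0) (nat_lit 13979928543) (nat_lit 168) (nat_lit 20063413410) (nat_lit 252) (nat_lit 6295608549) (nat_lit 27) (nat_lit 5) (nat_lit 29) (nat_lit 5) (nat_lit 30) (nat_lit 5) (nat_lit 422) (nat_lit 336) (nat_lit 187)) (XT.nd (nat_lit 94) (nat_lit 84) (nat_lit 0) (XT.lf (nat_lit 0) (nat_lit 27699306273) (nat_lit 168) (nat_lit 12536144272) (nat_lit 252) (nat_lit 1067859561) (nat_lit 27) (nat_lit 5) (nat_lit 29) (nat_lit 5) (nat_lit 30) (nat_lit 5) (nat_lit 423) (nat_lit 336) (nat_lit 186)) (XT.lf (nat_lit 0) (nat_lit 4226929403) (nat_lit 252) (nat_lit 517019903) (nat_lit 84) (nat_lit 37551577567) (nat_lit 26) (nat_lit 5) (nat_lit 29) (nat_lit 5) (nat_lit 27) (nat_lit 5) (nat_lit 424) (nat_lit 336) (nat_lit 185))))) (XT.nd (nat_lit 282)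 (nat_lit 252) (nat_lit 0) (XT.nd (nat_lit 94) (nat_lit 0) (nat_lit 0) (XT.lf (nat_lit 0) (nat_lit 9813472072) (nat_lit 252) (nat_lit 30145757042) (nat_lit 84) (nat_lit 3353337015) (nat_lit 24) (nat_lit 5) (nat_lit 27) (nat_lit 5) (nat_lit 25) (nat_lit 5) (nat_lit 425) (nat_lit 336) (nat_lit 184)) (XT.nd (nat_lit 94) (nat_lit 0) (nat_lit 0) (XT.lf (nat_lit 0) (nat_lit 15614496056) (nat_lit 252) (nat_lit 17144194896) (nat_lit 84) (nat_lit 11600023293) (nat_lit 24) (nat_lit 5) (nat_lit 27) (nat_lit 5) (nat_lit 25) (nat_lit 5) (nat_lit 426) (nat_lit 336) (nat_lit 183)) (XT.lf (nat_lit 0) (nat_lit 21584349459) (nat_lit 252) (nat_lit 3761289598) (nat_lit 84) (nat_lit 20090767897) (nat_lit 24) (nat_lit 5) (nat_lit 27) (nat_lit 5) (nat_lit 25) (nat_lit 5) (nat_lit 427) (nat_lit 336) (nat_lit 182)))) (XT.nd (nat_lit 188) (nat_lit 84) (nat_lit 0) (XT.nd (nat_lit 94) (nat_lit 0) (nat_lit 0) (XT.lf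 (nat_lit 0) (nat_lit 10213963876) (nat_lit 168) (nat_lit 17612467650) (nat_lit 252) (nat_lit 18717208917) (nat_lit 22) (nat_lit 5) (nat_lit 24) (nat_lit 5) (nat_lit 25) (nat_lit 5) (nat_lit 428) (nat_lit 336) (nat_lit 181)) (XT.lf (nat_lit 0) (nat_lit 24677210344) (nat_lit 168) (nat_lit 9611564204) (nat_lit 252) (nat_lit 13394330309) (nat_lit 22) (nat_lit 5) (nat_lit 24) (nat_lit 5) (nat_lit 25) (nat_lit 5) (nat_lit 429) (nat_lit 336) (nat_lit 180))) (XT.nd (nat_lit 94) (nat_lit 84) (nat_lit 0) (XT.lf (nat_lit 0) (nat_lit 39566230556) (nat_lit 168) (nat_lit 1373919290) (nat_lit 252) (nat_lit 7916752260) (nat_lit 22) (nat_lit 5) (nat_lit 24) (nat_lit 5) (nat_lit 25) (nat_lit 5) (nat_lit 430) (nat_lit 336) (nat_lit 179)) (XT.lf (nat_lit 0) (nat_lit 4854379703) (nat_lit 84) (nat_lit 43046976087) (nat_lit 168) (nat_lit 2161252452) (nat_lit 21) (nat_lit 5) (nat_lit 22) (nat_lit 5) (nat_lit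 23) (nat_lit 4) (nat_lit 431) (nat_lit 336) (nat_lit 178)))))) (XT.nd (nat_lit 658) (nat_lit 336) (nat_lit 0) (XT.nd (nat_lit 282) (nat_lit 168) (nat_lit 0) (XT.nd (nat_lit 94) (nat_lit 0) (nat_lit 0) (XT.lf (nat_lit 0) (nat_lit 3797040037) (nat_lit 168) (nat_lit 31746200596) (nat_lit 84) (nat_lit 15757053065) (nat_lit 20) (nat_lit 5) (nat_lit 22) (nat_lit 5) (nat_lit 21) (nat_lit 5) (nat_lit 432) (nat_lit 336) (nat_lit 177)) (XT.nd (nat_lit 94) (nat_lit 0) (nat_lit 0) (XT.lf (nat_lit 0) (nat_lit 9886063726) (nat_lit 168) (nat_lit 17909496566) (nat_lit 84) (nat_lit 24779048168) (nat_lit 20) (nat_lit 5) (nat_lit 22) (nat_lit 5) (nat_lit 21) (nat_lit 5) (nat_lit 433) (nat_lit 336) (nat_lit 176)) (XT.lf (nat_lit 0) (nat_lit 16153312940) (nat_lit 168) (nat_lit 3665250845) (nat_lit 84) (nat_lit 34068725480) (nat_lit 20) (nat_lit 5) (nat_lit 22) (nat_lit 5) (nat_lit 21) (nat_lit 5) (nat_lit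 434) (nat_lit 336) (nat_lit 175)))) (XT.nd (nat_lit 188) (nat_lit 0) (nat_lit 0) (XT.nd (nat_lit 94) (nat_lit 0) (nat_lit 0) (XT.lf (nat_lit 0) (nat_lit 11217884323) (nat_lit 168) (nat_lit 11494212758) (nat_lit 252) (nat_lit 32524151039) (nat_lit 18) (nat_lit 5) (nat_lit 20) (nat_lit 5) (nat_lit 21) (nat_lit 5) (nat_lit 435) (nat_lit 336) (nat_lit 174)) (XT.lf (nat_lit 0) (nat_lit 26615380297) (nat_lit 168) (nat_lit 2885016426) (nat_lit 252) (nat_lit 27124299518) (nat_lit 18) (nat_lit 5) (nat_lit 20) (nat_lit 5) (nat_lit 21) (nat_lit 5) (nat_lit 436) (nat_lit 336) (nat_lit 173))) (XT.nd (nat_lit 94) (nat_lit 0) (nat_lit 0) (XT.lf (nat_lit 0) (nat_lit 36545688515) (nat_lit 252) (nat_lit 15644658288) (nat_lit 84) (nat_lit 5862853679) (nat_lit 18) (nat_lit 5) (nat_lit 21) (nat_lit 5) (nat_lit 19) (nat_lit 4) (nat_lit 437) (nat_lit 336) (nat_lit 172)) (XT.lf (nat_lit 0) (nat_lit 43826860991)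 (nat_lit 252) (nat_lit 884571639) (nat_lit 84) (nat_lit 14812394443) (nat_lit 18) (nat_lit 5) (nat_lit 21) (nat_lit 5) (nat_lit 19) (nat_lit 4) (nat_lit 438) (nat_lit 336) (nat_lit 171))))) (XT.nd (nat_lit 282) (nat_lit 168) (nat_lit 0) (XT.nd (nat_lit 94) (nat_lit 84) (nat_lit 0) (XT.lf (nat_lit 0) (nat_lit 14596402084) (nat_lit 84) (nat_lit 36866451261) (nat_lit 168) (nat_lit 9571630376) (nat_lit 17) (nat_lit 5) (nat_lit 18) (nat_lit 5) (nat_lit 19) (nat_lit 4) (nat_lit 439) (nat_lit 336) (nat_lit 170)) (XT.nd (nat_lit 94) (nat_lit 84) (nat_lit 0) (XT.lf (nat_lit 0) (nat_lit 30553260085) (nat_lit 84) (nat_lit 28779723107) (nat_lit 168) (nat_lit 3257327862) (nat_lit 17) (nat_lit 5) (nat_lit 18) (nat_lit 5) (nat_lit 19) (nat_lit 4) (nat_lit 440) (nat_lit 336) (nat_lit 169)) (XT.lf (nat_lit 0) (nat_lit 3179253002) (nat_lit 168) (nat_lit 17241757310) (nat_lit 84) (nat_lit 43770983315) (nat_lit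 16) (nat_lit 5) (nat_lit 18) (nat_lit 5) (nat_lit 17) (nat_lit 5) (nat_lit 441) (nat_lit 336) (nat_lit 168)))) (XT.nd (nat_lit 188) (nat_lit 0) (nat_lit 0) (XT.nd (nat_lit 94) (nat_lit 168) (nat_lit 0) (XT.lf (nat_lit 0) (nat_lit 9739771262) (nat_lit 168) (nat_lit 2041226009) (nat_lit 84) (nat_lit 54059875098) (nat_lit 16) (nat_lit 5) (nat_lit 18) (nat_lit 5) (nat_lit 17) (nat_lit 5) (nat_lit 442) (nat_lit 336) (nat_lit 167)) (XT.lf (nat_lit 0) (nat_lit 13879984875) (nat_lit 168) (nat_lit 2746959638) (nat_lit 252) (nat_lit 50908380191) (nat_lit 14) (nat_lit 5) (nat_lit 16) (nat_lit 5) (nat_lit 17) (nat_lit 5) (nat_lit 443) (nat_lit 336) (nat_lit 166))) (XT.nd (nat_lit 94) (nat_lit 0) (nat_lit 0) (XT.lf (nat_lit 0) (nat_lit 23801027068) (nat_lit 252) (nat_lit 39028769404) (nat_lit 84) (nat_lit 6448407660) (nat_lit 14) (nat_lit 5) (nat_lit 17) (nat_lit 5) (nat_lit 15) (nat_lit 4) (nat_lit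 444) (nat_lit 336) (nat_lit 165)) (XT.lf (nat_lit 0) (nat_lit 31214070671) (nat_lit 252) (nat_lit 23996626513) (nat_lit 84) (nat_lit 15861962878) (nat_lit 14) (nat_lit 5) (nat_lit 17) (nat_lit 5) (nat_lit 15) (nat_lit 4) (nat_lit 445) (nat_lit 336) (nat_lit 164))))))) (XT.nd (nat_lit 50290) (nat_lit 0) (nat_lit 10500) (XT.nd (nat_lit 49632) (nat_lit 0) (nat_lit 15036) (XT.nd (nat_lit 49256) (nat_lit 0) (nat_lit 15960) (XT.nd (nat_lit 49068) (nat_lit 0) (nat_lit 15960) (XT.lf (nat_lit 0) (nat_lit 38846147283) (nat_lit 252) (nat_lit 8519370818) (nat_lit 84) (nat_lit 25555534525) (nat_lit 14) (nat_lit 5) (nat_lit 17) (nat_lit 5) (nat_lit 15) (nat_lit 4) (nat_lit 446) (nat_lit 336) (nat_lit 163)) (XT.nd (nat_lit 94) (nat_lit 0) (nat_lit 0) (XT.lf (nat_lit 0) (nat_lit 1530658514) (nat_lit 1092) (nat_lit 1373981345) (nat_lit 1092) (nat_lit 1373981345) (nat_lit 204) (nat_lit 3) (nat_lit 217)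 (nat_lit 3) (nat_lit 217) (nat_lit 5) (nat_lit 337) (nat_lit 337) (nat_lit 271)) (XT.lf (nat_lit 84) (nat_lit 1010904412) (nat_lit 0) (nat_lit 3043539965) (nat_lit 1092) (nat_lit 4600775182) (nat_lit 205) (nat_lit 5) (nat_lit 204) (nat_lit 3) (nat_lit 217) (nat_lit 5) (nat_lit 338) (nat_lit 337) (nat_lit 270)))) (XT.nd (nat_lit 188) (nat_lit 0) (nat_lit 84) (XT.nd (nat_lit 94) (nat_lit 0) (nat_lit 84) (XT.lf (nat_lit 84) (nat_lit 4919611328) (nat_lit 0) (nat_lit 148730527) (nat_lit 1092) (nat_lit 3688141578) (nat_lit 205) (nat_lit 5) (nat_lit 204) (nat_lit 3) (nat_lit 217) (nat_lit 5) (nat_lit 339) (nat_lit 337) (nat_lit 269)) (XT.lf (nat_lit 84) (nat_lit 38305055) (nat_lit 0) (nat_lit 6066412996) (nat_lit 1092) (nat_lit 2756379782) (nat_lit 206) (nat_lit 5) (nat_lit 205) (nat_lit 5) (nat_lit 218) (nat_lit 5) (nat_lit 340) (nat_lit 337) (nat_lit 268))) (XT.nd (nat_lit 94) (nat_lit 0) (nat_lit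 0) (XT.lf (nat_lit 84) (nat_lit 4087079036) (nat_lit 0) (nat_lit 3090615999) (nat_lit 1092) (nat_lit 1791062641) (nat_lit 206) (nat_lit 5) (nat_lit 205) (nat_lit 5) (nat_lit 218) (nat_lit 5) (nat_lit 341) (nat_lit 337) (nat_lit 267)) (XT.lf (nat_lit 84) (nat_lit 8238084465) (nat_lit 0) (nat_lit 11093827) (nat_lit 1092) (nat_lit 831549703) (nat_lit 206) (nat_lit 5) (nat_lit 205) (nat_lit 5) (nat_lit 218) (nat_lit 5) (nat_lit 342) (nat_lit 337) (nat_lit 266))))) (XT.nd (nat_lit 282) (nat_lit 0) (nat_lit 84) (XT.nd (nat_lit 94) (nat_lit 0) (nat_lit 0) (XT.lf (nat_lit 0) (nat_lit 183767764) (nat_lit 1092) (nat_lit 5864682344) (nat_lit 1176) (nat_lit 3146725939) (nat_lit 193) (nat_lit 5) (nat_lit 206) (nat_lit 5) (nat_lit 207) (nat_lit 5) (nat_lit 343) (nat_lit 337) (nat_lit 265)) (XT.nd (nat_lit 94) (nat_lit 0) (nat_lit 84) (XT.lf (nat_lit 0) (nat_lit 1189347223) (nat_lit 1092) (nat_lit 1695496958)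 (nat_lit 1176) (nat_lit 6428735122) (nat_lit 193) (nat_lit 5) (nat_lit 206) (nat_lit 5) (nat_lit 207) (nat_lit 5) (nat_lit 344) (nat_lit 337) (nat_lit 264)) (XT.lf (nat_lit 0) (nat_lit 2223081057) (nat_lit 1092) (nat_lit 6809410304) (nat_lit 1176) (nat_lit 403166050) (nat_lit 194) (nat_lit 5) (nat_lit 207) (nat_lit 5) (nat_lit 208) (nat_lit 5) (nat_lit 345) (nat_lit 337) (nat_lit 263)))) (XT.nd (nat_lit 188) (nat_lit 0) (nat_lit 84) (XT.nd (nat_lit 94) (nat_lit 0) (nat_lit 0) (XT.lf (nat_lit 0) (nat_lit 3303257821) (nat_lit 1092) (nat_lit 2497877495) (nat_lit 1176) (nat_lit 3759860167) (nat_lit 194) (nat_lit 5) (nat_lit 207) (nat_lit 5) (nat_lit 208) (nat_lit 5) (nat_lit 346) (nat_lit 337) (nat_lit 262)) (XT.lf (nat_lit 84) (nat_lit 1961212928) (nat_lit 0) (nat_lit 2443942821) (nat_lit 1176) (nat_lit 5285317253) (nat_lit 195) (nat_lit 5) (nat_lit 194) (nat_lit 5) (nat_lit 208) (nat_lit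 5) (nat_lit 347) (nat_lit 337) (nat_lit 261))) (XT.nd (nat_lit 94) (nat_lit 0) (nat_lit 0) (XT.lf (nat_lit 0) (nat_lit 5546550284) (nat_lit 1092) (nat_lit 3248666320) (nat_lit 1176) (nat_lit 1028482123) (nat_lit 195) (nat_lit 5) (nat_lit 208) (nat_lit 5) (nat_lit 209) (nat_lit 5) (nat_lit 348) (nat_lit 337) (nat_lit 260)) (XT.lf (nat_lit 84) (nat_lit 1348192096) (nat_lit 0) (nat_lit 5383209337) (nat_lit 1176) (nat_lit 3229298759) (nat_lit 196) (nat_lit 5) (nat_lit 195) (nat_lit 5) (nat_lit 209) (nat_lit 5) (nat_lit 349) (nat_lit 337) (nat_lit 259)))))) (XT.nd (nat_lit 658) (nat_lit 2520) (nat_lit 0) (XT.nd (nat_lit 282) (nat_lit 1092) (nat_lit 0) (XT.nd (nat_lit 94) (nat_lit 1092) (nat_lit 0) (XT.lf (nat_lit 84) (nat_lit 6129485626) (nat_lit 0) (nat_lit 1827796304) (nat_lit 1176) (nat_lit 2144419050) (nat_lit 196) (nat_lit 5) (nat_lit 195) (nat_lit 5) (nat_lit 209) (nat_lit 5) (nat_lit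 350) (nat_lit 337) (nat_lit 258)) (XT.nd (nat_lit 94) (nat_lit 1176) (nat_lit 0) (XT.lf (nat_lit 84) (nat_lit 784567281) (nat_lit 0) (nat_lit 8434087655) (nat_lit 1176) (nat_lit 1028367600) (nat_lit 197) (nat_lit 5) (nat_lit 196) (nat_lit 5) (nat_lit 210) (nat_lit 5) (nat_lit 351) (nat_lit 337) (nat_lit 257)) (XT.lf (nat_lit 0) (nat_lit 151219391) (nat_lit 1176) (nat_lit 4670446182) (nat_lit 1260) (nat_lit 5574079904) (nat_lit 182) (nat_lit 5) (nat_lit 196) (nat_lit 5) (nat_lit 197) (nat_lit 5) (nat_lit 352) (nat_lit 337) (nat_lit 256)))) (XT.nd (nat_lit 188) (nat_lit 1092) (nat_lit 0) (XT.nd (nat_lit 94) (nat_lit 0) (nat_lit 84) (XT.lf (nat_lit 84) (nat_lit 239655861) (nat_lit 0) (nat_lit 1082748066) (nat_lit 1260) (nat_lit 9226962146) (nat_lit 183) (nat_lit 5) (nat_lit 182) (nat_lit 5) (nat_lit 197) (nat_lit 5) (nat_lit 353) (nat_lit 337) (nat_lit 255)) (XT.lf (nat_lit 0) (nat_lit 2578135466)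 (nat_lit 1176) (nat_lit 5361262010) (nat_lit 84) (nat_lit 2766761871) (nat_lit 183) (nat_lit 5) (nat_lit 197) (nat_lit 5) (nat_lit 184) (nat_lit 5) (nat_lit 354) (nat_lit 337) (nat_lit 254))) (XT.nd (nat_lit 94) (nat_lit 1176) (nat_lit 0) (XT.lf (nat_lit 0) (nat_lit 3858153611) (nat_lit 1176) (nat_lit 295278916) (nat_lit 84) (nat_lit 6714670504) (nat_lit 183) (nat_lit 5) (nat_lit 197) (nat_lit 5) (nat_lit 184) (nat_lit 5) (nat_lit 355) (nat_lit 337) (nat_lit 253)) (XT.lf (nat_lit 0) (nat_lit 5000654473) (nat_lit 1176) (nat_lit 200583665) (nat_lit 1260) (nat_lit 5832970653) (nat_lit 169) (nat_lit 5) (nat_lit 183) (nat_lit 5) (nat_lit 184) (nat_lit 5) (nat_lit 356) (nat_lit 337) (nat_lit 252))))) (XT.nd (nat_lit 282) (nat_lit 1260) (nat_lit 0) (XT.nd (nat_lit 94) (nat_lit 1260) (nat_lit 0) (XT.lf (nat_lit 0) (nat_lit 6601960491) (nat_lit 1260) (nat_lit 801108986) (nat_lit 84) (nat_lit 3801750355)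 (nat_lit 169) (nat_lit 5) (nat_lit 184) (nat_lit 5) (nat_lit 170) (nat_lit 5) (nat_lit 357) (nat_lit 337) (nat_lit 251)) (XT.nd (nat_lit 94) (nat_lit 0) (nat_lit 0) (XT.lf (nat_lit 0) (nat_lit 4657617418) (nat_lit 1260) (nat_lit 3411636245) (nat_lit 1344) (nat_lit 3310600294) (nat_lit 154) (nat_lit 5) (nat_lit 169) (nat_lit 5) (nat_lit 170) (nat_lit 5) (nat_lit 358) (nat_lit 337) (nat_lit 250)) (XT.lf (nat_lit 0) (nat_lit 9573733992) (nat_lit 1344) (nat_lit 1290289512) (nat_lit 84) (nat_lit 696360582) (nat_lit 154) (nat_lit 5) (nat_lit 170) (nat_lit 5) (nat_lit 155) (nat_lit 5) (nat_lit 359) (nat_lit 337) (nat_lit 249)))) (XT.nd (nat_lit 188) (nat_lit 588) (nat_lit 0) (XT.nd (nat_lit 94) (nat_lit 84) (nat_lit 0) (XT.lf (nat_lit 0) (nat_lit 4335916450) (nat_lit 588) (nat_lit 6841797355) (nat_lit 672) (nat_lit 567024222) (nat_lit 147) (nat_lit 5) (nat_lit 154) (nat_lit 5) (nat_lit 155) (nat_lit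 5) (nat_lit 360) (nat_lit 337) (nat_lit 248)) (XT.lf (nat_lit 0) (nat_lit 869974320) (nat_lit 672) (nat_lit 1805399045) (nat_lit 84) (nat_lit 9259260132) (nat_lit 146) (nat_lit 5) (nat_lit 154) (nat_lit 5) (nat_lit 147) (nat_lit 5) (nat_lit 361) (nat_lit 337) (nat_lit 247))) (XT.nd (nat_lit 94) (nat_lit 0) (nat_lit 0) (XT.lf (nat_lit 0) (nat_lit 2373012123) (nat_lit 672) (nat_lit 8125789070) (nat_lit 84) (nat_lit 1630262000) (nat_lit 139) (nat_lit 5) (nat_lit 147) (nat_lit 5) (nat_lit 140) (nat_lit 5) (nat_lit 362) (nat_lit 337) (nat_lit 246)) (XT.lf (nat_lit 0) (nat_lit 3946160777) (nat_lit 672) (nat_lit 2351897934) (nat_lit 84) (nat_lit 6030551007) (nat_lit 139) (nat_lit 5) (nat_lit 147) (nat_lit 5) (nat_lit 140) (nat_lit 5) (nat_lit 363) (nat_lit 337) (nat_lit 245))))))))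
noncomputable def xc135 : XT := (XT.nd (nat_lit 2632) (nat_lit 3192) (nat_lit 0) (XT.nd (nat_lit 1316) (nat_lit 2352) (nat_lit 0) (XT.nd (nat_lit 658) (nat_lit 1428) (nat_lit 0) (XT.nd (nat_lit 282) (nat_lit 1092) (nat_lit 0) (XT.nd (nat_lit 94) (nat_lit 588) (nat_lit 0) (XT.lf (nat_lit 0) (nat_lit 3647288337) (nat_lit 588) (nat_lit 1934973944) (nat_lit 672) (nat_lit 6951441131) (nat_lit 132) (nat_lit 5) (nat_lit 139) (nat_lit 5) (nat_lit 140) (nat_lit 5) (nat_lit 364) (nat_lit 337) (nat_lit 244)) (XT.nd (nat_lit 94) (nat_lit 588) (nat_lit 0) (XT.lf (nat_lit 0) (nat_lit 7297109249) (nat_lit 672) (nat_lit 2913915945) (nat_lit 84) (nat_lit 2533067396) (nat_lit 132) (nat_lit 5) (nat_lit 140) (nat_lit 5) (nat_lit 133) (nat_lit 5) (nat_lit 365) (nat_lit 337) (nat_lit 243)) (XT.lf (nat_lit 0) (nat_lit 3263341226) (nat_lit 588) (nat_lit 5832217898) (nat_lit 672) (nat_lit 3864301193) (nat_lit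 125) (nat_lit 5) (nat_lit 132) (nat_lit 5) (nat_lit 133) (nat_lit 5) (nat_lit 366) (nat_lit 337) (nat_lit 242)))) (XT.nd (nat_lit 188) (nat_lit 588) (nat_lit 0) (XT.nd (nat_lit 94) (nat_lit 504) (nat_lit 0) (XT.lf (nat_lit 0) (nat_lit 9666895886) (nat_lit 588) (nat_lit 1292476339) (nat_lit 672) (nat_lit 2222417237) (nat_lit 125) (nat_lit 5) (nat_lit 132) (nat_lit 5) (nat_lit 133) (nat_lit 5) (nat_lit 367) (nat_lit 337) (nat_lit 241)) (XT.lf (nat_lit 0) (nat_lit 2856646232) (nat_lit 504) (nat_lit 10064939902) (nat_lit 588) (nat_lit 487545540) (nat_lit 119) (nat_lit 5) (nat_lit 125) (nat_lit 5) (nat_lit 126) (nat_lit 5) (nat_lit 368) (nat_lit 337) (nat_lit 240))) (XT.nd (nat_lit 94) (nat_lit 504) (nat_lit 0) (XT.lf (nat_lit 0) (nat_lit 1305294149) (nat_lit 588) (nat_lit 4195427683) (nat_lit 84) (nat_lit 8141287366) (nat_lit 118) (nat_lit 5) (nat_lit 125) (nat_lit 5) (nat_lit 119) (nat_lit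 5) (nat_lit 369) (nat_lit 337) (nat_lit 239)) (XT.lf (nat_lit 0) (nat_lit 2375476629) (nat_lit 504) (nat_lit 772619042) (nat_lit 588) (nat_lit 10733480546) (nat_lit 112) (nat_lit 5) (nat_lit 118) (nat_lit 5) (nat_lit 119) (nat_lit 5) (nat_lit 370) (nat_lit 337) (nat_lit 238))))) (XT.nd (nat_lit 282) (nat_lit 1008) (nat_lit 0) (XT.nd (nat_lit 94) (nat_lit 420) (nat_lit 0) (XT.lf (nat_lit 0) (nat_lit 5111793517) (nat_lit 588) (nat_lit 4956073015) (nat_lit 84) (nat_lit 4058521808) (nat_lit 112) (nat_lit 5) (nat_lit 119) (nat_lit 5) (nat_lit 113) (nat_lit 5) (nat_lit 371) (nat_lit 337) (nat_lit 237)) (XT.nd (nat_lit 94) (nat_lit 0) (nat_lit 0) (XT.lf (nat_lit 0) (nat_lit 1799750996) (nat_lit 420) (nat_lit 5343524810) (nat_lit 504) (nat_lit 7235028508) (nat_lit 107) (nat_lit 5) (nat_lit 112) (nat_lit 5) (nat_lit 113) (nat_lit 5) (nat_lit 372) (nat_lit 337) (nat_lit 236)) (XT.lf (nat_lit 0)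 (nat_lit 8841849244) (nat_lit 420) (nat_lit 428118713) (nat_lit 504) (nat_lit 5366806793) (nat_lit 107) (nat_lit 5) (nat_lit 112) (nat_lit 5) (nat_lit 113) (nat_lit 5) (nat_lit 373) (nat_lit 337) (nat_lit 235)))) (XT.nd (nat_lit 188) (nat_lit 504) (nat_lit 0) (XT.nd (nat_lit 94) (nat_lit 0) (nat_lit 0) (XT.lf (nat_lit 0) (nat_lit 1152208637) (nat_lit 504) (nat_lit 10348537778) (nat_lit 588) (nat_lit 3401068535) (nat_lit 101) (nat_lit 5) (nat_lit 107) (nat_lit 5) (nat_lit 108) (nat_lit 5) (nat_lit 374) (nat_lit 337) (nat_lit 234)) (XT.lf (nat_lit 0) (nat_lit 8404465569) (nat_lit 504) (nat_lit 5441631203) (nat_lit 588) (nat_lit 1327303642) (nat_lit 101) (nat_lit 5) (nat_lit 107) (nat_lit 5) (nat_lit 108) (nat_lit 5) (nat_lit 375) (nat_lit 337) (nat_lit 233))) (XT.nd (nat_lit 94) (nat_lit 0) (nat_lit 0) (XT.lf (nat_lit 0) (nat_lit 403703263) (nat_lit 420) (nat_lit 378276959) (nat_lit 504)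 (nat_lit 14671269592) (nat_lit 95) (nat_lit 5) (nat_lit 100) (nat_lit 5) (nat_lit 101) (nat_lit 5) (nat_lit 376) (nat_lit 337) (nat_lit 232)) (XT.lf (nat_lit 0) (nat_lit 3028832708) (nat_lit 504) (nat_lit 7887297034) (nat_lit 84) (nat_lit 4821963195) (nat_lit 95) (nat_lit 5) (nat_lit 101) (nat_lit 5) (nat_lit 96) (nat_lit 5) (nat_lit 377) (nat_lit 337) (nat_lit 231)))))) (XT.nd (nat_lit 658) (nat_lit 1092) (nat_lit 0) (XT.nd (nat_lit 282) (nat_lit 840) (nat_lit 0) (XT.nd (nat_lit 94) (nat_lit 420) (nat_lit 0) (XT.lf (nat_lit 0) (nat_lit 5332701979) (nat_lit 504) (nat_lit 531222044) (nat_lit 84) (nat_lit 10167889885) (nat_lit 95) (nat_lit 5) (nat_lit 101) (nat_lit 5) (nat_lit 96) (nat_lit 5) (nat_lit 378) (nat_lit 337) (nat_lit 230)) (XT.nd (nat_lit 94) (nat_lit 0) (nat_lit 0) (XT.lf (nat_lit 0) (nat_lit 7168628039) (nat_lit 420) (nat_lit 592246093) (nat_lit 504) (nat_lit 8571837053) (nat_lit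 90) (nat_lit 5) (nat_lit 95) (nat_lit 5) (nat_lit 96) (nat_lit 5) (nat_lit 379) (nat_lit 337) (nat_lit 229)) (XT.lf (nat_lit 0) (nat_lit 10300297834) (nat_lit 504) (nat_lit 1595688411) (nat_lit 84) (nat_lit 4745516637) (nat_lit 90) (nat_lit 5) (nat_lit 96) (nat_lit 5) (nat_lit 91) (nat_lit 5) (nat_lit 380) (nat_lit 337) (nat_lit 228)))) (XT.nd (nat_lit 188) (nat_lit 504) (nat_lit 0) (XT.nd (nat_lit 94) (nat_lit 0) (nat_lit 0) (XT.lf (nat_lit 0) (nat_lit 6300309666) (nat_lit 336) (nat_lit 6668901581) (nat_lit 420) (nat_lit 3988766989) (nat_lit 86) (nat_lit 5) (nat_lit 90) (nat_lit 5) (nat_lit 91) (nat_lit 5) (nat_lit 381) (nat_lit 337) (nat_lit 227)) (XT.lf (nat_lit 0) (nat_lit 14449533348) (nat_lit 336) (nat_lit 1271877597) (nat_lit 420) (nat_lit 1562458902) (nat_lit 86) (nat_lit 5) (nat_lit 90) (nat_lit 5) (nat_lit 91) (nat_lit 5) (nat_lit 382) (nat_lit 337) (nat_lit 226))) (XT.nd (nat_lit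 94) (nat_lit 0) (nat_lit 0) (XT.lf (nat_lit 0) (nat_lit 998436733) (nat_lit 504) (nat_lit 12357910582) (nat_lit 84) (nat_lit 4260536015) (nat_lit 80) (nat_lit 5) (nat_lit 86) (nat_lit 5) (nat_lit 81) (nat_lit 5) (nat_lit 383) (nat_lit 337) (nat_lit 225)) (XT.lf (nat_lit 0) (nat_lit 3633773139) (nat_lit 504) (nat_lit 4350547313) (nat_lit 84) (nat_lit 9974249121) (nat_lit 80) (nat_lit 5) (nat_lit 86) (nat_lit 5) (nat_lit 81) (nat_lit 5) (nat_lit 384) (nat_lit 337) (nat_lit 224))))) (XT.nd (nat_lit 282) (nat_lit 420) (nat_lit 0) (XT.nd (nat_lit 94) (nat_lit 336) (nat_lit 0) (XT.lf (nat_lit 0) (nat_lit 3958400860) (nat_lit 336) (nat_lit 2415703144) (nat_lit 420) (nat_lit 11935640859) (nat_lit 76) (nat_lit 5) (nat_lit 80) (nat_lit 5) (nat_lit 81) (nat_lit 5) (nat_lit 385) (nat_lit 337) (nat_lit 223)) (XT.nd (nat_lit 94) (nat_lit 336) (nat_lit 0) (XT.lf (nat_lit 0) (nat_lit 9260974321) (nat_lit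 420) (nat_lit 6112746409) (nat_lit 84) (nat_lit 3295820808) (nat_lit 76) (nat_lit 5) (nat_lit 81) (nat_lit 5) (nat_lit 77) (nat_lit 5) (nat_lit 386) (nat_lit 337) (nat_lit 222)) (XT.lf (nat_lit 0) (nat_lit 2379940419) (nat_lit 336) (nat_lit 9889702660) (nat_lit 420) (nat_lit 6769448808) (nat_lit 72) (nat_lit 5) (nat_lit 76) (nat_lit 5) (nat_lit 77) (nat_lit 5) (nat_lit 387) (nat_lit 337) (nat_lit 221)))) (XT.nd (nat_lit 188) (nat_lit 84) (nat_lit 0) (XT.nd (nat_lit 94) (nat_lit 336) (nat_lit 0) (XT.lf (nat_lit 0) (nat_lit 11237273974) (nat_lit 336) (nat_lit 4181611255) (nat_lit 420) (nat_lit 3999349209) (nat_lit 72) (nat_lit 5) (nat_lit 76) (nat_lit 5) (nat_lit 77) (nat_lit 5) (nat_lit 388) (nat_lit 337) (nat_lit 220)) (XT.lf (nat_lit 0) (nat_lit 530305882) (nat_lit 336) (nat_lit 18142597372) (nat_lit 420) (nat_lit 1135553705) (nat_lit 68) (nat_lit 5) (nat_lit 72) (nat_lit 5) (nat_lit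 73) (nat_lit 5) (nat_lit 389) (nat_lit 337) (nat_lit 219))) (XT.nd (nat_lit 94) (nat_lit 0) (nat_lit 0) (XT.lf (nat_lit 0) (nat_lit 1892524026) (nat_lit 420) (nat_lit 10612337724) (nat_lit 84) (nat_lit 7701601983) (nat_lit 67) (nat_lit 5) (nat_lit 72) (nat_lit 5) (nat_lit 68) (nat_lit 5) (nat_lit 390) (nat_lit 337) (nat_lit 218)) (XT.lf (nat_lit 0) (nat_lit 4977880184) (nat_lit 420) (nat_lit 1712728028) (nat_lit 84) (nat_lit 13925800824) (nat_lit 67) (nat_lit 5) (nat_lit 72) (nat_lit 5) (nat_lit 68) (nat_lit 5) (nat_lit 391) (nat_lit 337) (nat_lit 217))))))) (XT.nd (nat_lit 1316) (nat_lit 1344) (nat_lit 0) (XT.nd (nat_lit 658) (nat_lit 840) (nat_lit 0) (XT.nd (nat_lit 282) (nat_lit 420) (nat_lit 0) (XT.nd (nat_lit 94) (nat_lit 252) (nat_lit 0) (XT.lf (nat_lit 0) (nat_lit 7587428053) (nat_lit 336) (nat_lit 630876400) (nat_lit 420) (nat_lit 12818486042) (nat_lit 63) (nat_lit 5) (nat_lit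 67) (nat_lit 5) (nat_lit 68) (nat_lit 5) (nat_lit 392) (nat_lit 337) (nat_lit 216)) (XT.nd (nat_lit 94) (nat_lit 252) (nat_lit 0) (XT.lf (nat_lit 0) (nat_lit 11617039614) (nat_lit 420) (nat_lit 4336309614) (nat_lit 84) (nat_lit 5514613865) (nat_lit 63) (nat_lit 5) (nat_lit 68) (nat_lit 5) (nat_lit 64) (nat_lit 5) (nat_lit 393) (nat_lit 337) (nat_lit 215)) (XT.lf (nat_lit 0) (nat_lit 5129776367) (nat_lit 252) (nat_lit 10033516100) (nat_lit 336) (nat_lit 6747424001) (nat_lit 60) (nat_lit 5) (nat_lit 63) (nat_lit 5) (nat_lit 64) (nat_lit 5) (nat_lit 394) (nat_lit 337) (nat_lit 214)))) (XT.nd (nat_lit 188) (nat_lit 84) (nat_lit 0) (XT.nd (nat_lit 94) (nat_lit 336) (nat_lit 0) (XT.lf (nat_lit 0) (nat_lit 14954661818) (nat_lit 252) (nat_lit 3895214120) (nat_lit 336) (nat_lit 3515870130) (nat_lit 60) (nat_lit 5) (nat_lit 63) (nat_lit 5) (nat_lit 64) (nat_lit 5) (nat_lit 395) (nat_lit 337) (nat_lit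 213)) (XT.lf (nat_lit 0) (nat_lit 2246449339) (nat_lit 336) (nat_lit 20435936008) (nat_lit 420) (nat_lit 150992924) (nat_lit 56) (nat_lit 5) (nat_lit 60) (nat_lit 5) (nat_lit 61) (nat_lit 5) (nat_lit 396) (nat_lit 337) (nat_lit 212))) (XT.nd (nat_lit 94) (nat_lit 0) (nat_lit 0) (XT.lf (nat_lit 0) (nat_lit 3354735726) (nat_lit 420) (nat_lit 11052323789) (nat_lit 84) (nat_lit 8903897218) (nat_lit 55) (nat_lit 5) (nat_lit 60) (nat_lit 5) (nat_lit 56) (nat_lit 5) (nat_lit 397) (nat_lit 337) (nat_lit 211)) (XT.lf (nat_lit 0) (nat_lit 6953324294) (nat_lit 420) (nat_lit 1246754841) (nat_lit 84) (nat_lit 15603027464) (nat_lit 55) (nat_lit 5) (nat_lit 60) (nat_lit 5) (nat_lit 56) (nat_lit 5) (nat_lit 398) (nat_lit 337) (nat_lit 210))))) (XT.nd (nat_lit 282) (nat_lit 336) (nat_lit 0) (XT.nd (nat_lit 94) (nat_lit 252) (nat_lit 0) (XT.lf (nat_lit 0) (nat_lit 9015726620) (nat_lit 252) (nat_lit 1721801653)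 (nat_lit 336) (nat_lit 13570173233) (nat_lit 52) (nat_lit 5) (nat_lit 55) (nat_lit 5) (nat_lit 56) (nat_lit 5) (nat_lit 399) (nat_lit 337) (nat_lit 209)) (XT.nd (nat_lit 94) (nat_lit 252) (nat_lit 0) (XT.lf (nat_lit 0) (nat_lit 14686652851) (nat_lit 336) (nat_lit 5276422247) (nat_lit 84) (nat_lit 4862827305) (nat_lit 52) (nat_lit 5) (nat_lit 56) (nat_lit 5) (nat_lit 53) (nat_lit 5) (nat_lit 400) (nat_lit 337) (nat_lit 208)) (XT.lf (nat_lit 0) (nat_lit 5109347854) (nat_lit 252) (nat_lit 13702414251) (nat_lit 336) (nat_lit 6546171579) (nat_lit 49) (nat_lit 5) (nat_lit 52) (nat_lit 5) (nat_lit 53) (nat_lit 5) (nat_lit 401) (nat_lit 337) (nat_lit 207)))) (XT.nd (nat_lit 188) (nat_lit 0) (nat_lit 0) (XT.nd (nat_lit 94) (nat_lit 336) (nat_lit 0) (XT.lf (nat_lit 0) (nat_lit 15902075690) (nat_lit 252) (nat_lit 7203308835) (nat_lit 336) (nat_lit 2799207988) (nat_lit 49) (nat_lit 5) (nat_lit 52)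 (nat_lit 5) (nat_lit 53) (nat_lit 5) (nat_lit 402) (nat_lit 337) (nat_lit 206)) (XT.lf (nat_lit 0) (nat_lit 538674747) (nat_lit 252) (nat_lit 497615908) (nat_lit 336) (nat_lit 25431159176) (nat_lit 45) (nat_lit 5) (nat_lit 48) (nat_lit 5) (nat_lit 49) (nat_lit 5) (nat_lit 403) (nat_lit 337) (nat_lit 205))) (XT.nd (nat_lit 94) (nat_lit 0) (nat_lit 0) (XT.lf (nat_lit 0) (nat_lit 5085927476) (nat_lit 336) (nat_lit 15546015436) (nat_lit 84) (nat_lit 6409767077) (nat_lit 45) (nat_lit 5) (nat_lit 49) (nat_lit 5) (nat_lit 46) (nat_lit 5) (nat_lit 404) (nat_lit 337) (nat_lit 204)) (XT.lf (nat_lit 0) (nat_lit 9253940537) (nat_lit 336) (nat_lit 4869002798) (nat_lit 84) (nat_lit 13510356360) (nat_lit 45) (nat_lit 5) (nat_lit 49) (nat_lit 5) (nat_lit 46) (nat_lit 5) (nat_lit 405) (nat_lit 337) (nat_lit 203)))))) (XT.nd (nat_lit 658) (nat_lit 588) (nat_lit 0) (XT.nd (nat_lit 282) (nat_lit 336) (nat_lit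 0) (XT.nd (nat_lit 94) (nat_lit 168) (nat_lit 0) (XT.lf (nat_lit 0) (nat_lit 6238103513) (nat_lit 252) (nat_lit 7361049355) (nat_lit 336) (nat_lit 14641927569) (nat_lit 42) (nat_lit 5) (nat_lit 45) (nat_lit 5) (nat_lit 46) (nat_lit 5) (nat_lit 406) (nat_lit 337) (nat_lit 202)) (XT.nd (nat_lit 94) (nat_lit 168) (nat_lit 0) (XT.lf (nat_lit 0) (nat_lit 17766405330) (nat_lit 252) (nat_lit 349791689) (nat_lit 336) (nat_lit 10749661198) (nat_lit 42) (nat_lit 5) (nat_lit 45) (nat_lit 5) (nat_lit 46) (nat_lit 5) (nat_lit 407) (nat_lit 337) (nat_lit 201)) (XT.lf (nat_lit 0) (nat_lit 54508479) (nat_lit 168) (nat_lit 22773317472) (nat_lit 252) (nat_lit 6679788820) (nat_lit 40) (nat_lit 5) (nat_lit 42) (nat_lit 5) (nat_lit 43) (nat_lit 5) (nat_lit 408) (nat_lit 337) (nat_lit 200)))) (XT.nd (nat_lit 188) (nat_lit 252) (nat_lit 0) (XT.nd (nat_lit 94) (nat_lit 84) (nat_lit 0) (XT.lf (nat_lit 0) (nat_lit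 11755522782) (nat_lit 168) (nat_lit 16033394016) (nat_lit 252) (nat_lit 2376471257) (nat_lit 40) (nat_lit 5) (nat_lit 42) (nat_lit 5) (nat_lit 43) (nat_lit 5) (nat_lit 409) (nat_lit 337) (nat_lit 199)) (XT.lf (nat_lit 0) (nat_lit 2008565244) (nat_lit 252) (nat_lit 7066466404) (nat_lit 84) (nat_lit 21767494848) (nat_lit 39) (nat_lit 5) (nat_lit 42) (nat_lit 5) (nat_lit 40) (nat_lit 5) (nat_lit 410) (nat_lit 337) (nat_lit 198))) (XT.nd (nat_lit 94) (nat_lit 0) (nat_lit 0) (XT.lf (nat_lit 0) (nat_lit 4673863911) (nat_lit 252) (nat_lit 1841402075) (nat_lit 336) (nat_lit 25022877679) (nat_lit 36) (nat_lit 5) (nat_lit 39) (nat_lit 5) (nat_lit 40) (nat_lit 5) (nat_lit 411) (nat_lit 337) (nat_lit 197)) (XT.lf (nat_lit 0) (nat_lit 11276162844) (nat_lit 336) (nat_lit 15406968285) (nat_lit 84) (nat_lit 5567934965) (nat_lit 36) (nat_lit 5) (nat_lit 40) (nat_lit 5) (nat_lit 37) (nat_lit 5) (nat_lit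 412) (nat_lit 337) (nat_lit 196))))) (XT.nd (nat_lit 282) (nat_lit 420) (nat_lit 0) (XT.nd (nat_lit 94) (nat_lit 168) (nat_lit 0) (XT.lf (nat_lit 0) (nat_lit 16191333569) (nat_lit 336) (nat_lit 3634958988) (nat_lit 84) (nat_lit 13158746633) (nat_lit 36) (nat_lit 5) (nat_lit 40) (nat_lit 5) (nat_lit 37) (nat_lit 5) (nat_lit 413) (nat_lit 337) (nat_lit 195)) (XT.nd (nat_lit 94) (nat_lit 0) (nat_lit 0) (XT.lf (nat_lit 0) (nat_lit 8648498394) (nat_lit 168) (nat_lit 12682008551) (nat_lit 252) (nat_lit 12408234325) (nat_lit 34) (nat_lit 5) (nat_lit 36) (nat_lit 5) (nat_lit 37) (nat_lit 5) (nat_lit 414) (nat_lit 337) (nat_lit 194)) (XT.lf (nat_lit 0) (nat_lit 21364599750) (nat_lit 168) (nat_lit 5289466754) (nat_lit 252) (nat_lit 7860087618) (nat_lit 34) (nat_lit 5) (nat_lit 36) (nat_lit 5) (nat_lit 37) (nat_lit 5) (nat_lit 415) (nat_lit 337) (nat_lit 193)))) (XT.nd (nat_lit 188) (nat_lit 168)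 (nat_lit 0) (XT.nd (nat_lit 94) (nat_lit 252) (nat_lit 0) (XT.lf (nat_lit 0) (nat_lit 32153338745) (nat_lit 252) (nat_lit 883222673) (nat_lit 84) (nat_lit 2275793623) (nat_lit 34) (nat_lit 5) (nat_lit 37) (nat_lit 5) (nat_lit 35) (nat_lit 5) (nat_lit 416) (nat_lit 337) (nat_lit 192)) (XT.lf (nat_lit 0) (nat_lit 1812640390) (nat_lit 252) (nat_lit 24226028005) (nat_lit 84) (nat_lit 10090481862) (nat_lit 31) (nat_lit 5) (nat_lit 34) (nat_lit 5) (nat_lit 32) (nat_lit 5) (nat_lit 417) (nat_lit 337) (nat_lit 191))) (XT.nd (nat_lit 94) (nat_lit 168) (nat_lit 0) (XT.lf (nat_lit 0) (nat_lit 6872822789) (nat_lit 252) (nat_lit 11920346506) (nat_lit 84) (nat_lit 18176261003) (nat_lit 31) (nat_lit 5) (nat_lit 34) (nat_lit 5) (nat_lit 32) (nat_lit 5) (nat_lit 418) (nat_lit 337) (nat_lit 190)) (XT.lf (nat_lit 0) (nat_lit 759657467) (nat_lit 168) (nat_lit 11326496249) (nat_lit 252) (nat_lit 25748729939)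 (nat_lit 29) (nat_lit 5) (nat_lit 31) (nat_lit 5) (nat_lit 32) (nat_lit 5) (nat_lit 419) (nat_lit 337) (nat_lit 189))))))))
noncomputable def xc136 : XT := (XT.nd (nat_lit 51606) (nat_lit 0) (nat_lit 9912) (XT.nd (nat_lit 1222) (nat_lit 588) (nat_lit 0) (XT.nd (nat_lit 564) (nat_lit 420) (nat_lit 0) (XT.nd (nat_lit 282) (nat_lit 84) (nat_lit 0) (XT.nd (nat_lit 94) (nat_lit 168) (nat_lit 0) (XT.lf (nat_lit 0) (nat_lit 14054840173) (nat_lit 168) (nat_lit 3515538801) (nat_lit 252) (nat_lit 21152491862) (nat_lit 29) (nat_lit 5) (nat_lit 31) (nat_lit 5) (nat_lit 32) (nat_lit 5) (nat_lit 420) (nat_lit 337) (nat_lit 188)) (XT.nd (nat_lit 94) (nat_lit 168) (nat_lit 0) (XT.lf (nat_lit 0) (nat_lit 23256932645) (nat_lit 252) (nat_lit 11941601427) (nat_lit 84) (nat_lit 4437834422) (nat_lit 29) (nat_lit 5) (nat_lit 32) (nat_lit 5) (nat_lit 30) (nat_lit 5) (nat_lit 421) (nat_lit 337) (nat_lit 187))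 (XT.lf (nat_lit 0) (nat_lit 1144991772) (nat_lit 168) (nat_lit 28009330993) (nat_lit 252) (nat_lit 11421745883) (nat_lit 27) (nat_lit 5) (nat_lit 29) (nat_lit 5) (nat_lit 30) (nat_lit 5) (nat_lit 422) (nat_lit 337) (nat_lit 186)))) (XT.nd (nat_lit 94) (nat_lit 84) (nat_lit 0) (XT.lf (nat_lit 0) (nat_lit 14859899223) (nat_lit 168) (nat_lit 20483823405) (nat_lit 252) (nat_lit 6196789166) (nat_lit 27) (nat_lit 5) (nat_lit 29) (nat_lit 5) (nat_lit 30) (nat_lit 5) (nat_lit 423) (nat_lit 337) (nat_lit 185)) (XT.nd (nat_lit 94) (nat_lit 84) (nat_lit 0) (XT.lf (nat_lit 0) (nat_lit 28977443543) (nat_lit 168) (nat_lit 12736022380) (nat_lit 252) (nat_lit 820586959) (nat_lit 27) (nat_lit 5) (nat_lit 29) (nat_lit 5) (nat_lit 30) (nat_lit 5) (nat_lit 424) (nat_lit 337) (nat_lit 184)) (XT.lf (nat_lit 0) (nat_lit 4619618912) (nat_lit 252) (nat_lit 92889990) (nat_lit 84) (nat_lit 38843692443) (nat_lit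 26) (nat_lit 5) (nat_lit 29) (nat_lit 5) (nat_lit 27) (nat_lit 5) (nat_lit 425) (nat_lit 337) (nat_lit 183))))) (XT.nd (nat_lit 282) (nat_lit 252) (nat_lit 0) (XT.nd (nat_lit 94) (nat_lit 0) (nat_lit 0) (XT.lf (nat_lit 0) (nat_lit 10371861458) (nat_lit 252) (nat_lit 30608384212) (nat_lit 84) (nat_lit 3623569259) (nat_lit 24) (nat_lit 5) (nat_lit 27) (nat_lit 5) (nat_lit 25) (nat_lit 5) (nat_lit 426) (nat_lit 337) (nat_lit 182)) (XT.nd (nat_lit 94) (nat_lit 0) (nat_lit 0) (XT.lf (nat_lit 0) (nat_lit 16339227271) (nat_lit 252) (nat_lit 17229641577) (nat_lit 84) (nat_lit 12112715384) (nat_lit 24) (nat_lit 5) (nat_lit 27) (nat_lit 5) (nat_lit 25) (nat_lit 5) (nat_lit 427) (nat_lit 337) (nat_lit 181)) (XT.lf (nat_lit 0) (nat_lit 22480711334) (nat_lit 252) (nat_lit 3457740747) (nat_lit 84) (nat_lit 20853385489) (nat_lit 24) (nat_lit 5) (nat_lit 27) (nat_lit 5) (nat_lit 25) (nat_lit 5) (nat_lit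 428) (nat_lit 337) (nat_lit 180)))) (XT.nd (nat_lit 188) (nat_lit 84) (nat_lit 0) (XT.nd (nat_lit 94) (nat_lit 0) (nat_lit 0) (XT.lf (nat_lit 0) (nat_lit 10932688101) (nat_lit 168) (nat_lit 17974083577) (nat_lit 252) (nat_lit 19025620639) (nat_lit 22) (nat_lit 5) (nat_lit 24) (nat_lit 5) (nat_lit 25) (nat_lit 5) (nat_lit 429) (nat_lit 337) (nat_lit 179)) (XT.lf (nat_lit 0) (nat_lit 25817823071) (nat_lit 168) (nat_lit 9738010060) (nat_lit 252) (nat_lit 13550427649) (nat_lit 22) (nat_lit 5) (nat_lit 24) (nat_lit 5) (nat_lit 25) (nat_lit 5) (nat_lit 430) (nat_lit 337) (nat_lit 178))) (XT.nd (nat_lit 94) (nat_lit 84) (nat_lit 0) (XT.lf (nat_lit 0) (nat_lit 41141854770) (nat_lit 168) (nat_lit 1257951363) (nat_lit 252) (nat_lit 7915679519) (nat_lit 22) (nat_lit 5) (nat_lit 24) (nat_lit 5) (nat_lit 25) (nat_lit 5) (nat_lit 431) (nat_lit 337) (nat_lit 177)) (XT.lf (nat_lit 0) (nat_lit 5390395751)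 (nat_lit 84) (nat_lit 44177930762) (nat_lit 168) (nat_lit 1989087354) (nat_lit 21) (nat_lit 5) (nat_lit 22) (nat_lit 5) (nat_lit 23) (nat_lit 4) (nat_lit 432) (nat_lit 337) (nat_lit 176)))))) (XT.nd (nat_lit 658) (nat_lit 336) (nat_lit 0) (XT.nd (nat_lit 282) (nat_lit 168) (nat_lit 0) (XT.nd (nat_lit 94) (nat_lit 0) (nat_lit 0) (XT.lf (nat_lit 0) (nat_lit 4136560846) (nat_lit 168) (nat_lit 32314917619) (nat_lit 84) (nat_lit 16380891064) (nat_lit 20) (nat_lit 5) (nat_lit 22) (nat_lit 5) (nat_lit 21) (nat_lit 5) (nat_lit 433) (nat_lit 337) (nat_lit 175)) (XT.nd (nat_lit 94) (nat_lit 0) (nat_lit 0) (XT.lf (nat_lit 0) (nat_lit 10401684092) (nat_lit 168) (nat_lit 18074287293) (nat_lit 84) (nat_lit 25669144280) (nat_lit 20) (nat_lit 5) (nat_lit 22) (nat_lit 5) (nat_lit 21) (nat_lit 5) (nat_lit 434) (nat_lit 337) (nat_lit 174)) (XT.lf (nat_lit 0) (nat_lit 16850571021) (nat_lit 168) (nat_lit 3413563545)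 (nat_lit 84) (nat_lit 35233238378) (nat_lit 20) (nat_lit 5) (nat_lit 22) (nat_lit 5) (nat_lit 21) (nat_lit 5) (nat_lit 435) (nat_lit 337) (nat_lit 173)))) (XT.nd (nat_lit 188) (nat_lit 0) (nat_lit 0) (XT.nd (nat_lit 94) (nat_lit 0) (nat_lit 0) (XT.lf (nat_lit 0) (nat_lit 11912520141) (nat_lit 168) (nat_lit 11690846874) (nat_lit 252) (nat_lit 33283520623) (nat_lit 18) (nat_lit 5) (nat_lit 20) (nat_lit 5) (nat_lit 21) (nat_lit 5) (nat_lit 436) (nat_lit 337) (nat_lit 172)) (XT.lf (nat_lit 0) (nat_lit 27761510917) (nat_lit 168) (nat_lit 2827690931) (nat_lit 252) (nat_lit 27727975157) (nat_lit 18) (nat_lit 5) (nat_lit 20) (nat_lit 5) (nat_lit 21) (nat_lit 5) (nat_lit 437) (nat_lit 337) (nat_lit 171))) (XT.nd (nat_lit 94) (nat_lit 0) (nat_lit 0) (XT.lf (nat_lit 0) (nat_lit 37841259410) (nat_lit 252) (nat_lit 15771720065) (nat_lit 84) (nat_lit 6175698949) (nat_lit 18) (nat_lit 5) (nat_lit 21)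 (nat_lit 5) (nat_lit 19) (nat_lit 4) (nat_lit 438) (nat_lit 337) (nat_lit 170)) (XT.lf (nat_lit 0) (nat_lit 45335065112) (nat_lit 252) (nat_lit 578800078) (nat_lit 84) (nat_lit 15389736820) (nat_lit 18) (nat_lit 5) (nat_lit 21) (nat_lit 5) (nat_lit 19) (nat_lit 4) (nat_lit 439) (nat_lit 337) (nat_lit 169))))) (XT.nd (nat_lit 282) (nat_lit 168) (nat_lit 0) (XT.nd (nat_lit 94) (nat_lit 84) (nat_lit 0) (XT.lf (nat_lit 0) (nat_lit 15363344928) (nat_lit 84) (nat_lit 37834322386) (nat_lit 168) (nat_lit 9661989158) (nat_lit 17) (nat_lit 5) (nat_lit 18) (nat_lit 5) (nat_lit 19) (nat_lit 4) (nat_lit 440) (nat_lit 337) (nat_lit 168)) (XT.nd (nat_lit 94) (nat_lit 84) (nat_lit 0) (XT.lf (nat_lit 0) (nat_lit 31789324665) (nat_lit 84) (nat_lit 29509015370) (nat_lit 168) (nat_lit 3163989320) (nat_lit 17) (nat_lit 5) (nat_lit 18) (nat_lit 5) (nat_lit 19) (nat_lit 4) (nat_lit 441) (nat_lit 337) (nat_lit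 167)) (XT.lf (nat_lit 0) (nat_lit 3456504515) (nat_lit 168) (nat_lit 17445105915) (nat_lit 84) (nat_lit 45210564242) (nat_lit 16) (nat_lit 5) (nat_lit 18) (nat_lit 5) (nat_lit 17) (nat_lit 5) (nat_lit 442) (nat_lit 337) (nat_lit 166)))) (XT.nd (nat_lit 188) (nat_lit 0) (nat_lit 0) (XT.nd (nat_lit 94) (nat_lit 168) (nat_lit 0) (XT.lf (nat_lit 0) (nat_lit 10208541025) (nat_lit 168) (nat_lit 1797701513) (nat_lit 84) (nat_lit 55804439727) (nat_lit 16) (nat_lit 5) (nat_lit 18) (nat_lit 5) (nat_lit 17) (nat_lit 5) (nat_lit 443) (nat_lit 337) (nat_lit 165)) (XT.lf (nat_lit 0) (nat_lit 14598157842) (nat_lit 168) (nat_lit 2701929454) (nat_lit 252) (nat_lit 52255951606) (nat_lit 14) (nat_lit 5) (nat_lit 16) (nat_lit 5) (nat_lit 17) (nat_lit 5) (nat_lit 444) (nat_lit 337) (nat_lit 164))) (XT.nd (nat_lit 94) (nat_lit 0) (nat_lit 0) (XT.lf (nat_lit 0) (nat_lit 24685503966) (nat_lit 252) (nat_lit 39902648074)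 (nat_lit 84) (nat_lit 6763172687) (nat_lit 14) (nat_lit 5) (nat_lit 17) (nat_lit 5) (nat_lit 15) (nat_lit 4) (nat_lit 445) (nat_lit 337) (nat_lit 163)) (XT.lf (nat_lit 0) (nat_lit 32315974428) (nat_lit 252) (nat_lit 24428190928) (nat_lit 84) (nat_lit 16455601178) (nat_lit 14) (nat_lit 5) (nat_lit 17) (nat_lit 5) (nat_lit 15) (nat_lit 4) (nat_lit 446) (nat_lit 337) (nat_lit 162))))))) (XT.nd (nat_lit 1316) (nat_lit 5040) (nat_lit 0) (XT.nd (nat_lit 658) (nat_lit 0) (nat_lit 84) (XT.nd (nat_lit 282) (nat_lit 1008) (nat_lit 0) (XT.nd (nat_lit 94) (nat_lit 0) (nat_lit 0) (XT.lf (nat_lit 0) (nat_lit 2505056702) (nat_lit 1092) (nat_lit 936061209) (nat_lit 1092) (nat_lit 936061209) (nat_lit 204) (nat_lit 3) (nat_lit 217) (nat_lit 3) (nat_lit 217) (nat_lit 5) (nat_lit 338) (nat_lit 338) (nat_lit 269)) (XT.nd (nat_lit 94) (nat_lit 0) (nat_lit 0) (XT.lf (nat_lit 84) (nat_lit 1990115804) (nat_lit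 0) (nat_lit 3997953904) (nat_lit 1092) (nat_lit 2868667324) (nat_lit 205) (nat_lit 5) (nat_lit 204) (nat_lit 3) (nat_lit 217) (nat_lit 5) (nat_lit 339) (nat_lit 338) (nat_lit 268)) (XT.lf (nat_lit 84) (nat_lit 5988446521) (nat_lit 0) (nat_lit 991161121) (nat_lit 1092) (nat_lit 1983124551) (nat_lit 205) (nat_lit 5) (nat_lit 204) (nat_lit 3) (nat_lit 217) (nat_lit 5) (nat_lit 340) (nat_lit 338) (nat_lit 267)))) (XT.nd (nat_lit 188) (nat_lit 1092) (nat_lit 0) (XT.nd (nat_lit 94) (nat_lit 0) (nat_lit 0) (XT.lf (nat_lit 84) (nat_lit 1015537678) (nat_lit 0) (nat_lit 6981860418) (nat_lit 1092) (nat_lit 1074684113) (nat_lit 206) (nat_lit 5) (nat_lit 205) (nat_lit 5) (nat_lit 218) (nat_lit 5) (nat_lit 341) (nat_lit 338) (nat_lit 266)) (XT.lf (nat_lit 84) (nat_lit 5157345263) (nat_lit 0) (nat_lit 3895426742) (nat_lit 1092) (nat_lit 131797372) (nat_lit 206) (nat_lit 5) (nat_lit 205) (nat_lit 5) (nat_lit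 218) (nat_lit 5) (nat_lit 342) (nat_lit 338) (nat_lit 265))) (XT.nd (nat_lit 94) (nat_lit 0) (nat_lit 84) (XT.lf (nat_lit 84) (nat_lit 97987967) (nat_lit 0) (nat_lit 693821960) (nat_lit 1176) (nat_lit 8509379014) (nat_lit 193) (nat_lit 5) (nat_lit 192) (nat_lit 5) (nat_lit 206) (nat_lit 5) (nat_lit 343) (nat_lit 338) (nat_lit 264)) (XT.lf (nat_lit 0) (nat_lit 1775325934) (nat_lit 1092) (nat_lit 5037086383) (nat_lit 1176) (nat_lit 2607872506) (nat_lit 193) (nat_lit 5) (nat_lit 206) (nat_lit 5) (nat_lit 207) (nat_lit 5) (nat_lit 344) (nat_lit 338) (nat_lit 263))))) (XT.nd (nat_lit 282) (nat_lit 0) (nat_lit 84) (XT.nd (nat_lit 94) (nat_lit 0) (nat_lit 0) (XT.lf (nat_lit 0) (nat_lit 2764877288) (nat_lit 1092) (nat_lit 772054653) (nat_lit 1176) (nat_lit 6006786291) (nat_lit 193) (nat_lit 5) (nat_lit 206) (nat_lit 5) (nat_lit 207) (nat_lit 5) (nat_lit 345) (nat_lit 338) (nat_lit 262)) (XT.nd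 (nat_lit 94) (nat_lit 0) (nat_lit 84) (XT.lf (nat_lit 84) (nat_lit 3673983026) (nat_lit 0) (nat_lit 115992751) (nat_lit 1176) (nat_lit 5880761830) (nat_lit 194) (nat_lit 5) (nat_lit 193) (nat_lit 5) (nat_lit 207) (nat_lit 5) (nat_lit 346) (nat_lit 338) (nat_lit 261)) (XT.lf (nat_lit 0) (nat_lit 4857780114) (nat_lit 1092) (nat_lit 1584412825) (nat_lit 1176) (nat_lit 3359073110) (nat_lit 194) (nat_lit 5) (nat_lit 207) (nat_lit 5) (nat_lit 208) (nat_lit 5) (nat_lit 347) (nat_lit 338) (nat_lit 260)))) (XT.nd (nat_lit 188) (nat_lit 0) (nat_lit 84) (XT.nd (nat_lit 94) (nat_lit 0) (nat_lit 84) (XT.lf (nat_lit 84) (nat_lit 2998760105) (nat_lit 0) (nat_lit 2960991835) (nat_lit 1176) (nat_lit 3975949811) (nat_lit 195) (nat_lit 5) (nat_lit 194) (nat_lit 5) (nat_lit 208) (nat_lit 5) (nat_lit 348) (nat_lit 338) (nat_lit 259)) (XT.lf (nat_lit 0) (nat_lit 7089816800) (nat_lit 1092) (nat_lit 2347619863)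 (nat_lit 1176) (nat_lit 636936640) (nat_lit 195) (nat_lit 5) (nat_lit 208) (nat_lit 5) (nat_lit 209) (nat_lit 5) (nat_lit 349) (nat_lit 338) (nat_lit 258))) (XT.nd (nat_lit 94) (nat_lit 0) (nat_lit 0) (XT.lf (nat_lit 84) (nat_lit 2377355027) (nat_lit 0) (nat_lit 5902259601) (nat_lit 1176) (nat_lit 1936867672) (nat_lit 196) (nat_lit 5) (nat_lit 195) (nat_lit 5) (nat_lit 209) (nat_lit 5) (nat_lit 350) (nat_lit 338) (nat_lit 257)) (XT.lf (nat_lit 84) (nat_lit 7273289775) (nat_lit 0) (nat_lit 2229769983) (nat_lit 1176) (nat_lit 859906913) (nat_lit 196) (nat_lit 5) (nat_lit 195) (nat_lit 5) (nat_lit 209) (nat_lit 5) (nat_lit 351) (nat_lit 338) (nat_lit 256)))))) (XT.nd (nat_lit 658) (nat_lit 1848) (nat_lit 0) (XT.nd (nat_lit 282) (nat_lit 2352) (nat_lit 0) (XT.nd (nat_lit 94) (nat_lit 0) (nat_lit 0) (XT.lf (nat_lit 0) (nat_lit 251843590) (nat_lit 1176) (nat_lit 8712851393) (nat_lit 1260) (nat_lit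 1548906070) (nat_lit 182) (nat_lit 5) (nat_lit 196) (nat_lit 5) (nat_lit 197) (nat_lit 5) (nat_lit 352) (nat_lit 338) (nat_lit 255)) (XT.nd (nat_lit 94) (nat_lit 0) (nat_lit 0) (XT.lf (nat_lit 0) (nat_lit 1408564757) (nat_lit 1176) (nat_lit 3817068633) (nat_lit 1260) (nat_lit 5442045019) (nat_lit 182) (nat_lit 5) (nat_lit 196) (nat_lit 5) (nat_lit 197) (nat_lit 5) (nat_lit 353) (nat_lit 338) (nat_lit 254)) (XT.lf (nat_lit 84) (nat_lit 1230596364) (nat_lit 0) (nat_lit 1357255304) (nat_lit 1260) (nat_lit 8238935546) (nat_lit 183) (nat_lit 5) (nat_lit 182) (nat_lit 5) (nat_lit 197) (nat_lit 5) (nat_lit 354) (nat_lit 338) (nat_lit 253)))) (XT.nd (nat_lit 188) (nat_lit 1260) (nat_lit 0) (XT.nd (nat_lit 94) (nat_lit 1176) (nat_lit 0) (XT.lf (nat_lit 0) (nat_lit 3843294222) (nat_lit 1176) (nat_lit 4526821076) (nat_lit 84) (nat_lit 2619374416) (nat_lit 183) (nat_lit 5) (nat_lit 197) (nat_lit 5)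 (nat_lit 184) (nat_lit 5) (nat_lit 355) (nat_lit 338) (nat_lit 252)) (XT.lf (nat_lit 0) (nat_lit 675330946) (nat_lit 1176) (nat_lit 4458277114) (nat_lit 1260) (nat_lit 6023591453) (nat_lit 169) (nat_lit 5) (nat_lit 183) (nat_lit 5) (nat_lit 184) (nat_lit 5) (nat_lit 356) (nat_lit 338) (nat_lit 251))) (XT.nd (nat_lit 94) (nat_lit 1260) (nat_lit 0) (XT.lf (nat_lit 0) (nat_lit 6107490767) (nat_lit 1176) (nat_lit 378611292) (nat_lit 1260) (nat_lit 4843175656) (nat_lit 169) (nat_lit 5) (nat_lit 183) (nat_lit 5) (nat_lit 184) (nat_lit 5) (nat_lit 357) (nat_lit 338) (nat_lit 250)) (XT.lf (nat_lit 0) (nat_lit 143113973) (nat_lit 1260) (nat_lit 7752624051) (nat_lit 1344) (nat_lit 3610323251) (nat_lit 154) (nat_lit 5) (nat_lit 169) (nat_lit 5) (nat_lit 170) (nat_lit 5) (nat_lit 358) (nat_lit 338) (nat_lit 249))))) (XT.nd (nat_lit 282) (nat_lit 1176) (nat_lit 0) (XT.nd (nat_lit 94) (nat_lit 672)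 (nat_lit 0) (XT.lf (nat_lit 0) (nat_lit 5753344171) (nat_lit 1260) (nat_lit 3629645693) (nat_lit 1344) (nat_lit 2304137537) (nat_lit 154) (nat_lit 5) (nat_lit 169) (nat_lit 5) (nat_lit 170) (nat_lit 5) (nat_lit 359) (nat_lit 338) (nat_lit 248)) (XT.nd (nat_lit 94) (nat_lit 672) (nat_lit 0) (XT.lf (nat_lit 0) (nat_lit 10900311830) (nat_lit 1344) (nat_lit 366636834) (nat_lit 84) (nat_lit 607151001) (nat_lit 154) (nat_lit 5) (nat_lit 170) (nat_lit 5) (nat_lit 155) (nat_lit 5) (nat_lit 360) (nat_lit 338) (nat_lit 247)) (XT.lf (nat_lit 0) (nat_lit 457519442) (nat_lit 672) (nat_lit 6650238476) (nat_lit 84) (nat_lit 4956780898) (nat_lit 146) (nat_lit 5) (nat_lit 154) (nat_lit 5) (nat_lit 147) (nat_lit 5) (nat_lit 361) (nat_lit 338) (nat_lit 246)))) (XT.nd (nat_lit 188) (nat_lit 588) (nat_lit 0) (XT.nd (nat_lit 94) (nat_lit 588) (nat_lit 0) (XT.lf (nat_lit 0) (nat_lit 1896226720) (nat_lit 672)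 (nat_lit 912732232) (nat_lit 84) (nat_lit 9451956486) (nat_lit 146) (nat_lit 5) (nat_lit 154) (nat_lit 5) (nat_lit 147) (nat_lit 5) (nat_lit 362) (nat_lit 338) (nat_lit 245)) (XT.lf (nat_lit 0) (nat_lit 3423828824) (nat_lit 672) (nat_lit 7400505700) (nat_lit 84) (nat_lit 1637510351) (nat_lit 139) (nat_lit 5) (nat_lit 147) (nat_lit 5) (nat_lit 140) (nat_lit 5) (nat_lit 363) (nat_lit 338) (nat_lit 244))) (XT.nd (nat_lit 94) (nat_lit 588) (nat_lit 0) (XT.lf (nat_lit 0) (nat_lit 5015639132) (nat_lit 672) (nat_lit 1481622792) (nat_lit 84) (nat_lit 6171021412) (nat_lit 139) (nat_lit 5) (nat_lit 147) (nat_lit 5) (nat_lit 140) (nat_lit 5) (nat_lit 364) (nat_lit 338) (nat_lit 243)) (XT.lf (nat_lit 0) (nat_lit 4688315223) (nat_lit 588) (nat_lit 1993761892) (nat_lit 672) (nat_lit 6198063235) (nat_lit 132) (nat_lit 5) (nat_lit 139) (nat_lit 5) (nat_lit 140) (nat_lit 5) (nat_lit 365) (nat_lit 338)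 (nat_lit 242))))))))
noncomputable def xc137 : XT := (XT.nd (nat_lit 2538) (nat_lit 3192) (nat_lit 0) (XT.nd (nat_lit 1222) (nat_lit 2352) (nat_lit 0) (XT.nd (nat_lit 564) (nat_lit 1428) (nat_lit 0) (XT.nd (nat_lit 282) (nat_lit 1092) (nat_lit 0) (XT.nd (nat_lit 94) (nat_lit 588) (nat_lit 0) (XT.lf (nat_lit 0) (nat_lit 8421206861) (nat_lit 672) (nat_lit 2068139733) (nat_lit 84) (nat_lit 2608356199) (nat_lit 132) (nat_lit 5) (nat_lit 140) (nat_lit 5) (nat_lit 133) (nat_lit 5) (nat_lit 366) (nat_lit 338) (nat_lit 241)) (XT.nd (nat_lit 94) (nat_lit 0) (nat_lit 0) (XT.lf (nat_lit 0) (nat_lit 4285286196) (nat_lit 588) (nat_lit 5970841928) (nat_lit 672) (nat_lit 3064385243) (nat_lit 125) (nat_lit 5) (nat_lit 132) (nat_lit 5) (nat_lit 133) (nat_lit 5) (nat_lit 367) (nat_lit 338) (nat_lit 240)) (XT.lf (nat_lit 0) (nat_lit 10854033572) (nat_lit 588) (nat_lit 1295966641) (nat_lit 672) (nat_lit 1399919865)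 (nat_lit 125) (nat_lit 5) (nat_lit 132) (nat_lit 5) (nat_lit 133) (nat_lit 5) (nat_lit 368) (nat_lit 338) (nat_lit 239)))) (XT.nd (nat_lit 94) (nat_lit 504) (nat_lit 0) (XT.lf (nat_lit 0) (nat_lit 363269180) (nat_lit 588) (nat_lit 9930765700) (nat_lit 84) (nat_lit 3490462889) (nat_lit 118) (nat_lit 5) (nat_lit 125) (nat_lit 5) (nat_lit 119) (nat_lit 5) (nat_lit 369) (nat_lit 338) (nat_lit 238)) (XT.nd (nat_lit 94) (nat_lit 504) (nat_lit 0) (XT.lf (nat_lit 0) (nat_lit 2175173270) (nat_lit 588) (nat_lit 3415011753) (nat_lit 84) (nat_lit 8434819723) (nat_lit 118) (nat_lit 5) (nat_lit 125) (nat_lit 5) (nat_lit 119) (nat_lit 5) (nat_lit 370) (nat_lit 338) (nat_lit 237)) (XT.lf (nat_lit 0) (nat_lit 3344134602) (nat_lit 504) (nat_lit 713554795) (nat_lit 588) (nat_lit 10214575580) (nat_lit 112) (nat_lit 5) (nat_lit 118) (nat_lit 5) (nat_lit 119) (nat_lit 5) (nat_lit 371) (nat_lit 338) (nat_lit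 236))))) (XT.nd (nat_lit 282) (nat_lit 1008) (nat_lit 0) (XT.nd (nat_lit 94) (nat_lit 420) (nat_lit 0) (XT.lf (nat_lit 0) (nat_lit 6057323462) (nat_lit 588) (nat_lit 4209258475) (nat_lit 84) (nat_lit 4258566748) (nat_lit 112) (nat_lit 5) (nat_lit 119) (nat_lit 5) (nat_lit 113) (nat_lit 5) (nat_lit 372) (nat_lit 338) (nat_lit 235)) (XT.nd (nat_lit 94) (nat_lit 0) (nat_lit 0) (XT.lf (nat_lit 0) (nat_lit 2740460875) (nat_lit 420) (nat_lit 5394739922) (nat_lit 504) (nat_lit 6649894699) (nat_lit 107) (nat_lit 5) (nat_lit 112) (nat_lit 5) (nat_lit 113) (nat_lit 5) (nat_lit 373) (nat_lit 338) (nat_lit 234)) (XT.lf (nat_lit 0) (nat_lit 9967995352) (nat_lit 420) (nat_lit 335049040) (nat_lit 504) (nat_lit 4748990934) (nat_lit 107) (nat_lit 5) (nat_lit 112) (nat_lit 5) (nat_lit 113) (nat_lit 5) (nat_lit 374) (nat_lit 338) (nat_lit 233)))) (XT.nd (nat_lit 188) (nat_lit 504) (nat_lit 0) (XT.nd (nat_lit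 94) (nat_lit 0) (nat_lit 0) (XT.lf (nat_lit 0) (nat_lit 2061826217) (nat_lit 504) (nat_lit 10526330332) (nat_lit 588) (nat_lit 2737282631) (nat_lit 101) (nat_lit 5) (nat_lit 107) (nat_lit 5) (nat_lit 108) (nat_lit 5) (nat_lit 375) (nat_lit 338) (nat_lit 232)) (XT.lf (nat_lit 0) (nat_lit 9506163924) (nat_lit 504) (nat_lit 5476080548) (nat_lit 588) (nat_lit 623610168) (nat_lit 101) (nat_lit 5) (nat_lit 107) (nat_lit 5) (nat_lit 108) (nat_lit 5) (nat_lit 376) (nat_lit 338) (nat_lit 231))) (XT.nd (nat_lit 94) (nat_lit 0) (nat_lit 0) (XT.lf (nat_lit 0) (nat_lit 1272497427) (nat_lit 420) (nat_lit 248948013) (nat_lit 504) (nat_lit 14372861423) (nat_lit 95) (nat_lit 5) (nat_lit 100) (nat_lit 5) (nat_lit 101) (nat_lit 5) (nat_lit 377) (nat_lit 338) (nat_lit 230)) (XT.lf (nat_lit 0) (nat_lit 3816161851) (nat_lit 504) (nat_lit 7271613775) (nat_lit 84) (nat_lit 5100536785) (nat_lit 95) (nat_lit 5)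 (nat_lit 101) (nat_lit 5) (nat_lit 96) (nat_lit 5) (nat_lit 378) (nat_lit 338) (nat_lit 229)))))) (XT.nd (nat_lit 658) (nat_lit 1092) (nat_lit 0) (XT.nd (nat_lit 282) (nat_lit 840) (nat_lit 0) (XT.nd (nat_lit 94) (nat_lit 0) (nat_lit 0) (XT.lf (nat_lit 0) (nat_lit 285898029) (nat_lit 420) (nat_lit 5885712033) (nat_lit 504) (nat_lit 10319791045) (nat_lit 90) (nat_lit 5) (nat_lit 95) (nat_lit 5) (nat_lit 96) (nat_lit 5) (nat_lit 379) (nat_lit 338) (nat_lit 228)) (XT.nd (nat_lit 94) (nat_lit 0) (nat_lit 0) (XT.lf (nat_lit 0) (nat_lit 8203052188) (nat_lit 420) (nat_lit 455008679) (nat_lit 504) (nat_lit 8143730541) (nat_lit 90) (nat_lit 5) (nat_lit 95) (nat_lit 5) (nat_lit 96) (nat_lit 5) (nat_lit 380) (nat_lit 338) (nat_lit 227)) (XT.lf (nat_lit 0) (nat_lit 11255763576) (nat_lit 504) (nat_lit 829213024) (nat_lit 84) (nat_lit 5035435626) (nat_lit 90) (nat_lit 5) (nat_lit 96) (nat_lit 5) (nat_lit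 91) (nat_lit 5) (nat_lit 381) (nat_lit 338) (nat_lit 226)))) (XT.nd (nat_lit 188) (nat_lit 504) (nat_lit 0) (XT.nd (nat_lit 94) (nat_lit 0) (nat_lit 0) (XT.lf (nat_lit 0) (nat_lit 7295681211) (nat_lit 336) (nat_lit 6697985589) (nat_lit 420) (nat_lit 3453074808) (nat_lit 86) (nat_lit 5) (nat_lit 90) (nat_lit 5) (nat_lit 91) (nat_lit 5) (nat_lit 382) (nat_lit 338) (nat_lit 225)) (XT.lf (nat_lit 0) (nat_lit 15665895323) (nat_lit 336) (nat_lit 1144030975) (nat_lit 420) (nat_lit 973065493) (nat_lit 86) (nat_lit 5) (nat_lit 90) (nat_lit 5) (nat_lit 91) (nat_lit 5) (nat_lit 383) (nat_lit 338) (nat_lit 224))) (XT.nd (nat_lit 94) (nat_lit 0) (nat_lit 0) (XT.lf (nat_lit 0) (nat_lit 1643331875) (nat_lit 504) (nat_lit 11922747704) (nat_lit 84) (nat_lit 4560025001) (nat_lit 80) (nat_lit 5) (nat_lit 86) (nat_lit 5) (nat_lit 81) (nat_lit 5) (nat_lit 384) (nat_lit 338) (nat_lit 223)) (XT.lf (nat_lit 0)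 (nat_lit 4339817440) (nat_lit 504) (nat_lit 3698636358) (nat_lit 84) (nat_lit 10440149319) (nat_lit 80) (nat_lit 5) (nat_lit 86) (nat_lit 5) (nat_lit 81) (nat_lit 5) (nat_lit 385) (nat_lit 338) (nat_lit 222))))) (XT.nd (nat_lit 282) (nat_lit 420) (nat_lit 0) (XT.nd (nat_lit 94) (nat_lit 336) (nat_lit 0) (XT.lf (nat_lit 0) (nat_lit 4851909404) (nat_lit 336) (nat_lit 2300507006) (nat_lit 420) (nat_lit 11688219179) (nat_lit 76) (nat_lit 5) (nat_lit 80) (nat_lit 5) (nat_lit 81) (nat_lit 5) (nat_lit 386) (nat_lit 338) (nat_lit 221)) (XT.nd (nat_lit 94) (nat_lit 336) (nat_lit 0) (XT.lf (nat_lit 0) (nat_lit 10110544578) (nat_lit 420) (nat_lit 5527823786) (nat_lit 84) (nat_lit 3573341227) (nat_lit 76) (nat_lit 5) (nat_lit 81) (nat_lit 5) (nat_lit 77) (nat_lit 5) (nat_lit 387) (nat_lit 338) (nat_lit 220)) (XT.lf (nat_lit 0) (nat_lit 3212111245) (nat_lit 336) (nat_lit 9988022514) (nat_lit 420) (nat_lit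 6392515190) (nat_lit 72) (nat_lit 5) (nat_lit 76) (nat_lit 5) (nat_lit 77) (nat_lit 5) (nat_lit 388) (nat_lit 338) (nat_lit 219)))) (XT.nd (nat_lit 188) (nat_lit 84) (nat_lit 0) (XT.nd (nat_lit 94) (nat_lit 336) (nat_lit 0) (XT.lf (nat_lit 0) (nat_lit 12313006381) (nat_lit 336) (nat_lit 4114466170) (nat_lit 420) (nat_lit 3556206304) (nat_lit 72) (nat_lit 5) (nat_lit 76) (nat_lit 5) (nat_lit 77) (nat_lit 5) (nat_lit 389) (nat_lit 338) (nat_lit 218)) (XT.lf (nat_lit 0) (nat_lit 1292689698) (nat_lit 336) (nat_lit 18479490876) (nat_lit 420) (nat_lit 613656424) (nat_lit 68) (nat_lit 5) (nat_lit 72) (nat_lit 5) (nat_lit 73) (nat_lit 5) (nat_lit 390) (nat_lit 338) (nat_lit 217))) (XT.nd (nat_lit 94) (nat_lit 0) (nat_lit 0) (XT.lf (nat_lit 0) (nat_lit 2478537645) (nat_lit 420) (nat_lit 10194781598) (nat_lit 84) (nat_lit 8122800539) (nat_lit 67) (nat_lit 5) (nat_lit 72) (nat_lit 5) (nat_lit 68)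 (nat_lit 5) (nat_lit 391) (nat_lit 338) (nat_lit 216)) (XT.lf (nat_lit 0) (nat_lit 5641039792) (nat_lit 420) (nat_lit 1049618356) (nat_lit 84) (nat_lit 14528186982) (nat_lit 67) (nat_lit 5) (nat_lit 72) (nat_lit 5) (nat_lit 68) (nat_lit 5) (nat_lit 392) (nat_lit 338) (nat_lit 215))))))) (XT.nd (nat_lit 1316) (nat_lit 1344) (nat_lit 0) (XT.nd (nat_lit 658) (nat_lit 840) (nat_lit 0) (XT.nd (nat_lit 282) (nat_lit 420) (nat_lit 0) (XT.nd (nat_lit 94) (nat_lit 252) (nat_lit 0) (XT.lf (nat_lit 0) (nat_lit 8522537589) (nat_lit 336) (nat_lit 447974270) (nat_lit 420) (nat_lit 12681589805) (nat_lit 63) (nat_lit 5) (nat_lit 67) (nat_lit 5) (nat_lit 68) (nat_lit 5) (nat_lit 393) (nat_lit 338) (nat_lit 214)) (XT.nd (nat_lit 94) (nat_lit 252) (nat_lit 0) (XT.lf (nat_lit 0) (nat_lit 12458364754) (nat_lit 420) (nat_lit 3766069639) (nat_lit 84) (nat_lit 5872178516) (nat_lit 63) (nat_lit 5) (nat_lit 68)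 (nat_lit 5) (nat_lit 64) (nat_lit 5) (nat_lit 394) (nat_lit 338) (nat_lit 213)) (XT.lf (nat_lit 0) (nat_lit 5977132948) (nat_lit 252) (nat_lit 10126184434) (nat_lit 336) (nat_lit 6449579750) (nat_lit 60) (nat_lit 5) (nat_lit 63) (nat_lit 5) (nat_lit 64) (nat_lit 5) (nat_lit 395) (nat_lit 338) (nat_lit 212)))) (XT.nd (nat_lit 188) (nat_lit 0) (nat_lit 0) (XT.nd (nat_lit 94) (nat_lit 420) (nat_lit 0) (XT.lf (nat_lit 0) (nat_lit 16076567003) (nat_lit 252) (nat_lit 3809801467) (nat_lit 336) (nat_lit 3135650145) (nat_lit 60) (nat_lit 5) (nat_lit 63) (nat_lit 5) (nat_lit 64) (nat_lit 5) (nat_lit 396) (nat_lit 338) (nat_lit 211)) (XT.lf (nat_lit 0) (nat_lit 318360911) (nat_lit 420) (nat_lit 20513838638) (nat_lit 84) (nat_lit 2671562224) (nat_lit 55) (nat_lit 5) (nat_lit 60) (nat_lit 5) (nat_lit 56) (nat_lit 5) (nat_lit 397) (nat_lit 338) (nat_lit 210))) (XT.nd (nat_lit 94) (nat_lit 0) (nat_lit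 0) (XT.lf (nat_lit 0) (nat_lit 3912512569) (nat_lit 420) (nat_lit 10714764199) (nat_lit 84) (nat_lit 9368773040) (nat_lit 55) (nat_lit 5) (nat_lit 60) (nat_lit 5) (nat_lit 56) (nat_lit 5) (nat_lit 398) (nat_lit 338) (nat_lit 209)) (XT.lf (nat_lit 0) (nat_lit 7605744190) (nat_lit 420) (nat_lit 634517386) (nat_lit 84) (nat_lit 16263117225) (nat_lit 55) (nat_lit 5) (nat_lit 60) (nat_lit 5) (nat_lit 56) (nat_lit 5) (nat_lit 399) (nat_lit 338) (nat_lit 208))))) (XT.nd (nat_lit 282) (nat_lit 336) (nat_lit 0) (XT.nd (nat_lit 94) (nat_lit 252) (nat_lit 0) (XT.lf (nat_lit 0) (nat_lit 9929469498) (nat_lit 252) (nat_lit 1567261503) (nat_lit 336) (nat_lit 13526597601) (nat_lit 52) (nat_lit 5) (nat_lit 55) (nat_lit 5) (nat_lit 56) (nat_lit 5) (nat_lit 400) (nat_lit 338) (nat_lit 207)) (XT.nd (nat_lit 94) (nat_lit 252) (nat_lit 0) (XT.lf (nat_lit 0) (nat_lit 15553523257) (nat_lit 336) (nat_lit 4798896503)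 (nat_lit 84) (nat_lit 5204994267) (nat_lit 52) (nat_lit 5) (nat_lit 56) (nat_lit 5) (nat_lit 53) (nat_lit 5) (nat_lit 401) (nat_lit 338) (nat_lit 206)) (XT.lf (nat_lit 0) (nat_lit 5892213188) (nat_lit 252) (nat_lit 13903808902) (nat_lit 336) (nat_lit 6309588972) (nat_lit 49) (nat_lit 5) (nat_lit 52) (nat_lit 5) (nat_lit 53) (nat_lit 5) (nat_lit 402) (nat_lit 338) (nat_lit 205)))) (XT.nd (nat_lit 188) (nat_lit 0) (nat_lit 0) (XT.nd (nat_lit 94) (nat_lit 336) (nat_lit 0) (XT.lf (nat_lit 0) (nat_lit 16990385435) (nat_lit 252) (nat_lit 7215837443) (nat_lit 336) (nat_lit 2462827185) (nat_lit 49) (nat_lit 5) (nat_lit 52) (nat_lit 5) (nat_lit 53) (nat_lit 5) (nat_lit 403) (nat_lit 338) (nat_lit 204)) (XT.lf (nat_lit 0) (nat_lit 1168644637) (nat_lit 252) (nat_lit 304784918) (nat_lit 336) (nat_lit 25775438170) (nat_lit 45) (nat_lit 5) (nat_lit 48) (nat_lit 5) (nat_lit 49) (nat_lit 5) (nat_lit 404)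 (nat_lit 338) (nat_lit 203))) (XT.nd (nat_lit 94) (nat_lit 0) (nat_lit 0) (XT.lf (nat_lit 0) (nat_lit 5634667720) (nat_lit 336) (nat_lit 15406164697) (nat_lit 84) (nat_lit 6799832256) (nat_lit 45) (nat_lit 5) (nat_lit 49) (nat_lit 5) (nat_lit 46) (nat_lit 5) (nat_lit 405) (nat_lit 338) (nat_lit 202)) (XT.lf (nat_lit 0) (nat_lit 9916182462) (nat_lit 336) (nat_lit 4426498900) (nat_lit 84) (nat_lit 14107678863) (nat_lit 45) (nat_lit 5) (nat_lit 49) (nat_lit 5) (nat_lit 46) (nat_lit 5) (nat_lit 406) (nat_lit 338) (nat_lit 201)))))) (XT.nd (nat_lit 658) (nat_lit 588) (nat_lit 0) (XT.nd (nat_lit 282) (nat_lit 336) (nat_lit 0) (XT.nd (nat_lit 94) (nat_lit 168) (nat_lit 0) (XT.lf (nat_lit 0) (nat_lit 7008050267) (nat_lit 252) (nat_lit 7378100529) (nat_lit 336) (nat_lit 14690403248) (nat_lit 42) (nat_lit 5) (nat_lit 45) (nat_lit 5) (nat_lit 46) (nat_lit 5) (nat_lit 407) (nat_lit 338) (nat_lit 200))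 (XT.nd (nat_lit 94) (nat_lit 168) (nat_lit 0) (XT.lf (nat_lit 0) (nat_lit 18865226275) (nat_lit 252) (nat_lit 162440481) (nat_lit 336) (nat_lit 10692750890) (nat_lit 42) (nat_lit 5) (nat_lit 45) (nat_lit 5) (nat_lit 46) (nat_lit 5) (nat_lit 408) (nat_lit 338) (nat_lit 199)) (XT.lf (nat_lit 0) (nat_lit 625846408) (nat_lit 168) (nat_lit 23251402917) (nat_lit 252) (nat_lit 6504290403) (nat_lit 40) (nat_lit 5) (nat_lit 42) (nat_lit 5) (nat_lit 43) (nat_lit 5) (nat_lit 409) (nat_lit 338) (nat_lit 198)))) (XT.nd (nat_lit 188) (nat_lit 252) (nat_lit 0) (XT.nd (nat_lit 94) (nat_lit 84) (nat_lit 0) (XT.lf (nat_lit 0) (nat_lit 12661297859) (nat_lit 168) (nat_lit 16315255954) (nat_lit 252) (nat_lit 2082821626) (nat_lit 40) (nat_lit 5) (nat_lit 42) (nat_lit 5) (nat_lit 43) (nat_lit 5) (nat_lit 410) (nat_lit 338) (nat_lit 197)) (XT.lf (nat_lit 0) (nat_lit 2416222591) (nat_lit 252) (nat_lit 6734212252)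 (nat_lit 84) (nat_lit 22606610652) (nat_lit 39) (nat_lit 5) (nat_lit 42) (nat_lit 5) (nat_lit 40) (nat_lit 5) (nat_lit 411) (nat_lit 338) (nat_lit 196))) (XT.nd (nat_lit 94) (nat_lit 0) (nat_lit 0) (XT.lf (nat_lit 0) (nat_lit 5352992207) (nat_lit 252) (nat_lit 1700194046) (nat_lit 336) (nat_lit 25420502820) (nat_lit 36) (nat_lit 5) (nat_lit 39) (nat_lit 5) (nat_lit 40) (nat_lit 5) (nat_lit 412) (nat_lit 338) (nat_lit 195)) (XT.lf (nat_lit 0) (nat_lit 11948768783) (nat_lit 336) (nat_lit 15337504632) (nat_lit 84) (nat_lit 5921979463) (nat_lit 36) (nat_lit 5) (nat_lit 40) (nat_lit 5) (nat_lit 37) (nat_lit 5) (nat_lit 413) (nat_lit 338) (nat_lit 194))))) (XT.nd (nat_lit 282) (nat_lit 420) (nat_lit 0) (XT.nd (nat_lit 94) (nat_lit 168) (nat_lit 0) (XT.lf (nat_lit 0) (nat_lit 17001657124) (nat_lit 336) (nat_lit 3227820669) (nat_lit 84) (nat_lit 13735068691) (nat_lit 36) (nat_lit 5) (nat_lit 40)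 (nat_lit 5) (nat_lit 37) (nat_lit 5) (nat_lit 414) (nat_lit 338) (nat_lit 193)) (XT.nd (nat_lit 94) (nat_lit 0) (nat_lit 0) (XT.lf (nat_lit 0) (nat_lit 9419079777) (nat_lit 168) (nat_lit 12871385295) (nat_lit 252) (nat_lit 12450539697) (nat_lit 34) (nat_lit 5) (nat_lit 36) (nat_lit 5) (nat_lit 37) (nat_lit 5) (nat_lit 415) (nat_lit 338) (nat_lit 192)) (XT.lf (nat_lit 0) (nat_lit 22501776995) (nat_lit 168) (nat_lit 5262632783) (nat_lit 252) (nat_lit 7775558541) (nat_lit 34) (nat_lit 5) (nat_lit 36) (nat_lit 5) (nat_lit 37) (nat_lit 5) (nat_lit 416) (nat_lit 338) (nat_lit 191)))) (XT.nd (nat_lit 188) (nat_lit 168) (nat_lit 0) (XT.nd (nat_lit 94) (nat_lit 252) (nat_lit 0) (XT.lf (nat_lit 0) (nat_lit 33421341423) (nat_lit 252) (nat_lit 420334531) (nat_lit 84) (nat_lit 2520667286) (nat_lit 34) (nat_lit 5) (nat_lit 37) (nat_lit 5) (nat_lit 35) (nat_lit 5) (nat_lit 417) (nat_lit 338) (nat_lit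 190)) (XT.lf (nat_lit 0) (nat_lit 2169472807) (nat_lit 252) (nat_lit 24461938219) (nat_lit 84) (nat_lit 10572275860) (nat_lit 31) (nat_lit 5) (nat_lit 34) (nat_lit 5) (nat_lit 32) (nat_lit 5) (nat_lit 418) (nat_lit 338) (nat_lit 189))) (XT.nd (nat_lit 94) (nat_lit 168) (nat_lit 0) (XT.lf (nat_lit 0) (nat_lit 7372651361) (nat_lit 252) (nat_lit 11801383478) (nat_lit 84) (nat_lit 18895412467) (nat_lit 31) (nat_lit 5) (nat_lit 34) (nat_lit 5) (nat_lit 32) (nat_lit 5) (nat_lit 419) (nat_lit 338) (nat_lit 188)) (XT.lf (nat_lit 0) (nat_lit 1254348326) (nat_lit 168) (nat_lit 11484017358) (nat_lit 252) (nat_lit 26222626549) (nat_lit 29) (nat_lit 5) (nat_lit 31) (nat_lit 5) (nat_lit 32) (nat_lit 5) (nat_lit 420) (nat_lit 338) (nat_lit 187))))))))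
noncomputable def xc138 : XT := (XT.nd (nat_lit 51700) (nat_lit 0) (nat_lit 9912) (XT.nd (nat_lit 1222) (nat_lit 588) (nat_lit 0) (XT.nd (nat_lit 564) (nat_lit 252) (nat_lit 0) (XT.nd (nat_lit 282) (nat_lit 252) (nat_lit 0) (XT.nd (nat_lit 94) (nat_lit 168) (nat_lit 0) (XT.lf (nat_lit 0) (nat_lit 14934641820) (nat_lit 168) (nat_lit 3444040132) (nat_lit 252) (nat_lit 21497197407) (nat_lit 29) (nat_lit 5) (nat_lit 31) (nat_lit 5) (nat_lit 32) (nat_lit 5) (nat_lit 421) (nat_lit 338) (nat_lit 186)) (XT.nd (nat_lit 94) (nat_lit 168) (nat_lit 0) (XT.lf (nat_lit 0) (nat_lit 24229293733) (nat_lit 252) (nat_lit 11848264080) (nat_lit 84) (nat_lit 4739427330) (nat_lit 29) (nat_lit 5) (nat_lit 32) (nat_lit 5) (nat_lit 30) (nat_lit 5) (nat_lit 422) (nat_lit 338) (nat_lit 185)) (XT.lf (nat_lit 0) (nat_lit 1626499606) (nat_lit 168) (nat_lit 28673404703) (nat_lit 252) (nat_lit 11485089871) (nat_lit 27)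 (nat_lit 5) (nat_lit 29) (nat_lit 5) (nat_lit 30) (nat_lit 5) (nat_lit 423) (nat_lit 338) (nat_lit 184)))) (XT.nd (nat_lit 94) (nat_lit 252) (nat_lit 0) (XT.lf (nat_lit 0) (nat_lit 15739830259) (nat_lit 168) (nat_lit 20927264107) (nat_lit 252) (nat_lit 6111519648) (nat_lit 27) (nat_lit 5) (nat_lit 29) (nat_lit 5) (nat_lit 30) (nat_lit 5) (nat_lit 424) (nat_lit 338) (nat_lit 183)) (XT.nd (nat_lit 94) (nat_lit 252) (nat_lit 0) (XT.lf (nat_lit 0) (nat_lit 30268256227) (nat_lit 168) (nat_lit 12952011789) (nat_lit 252) (nat_lit 581929624) (nat_lit 27) (nat_lit 5) (nat_lit 29) (nat_lit 5) (nat_lit 30) (nat_lit 5) (nat_lit 425) (nat_lit 338) (nat_lit 182)) (XT.lf (nat_lit 0) (nat_lit 325069942) (nat_lit 168) (nat_lit 4686881243) (nat_lit 252) (nat_lit 39843121340) (nat_lit 24) (nat_lit 5) (nat_lit 26) (nat_lit 5) (nat_lit 27) (nat_lit 5) (nat_lit 426) (nat_lit 338) (nat_lit 181))))) (XT.nd (nat_lit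 282) (nat_lit 252) (nat_lit 0) (XT.nd (nat_lit 94) (nat_lit 0) (nat_lit 0) (XT.lf (nat_lit 0) (nat_lit 10931848693) (nat_lit 252) (nat_lit 31110248199) (nat_lit 84) (nat_lit 3892170893) (nat_lit 24) (nat_lit 5) (nat_lit 27) (nat_lit 5) (nat_lit 25) (nat_lit 5) (nat_lit 427) (nat_lit 338) (nat_lit 180)) (XT.nd (nat_lit 94) (nat_lit 0) (nat_lit 0) (XT.lf (nat_lit 0) (nat_lit 17070987965) (nat_lit 252) (nat_lit 17342271077) (nat_lit 84) (nat_lit 12631334278) (nat_lit 24) (nat_lit 5) (nat_lit 27) (nat_lit 5) (nat_lit 25) (nat_lit 5) (nat_lit 428) (nat_lit 338) (nat_lit 179)) (XT.lf (nat_lit 0) (nat_lit 23389680126) (nat_lit 252) (nat_lit 3168987777) (nat_lit 84) (nat_lit 21629703008) (nat_lit 24) (nat_lit 5) (nat_lit 27) (nat_lit 5) (nat_lit 25) (nat_lit 5) (nat_lit 429) (nat_lit 338) (nat_lit 178)))) (XT.nd (nat_lit 188) (nat_lit 84) (nat_lit 0) (XT.nd (nat_lit 94) (nat_lit 0) (nat_lit 0)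 (XT.lf (nat_lit 0) (nat_lit 11649306042) (nat_lit 168) (nat_lit 18356120579) (nat_lit 252) (nat_lit 19357813950) (nat_lit 22) (nat_lit 5) (nat_lit 24) (nat_lit 5) (nat_lit 25) (nat_lit 5) (nat_lit 430) (nat_lit 338) (nat_lit 177)) (XT.lf (nat_lit 0) (nat_lit 26969675528) (nat_lit 168) (nat_lit 9877543075) (nat_lit 252) (nat_lit 13725313965) (nat_lit 22) (nat_lit 5) (nat_lit 24) (nat_lit 5) (nat_lit 25) (nat_lit 5) (nat_lit 431) (nat_lit 338) (nat_lit 176))) (XT.nd (nat_lit 94) (nat_lit 84) (nat_lit 0) (XT.lf (nat_lit 0) (nat_lit 42742438340) (nat_lit 168) (nat_lit 1147527490) (nat_lit 252) (nat_lit 7928269794) (nat_lit 22) (nat_lit 5) (nat_lit 24) (nat_lit 5) (nat_lit 25) (nat_lit 5) (nat_lit 432) (nat_lit 338) (nat_lit 175)) (XT.lf (nat_lit 0) (nat_lit 5920082603) (nat_lit 84) (nat_lit 45352024827) (nat_lit 168) (nat_lit 1825362226) (nat_lit 21) (nat_lit 5) (nat_lit 22) (nat_lit 5) (nat_lit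 23) (nat_lit 4) (nat_lit 433) (nat_lit 338) (nat_lit 174)))))) (XT.nd (nat_lit 658) (nat_lit 336) (nat_lit 0) (XT.nd (nat_lit 282) (nat_lit 168) (nat_lit 0) (XT.nd (nat_lit 94) (nat_lit 0) (nat_lit 0) (XT.lf (nat_lit 0) (nat_lit 4473316364) (nat_lit 168) (nat_lit 32922720322) (nat_lit 84) (nat_lit 17014768930) (nat_lit 20) (nat_lit 5) (nat_lit 22) (nat_lit 5) (nat_lit 21) (nat_lit 5) (nat_lit 434) (nat_lit 338) (nat_lit 173)) (XT.nd (nat_lit 94) (nat_lit 0) (nat_lit 0) (XT.lf (nat_lit 0) (nat_lit 10920199365) (nat_lit 168) (nat_lit 18265404431) (nat_lit 84) (nat_lit 26577520680) (nat_lit 20) (nat_lit 5) (nat_lit 22) (nat_lit 5) (nat_lit 21) (nat_lit 5) (nat_lit 435) (nat_lit 338) (nat_lit 172)) (XT.lf (nat_lit 0) (nat_lit 17556539366) (nat_lit 168) (nat_lit 3175085518) (nat_lit 84) (nat_lit 36424509385) (nat_lit 20) (nat_lit 5) (nat_lit 22) (nat_lit 5) (nat_lit 21) (nat_lit 5) (nat_lit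 436) (nat_lit 338) (nat_lit 171)))) (XT.nd (nat_lit 188) (nat_lit 0) (nat_lit 0) (XT.nd (nat_lit 94) (nat_lit 0) (nat_lit 0) (XT.lf (nat_lit 0) (nat_lit 12607438668) (nat_lit 168) (nat_lit 11901886855) (nat_lit 252) (nat_lit 34078090954) (nat_lit 18) (nat_lit 5) (nat_lit 20) (nat_lit 5) (nat_lit 21) (nat_lit 5) (nat_lit 437) (nat_lit 338) (nat_lit 170)) (XT.lf (nat_lit 0) (nat_lit 28922067821) (nat_lit 168) (nat_lit 2776904741) (nat_lit 252) (nat_lit 28361818987) (nat_lit 18) (nat_lit 5) (nat_lit 20) (nat_lit 5) (nat_lit 21) (nat_lit 5) (nat_lit 438) (nat_lit 338) (nat_lit 169))) (XT.nd (nat_lit 94) (nat_lit 0) (nat_lit 0) (XT.lf (nat_lit 0) (nat_lit 39164262524) (nat_lit 252) (nat_lit 15922241851) (nat_lit 84) (nat_lit 6490067532) (nat_lit 18) (nat_lit 5) (nat_lit 21) (nat_lit 5) (nat_lit 19) (nat_lit 4) (nat_lit 439) (nat_lit 338) (nat_lit 168)) (XT.lf (nat_lit 0) (nat_lit 46877413503)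 (nat_lit 252) (nat_lit 282931250) (nat_lit 84) (nat_lit 15976766414) (nat_lit 18) (nat_lit 5) (nat_lit 21) (nat_lit 5) (nat_lit 19) (nat_lit 4) (nat_lit 440) (nat_lit 338) (nat_lit 167))))) (XT.nd (nat_lit 282) (nat_lit 168) (nat_lit 0) (XT.nd (nat_lit 94) (nat_lit 84) (nat_lit 0) (XT.lf (nat_lit 0) (nat_lit 16134407196) (nat_lit 84) (nat_lit 38839158437) (nat_lit 168) (nat_lit 9766355262) (nat_lit 17) (nat_lit 5) (nat_lit 18) (nat_lit 5) (nat_lit 19) (nat_lit 4) (nat_lit 441) (nat_lit 338) (nat_lit 166)) (XT.nd (nat_lit 94) (nat_lit 84) (nat_lit 0) (XT.lf (nat_lit 0) (nat_lit 33044132484) (nat_lit 84) (nat_lit 30267884257) (nat_lit 168) (nat_lit 3078818154) (nat_lit 17) (nat_lit 5) (nat_lit 18) (nat_lit 5) (nat_lit 19) (nat_lit 4) (nat_lit 442) (nat_lit 338) (nat_lit 165)) (XT.lf (nat_lit 0) (nat_lit 3731633267) (nat_lit 168) (nat_lit 17672574358) (nat_lit 84) (nat_lit 46686073767) (nat_lit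 16) (nat_lit 5) (nat_lit 18) (nat_lit 5) (nat_lit 17) (nat_lit 5) (nat_lit 443) (nat_lit 338) (nat_lit 164)))) (XT.nd (nat_lit 188) (nat_lit 0) (nat_lit 0) (XT.nd (nat_lit 94) (nat_lit 168) (nat_lit 0) (XT.lf (nat_lit 0) (nat_lit 10681237659) (nat_lit 168) (nat_lit 1564365827) (nat_lit 84) (nat_lit 57594293887) (nat_lit 16) (nat_lit 5) (nat_lit 18) (nat_lit 5) (nat_lit 17) (nat_lit 5) (nat_lit 444) (nat_lit 338) (nat_lit 163)) (XT.lf (nat_lit 0) (nat_lit 15320552969) (nat_lit 168) (nat_lit 2662863882) (nat_lit 252) (nat_lit 53654264529) (nat_lit 14) (nat_lit 5) (nat_lit 16) (nat_lit 5) (nat_lit 17) (nat_lit 5) (nat_lit 445) (nat_lit 338) (nat_lit 162))) (XT.nd (nat_lit 49256) (nat_lit 0) (nat_lit 15960) (XT.lf (nat_lit 0) (nat_lit 25586730868) (nat_lit 252) (nat_lit 40819791225) (nat_lit 84) (nat_lit 7080416813) (nat_lit 14) (nat_lit 5) (nat_lit 17) (nat_lit 5) (nat_lit 15) (nat_lit 4)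 (nat_lit 446) (nat_lit 338) (nat_lit 161)) (XT.lf (nat_lit 0) (nat_lit 3455388376) (nat_lit 1092) (nat_lit 512508040) (nat_lit 1092) (nat_lit 512508040) (nat_lit 204) (nat_lit 3) (nat_lit 217) (nat_lit 3) (nat_lit 217) (nat_lit 5) (nat_lit 339) (nat_lit 339) (nat_lit 267))))))) (XT.nd (nat_lit 1316) (nat_lit 4116) (nat_lit 0) (XT.nd (nat_lit 658) (nat_lit 924) (nat_lit 0) (XT.nd (nat_lit 282) (nat_lit 0) (nat_lit 0) (XT.nd (nat_lit 94) (nat_lit 1008) (nat_lit 0) (XT.lf (nat_lit 84) (nat_lit 2944233699) (nat_lit 0) (nat_lit 4931454345) (nat_lit 1092) (nat_lit 1191949407) (nat_lit 205) (nat_lit 5) (nat_lit 204) (nat_lit 3) (nat_lit 217) (nat_lit 5) (nat_lit 340) (nat_lit 339) (nat_lit 266)) (XT.nd (nat_lit 94) (nat_lit 1008) (nat_lit 0) (XT.lf (nat_lit 84) (nat_lit 7036463433) (nat_lit 0) (nat_lit 1810761803) (nat_lit 1092) (nat_lit 331183397) (nat_lit 205) (nat_lit 5) (nat_lit 204) (nat_lit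 3) (nat_lit 217) (nat_lit 5) (nat_lit 341) (nat_lit 339) (nat_lit 265)) (XT.lf (nat_lit 0) (nat_lit 545326326) (nat_lit 1092) (nat_lit 7331834889) (nat_lit 1176) (nat_lit 1415223041) (nat_lit 192) (nat_lit 5) (nat_lit 205) (nat_lit 5) (nat_lit 206) (nat_lit 5) (nat_lit 342) (nat_lit 339) (nat_lit 264)))) (XT.nd (nat_lit 188) (nat_lit 0) (nat_lit 84) (XT.nd (nat_lit 94) (nat_lit 0) (nat_lit 0) (XT.lf (nat_lit 0) (nat_lit 1450053893) (nat_lit 1092) (nat_lit 3218808205) (nat_lit 1176) (nat_lit 4740623673) (nat_lit 192) (nat_lit 5) (nat_lit 205) (nat_lit 5) (nat_lit 206) (nat_lit 5) (nat_lit 343) (nat_lit 339) (nat_lit 263)) (XT.lf (nat_lit 84) (nat_lit 1019757986) (nat_lit 0) (nat_lit 1341683445) (nat_lit 1176) (nat_lit 7169333901) (nat_lit 193) (nat_lit 5) (nat_lit 192) (nat_lit 5) (nat_lit 206) (nat_lit 5) (nat_lit 344) (nat_lit 339) (nat_lit 262))) (XT.nd (nat_lit 94) (nat_lit 0) (nat_lit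 0) (XT.lf (nat_lit 0) (nat_lit 3323585370) (nat_lit 1092) (nat_lit 4242269640) (nat_lit 1176) (nat_lit 2089204910) (nat_lit 193) (nat_lit 5) (nat_lit 206) (nat_lit 5) (nat_lit 207) (nat_lit 5) (nat_lit 345) (nat_lit 339) (nat_lit 261)) (XT.lf (nat_lit 84) (nat_lit 125612861) (nat_lit 0) (nat_lit 4174874192) (nat_lit 1176) (nat_lit 5483066262) (nat_lit 194) (nat_lit 5) (nat_lit 193) (nat_lit 5) (nat_lit 207) (nat_lit 5) (nat_lit 346) (nat_lit 339) (nat_lit 260))))) (XT.nd (nat_lit 282) (nat_lit 1008) (nat_lit 0) (XT.nd (nat_lit 94) (nat_lit 0) (nat_lit 84) (XT.lf (nat_lit 84) (nat_lit 4693576806) (nat_lit 0) (nat_lit 628020269) (nat_lit 1176) (nat_lit 4593912806) (nat_lit 194) (nat_lit 5) (nat_lit 193) (nat_lit 5) (nat_lit 207) (nat_lit 5) (nat_lit 347) (nat_lit 339) (nat_lit 259)) (XT.nd (nat_lit 94) (nat_lit 0) (nat_lit 0) (XT.lf (nat_lit 0) (nat_lit 6375390752) (nat_lit 1092) (nat_lit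 700282475) (nat_lit 1176) (nat_lit 2975744200) (nat_lit 194) (nat_lit 5) (nat_lit 207) (nat_lit 5) (nat_lit 208) (nat_lit 5) (nat_lit 348) (nat_lit 339) (nat_lit 258)) (XT.lf (nat_lit 84) (nat_lit 4011251694) (nat_lit 0) (nat_lit 3468080361) (nat_lit 1176) (nat_lit 2711566359) (nat_lit 195) (nat_lit 5) (nat_lit 194) (nat_lit 5) (nat_lit 208) (nat_lit 5) (nat_lit 349) (nat_lit 339) (nat_lit 257)))) (XT.nd (nat_lit 188) (nat_lit 1176) (nat_lit 0) (XT.nd (nat_lit 94) (nat_lit 0) (nat_lit 0) (XT.lf (nat_lit 0) (nat_lit 8600343341) (nat_lit 1092) (nat_lit 1476860367) (nat_lit 1176) (nat_lit 257892278) (nat_lit 195) (nat_lit 5) (nat_lit 208) (nat_lit 5) (nat_lit 209) (nat_lit 5) (nat_lit 350) (nat_lit 339) (nat_lit 256)) (XT.lf (nat_lit 84) (nat_lit 3380636436) (nat_lit 0) (nat_lit 6416356311) (nat_lit 1176) (nat_lit 685415733) (nat_lit 196) (nat_lit 5) (nat_lit 195) (nat_lit 5) (nat_lit 209)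 (nat_lit 5) (nat_lit 351) (nat_lit 339) (nat_lit 255))) (XT.nd (nat_lit 94) (nat_lit 0) (nat_lit 84) (XT.lf (nat_lit 0) (nat_lit 378184765) (nat_lit 1176) (nat_lit 2241871939) (nat_lit 1260) (nat_lit 8014301049) (nat_lit 181) (nat_lit 5) (nat_lit 195) (nat_lit 5) (nat_lit 196) (nat_lit 5) (nat_lit 352) (nat_lit 339) (nat_lit 254)) (XT.lf (nat_lit 0) (nat_lit 1475718107) (nat_lit 1176) (nat_lit 8009682629) (nat_lit 1260) (nat_lit 1304832201) (nat_lit 182) (nat_lit 5) (nat_lit 196) (nat_lit 5) (nat_lit 197) (nat_lit 5) (nat_lit 353) (nat_lit 339) (nat_lit 253)))))) (XT.nd (nat_lit 658) (nat_lit 1848) (nat_lit 0) (XT.nd (nat_lit 282) (nat_lit 2352) (nat_lit 0) (XT.nd (nat_lit 94) (nat_lit 0) (nat_lit 0) (XT.lf (nat_lit 0) (nat_lit 2631714136) (nat_lit 1176) (nat_lit 2995120201) (nat_lit 1260) (nat_lit 5323227679) (nat_lit 182) (nat_lit 5) (nat_lit 196) (nat_lit 5) (nat_lit 197) (nat_lit 5)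 (nat_lit 354) (nat_lit 339) (nat_lit 252)) (XT.nd (nat_lit 94) (nat_lit 0) (nat_lit 84) (XT.lf (nat_lit 84) (nat_lit 2194793761) (nat_lit 0) (nat_lit 1626104546) (nat_lit 1260) (nat_lit 7293874878) (nat_lit 183) (nat_lit 5) (nat_lit 182) (nat_lit 5) (nat_lit 197) (nat_lit 5) (nat_lit 355) (nat_lit 339) (nat_lit 251)) (XT.lf (nat_lit 0) (nat_lit 5078222319) (nat_lit 1176) (nat_lit 3724479988) (nat_lit 84) (nat_lit 2480790683) (nat_lit 183) (nat_lit 5) (nat_lit 197) (nat_lit 5) (nat_lit 184) (nat_lit 5) (nat_lit 356) (nat_lit 339) (nat_lit 250)))) (XT.nd (nat_lit 188) (nat_lit 1260) (nat_lit 0) (XT.nd (nat_lit 94) (nat_lit 0) (nat_lit 0) (XT.lf (nat_lit 0) (nat_lit 1624539088) (nat_lit 1176) (nat_lit 4759025542) (nat_lit 1260) (nat_lit 5073440830) (nat_lit 169) (nat_lit 5) (nat_lit 183) (nat_lit 5) (nat_lit 184) (nat_lit 5) (nat_lit 357) (nat_lit 339) (nat_lit 249)) (XT.lf (nat_lit 0) (nat_lit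 7192606959) (nat_lit 1176) (nat_lit 552105664) (nat_lit 1260) (nat_lit 3890550181) (nat_lit 169) (nat_lit 5) (nat_lit 183) (nat_lit 5) (nat_lit 184) (nat_lit 5) (nat_lit 358) (nat_lit 339) (nat_lit 248))) (XT.nd (nat_lit 94) (nat_lit 0) (nat_lit 0) (XT.lf (nat_lit 0) (nat_lit 1075561014) (nat_lit 1260) (nat_lit 8097494385) (nat_lit 1344) (nat_lit 2645059390) (nat_lit 154) (nat_lit 5) (nat_lit 169) (nat_lit 5) (nat_lit 170) (nat_lit 5) (nat_lit 359) (nat_lit 339) (nat_lit 247)) (XT.lf (nat_lit 0) (nat_lit 6827064518) (nat_lit 1260) (nat_lit 3847556047) (nat_lit 1344) (nat_lit 1330957237) (nat_lit 154) (nat_lit 5) (nat_lit 169) (nat_lit 5) (nat_lit 170) (nat_lit 5) (nat_lit 360) (nat_lit 339) (nat_lit 246))))) (XT.nd (nat_lit 282) (nat_lit 1176) (nat_lit 0) (XT.nd (nat_lit 94) (nat_lit 0) (nat_lit 0) (XT.lf (nat_lit 0) (nat_lit 12984901) (nat_lit 672) (nat_lit 11659078457) (nat_lit 84) (nat_lit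 526903648) (nat_lit 146) (nat_lit 5) (nat_lit 154) (nat_lit 5) (nat_lit 147) (nat_lit 5) (nat_lit 361) (nat_lit 339) (nat_lit 245)) (XT.nd (nat_lit 94) (nat_lit 0) (nat_lit 0) (XT.lf (nat_lit 0) (nat_lit 1442267522) (nat_lit 672) (nat_lit 5930494384) (nat_lit 84) (nat_lit 5022880977) (nat_lit 146) (nat_lit 5) (nat_lit 154) (nat_lit 5) (nat_lit 147) (nat_lit 5) (nat_lit 362) (nat_lit 339) (nat_lit 244)) (XT.lf (nat_lit 0) (nat_lit 2895853810) (nat_lit 672) (nat_lit 47637261) (nat_lit 84) (nat_lit 9655317755) (nat_lit 146) (nat_lit 5) (nat_lit 154) (nat_lit 5) (nat_lit 147) (nat_lit 5) (nat_lit 363) (nat_lit 339) (nat_lit 243)))) (XT.nd (nat_lit 188) (nat_lit 588) (nat_lit 0) (XT.nd (nat_lit 94) (nat_lit 0) (nat_lit 0) (XT.lf (nat_lit 0) (nat_lit 4449935466) (nat_lit 672) (nat_lit 6709091667) (nat_lit 84) (nat_lit 1647367579) (nat_lit 139) (nat_lit 5) (nat_lit 147) (nat_lit 5) (nat_lit 140)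 (nat_lit 5) (nat_lit 364) (nat_lit 339) (nat_lit 242)) (XT.lf (nat_lit 0) (nat_lit 6062605177) (nat_lit 672) (nat_lit 639247006) (nat_lit 84) (nat_lit 6318027703) (nat_lit 139) (nat_lit 5) (nat_lit 147) (nat_lit 5) (nat_lit 140) (nat_lit 5) (nat_lit 365) (nat_lit 339) (nat_lit 241))) (XT.nd (nat_lit 94) (nat_lit 0) (nat_lit 0) (XT.lf (nat_lit 0) (nat_lit 5707094792) (nat_lit 588) (nat_lit 2054271072) (nat_lit 672) (nat_lit 5477302210) (nat_lit 132) (nat_lit 5) (nat_lit 139) (nat_lit 5) (nat_lit 140) (nat_lit 5) (nat_lit 366) (nat_lit 339) (nat_lit 240)) (XT.lf (nat_lit 0) (nat_lit 9527066118) (nat_lit 672) (nat_lit 1250559369) (nat_lit 84) (nat_lit 2685944035) (nat_lit 132) (nat_lit 5) (nat_lit 140) (nat_lit 5) (nat_lit 133) (nat_lit 5) (nat_lit 367) (nat_lit 339) (nat_lit 239))))))))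
noncomputable def xc139 : XT := (XT.nd (nat_lit 2632) (nat_lit 2856) (nat_lit 0) (XT.nd (nat_lit 1316) (nat_lit 2268) (nat_lit 0) (XT.nd (nat_lit 658) (nat_lit 1428) (nat_lit 0) (XT.nd (nat_lit 282) (nat_lit 924) (nat_lit 0) (XT.nd (nat_lit 94) (nat_lit 588) (nat_lit 0) (XT.lf (nat_lit 0) (nat_lit 5284845567) (nat_lit 588) (nat_lit 6115710887) (nat_lit 672) (nat_lit 2293045063) (nat_lit 125) (nat_lit 5) (nat_lit 132) (nat_lit 5) (nat_lit 133) (nat_lit 5) (nat_lit 368) (nat_lit 339) (nat_lit 238)) (XT.nd (nat_lit 94) (nat_lit 588) (nat_lit 0) (XT.lf (nat_lit 0) (nat_lit 12025286410) (nat_lit 588) (nat_lit 1301587098) (nat_lit 672) (nat_lit 603789561) (nat_lit 125) (nat_lit 5) (nat_lit 132) (nat_lit 5) (nat_lit 133) (nat_lit 5) (nat_lit 369) (nat_lit 339) (nat_lit 237)) (XT.lf (nat_lit 0) (nat_lit 1180691815) (nat_lit 588) (nat_lit 9348806380) (nat_lit 84) (nat_lit 3643034771) (nat_lit 118)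 (nat_lit 5) (nat_lit 125) (nat_lit 5) (nat_lit 119) (nat_lit 5) (nat_lit 370) (nat_lit 339) (nat_lit 236)))) (XT.nd (nat_lit 188) (nat_lit 420) (nat_lit 0) (XT.nd (nat_lit 94) (nat_lit 504) (nat_lit 0) (XT.lf (nat_lit 0) (nat_lit 3023462021) (nat_lit 588) (nat_lit 2663207454) (nat_lit 84) (nat_lit 8734328388) (nat_lit 118) (nat_lit 5) (nat_lit 125) (nat_lit 5) (nat_lit 119) (nat_lit 5) (nat_lit 371) (nat_lit 339) (nat_lit 235)) (XT.lf (nat_lit 0) (nat_lit 4290338246) (nat_lit 504) (nat_lit 657439695) (nat_lit 588) (nat_lit 9728375105) (nat_lit 112) (nat_lit 5) (nat_lit 118) (nat_lit 5) (nat_lit 119) (nat_lit 5) (nat_lit 372) (nat_lit 339) (nat_lit 234))) (XT.nd (nat_lit 94) (nat_lit 420) (nat_lit 0) (XT.lf (nat_lit 0) (nat_lit 6985745155) (nat_lit 588) (nat_lit 3491444676) (nat_lit 84) (nat_lit 4460118911) (nat_lit 112) (nat_lit 5) (nat_lit 119) (nat_lit 5) (nat_lit 113) (nat_lit 5) (nat_lit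 373) (nat_lit 339) (nat_lit 233)) (XT.lf (nat_lit 0) (nat_lit 3658490848) (nat_lit 420) (nat_lit 5453753737) (nat_lit 504) (nat_lit 6093255556) (nat_lit 107) (nat_lit 5) (nat_lit 112) (nat_lit 5) (nat_lit 113) (nat_lit 5) (nat_lit 374) (nat_lit 339) (nat_lit 232))))) (XT.nd (nat_lit 282) (nat_lit 840) (nat_lit 0) (XT.nd (nat_lit 94) (nat_lit 588) (nat_lit 0) (XT.lf (nat_lit 0) (nat_lit 11078507200) (nat_lit 420) (nat_lit 245267129) (nat_lit 504) (nat_lit 4157348056) (nat_lit 107) (nat_lit 5) (nat_lit 112) (nat_lit 5) (nat_lit 113) (nat_lit 5) (nat_lit 375) (nat_lit 339) (nat_lit 231)) (XT.nd (nat_lit 94) (nat_lit 84) (nat_lit 0) (XT.lf (nat_lit 0) (nat_lit 2948500798) (nat_lit 504) (nat_lit 10717072096) (nat_lit 588) (nat_lit 2097544233) (nat_lit 101) (nat_lit 5) (nat_lit 107) (nat_lit 5) (nat_lit 108) (nat_lit 5) (nat_lit 376) (nat_lit 339) (nat_lit 230)) (XT.lf (nat_lit 0) (nat_lit 57371638)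 (nat_lit 588) (nat_lit 5461006018) (nat_lit 84) (nat_lit 10534193780) (nat_lit 100) (nat_lit 5) (nat_lit 107) (nat_lit 5) (nat_lit 101) (nat_lit 5) (nat_lit 377) (nat_lit 339) (nat_lit 229)))) (XT.nd (nat_lit 188) (nat_lit 420) (nat_lit 0) (XT.nd (nat_lit 94) (nat_lit 0) (nat_lit 0) (XT.lf (nat_lit 0) (nat_lit 2118178303) (nat_lit 420) (nat_lit 123814648) (nat_lit 504) (nat_lit 14107896585) (nat_lit 95) (nat_lit 5) (nat_lit 100) (nat_lit 5) (nat_lit 101) (nat_lit 5) (nat_lit 378) (nat_lit 339) (nat_lit 228)) (XT.lf (nat_lit 0) (nat_lit 4587130977) (nat_lit 504) (nat_lit 6686385649) (nat_lit 84) (nat_lit 5379780331) (nat_lit 95) (nat_lit 5) (nat_lit 101) (nat_lit 5) (nat_lit 96) (nat_lit 5) (nat_lit 379) (nat_lit 339) (nat_lit 227))) (XT.nd (nat_lit 94) (nat_lit 0) (nat_lit 0) (XT.lf (nat_lit 0) (nat_lit 1089975269) (nat_lit 420) (nat_lit 5911793300) (nat_lit 504) (nat_lit 9964082228) (nat_lit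 90) (nat_lit 5) (nat_lit 95) (nat_lit 5) (nat_lit 96) (nat_lit 5) (nat_lit 380) (nat_lit 339) (nat_lit 226)) (XT.lf (nat_lit 0) (nat_lit 9221474141) (nat_lit 420) (nat_lit 322552052) (nat_lit 504) (nat_lit 7742117653) (nat_lit 90) (nat_lit 5) (nat_lit 95) (nat_lit 5) (nat_lit 96) (nat_lit 5) (nat_lit 381) (nat_lit 339) (nat_lit 225)))))) (XT.nd (nat_lit 658) (nat_lit 1092) (nat_lit 0) (XT.nd (nat_lit 282) (nat_lit 840) (nat_lit 0) (XT.nd (nat_lit 94) (nat_lit 336) (nat_lit 0) (XT.lf (nat_lit 0) (nat_lit 12202784025) (nat_lit 504) (nat_lit 86490170) (nat_lit 84) (nat_lit 5325582012) (nat_lit 90) (nat_lit 5) (nat_lit 96) (nat_lit 5) (nat_lit 91) (nat_lit 5) (nat_lit 382) (nat_lit 339) (nat_lit 224)) (XT.nd (nat_lit 94) (nat_lit 0) (nat_lit 0) (XT.lf (nat_lit 0) (nat_lit 8274625410) (nat_lit 336) (nat_lit 6737757244) (nat_lit 420) (nat_lit 2938931930) (nat_lit 86) (nat_lit 5) (nat_lit 90)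 (nat_lit 5) (nat_lit 91) (nat_lit 5) (nat_lit 383) (nat_lit 339) (nat_lit 223)) (XT.lf (nat_lit 0) (nat_lit 16873807875) (nat_lit 336) (nat_lit 1021878202) (nat_lit 420) (nat_lit 402514620) (nat_lit 86) (nat_lit 5) (nat_lit 90) (nat_lit 5) (nat_lit 91) (nat_lit 5) (nat_lit 384) (nat_lit 339) (nat_lit 222)))) (XT.nd (nat_lit 188) (nat_lit 336) (nat_lit 0) (XT.nd (nat_lit 94) (nat_lit 0) (nat_lit 0) (XT.lf (nat_lit 0) (nat_lit 2272273684) (nat_lit 504) (nat_lit 11520791907) (nat_lit 84) (nat_lit 4858643930) (nat_lit 80) (nat_lit 5) (nat_lit 86) (nat_lit 5) (nat_lit 81) (nat_lit 5) (nat_lit 385) (nat_lit 339) (nat_lit 221)) (XT.lf (nat_lit 0) (nat_lit 5032771043) (nat_lit 504) (nat_lit 3072082606) (nat_lit 84) (nat_lit 10910458826) (nat_lit 80) (nat_lit 5) (nat_lit 86) (nat_lit 5) (nat_lit 81) (nat_lit 5) (nat_lit 386) (nat_lit 339) (nat_lit 220))) (XT.nd (nat_lit 94) (nat_lit 0) (nat_lit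 0) (XT.lf (nat_lit 0) (nat_lit 5727749011) (nat_lit 336) (nat_lit 2192627851) (nat_lit 420) (nat_lit 11468132504) (nat_lit 76) (nat_lit 5) (nat_lit 80) (nat_lit 5) (nat_lit 81) (nat_lit 5) (nat_lit 387) (nat_lit 339) (nat_lit 219)) (XT.lf (nat_lit 0) (nat_lit 10952781668) (nat_lit 420) (nat_lit 4969457335) (nat_lit 84) (nat_lit 3848932259) (nat_lit 76) (nat_lit 5) (nat_lit 81) (nat_lit 5) (nat_lit 77) (nat_lit 5) (nat_lit 388) (nat_lit 339) (nat_lit 218))))) (XT.nd (nat_lit 282) (nat_lit 420) (nat_lit 0) (XT.nd (nat_lit 94) (nat_lit 336) (nat_lit 0) (XT.lf (nat_lit 0) (nat_lit 4025575735) (nat_lit 336) (nat_lit 10100679284) (nat_lit 420) (nat_lit 6037568917) (nat_lit 72) (nat_lit 5) (nat_lit 76) (nat_lit 5) (nat_lit 77) (nat_lit 5) (nat_lit 389) (nat_lit 339) (nat_lit 217)) (XT.nd (nat_lit 94) (nat_lit 336) (nat_lit 0) (XT.lf (nat_lit 0) (nat_lit 13378611284) (nat_lit 336) (nat_lit 4056362382)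 (nat_lit 420) (nat_lit 3132094699) (nat_lit 72) (nat_lit 5) (nat_lit 76) (nat_lit 5) (nat_lit 77) (nat_lit 5) (nat_lit 390) (nat_lit 339) (nat_lit 216)) (XT.lf (nat_lit 0) (nat_lit 2035094331) (nat_lit 336) (nat_lit 18838395898) (nat_lit 420) (nat_lit 108016826) (nat_lit 68) (nat_lit 5) (nat_lit 72) (nat_lit 5) (nat_lit 73) (nat_lit 5) (nat_lit 391) (nat_lit 339) (nat_lit 215)))) (XT.nd (nat_lit 188) (nat_lit 336) (nat_lit 0) (XT.nd (nat_lit 94) (nat_lit 0) (nat_lit 0) (XT.lf (nat_lit 0) (nat_lit 3051751251) (nat_lit 420) (nat_lit 9806943966) (nat_lit 84) (nat_lit 8545719636) (nat_lit 67) (nat_lit 5) (nat_lit 72) (nat_lit 5) (nat_lit 68) (nat_lit 5) (nat_lit 392) (nat_lit 339) (nat_lit 214)) (XT.lf (nat_lit 0) (nat_lit 6294598633) (nat_lit 420) (nat_lit 407630130) (nat_lit 84) (nat_lit 15138047233) (nat_lit 67) (nat_lit 5) (nat_lit 72) (nat_lit 5) (nat_lit 68) (nat_lit 5) (nat_lit 393)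 (nat_lit 339) (nat_lit 213))) (XT.nd (nat_lit 94) (nat_lit 0) (nat_lit 0) (XT.lf (nat_lit 0) (nat_lit 9445087780) (nat_lit 336) (nat_lit 271170854) (nat_lit 420) (nat_lit 12570520092) (nat_lit 63) (nat_lit 5) (nat_lit 67) (nat_lit 5) (nat_lit 68) (nat_lit 5) (nat_lit 394) (nat_lit 339) (nat_lit 212)) (XT.lf (nat_lit 0) (nat_lit 13296640112) (nat_lit 420) (nat_lit 3218924229) (nat_lit 84) (nat_lit 6229441274) (nat_lit 63) (nat_lit 5) (nat_lit 68) (nat_lit 5) (nat_lit 64) (nat_lit 5) (nat_lit 395) (nat_lit 339) (nat_lit 211))))))) (XT.nd (nat_lit 1316) (nat_lit 1092) (nat_lit 0) (XT.nd (nat_lit 658) (nat_lit 840) (nat_lit 0) (XT.nd (nat_lit 282) (nat_lit 252) (nat_lit 0) (XT.nd (nat_lit 94) (nat_lit 420) (nat_lit 0) (XT.lf (nat_lit 0) (nat_lit 6810102597) (nat_lit 252) (nat_lit 10233592222) (nat_lit 336) (nat_lit 6171517541) (nat_lit 60) (nat_lit 5) (nat_lit 63) (nat_lit 5) (nat_lit 64)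 (nat_lit 5) (nat_lit 396) (nat_lit 339) (nat_lit 210)) (XT.nd (nat_lit 94) (nat_lit 420) (nat_lit 0) (XT.lf (nat_lit 0) (nat_lit 17193481159) (nat_lit 252) (nat_lit 3733437506) (nat_lit 336) (nat_lit 2771904503) (nat_lit 60) (nat_lit 5) (nat_lit 63) (nat_lit 5) (nat_lit 64) (nat_lit 5) (nat_lit 397) (nat_lit 339) (nat_lit 209)) (XT.lf (nat_lit 0) (nat_lit 771731905) (nat_lit 420) (nat_lit 20479613697) (nat_lit 84) (nat_lit 2943708028) (nat_lit 55) (nat_lit 5) (nat_lit 60) (nat_lit 5) (nat_lit 56) (nat_lit 5) (nat_lit 398) (nat_lit 339) (nat_lit 208)))) (XT.nd (nat_lit 188) (nat_lit 252) (nat_lit 0) (XT.nd (nat_lit 94) (nat_lit 0) (nat_lit 0) (XT.lf (nat_lit 0) (nat_lit 4460781312) (nat_lit 420) (nat_lit 10405488581) (nat_lit 84) (nat_lit 9836242967) (nat_lit 55) (nat_lit 5) (nat_lit 60) (nat_lit 5) (nat_lit 56) (nat_lit 5) (nat_lit 399) (nat_lit 339) (nat_lit 207)) (XT.lf (nat_lit 0) (nat_lit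 8252259589) (nat_lit 420) (nat_lit 41204806) (nat_lit 84) (nat_lit 16931988155) (nat_lit 55) (nat_lit 5) (nat_lit 60) (nat_lit 5) (nat_lit 56) (nat_lit 5) (nat_lit 400) (nat_lit 339) (nat_lit 206))) (XT.nd (nat_lit 94) (nat_lit 0) (nat_lit 0) (XT.lf (nat_lit 0) (nat_lit 10833698272) (nat_lit 252) (nat_lit 1419921539) (nat_lit 336) (nat_lit 13507585623) (nat_lit 52) (nat_lit 5) (nat_lit 55) (nat_lit 5) (nat_lit 56) (nat_lit 5) (nat_lit 401) (nat_lit 339) (nat_lit 205)) (XT.lf (nat_lit 0) (nat_lit 16421930087) (nat_lit 336) (nat_lit 4343543564) (nat_lit 84) (nat_lit 5546158841) (nat_lit 52) (nat_lit 5) (nat_lit 56) (nat_lit 5) (nat_lit 53) (nat_lit 5) (nat_lit 402) (nat_lit 339) (nat_lit 204))))) (XT.nd (nat_lit 282) (nat_lit 252) (nat_lit 0) (XT.nd (nat_lit 94) (nat_lit 336) (nat_lit 0) (XT.lf (nat_lit 0) (nat_lit 6662423732) (nat_lit 252) (nat_lit 14123281755) (nat_lit 336) (nat_lit 6090763006)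 (nat_lit 49) (nat_lit 5) (nat_lit 52) (nat_lit 5) (nat_lit 53) (nat_lit 5) (nat_lit 403) (nat_lit 339) (nat_lit 203)) (XT.nd (nat_lit 94) (nat_lit 336) (nat_lit 0) (XT.lf (nat_lit 0) (nat_lit 18076256366) (nat_lit 252) (nat_lit 7240427698) (nat_lit 336) (nat_lit 2140485171) (nat_lit 49) (nat_lit 5) (nat_lit 52) (nat_lit 5) (nat_lit 53) (nat_lit 5) (nat_lit 404) (nat_lit 339) (nat_lit 202)) (XT.lf (nat_lit 0) (nat_lit 1782278439) (nat_lit 252) (nat_lit 118095242) (nat_lit 336) (nat_lit 26154078088) (nat_lit 45) (nat_lit 5) (nat_lit 48) (nat_lit 5) (nat_lit 49) (nat_lit 5) (nat_lit 405) (nat_lit 339) (nat_lit 201)))) (XT.nd (nat_lit 188) (nat_lit 252) (nat_lit 0) (XT.nd (nat_lit 94) (nat_lit 0) (nat_lit 0) (XT.lf (nat_lit 0) (nat_lit 6177128828) (nat_lit 336) (nat_lit 15296918588) (nat_lit 84) (nat_lit 7190246458) (nat_lit 45) (nat_lit 5) (nat_lit 49) (nat_lit 5) (nat_lit 46) (nat_lit 5)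 (nat_lit 406) (nat_lit 339) (nat_lit 200)) (XT.lf (nat_lit 0) (nat_lit 10576212670) (nat_lit 336) (nat_lit 4004506440) (nat_lit 84) (nat_lit 14711898777) (nat_lit 45) (nat_lit 5) (nat_lit 49) (nat_lit 5) (nat_lit 46) (nat_lit 5) (nat_lit 407) (nat_lit 339) (nat_lit 199))) (XT.nd (nat_lit 94) (nat_lit 0) (nat_lit 0) (XT.lf (nat_lit 0) (nat_lit 7767640110) (nat_lit 252) (nat_lit 7407361061) (nat_lit 336) (nat_lit 14762765691) (nat_lit 42) (nat_lit 5) (nat_lit 45) (nat_lit 5) (nat_lit 46) (nat_lit 5) (nat_lit 408) (nat_lit 339) (nat_lit 198)) (XT.lf (nat_lit 0) (nat_lit 19945541122) (nat_lit 336) (nat_lit 10636922554) (nat_lit 84) (nat_lit 18799995) (nat_lit 42) (nat_lit 5) (nat_lit 46) (nat_lit 5) (nat_lit 43) (nat_lit 5) (nat_lit 409) (nat_lit 339) (nat_lit 197)))))) (XT.nd (nat_lit 658) (nat_lit 420) (nat_lit 0) (XT.nd (nat_lit 282) (nat_lit 420) (nat_lit 0) (XT.nd (nat_lit 94) (nat_lit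 84) (nat_lit 0) (XT.lf (nat_lit 0) (nat_lit 1181621212) (nat_lit 168) (nat_lit 23755605312) (nat_lit 252) (nat_lit 6345104777) (nat_lit 40) (nat_lit 5) (nat_lit 42) (nat_lit 5) (nat_lit 43) (nat_lit 5) (nat_lit 410) (nat_lit 339) (nat_lit 196)) (XT.nd (nat_lit 94) (nat_lit 84) (nat_lit 0) (XT.lf (nat_lit 0) (nat_lit 13562495446) (nat_lit 168) (nat_lit 16617005194) (nat_lit 252) (nat_lit 1801311771) (nat_lit 40) (nat_lit 5) (nat_lit 42) (nat_lit 5) (nat_lit 43) (nat_lit 5) (nat_lit 411) (nat_lit 339) (nat_lit 195)) (XT.lf (nat_lit 0) (nat_lit 2816167455) (nat_lit 252) (nat_lit 6423232545) (nat_lit 84) (nat_lit 23460217548) (nat_lit 39) (nat_lit 5) (nat_lit 42) (nat_lit 5) (nat_lit 40) (nat_lit 5) (nat_lit 412) (nat_lit 339) (nat_lit 194)))) (XT.nd (nat_lit 188) (nat_lit 168) (nat_lit 0) (XT.nd (nat_lit 94) (nat_lit 0) (nat_lit 0) (XT.lf (nat_lit 0) (nat_lit 6021558577) (nat_lit 252) (nat_lit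 1566026815) (nat_lit 336) (nat_lit 25850323872) (nat_lit 36) (nat_lit 5) (nat_lit 39) (nat_lit 5) (nat_lit 40) (nat_lit 5) (nat_lit 413) (nat_lit 339) (nat_lit 193)) (XT.lf (nat_lit 0) (nat_lit 12622361505) (nat_lit 336) (nat_lit 15296477258) (nat_lit 84) (nat_lit 6275910360) (nat_lit 36) (nat_lit 5) (nat_lit 40) (nat_lit 5) (nat_lit 37) (nat_lit 5) (nat_lit 414) (nat_lit 339) (nat_lit 192))) (XT.nd (nat_lit 94) (nat_lit 168) (nat_lit 0) (XT.lf (nat_lit 0) (nat_lit 17817657962) (nat_lit 336) (nat_lit 2838099452) (nat_lit 84) (nat_lit 14318258143) (nat_lit 36) (nat_lit 5) (nat_lit 40) (nat_lit 5) (nat_lit 37) (nat_lit 5) (nat_lit 415) (nat_lit 339) (nat_lit 191)) (XT.lf (nat_lit 0) (nat_lit 10183437853) (nat_lit 168) (nat_lit 13077412317) (nat_lit 252) (nat_lit 12513054232) (nat_lit 34) (nat_lit 5) (nat_lit 36) (nat_lit 5) (nat_lit 37) (nat_lit 5) (nat_lit 416) (nat_lit 339) (nat_lit 190)))))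 (XT.nd (nat_lit 282) (nat_lit 168) (nat_lit 0) (XT.nd (nat_lit 94) (nat_lit 252) (nat_lit 0) (XT.lf (nat_lit 0) (nat_lit 23644583395) (nat_lit 168) (nat_lit 5245643283) (nat_lit 252) (nat_lit 7706881941) (nat_lit 34) (nat_lit 5) (nat_lit 36) (nat_lit 5) (nat_lit 37) (nat_lit 5) (nat_lit 417) (nat_lit 339) (nat_lit 189)) (XT.nd (nat_lit 94) (nat_lit 84) (nat_lit 0) (XT.lf (nat_lit 0) (nat_lit 28911736) (nat_lit 168) (nat_lit 34681333817) (nat_lit 252) (nat_lit 2734115785) (nat_lit 32) (nat_lit 5) (nat_lit 34) (nat_lit 5) (nat_lit 35) (nat_lit 5) (nat_lit 418) (nat_lit 339) (nat_lit 188)) (XT.lf (nat_lit 0) (nat_lit 2519648145) (nat_lit 252) (nat_lit 24733103722) (nat_lit 84) (nat_lit 11058243780) (nat_lit 31) (nat_lit 5) (nat_lit 34) (nat_lit 5) (nat_lit 32) (nat_lit 5) (nat_lit 419) (nat_lit 339) (nat_lit 187)))) (XT.nd (nat_lit 188) (nat_lit 0) (nat_lit 0) (XT.nd (nat_lit 94) (nat_lit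 168) (nat_lit 0) (XT.lf (nat_lit 0) (nat_lit 7870618430) (nat_lit 252) (nat_lit 11706208823) (nat_lit 84) (nat_lit 19626157991) (nat_lit 31) (nat_lit 5) (nat_lit 34) (nat_lit 5) (nat_lit 32) (nat_lit 5) (nat_lit 420) (nat_lit 339) (nat_lit 186)) (XT.lf (nat_lit 0) (nat_lit 1736790854) (nat_lit 168) (nat_lit 11656727361) (nat_lit 252) (nat_lit 26727878927) (nat_lit 29) (nat_lit 5) (nat_lit 31) (nat_lit 5) (nat_lit 32) (nat_lit 5) (nat_lit 421) (nat_lit 339) (nat_lit 185))) (XT.nd (nat_lit 94) (nat_lit 0) (nat_lit 0) (XT.lf (nat_lit 0) (nat_lit 15814537462) (nat_lit 168) (nat_lit 3380555008) (nat_lit 252) (nat_lit 21868883796) (nat_lit 29) (nat_lit 5) (nat_lit 31) (nat_lit 5) (nat_lit 32) (nat_lit 5) (nat_lit 422) (nat_lit 339) (nat_lit 184)) (XT.lf (nat_lit 0) (nat_lit 25215059442) (nat_lit 252) (nat_lit 11778049462) (nat_lit 84) (nat_lit 5040397854) (nat_lit 29) (nat_lit 5) (nat_lit 32)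 (nat_lit 5) (nat_lit 30) (nat_lit 5) (nat_lit 423) (nat_lit 339) (nat_lit 183))))))))
noncomputable def xc140 : XT := (XT.nd (nat_lit 51794) (nat_lit 0) (nat_lit 8736) (XT.nd (nat_lit 1222) (nat_lit 504) (nat_lit 0) (XT.nd (nat_lit 564) (nat_lit 336) (nat_lit 0) (XT.nd (nat_lit 282) (nat_lit 252) (nat_lit 0) (XT.nd (nat_lit 94) (nat_lit 0) (nat_lit 0) (XT.lf (nat_lit 0) (nat_lit 2096783973) (nat_lit 168) (nat_lit 29367515581) (nat_lit 252) (nat_lit 11566367623) (nat_lit 27) (nat_lit 5) (nat_lit 29) (nat_lit 5) (nat_lit 30) (nat_lit 5) (nat_lit 424) (nat_lit 339) (nat_lit 182)) (XT.nd (nat_lit 94) (nat_lit 0) (nat_lit 0) (XT.lf (nat_lit 0) (nat_lit 16621238156) (nat_lit 168) (nat_lit 21393828377) (nat_lit 252) (nat_lit 6039258495) (nat_lit 27) (nat_lit 5) (nat_lit 29) (nat_lit 5) (nat_lit 30) (nat_lit 5) (nat_lit 425) (nat_lit 339) (nat_lit 181)) (XT.lf (nat_lit 0) (nat_lit 31573598078)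 (nat_lit 168) (nat_lit 13184015198) (nat_lit 252) (nat_lit 351225627) (nat_lit 27) (nat_lit 5) (nat_lit 29) (nat_lit 5) (nat_lit 30) (nat_lit 5) (nat_lit 426) (nat_lit 339) (nat_lit 180)))) (XT.nd (nat_lit 94) (nat_lit 0) (nat_lit 0) (XT.lf (nat_lit 0) (nat_lit 733210942) (nat_lit 168) (nat_lit 4669160718) (nat_lit 252) (nat_lit 40790960259) (nat_lit 24) (nat_lit 5) (nat_lit 26) (nat_lit 5) (nat_lit 27) (nat_lit 5) (nat_lit 427) (nat_lit 339) (nat_lit 179)) (XT.nd (nat_lit 94) (nat_lit 0) (nat_lit 0) (XT.lf (nat_lit 0) (nat_lit 11494351606) (nat_lit 252) (nat_lit 31651070453) (nat_lit 84) (nat_lit 4159651974) (nat_lit 24) (nat_lit 5) (nat_lit 27) (nat_lit 5) (nat_lit 25) (nat_lit 5) (nat_lit 428) (nat_lit 339) (nat_lit 178)) (XT.lf (nat_lit 0) (nat_lit 17810833577) (nat_lit 252) (nat_lit 17481485626) (nat_lit 84) (nat_lit 13156600475) (nat_lit 24) (nat_lit 5) (nat_lit 27) (nat_lit 5) (nat_lit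 25) (nat_lit 5) (nat_lit 429) (nat_lit 339) (nat_lit 177))))) (XT.nd (nat_lit 282) (nat_lit 168) (nat_lit 0) (XT.nd (nat_lit 94) (nat_lit 168) (nat_lit 0) (XT.lf (nat_lit 0) (nat_lit 24312453999) (nat_lit 252) (nat_lit 2894102475) (nat_lit 84) (nat_lit 22420658340) (nat_lit 24) (nat_lit 5) (nat_lit 27) (nat_lit 5) (nat_lit 25) (nat_lit 5) (nat_lit 430) (nat_lit 339) (nat_lit 176)) (XT.nd (nat_lit 94) (nat_lit 0) (nat_lit 0) (XT.lf (nat_lit 0) (nat_lit 12365113150) (nat_lit 168) (nat_lit 18758641782) (nat_lit 252) (nat_lit 19713668258) (nat_lit 22) (nat_lit 5) (nat_lit 24) (nat_lit 5) (nat_lit 25) (nat_lit 5) (nat_lit 431) (nat_lit 339) (nat_lit 175)) (XT.lf (nat_lit 0) (nat_lit 28134423975) (nat_lit 168) (nat_lit 10030022363) (nat_lit 252) (nat_lit 13918743180) (nat_lit 22) (nat_lit 5) (nat_lit 24) (nat_lit 5) (nat_lit 25) (nat_lit 5) (nat_lit 432) (nat_lit 339) (nat_lit 174)))) (XT.nd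 (nat_lit 188) (nat_lit 84) (nat_lit 0) (XT.nd (nat_lit 94) (nat_lit 84) (nat_lit 0) (XT.lf (nat_lit 0) (nat_lit 44370010695) (nat_lit 168) (nat_lit 1042296029) (nat_lit 252) (nat_lit 7954146816) (nat_lit 22) (nat_lit 5) (nat_lit 24) (nat_lit 5) (nat_lit 25) (nat_lit 5) (nat_lit 433) (nat_lit 339) (nat_lit 173)) (XT.lf (nat_lit 0) (nat_lit 6444536792) (nat_lit 84) (nat_lit 46570023731) (nat_lit 168) (nat_lit 1669549289) (nat_lit 21) (nat_lit 5) (nat_lit 22) (nat_lit 5) (nat_lit 23) (nat_lit 4) (nat_lit 434) (nat_lit 339) (nat_lit 172))) (XT.nd (nat_lit 94) (nat_lit 0) (nat_lit 0) (XT.lf (nat_lit 0) (nat_lit 4807967069) (nat_lit 168) (nat_lit 33569516999) (nat_lit 84) (nat_lit 17659485853) (nat_lit 20) (nat_lit 5) (nat_lit 22) (nat_lit 5) (nat_lit 21) (nat_lit 5) (nat_lit 435) (nat_lit 339) (nat_lit 171)) (XT.lf (nat_lit 0) (nat_lit 11442418175) (nat_lit 168) (nat_lit 18482410319) (nat_lit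 84) (nat_lit 27505209267) (nat_lit 20) (nat_lit 5) (nat_lit 22) (nat_lit 5) (nat_lit 21) (nat_lit 5) (nat_lit 436) (nat_lit 339) (nat_lit 170)))))) (XT.nd (nat_lit 658) (nat_lit 252) (nat_lit 0) (XT.nd (nat_lit 282) (nat_lit 84) (nat_lit 0) (XT.nd (nat_lit 94) (nat_lit 168) (nat_lit 0) (XT.lf (nat_lit 0) (nat_lit 18272180041) (nat_lit 168) (nat_lit 2949021341) (nat_lit 84) (nat_lit 37643810654) (nat_lit 20) (nat_lit 5) (nat_lit 22) (nat_lit 5) (nat_lit 21) (nat_lit 5) (nat_lit 437) (nat_lit 339) (nat_lit 169)) (XT.nd (nat_lit 94) (nat_lit 0) (nat_lit 0) (XT.lf (nat_lit 0) (nat_lit 13303828407) (nat_lit 168) (nat_lit 12127276550) (nat_lit 252) (nat_lit 34908205115) (nat_lit 18) (nat_lit 5) (nat_lit 20) (nat_lit 5) (nat_lit 21) (nat_lit 5) (nat_lit 438) (nat_lit 339) (nat_lit 168)) (XT.lf (nat_lit 0) (nat_lit 30098629447) (nat_lit 168) (nat_lit 2732379932) (nat_lit 252) (nat_lit 29026043879)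 (nat_lit 18) (nat_lit 5) (nat_lit 20) (nat_lit 5) (nat_lit 21) (nat_lit 5) (nat_lit 439) (nat_lit 339) (nat_lit 167)))) (XT.nd (nat_lit 188) (nat_lit 0) (nat_lit 0) (XT.nd (nat_lit 94) (nat_lit 84) (nat_lit 0) (XT.lf (nat_lit 0) (nat_lit 40516177233) (nat_lit 252) (nat_lit 16095799563) (nat_lit 84) (nat_lit 6806456441) (nat_lit 18) (nat_lit 5) (nat_lit 21) (nat_lit 5) (nat_lit 19) (nat_lit 4) (nat_lit 440) (nat_lit 339) (nat_lit 166)) (XT.lf (nat_lit 0) (nat_lit 3909076) (nat_lit 84) (nat_lit 48451696285) (nat_lit 168) (nat_lit 16570340512) (nat_lit 17) (nat_lit 5) (nat_lit 18) (nat_lit 5) (nat_lit 19) (nat_lit 4) (nat_lit 441) (nat_lit 339) (nat_lit 165))) (XT.nd (nat_lit 94) (nat_lit 0) (nat_lit 0) (XT.lf (nat_lit 0) (nat_lit 16910796769) (nat_lit 84) (nat_lit 39881613215) (nat_lit 168) (nat_lit 9884500439) (nat_lit 17) (nat_lit 5) (nat_lit 18) (nat_lit 5) (nat_lit 19) (nat_lit 4) (nat_lit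 442) (nat_lit 339) (nat_lit 164)) (XT.lf (nat_lit 0) (nat_lit 34319298553) (nat_lit 84) (nat_lit 31056775179) (nat_lit 168) (nat_lit 3001429805) (nat_lit 17) (nat_lit 5) (nat_lit 18) (nat_lit 5) (nat_lit 19) (nat_lit 4) (nat_lit 443) (nat_lit 339) (nat_lit 163))))) (XT.nd (nat_lit 49538) (nat_lit 0) (nat_lit 14868) (XT.nd (nat_lit 94) (nat_lit 168) (nat_lit 0) (XT.lf (nat_lit 0) (nat_lit 4005174890) (nat_lit 168) (nat_lit 17923851849) (nat_lit 84) (nat_lit 48199006435) (nat_lit 16) (nat_lit 5) (nat_lit 18) (nat_lit 5) (nat_lit 17) (nat_lit 5) (nat_lit 444) (nat_lit 339) (nat_lit 162)) (XT.nd (nat_lit 94) (nat_lit 168) (nat_lit 0) (XT.lf (nat_lit 0) (nat_lit 11158560833) (nat_lit 168) (nat_lit 1340520355) (nat_lit 84) (nat_lit 59431200816) (nat_lit 16) (nat_lit 5) (nat_lit 18) (nat_lit 5) (nat_lit 17) (nat_lit 5) (nat_lit 445) (nat_lit 339) (nat_lit 161)) (XT.lf (nat_lit 0) (nat_lit 16048291333)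 (nat_lit 168) (nat_lit 2629521921) (nat_lit 252) (nat_lit 55104249119) (nat_lit 14) (nat_lit 5) (nat_lit 16) (nat_lit 5) (nat_lit 17) (nat_lit 5) (nat_lit 446) (nat_lit 339) (nat_lit 160)))) (XT.nd (nat_lit 188) (nat_lit 0) (nat_lit 0) (XT.nd (nat_lit 94) (nat_lit 1092) (nat_lit 0) (XT.lf (nat_lit 0) (nat_lit 4383991088) (nat_lit 1092) (nat_lit 102173974) (nat_lit 1092) (nat_lit 102173974) (nat_lit 204) (nat_lit 3) (nat_lit 217) (nat_lit 3) (nat_lit 217) (nat_lit 5) (nat_lit 340) (nat_lit 340) (nat_lit 265)) (XT.lf (nat_lit 0) (nat_lit 425412832) (nat_lit 1092) (nat_lit 5416549354) (nat_lit 1176) (nat_lit 3445923416) (nat_lit 191) (nat_lit 5) (nat_lit 204) (nat_lit 3) (nat_lit 205) (nat_lit 5) (nat_lit 341) (nat_lit 340) (nat_lit 264))) (XT.nd (nat_lit 94) (nat_lit 0) (nat_lit 84) (XT.lf (nat_lit 0) (nat_lit 1247249907) (nat_lit 1092) (nat_lit 1349764289) (nat_lit 1176) (nat_lit 6806228547)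 (nat_lit 191) (nat_lit 5) (nat_lit 204) (nat_lit 3) (nat_lit 205) (nat_lit 5) (nat_lit 342) (nat_lit 340) (nat_lit 263)) (XT.lf (nat_lit 0) (nat_lit 2098730962) (nat_lit 1092) (nat_lit 6650889247) (nat_lit 1176) (nat_lit 772351269) (nat_lit 192) (nat_lit 5) (nat_lit 205) (nat_lit 5) (nat_lit 206) (nat_lit 5) (nat_lit 343) (nat_lit 340) (nat_lit 262))))))) (XT.nd (nat_lit 1316) (nat_lit 5292) (nat_lit 0) (XT.nd (nat_lit 658) (nat_lit 924) (nat_lit 0) (XT.nd (nat_lit 282) (nat_lit 0) (nat_lit 84) (XT.nd (nat_lit 94) (nat_lit 0) (nat_lit 0) (XT.lf (nat_lit 0) (nat_lit 2985832060) (nat_lit 1092) (nat_lit 2440711587) (nat_lit 1176) (nat_lit 4217474943) (nat_lit 192) (nat_lit 5) (nat_lit 205) (nat_lit 5) (nat_lit 206) (nat_lit 5) (nat_lit 344) (nat_lit 340) (nat_lit 261)) (XT.nd (nat_lit 94) (nat_lit 0) (nat_lit 84) (XT.lf (nat_lit 84) (nat_lit 1916436482) (nat_lit 0) (nat_lit 1972985722) (nat_lit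 1176) (nat_lit 5880665702) (nat_lit 193) (nat_lit 5) (nat_lit 192) (nat_lit 5) (nat_lit 206) (nat_lit 5) (nat_lit 345) (nat_lit 340) (nat_lit 260)) (XT.lf (nat_lit 0) (nat_lit 4832473493) (nat_lit 1092) (nat_lit 3477908609) (nat_lit 1176) (nat_lit 1589242005) (nat_lit 193) (nat_lit 5) (nat_lit 206) (nat_lit 5) (nat_lit 207) (nat_lit 5) (nat_lit 346) (nat_lit 340) (nat_lit 259)))) (XT.nd (nat_lit 188) (nat_lit 0) (nat_lit 84) (XT.nd (nat_lit 94) (nat_lit 0) (nat_lit 0) (XT.lf (nat_lit 84) (nat_lit 1012268905) (nat_lit 0) (nat_lit 4793856083) (nat_lit 1176) (nat_lit 4226905940) (nat_lit 194) (nat_lit 5) (nat_lit 193) (nat_lit 5) (nat_lit 207) (nat_lit 5) (nat_lit 347) (nat_lit 340) (nat_lit 258)) (XT.lf (nat_lit 84) (nat_lit 5691556594) (nat_lit 0) (nat_lit 1126215892) (nat_lit 1176) (nat_lit 3352456103) (nat_lit 194) (nat_lit 5) (nat_lit 193) (nat_lit 5) (nat_lit 207) (nat_lit 5) (nat_lit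 348) (nat_lit 340) (nat_lit 257))) (XT.nd (nat_lit 94) (nat_lit 0) (nat_lit 0) (XT.lf (nat_lit 84) (nat_lit 160012960) (nat_lit 0) (nat_lit 7701303526) (nat_lit 1176) (nat_lit 2450229987) (nat_lit 195) (nat_lit 5) (nat_lit 194) (nat_lit 5) (nat_lit 208) (nat_lit 5) (nat_lit 349) (nat_lit 340) (nat_lit 256)) (XT.lf (nat_lit 84) (nat_lit 5001161104) (nat_lit 0) (nat_lit 3966371778) (nat_lit 1176) (nat_lit 1488679259) (nat_lit 195) (nat_lit 5) (nat_lit 194) (nat_lit 5) (nat_lit 208) (nat_lit 5) (nat_lit 350) (nat_lit 340) (nat_lit 255))))) (XT.nd (nat_lit 282) (nat_lit 0) (nat_lit 84) (XT.nd (nat_lit 94) (nat_lit 1092) (nat_lit 0) (XT.lf (nat_lit 84) (nat_lit 9970909544) (nat_lit 0) (nat_lit 111850440) (nat_lit 1176) (nat_lit 523230867) (nat_lit 195) (nat_lit 5) (nat_lit 194) (nat_lit 5) (nat_lit 208) (nat_lit 5) (nat_lit 351) (nat_lit 340) (nat_lit 254)) (XT.nd (nat_lit 94) (nat_lit 0) (nat_lit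 0) (XT.lf (nat_lit 0) (nat_lit 518094679) (nat_lit 1176) (nat_lit 6403202664) (nat_lit 1260) (nat_lit 3837191507) (nat_lit 181) (nat_lit 5) (nat_lit 195) (nat_lit 5) (nat_lit 196) (nat_lit 5) (nat_lit 352) (nat_lit 340) (nat_lit 253)) (XT.lf (nat_lit 0) (nat_lit 1564575654) (nat_lit 1176) (nat_lit 1430646303) (nat_lit 1260) (nat_lit 7920695194) (nat_lit 181) (nat_lit 5) (nat_lit 195) (nat_lit 5) (nat_lit 196) (nat_lit 5) (nat_lit 353) (nat_lit 340) (nat_lit 252)))) (XT.nd (nat_lit 188) (nat_lit 0) (nat_lit 0) (XT.nd (nat_lit 94) (nat_lit 0) (nat_lit 0) (XT.lf (nat_lit 0) (nat_lit 2666487160) (nat_lit 1176) (nat_lit 7340788165) (nat_lit 1260) (nat_lit 1070114361) (nat_lit 182) (nat_lit 5) (nat_lit 196) (nat_lit 5) (nat_lit 197) (nat_lit 5) (nat_lit 354) (nat_lit 340) (nat_lit 251)) (XT.lf (nat_lit 0) (nat_lit 3823769939) (nat_lit 1176) (nat_lit 2202269979) (nat_lit 1260) (nat_lit 5217038289)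 (nat_lit 182) (nat_lit 5) (nat_lit 196) (nat_lit 5) (nat_lit 197) (nat_lit 5) (nat_lit 355) (nat_lit 340) (nat_lit 250))) (XT.nd (nat_lit 94) (nat_lit 0) (nat_lit 84) (XT.lf (nat_lit 84) (nat_lit 3134687443) (nat_lit 0) (nat_lit 1889923579) (nat_lit 1260) (nat_lit 6388901197) (nat_lit 183) (nat_lit 5) (nat_lit 182) (nat_lit 5) (nat_lit 197) (nat_lit 5) (nat_lit 356) (nat_lit 340) (nat_lit 249)) (XT.lf (nat_lit 0) (nat_lit 6285926958) (nat_lit 1176) (nat_lit 2951922069) (nat_lit 84) (nat_lit 2350515597) (nat_lit 183) (nat_lit 5) (nat_lit 197) (nat_lit 5) (nat_lit 184) (nat_lit 5) (nat_lit 357) (nat_lit 340) (nat_lit 248)))))) (XT.nd (nat_lit 658) (nat_lit 1764) (nat_lit 0) (XT.nd (nat_lit 282) (nat_lit 1260) (nat_lit 0) (XT.nd (nat_lit 94) (nat_lit 1260) (nat_lit 0) (XT.lf (nat_lit 0) (nat_lit 2548898046) (nat_lit 1176) (nat_lit 5059209932) (nat_lit 1260) (nat_lit 4159701585) (nat_lit 169)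 (nat_lit 5) (nat_lit 183) (nat_lit 5) (nat_lit 184) (nat_lit 5) (nat_lit 358) (nat_lit 340) (nat_lit 247)) (XT.nd (nat_lit 94) (nat_lit 1260) (nat_lit 0) (XT.lf (nat_lit 0) (nat_lit 8258504377) (nat_lit 1176) (nat_lit 721497595) (nat_lit 1260) (nat_lit 2972371085) (nat_lit 169) (nat_lit 5) (nat_lit 183) (nat_lit 5) (nat_lit 184) (nat_lit 5) (nat_lit 359) (nat_lit 340) (nat_lit 246)) (XT.lf (nat_lit 0) (nat_lit 1982701652) (nat_lit 1260) (nat_lit 8446264831) (nat_lit 1344) (nat_lit 1712465127) (nat_lit 154) (nat_lit 5) (nat_lit 169) (nat_lit 5) (nat_lit 170) (nat_lit 5) (nat_lit 360) (nat_lit 340) (nat_lit 245)))) (XT.nd (nat_lit 188) (nat_lit 588) (nat_lit 0) (XT.nd (nat_lit 94) (nat_lit 672) (nat_lit 0) (XT.lf (nat_lit 0) (nat_lit 7881268499) (nat_lit 1260) (nat_lit 4065745460) (nat_lit 1344) (nat_lit 388414066) (nat_lit 154) (nat_lit 5) (nat_lit 169) (nat_lit 5) (nat_lit 170) (nat_lit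 5) (nat_lit 361) (nat_lit 340) (nat_lit 244)) (XT.lf (nat_lit 0) (nat_lit 956114736) (nat_lit 672) (nat_lit 11116373872) (nat_lit 84) (nat_lit 462513331) (nat_lit 146) (nat_lit 5) (nat_lit 154) (nat_lit 5) (nat_lit 147) (nat_lit 5) (nat_lit 362) (nat_lit 340) (nat_lit 243))) (XT.nd (nat_lit 94) (nat_lit 588) (nat_lit 0) (XT.lf (nat_lit 0) (nat_lit 2400817380) (nat_lit 672) (nat_lit 5241926751) (nat_lit 84) (nat_lit 5095705827) (nat_lit 146) (nat_lit 5) (nat_lit 154) (nat_lit 5) (nat_lit 147) (nat_lit 5) (nat_lit 363) (nat_lit 340) (nat_lit 242)) (XT.lf (nat_lit 0) (nat_lit 807944642) (nat_lit 588) (nat_lit 3071174379) (nat_lit 672) (nat_lit 9069205338) (nat_lit 139) (nat_lit 5) (nat_lit 146) (nat_lit 5) (nat_lit 147) (nat_lit 5) (nat_lit 364) (nat_lit 340) (nat_lit 241))))) (XT.nd (nat_lit 282) (nat_lit 1176) (nat_lit 0) (XT.nd (nat_lit 94) (nat_lit 588) (nat_lit 0) (XT.lf (nat_lit 0)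 (nat_lit 5453818843) (nat_lit 672) (nat_lit 6049369786) (nat_lit 84) (nat_lit 1659774672) (nat_lit 139) (nat_lit 5) (nat_lit 147) (nat_lit 5) (nat_lit 140) (nat_lit 5) (nat_lit 365) (nat_lit 340) (nat_lit 240)) (XT.nd (nat_lit 94) (nat_lit 0) (nat_lit 0) (XT.lf (nat_lit 0) (nat_lit 181025153) (nat_lit 588) (nat_lit 6910232588) (nat_lit 672) (nat_lit 6292347647) (nat_lit 132) (nat_lit 5) (nat_lit 139) (nat_lit 5) (nat_lit 140) (nat_lit 5) (nat_lit 366) (nat_lit 340) (nat_lit 239)) (XT.lf (nat_lit 0) (nat_lit 6706029488) (nat_lit 588) (nat_lit 2116555556) (nat_lit 672) (nat_lit 4786966810) (nat_lit 132) (nat_lit 5) (nat_lit 139) (nat_lit 5) (nat_lit 140) (nat_lit 5) (nat_lit 367) (nat_lit 340) (nat_lit 238)))) (XT.nd (nat_lit 188) (nat_lit 588) (nat_lit 0) (XT.nd (nat_lit 94) (nat_lit 588) (nat_lit 0) (XT.lf (nat_lit 0) (nat_lit 10617122659) (nat_lit 672) (nat_lit 458945642) (nat_lit 84)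 (nat_lit 2765897556) (nat_lit 132) (nat_lit 5) (nat_lit 140) (nat_lit 5) (nat_lit 133) (nat_lit 5) (nat_lit 368) (nat_lit 340) (nat_lit 237)) (XT.lf (nat_lit 0) (nat_lit 6264392711) (nat_lit 588) (nat_lit 6266892366) (nat_lit 672) (nat_lit 1548120007) (nat_lit 125) (nat_lit 5) (nat_lit 132) (nat_lit 5) (nat_lit 133) (nat_lit 5) (nat_lit 369) (nat_lit 340) (nat_lit 236))) (XT.nd (nat_lit 94) (nat_lit 504) (nat_lit 0) (XT.lf (nat_lit 0) (nat_lit 164832197) (nat_lit 672) (nat_lit 1142788665) (nat_lit 84) (nat_lit 13016637426) (nat_lit 124) (nat_lit 5) (nat_lit 132) (nat_lit 5) (nat_lit 125) (nat_lit 5) (nat_lit 370) (nat_lit 340) (nat_lit 235)) (XT.lf (nat_lit 0) (nat_lit 1976339319) (nat_lit 588) (nat_lit 8799897123) (nat_lit 84) (nat_lit 3797436565) (nat_lit 118) (nat_lit 5) (nat_lit 125) (nat_lit 5) (nat_lit 119) (nat_lit 5) (nat_lit 371) (nat_lit 340) (nat_lit 234))))))))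
noncomputable def xc141 : XT := (XT.nd (nat_lit 2538) (nat_lit 2772) (nat_lit 0) (XT.nd (nat_lit 1222) (nat_lit 2184) (nat_lit 0) (XT.nd (nat_lit 564) (nat_lit 1260) (nat_lit 0) (XT.nd (nat_lit 282) (nat_lit 924) (nat_lit 0) (XT.nd (nat_lit 94) (nat_lit 504) (nat_lit 0) (XT.lf (nat_lit 0) (nat_lit 3852250105) (nat_lit 588) (nat_lit 1937886738) (nat_lit 84) (nat_lit 9040155084) (nat_lit 118) (nat_lit 5) (nat_lit 125) (nat_lit 5) (nat_lit 119) (nat_lit 5) (nat_lit 372) (nat_lit 340) (nat_lit 233)) (XT.nd (nat_lit 94) (nat_lit 0) (nat_lit 0) (XT.lf (nat_lit 0) (nat_lit 5216371049) (nat_lit 504) (nat_lit 604091208) (nat_lit 588) (nat_lit 9273089264) (nat_lit 112) (nat_lit 5) (nat_lit 118) (nat_lit 5) (nat_lit 119) (nat_lit 5) (nat_lit 373) (nat_lit 340) (nat_lit 232)) (XT.lf (nat_lit 0) (nat_lit 7899155750) (nat_lit 588) (nat_lit 2800550771) (nat_lit 84) (nat_lit 4663481495) (nat_lit 112)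 (nat_lit 5) (nat_lit 119) (nat_lit 5) (nat_lit 113) (nat_lit 5) (nat_lit 374) (nat_lit 340) (nat_lit 231)))) (XT.nd (nat_lit 94) (nat_lit 504) (nat_lit 0) (XT.lf (nat_lit 0) (nat_lit 4556082454) (nat_lit 420) (nat_lit 5520440736) (nat_lit 504) (nat_lit 5563322538) (nat_lit 107) (nat_lit 5) (nat_lit 112) (nat_lit 5) (nat_lit 113) (nat_lit 5) (nat_lit 375) (nat_lit 340) (nat_lit 230)) (XT.nd (nat_lit 94) (nat_lit 504) (nat_lit 0) (XT.lf (nat_lit 0) (nat_lit 12175752591) (nat_lit 420) (nat_lit 158522606) (nat_lit 504) (nat_lit 3590096959) (nat_lit 107) (nat_lit 5) (nat_lit 112) (nat_lit 5) (nat_lit 113) (nat_lit 5) (nat_lit 376) (nat_lit 340) (nat_lit 229)) (XT.lf (nat_lit 0) (nat_lit 3814427586) (nat_lit 504) (nat_lit 10920714387) (nat_lit 588) (nat_lit 1480051220) (nat_lit 101) (nat_lit 5) (nat_lit 107) (nat_lit 5) (nat_lit 108) (nat_lit 5) (nat_lit 377) (nat_lit 340) (nat_lit 228)))))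 (XT.nd (nat_lit 282) (nat_lit 756) (nat_lit 0) (XT.nd (nat_lit 94) (nat_lit 420) (nat_lit 0) (XT.lf (nat_lit 0) (nat_lit 706803376) (nat_lit 588) (nat_lit 4856148234) (nat_lit 84) (nat_lit 10950795353) (nat_lit 100) (nat_lit 5) (nat_lit 107) (nat_lit 5) (nat_lit 101) (nat_lit 5) (nat_lit 378) (nat_lit 340) (nat_lit 227)) (XT.nd (nat_lit 94) (nat_lit 0) (nat_lit 0) (XT.lf (nat_lit 0) (nat_lit 2942875460) (nat_lit 420) (nat_lit 2539169) (nat_lit 504) (nat_lit 13874944700) (nat_lit 95) (nat_lit 5) (nat_lit 100) (nat_lit 5) (nat_lit 101) (nat_lit 5) (nat_lit 379) (nat_lit 340) (nat_lit 226)) (XT.lf (nat_lit 0) (nat_lit 5343544293) (nat_lit 504) (nat_lit 6129717779) (nat_lit 84) (nat_lit 5660155212) (nat_lit 95) (nat_lit 5) (nat_lit 101) (nat_lit 5) (nat_lit 96) (nat_lit 5) (nat_lit 380) (nat_lit 340) (nat_lit 225)))) (XT.nd (nat_lit 188) (nat_lit 336) (nat_lit 0) (XT.nd (nat_lit 94) (nat_lit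 0) (nat_lit 0) (XT.lf (nat_lit 0) (nat_lit 1872509854) (nat_lit 420) (nat_lit 5947295751) (nat_lit 504) (nat_lit 9635893235) (nat_lit 90) (nat_lit 5) (nat_lit 95) (nat_lit 5) (nat_lit 96) (nat_lit 5) (nat_lit 381) (nat_lit 340) (nat_lit 224)) (XT.lf (nat_lit 0) (nat_lit 10226113828) (nat_lit 420) (nat_lit 194508858) (nat_lit 504) (nat_lit 7365535105) (nat_lit 90) (nat_lit 5) (nat_lit 95) (nat_lit 5) (nat_lit 96) (nat_lit 5) (nat_lit 382) (nat_lit 340) (nat_lit 223))) (XT.nd (nat_lit 94) (nat_lit 0) (nat_lit 0) (XT.lf (nat_lit 0) (nat_lit 647077852) (nat_lit 336) (nat_lit 12502378302) (nat_lit 420) (nat_lit 4975591093) (nat_lit 86) (nat_lit 5) (nat_lit 90) (nat_lit 5) (nat_lit 91) (nat_lit 5) (nat_lit 383) (nat_lit 340) (nat_lit 222)) (XT.lf (nat_lit 0) (nat_lit 9239306591) (nat_lit 336) (nat_lit 6787973746) (nat_lit 420) (nat_lit 2444825289) (nat_lit 86) (nat_lit 5) (nat_lit 90) (nat_lit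 5) (nat_lit 91) (nat_lit 5) (nat_lit 384) (nat_lit 340) (nat_lit 221)))))) (XT.nd (nat_lit 658) (nat_lit 1008) (nat_lit 0) (XT.nd (nat_lit 282) (nat_lit 672) (nat_lit 0) (XT.nd (nat_lit 94) (nat_lit 420) (nat_lit 0) (XT.lf (nat_lit 0) (nat_lit 147783896) (nat_lit 420) (nat_lit 755766853) (nat_lit 84) (nat_lit 17926321052) (nat_lit 85) (nat_lit 5) (nat_lit 90) (nat_lit 5) (nat_lit 86) (nat_lit 5) (nat_lit 385) (nat_lit 340) (nat_lit 220)) (XT.nd (nat_lit 94) (nat_lit 0) (nat_lit 0) (XT.lf (nat_lit 0) (nat_lit 2886809933) (nat_lit 504) (nat_lit 11150383778) (nat_lit 84) (nat_lit 5156932401) (nat_lit 80) (nat_lit 5) (nat_lit 86) (nat_lit 5) (nat_lit 81) (nat_lit 5) (nat_lit 386) (nat_lit 340) (nat_lit 219)) (XT.lf (nat_lit 0) (nat_lit 5714208581) (nat_lit 504) (nat_lit 2469068496) (nat_lit 84) (nat_lit 11385859148) (nat_lit 80) (nat_lit 5) (nat_lit 86) (nat_lit 5) (nat_lit 81) (nat_lit 5)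 (nat_lit 387) (nat_lit 340) (nat_lit 218)))) (XT.nd (nat_lit 188) (nat_lit 336) (nat_lit 0) (XT.nd (nat_lit 94) (nat_lit 0) (nat_lit 0) (XT.lf (nat_lit 0) (nat_lit 6587942613) (nat_lit 336) (nat_lit 2091666781) (nat_lit 420) (nat_lit 11274205651) (nat_lit 76) (nat_lit 5) (nat_lit 80) (nat_lit 5) (nat_lit 81) (nat_lit 5) (nat_lit 388) (nat_lit 340) (nat_lit 217)) (XT.lf (nat_lit 0) (nat_lit 11789349616) (nat_lit 420) (nat_lit 4435912000) (nat_lit 84) (nat_lit 4123124702) (nat_lit 76) (nat_lit 5) (nat_lit 81) (nat_lit 5) (nat_lit 77) (nat_lit 5) (nat_lit 389) (nat_lit 340) (nat_lit 216))) (XT.nd (nat_lit 94) (nat_lit 0) (nat_lit 0) (XT.lf (nat_lit 0) (nat_lit 4822279620) (nat_lit 336) (nat_lit 10227449398) (nat_lit 420) (nat_lit 5703358319) (nat_lit 72) (nat_lit 5) (nat_lit 76) (nat_lit 5) (nat_lit 77) (nat_lit 5) (nat_lit 390) (nat_lit 340) (nat_lit 215)) (XT.lf (nat_lit 0) (nat_lit 14436218761)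 (nat_lit 336) (nat_lit 4006936492) (nat_lit 420) (nat_lit 2725729709) (nat_lit 72) (nat_lit 5) (nat_lit 76) (nat_lit 5) (nat_lit 77) (nat_lit 5) (nat_lit 391) (nat_lit 340) (nat_lit 214))))) (XT.nd (nat_lit 282) (nat_lit 252) (nat_lit 0) (XT.nd (nat_lit 94) (nat_lit 336) (nat_lit 0) (XT.lf (nat_lit 0) (nat_lit 375241348) (nat_lit 420) (nat_lit 18840258856) (nat_lit 84) (nat_lit 2380349660) (nat_lit 67) (nat_lit 5) (nat_lit 72) (nat_lit 5) (nat_lit 68) (nat_lit 5) (nat_lit 392) (nat_lit 340) (nat_lit 213)) (XT.nd (nat_lit 94) (nat_lit 336) (nat_lit 0) (XT.lf (nat_lit 0) (nat_lit 3613524806) (nat_lit 420) (nat_lit 9447291336) (nat_lit 84) (nat_lit 8971037480) (nat_lit 67) (nat_lit 5) (nat_lit 72) (nat_lit 5) (nat_lit 68) (nat_lit 5) (nat_lit 393) (nat_lit 340) (nat_lit 212)) (XT.lf (nat_lit 0) (nat_lit 219235494) (nat_lit 336) (nat_lit 6722833783) (nat_lit 420) (nat_lit 15539086071) (nat_lit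 63) (nat_lit 5) (nat_lit 67) (nat_lit 5) (nat_lit 68) (nat_lit 5) (nat_lit 394) (nat_lit 340) (nat_lit 211)))) (XT.nd (nat_lit 188) (nat_lit 252) (nat_lit 0) (XT.nd (nat_lit 94) (nat_lit 0) (nat_lit 0) (XT.lf (nat_lit 0) (nat_lit 10357033177) (nat_lit 336) (nat_lit 99984041) (nat_lit 420) (nat_lit 12484333397) (nat_lit 63) (nat_lit 5) (nat_lit 67) (nat_lit 5) (nat_lit 68) (nat_lit 5) (nat_lit 395) (nat_lit 340) (nat_lit 210)) (XT.lf (nat_lit 0) (nat_lit 14133398128) (nat_lit 420) (nat_lit 2693258476) (nat_lit 84) (nat_lit 6587026184) (nat_lit 63) (nat_lit 5) (nat_lit 68) (nat_lit 5) (nat_lit 64) (nat_lit 5) (nat_lit 396) (nat_lit 340) (nat_lit 209))) (XT.nd (nat_lit 94) (nat_lit 0) (nat_lit 0) (XT.lf (nat_lit 0) (nat_lit 7630538827) (nat_lit 252) (nat_lit 10355495130) (nat_lit 336) (nat_lit 5912182343) (nat_lit 60) (nat_lit 5) (nat_lit 63) (nat_lit 5) (nat_lit 64) (nat_lit 5) (nat_lit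 397) (nat_lit 340) (nat_lit 208)) (XT.lf (nat_lit 0) (nat_lit 18307473120) (nat_lit 252) (nat_lit 3665727176) (nat_lit 336) (nat_lit 2423526954) (nat_lit 60) (nat_lit 5) (nat_lit 63) (nat_lit 5) (nat_lit 64) (nat_lit 5) (nat_lit 398) (nat_lit 340) (nat_lit 207))))))) (XT.nd (nat_lit 1316) (nat_lit 1092) (nat_lit 0) (XT.nd (nat_lit 658) (nat_lit 756) (nat_lit 0) (XT.nd (nat_lit 282) (nat_lit 252) (nat_lit 0) (XT.nd (nat_lit 94) (nat_lit 252) (nat_lit 0) (XT.lf (nat_lit 0) (nat_lit 1213226935) (nat_lit 420) (nat_lit 20481654006) (nat_lit 84) (nat_lit 3212996682) (nat_lit 55) (nat_lit 5) (nat_lit 60) (nat_lit 5) (nat_lit 56) (nat_lit 5) (nat_lit 399) (nat_lit 340) (nat_lit 206)) (XT.nd (nat_lit 94) (nat_lit 252) (nat_lit 0) (XT.lf (nat_lit 0) (nat_lit 5000763075) (nat_lit 420) (nat_lit 10123140519) (nat_lit 84) (nat_lit 10307036482) (nat_lit 55) (nat_lit 5) (nat_lit 60) (nat_lit 5) (nat_lit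 56) (nat_lit 5) (nat_lit 400) (nat_lit 340) (nat_lit 205)) (XT.lf (nat_lit 0) (nat_lit 545398554) (nat_lit 252) (nat_lit 8353999996) (nat_lit 336) (nat_lit 17070380519) (nat_lit 52) (nat_lit 5) (nat_lit 55) (nat_lit 5) (nat_lit 56) (nat_lit 5) (nat_lit 401) (nat_lit 340) (nat_lit 204)))) (XT.nd (nat_lit 188) (nat_lit 252) (nat_lit 0) (XT.nd (nat_lit 94) (nat_lit 0) (nat_lit 0) (XT.lf (nat_lit 0) (nat_lit 11730247243) (nat_lit 252) (nat_lit 1279318310) (nat_lit 336) (nat_lit 13512389112) (nat_lit 52) (nat_lit 5) (nat_lit 55) (nat_lit 5) (nat_lit 56) (nat_lit 5) (nat_lit 402) (nat_lit 340) (nat_lit 203)) (XT.lf (nat_lit 0) (nat_lit 17293324093) (nat_lit 336) (nat_lit 3908933448) (nat_lit 84) (nat_lit 5886937748) (nat_lit 52) (nat_lit 5) (nat_lit 56) (nat_lit 5) (nat_lit 53) (nat_lit 5) (nat_lit 403) (nat_lit 340) (nat_lit 202))) (XT.nd (nat_lit 94) (nat_lit 0) (nat_lit 0) (XT.lf (nat_lit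 0) (nat_lit 7421674471) (nat_lit 252) (nat_lit 14360684219) (nat_lit 336) (nat_lit 5888799654) (nat_lit 49) (nat_lit 5) (nat_lit 52) (nat_lit 5) (nat_lit 53) (nat_lit 5) (nat_lit 404) (nat_lit 340) (nat_lit 201)) (XT.lf (nat_lit 0) (nat_lit 19161629520) (nat_lit 252) (nat_lit 7276770637) (nat_lit 336) (nat_lit 1831217937) (nat_lit 49) (nat_lit 5) (nat_lit 52) (nat_lit 5) (nat_lit 53) (nat_lit 5) (nat_lit 405) (nat_lit 340) (nat_lit 200))))) (XT.nd (nat_lit 282) (nat_lit 420) (nat_lit 0) (XT.nd (nat_lit 94) (nat_lit 0) (nat_lit 0) (XT.lf (nat_lit 0) (nat_lit 2318760367) (nat_lit 336) (nat_lit 26504381843) (nat_lit 84) (nat_lit 61725045) (nat_lit 45) (nat_lit 5) (nat_lit 49) (nat_lit 5) (nat_lit 46) (nat_lit 5) (nat_lit 406) (nat_lit 340) (nat_lit 199)) (XT.nd (nat_lit 94) (nat_lit 0) (nat_lit 0) (XT.lf (nat_lit 0) (nat_lit 6714427872) (nat_lit 336) (nat_lit 15217197576) (nat_lit 84) (nat_lit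 7581671860) (nat_lit 45) (nat_lit 5) (nat_lit 49) (nat_lit 5) (nat_lit 46) (nat_lit 5) (nat_lit 407) (nat_lit 340) (nat_lit 198)) (XT.lf (nat_lit 0) (nat_lit 11235232233) (nat_lit 336) (nat_lit 3601701273) (nat_lit 84) (nat_lit 15323855748) (nat_lit 45) (nat_lit 5) (nat_lit 49) (nat_lit 5) (nat_lit 46) (nat_lit 5) (nat_lit 408) (nat_lit 340) (nat_lit 197)))) (XT.nd (nat_lit 188) (nat_lit 168) (nat_lit 0) (XT.nd (nat_lit 94) (nat_lit 0) (nat_lit 0) (XT.lf (nat_lit 0) (nat_lit 8518482807) (nat_lit 252) (nat_lit 7448525729) (nat_lit 336) (nat_lit 14858443784) (nat_lit 42) (nat_lit 5) (nat_lit 45) (nat_lit 5) (nat_lit 46) (nat_lit 5) (nat_lit 409) (nat_lit 340) (nat_lit 196)) (XT.lf (nat_lit 0) (nat_lit 20872545950) (nat_lit 336) (nat_lit 10444845164) (nat_lit 84) (nat_lit 191716525) (nat_lit 42) (nat_lit 5) (nat_lit 46) (nat_lit 5) (nat_lit 43) (nat_lit 5) (nat_lit 410) (nat_lit 340) (nat_lit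 195))) (XT.nd (nat_lit 94) (nat_lit 0) (nat_lit 0) (XT.lf (nat_lit 0) (nat_lit 1723243296) (nat_lit 168) (nat_lit 24286032269) (nat_lit 252) (nat_lit 6201482674) (nat_lit 40) (nat_lit 5) (nat_lit 42) (nat_lit 5) (nat_lit 43) (nat_lit 5) (nat_lit 411) (nat_lit 340) (nat_lit 194)) (XT.lf (nat_lit 0) (nat_lit 14460800842) (nat_lit 168) (nat_lit 16938582143) (nat_lit 252) (nat_lit 1531103312) (nat_lit 40) (nat_lit 5) (nat_lit 42) (nat_lit 5) (nat_lit 43) (nat_lit 5) (nat_lit 412) (nat_lit 340) (nat_lit 193)))))) (XT.nd (nat_lit 658) (nat_lit 420) (nat_lit 0) (XT.nd (nat_lit 282) (nat_lit 336) (nat_lit 0) (XT.nd (nat_lit 94) (nat_lit 252) (nat_lit 0) (XT.lf (nat_lit 0) (nat_lit 3209313226) (nat_lit 252) (nat_lit 6132372094) (nat_lit 84) (nat_lit 24329363481) (nat_lit 39) (nat_lit 5) (nat_lit 42) (nat_lit 5) (nat_lit 40) (nat_lit 5) (nat_lit 413) (nat_lit 340) (nat_lit 192)) (XT.nd (nat_lit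 94) (nat_lit 0) (nat_lit 0) (XT.lf (nat_lit 0) (nat_lit 6681022002) (nat_lit 252) (nat_lit 1438464258) (nat_lit 336) (nat_lit 26312143295) (nat_lit 36) (nat_lit 5) (nat_lit 39) (nat_lit 5) (nat_lit 40) (nat_lit 5) (nat_lit 414) (nat_lit 340) (nat_lit 191)) (XT.lf (nat_lit 0) (nat_lit 13298072276) (nat_lit 336) (nat_lit 15282987268) (nat_lit 84) (nat_lit 6630340478) (nat_lit 36) (nat_lit 5) (nat_lit 40) (nat_lit 5) (nat_lit 37) (nat_lit 5) (nat_lit 415) (nat_lit 340) (nat_lit 190)))) (XT.nd (nat_lit 188) (nat_lit 168) (nat_lit 0) (XT.nd (nat_lit 94) (nat_lit 168) (nat_lit 0) (XT.lf (nat_lit 0) (nat_lit 18640575979) (nat_lit 336) (nat_lit 2464616893) (nat_lit 84) (nat_lit 14909119293) (nat_lit 36) (nat_lit 5) (nat_lit 40) (nat_lit 5) (nat_lit 37) (nat_lit 5) (nat_lit 416) (nat_lit 340) (nat_lit 189)) (XT.lf (nat_lit 0) (nat_lit 10943070202) (nat_lit 168) (nat_lit 13299959460) (nat_lit 252)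 (nat_lit 12595296970) (nat_lit 34) (nat_lit 5) (nat_lit 36) (nat_lit 5) (nat_lit 37) (nat_lit 5) (nat_lit 417) (nat_lit 340) (nat_lit 188))) (XT.nd (nat_lit 94) (nat_lit 168) (nat_lit 0) (XT.lf (nat_lit 0) (nat_lit 24794823045) (nat_lit 168) (nat_lit 5238182265) (nat_lit 252) (nat_lit 7653477828) (nat_lit 34) (nat_lit 5) (nat_lit 36) (nat_lit 5) (nat_lit 37) (nat_lit 5) (nat_lit 418) (nat_lit 340) (nat_lit 187)) (XT.lf (nat_lit 0) (nat_lit 473244777) (nat_lit 168) (nat_lit 35552140212) (nat_lit 252) (nat_lit 2533843116) (nat_lit 32) (nat_lit 5) (nat_lit 34) (nat_lit 5) (nat_lit 35) (nat_lit 5) (nat_lit 419) (nat_lit 340) (nat_lit 186))))) (XT.nd (nat_lit 282) (nat_lit 168) (nat_lit 0) (XT.nd (nat_lit 94) (nat_lit 168) (nat_lit 0) (XT.lf (nat_lit 0) (nat_lit 2863963345) (nat_lit 252) (nat_lit 25038964640) (nat_lit 84) (nat_lit 11549100948) (nat_lit 31) (nat_lit 5) (nat_lit 34) (nat_lit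 5) (nat_lit 32) (nat_lit 5) (nat_lit 420) (nat_lit 340) (nat_lit 185)) (XT.nd (nat_lit 94) (nat_lit 168) (nat_lit 0) (XT.lf (nat_lit 0) (nat_lit 8367635775) (nat_lit 252) (nat_lit 11633965774) (nat_lit 84) (nat_lit 20369418317) (nat_lit 31) (nat_lit 5) (nat_lit 34) (nat_lit 5) (nat_lit 32) (nat_lit 5) (nat_lit 421) (nat_lit 340) (nat_lit 184)) (XT.lf (nat_lit 0) (nat_lit 2208172626) (nat_lit 168) (nat_lit 11844481291) (nat_lit 252) (nat_lit 27264443903) (nat_lit 29) (nat_lit 5) (nat_lit 31) (nat_lit 5) (nat_lit 32) (nat_lit 5) (nat_lit 422) (nat_lit 340) (nat_lit 183)))) (XT.nd (nat_lit 188) (nat_lit 168) (nat_lit 0) (XT.nd (nat_lit 94) (nat_lit 0) (nat_lit 0) (XT.lf (nat_lit 0) (nat_lit 16696039650) (nat_lit 168) (nat_lit 3324740696) (nat_lit 252) (nat_lit 22267405269) (nat_lit 29) (nat_lit 5) (nat_lit 31) (nat_lit 5) (nat_lit 32) (nat_lit 5) (nat_lit 423) (nat_lit 340) (nat_lit 182))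 (XT.lf (nat_lit 0) (nat_lit 26215536955) (nat_lit 252) (nat_lit 11730163177) (nat_lit 84) (nat_lit 5341282431) (nat_lit 29) (nat_lit 5) (nat_lit 32) (nat_lit 5) (nat_lit 30) (nat_lit 5) (nat_lit 424) (nat_lit 340) (nat_lit 181))) (XT.nd (nat_lit 94) (nat_lit 0) (nat_lit 0) (XT.lf (nat_lit 0) (nat_lit 2556981656) (nat_lit 168) (nat_lit 30091984104) (nat_lit 252) (nat_lit 11665196766) (nat_lit 27) (nat_lit 5) (nat_lit 29) (nat_lit 5) (nat_lit 30) (nat_lit 5) (nat_lit 425) (nat_lit 340) (nat_lit 180)) (XT.lf (nat_lit 0) (nat_lit 17505597789) (nat_lit 168) (nat_lit 21883646195) (nat_lit 252) (nat_lit 5979502380) (nat_lit 27) (nat_lit 5) (nat_lit 29) (nat_lit 5) (nat_lit 30) (nat_lit 5) (nat_lit 426) (nat_lit 340) (nat_lit 179))))))))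
noncomputable def xc142 : XT := (XT.nd (nat_lit 51888) (nat_lit 0) (nat_lit 8064) (XT.nd (nat_lit 1222) (nat_lit 168) (nat_lit 0) (XT.nd (nat_lit 564) (nat_lit 336) (nat_lit 0) (XT.nd (nat_lit 282) (nat_lit 168) (nat_lit 0) (XT.nd (nat_lit 94) (nat_lit 252) (nat_lit 0) (XT.lf (nat_lit 0) (nat_lit 32895293873) (nat_lit 168) (nat_lit 13431965719) (nat_lit 252) (nat_lit 127846017) (nat_lit 27) (nat_lit 5) (nat_lit 29) (nat_lit 5) (nat_lit 30) (nat_lit 5) (nat_lit 427) (nat_lit 340) (nat_lit 178)) (XT.nd (nat_lit 94) (nat_lit 0) (nat_lit 0) (XT.lf (nat_lit 0) (nat_lit 1130727019) (nat_lit 168) (nat_lit 4659997193) (nat_lit 252) (nat_lit 41781439260) (nat_lit 24) (nat_lit 5) (nat_lit 26) (nat_lit 5) (nat_lit 27) (nat_lit 5) (nat_lit 428) (nat_lit 340) (nat_lit 177)) (XT.lf (nat_lit 0) (nat_lit 12060265623) (nat_lit 252) (nat_lit 32230647631) (nat_lit 84) (nat_lit 4426505775) (nat_lit 24) (nat_lit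 5) (nat_lit 27) (nat_lit 5) (nat_lit 25) (nat_lit 5) (nat_lit 429) (nat_lit 340) (nat_lit 176)))) (XT.nd (nat_lit 94) (nat_lit 168) (nat_lit 0) (XT.lf (nat_lit 0) (nat_lit 18559802728) (nat_lit 252) (nat_lit 17646750645) (nat_lit 84) (nat_lit 13689224938) (nat_lit 24) (nat_lit 5) (nat_lit 27) (nat_lit 5) (nat_lit 25) (nat_lit 5) (nat_lit 430) (nat_lit 340) (nat_lit 175)) (XT.nd (nat_lit 94) (nat_lit 168) (nat_lit 0) (XT.lf (nat_lit 0) (nat_lit 25250219992) (nat_lit 252) (nat_lit 2632207540) (nat_lit 84) (nat_lit 23227187263) (nat_lit 24) (nat_lit 5) (nat_lit 27) (nat_lit 5) (nat_lit 25) (nat_lit 5) (nat_lit 431) (nat_lit 340) (nat_lit 174)) (XT.lf (nat_lit 0) (nat_lit 13081365750) (nat_lit 168) (nat_lit 19181743750) (nat_lit 252) (nat_lit 20093107234) (nat_lit 22) (nat_lit 5) (nat_lit 24) (nat_lit 5) (nat_lit 25) (nat_lit 5) (nat_lit 432) (nat_lit 340) (nat_lit 173))))) (XT.nd (nat_lit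 282) (nat_lit 252) (nat_lit 0) (XT.nd (nat_lit 94) (nat_lit 84) (nat_lit 0) (XT.lf (nat_lit 0) (nat_lit 29313698641) (nat_lit 168) (nat_lit 10195333436) (nat_lit 252) (nat_lit 14130508318) (nat_lit 22) (nat_lit 5) (nat_lit 24) (nat_lit 5) (nat_lit 25) (nat_lit 5) (nat_lit 433) (nat_lit 340) (nat_lit 172)) (XT.nd (nat_lit 94) (nat_lit 84) (nat_lit 0) (XT.lf (nat_lit 0) (nat_lit 46026588634) (nat_lit 168) (nat_lit 941924524) (nat_lit 252) (nat_lit 7992968155) (nat_lit 22) (nat_lit 5) (nat_lit 24) (nat_lit 5) (nat_lit 25) (nat_lit 5) (nat_lit 434) (nat_lit 340) (nat_lit 171)) (XT.lf (nat_lit 0) (nat_lit 6964813900) (nat_lit 84) (nat_lit 47832746235) (nat_lit 168) (nat_lit 1521149762) (nat_lit 21) (nat_lit 5) (nat_lit 22) (nat_lit 5) (nat_lit 23) (nat_lit 4) (nat_lit 435) (nat_lit 340) (nat_lit 170)))) (XT.nd (nat_lit 188) (nat_lit 168) (nat_lit 0) (XT.nd (nat_lit 94) (nat_lit 0) (nat_lit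 0) (XT.lf (nat_lit 0) (nat_lit 5141150576) (nat_lit 168) (nat_lit 34255285766) (nat_lit 84) (nat_lit 18315836416) (nat_lit 20) (nat_lit 5) (nat_lit 22) (nat_lit 5) (nat_lit 21) (nat_lit 5) (nat_lit 436) (nat_lit 340) (nat_lit 169)) (XT.lf (nat_lit 0) (nat_lit 11969131977) (nat_lit 168) (nat_lit 18724924625) (nat_lit 84) (nat_lit 28453245144) (nat_lit 20) (nat_lit 5) (nat_lit 22) (nat_lit 5) (nat_lit 21) (nat_lit 5) (nat_lit 437) (nat_lit 340) (nat_lit 168))) (XT.nd (nat_lit 94) (nat_lit 168) (nat_lit 0) (XT.lf (nat_lit 0) (nat_lit 18998443750) (nat_lit 168) (nat_lit 2734620134) (nat_lit 84) (nat_lit 38892425555) (nat_lit 20) (nat_lit 5) (nat_lit 22) (nat_lit 5) (nat_lit 21) (nat_lit 5) (nat_lit 438) (nat_lit 340) (nat_lit 167)) (XT.lf (nat_lit 0) (nat_lit 14002845775) (nat_lit 168) (nat_lit 12366986155) (nat_lit 252) (nat_lit 35774257406) (nat_lit 18) (nat_lit 5) (nat_lit 20) (nat_lit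 5) (nat_lit 21) (nat_lit 5) (nat_lit 439) (nat_lit 340) (nat_lit 166)))))) (XT.nd (nat_lit 50008) (nat_lit 0) (nat_lit 14700) (XT.nd (nat_lit 282) (nat_lit 84) (nat_lit 0) (XT.nd (nat_lit 94) (nat_lit 84) (nat_lit 0) (XT.lf (nat_lit 0) (nat_lit 31292755821) (nat_lit 168) (nat_lit 2693857455) (nat_lit 252) (nat_lit 29720908825) (nat_lit 18) (nat_lit 5) (nat_lit 20) (nat_lit 5) (nat_lit 21) (nat_lit 5) (nat_lit 440) (nat_lit 340) (nat_lit 165)) (XT.nd (nat_lit 94) (nat_lit 84) (nat_lit 0) (XT.lf (nat_lit 0) (nat_lit 41898489615) (nat_lit 252) (nat_lit 16292021137) (nat_lit 84) (nat_lit 7125351693) (nat_lit 18) (nat_lit 5) (nat_lit 21) (nat_lit 5) (nat_lit 19) (nat_lit 4) (nat_lit 441) (nat_lit 340) (nat_lit 164)) (XT.lf (nat_lit 0) (nat_lit 287868443) (nat_lit 84) (nat_lit 49786101567) (nat_lit 168) (nat_lit 16897697833) (nat_lit 17) (nat_lit 5) (nat_lit 18) (nat_lit 5) (nat_lit 19) (nat_lit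 4) (nat_lit 442) (nat_lit 340) (nat_lit 163)))) (XT.nd (nat_lit 188) (nat_lit 84) (nat_lit 0) (XT.nd (nat_lit 94) (nat_lit 0) (nat_lit 0) (XT.lf (nat_lit 0) (nat_lit 17693695521) (nat_lit 84) (nat_lit 40962386266) (nat_lit 168) (nat_lit 10016226817) (nat_lit 17) (nat_lit 5) (nat_lit 18) (nat_lit 5) (nat_lit 19) (nat_lit 4) (nat_lit 443) (nat_lit 340) (nat_lit 162)) (XT.lf (nat_lit 0) (nat_lit 35616425906) (nat_lit 84) (nat_lit 31876172273) (nat_lit 168) (nat_lit 2931464315) (nat_lit 17) (nat_lit 5) (nat_lit 18) (nat_lit 5) (nat_lit 19) (nat_lit 4) (nat_lit 444) (nat_lit 340) (nat_lit 161))) (XT.nd (nat_lit 94) (nat_lit 0) (nat_lit 0) (XT.lf (nat_lit 0) (nat_lit 4277646684) (nat_lit 168) (nat_lit 18198677651) (nat_lit 84) (nat_lit 49750877708) (nat_lit 16) (nat_lit 5) (nat_lit 18) (nat_lit 5) (nat_lit 17) (nat_lit 5) (nat_lit 445) (nat_lit 340) (nat_lit 160)) (XT.lf (nat_lit 0) (nat_lit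 11641197801) (nat_lit 168) (nat_lit 1125503195) (nat_lit 84) (nat_lit 61316953423) (nat_lit 16) (nat_lit 5) (nat_lit 18) (nat_lit 5) (nat_lit 17) (nat_lit 5) (nat_lit 446) (nat_lit 340) (nat_lit 159))))) (XT.nd (nat_lit 282) (nat_lit 0) (nat_lit 84) (XT.nd (nat_lit 94) (nat_lit 0) (nat_lit 0) (XT.lf (nat_lit 0) (nat_lit 293130377) (nat_lit 0) (nat_lit 293130377) (nat_lit 1092) (nat_lit 4114427616) (nat_lit 191) (nat_lit 5) (nat_lit 191) (nat_lit 3) (nat_lit 204) (nat_lit 3) (nat_lit 341) (nat_lit 341) (nat_lit 263)) (XT.nd (nat_lit 94) (nat_lit 0) (nat_lit 0) (XT.lf (nat_lit 0) (nat_lit 1973818274) (nat_lit 1092) (nat_lit 4750734937) (nat_lit 1176) (nat_lit 2792826706) (nat_lit 191) (nat_lit 5) (nat_lit 204) (nat_lit 3) (nat_lit 205) (nat_lit 5) (nat_lit 342) (nat_lit 341) (nat_lit 262)) (XT.lf (nat_lit 0) (nat_lit 2775582994) (nat_lit 1092) (nat_lit 586071880) (nat_lit 1176) (nat_lit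 6275974226) (nat_lit 191) (nat_lit 5) (nat_lit 204) (nat_lit 3) (nat_lit 205) (nat_lit 5) (nat_lit 343) (nat_lit 341) (nat_lit 261)))) (XT.nd (nat_lit 188) (nat_lit 0) (nat_lit 0) (XT.nd (nat_lit 94) (nat_lit 0) (nat_lit 0) (XT.lf (nat_lit 0) (nat_lit 3610505075) (nat_lit 1092) (nat_lit 6001230620) (nat_lit 1176) (nat_lit 149534001) (nat_lit 192) (nat_lit 5) (nat_lit 205) (nat_lit 5) (nat_lit 206) (nat_lit 5) (nat_lit 344) (nat_lit 341) (nat_lit 260)) (XT.lf (nat_lit 0) (nat_lit 4482020792) (nat_lit 1092) (nat_lit 1689481184) (nat_lit 1176) (nat_lit 3716826564) (nat_lit 192) (nat_lit 5) (nat_lit 205) (nat_lit 5) (nat_lit 206) (nat_lit 5) (nat_lit 345) (nat_lit 341) (nat_lit 259))) (XT.nd (nat_lit 94) (nat_lit 0) (nat_lit 84) (XT.lf (nat_lit 84) (nat_lit 2790298468) (nat_lit 0) (nat_lit 2589298277) (nat_lit 1176) (nat_lit 4639658755) (nat_lit 193) (nat_lit 5) (nat_lit 192) (nat_lit 5) (nat_lit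 206) (nat_lit 5) (nat_lit 346) (nat_lit 341) (nat_lit 258)) (XT.lf (nat_lit 0) (nat_lit 6305735531) (nat_lit 1092) (nat_lit 2741799905) (nat_lit 1176) (nat_lit 1106577995) (nat_lit 193) (nat_lit 5) (nat_lit 206) (nat_lit 5) (nat_lit 207) (nat_lit 5) (nat_lit 347) (nat_lit 341) (nat_lit 257))))))) (XT.nd (nat_lit 1316) (nat_lit 3528) (nat_lit 0) (XT.nd (nat_lit 658) (nat_lit 2184) (nat_lit 0) (XT.nd (nat_lit 282) (nat_lit 1092) (nat_lit 0) (XT.nd (nat_lit 94) (nat_lit 0) (nat_lit 0) (XT.lf (nat_lit 84) (nat_lit 1874843268) (nat_lit 0) (nat_lit 5403064983) (nat_lit 1176) (nat_lit 3014612062) (nat_lit 194) (nat_lit 5) (nat_lit 193) (nat_lit 5) (nat_lit 207) (nat_lit 5) (nat_lit 348) (nat_lit 341) (nat_lit 256)) (XT.nd (nat_lit 94) (nat_lit 0) (nat_lit 84) (XT.lf (nat_lit 84) (nat_lit 6670270569) (nat_lit 0) (nat_lit 1611840444) (nat_lit 1176) (nat_lit 2152931673) (nat_lit 194) (nat_lit 5)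 (nat_lit 193) (nat_lit 5) (nat_lit 207) (nat_lit 5) (nat_lit 349) (nat_lit 341) (nat_lit 255)) (XT.lf (nat_lit 84) (nat_lit 1009057873) (nat_lit 0) (nat_lit 8315108657) (nat_lit 1176) (nat_lit 1257490197) (nat_lit 195) (nat_lit 5) (nat_lit 194) (nat_lit 5) (nat_lit 208) (nat_lit 5) (nat_lit 350) (nat_lit 341) (nat_lit 254)))) (XT.nd (nat_lit 188) (nat_lit 0) (nat_lit 84) (XT.nd (nat_lit 94) (nat_lit 1176) (nat_lit 0) (XT.lf (nat_lit 84) (nat_lit 5970850815) (nat_lit 0) (nat_lit 4456980432) (nat_lit 1176) (nat_lit 303973919) (nat_lit 195) (nat_lit 5) (nat_lit 194) (nat_lit 5) (nat_lit 208) (nat_lit 5) (nat_lit 351) (nat_lit 341) (nat_lit 253)) (XT.lf (nat_lit 84) (nat_lit 175768677) (nat_lit 0) (nat_lit 467777862) (nat_lit 1260) (nat_lit 10243400742) (nat_lit 181) (nat_lit 5) (nat_lit 180) (nat_lit 5) (nat_lit 195) (nat_lit 5) (nat_lit 352) (nat_lit 341) (nat_lit 252))) (XT.nd (nat_lit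 94) (nat_lit 0) (nat_lit 0) (XT.lf (nat_lit 0) (nat_lit 1674458244) (nat_lit 1176) (nat_lit 5742403799) (nat_lit 1260) (nat_lit 3628001537) (nat_lit 181) (nat_lit 5) (nat_lit 195) (nat_lit 5) (nat_lit 196) (nat_lit 5) (nat_lit 353) (nat_lit 341) (nat_lit 251)) (XT.lf (nat_lit 0) (nat_lit 2719105861) (nat_lit 1176) (nat_lit 645512348) (nat_lit 1260) (nat_lit 7843456133) (nat_lit 181) (nat_lit 5) (nat_lit 195) (nat_lit 5) (nat_lit 196) (nat_lit 5) (nat_lit 354) (nat_lit 341) (nat_lit 250))))) (XT.nd (nat_lit 282) (nat_lit 2352) (nat_lit 0) (XT.nd (nat_lit 94) (nat_lit 0) (nat_lit 0) (XT.lf (nat_lit 0) (nat_lit 3827165638) (nat_lit 1176) (nat_lit 6704017802) (nat_lit 1260) (nat_lit 844075831) (nat_lit 182) (nat_lit 5) (nat_lit 196) (nat_lit 5) (nat_lit 197) (nat_lit 5) (nat_lit 355) (nat_lit 341) (nat_lit 249)) (XT.nd (nat_lit 94) (nat_lit 0) (nat_lit 0) (XT.lf (nat_lit 0) (nat_lit 4987690672)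 (nat_lit 1176) (nat_lit 1436305061) (nat_lit 1260) (nat_lit 5122926175) (nat_lit 182) (nat_lit 5) (nat_lit 196) (nat_lit 5) (nat_lit 197) (nat_lit 5) (nat_lit 356) (nat_lit 341) (nat_lit 248)) (XT.lf (nat_lit 84) (nat_lit 4052603897) (nat_lit 0) (nat_lit 2149313242) (nat_lit 1260) (nat_lit 5521288445) (nat_lit 183) (nat_lit 5) (nat_lit 182) (nat_lit 5) (nat_lit 197) (nat_lit 5) (nat_lit 357) (nat_lit 341) (nat_lit 247)))) (XT.nd (nat_lit 188) (nat_lit 1260) (nat_lit 0) (XT.nd (nat_lit 94) (nat_lit 1176) (nat_lit 0) (XT.lf (nat_lit 0) (nat_lit 7469280871) (nat_lit 1176) (nat_lit 2206949410) (nat_lit 84) (nat_lit 2228082806) (nat_lit 183) (nat_lit 5) (nat_lit 197) (nat_lit 5) (nat_lit 184) (nat_lit 5) (nat_lit 358) (nat_lit 341) (nat_lit 246)) (XT.lf (nat_lit 0) (nat_lit 3450723444) (nat_lit 1176) (nat_lit 5359363668) (nat_lit 1260) (nat_lit 3279739621) (nat_lit 169) (nat_lit 5) (nat_lit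 183) (nat_lit 5) (nat_lit 184) (nat_lit 5) (nat_lit 359) (nat_lit 341) (nat_lit 245))) (XT.nd (nat_lit 94) (nat_lit 1260) (nat_lit 0) (XT.lf (nat_lit 0) (nat_lit 9307578397) (nat_lit 1176) (nat_lit 887198288) (nat_lit 1260) (nat_lit 2086053856) (nat_lit 169) (nat_lit 5) (nat_lit 183) (nat_lit 5) (nat_lit 184) (nat_lit 5) (nat_lit 360) (nat_lit 341) (nat_lit 244)) (XT.lf (nat_lit 0) (nat_lit 2866835173) (nat_lit 1260) (nat_lit 8799422419) (nat_lit 1344) (nat_lit 809982878) (nat_lit 154) (nat_lit 5) (nat_lit 169) (nat_lit 5) (nat_lit 170) (nat_lit 5) (nat_lit 361) (nat_lit 341) (nat_lit 243)))))) (XT.nd (nat_lit 658) (nat_lit 1680) (nat_lit 0) (XT.nd (nat_lit 282) (nat_lit 1176) (nat_lit 0) (XT.nd (nat_lit 94) (nat_lit 588) (nat_lit 0) (XT.lf (nat_lit 0) (nat_lit 515743193) (nat_lit 1344) (nat_lit 3763630367) (nat_lit 84) (nat_lit 8397388833) (nat_lit 153) (nat_lit 5) (nat_lit 169) (nat_lit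 5) (nat_lit 154) (nat_lit 5) (nat_lit 362) (nat_lit 341) (nat_lit 242)) (XT.nd (nat_lit 94) (nat_lit 0) (nat_lit 0) (XT.lf (nat_lit 0) (nat_lit 1873421317) (nat_lit 672) (nat_lit 10608619977) (nat_lit 84) (nat_lit 400794966) (nat_lit 146) (nat_lit 5) (nat_lit 154) (nat_lit 5) (nat_lit 147) (nat_lit 5) (nat_lit 363) (nat_lit 341) (nat_lit 241)) (XT.lf (nat_lit 0) (nat_lit 3335582813) (nat_lit 672) (nat_lit 4582441727) (nat_lit 84) (nat_lit 5175184997) (nat_lit 146) (nat_lit 5) (nat_lit 154) (nat_lit 5) (nat_lit 147) (nat_lit 5) (nat_lit 364) (nat_lit 341) (nat_lit 240)))) (XT.nd (nat_lit 188) (nat_lit 588) (nat_lit 0) (XT.nd (nat_lit 94) (nat_lit 0) (nat_lit 0) (XT.lf (nat_lit 0) (nat_lit 1640918525) (nat_lit 588) (nat_lit 3199960662) (nat_lit 672) (nat_lit 8469065641) (nat_lit 139) (nat_lit 5) (nat_lit 146) (nat_lit 5) (nat_lit 147) (nat_lit 5) (nat_lit 365) (nat_lit 341) (nat_lit 239))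 (XT.lf (nat_lit 0) (nat_lit 6437855043) (nat_lit 672) (nat_lit 5419280863) (nat_lit 84) (nat_lit 1674678730) (nat_lit 139) (nat_lit 5) (nat_lit 147) (nat_lit 5) (nat_lit 140) (nat_lit 5) (nat_lit 366) (nat_lit 341) (nat_lit 238))) (XT.nd (nat_lit 94) (nat_lit 0) (nat_lit 0) (XT.lf (nat_lit 0) (nat_lit 990069355) (nat_lit 588) (nat_lit 7118176800) (nat_lit 672) (nat_lit 5651356460) (nat_lit 132) (nat_lit 5) (nat_lit 139) (nat_lit 5) (nat_lit 140) (nat_lit 5) (nat_lit 367) (nat_lit 341) (nat_lit 237)) (XT.lf (nat_lit 0) (nat_lit 7687417604) (nat_lit 588) (nat_lit 2180670897) (nat_lit 672) (nat_lit 4124982012) (nat_lit 132) (nat_lit 5) (nat_lit 139) (nat_lit 5) (nat_lit 140) (nat_lit 5) (nat_lit 368) (nat_lit 341) (nat_lit 236))))) (XT.nd (nat_lit 282) (nat_lit 1008) (nat_lit 0) (XT.nd (nat_lit 94) (nat_lit 84) (nat_lit 0) (XT.lf (nat_lit 0) (nat_lit 314967156) (nat_lit 588) (nat_lit 11381774470)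 (nat_lit 672) (nat_lit 2536346050) (nat_lit 125) (nat_lit 5) (nat_lit 132) (nat_lit 5) (nat_lit 133) (nat_lit 5) (nat_lit 369) (nat_lit 341) (nat_lit 235)) (XT.nd (nat_lit 94) (nat_lit 84) (nat_lit 0) (XT.lf (nat_lit 0) (nat_lit 7226197409) (nat_lit 588) (nat_lit 6424462860) (nat_lit 672) (nat_lit 827557850) (nat_lit 125) (nat_lit 5) (nat_lit 132) (nat_lit 5) (nat_lit 133) (nat_lit 5) (nat_lit 370) (nat_lit 341) (nat_lit 234)) (XT.lf (nat_lit 0) (nat_lit 899911836) (nat_lit 672) (nat_lit 410014940) (nat_lit 84) (nat_lit 13420961877) (nat_lit 124) (nat_lit 5) (nat_lit 132) (nat_lit 5) (nat_lit 125) (nat_lit 5) (nat_lit 371) (nat_lit 341) (nat_lit 233)))) (XT.nd (nat_lit 188) (nat_lit 504) (nat_lit 0) (XT.nd (nat_lit 94) (nat_lit 0) (nat_lit 0) (XT.lf (nat_lit 0) (nat_lit 2752216124) (nat_lit 588) (nat_lit 8282130017) (nat_lit 84) (nat_lit 3953880871) (nat_lit 118) (nat_lit 5) (nat_lit 125)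 (nat_lit 5) (nat_lit 119) (nat_lit 5) (nat_lit 372) (nat_lit 341) (nat_lit 232)) (XT.lf (nat_lit 0) (nat_lit 4663532777) (nat_lit 588) (nat_lit 1237029146) (nat_lit 84) (nat_lit 9352642464) (nat_lit 118) (nat_lit 5) (nat_lit 125) (nat_lit 5) (nat_lit 119) (nat_lit 5) (nat_lit 373) (nat_lit 341) (nat_lit 231))) (XT.nd (nat_lit 94) (nat_lit 0) (nat_lit 0) (XT.lf (nat_lit 0) (nat_lit 6124415255) (nat_lit 504) (nat_lit 553336879) (nat_lit 588) (nat_lit 8847033573) (nat_lit 112) (nat_lit 5) (nat_lit 118) (nat_lit 5) (nat_lit 119) (nat_lit 5) (nat_lit 374) (nat_lit 341) (nat_lit 230)) (XT.lf (nat_lit 0) (nat_lit 8799565469) (nat_lit 588) (nat_lit 2134602881) (nat_lit 84) (nat_lit 4868951984) (nat_lit 112) (nat_lit 5) (nat_lit 119) (nat_lit 5) (nat_lit 113) (nat_lit 5) (nat_lit 375) (nat_lit 341) (nat_lit 229))))))))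
noncomputable def xc143 : XT := (XT.nd (nat_lit 2632) (nat_lit 2352) (nat_lit 0) (XT.nd (nat_lit 1316) (nat_lit 2016) (nat_lit 0) (XT.nd (nat_lit 658) (nat_lit 1176) (nat_lit 0) (XT.nd (nat_lit 282) (nat_lit 924) (nat_lit 0) (XT.nd (nat_lit 94) (nat_lit 504) (nat_lit 0) (XT.lf (nat_lit 0) (nat_lit 5435376748) (nat_lit 420) (nat_lit 5594692272) (nat_lit 504) (nat_lit 5058405186) (nat_lit 107) (nat_lit 5) (nat_lit 112) (nat_lit 5) (nat_lit 113) (nat_lit 5) (nat_lit 376) (nat_lit 341) (nat_lit 228)) (XT.nd (nat_lit 94) (nat_lit 504) (nat_lit 0) (XT.lf (nat_lit 0) (nat_lit 13262007519) (nat_lit 420) (nat_lit 74577618) (nat_lit 504) (nat_lit 3045550327) (nat_lit 107) (nat_lit 5) (nat_lit 112) (nat_lit 5) (nat_lit 113) (nat_lit 5) (nat_lit 377) (nat_lit 341) (nat_lit 227)) (XT.lf (nat_lit 0) (nat_lit 4661702118) (nat_lit 504) (nat_lit 11137232160) (nat_lit 588) (nat_lit 883092271) (nat_lit 101)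 (nat_lit 5) (nat_lit 107) (nat_lit 5) (nat_lit 108) (nat_lit 5) (nat_lit 378) (nat_lit 341) (nat_lit 226)))) (XT.nd (nat_lit 188) (nat_lit 420) (nat_lit 0) (XT.nd (nat_lit 94) (nat_lit 420) (nat_lit 0) (XT.lf (nat_lit 0) (nat_lit 1338536829) (nat_lit 588) (nat_lit 4277270550) (nat_lit 84) (nat_lit 11374121512) (nat_lit 100) (nat_lit 5) (nat_lit 107) (nat_lit 5) (nat_lit 101) (nat_lit 5) (nat_lit 379) (nat_lit 341) (nat_lit 225)) (XT.lf (nat_lit 0) (nat_lit 3634528032) (nat_lit 504) (nat_lit 13558579906) (nat_lit 84) (nat_lit 112951681) (nat_lit 95) (nat_lit 5) (nat_lit 101) (nat_lit 5) (nat_lit 96) (nat_lit 5) (nat_lit 380) (nat_lit 341) (nat_lit 224))) (XT.nd (nat_lit 94) (nat_lit 420) (nat_lit 0) (XT.lf (nat_lit 0) (nat_lit 6087128393) (nat_lit 504) (nat_lit 5599819662) (nat_lit 84) (nat_lit 5942111317) (nat_lit 95) (nat_lit 5) (nat_lit 101) (nat_lit 5) (nat_lit 96) (nat_lit 5) (nat_lit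 381) (nat_lit 341) (nat_lit 223)) (XT.lf (nat_lit 0) (nat_lit 2635476862) (nat_lit 420) (nat_lit 5992006124) (nat_lit 504) (nat_lit 9333857336) (nat_lit 90) (nat_lit 5) (nat_lit 95) (nat_lit 5) (nat_lit 96) (nat_lit 5) (nat_lit 382) (nat_lit 341) (nat_lit 222))))) (XT.nd (nat_lit 282) (nat_lit 840) (nat_lit 0) (XT.nd (nat_lit 94) (nat_lit 336) (nat_lit 0) (XT.lf (nat_lit 0) (nat_lit 11219102789) (nat_lit 420) (nat_lit 70530047) (nat_lit 504) (nat_lit 7012605337) (nat_lit 90) (nat_lit 5) (nat_lit 95) (nat_lit 5) (nat_lit 96) (nat_lit 5) (nat_lit 383) (nat_lit 341) (nat_lit 221)) (XT.nd (nat_lit 94) (nat_lit 0) (nat_lit 0) (XT.lf (nat_lit 0) (nat_lit 1362065352) (nat_lit 336) (nat_lit 12729958180) (nat_lit 420) (nat_lit 4559543681) (nat_lit 86) (nat_lit 5) (nat_lit 90) (nat_lit 5) (nat_lit 91) (nat_lit 5) (nat_lit 384) (nat_lit 341) (nat_lit 220)) (XT.lf (nat_lit 0) (nat_lit 10191801482)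 (nat_lit 336) (nat_lit 6848417354) (nat_lit 420) (nat_lit 1969320392) (nat_lit 86) (nat_lit 5) (nat_lit 90) (nat_lit 5) (nat_lit 91) (nat_lit 5) (nat_lit 385) (nat_lit 341) (nat_lit 219)))) (XT.nd (nat_lit 188) (nat_lit 336) (nat_lit 0) (XT.nd (nat_lit 94) (nat_lit 420) (nat_lit 0) (XT.lf (nat_lit 0) (nat_lit 674683064) (nat_lit 420) (nat_lit 111673470) (nat_lit 84) (nat_lit 18592015457) (nat_lit 85) (nat_lit 5) (nat_lit 90) (nat_lit 5) (nat_lit 86) (nat_lit 5) (nat_lit 386) (nat_lit 341) (nat_lit 218)) (XT.lf (nat_lit 0) (nat_lit 3488418509) (nat_lit 504) (nat_lit 10809966565) (nat_lit 84) (nat_lit 5455413729) (nat_lit 80) (nat_lit 5) (nat_lit 86) (nat_lit 5) (nat_lit 81) (nat_lit 5) (nat_lit 387) (nat_lit 341) (nat_lit 217))) (XT.nd (nat_lit 94) (nat_lit 336) (nat_lit 0) (XT.lf (nat_lit 0) (nat_lit 6385638992) (nat_lit 504) (nat_lit 1887869943) (nat_lit 84) (nat_lit 11867020704) (nat_lit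 80) (nat_lit 5) (nat_lit 86) (nat_lit 5) (nat_lit 81) (nat_lit 5) (nat_lit 388) (nat_lit 341) (nat_lit 216)) (XT.lf (nat_lit 0) (nat_lit 7434427278) (nat_lit 336) (nat_lit 1997248432) (nat_lit 420) (nat_lit 11105342720) (nat_lit 76) (nat_lit 5) (nat_lit 80) (nat_lit 5) (nat_lit 81) (nat_lit 5) (nat_lit 389) (nat_lit 341) (nat_lit 215)))))) (XT.nd (nat_lit 658) (nat_lit 924) (nat_lit 0) (XT.nd (nat_lit 282) (nat_lit 756) (nat_lit 0) (XT.nd (nat_lit 94) (nat_lit 336) (nat_lit 0) (XT.lf (nat_lit 0) (nat_lit 12621854213) (nat_lit 420) (nat_lit 3925546005) (nat_lit 84) (nat_lit 4396431483) (nat_lit 76) (nat_lit 5) (nat_lit 81) (nat_lit 5) (nat_lit 77) (nat_lit 5) (nat_lit 390) (nat_lit 341) (nat_lit 214)) (XT.nd (nat_lit 94) (nat_lit 0) (nat_lit 0) (XT.lf (nat_lit 0) (nat_lit 5604083095) (nat_lit 336) (nat_lit 10368140101) (nat_lit 420) (nat_lit 5388703894) (nat_lit 72) (nat_lit 5) (nat_lit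 76) (nat_lit 5) (nat_lit 77) (nat_lit 5) (nat_lit 391) (nat_lit 341) (nat_lit 213)) (XT.lf (nat_lit 0) (nat_lit 15487883078) (nat_lit 336) (nat_lit 3965850627) (nat_lit 420) (nat_lit 2335894635) (nat_lit 72) (nat_lit 5) (nat_lit 76) (nat_lit 5) (nat_lit 77) (nat_lit 5) (nat_lit 392) (nat_lit 341) (nat_lit 212)))) (XT.nd (nat_lit 188) (nat_lit 336) (nat_lit 0) (XT.nd (nat_lit 94) (nat_lit 0) (nat_lit 0) (XT.lf (nat_lit 0) (nat_lit 843023848) (nat_lit 420) (nat_lit 18770650167) (nat_lit 84) (nat_lit 2615785639) (nat_lit 67) (nat_lit 5) (nat_lit 72) (nat_lit 5) (nat_lit 68) (nat_lit 5) (nat_lit 393) (nat_lit 341) (nat_lit 211)) (XT.lf (nat_lit 0) (nat_lit 4165158958) (nat_lit 420) (nat_lit 9114383421) (nat_lit 84) (nat_lit 9399416652) (nat_lit 67) (nat_lit 5) (nat_lit 72) (nat_lit 5) (nat_lit 68) (nat_lit 5) (nat_lit 394) (nat_lit 341) (nat_lit 210))) (XT.nd (nat_lit 94) (nat_lit 0) (nat_lit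 0) (XT.lf (nat_lit 0) (nat_lit 836096795) (nat_lit 336) (nat_lit 6750419828) (nat_lit 420) (nat_lit 15555450597) (nat_lit 63) (nat_lit 5) (nat_lit 67) (nat_lit 5) (nat_lit 68) (nat_lit 5) (nat_lit 395) (nat_lit 341) (nat_lit 209)) (XT.lf (nat_lit 0) (nat_lit 11194843438) (nat_lit 420) (nat_lit 12356746846) (nat_lit 84) (nat_lit 64755795) (nat_lit 63) (nat_lit 5) (nat_lit 68) (nat_lit 5) (nat_lit 64) (nat_lit 5) (nat_lit 396) (nat_lit 341) (nat_lit 208))))) (XT.nd (nat_lit 282) (nat_lit 672) (nat_lit 0) (XT.nd (nat_lit 94) (nat_lit 252) (nat_lit 0) (XT.lf (nat_lit 0) (nat_lit 14970123999) (nat_lit 420) (nat_lit 2187541498) (nat_lit 84) (nat_lit 6945539666) (nat_lit 63) (nat_lit 5) (nat_lit 68) (nat_lit 5) (nat_lit 64) (nat_lit 5) (nat_lit 397) (nat_lit 341) (nat_lit 207)) (XT.nd (nat_lit 94) (nat_lit 0) (nat_lit 0) (XT.lf (nat_lit 0) (nat_lit 8440219580) (nat_lit 252) (nat_lit 10491680901)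 (nat_lit 336) (nat_lit 5670582100) (nat_lit 60) (nat_lit 5) (nat_lit 63) (nat_lit 5) (nat_lit 64) (nat_lit 5) (nat_lit 398) (nat_lit 341) (nat_lit 206)) (XT.lf (nat_lit 0) (nat_lit 19420546428) (nat_lit 252) (nat_lit 3606301824) (nat_lit 336) (nat_lit 2089469935) (nat_lit 60) (nat_lit 5) (nat_lit 63) (nat_lit 5) (nat_lit 64) (nat_lit 5) (nat_lit 399) (nat_lit 341) (nat_lit 205)))) (XT.nd (nat_lit 188) (nat_lit 252) (nat_lit 0) (XT.nd (nat_lit 94) (nat_lit 0) (nat_lit 0) (XT.lf (nat_lit 0) (nat_lit 1643952213) (nat_lit 420) (nat_lit 20518906811) (nat_lit 84) (nat_lit 3479975152) (nat_lit 55) (nat_lit 5) (nat_lit 60) (nat_lit 5) (nat_lit 56) (nat_lit 5) (nat_lit 400) (nat_lit 341) (nat_lit 204)) (XT.lf (nat_lit 0) (nat_lit 5533629142) (nat_lit 420) (nat_lit 9866449477) (nat_lit 84) (nat_lit 10781867547) (nat_lit 55) (nat_lit 5) (nat_lit 60) (nat_lit 5) (nat_lit 56) (nat_lit 5) (nat_lit 401)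 (nat_lit 341) (nat_lit 203))) (XT.nd (nat_lit 94) (nat_lit 0) (nat_lit 0) (XT.lf (nat_lit 0) (nat_lit 1116651795) (nat_lit 252) (nat_lit 8426755068) (nat_lit 336) (nat_lit 17193730692) (nat_lit 52) (nat_lit 5) (nat_lit 55) (nat_lit 5) (nat_lit 56) (nat_lit 5) (nat_lit 402) (nat_lit 341) (nat_lit 202)) (XT.lf (nat_lit 0) (nat_lit 12620884063) (nat_lit 252) (nat_lit 1145013464) (nat_lit 336) (nat_lit 13540322686) (nat_lit 52) (nat_lit 5) (nat_lit 55) (nat_lit 5) (nat_lit 56) (nat_lit 5) (nat_lit 403) (nat_lit 341) (nat_lit 201))))))) (XT.nd (nat_lit 1316) (nat_lit 1008) (nat_lit 0) (XT.nd (nat_lit 658) (nat_lit 504) (nat_lit 0) (XT.nd (nat_lit 282) (nat_lit 588) (nat_lit 0) (XT.nd (nat_lit 94) (nat_lit 252) (nat_lit 0) (XT.lf (nat_lit 0) (nat_lit 18169118917) (nat_lit 336) (nat_lit 3493713541) (nat_lit 84) (nat_lit 6227929086) (nat_lit 52) (nat_lit 5) (nat_lit 56) (nat_lit 5) (nat_lit 53)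 (nat_lit 5) (nat_lit 404) (nat_lit 341) (nat_lit 200)) (XT.nd (nat_lit 94) (nat_lit 0) (nat_lit 0) (XT.lf (nat_lit 0) (nat_lit 8171592146) (nat_lit 252) (nat_lit 14615902909) (nat_lit 336) (nat_lit 5702859966) (nat_lit 49) (nat_lit 5) (nat_lit 52) (nat_lit 5) (nat_lit 53) (nat_lit 5) (nat_lit 405) (nat_lit 341) (nat_lit 199)) (XT.lf (nat_lit 0) (nat_lit 20248388541) (nat_lit 252) (nat_lit 7324586536) (nat_lit 336) (nat_lit 1534112069) (nat_lit 49) (nat_lit 5) (nat_lit 52) (nat_lit 5) (nat_lit 53) (nat_lit 5) (nat_lit 406) (nat_lit 341) (nat_lit 198)))) (XT.nd (nat_lit 188) (nat_lit 252) (nat_lit 0) (XT.nd (nat_lit 94) (nat_lit 0) (nat_lit 0) (XT.lf (nat_lit 0) (nat_lit 2730056361) (nat_lit 336) (nat_lit 26776572939) (nat_lit 84) (nat_lit 234176804) (nat_lit 45) (nat_lit 5) (nat_lit 49) (nat_lit 5) (nat_lit 46) (nat_lit 5) (nat_lit 407) (nat_lit 341) (nat_lit 197)) (XT.lf (nat_lit 0) (nat_lit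 7247640498) (nat_lit 336) (nat_lit 15166004416) (nat_lit 84) (nat_lit 7974753092) (nat_lit 45) (nat_lit 5) (nat_lit 49) (nat_lit 5) (nat_lit 46) (nat_lit 5) (nat_lit 408) (nat_lit 341) (nat_lit 196))) (XT.nd (nat_lit 94) (nat_lit 252) (nat_lit 0) (XT.lf (nat_lit 0) (nat_lit 11894405501) (nat_lit 336) (nat_lit 3216830868) (nat_lit 84) (nat_lit 15944378290) (nat_lit 45) (nat_lit 5) (nat_lit 49) (nat_lit 5) (nat_lit 46) (nat_lit 5) (nat_lit 409) (nat_lit 341) (nat_lit 195)) (XT.lf (nat_lit 0) (nat_lit 9262126171) (nat_lit 252) (nat_lit 7501318702) (nat_lit 336) (nat_lit 14976923200) (nat_lit 42) (nat_lit 5) (nat_lit 45) (nat_lit 5) (nat_lit 46) (nat_lit 5) (nat_lit 410) (nat_lit 341) (nat_lit 194))))) (XT.nd (nat_lit 282) (nat_lit 336) (nat_lit 0) (XT.nd (nat_lit 94) (nat_lit 168) (nat_lit 0) (XT.lf (nat_lit 0) (nat_lit 21808495724) (nat_lit 336) (nat_lit 10276349566) (nat_lit 84) (nat_lit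 359926810) (nat_lit 42) (nat_lit 5) (nat_lit 46) (nat_lit 5) (nat_lit 43) (nat_lit 5) (nat_lit 411) (nat_lit 341) (nat_lit 193)) (XT.nd (nat_lit 94) (nat_lit 0) (nat_lit 0) (XT.lf (nat_lit 0) (nat_lit 2252057617) (nat_lit 168) (nat_lit 24842833425) (nat_lit 252) (nat_lit 6072723453) (nat_lit 40) (nat_lit 5) (nat_lit 42) (nat_lit 5) (nat_lit 43) (nat_lit 5) (nat_lit 412) (nat_lit 341) (nat_lit 192)) (XT.lf (nat_lit 0) (nat_lit 15357845276) (nat_lit 168) (nat_lit 17279963091) (nat_lit 252) (nat_lit 1271401751) (nat_lit 40) (nat_lit 5) (nat_lit 42) (nat_lit 5) (nat_lit 43) (nat_lit 5) (nat_lit 413) (nat_lit 341) (nat_lit 191)))) (XT.nd (nat_lit 188) (nat_lit 0) (nat_lit 0) (XT.nd (nat_lit 94) (nat_lit 252) (nat_lit 0) (XT.lf (nat_lit 0) (nat_lit 3596534980) (nat_lit 252) (nat_lit 5860544004) (nat_lit 84) (nat_lit 25215092633) (nat_lit 39) (nat_lit 5) (nat_lit 42) (nat_lit 5) (nat_lit 40)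 (nat_lit 5) (nat_lit 414) (nat_lit 341) (nat_lit 190)) (XT.lf (nat_lit 0) (nat_lit 7332783295) (nat_lit 252) (nat_lit 1317094327) (nat_lit 336) (nat_lit 26805824406) (nat_lit 36) (nat_lit 5) (nat_lit 39) (nat_lit 5) (nat_lit 40) (nat_lit 5) (nat_lit 415) (nat_lit 341) (nat_lit 189))) (XT.nd (nat_lit 94) (nat_lit 0) (nat_lit 0) (XT.lf (nat_lit 0) (nat_lit 13977003064) (nat_lit 336) (nat_lit 15296209369) (nat_lit 84) (nat_lit 6985865650) (nat_lit 36) (nat_lit 5) (nat_lit 40) (nat_lit 5) (nat_lit 37) (nat_lit 5) (nat_lit 416) (nat_lit 341) (nat_lit 188)) (XT.lf (nat_lit 0) (nat_lit 19471626870) (nat_lit 336) (nat_lit 2106256840) (nat_lit 84) (nat_lit 15508446228) (nat_lit 36) (nat_lit 5) (nat_lit 40) (nat_lit 5) (nat_lit 37) (nat_lit 5) (nat_lit 417) (nat_lit 341) (nat_lit 187)))))) (XT.nd (nat_lit 658) (nat_lit 420) (nat_lit 0) (XT.nd (nat_lit 282) (nat_lit 252) (nat_lit 0) (XT.nd (nat_lit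 94) (nat_lit 168) (nat_lit 0) (XT.lf (nat_lit 0) (nat_lit 11699422646) (nat_lit 168) (nat_lit 13538928811) (nat_lit 252) (nat_lit 12696834936) (nat_lit 34) (nat_lit 5) (nat_lit 36) (nat_lit 5) (nat_lit 37) (nat_lit 5) (nat_lit 418) (nat_lit 341) (nat_lit 186)) (XT.nd (nat_lit 94) (nat_lit 168) (nat_lit 0) (XT.lf (nat_lit 0) (nat_lit 25954260299) (nat_lit 168) (nat_lit 5239959351) (nat_lit 252) (nat_lit 7614809402) (nat_lit 34) (nat_lit 5) (nat_lit 36) (nat_lit 5) (nat_lit 37) (nat_lit 5) (nat_lit 419) (nat_lit 341) (nat_lit 185)) (XT.lf (nat_lit 0) (nat_lit 905451065) (nat_lit 168) (nat_lit 36458808463) (nat_lit 252) (nat_lit 2343767221) (nat_lit 32) (nat_lit 5) (nat_lit 34) (nat_lit 5) (nat_lit 35) (nat_lit 5) (nat_lit 420) (nat_lit 341) (nat_lit 184)))) (XT.nd (nat_lit 188) (nat_lit 168) (nat_lit 0) (XT.nd (nat_lit 94) (nat_lit 0) (nat_lit 0) (XT.lf (nat_lit 0) (nat_lit 3203182043) (nat_lit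 252) (nat_lit 25379037159) (nat_lit 84) (nat_lit 12045550274) (nat_lit 31) (nat_lit 5) (nat_lit 34) (nat_lit 5) (nat_lit 32) (nat_lit 5) (nat_lit 421) (nat_lit 341) (nat_lit 183)) (XT.lf (nat_lit 0) (nat_lit 8864586981) (nat_lit 252) (nat_lit 11583862009) (nat_lit 84) (nat_lit 21126108922) (nat_lit 31) (nat_lit 5) (nat_lit 34) (nat_lit 5) (nat_lit 32) (nat_lit 5) (nat_lit 422) (nat_lit 341) (nat_lit 182))) (XT.nd (nat_lit 94) (nat_lit 0) (nat_lit 0) (XT.lf (nat_lit 0) (nat_lit 2669627576) (nat_lit 168) (nat_lit 12047164310) (nat_lit 252) (nat_lit 27832333492) (nat_lit 29) (nat_lit 5) (nat_lit 31) (nat_lit 5) (nat_lit 32) (nat_lit 5) (nat_lit 423) (nat_lit 341) (nat_lit 181)) (XT.lf (nat_lit 0) (nat_lit 17580619646) (nat_lit 168) (nat_lit 3276277655) (nat_lit 252) (nat_lit 22692666526) (nat_lit 29) (nat_lit 5) (nat_lit 31) (nat_lit 5) (nat_lit 32) (nat_lit 5) (nat_lit 424) (nat_lit 341)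 (nat_lit 180))))) (XT.nd (nat_lit 282) (nat_lit 252) (nat_lit 0) (XT.nd (nat_lit 94) (nat_lit 168) (nat_lit 0) (XT.lf (nat_lit 0) (nat_lit 27232020719) (nat_lit 252) (nat_lit 11703872419) (nat_lit 84) (nat_lit 5642601722) (nat_lit 29) (nat_lit 5) (nat_lit 32) (nat_lit 5) (nat_lit 30) (nat_lit 5) (nat_lit 425) (nat_lit 341) (nat_lit 179)) (XT.nd (nat_lit 94) (nat_lit 0) (nat_lit 0) (XT.lf (nat_lit 0) (nat_lit 3008178959) (nat_lit 168) (nat_lit 30847173692) (nat_lit 252) (nat_lit 11781236290) (nat_lit 27) (nat_lit 5) (nat_lit 29) (nat_lit 5) (nat_lit 30) (nat_lit 5) (nat_lit 426) (nat_lit 341) (nat_lit 178)) (XT.lf (nat_lit 0) (nat_lit 18394346163) (nat_lit 168) (nat_lit 22396883799) (nat_lit 252) (nat_lit 5931784172) (nat_lit 27) (nat_lit 5) (nat_lit 29) (nat_lit 5) (nat_lit 30) (nat_lit 5) (nat_lit 427) (nat_lit 341) (nat_lit 177)))) (XT.nd (nat_lit 188) (nat_lit 0) (nat_lit 0) (XT.nd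 (nat_lit 94) (nat_lit 168) (nat_lit 0) (XT.lf (nat_lit 0) (nat_lit 87074274) (nat_lit 252) (nat_lit 13607872319) (nat_lit 84) (nat_lit 34147189855) (nat_lit 26) (nat_lit 5) (nat_lit 29) (nat_lit 5) (nat_lit 27) (nat_lit 5) (nat_lit 428) (nat_lit 341) (nat_lit 176)) (XT.lf (nat_lit 0) (nat_lit 1518612209) (nat_lit 168) (nat_lit 4659125654) (nat_lit 252) (nat_lit 42815022123) (nat_lit 24) (nat_lit 5) (nat_lit 26) (nat_lit 5) (nat_lit 27) (nat_lit 5) (nat_lit 429) (nat_lit 341) (nat_lit 175))) (XT.nd (nat_lit 94) (nat_lit 0) (nat_lit 0) (XT.lf (nat_lit 0) (nat_lit 12630465965) (nat_lit 252) (nat_lit 32848849051) (nat_lit 84) (nat_lit 4693210121) (nat_lit 24) (nat_lit 5) (nat_lit 27) (nat_lit 5) (nat_lit 25) (nat_lit 5) (nat_lit 430) (nat_lit 341) (nat_lit 174)) (XT.lf (nat_lit 0) (nat_lit 19318919502) (nat_lit 252) (nat_lit 17837591990) (nat_lit 84) (nat_lit 14229910592) (nat_lit 24) (nat_lit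 5) (nat_lit 27) (nat_lit 5) (nat_lit 25) (nat_lit 5) (nat_lit 431) (nat_lit 341) (nat_lit 173))))))))
noncomputable def xc144 : XT := (XT.nd (nat_lit 51982) (nat_lit 0) (nat_lit 6636) (XT.nd (nat_lit 1222) (nat_lit 84) (nat_lit 0) (XT.nd (nat_lit 564) (nat_lit 252) (nat_lit 0) (XT.nd (nat_lit 282) (nat_lit 168) (nat_lit 0) (XT.nd (nat_lit 94) (nat_lit 168) (nat_lit 0) (XT.lf (nat_lit 0) (nat_lit 26204156390) (nat_lit 252) (nat_lit 2382473597) (nat_lit 84) (nat_lit 24050225120) (nat_lit 24) (nat_lit 5) (nat_lit 27) (nat_lit 5) (nat_lit 25) (nat_lit 5) (nat_lit 432) (nat_lit 341) (nat_lit 172)) (XT.nd (nat_lit 94) (nat_lit 0) (nat_lit 0) (XT.lf (nat_lit 0) (nat_lit 13799284340) (nat_lit 168) (nat_lit 19625555676) (nat_lit 252) (nat_lit 20496097385) (nat_lit 22) (nat_lit 5) (nat_lit 24) (nat_lit 5) (nat_lit 25) (nat_lit 5) (nat_lit 433) (nat_lit 341) (nat_lit 171)) (XT.lf (nat_lit 0) (nat_lit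 30509107288) (nat_lit 168) (nat_lit 10373387239) (nat_lit 252) (nat_lit 14360440009) (nat_lit 22) (nat_lit 5) (nat_lit 24) (nat_lit 5) (nat_lit 25) (nat_lit 5) (nat_lit 434) (nat_lit 341) (nat_lit 170)))) (XT.nd (nat_lit 94) (nat_lit 168) (nat_lit 0) (XT.lf (nat_lit 0) (nat_lit 47714180164) (nat_lit 168) (nat_lit 846098570) (nat_lit 252) (nat_lit 8044423648) (nat_lit 22) (nat_lit 5) (nat_lit 24) (nat_lit 5) (nat_lit 25) (nat_lit 5) (nat_lit 435) (nat_lit 341) (nat_lit 169)) (XT.nd (nat_lit 94) (nat_lit 84) (nat_lit 0) (XT.lf (nat_lit 0) (nat_lit 7481931570) (nat_lit 84) (nat_lit 49141064273) (nat_lit 168) (nat_lit 1379692157) (nat_lit 21) (nat_lit 5) (nat_lit 22) (nat_lit 5) (nat_lit 23) (nat_lit 4) (nat_lit 436) (nat_lit 341) (nat_lit 168)) (XT.lf (nat_lit 0) (nat_lit 5473483400) (nat_lit 168) (nat_lit 34980072492) (nat_lit 84) (nat_lit 18984612090) (nat_lit 20) (nat_lit 5) (nat_lit 22)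 (nat_lit 5) (nat_lit 21) (nat_lit 5) (nat_lit 437) (nat_lit 341) (nat_lit 167))))) (XT.nd (nat_lit 282) (nat_lit 84) (nat_lit 0) (XT.nd (nat_lit 94) (nat_lit 168) (nat_lit 0) (XT.lf (nat_lit 0) (nat_lit 12501116915) (nat_lit 168) (nat_lit 18992622027) (nat_lit 84) (nat_lit 29422668306) (nat_lit 20) (nat_lit 5) (nat_lit 22) (nat_lit 5) (nat_lit 21) (nat_lit 5) (nat_lit 438) (nat_lit 341) (nat_lit 166)) (XT.nd (nat_lit 94) (nat_lit 168) (nat_lit 0) (XT.lf (nat_lit 0) (nat_lit 19736271799) (nat_lit 168) (nat_lit 2531172973) (nat_lit 84) (nat_lit 40171650562) (nat_lit 20) (nat_lit 5) (nat_lit 22) (nat_lit 5) (nat_lit 21) (nat_lit 5) (nat_lit 439) (nat_lit 341) (nat_lit 165)) (XT.lf (nat_lit 0) (nat_lit 14705618033) (nat_lit 168) (nat_lit 12621011396) (nat_lit 252) (nat_lit 36676692536) (nat_lit 18) (nat_lit 5) (nat_lit 20) (nat_lit 5) (nat_lit 21) (nat_lit 5) (nat_lit 440) (nat_lit 341) (nat_lit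 164)))) (XT.nd (nat_lit 188) (nat_lit 84) (nat_lit 0) (XT.nd (nat_lit 94) (nat_lit 0) (nat_lit 0) (XT.lf (nat_lit 0) (nat_lit 32505991782) (nat_lit 168) (nat_lit 2661096145) (nat_lit 252) (nat_lit 30446718038) (nat_lit 18) (nat_lit 5) (nat_lit 20) (nat_lit 5) (nat_lit 21) (nat_lit 5) (nat_lit 441) (nat_lit 341) (nat_lit 163)) (XT.lf (nat_lit 0) (nat_lit 43312694812) (nat_lit 252) (nat_lit 16510584380) (nat_lit 84) (nat_lit 7447229464) (nat_lit 18) (nat_lit 5) (nat_lit 21) (nat_lit 5) (nat_lit 19) (nat_lit 4) (nat_lit 442) (nat_lit 341) (nat_lit 162))) (XT.nd (nat_lit 94) (nat_lit 0) (nat_lit 0) (XT.lf (nat_lit 0) (nat_lit 564052893) (nat_lit 84) (nat_lit 51167378453) (nat_lit 168) (nat_lit 17244620384) (nat_lit 17) (nat_lit 5) (nat_lit 18) (nat_lit 5) (nat_lit 19) (nat_lit 4) (nat_lit 443) (nat_lit 341) (nat_lit 161)) (XT.lf (nat_lit 0) (nat_lit 18484262113) (nat_lit 84) (nat_lit 42082222746)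 (nat_lit 168) (nat_lit 10161365676) (nat_lit 17) (nat_lit 5) (nat_lit 18) (nat_lit 5) (nat_lit 19) (nat_lit 4) (nat_lit 444) (nat_lit 341) (nat_lit 160)))))) (XT.nd (nat_lit 50102) (nat_lit 0) (nat_lit 13776) (XT.nd (nat_lit 49726) (nat_lit 0) (nat_lit 14700) (XT.nd (nat_lit 94) (nat_lit 84) (nat_lit 0) (XT.lf (nat_lit 0) (nat_lit 36937108708) (nat_lit 84) (nat_lit 32726598113) (nat_lit 168) (nat_lit 2868584997) (nat_lit 17) (nat_lit 5) (nat_lit 18) (nat_lit 5) (nat_lit 19) (nat_lit 4) (nat_lit 445) (nat_lit 341) (nat_lit 159)) (XT.nd (nat_lit 49538) (nat_lit 0) (nat_lit 14700) (XT.lf (nat_lit 0) (nat_lit 4549549039) (nat_lit 168) (nat_lit 18496839174) (nat_lit 84) (nat_lit 51343225964) (nat_lit 16) (nat_lit 5) (nat_lit 18) (nat_lit 5) (nat_lit 17) (nat_lit 5) (nat_lit 446) (nat_lit 341) (nat_lit 158)) (XT.lf (nat_lit 0) (nat_lit 676453287) (nat_lit 0) (nat_lit 676453287) (nat_lit 1092)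 (nat_lit 3464838979) (nat_lit 191) (nat_lit 5) (nat_lit 191) (nat_lit 3) (nat_lit 204) (nat_lit 3) (nat_lit 342) (nat_lit 342) (nat_lit 261)))) (XT.nd (nat_lit 188) (nat_lit 0) (nat_lit 0) (XT.nd (nat_lit 94) (nat_lit 0) (nat_lit 0) (XT.lf (nat_lit 0) (nat_lit 3480523686) (nat_lit 1092) (nat_lit 4112494521) (nat_lit 1176) (nat_lit 2163561821) (nat_lit 191) (nat_lit 5) (nat_lit 204) (nat_lit 3) (nat_lit 205) (nat_lit 5) (nat_lit 343) (nat_lit 342) (nat_lit 260)) (XT.lf (nat_lit 84) (nat_lit 157439993) (nat_lit 0) (nat_lit 4108254835) (nat_lit 1176) (nat_lit 5616045619) (nat_lit 192) (nat_lit 5) (nat_lit 191) (nat_lit 5) (nat_lit 205) (nat_lit 5) (nat_lit 344) (nat_lit 342) (nat_lit 259))) (XT.nd (nat_lit 94) (nat_lit 0) (nat_lit 84) (XT.lf (nat_lit 84) (nat_lit 4624985772) (nat_lit 0) (nat_lit 463938553) (nat_lit 1176) (nat_lit 4921350053) (nat_lit 192) (nat_lit 5) (nat_lit 191) (nat_lit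 5) (nat_lit 205) (nat_lit 5) (nat_lit 345) (nat_lit 342) (nat_lit 258)) (XT.lf (nat_lit 0) (nat_lit 5942349802) (nat_lit 1092) (nat_lit 963040771) (nat_lit 1176) (nat_lit 3237161008) (nat_lit 192) (nat_lit 5) (nat_lit 205) (nat_lit 5) (nat_lit 206) (nat_lit 5) (nat_lit 346) (nat_lit 342) (nat_lit 257))))) (XT.nd (nat_lit 282) (nat_lit 1008) (nat_lit 0) (XT.nd (nat_lit 94) (nat_lit 0) (nat_lit 84) (XT.lf (nat_lit 84) (nat_lit 3643513399) (nat_lit 0) (nat_lit 3192119071) (nat_lit 1176) (nat_lit 3442787704) (nat_lit 193) (nat_lit 5) (nat_lit 192) (nat_lit 5) (nat_lit 206) (nat_lit 5) (nat_lit 347) (nat_lit 342) (nat_lit 256)) (XT.nd (nat_lit 94) (nat_lit 0) (nat_lit 0) (XT.lf (nat_lit 0) (nat_lit 7746946274) (nat_lit 1092) (nat_lit 2031852977) (nat_lit 1176) (nat_lit 639877824) (nat_lit 193) (nat_lit 5) (nat_lit 206) (nat_lit 5) (nat_lit 207) (nat_lit 5) (nat_lit 348) (nat_lit 342) (nat_lit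 255)) (XT.lf (nat_lit 84) (nat_lit 2715522816) (nat_lit 0) (nat_lit 6003834677) (nat_lit 1176) (nat_lit 1842819247) (nat_lit 194) (nat_lit 5) (nat_lit 193) (nat_lit 5) (nat_lit 207) (nat_lit 5) (nat_lit 349) (nat_lit 342) (nat_lit 254)))) (XT.nd (nat_lit 188) (nat_lit 1092) (nat_lit 0) (XT.nd (nat_lit 94) (nat_lit 0) (nat_lit 84) (XT.lf (nat_lit 84) (nat_lit 7631965336) (nat_lit 0) (nat_lit 2086096380) (nat_lit 1176) (nat_lit 992052461) (nat_lit 194) (nat_lit 5) (nat_lit 193) (nat_lit 5) (nat_lit 207) (nat_lit 5) (nat_lit 350) (nat_lit 342) (nat_lit 253)) (XT.lf (nat_lit 84) (nat_lit 1835111044) (nat_lit 0) (nat_lit 8925355607) (nat_lit 1176) (nat_lit 101655953) (nat_lit 195) (nat_lit 5) (nat_lit 194) (nat_lit 5) (nat_lit 208) (nat_lit 5) (nat_lit 351) (nat_lit 342) (nat_lit 252))) (XT.nd (nat_lit 94) (nat_lit 0) (nat_lit 0) (XT.lf (nat_lit 0) (nat_lit 829199268) (nat_lit 1176) (nat_lit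 4103402426) (nat_lit 1260) (nat_lit 6085007118) (nat_lit 180) (nat_lit 5) (nat_lit 194) (nat_lit 5) (nat_lit 195) (nat_lit 5) (nat_lit 352) (nat_lit 342) (nat_lit 251)) (XT.lf (nat_lit 84) (nat_lit 970595289) (nat_lit 0) (nat_lit 802937445) (nat_lit 1260) (nat_lit 9404610034) (nat_lit 181) (nat_lit 5) (nat_lit 180) (nat_lit 5) (nat_lit 195) (nat_lit 5) (nat_lit 353) (nat_lit 342) (nat_lit 250))))))) (XT.nd (nat_lit 1316) (nat_lit 3696) (nat_lit 0) (XT.nd (nat_lit 658) (nat_lit 2520) (nat_lit 0) (XT.nd (nat_lit 282) (nat_lit 1008) (nat_lit 0) (XT.nd (nat_lit 94) (nat_lit 0) (nat_lit 0) (XT.lf (nat_lit 0) (nat_lit 2800024940) (nat_lit 1176) (nat_lit 5110740627) (nat_lit 1260) (nat_lit 3431152344) (nat_lit 181) (nat_lit 5) (nat_lit 195) (nat_lit 5) (nat_lit 196) (nat_lit 5) (nat_lit 354) (nat_lit 342) (nat_lit 249)) (XT.nd (nat_lit 94) (nat_lit 0) (nat_lit 84) (XT.lf (nat_lit 84) (nat_lit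 117943478) (nat_lit 0) (nat_lit 3727881874) (nat_lit 1260) (nat_lit 7665164413) (nat_lit 182) (nat_lit 5) (nat_lit 181) (nat_lit 5) (nat_lit 196) (nat_lit 5) (nat_lit 355) (nat_lit 342) (nat_lit 248)) (XT.lf (nat_lit 0) (nat_lit 4960628796) (nat_lit 1176) (nat_lit 6097339291) (nat_lit 1260) (nat_lit 626074549) (nat_lit 182) (nat_lit 5) (nat_lit 196) (nat_lit 5) (nat_lit 197) (nat_lit 5) (nat_lit 356) (nat_lit 342) (nat_lit 247)))) (XT.nd (nat_lit 188) (nat_lit 1092) (nat_lit 0) (XT.nd (nat_lit 94) (nat_lit 0) (nat_lit 0) (XT.lf (nat_lit 0) (nat_lit 6126300216) (nat_lit 1176) (nat_lit 695123295) (nat_lit 1260) (nat_lit 5040377498) (nat_lit 182) (nat_lit 5) (nat_lit 196) (nat_lit 5) (nat_lit 197) (nat_lit 5) (nat_lit 357) (nat_lit 342) (nat_lit 246)) (XT.lf (nat_lit 84) (nat_lit 4950764001) (nat_lit 0) (nat_lit 2404849249) (nat_lit 1260) (nat_lit 4688454303) (nat_lit 183) (nat_lit 5) (nat_lit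 182) (nat_lit 5) (nat_lit 197) (nat_lit 5) (nat_lit 358) (nat_lit 342) (nat_lit 245))) (XT.nd (nat_lit 94) (nat_lit 1176) (nat_lit 0) (XT.lf (nat_lit 0) (nat_lit 8631031184) (nat_lit 1176) (nat_lit 1487475621) (nat_lit 84) (nat_lit 2113053051) (nat_lit 183) (nat_lit 5) (nat_lit 197) (nat_lit 5) (nat_lit 184) (nat_lit 5) (nat_lit 359) (nat_lit 342) (nat_lit 244)) (XT.lf (nat_lit 0) (nat_lit 4332224651) (nat_lit 1176) (nat_lit 5660004545) (nat_lit 1260) (nat_lit 2431055731) (nat_lit 169) (nat_lit 5) (nat_lit 183) (nat_lit 5) (nat_lit 184) (nat_lit 5) (nat_lit 360) (nat_lit 342) (nat_lit 243))))) (XT.nd (nat_lit 282) (nat_lit 1176) (nat_lit 0) (XT.nd (nat_lit 94) (nat_lit 1344) (nat_lit 0) (XT.lf (nat_lit 0) (nat_lit 10342125656) (nat_lit 1176) (nat_lit 1049600612) (nat_lit 1260) (nat_lit 1229144134) (nat_lit 169) (nat_lit 5) (nat_lit 183) (nat_lit 5) (nat_lit 184) (nat_lit 5) (nat_lit 361)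 (nat_lit 342) (nat_lit 242)) (XT.nd (nat_lit 94) (nat_lit 0) (nat_lit 0) (XT.lf (nat_lit 0) (nat_lit 63553744) (nat_lit 1344) (nat_lit 9093252035) (nat_lit 84) (nat_lit 3665958761) (nat_lit 153) (nat_lit 5) (nat_lit 169) (nat_lit 5) (nat_lit 154) (nat_lit 5) (nat_lit 362) (nat_lit 342) (nat_lit 241)) (XT.lf (nat_lit 0) (nat_lit 1387095349) (nat_lit 1344) (nat_lit 3103320066) (nat_lit 84) (nat_lit 8539461761) (nat_lit 153) (nat_lit 5) (nat_lit 169) (nat_lit 5) (nat_lit 154) (nat_lit 5) (nat_lit 363) (nat_lit 342) (nat_lit 240)))) (XT.nd (nat_lit 188) (nat_lit 588) (nat_lit 0) (XT.nd (nat_lit 94) (nat_lit 0) (nat_lit 0) (XT.lf (nat_lit 0) (nat_lit 2767236492) (nat_lit 672) (nat_lit 10133924376) (nat_lit 84) (nat_lit 341564440) (nat_lit 146) (nat_lit 5) (nat_lit 154) (nat_lit 5) (nat_lit 147) (nat_lit 5) (nat_lit 364) (nat_lit 342) (nat_lit 239)) (XT.lf (nat_lit 0) (nat_lit 4248866351) (nat_lit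 672) (nat_lit 3950056531) (nat_lit 84) (nat_lit 5261261542) (nat_lit 146) (nat_lit 5) (nat_lit 154) (nat_lit 5) (nat_lit 147) (nat_lit 5) (nat_lit 365) (nat_lit 342) (nat_lit 238))) (XT.nd (nat_lit 94) (nat_lit 0) (nat_lit 0) (XT.lf (nat_lit 0) (nat_lit 2452456896) (nat_lit 588) (nat_lit 3330506614) (nat_lit 672) (nat_lit 7900990511) (nat_lit 139) (nat_lit 5) (nat_lit 146) (nat_lit 5) (nat_lit 147) (nat_lit 5) (nat_lit 366) (nat_lit 342) (nat_lit 237)) (XT.lf (nat_lit 0) (nat_lit 7404316771) (nat_lit 672) (nat_lit 4816876711) (nat_lit 84) (nat_lit 1692032691) (nat_lit 139) (nat_lit 5) (nat_lit 147) (nat_lit 5) (nat_lit 140) (nat_lit 5) (nat_lit 367) (nat_lit 342) (nat_lit 236)))))) (XT.nd (nat_lit 658) (nat_lit 1932) (nat_lit 0) (XT.nd (nat_lit 282) (nat_lit 588) (nat_lit 0) (XT.nd (nat_lit 94) (nat_lit 588) (nat_lit 0) (XT.lf (nat_lit 0) (nat_lit 1777254185) (nat_lit 588) (nat_lit 7332322759)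 (nat_lit 672) (nat_lit 5038767248) (nat_lit 132) (nat_lit 5) (nat_lit 139) (nat_lit 5) (nat_lit 140) (nat_lit 5) (nat_lit 368) (nat_lit 342) (nat_lit 235)) (XT.nd (nat_lit 94) (nat_lit 588) (nat_lit 0) (XT.lf (nat_lit 0) (nat_lit 8653460276) (nat_lit 588) (nat_lit 2246674185) (nat_lit 672) (nat_lit 3489382049) (nat_lit 132) (nat_lit 5) (nat_lit 139) (nat_lit 5) (nat_lit 140) (nat_lit 5) (nat_lit 369) (nat_lit 342) (nat_lit 234)) (XT.lf (nat_lit 0) (nat_lit 1075749099) (nat_lit 588) (nat_lit 11693677920) (nat_lit 672) (nat_lit 1867770647) (nat_lit 125) (nat_lit 5) (nat_lit 132) (nat_lit 5) (nat_lit 133) (nat_lit 5) (nat_lit 370) (nat_lit 342) (nat_lit 233)))) (XT.nd (nat_lit 188) (nat_lit 0) (nat_lit 0) (XT.nd (nat_lit 94) (nat_lit 588) (nat_lit 0) (XT.lf (nat_lit 0) (nat_lit 8172432777) (nat_lit 588) (nat_lit 6588507635) (nat_lit 672) (nat_lit 129408096) (nat_lit 125) (nat_lit 5) (nat_lit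 132) (nat_lit 5) (nat_lit 133) (nat_lit 5) (nat_lit 371) (nat_lit 342) (nat_lit 232)) (XT.lf (nat_lit 0) (nat_lit 306694478) (nat_lit 504) (nat_lit 1311384802) (nat_lit 588) (nat_lit 13532876087) (nat_lit 118) (nat_lit 5) (nat_lit 124) (nat_lit 5) (nat_lit 125) (nat_lit 5) (nat_lit 372) (nat_lit 342) (nat_lit 231))) (XT.nd (nat_lit 94) (nat_lit 0) (nat_lit 0) (XT.lf (nat_lit 0) (nat_lit 3510234228) (nat_lit 588) (nat_lit 7793706351) (nat_lit 84) (nat_lit 4112577615) (nat_lit 118) (nat_lit 5) (nat_lit 125) (nat_lit 5) (nat_lit 119) (nat_lit 5) (nat_lit 373) (nat_lit 342) (nat_lit 230)) (XT.lf (nat_lit 0) (nat_lit 5459217033) (nat_lit 588) (nat_lit 558715199) (nat_lit 84) (nat_lit 9672134668) (nat_lit 118) (nat_lit 5) (nat_lit 125) (nat_lit 5) (nat_lit 119) (nat_lit 5) (nat_lit 374) (nat_lit 342) (nat_lit 229))))) (XT.nd (nat_lit 282) (nat_lit 1008) (nat_lit 0) (XT.nd (nat_lit 94) (nat_lit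 420) (nat_lit 0) (XT.lf (nat_lit 0) (nat_lit 7016558566) (nat_lit 504) (nat_lit 505013745) (nat_lit 588) (nat_lit 8448622949) (nat_lit 112) (nat_lit 5) (nat_lit 118) (nat_lit 5) (nat_lit 119) (nat_lit 5) (nat_lit 375) (nat_lit 342) (nat_lit 228)) (XT.nd (nat_lit 94) (nat_lit 420) (nat_lit 0) (XT.lf (nat_lit 0) (nat_lit 9688903593) (nat_lit 588) (nat_lit 1491727580) (nat_lit 84) (nat_lit 5076822828) (nat_lit 112) (nat_lit 5) (nat_lit 119) (nat_lit 5) (nat_lit 113) (nat_lit 5) (nat_lit 376) (nat_lit 342) (nat_lit 227)) (XT.lf (nat_lit 0) (nat_lit 6298420915) (nat_lit 420) (nat_lit 5676415888) (nat_lit 504) (nat_lit 4576905360) (nat_lit 107) (nat_lit 5) (nat_lit 112) (nat_lit 5) (nat_lit 113) (nat_lit 5) (nat_lit 377) (nat_lit 342) (nat_lit 226)))) (XT.nd (nat_lit 188) (nat_lit 504) (nat_lit 0) (XT.nd (nat_lit 94) (nat_lit 504) (nat_lit 0) (XT.lf (nat_lit 0) (nat_lit 14332734127) (nat_lit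 504) (nat_lit 2515380456) (nat_lit 84) (nat_lit 6661363) (nat_lit 107) (nat_lit 5) (nat_lit 113) (nat_lit 5) (nat_lit 108) (nat_lit 5) (nat_lit 378) (nat_lit 342) (nat_lit 225)) (XT.lf (nat_lit 0) (nat_lit 5492326774) (nat_lit 504) (nat_lit 11366623271) (nat_lit 588) (nat_lit 305041269) (nat_lit 101) (nat_lit 5) (nat_lit 107) (nat_lit 5) (nat_lit 108) (nat_lit 5) (nat_lit 379) (nat_lit 342) (nat_lit 224))) (XT.nd (nat_lit 94) (nat_lit 420) (nat_lit 0) (XT.lf (nat_lit 0) (nat_lit 1954175404) (nat_lit 588) (nat_lit 3722619366) (nat_lit 84) (nat_lit 11804705417) (nat_lit 100) (nat_lit 5) (nat_lit 107) (nat_lit 5) (nat_lit 101) (nat_lit 5) (nat_lit 380) (nat_lit 342) (nat_lit 223)) (XT.lf (nat_lit 0) (nat_lit 4309852971) (nat_lit 504) (nat_lit 13272337643) (nat_lit 84) (nat_lit 225225133) (nat_lit 95) (nat_lit 5) (nat_lit 101) (nat_lit 5) (nat_lit 96) (nat_lit 5) (nat_lit 381) (nat_lit 342)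 (nat_lit 222))))))))
noncomputable def xc145 : XT := (XT.nd (nat_lit 2538) (nat_lit 1932) (nat_lit 0) (XT.nd (nat_lit 1222) (nat_lit 1848) (nat_lit 0) (XT.nd (nat_lit 564) (nat_lit 1092) (nat_lit 0) (XT.nd (nat_lit 282) (nat_lit 840) (nat_lit 0) (XT.nd (nat_lit 94) (nat_lit 420) (nat_lit 0) (XT.lf (nat_lit 0) (nat_lit 6819537486) (nat_lit 504) (nat_lit 5094999048) (nat_lit 84) (nat_lit 6226088152) (nat_lit 95) (nat_lit 5) (nat_lit 101) (nat_lit 5) (nat_lit 96) (nat_lit 5) (nat_lit 382) (nat_lit 342) (nat_lit 221)) (XT.nd (nat_lit 94) (nat_lit 0) (nat_lit 0) (XT.lf (nat_lit 0) (nat_lit 3380760144) (nat_lit 420) (nat_lit 6045733223) (nat_lit 504) (nat_lit 9056692646) (nat_lit 90) (nat_lit 5) (nat_lit 95) (nat_lit 5) (nat_lit 96) (nat_lit 5) (nat_lit 383) (nat_lit 342) (nat_lit 220)) (XT.lf (nat_lit 0) (nat_lit 12153252046) (nat_lit 504) (nat_lit 6632793276) (nat_lit 84) (nat_lit 48746125)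 (nat_lit 90) (nat_lit 5) (nat_lit 96) (nat_lit 5) (nat_lit 91) (nat_lit 5) (nat_lit 384) (nat_lit 342) (nat_lit 219)))) (XT.nd (nat_lit 94) (nat_lit 504) (nat_lit 0) (XT.lf (nat_lit 0) (nat_lit 2058573617) (nat_lit 336) (nat_lit 12972832067) (nat_lit 420) (nat_lit 4163466248) (nat_lit 86) (nat_lit 5) (nat_lit 90) (nat_lit 5) (nat_lit 91) (nat_lit 5) (nat_lit 385) (nat_lit 342) (nat_lit 218)) (XT.nd (nat_lit 94) (nat_lit 504) (nat_lit 0) (XT.lf (nat_lit 0) (nat_lit 11134105337) (nat_lit 336) (nat_lit 6918894285) (nat_lit 420) (nat_lit 1511056564) (nat_lit 86) (nat_lit 5) (nat_lit 90) (nat_lit 5) (nat_lit 91) (nat_lit 5) (nat_lit 386) (nat_lit 342) (nat_lit 217)) (XT.lf (nat_lit 0) (nat_lit 523686607) (nat_lit 420) (nat_lit 668744931) (nat_lit 504) (nat_lit 18751685826) (nat_lit 80) (nat_lit 5) (nat_lit 85) (nat_lit 5) (nat_lit 86) (nat_lit 5) (nat_lit 387) (nat_lit 342) (nat_lit 216)))))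 (XT.nd (nat_lit 282) (nat_lit 756) (nat_lit 0) (XT.nd (nat_lit 94) (nat_lit 336) (nat_lit 0) (XT.lf (nat_lit 0) (nat_lit 4078511990) (nat_lit 504) (nat_lit 10498080505) (nat_lit 84) (nat_lit 5754596318) (nat_lit 80) (nat_lit 5) (nat_lit 86) (nat_lit 5) (nat_lit 81) (nat_lit 5) (nat_lit 388) (nat_lit 342) (nat_lit 215)) (XT.nd (nat_lit 94) (nat_lit 336) (nat_lit 0) (XT.lf (nat_lit 0) (nat_lit 7048510031) (nat_lit 504) (nat_lit 1326850646) (nat_lit 84) (nat_lit 12354604313) (nat_lit 80) (nat_lit 5) (nat_lit 86) (nat_lit 5) (nat_lit 81) (nat_lit 5) (nat_lit 389) (nat_lit 342) (nat_lit 214)) (XT.lf (nat_lit 0) (nat_lit 8269060046) (nat_lit 336) (nat_lit 1909019639) (nat_lit 420) (nat_lit 10960522889) (nat_lit 76) (nat_lit 5) (nat_lit 80) (nat_lit 5) (nat_lit 81) (nat_lit 5) (nat_lit 390) (nat_lit 342) (nat_lit 213)))) (XT.nd (nat_lit 188) (nat_lit 420) (nat_lit 0) (XT.nd (nat_lit 94) (nat_lit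 336) (nat_lit 0) (XT.lf (nat_lit 0) (nat_lit 13451847486) (nat_lit 420) (nat_lit 3436805312) (nat_lit 84) (nat_lit 4669349068) (nat_lit 76) (nat_lit 5) (nat_lit 81) (nat_lit 5) (nat_lit 77) (nat_lit 5) (nat_lit 391) (nat_lit 342) (nat_lit 212)) (XT.lf (nat_lit 0) (nat_lit 6372766514) (nat_lit 336) (nat_lit 10522588227) (nat_lit 420) (nat_lit 5092494170) (nat_lit 72) (nat_lit 5) (nat_lit 76) (nat_lit 5) (nat_lit 77) (nat_lit 5) (nat_lit 392) (nat_lit 342) (nat_lit 211))) (XT.nd (nat_lit 94) (nat_lit 420) (nat_lit 0) (XT.lf (nat_lit 0) (nat_lit 16535588431) (nat_lit 336) (nat_lit 3932791120) (nat_lit 420) (nat_lit 1961436677) (nat_lit 72) (nat_lit 5) (nat_lit 76) (nat_lit 5) (nat_lit 77) (nat_lit 5) (nat_lit 393) (nat_lit 342) (nat_lit 210)) (XT.lf (nat_lit 0) (nat_lit 1298633405) (nat_lit 420) (nat_lit 18735394278) (nat_lit 84) (nat_lit 2848868963) (nat_lit 67) (nat_lit 5) (nat_lit 72)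 (nat_lit 5) (nat_lit 68) (nat_lit 5) (nat_lit 394) (nat_lit 342) (nat_lit 209)))))) (XT.nd (nat_lit 658) (nat_lit 840) (nat_lit 0) (XT.nd (nat_lit 282) (nat_lit 672) (nat_lit 0) (XT.nd (nat_lit 94) (nat_lit 336) (nat_lit 0) (XT.lf (nat_lit 0) (nat_lit 4707899010) (nat_lit 420) (nat_lit 8806867940) (nat_lit 84) (nat_lit 9831505710) (nat_lit 67) (nat_lit 5) (nat_lit 72) (nat_lit 5) (nat_lit 68) (nat_lit 5) (nat_lit 395) (nat_lit 342) (nat_lit 208)) (XT.nd (nat_lit 94) (nat_lit 0) (nat_lit 0) (XT.lf (nat_lit 0) (nat_lit 1436431124) (nat_lit 336) (nat_lit 6788827446) (nat_lit 420) (nat_lit 15598126881) (nat_lit 63) (nat_lit 5) (nat_lit 67) (nat_lit 5) (nat_lit 68) (nat_lit 5) (nat_lit 396) (nat_lit 342) (nat_lit 207)) (XT.lf (nat_lit 0) (nat_lit 11931391583) (nat_lit 420) (nat_lit 12158017472) (nat_lit 84) (nat_lit 222914680) (nat_lit 63) (nat_lit 5) (nat_lit 68) (nat_lit 5) (nat_lit 64) (nat_lit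 5) (nat_lit 397) (nat_lit 342) (nat_lit 206)))) (XT.nd (nat_lit 188) (nat_lit 420) (nat_lit 0) (XT.nd (nat_lit 94) (nat_lit 252) (nat_lit 0) (XT.lf (nat_lit 0) (nat_lit 15808259603) (nat_lit 420) (nat_lit 1700321355) (nat_lit 84) (nat_lit 7305572081) (nat_lit 63) (nat_lit 5) (nat_lit 68) (nat_lit 5) (nat_lit 64) (nat_lit 5) (nat_lit 398) (nat_lit 342) (nat_lit 205)) (XT.lf (nat_lit 0) (nat_lit 9240852492) (nat_lit 252) (nat_lit 10641968059) (nat_lit 336) (nat_lit 5445784196) (nat_lit 60) (nat_lit 5) (nat_lit 63) (nat_lit 5) (nat_lit 64) (nat_lit 5) (nat_lit 399) (nat_lit 342) (nat_lit 204))) (XT.nd (nat_lit 94) (nat_lit 420) (nat_lit 0) (XT.lf (nat_lit 0) (nat_lit 20534644690) (nat_lit 252) (nat_lit 3554817801) (nat_lit 336) (nat_lit 1768741055) (nat_lit 60) (nat_lit 5) (nat_lit 63) (nat_lit 5) (nat_lit 64) (nat_lit 5) (nat_lit 400) (nat_lit 342) (nat_lit 203)) (XT.lf (nat_lit 0) (nat_lit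 2064963182) (nat_lit 420) (nat_lit 20590410659) (nat_lit 84) (nat_lit 3745170494) (nat_lit 55) (nat_lit 5) (nat_lit 60) (nat_lit 5) (nat_lit 56) (nat_lit 5) (nat_lit 401) (nat_lit 342) (nat_lit 202))))) (XT.nd (nat_lit 282) (nat_lit 588) (nat_lit 0) (XT.nd (nat_lit 94) (nat_lit 252) (nat_lit 0) (XT.lf (nat_lit 0) (nat_lit 6060504426) (nat_lit 420) (nat_lit 9634226110) (nat_lit 84) (nat_lit 11261436279) (nat_lit 55) (nat_lit 5) (nat_lit 60) (nat_lit 5) (nat_lit 56) (nat_lit 5) (nat_lit 402) (nat_lit 342) (nat_lit 201)) (XT.nd (nat_lit 94) (nat_lit 0) (nat_lit 0) (XT.lf (nat_lit 0) (nat_lit 1673189604) (nat_lit 252) (nat_lit 8511902967) (nat_lit 336) (nat_lit 17343097856) (nat_lit 52) (nat_lit 5) (nat_lit 55) (nat_lit 5) (nat_lit 56) (nat_lit 5) (nat_lit 403) (nat_lit 342) (nat_lit 200)) (XT.lf (nat_lit 0) (nat_lit 13507314715) (nat_lit 252) (nat_lit 1016592263) (nat_lit 336) (nat_lit 13590760758)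 (nat_lit 52) (nat_lit 5) (nat_lit 55) (nat_lit 5) (nat_lit 56) (nat_lit 5) (nat_lit 404) (nat_lit 342) (nat_lit 199)))) (XT.nd (nat_lit 188) (nat_lit 336) (nat_lit 0) (XT.nd (nat_lit 94) (nat_lit 252) (nat_lit 0) (XT.lf (nat_lit 0) (nat_lit 19050694607) (nat_lit 336) (nat_lit 3096604022) (nat_lit 84) (nat_lit 6569713895) (nat_lit 52) (nat_lit 5) (nat_lit 56) (nat_lit 5) (nat_lit 53) (nat_lit 5) (nat_lit 405) (nat_lit 342) (nat_lit 198)) (XT.lf (nat_lit 0) (nat_lit 8913740042) (nat_lit 252) (nat_lit 14888858423) (nat_lit 336) (nat_lit 5532157021) (nat_lit 49) (nat_lit 5) (nat_lit 52) (nat_lit 5) (nat_lit 53) (nat_lit 5) (nat_lit 406) (nat_lit 342) (nat_lit 197))) (XT.nd (nat_lit 94) (nat_lit 336) (nat_lit 0) (XT.lf (nat_lit 0) (nat_lit 21338364598) (nat_lit 252) (nat_lit 7383623575) (nat_lit 336) (nat_lit 1248301700) (nat_lit 49) (nat_lit 5) (nat_lit 52) (nat_lit 5) (nat_lit 53) (nat_lit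 5) (nat_lit 407) (nat_lit 342) (nat_lit 196)) (XT.lf (nat_lit 0) (nat_lit 3134074353) (nat_lit 336) (nat_lit 27086948684) (nat_lit 84) (nat_lit 402008978) (nat_lit 45) (nat_lit 5) (nat_lit 49) (nat_lit 5) (nat_lit 46) (nat_lit 5) (nat_lit 408) (nat_lit 342) (nat_lit 195))))))) (XT.nd (nat_lit 1316) (nat_lit 756) (nat_lit 0) (XT.nd (nat_lit 658) (nat_lit 672) (nat_lit 0) (XT.nd (nat_lit 282) (nat_lit 252) (nat_lit 0) (XT.nd (nat_lit 94) (nat_lit 252) (nat_lit 0) (XT.lf (nat_lit 0) (nat_lit 7777803985) (nat_lit 336) (nat_lit 15142420040) (nat_lit 84) (nat_lit 8370118859) (nat_lit 45) (nat_lit 5) (nat_lit 49) (nat_lit 5) (nat_lit 46) (nat_lit 5) (nat_lit 409) (nat_lit 342) (nat_lit 194)) (XT.nd (nat_lit 94) (nat_lit 252) (nat_lit 0) (XT.lf (nat_lit 0) (nat_lit 12554863173) (nat_lit 336) (nat_lit 2848710058) (nat_lit 84) (nat_lit 16574285536) (nat_lit 45) (nat_lit 5) (nat_lit 49) (nat_lit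 5) (nat_lit 46) (nat_lit 5) (nat_lit 410) (nat_lit 342) (nat_lit 193)) (XT.lf (nat_lit 0) (nat_lit 10000060539) (nat_lit 252) (nat_lit 7565492207) (nat_lit 336) (nat_lit 15117743860) (nat_lit 42) (nat_lit 5) (nat_lit 45) (nat_lit 5) (nat_lit 46) (nat_lit 5) (nat_lit 411) (nat_lit 342) (nat_lit 192)))) (XT.nd (nat_lit 188) (nat_lit 84) (nat_lit 0) (XT.nd (nat_lit 94) (nat_lit 168) (nat_lit 0) (XT.lf (nat_lit 0) (nat_lit 22754741730) (nat_lit 336) (nat_lit 10130458743) (nat_lit 84) (nat_lit 523857605) (nat_lit 42) (nat_lit 5) (nat_lit 46) (nat_lit 5) (nat_lit 43) (nat_lit 5) (nat_lit 412) (nat_lit 342) (nat_lit 191)) (XT.lf (nat_lit 0) (nat_lit 2769347898) (nat_lit 168) (nat_lit 25426199479) (nat_lit 252) (nat_lit 5958172476) (nat_lit 40) (nat_lit 5) (nat_lit 42) (nat_lit 5) (nat_lit 43) (nat_lit 5) (nat_lit 413) (nat_lit 342) (nat_lit 190))) (XT.nd (nat_lit 94) (nat_lit 84) (nat_lit 0)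 (XT.lf (nat_lit 0) (nat_lit 16255210297) (nat_lit 168) (nat_lit 17641159121) (nat_lit 252) (nat_lit 1021453822) (nat_lit 40) (nat_lit 5) (nat_lit 42) (nat_lit 5) (nat_lit 43) (nat_lit 5) (nat_lit 414) (nat_lit 342) (nat_lit 189)) (XT.lf (nat_lit 0) (nat_lit 3978672105) (nat_lit 252) (nat_lit 5606725813) (nat_lit 84) (nat_lit 26118447333) (nat_lit 39) (nat_lit 5) (nat_lit 42) (nat_lit 5) (nat_lit 40) (nat_lit 5) (nat_lit 415) (nat_lit 342) (nat_lit 188))))) (XT.nd (nat_lit 282) (nat_lit 420) (nat_lit 0) (XT.nd (nat_lit 94) (nat_lit 0) (nat_lit 0) (XT.lf (nat_lit 0) (nat_lit 7978189202) (nat_lit 252) (nat_lit 1201527641) (nat_lit 336) (nat_lit 27331289375) (nat_lit 36) (nat_lit 5) (nat_lit 39) (nat_lit 5) (nat_lit 40) (nat_lit 5) (nat_lit 416) (nat_lit 342) (nat_lit 187)) (XT.nd (nat_lit 94) (nat_lit 0) (nat_lit 0) (XT.lf (nat_lit 0) (nat_lit 14660229283) (nat_lit 336) (nat_lit 15335388310)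 (nat_lit 84) (nat_lit 7343066237) (nat_lit 36) (nat_lit 5) (nat_lit 40) (nat_lit 5) (nat_lit 37) (nat_lit 5) (nat_lit 417) (nat_lit 342) (nat_lit 186)) (XT.lf (nat_lit 0) (nat_lit 20312004925) (nat_lit 336) (nat_lit 1761961691) (nat_lit 84) (nat_lit 16117024486) (nat_lit 36) (nat_lit 5) (nat_lit 40) (nat_lit 5) (nat_lit 37) (nat_lit 5) (nat_lit 418) (nat_lit 342) (nat_lit 185)))) (XT.nd (nat_lit 188) (nat_lit 252) (nat_lit 0) (XT.nd (nat_lit 94) (nat_lit 0) (nat_lit 0) (XT.lf (nat_lit 0) (nat_lit 12453893250) (nat_lit 168) (nat_lit 13794253585) (nat_lit 252) (nat_lit 12817280994) (nat_lit 34) (nat_lit 5) (nat_lit 36) (nat_lit 5) (nat_lit 37) (nat_lit 5) (nat_lit 419) (nat_lit 342) (nat_lit 184)) (XT.lf (nat_lit 0) (nat_lit 27124623956) (nat_lit 168) (nat_lit 5250708530) (nat_lit 252) (nat_lit 7590380878) (nat_lit 34) (nat_lit 5) (nat_lit 36) (nat_lit 5) (nat_lit 37) (nat_lit 5) (nat_lit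 420) (nat_lit 342) (nat_lit 183))) (XT.nd (nat_lit 94) (nat_lit 84) (nat_lit 0) (XT.lf (nat_lit 0) (nat_lit 1326628118) (nat_lit 168) (nat_lit 37401855443) (nat_lit 252) (nat_lit 2163263771) (nat_lit 32) (nat_lit 5) (nat_lit 34) (nat_lit 5) (nat_lit 35) (nat_lit 5) (nat_lit 421) (nat_lit 342) (nat_lit 182)) (XT.lf (nat_lit 0) (nat_lit 3538036857) (nat_lit 252) (nat_lit 25752910469) (nat_lit 84) (nat_lit 12548283827) (nat_lit 31) (nat_lit 5) (nat_lit 34) (nat_lit 5) (nat_lit 32) (nat_lit 5) (nat_lit 422) (nat_lit 342) (nat_lit 181)))))) (XT.nd (nat_lit 658) (nat_lit 336) (nat_lit 0) (XT.nd (nat_lit 282) (nat_lit 252) (nat_lit 0) (XT.nd (nat_lit 94) (nat_lit 168) (nat_lit 0) (XT.lf (nat_lit 0) (nat_lit 9362329788) (nat_lit 252) (nat_lit 11555166408) (nat_lit 84) (nat_lit 21897141747) (nat_lit 31) (nat_lit 5) (nat_lit 34) (nat_lit 5) (nat_lit 32) (nat_lit 5) (nat_lit 423) (nat_lit 342) (nat_lit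 180)) (XT.nd (nat_lit 94) (nat_lit 0) (nat_lit 0) (XT.lf (nat_lit 0) (nat_lit 3122239516) (nat_lit 168) (nat_lit 12264690635) (nat_lit 252) (nat_lit 28431613302) (nat_lit 29) (nat_lit 5) (nat_lit 31) (nat_lit 5) (nat_lit 32) (nat_lit 5) (nat_lit 424) (nat_lit 342) (nat_lit 179)) (XT.lf (nat_lit 0) (nat_lit 18469711161) (nat_lit 168) (nat_lit 3234868312) (nat_lit 252) (nat_lit 23144621090) (nat_lit 29) (nat_lit 5) (nat_lit 31) (nat_lit 5) (nat_lit 32) (nat_lit 5) (nat_lit 425) (nat_lit 342) (nat_lit 178)))) (XT.nd (nat_lit 188) (nat_lit 84) (nat_lit 0) (XT.nd (nat_lit 94) (nat_lit 168) (nat_lit 0) (XT.lf (nat_lit 0) (nat_lit 28265795041) (nat_lit 252) (nat_lit 11698502915) (nat_lit 84) (nat_lit 5944861977) (nat_lit 29) (nat_lit 5) (nat_lit 32) (nat_lit 5) (nat_lit 30) (nat_lit 5) (nat_lit 426) (nat_lit 342) (nat_lit 177)) (XT.lf (nat_lit 0) (nat_lit 3451415046) (nat_lit 168) (nat_lit 31633490085)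 (nat_lit 252) (nat_lit 11914184758) (nat_lit 27) (nat_lit 5) (nat_lit 29) (nat_lit 5) (nat_lit 30) (nat_lit 5) (nat_lit 427) (nat_lit 342) (nat_lit 176))) (XT.nd (nat_lit 94) (nat_lit 84) (nat_lit 0) (XT.lf (nat_lit 0) (nat_lit 19288885984) (nat_lit 168) (nat_lit 22933742917) (nat_lit 252) (nat_lit 5895671074) (nat_lit 27) (nat_lit 5) (nat_lit 29) (nat_lit 5) (nat_lit 30) (nat_lit 5) (nat_lit 428) (nat_lit 342) (nat_lit 175)) (XT.lf (nat_lit 0) (nat_lit 293462630) (nat_lit 252) (nat_lit 13679160645) (nat_lit 84) (nat_lit 35298499290) (nat_lit 26) (nat_lit 5) (nat_lit 29) (nat_lit 5) (nat_lit 27) (nat_lit 5) (nat_lit 429) (nat_lit 342) (nat_lit 174))))) (XT.nd (nat_lit 282) (nat_lit 168) (nat_lit 0) (XT.nd (nat_lit 94) (nat_lit 0) (nat_lit 0) (XT.lf (nat_lit 0) (nat_lit 1897815009) (nat_lit 168) (nat_lit 4666303085) (nat_lit 252) (nat_lit 43892233354) (nat_lit 24) (nat_lit 5) (nat_lit 26)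 (nat_lit 5) (nat_lit 27) (nat_lit 5) (nat_lit 430) (nat_lit 342) (nat_lit 173)) (XT.nd (nat_lit 94) (nat_lit 0) (nat_lit 0) (XT.lf (nat_lit 0) (nat_lit 13205809742) (nat_lit 252) (nat_lit 33505614354) (nat_lit 84) (nat_lit 4960228663) (nat_lit 24) (nat_lit 5) (nat_lit 27) (nat_lit 5) (nat_lit 25) (nat_lit 5) (nat_lit 431) (nat_lit 342) (nat_lit 172)) (XT.lf (nat_lit 0) (nat_lit 20089195630) (nat_lit 252) (nat_lit 18053593373) (nat_lit 84) (nat_lit 14779353772) (nat_lit 24) (nat_lit 5) (nat_lit 27) (nat_lit 5) (nat_lit 25) (nat_lit 5) (nat_lit 432) (nat_lit 342) (nat_lit 171)))) (XT.nd (nat_lit 188) (nat_lit 0) (nat_lit 0) (XT.nd (nat_lit 94) (nat_lit 168) (nat_lit 0) (XT.lf (nat_lit 0) (nat_lit 27175435006) (nat_lit 252) (nat_lit 2144116371) (nat_lit 84) (nat_lit 24890708440) (nat_lit 24) (nat_lit 5) (nat_lit 27) (nat_lit 5) (nat_lit 25) (nat_lit 5) (nat_lit 433) (nat_lit 342) (nat_lit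 170)) (XT.lf (nat_lit 0) (nat_lit 14520056742) (nat_lit 168) (nat_lit 20090238657) (nat_lit 252) (nat_lit 20922646755) (nat_lit 22) (nat_lit 5) (nat_lit 24) (nat_lit 5) (nat_lit 25) (nat_lit 5) (nat_lit 434) (nat_lit 342) (nat_lit 169))) (XT.nd (nat_lit 94) (nat_lit 0) (nat_lit 0) (XT.lf (nat_lit 0) (nat_lit 31722238634) (nat_lit 168) (nat_lit 10564119255) (nat_lit 252) (nat_lit 14608405101) (nat_lit 22) (nat_lit 5) (nat_lit 24) (nat_lit 5) (nat_lit 25) (nat_lit 5) (nat_lit 435) (nat_lit 342) (nat_lit 168)) (XT.lf (nat_lit 0) (nat_lit 49434788217) (nat_lit 168) (nat_lit 754520749) (nat_lit 252) (nat_lit 8108233922) (nat_lit 22) (nat_lit 5) (nat_lit 24) (nat_lit 5) (nat_lit 25) (nat_lit 5) (nat_lit 436) (nat_lit 342) (nat_lit 167))))))))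
noncomputable def xc146 : XT := (XT.nd (nat_lit 52076) (nat_lit 0) (nat_lit 5796) (XT.nd (nat_lit 50760) (nat_lit 0) (nat_lit 13608) (XT.nd (nat_lit 564) (nat_lit 84) (nat_lit 0) (XT.nd (nat_lit 282) (nat_lit 168) (nat_lit 0) (XT.nd (nat_lit 94) (nat_lit 84) (nat_lit 0) (XT.lf (nat_lit 0) (nat_lit 7996872364) (nat_lit 84) (nat_lit 50495902904) (nat_lit 168) (nat_lit 1244730676) (nat_lit 21) (nat_lit 5) (nat_lit 22) (nat_lit 5) (nat_lit 23) (nat_lit 4) (nat_lit 437) (nat_lit 342) (nat_lit 166)) (XT.nd (nat_lit 94) (nat_lit 0) (nat_lit 0) (XT.lf (nat_lit 0) (nat_lit 5805562638) (nat_lit 168) (nat_lit 35743988902) (nat_lit 84) (nat_lit 19666602693) (nat_lit 20) (nat_lit 5) (nat_lit 22) (nat_lit 5) (nat_lit 21) (nat_lit 5) (nat_lit 438) (nat_lit 342) (nat_lit 165)) (XT.lf (nat_lit 0) (nat_lit 13039135603) (nat_lit 168) (nat_lit 19285230042) (nat_lit 84) (nat_lit 30414525287) (nat_lit 20) (nat_lit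 5) (nat_lit 22) (nat_lit 5) (nat_lit 21) (nat_lit 5) (nat_lit 439) (nat_lit 342) (nat_lit 164)))) (XT.nd (nat_lit 94) (nat_lit 168) (nat_lit 0) (XT.lf (nat_lit 0) (nat_lit 20486597992) (nat_lit 168) (nat_lit 2338010449) (nat_lit 84) (nat_lit 41482797100) (nat_lit 20) (nat_lit 5) (nat_lit 22) (nat_lit 5) (nat_lit 21) (nat_lit 5) (nat_lit 440) (nat_lit 342) (nat_lit 163)) (XT.nd (nat_lit 94) (nat_lit 0) (nat_lit 0) (XT.lf (nat_lit 0) (nat_lit 15413246075) (nat_lit 168) (nat_lit 12889372773) (nat_lit 252) (nat_lit 37616004912) (nat_lit 18) (nat_lit 5) (nat_lit 20) (nat_lit 5) (nat_lit 21) (nat_lit 5) (nat_lit 441) (nat_lit 342) (nat_lit 162)) (XT.lf (nat_lit 0) (nat_lit 33739870080) (nat_lit 168) (nat_lit 2633871782) (nat_lit 252) (nat_lit 31203820162) (nat_lit 18) (nat_lit 5) (nat_lit 20) (nat_lit 5) (nat_lit 21) (nat_lit 5) (nat_lit 442) (nat_lit 342) (nat_lit 161))))) (XT.nd (nat_lit 282)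 (nat_lit 0) (nat_lit 0) (XT.nd (nat_lit 94) (nat_lit 84) (nat_lit 0) (XT.lf (nat_lit 0) (nat_lit 44760299343) (nat_lit 252) (nat_lit 16751214956) (nat_lit 84) (nat_lit 7772557197) (nat_lit 18) (nat_lit 5) (nat_lit 21) (nat_lit 5) (nat_lit 19) (nat_lit 4) (nat_lit 443) (nat_lit 342) (nat_lit 160)) (XT.nd (nat_lit 94) (nat_lit 0) (nat_lit 0) (XT.lf (nat_lit 0) (nat_lit 833164505) (nat_lit 84) (nat_lit 52596540479) (nat_lit 168) (nat_lit 17611135748) (nat_lit 17) (nat_lit 5) (nat_lit 18) (nat_lit 5) (nat_lit 19) (nat_lit 4) (nat_lit 444) (nat_lit 342) (nat_lit 159)) (XT.lf (nat_lit 0) (nat_lit 19283634660) (nat_lit 84) (nat_lit 43241913381) (nat_lit 168) (nat_lit 10319776308) (nat_lit 17) (nat_lit 5) (nat_lit 18) (nat_lit 5) (nat_lit 19) (nat_lit 4) (nat_lit 445) (nat_lit 342) (nat_lit 158)))) (XT.nd (nat_lit 49726) (nat_lit 0) (nat_lit 14616) (XT.nd (nat_lit 49632) (nat_lit 0) (nat_lit 14616)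 (XT.lf (nat_lit 0) (nat_lit 38282935255) (nat_lit 84) (nat_lit 33608613487) (nat_lit 168) (nat_lit 2812477170) (nat_lit 17) (nat_lit 5) (nat_lit 18) (nat_lit 5) (nat_lit 19) (nat_lit 4) (nat_lit 446) (nat_lit 342) (nat_lit 157)) (XT.lf (nat_lit 0) (nat_lit 1049776387) (nat_lit 0) (nat_lit 1049776387) (nat_lit 1092) (nat_lit 2840137277) (nat_lit 191) (nat_lit 5) (nat_lit 191) (nat_lit 3) (nat_lit 204) (nat_lit 3) (nat_lit 343) (nat_lit 343) (nat_lit 259))) (XT.nd (nat_lit 94) (nat_lit 0) (nat_lit 0) (XT.lf (nat_lit 0) (nat_lit 4949338363) (nat_lit 1092) (nat_lit 3499925853) (nat_lit 1176) (nat_lit 1556350958) (nat_lit 191) (nat_lit 5) (nat_lit 204) (nat_lit 3) (nat_lit 205) (nat_lit 5) (nat_lit 344) (nat_lit 343) (nat_lit 258)) (XT.lf (nat_lit 84) (nat_lit 890891565) (nat_lit 0) (nat_lit 4834438282) (nat_lit 1176) (nat_lit 4410262126) (nat_lit 192) (nat_lit 5) (nat_lit 191) (nat_lit 5)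 (nat_lit 205) (nat_lit 5) (nat_lit 345) (nat_lit 343) (nat_lit 257)))))) (XT.nd (nat_lit 658) (nat_lit 0) (nat_lit 84) (XT.nd (nat_lit 282) (nat_lit 1008) (nat_lit 0) (XT.nd (nat_lit 94) (nat_lit 0) (nat_lit 84) (XT.lf (nat_lit 84) (nat_lit 5471238619) (nat_lit 0) (nat_lit 1063231275) (nat_lit 1176) (nat_lit 3734752824) (nat_lit 192) (nat_lit 5) (nat_lit 191) (nat_lit 5) (nat_lit 205) (nat_lit 5) (nat_lit 346) (nat_lit 343) (nat_lit 256)) (XT.nd (nat_lit 94) (nat_lit 0) (nat_lit 0) (XT.lf (nat_lit 0) (nat_lit 7370378413) (nat_lit 1092) (nat_lit 259417291) (nat_lit 1176) (nat_lit 2777041083) (nat_lit 192) (nat_lit 5) (nat_lit 205) (nat_lit 5) (nat_lit 206) (nat_lit 5) (nat_lit 347) (nat_lit 343) (nat_lit 255)) (XT.lf (nat_lit 84) (nat_lit 4478151987) (nat_lit 0) (nat_lit 3782879198) (nat_lit 1176) (nat_lit 2286705878) (nat_lit 193) (nat_lit 5) (nat_lit 192) (nat_lit 5) (nat_lit 206) (nat_lit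 5) (nat_lit 348) (nat_lit 343) (nat_lit 254)))) (XT.nd (nat_lit 188) (nat_lit 1176) (nat_lit 0) (XT.nd (nat_lit 94) (nat_lit 0) (nat_lit 0) (XT.lf (nat_lit 0) (nat_lit 9159521198) (nat_lit 1092) (nat_lit 1346083215) (nat_lit 1176) (nat_lit 187872810) (nat_lit 193) (nat_lit 5) (nat_lit 206) (nat_lit 5) (nat_lit 207) (nat_lit 5) (nat_lit 349) (nat_lit 343) (nat_lit 253)) (XT.lf (nat_lit 84) (nat_lit 3536393015) (nat_lit 0) (nat_lit 6597445564) (nat_lit 1176) (nat_lit 708329880) (nat_lit 194) (nat_lit 5) (nat_lit 193) (nat_lit 5) (nat_lit 207) (nat_lit 5) (nat_lit 350) (nat_lit 343) (nat_lit 252))) (XT.nd (nat_lit 94) (nat_lit 0) (nat_lit 84) (XT.lf (nat_lit 0) (nat_lit 130705012) (nat_lit 1176) (nat_lit 2418106673) (nat_lit 1260) (nat_lit 8446767881) (nat_lit 179) (nat_lit 5) (nat_lit 193) (nat_lit 5) (nat_lit 194) (nat_lit 5) (nat_lit 351) (nat_lit 343) (nat_lit 251)) (XT.lf (nat_lit 0)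 (nat_lit 1000427678) (nat_lit 1176) (nat_lit 8522668894) (nat_lit 1260) (nat_lit 1629734663) (nat_lit 180) (nat_lit 5) (nat_lit 194) (nat_lit 5) (nat_lit 195) (nat_lit 5) (nat_lit 352) (nat_lit 343) (nat_lit 250))))) (XT.nd (nat_lit 282) (nat_lit 0) (nat_lit 84) (XT.nd (nat_lit 94) (nat_lit 0) (nat_lit 0) (XT.lf (nat_lit 0) (nat_lit 1925036535) (nat_lit 1176) (nat_lit 3474905937) (nat_lit 1260) (nat_lit 5914034177) (nat_lit 180) (nat_lit 5) (nat_lit 194) (nat_lit 5) (nat_lit 195) (nat_lit 5) (nat_lit 353) (nat_lit 343) (nat_lit 249)) (XT.nd (nat_lit 94) (nat_lit 0) (nat_lit 84) (XT.lf (nat_lit 84) (nat_lit 1743943096) (nat_lit 0) (nat_lit 1129717855) (nat_lit 1260) (nat_lit 8606446017) (nat_lit 181) (nat_lit 5) (nat_lit 180) (nat_lit 5) (nat_lit 195) (nat_lit 5) (nat_lit 354) (nat_lit 343) (nat_lit 248)) (XT.lf (nat_lit 0) (nat_lit 3897630126) (nat_lit 1176) (nat_lit 4506276734) (nat_lit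 1260) (nat_lit 3245945487) (nat_lit 181) (nat_lit 5) (nat_lit 195) (nat_lit 5) (nat_lit 196) (nat_lit 5) (nat_lit 355) (nat_lit 343) (nat_lit 247)))) (XT.nd (nat_lit 188) (nat_lit 0) (nat_lit 84) (XT.nd (nat_lit 94) (nat_lit 0) (nat_lit 84) (XT.lf (nat_lit 84) (nat_lit 871838619) (nat_lit 0) (nat_lit 4080656361) (nat_lit 1260) (nat_lit 6872226440) (nat_lit 182) (nat_lit 5) (nat_lit 181) (nat_lit 5) (nat_lit 196) (nat_lit 5) (nat_lit 356) (nat_lit 343) (nat_lit 246)) (XT.lf (nat_lit 0) (nat_lit 6069621275) (nat_lit 1176) (nat_lit 5518831393) (nat_lit 1260) (nat_lit 415500997) (nat_lit 182) (nat_lit 5) (nat_lit 196) (nat_lit 5) (nat_lit 197) (nat_lit 5) (nat_lit 357) (nat_lit 343) (nat_lit 245))) (XT.nd (nat_lit 94) (nat_lit 0) (nat_lit 0) (XT.lf (nat_lit 84) (nat_lit 23736754) (nat_lit 0) (nat_lit 7218788033) (nat_lit 1260) (nat_lit 4945404717) (nat_lit 183) (nat_lit 5) (nat_lit 182) (nat_lit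 5) (nat_lit 197) (nat_lit 5) (nat_lit 358) (nat_lit 343) (nat_lit 244)) (XT.lf (nat_lit 84) (nat_lit 5831289926) (nat_lit 0) (nat_lit 2657083904) (nat_lit 1260) (nat_lit 3887951560) (nat_lit 183) (nat_lit 5) (nat_lit 182) (nat_lit 5) (nat_lit 197) (nat_lit 5) (nat_lit 359) (nat_lit 343) (nat_lit 243))))))) (XT.nd (nat_lit 1316) (nat_lit 2688) (nat_lit 0) (XT.nd (nat_lit 658) (nat_lit 2352) (nat_lit 0) (XT.nd (nat_lit 282) (nat_lit 1932) (nat_lit 0) (XT.nd (nat_lit 94) (nat_lit 1176) (nat_lit 0) (XT.lf (nat_lit 0) (nat_lit 9773807805) (nat_lit 1176) (nat_lit 791518995) (nat_lit 84) (nat_lit 2005012614) (nat_lit 183) (nat_lit 5) (nat_lit 197) (nat_lit 5) (nat_lit 184) (nat_lit 5) (nat_lit 360) (nat_lit 343) (nat_lit 242)) (XT.nd (nat_lit 94) (nat_lit 0) (nat_lit 0) (XT.lf (nat_lit 0) (nat_lit 5195511688) (nat_lit 1176) (nat_lit 5961636113) (nat_lit 1260) (nat_lit 1611277366) (nat_lit 169)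 (nat_lit 5) (nat_lit 183) (nat_lit 5) (nat_lit 184) (nat_lit 5) (nat_lit 361) (nat_lit 343) (nat_lit 241)) (XT.lf (nat_lit 0) (nat_lit 11364350880) (nat_lit 1176) (nat_lit 1209080312) (nat_lit 1260) (nat_lit 399309684) (nat_lit 169) (nat_lit 5) (nat_lit 183) (nat_lit 5) (nat_lit 184) (nat_lit 5) (nat_lit 362) (nat_lit 343) (nat_lit 240)))) (XT.nd (nat_lit 188) (nat_lit 588) (nat_lit 0) (XT.nd (nat_lit 94) (nat_lit 0) (nat_lit 0) (XT.lf (nat_lit 0) (nat_lit 896411677) (nat_lit 1344) (nat_lit 8615351332) (nat_lit 84) (nat_lit 3669288264) (nat_lit 153) (nat_lit 5) (nat_lit 169) (nat_lit 5) (nat_lit 154) (nat_lit 5) (nat_lit 363) (nat_lit 343) (nat_lit 239)) (XT.lf (nat_lit 0) (nat_lit 2235457065) (nat_lit 1344) (nat_lit 2467586401) (nat_lit 84) (nat_lit 8692102643) (nat_lit 153) (nat_lit 5) (nat_lit 169) (nat_lit 5) (nat_lit 154) (nat_lit 5) (nat_lit 364) (nat_lit 343) (nat_lit 238))) (XT.nd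 (nat_lit 94) (nat_lit 0) (nat_lit 0) (XT.lf (nat_lit 0) (nat_lit 3639783736) (nat_lit 672) (nat_lit 9690506722) (nat_lit 84) (nat_lit 284647292) (nat_lit 146) (nat_lit 5) (nat_lit 154) (nat_lit 5) (nat_lit 147) (nat_lit 5) (nat_lit 365) (nat_lit 343) (nat_lit 237)) (XT.lf (nat_lit 0) (nat_lit 5142866467) (nat_lit 672) (nat_lit 3342892805) (nat_lit 84) (nat_lit 5353891542) (nat_lit 146) (nat_lit 5) (nat_lit 154) (nat_lit 5) (nat_lit 147) (nat_lit 5) (nat_lit 366) (nat_lit 343) (nat_lit 236))))) (XT.nd (nat_lit 282) (nat_lit 1176) (nat_lit 0) (XT.nd (nat_lit 94) (nat_lit 588) (nat_lit 0) (XT.lf (nat_lit 0) (nat_lit 3244581659) (nat_lit 588) (nat_lit 3462985798) (nat_lit 672) (nat_lit 7363067734) (nat_lit 139) (nat_lit 5) (nat_lit 146) (nat_lit 5) (nat_lit 147) (nat_lit 5) (nat_lit 367) (nat_lit 343) (nat_lit 235)) (XT.nd (nat_lit 94) (nat_lit 588) (nat_lit 0) (XT.lf (nat_lit 0) (nat_lit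 8355380270) (nat_lit 672) (nat_lit 4240313564) (nat_lit 84) (nat_lit 1711795085) (nat_lit 139) (nat_lit 5) (nat_lit 147) (nat_lit 5) (nat_lit 140) (nat_lit 5) (nat_lit 368) (nat_lit 343) (nat_lit 234)) (XT.lf (nat_lit 0) (nat_lit 2544571951) (nat_lit 588) (nat_lit 7552858617) (nat_lit 672) (nat_lit 4452697816) (nat_lit 132) (nat_lit 5) (nat_lit 139) (nat_lit 5) (nat_lit 140) (nat_lit 5) (nat_lit 369) (nat_lit 343) (nat_lit 233)))) (XT.nd (nat_lit 188) (nat_lit 588) (nat_lit 0) (XT.nd (nat_lit 94) (nat_lit 588) (nat_lit 0) (XT.lf (nat_lit 0) (nat_lit 9606268104) (nat_lit 588) (nat_lit 2314624094) (nat_lit 672) (nat_lit 2878303851) (nat_lit 132) (nat_lit 5) (nat_lit 139) (nat_lit 5) (nat_lit 140) (nat_lit 5) (nat_lit 370) (nat_lit 343) (nat_lit 232)) (XT.lf (nat_lit 0) (nat_lit 1816224917) (nat_lit 588) (nat_lit 12016634751) (nat_lit 672) (nat_lit 1221884845) (nat_lit 125) (nat_lit 5) (nat_lit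 132) (nat_lit 5) (nat_lit 133) (nat_lit 5) (nat_lit 371) (nat_lit 343) (nat_lit 231))) (XT.nd (nat_lit 94) (nat_lit 504) (nat_lit 0) (XT.lf (nat_lit 0) (nat_lit 537487290) (nat_lit 672) (nat_lit 6216205767) (nat_lit 84) (nat_lit 8562266965) (nat_lit 124) (nat_lit 5) (nat_lit 132) (nat_lit 5) (nat_lit 125) (nat_lit 5) (nat_lit 372) (nat_lit 343) (nat_lit 230)) (XT.lf (nat_lit 0) (nat_lit 1010979459) (nat_lit 504) (nat_lit 1311038973) (nat_lit 588) (nat_lit 13262743422) (nat_lit 118) (nat_lit 5) (nat_lit 124) (nat_lit 5) (nat_lit 125) (nat_lit 5) (nat_lit 373) (nat_lit 343) (nat_lit 229)))))) (XT.nd (nat_lit 658) (nat_lit 1176) (nat_lit 0) (XT.nd (nat_lit 282) (nat_lit 1008) (nat_lit 0) (XT.nd (nat_lit 94) (nat_lit 504) (nat_lit 0) (XT.lf (nat_lit 0) (nat_lit 4252219190) (nat_lit 588) (nat_lit 7332930336) (nat_lit 84) (nat_lit 4273734487) (nat_lit 118) (nat_lit 5) (nat_lit 125) (nat_lit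 5) (nat_lit 119) (nat_lit 5) (nat_lit 374) (nat_lit 343) (nat_lit 228)) (XT.nd (nat_lit 94) (nat_lit 0) (nat_lit 0) (XT.lf (nat_lit 0) (nat_lit 100847758) (nat_lit 504) (nat_lit 6141249114) (nat_lit 588) (nat_lit 9899099529) (nat_lit 112) (nat_lit 5) (nat_lit 118) (nat_lit 5) (nat_lit 119) (nat_lit 5) (nat_lit 375) (nat_lit 343) (nat_lit 227)) (XT.lf (nat_lit 0) (nat_lit 7894800495) (nat_lit 504) (nat_lit 458967777) (nat_lit 588) (nat_lit 8076366084) (nat_lit 112) (nat_lit 5) (nat_lit 118) (nat_lit 5) (nat_lit 119) (nat_lit 5) (nat_lit 376) (nat_lit 343) (nat_lit 226)))) (XT.nd (nat_lit 188) (nat_lit 588) (nat_lit 0) (XT.nd (nat_lit 94) (nat_lit 420) (nat_lit 0) (XT.lf (nat_lit 0) (nat_lit 10569024146) (nat_lit 588) (nat_lit 870145740) (nat_lit 84) (nat_lit 5287382094) (nat_lit 112) (nat_lit 5) (nat_lit 119) (nat_lit 5) (nat_lit 113) (nat_lit 5) (nat_lit 377) (nat_lit 343) (nat_lit 225))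 (XT.lf (nat_lit 0) (nat_lit 7147174527) (nat_lit 420) (nat_lit 5765534690) (nat_lit 504) (nat_lit 4117311793) (nat_lit 107) (nat_lit 5) (nat_lit 112) (nat_lit 5) (nat_lit 113) (nat_lit 5) (nat_lit 378) (nat_lit 343) (nat_lit 224))) (XT.nd (nat_lit 94) (nat_lit 588) (nat_lit 0) (XT.lf (nat_lit 0) (nat_lit 15325247802) (nat_lit 504) (nat_lit 1933274771) (nat_lit 84) (nat_lit 84132743) (nat_lit 107) (nat_lit 5) (nat_lit 113) (nat_lit 5) (nat_lit 108) (nat_lit 5) (nat_lit 379) (nat_lit 343) (nat_lit 223)) (XT.lf (nat_lit 0) (nat_lit 250659363) (nat_lit 588) (nat_lit 11355717276) (nat_lit 84) (nat_lit 6055026408) (nat_lit 100) (nat_lit 5) (nat_lit 107) (nat_lit 5) (nat_lit 101) (nat_lit 5) (nat_lit 380) (nat_lit 343) (nat_lit 222))))) (XT.nd (nat_lit 282) (nat_lit 756) (nat_lit 0) (XT.nd (nat_lit 94) (nat_lit 420) (nat_lit 0) (XT.lf (nat_lit 0) (nat_lit 2555248087) (nat_lit 588) (nat_lit 3190533878)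 (nat_lit 84) (nat_lit 12243077195) (nat_lit 100) (nat_lit 5) (nat_lit 107) (nat_lit 5) (nat_lit 101) (nat_lit 5) (nat_lit 381) (nat_lit 343) (nat_lit 221)) (XT.nd (nat_lit 94) (nat_lit 0) (nat_lit 0) (XT.lf (nat_lit 0) (nat_lit 4972930348) (nat_lit 504) (nat_lit 13017289128) (nat_lit 84) (nat_lit 334616349) (nat_lit 95) (nat_lit 5) (nat_lit 101) (nat_lit 5) (nat_lit 96) (nat_lit 5) (nat_lit 382) (nat_lit 343) (nat_lit 220)) (XT.lf (nat_lit 0) (nat_lit 7542358355) (nat_lit 504) (nat_lit 4613656161) (nat_lit 84) (nat_lit 6512515906) (nat_lit 95) (nat_lit 5) (nat_lit 101) (nat_lit 5) (nat_lit 96) (nat_lit 5) (nat_lit 383) (nat_lit 343) (nat_lit 219)))) (XT.nd (nat_lit 188) (nat_lit 336) (nat_lit 0) (XT.nd (nat_lit 94) (nat_lit 0) (nat_lit 0) (XT.lf (nat_lit 0) (nat_lit 4110158230) (nat_lit 420) (nat_lit 6108306950) (nat_lit 504) (nat_lit 8803197451) (nat_lit 90) (nat_lit 5) (nat_lit 95) (nat_lit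 5) (nat_lit 96) (nat_lit 5) (nat_lit 384) (nat_lit 343) (nat_lit 218)) (XT.lf (nat_lit 0) (nat_lit 13013304921) (nat_lit 504) (nat_lit 6207648644) (nat_lit 84) (nat_lit 163295973) (nat_lit 90) (nat_lit 5) (nat_lit 96) (nat_lit 5) (nat_lit 91) (nat_lit 5) (nat_lit 385) (nat_lit 343) (nat_lit 217))) (XT.nd (nat_lit 94) (nat_lit 0) (nat_lit 0) (XT.lf (nat_lit 0) (nat_lit 2738340349) (nat_lit 336) (nat_lit 13230972767) (nat_lit 420) (nat_lit 3786095052) (nat_lit 86) (nat_lit 5) (nat_lit 90) (nat_lit 5) (nat_lit 91) (nat_lit 5) (nat_lit 386) (nat_lit 343) (nat_lit 216)) (XT.lf (nat_lit 0) (nat_lit 12068137743) (nat_lit 336) (nat_lit 6999233675) (nat_lit 420) (nat_lit 1068742451) (nat_lit 86) (nat_lit 5) (nat_lit 90) (nat_lit 5) (nat_lit 91) (nat_lit 5) (nat_lit 387) (nat_lit 343) (nat_lit 215))))))))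
noncomputable def xc147 : XT := (XT.nd (nat_lit 2632) (nat_lit 1848) (nat_lit 0) (XT.nd (nat_lit 1316) (nat_lit 1680) (nat_lit 0) (XT.nd (nat_lit 658) (nat_lit 1008) (nat_lit 0) (XT.nd (nat_lit 282) (nat_lit 672) (nat_lit 0) (XT.nd (nat_lit 94) (nat_lit 0) (nat_lit 0) (XT.lf (nat_lit 0) (nat_lit 1143600691) (nat_lit 420) (nat_lit 554615731) (nat_lit 504) (nat_lit 18829482623) (nat_lit 80) (nat_lit 5) (nat_lit 85) (nat_lit 5) (nat_lit 86) (nat_lit 5) (nat_lit 388) (nat_lit 343) (nat_lit 214)) (XT.nd (nat_lit 94) (nat_lit 0) (nat_lit 0) (XT.lf (nat_lit 0) (nat_lit 4658441980) (nat_lit 504) (nat_lit 10213357489) (nat_lit 84) (nat_lit 6054974972) (nat_lit 80) (nat_lit 5) (nat_lit 86) (nat_lit 5) (nat_lit 81) (nat_lit 5) (nat_lit 389) (nat_lit 343) (nat_lit 213)) (XT.lf (nat_lit 0) (nat_lit 7704212546) (nat_lit 504) (nat_lit 784456717) (nat_lit 84) (nat_lit 12849262602) (nat_lit 80) (nat_lit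 5) (nat_lit 86) (nat_lit 5) (nat_lit 81) (nat_lit 5) (nat_lit 390) (nat_lit 343) (nat_lit 212)))) (XT.nd (nat_lit 188) (nat_lit 336) (nat_lit 0) (XT.nd (nat_lit 94) (nat_lit 0) (nat_lit 0) (XT.lf (nat_lit 0) (nat_lit 9093623458) (nat_lit 336) (nat_lit 1826648182) (nat_lit 420) (nat_lit 10838796478) (nat_lit 76) (nat_lit 5) (nat_lit 80) (nat_lit 5) (nat_lit 81) (nat_lit 5) (nat_lit 391) (nat_lit 343) (nat_lit 211)) (XT.lf (nat_lit 0) (nat_lit 14280831930) (nat_lit 420) (nat_lit 2968218384) (nat_lit 84) (nat_lit 4942358789) (nat_lit 76) (nat_lit 5) (nat_lit 81) (nat_lit 5) (nat_lit 77) (nat_lit 5) (nat_lit 392) (nat_lit 343) (nat_lit 210))) (XT.nd (nat_lit 94) (nat_lit 0) (nat_lit 0) (XT.lf (nat_lit 0) (nat_lit 7130035782) (nat_lit 336) (nat_lit 10690659052) (nat_lit 420) (nat_lit 4813681814) (nat_lit 72) (nat_lit 5) (nat_lit 76) (nat_lit 5) (nat_lit 77) (nat_lit 5) (nat_lit 393) (nat_lit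 343) (nat_lit 209)) (XT.lf (nat_lit 0) (nat_lit 17581254406) (nat_lit 336) (nat_lit 3907467259) (nat_lit 420) (nat_lit 1601263096) (nat_lit 72) (nat_lit 5) (nat_lit 76) (nat_lit 5) (nat_lit 77) (nat_lit 5) (nat_lit 394) (nat_lit 343) (nat_lit 208))))) (XT.nd (nat_lit 282) (nat_lit 252) (nat_lit 0) (XT.nd (nat_lit 94) (nat_lit 336) (nat_lit 0) (XT.lf (nat_lit 0) (nat_lit 1743209187) (nat_lit 420) (nat_lit 18733429909) (nat_lit 84) (nat_lit 3080069555) (nat_lit 67) (nat_lit 5) (nat_lit 72) (nat_lit 5) (nat_lit 68) (nat_lit 5) (nat_lit 395) (nat_lit 343) (nat_lit 207)) (XT.nd (nat_lit 94) (nat_lit 336) (nat_lit 0) (XT.lf (nat_lit 0) (nat_lit 5242938680) (nat_lit 420) (nat_lit 8523475728) (nat_lit 84) (nat_lit 10267940709) (nat_lit 67) (nat_lit 5) (nat_lit 72) (nat_lit 5) (nat_lit 68) (nat_lit 5) (nat_lit 396) (nat_lit 343) (nat_lit 206)) (XT.lf (nat_lit 0) (nat_lit 2021753698) (nat_lit 336)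 (nat_lit 6837807590) (nat_lit 420) (nat_lit 15666422056) (nat_lit 63) (nat_lit 5) (nat_lit 67) (nat_lit 5) (nat_lit 68) (nat_lit 5) (nat_lit 397) (nat_lit 343) (nat_lit 205)))) (XT.nd (nat_lit 188) (nat_lit 252) (nat_lit 0) (XT.nd (nat_lit 94) (nat_lit 0) (nat_lit 0) (XT.lf (nat_lit 0) (nat_lit 12667034189) (nat_lit 420) (nat_lit 11986013930) (nat_lit 84) (nat_lit 376850881) (nat_lit 63) (nat_lit 5) (nat_lit 68) (nat_lit 5) (nat_lit 64) (nat_lit 5) (nat_lit 398) (nat_lit 343) (nat_lit 204)) (XT.lf (nat_lit 0) (nat_lit 16649207254) (nat_lit 420) (nat_lit 1230220253) (nat_lit 84) (nat_lit 7667699205) (nat_lit 63) (nat_lit 5) (nat_lit 68) (nat_lit 5) (nat_lit 64) (nat_lit 5) (nat_lit 399) (nat_lit 343) (nat_lit 203))) (XT.nd (nat_lit 94) (nat_lit 0) (nat_lit 0) (XT.lf (nat_lit 0) (nat_lit 10034079881) (nat_lit 252) (nat_lit 10806204696) (nat_lit 336) (nat_lit 5236912113) (nat_lit 60) (nat_lit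 5) (nat_lit 63) (nat_lit 5) (nat_lit 64) (nat_lit 5) (nat_lit 400) (nat_lit 343) (nat_lit 202)) (XT.lf (nat_lit 0) (nat_lit 21651656666) (nat_lit 252) (nat_lit 3510955146) (nat_lit 336) (nat_lit 1460399782) (nat_lit 60) (nat_lit 5) (nat_lit 63) (nat_lit 5) (nat_lit 64) (nat_lit 5) (nat_lit 401) (nat_lit 343) (nat_lit 201)))))) (XT.nd (nat_lit 658) (nat_lit 756) (nat_lit 0) (XT.nd (nat_lit 282) (nat_lit 252) (nat_lit 0) (XT.nd (nat_lit 94) (nat_lit 252) (nat_lit 0) (XT.lf (nat_lit 0) (nat_lit 2477267815) (nat_lit 420) (nat_lit 20695291084) (nat_lit 84) (nat_lit 4009091343) (nat_lit 55) (nat_lit 5) (nat_lit 60) (nat_lit 5) (nat_lit 56) (nat_lit 5) (nat_lit 402) (nat_lit 343) (nat_lit 200)) (XT.nd (nat_lit 94) (nat_lit 252) (nat_lit 0) (XT.lf (nat_lit 0) (nat_lit 6582470761) (nat_lit 420) (nat_lit 9425357850) (nat_lit 84) (nat_lit 11746430566) (nat_lit 55) (nat_lit 5) (nat_lit 60) (nat_lit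 5) (nat_lit 56) (nat_lit 5) (nat_lit 403) (nat_lit 343) (nat_lit 199)) (XT.lf (nat_lit 0) (nat_lit 2216399011) (nat_lit 252) (nat_lit 8609229372) (nat_lit 336) (nat_lit 17517981464) (nat_lit 52) (nat_lit 5) (nat_lit 55) (nat_lit 5) (nat_lit 56) (nat_lit 5) (nat_lit 404) (nat_lit 343) (nat_lit 198)))) (XT.nd (nat_lit 188) (nat_lit 252) (nat_lit 0) (XT.nd (nat_lit 94) (nat_lit 0) (nat_lit 0) (XT.lf (nat_lit 0) (nat_lit 14391188253) (nat_lit 252) (nat_lit 893662182) (nat_lit 336) (nat_lit 13663134718) (nat_lit 52) (nat_lit 5) (nat_lit 55) (nat_lit 5) (nat_lit 56) (nat_lit 5) (nat_lit 405) (nat_lit 343) (nat_lit 197)) (XT.lf (nat_lit 0) (nat_lit 19939400969) (nat_lit 336) (nat_lit 2716393532) (nat_lit 84) (nat_lit 6912857660) (nat_lit 52) (nat_lit 5) (nat_lit 56) (nat_lit 5) (nat_lit 53) (nat_lit 5) (nat_lit 406) (nat_lit 343) (nat_lit 196))) (XT.nd (nat_lit 94) (nat_lit 0) (nat_lit 0) (XT.lf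 (nat_lit 0) (nat_lit 9649622534) (nat_lit 252) (nat_lit 15179504218) (nat_lit 336) (nat_lit 5375953060) (nat_lit 49) (nat_lit 5) (nat_lit 52) (nat_lit 5) (nat_lit 53) (nat_lit 5) (nat_lit 407) (nat_lit 343) (nat_lit 195)) (XT.lf (nat_lit 0) (nat_lit 22433341061) (nat_lit 252) (nat_lit 7453656596) (nat_lit 336) (nat_lit 972965633) (nat_lit 49) (nat_lit 5) (nat_lit 52) (nat_lit 5) (nat_lit 53) (nat_lit 5) (nat_lit 408) (nat_lit 343) (nat_lit 194))))) (XT.nd (nat_lit 282) (nat_lit 420) (nat_lit 0) (XT.nd (nat_lit 94) (nat_lit 0) (nat_lit 0) (XT.lf (nat_lit 0) (nat_lit 3531722090) (nat_lit 336) (nat_lit 27434931408) (nat_lit 84) (nat_lit 565645145) (nat_lit 45) (nat_lit 5) (nat_lit 49) (nat_lit 5) (nat_lit 46) (nat_lit 5) (nat_lit 409) (nat_lit 343) (nat_lit 193)) (XT.nd (nat_lit 94) (nat_lit 0) (nat_lit 0) (XT.lf (nat_lit 0) (nat_lit 8305920150) (nat_lit 336) (nat_lit 15145599694) (nat_lit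 84) (nat_lit 8768383490) (nat_lit 45) (nat_lit 5) (nat_lit 49) (nat_lit 5) (nat_lit 46) (nat_lit 5) (nat_lit 410) (nat_lit 343) (nat_lit 192)) (XT.lf (nat_lit 0) (nat_lit 13217705229) (nat_lit 336) (nat_lit 2496217042) (nat_lit 84) (nat_lit 17214388923) (nat_lit 45) (nat_lit 5) (nat_lit 49) (nat_lit 5) (nat_lit 46) (nat_lit 5) (nat_lit 411) (nat_lit 343) (nat_lit 191)))) (XT.nd (nat_lit 188) (nat_lit 168) (nat_lit 0) (XT.nd (nat_lit 94) (nat_lit 0) (nat_lit 0) (XT.lf (nat_lit 0) (nat_lit 10733723003) (nat_lit 252) (nat_lit 7640825287) (nat_lit 336) (nat_lit 15280497557) (nat_lit 42) (nat_lit 5) (nat_lit 45) (nat_lit 5) (nat_lit 46) (nat_lit 5) (nat_lit 412) (nat_lit 343) (nat_lit 190)) (XT.lf (nat_lit 0) (nat_lit 23712613631) (nat_lit 336) (nat_lit 10006263060) (nat_lit 84) (nat_lit 683915863) (nat_lit 42) (nat_lit 5) (nat_lit 46) (nat_lit 5) (nat_lit 43) (nat_lit 5) (nat_lit 413) (nat_lit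 343) (nat_lit 189))) (XT.nd (nat_lit 94) (nat_lit 0) (nat_lit 0) (XT.lf (nat_lit 0) (nat_lit 3276340629) (nat_lit 168) (nat_lit 26036361326) (nat_lit 252) (nat_lit 5857218640) (nat_lit 40) (nat_lit 5) (nat_lit 42) (nat_lit 5) (nat_lit 43) (nat_lit 5) (nat_lit 414) (nat_lit 343) (nat_lit 188)) (XT.lf (nat_lit 0) (nat_lit 17154431940) (nat_lit 168) (nat_lit 18022215120) (nat_lit 252) (nat_lit 780544999) (nat_lit 40) (nat_lit 5) (nat_lit 42) (nat_lit 5) (nat_lit 43) (nat_lit 5) (nat_lit 415) (nat_lit 343) (nat_lit 187))))))) (XT.nd (nat_lit 1316) (nat_lit 756) (nat_lit 0) (XT.nd (nat_lit 658) (nat_lit 420) (nat_lit 0) (XT.nd (nat_lit 282) (nat_lit 336) (nat_lit 0) (XT.nd (nat_lit 94) (nat_lit 252) (nat_lit 0) (XT.lf (nat_lit 0) (nat_lit 4356530784) (nat_lit 252) (nat_lit 5369955855) (nat_lit 84) (nat_lit 27040469903) (nat_lit 39) (nat_lit 5) (nat_lit 42) (nat_lit 5) (nat_lit 40) (nat_lit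 5) (nat_lit 416) (nat_lit 343) (nat_lit 186)) (XT.nd (nat_lit 94) (nat_lit 0) (nat_lit 0) (XT.lf (nat_lit 0) (nat_lit 8618536299) (nat_lit 252) (nat_lit 1091396153) (nat_lit 336) (nat_lit 27888517374) (nat_lit 36) (nat_lit 5) (nat_lit 39) (nat_lit 5) (nat_lit 40) (nat_lit 5) (nat_lit 417) (nat_lit 343) (nat_lit 185)) (XT.lf (nat_lit 0) (nat_lit 15348802424) (nat_lit 336) (nat_lit 15399835538) (nat_lit 84) (nat_lit 7702508584) (nat_lit 36) (nat_lit 5) (nat_lit 40) (nat_lit 5) (nat_lit 37) (nat_lit 5) (nat_lit 418) (nat_lit 343) (nat_lit 184)))) (XT.nd (nat_lit 188) (nat_lit 168) (nat_lit 0) (XT.nd (nat_lit 94) (nat_lit 168) (nat_lit 0) (XT.lf (nat_lit 0) (nat_lit 21162885716) (nat_lit 336) (nat_lit 1430728870) (nat_lit 84) (nat_lit 16735632658) (nat_lit 36) (nat_lit 5) (nat_lit 40) (nat_lit 5) (nat_lit 37) (nat_lit 5) (nat_lit 419) (nat_lit 343) (nat_lit 183)) (XT.lf (nat_lit 0) (nat_lit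 13207836114) (nat_lit 168) (nat_lit 14065897114) (nat_lit 252) (nat_lit 12956291844) (nat_lit 34) (nat_lit 5) (nat_lit 36) (nat_lit 5) (nat_lit 37) (nat_lit 5) (nat_lit 420) (nat_lit 343) (nat_lit 182))) (XT.nd (nat_lit 94) (nat_lit 168) (nat_lit 0) (XT.lf (nat_lit 0) (nat_lit 28307611283) (nat_lit 168) (nat_lit 5270186991) (nat_lit 252) (nat_lit 7579735431) (nat_lit 34) (nat_lit 5) (nat_lit 36) (nat_lit 5) (nat_lit 37) (nat_lit 5) (nat_lit 421) (nat_lit 343) (nat_lit 181)) (XT.lf (nat_lit 0) (nat_lit 1737822494) (nat_lit 168) (nat_lit 38381845620) (nat_lit 252) (nat_lit 1991743109) (nat_lit 32) (nat_lit 5) (nat_lit 34) (nat_lit 5) (nat_lit 35) (nat_lit 5) (nat_lit 422) (nat_lit 343) (nat_lit 180))))) (XT.nd (nat_lit 282) (nat_lit 168) (nat_lit 0) (XT.nd (nat_lit 94) (nat_lit 168) (nat_lit 0) (XT.lf (nat_lit 0) (nat_lit 3869231553) (nat_lit 252) (nat_lit 26160243937) (nat_lit 84) (nat_lit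 13057984339) (nat_lit 31) (nat_lit 5) (nat_lit 34) (nat_lit 5) (nat_lit 32) (nat_lit 5) (nat_lit 423) (nat_lit 343) (nat_lit 179)) (XT.nd (nat_lit 94) (nat_lit 168) (nat_lit 0) (XT.lf (nat_lit 0) (nat_lit 9861698312) (nat_lit 252) (nat_lit 11547206016) (nat_lit 84) (nat_lit 22683426872) (nat_lit 31) (nat_lit 5) (nat_lit 34) (nat_lit 5) (nat_lit 32) (nat_lit 5) (nat_lit 424) (nat_lit 343) (nat_lit 178)) (XT.lf (nat_lit 0) (nat_lit 3567045464) (nat_lit 168) (nat_lit 12497002545) (nat_lit 252) (nat_lit 29062401087) (nat_lit 29) (nat_lit 5) (nat_lit 31) (nat_lit 5) (nat_lit 32) (nat_lit 5) (nat_lit 425) (nat_lit 343) (nat_lit 177)))) (XT.nd (nat_lit 188) (nat_lit 168) (nat_lit 0) (XT.nd (nat_lit 94) (nat_lit 0) (nat_lit 0) (XT.lf (nat_lit 0) (nat_lit 19364713916) (nat_lit 168) (nat_lit 3200235905) (nat_lit 252) (nat_lit 23623269806) (nat_lit 29) (nat_lit 5) (nat_lit 31) (nat_lit 5) (nat_lit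 32) (nat_lit 5) (nat_lit 426) (nat_lit 343) (nat_lit 176)) (XT.lf (nat_lit 0) (nat_lit 29318136599) (nat_lit 252) (nat_lit 11713436063) (nat_lit 84) (nat_lit 6248556316) (nat_lit 29) (nat_lit 5) (nat_lit 32) (nat_lit 5) (nat_lit 30) (nat_lit 5) (nat_lit 427) (nat_lit 343) (nat_lit 175))) (XT.nd (nat_lit 94) (nat_lit 0) (nat_lit 0) (XT.lf (nat_lit 0) (nat_lit 3887685105) (nat_lit 168) (nat_lit 32451380812) (nat_lit 252) (nat_lit 12063778628) (nat_lit 27) (nat_lit 5) (nat_lit 29) (nat_lit 5) (nat_lit 30) (nat_lit 5) (nat_lit 428) (nat_lit 343) (nat_lit 174)) (XT.lf (nat_lit 0) (nat_lit 20190589075) (nat_lit 168) (nat_lit 23494460082) (nat_lit 252) (nat_lit 5870762884) (nat_lit 27) (nat_lit 5) (nat_lit 29) (nat_lit 5) (nat_lit 30) (nat_lit 5) (nat_lit 429) (nat_lit 343) (nat_lit 173)))))) (XT.nd (nat_lit 658) (nat_lit 336) (nat_lit 0) (XT.nd (nat_lit 282) (nat_lit 168) (nat_lit 0) (XT.nd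 (nat_lit 94) (nat_lit 168) (nat_lit 0) (XT.lf (nat_lit 0) (nat_lit 494345053) (nat_lit 252) (nat_lit 13771929806) (nat_lit 84) (nat_lit 36477063789) (nat_lit 26) (nat_lit 5) (nat_lit 29) (nat_lit 5) (nat_lit 27) (nat_lit 5) (nat_lit 430) (nat_lit 343) (nat_lit 172)) (XT.nd (nat_lit 94) (nat_lit 0) (nat_lit 0) (XT.lf (nat_lit 0) (nat_lit 2269241337) (nat_lit 168) (nat_lit 4681307412) (nat_lit 252) (nat_lit 45013657313) (nat_lit 24) (nat_lit 5) (nat_lit 26) (nat_lit 5) (nat_lit 27) (nat_lit 5) (nat_lit 431) (nat_lit 343) (nat_lit 171)) (XT.lf (nat_lit 0) (nat_lit 13787137959) (nat_lit 252) (nat_lit 34200951350) (nat_lit 84) (nat_lit 5228012089) (nat_lit 24) (nat_lit 5) (nat_lit 27) (nat_lit 5) (nat_lit 25) (nat_lit 5) (nat_lit 432) (nat_lit 343) (nat_lit 170)))) (XT.nd (nat_lit 188) (nat_lit 168) (nat_lit 0) (XT.nd (nat_lit 94) (nat_lit 0) (nat_lit 0) (XT.lf (nat_lit 0) (nat_lit 20871632590)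 (nat_lit 252) (nat_lit 18294393956) (nat_lit 84) (nat_lit 15338245615) (nat_lit 24) (nat_lit 5) (nat_lit 27) (nat_lit 5) (nat_lit 25) (nat_lit 5) (nat_lit 433) (nat_lit 343) (nat_lit 169)) (XT.lf (nat_lit 0) (nat_lit 28165223388) (nat_lit 252) (nat_lit 1916394019) (nat_lit 84) (nat_lit 25749576517) (nat_lit 24) (nat_lit 5) (nat_lit 27) (nat_lit 5) (nat_lit 25) (nat_lit 5) (nat_lit 434) (nat_lit 343) (nat_lit 168))) (XT.nd (nat_lit 94) (nat_lit 0) (nat_lit 0) (XT.lf (nat_lit 0) (nat_lit 15244841092) (nat_lit 168) (nat_lit 20575985039) (nat_lit 252) (nat_lit 21372803722) (nat_lit 22) (nat_lit 5) (nat_lit 24) (nat_lit 5) (nat_lit 25) (nat_lit 5) (nat_lit 435) (nat_lit 343) (nat_lit 167)) (XT.lf (nat_lit 0) (nat_lit 32954665646) (nat_lit 168) (nat_lit 10767488680) (nat_lit 252) (nat_lit 14874305374) (nat_lit 22) (nat_lit 5) (nat_lit 24) (nat_lit 5) (nat_lit 25) (nat_lit 5) (nat_lit 436) (nat_lit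 343) (nat_lit 166))))) (XT.nd (nat_lit 282) (nat_lit 168) (nat_lit 0) (XT.nd (nat_lit 94) (nat_lit 168) (nat_lit 0) (XT.lf (nat_lit 0) (nat_lit 51190414245) (nat_lit 168) (nat_lit 666909621) (nat_lit 252) (nat_lit 8184149018) (nat_lit 22) (nat_lit 5) (nat_lit 24) (nat_lit 5) (nat_lit 25) (nat_lit 5) (nat_lit 437) (nat_lit 343) (nat_lit 165)) (XT.nd (nat_lit 94) (nat_lit 84) (nat_lit 0) (XT.lf (nat_lit 0) (nat_lit 8510586479) (nat_lit 84) (nat_lit 51898240357) (nat_lit 168) (nat_lit 1115843691) (nat_lit 21) (nat_lit 5) (nat_lit 22) (nat_lit 5) (nat_lit 23) (nat_lit 4) (nat_lit 438) (nat_lit 343) (nat_lit 164)) (XT.lf (nat_lit 0) (nat_lit 6137967557) (nat_lit 168) (nat_lit 36547210856) (nat_lit 84) (nat_lit 20362597795) (nat_lit 20) (nat_lit 5) (nat_lit 22) (nat_lit 5) (nat_lit 21) (nat_lit 5) (nat_lit 439) (nat_lit 343) (nat_lit 163)))) (XT.nd (nat_lit 188) (nat_lit 168) (nat_lit 0) (XT.nd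 (nat_lit 94) (nat_lit 0) (nat_lit 0) (XT.lf (nat_lit 0) (nat_lit 13583938835) (nat_lit 168) (nat_lit 19602527028) (nat_lit 84) (nat_lit 31429870776) (nat_lit 20) (nat_lit 5) (nat_lit 22) (nat_lit 5) (nat_lit 21) (nat_lit 5) (nat_lit 440) (nat_lit 343) (nat_lit 162)) (XT.lf (nat_lit 0) (nat_lit 21250350461) (nat_lit 168) (nat_lit 2154500358) (nat_lit 84) (nat_lit 42827193372) (nat_lit 20) (nat_lit 5) (nat_lit 22) (nat_lit 5) (nat_lit 21) (nat_lit 5) (nat_lit 441) (nat_lit 343) (nat_lit 161))) (XT.nd (nat_lit 94) (nat_lit 0) (nat_lit 0) (XT.lf (nat_lit 0) (nat_lit 16126807092) (nat_lit 168) (nat_lit 13172114881) (nat_lit 252) (nat_lit 38592738053) (nat_lit 18) (nat_lit 5) (nat_lit 20) (nat_lit 5) (nat_lit 21) (nat_lit 5) (nat_lit 442) (nat_lit 343) (nat_lit 160)) (XT.lf (nat_lit 0) (nat_lit 34995914372) (nat_lit 168) (nat_lit 2611976213) (nat_lit 252) (nat_lit 31992607576) (nat_lit 18) (nat_lit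 5) (nat_lit 20) (nat_lit 5) (nat_lit 21) (nat_lit 5) (nat_lit 443) (nat_lit 343) (nat_lit 159))))))))
noncomputable def xc148 : XT := (XT.nd (nat_lit 52170) (nat_lit 0) (nat_lit 4620) (XT.nd (nat_lit 50854) (nat_lit 0) (nat_lit 10836) (XT.nd (nat_lit 50196) (nat_lit 0) (nat_lit 13608) (XT.nd (nat_lit 49914) (nat_lit 0) (nat_lit 14616) (XT.nd (nat_lit 94) (nat_lit 84) (nat_lit 0) (XT.lf (nat_lit 0) (nat_lit 46242823364) (nat_lit 252) (nat_lit 17013684522) (nat_lit 84) (nat_lit 8101794663) (nat_lit 18) (nat_lit 5) (nat_lit 21) (nat_lit 5) (nat_lit 19) (nat_lit 4) (nat_lit 444) (nat_lit 343) (nat_lit 158)) (XT.nd (nat_lit 94) (nat_lit 0) (nat_lit 0) (XT.lf (nat_lit 0) (nat_lit 1095872726) (nat_lit 84) (nat_lit 54074654123) (nat_lit 168) (nat_lit 17997304444) (nat_lit 17) (nat_lit 5) (nat_lit 18) (nat_lit 5) (nat_lit 19) (nat_lit 4) (nat_lit 445) (nat_lit 343) (nat_lit 157)) (XT.lf (nat_lit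 0) (nat_lit 20092933298) (nat_lit 84) (nat_lit 44442294501) (nat_lit 168) (nat_lit 10491344960) (nat_lit 17) (nat_lit 5) (nat_lit 18) (nat_lit 5) (nat_lit 19) (nat_lit 4) (nat_lit 446) (nat_lit 343) (nat_lit 156)))) (XT.nd (nat_lit 94) (nat_lit 0) (nat_lit 0) (XT.lf (nat_lit 0) (nat_lit 1414033843) (nat_lit 0) (nat_lit 1414033843) (nat_lit 1092) (nat_lit 2238521836) (nat_lit 191) (nat_lit 5) (nat_lit 191) (nat_lit 3) (nat_lit 204) (nat_lit 3) (nat_lit 344) (nat_lit 344) (nat_lit 257)) (XT.nd (nat_lit 94) (nat_lit 0) (nat_lit 0) (XT.lf (nat_lit 0) (nat_lit 6383895399) (nat_lit 1092) (nat_lit 2911226292) (nat_lit 1176) (nat_lit 969506076) (nat_lit 191) (nat_lit 5) (nat_lit 204) (nat_lit 3) (nat_lit 205) (nat_lit 5) (nat_lit 345) (nat_lit 344) (nat_lit 256)) (XT.lf (nat_lit 84) (nat_lit 1604514694) (nat_lit 0) (nat_lit 5547796251) (nat_lit 1176) (nat_lit 3247193552) (nat_lit 192) (nat_lit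 5) (nat_lit 191) (nat_lit 5) (nat_lit 205) (nat_lit 5) (nat_lit 346) (nat_lit 344) (nat_lit 255))))) (XT.nd (nat_lit 282) (nat_lit 1008) (nat_lit 0) (XT.nd (nat_lit 94) (nat_lit 0) (nat_lit 84) (XT.lf (nat_lit 84) (nat_lit 6302265469) (nat_lit 0) (nat_lit 1646899883) (nat_lit 1176) (nat_lit 2589148382) (nat_lit 192) (nat_lit 5) (nat_lit 191) (nat_lit 5) (nat_lit 205) (nat_lit 5) (nat_lit 347) (nat_lit 344) (nat_lit 254)) (XT.nd (nat_lit 94) (nat_lit 0) (nat_lit 0) (XT.lf (nat_lit 84) (nat_lit 431689366) (nat_lit 0) (nat_lit 8341966949) (nat_lit 1176) (nat_lit 1907565409) (nat_lit 193) (nat_lit 5) (nat_lit 192) (nat_lit 5) (nat_lit 206) (nat_lit 5) (nat_lit 348) (nat_lit 344) (nat_lit 253)) (XT.lf (nat_lit 84) (nat_lit 5296192641) (nat_lit 0) (nat_lit 4362947302) (nat_lit 1176) (nat_lit 1168234326) (nat_lit 193) (nat_lit 5) (nat_lit 192) (nat_lit 5) (nat_lit 206) (nat_lit 5) (nat_lit 349)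 (nat_lit 344) (nat_lit 252)))) (XT.nd (nat_lit 188) (nat_lit 0) (nat_lit 0) (XT.nd (nat_lit 94) (nat_lit 1092) (nat_lit 0) (XT.lf (nat_lit 84) (nat_lit 10293552506) (nat_lit 0) (nat_lit 255631765) (nat_lit 1176) (nat_lit 429430973) (nat_lit 193) (nat_lit 5) (nat_lit 192) (nat_lit 5) (nat_lit 206) (nat_lit 5) (nat_lit 350) (nat_lit 344) (nat_lit 251)) (XT.lf (nat_lit 0) (nat_lit 384248967) (nat_lit 1176) (nat_lit 6796999296) (nat_lit 1260) (nat_lit 3951315348) (nat_lit 179) (nat_lit 5) (nat_lit 193) (nat_lit 5) (nat_lit 194) (nat_lit 5) (nat_lit 351) (nat_lit 344) (nat_lit 250))) (XT.nd (nat_lit 94) (nat_lit 0) (nat_lit 84) (XT.lf (nat_lit 0) (nat_lit 1202191226) (nat_lit 1176) (nat_lit 1790711771) (nat_lit 1260) (nat_lit 8298485414) (nat_lit 179) (nat_lit 5) (nat_lit 193) (nat_lit 5) (nat_lit 194) (nat_lit 5) (nat_lit 352) (nat_lit 344) (nat_lit 249)) (XT.lf (nat_lit 0) (nat_lit 2070208750)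 (nat_lit 1176) (nat_lit 8048641620) (nat_lit 1260) (nat_lit 1335400339) (nat_lit 180) (nat_lit 5) (nat_lit 194) (nat_lit 5) (nat_lit 195) (nat_lit 5) (nat_lit 353) (nat_lit 344) (nat_lit 248)))))) (XT.nd (nat_lit 658) (nat_lit 2856) (nat_lit 0) (XT.nd (nat_lit 282) (nat_lit 0) (nat_lit 84) (XT.nd (nat_lit 94) (nat_lit 0) (nat_lit 0) (XT.lf (nat_lit 0) (nat_lit 2992271360) (nat_lit 1176) (nat_lit 2870699386) (nat_lit 1260) (nat_lit 5758225723) (nat_lit 180) (nat_lit 5) (nat_lit 194) (nat_lit 5) (nat_lit 195) (nat_lit 5) (nat_lit 354) (nat_lit 344) (nat_lit 247)) (XT.nd (nat_lit 94) (nat_lit 0) (nat_lit 84) (XT.lf (nat_lit 84) (nat_lit 2497769493) (nat_lit 0) (nat_lit 1448925902) (nat_lit 1260) (nat_lit 7846350851) (nat_lit 181) (nat_lit 5) (nat_lit 180) (nat_lit 5) (nat_lit 195) (nat_lit 5) (nat_lit 355) (nat_lit 344) (nat_lit 246)) (XT.lf (nat_lit 0) (nat_lit 4969978426) (nat_lit 1176)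 (nat_lit 3927178947) (nat_lit 1260) (nat_lit 3071722921) (nat_lit 181) (nat_lit 5) (nat_lit 195) (nat_lit 5) (nat_lit 196) (nat_lit 5) (nat_lit 356) (nat_lit 344) (nat_lit 245)))) (XT.nd (nat_lit 188) (nat_lit 0) (nat_lit 84) (XT.nd (nat_lit 94) (nat_lit 0) (nat_lit 84) (XT.lf (nat_lit 84) (nat_lit 1605277062) (nat_lit 0) (nat_lit 4430183255) (nat_lit 1260) (nat_lit 6114218565) (nat_lit 182) (nat_lit 5) (nat_lit 181) (nat_lit 5) (nat_lit 196) (nat_lit 5) (nat_lit 357) (nat_lit 344) (nat_lit 244)) (XT.lf (nat_lit 0) (nat_lit 7156765636) (nat_lit 1176) (nat_lit 4966677346) (nat_lit 1260) (nat_lit 211776199) (nat_lit 182) (nat_lit 5) (nat_lit 196) (nat_lit 5) (nat_lit 197) (nat_lit 5) (nat_lit 358) (nat_lit 344) (nat_lit 243))) (XT.nd (nat_lit 94) (nat_lit 0) (nat_lit 0) (XT.lf (nat_lit 84) (nat_lit 735131386) (nat_lit 0) (nat_lit 7610195536) (nat_lit 1260) (nat_lit 4180022808) (nat_lit 183)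 (nat_lit 5) (nat_lit 182) (nat_lit 5) (nat_lit 197) (nat_lit 5) (nat_lit 359) (nat_lit 344) (nat_lit 242)) (XT.lf (nat_lit 84) (nat_lit 6696211661) (nat_lit 0) (nat_lit 2906547744) (nat_lit 1260) (nat_lit 3117459960) (nat_lit 183) (nat_lit 5) (nat_lit 182) (nat_lit 5) (nat_lit 197) (nat_lit 5) (nat_lit 360) (nat_lit 344) (nat_lit 241))))) (XT.nd (nat_lit 282) (nat_lit 1848) (nat_lit 0) (XT.nd (nat_lit 94) (nat_lit 1260) (nat_lit 0) (XT.lf (nat_lit 0) (nat_lit 10900131366) (nat_lit 1176) (nat_lit 117196043) (nat_lit 84) (nat_lit 1903571864) (nat_lit 183) (nat_lit 5) (nat_lit 197) (nat_lit 5) (nat_lit 184) (nat_lit 5) (nat_lit 361) (nat_lit 344) (nat_lit 240)) (XT.nd (nat_lit 94) (nat_lit 84) (nat_lit 0) (XT.lf (nat_lit 0) (nat_lit 6042601751) (nat_lit 1176) (nat_lit 6264748965) (nat_lit 1260) (nat_lit 818150858) (nat_lit 169) (nat_lit 5) (nat_lit 183) (nat_lit 5) (nat_lit 184) (nat_lit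 5) (nat_lit 362) (nat_lit 344) (nat_lit 239)) (XT.lf (nat_lit 0) (nat_lit 397751142) (nat_lit 1260) (nat_lit 964229508) (nat_lit 84) (nat_lit 11974605712) (nat_lit 168) (nat_lit 5) (nat_lit 183) (nat_lit 5) (nat_lit 169) (nat_lit 5) (nat_lit 363) (nat_lit 344) (nat_lit 238)))) (XT.nd (nat_lit 188) (nat_lit 588) (nat_lit 0) (XT.nd (nat_lit 94) (nat_lit 0) (nat_lit 0) (XT.lf (nat_lit 0) (nat_lit 1706555343) (nat_lit 1344) (nat_lit 8166206760) (nat_lit 84) (nat_lit 3678839756) (nat_lit 153) (nat_lit 5) (nat_lit 169) (nat_lit 5) (nat_lit 154) (nat_lit 5) (nat_lit 364) (nat_lit 344) (nat_lit 237)) (XT.lf (nat_lit 0) (nat_lit 3062958947) (nat_lit 1344) (nat_lit 1854618738) (nat_lit 84) (nat_lit 8855266542) (nat_lit 153) (nat_lit 5) (nat_lit 169) (nat_lit 5) (nat_lit 154) (nat_lit 5) (nat_lit 365) (nat_lit 344) (nat_lit 236))) (XT.nd (nat_lit 94) (nat_lit 0) (nat_lit 0) (XT.lf (nat_lit 0) (nat_lit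 4493185136) (nat_lit 672) (nat_lit 9276692387) (nat_lit 84) (nat_lit 229878122) (nat_lit 146) (nat_lit 5) (nat_lit 154) (nat_lit 5) (nat_lit 147) (nat_lit 5) (nat_lit 366) (nat_lit 344) (nat_lit 235)) (XT.lf (nat_lit 0) (nat_lit 6019684392) (nat_lit 672) (nat_lit 2759170330) (nat_lit 84) (nat_lit 5453043639) (nat_lit 146) (nat_lit 5) (nat_lit 154) (nat_lit 5) (nat_lit 147) (nat_lit 5) (nat_lit 367) (nat_lit 344) (nat_lit 234))))))) (XT.nd (nat_lit 1316) (nat_lit 2352) (nat_lit 0) (XT.nd (nat_lit 658) (nat_lit 1512) (nat_lit 0) (XT.nd (nat_lit 282) (nat_lit 1176) (nat_lit 0) (XT.nd (nat_lit 94) (nat_lit 588) (nat_lit 0) (XT.lf (nat_lit 0) (nat_lit 4019222394) (nat_lit 588) (nat_lit 3597570051) (nat_lit 672) (nat_lit 6853492717) (nat_lit 139) (nat_lit 5) (nat_lit 146) (nat_lit 5) (nat_lit 147) (nat_lit 5) (nat_lit 368) (nat_lit 344) (nat_lit 233)) (XT.nd (nat_lit 94) (nat_lit 588) (nat_lit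 0) (XT.lf (nat_lit 0) (nat_lit 9293131881) (nat_lit 672) (nat_lit 3687845858) (nat_lit 84) (nat_lit 1733929796) (nat_lit 139) (nat_lit 5) (nat_lit 147) (nat_lit 5) (nat_lit 140) (nat_lit 5) (nat_lit 369) (nat_lit 344) (nat_lit 232)) (XT.lf (nat_lit 0) (nat_lit 3293922720) (nat_lit 588) (nat_lit 7779978050) (nat_lit 672) (nat_lit 3891366459) (nat_lit 132) (nat_lit 5) (nat_lit 139) (nat_lit 5) (nat_lit 140) (nat_lit 5) (nat_lit 370) (nat_lit 344) (nat_lit 231)))) (XT.nd (nat_lit 188) (nat_lit 588) (nat_lit 0) (XT.nd (nat_lit 94) (nat_lit 588) (nat_lit 0) (XT.lf (nat_lit 0) (nat_lit 10547867420) (nat_lit 588) (nat_lit 2384580948) (nat_lit 672) (nat_lit 2289980839) (nat_lit 132) (nat_lit 5) (nat_lit 139) (nat_lit 5) (nat_lit 140) (nat_lit 5) (nat_lit 371) (nat_lit 344) (nat_lit 230)) (XT.lf (nat_lit 0) (nat_lit 2538261240) (nat_lit 588) (nat_lit 12350879193) (nat_lit 672) (nat_lit 596915487)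 (nat_lit 125) (nat_lit 5) (nat_lit 132) (nat_lit 5) (nat_lit 133) (nat_lit 5) (nat_lit 372) (nat_lit 344) (nat_lit 229))) (XT.nd (nat_lit 94) (nat_lit 504) (nat_lit 0) (XT.lf (nat_lit 0) (nat_lit 1183432490) (nat_lit 672) (nat_lit 5741021502) (nat_lit 84) (nat_lit 8831060823) (nat_lit 124) (nat_lit 5) (nat_lit 132) (nat_lit 5) (nat_lit 125) (nat_lit 5) (nat_lit 373) (nat_lit 344) (nat_lit 228)) (XT.lf (nat_lit 0) (nat_lit 1696492316) (nat_lit 504) (nat_lit 1312960986) (nat_lit 588) (nat_lit 13023318770) (nat_lit 118) (nat_lit 5) (nat_lit 124) (nat_lit 5) (nat_lit 125) (nat_lit 5) (nat_lit 374) (nat_lit 344) (nat_lit 227))))) (XT.nd (nat_lit 282) (nat_lit 1008) (nat_lit 0) (XT.nd (nat_lit 94) (nat_lit 504) (nat_lit 0) (XT.lf (nat_lit 0) (nat_lit 4979915782) (nat_lit 588) (nat_lit 6898203187) (nat_lit 84) (nat_lit 4437557365) (nat_lit 118) (nat_lit 5) (nat_lit 125) (nat_lit 5) (nat_lit 119)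 (nat_lit 5) (nat_lit 375) (nat_lit 344) (nat_lit 226)) (XT.nd (nat_lit 94) (nat_lit 0) (nat_lit 0) (XT.lf (nat_lit 0) (nat_lit 752169474) (nat_lit 504) (nat_lit 6266072626) (nat_lit 588) (nat_lit 9588581685) (nat_lit 112) (nat_lit 5) (nat_lit 118) (nat_lit 5) (nat_lit 119) (nat_lit 5) (nat_lit 376) (nat_lit 344) (nat_lit 225)) (XT.lf (nat_lit 0) (nat_lit 8761058377) (nat_lit 504) (nat_lit 415053353) (nat_lit 588) (nat_lit 7728860145) (nat_lit 112) (nat_lit 5) (nat_lit 118) (nat_lit 5) (nat_lit 119) (nat_lit 5) (nat_lit 377) (nat_lit 344) (nat_lit 224)))) (XT.nd (nat_lit 188) (nat_lit 588) (nat_lit 0) (XT.nd (nat_lit 94) (nat_lit 420) (nat_lit 0) (XT.lf (nat_lit 0) (nat_lit 11441711277) (nat_lit 588) (nat_lit 268166723) (nat_lit 84) (nat_lit 5500914087) (nat_lit 112) (nat_lit 5) (nat_lit 119) (nat_lit 5) (nat_lit 113) (nat_lit 5) (nat_lit 378) (nat_lit 344) (nat_lit 223)) (XT.lf (nat_lit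 0) (nat_lit 7983515471) (nat_lit 420) (nat_lit 5861986757) (nat_lit 504) (nat_lit 3678194963) (nat_lit 107) (nat_lit 5) (nat_lit 112) (nat_lit 5) (nat_lit 113) (nat_lit 5) (nat_lit 379) (nat_lit 344) (nat_lit 222))) (XT.nd (nat_lit 94) (nat_lit 588) (nat_lit 0) (XT.lf (nat_lit 0) (nat_lit 16315245269) (nat_lit 504) (nat_lit 1371452957) (nat_lit 84) (nat_lit 159492561) (nat_lit 107) (nat_lit 5) (nat_lit 113) (nat_lit 5) (nat_lit 108) (nat_lit 5) (nat_lit 380) (nat_lit 344) (nat_lit 221)) (XT.lf (nat_lit 0) (nat_lit 784827126) (nat_lit 588) (nat_lit 11071375135) (nat_lit 84) (nat_lit 6318454497) (nat_lit 100) (nat_lit 5) (nat_lit 107) (nat_lit 5) (nat_lit 101) (nat_lit 5) (nat_lit 381) (nat_lit 344) (nat_lit 220)))))) (XT.nd (nat_lit 658) (nat_lit 1176) (nat_lit 0) (XT.nd (nat_lit 282) (nat_lit 756) (nat_lit 0) (XT.nd (nat_lit 94) (nat_lit 420) (nat_lit 0) (XT.lf (nat_lit 0) (nat_lit 3143214251)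 (nat_lit 588) (nat_lit 2679440517) (nat_lit 84) (nat_lit 12689764943) (nat_lit 100) (nat_lit 5) (nat_lit 107) (nat_lit 5) (nat_lit 101) (nat_lit 5) (nat_lit 382) (nat_lit 344) (nat_lit 219)) (XT.nd (nat_lit 94) (nat_lit 0) (nat_lit 0) (XT.lf (nat_lit 0) (nat_lit 5625258787) (nat_lit 504) (nat_lit 12792086580) (nat_lit 84) (nat_lit 441397664) (nat_lit 95) (nat_lit 5) (nat_lit 101) (nat_lit 5) (nat_lit 96) (nat_lit 5) (nat_lit 383) (nat_lit 344) (nat_lit 218)) (XT.lf (nat_lit 0) (nat_lit 8257115056) (nat_lit 504) (nat_lit 4154278252) (nat_lit 84) (nat_lit 6801816455) (nat_lit 95) (nat_lit 5) (nat_lit 101) (nat_lit 5) (nat_lit 96) (nat_lit 5) (nat_lit 384) (nat_lit 344) (nat_lit 217)))) (XT.nd (nat_lit 188) (nat_lit 336) (nat_lit 0) (XT.nd (nat_lit 94) (nat_lit 0) (nat_lit 0) (XT.lf (nat_lit 0) (nat_lit 4825389909) (nat_lit 420) (nat_lit 6179577395) (nat_lit 504) (nat_lit 8572245797) (nat_lit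 90) (nat_lit 5) (nat_lit 95) (nat_lit 5) (nat_lit 96) (nat_lit 5) (nat_lit 385) (nat_lit 344) (nat_lit 216)) (XT.lf (nat_lit 0) (nat_lit 13870718221) (nat_lit 504) (nat_lit 5805577198) (nat_lit 84) (nat_lit 274790634) (nat_lit 90) (nat_lit 5) (nat_lit 96) (nat_lit 5) (nat_lit 91) (nat_lit 5) (nat_lit 386) (nat_lit 344) (nat_lit 215))) (XT.nd (nat_lit 94) (nat_lit 0) (nat_lit 0) (XT.lf (nat_lit 0) (nat_lit 3403023809) (nat_lit 336) (nat_lit 13504380165) (nat_lit 420) (nat_lit 3426235369) (nat_lit 86) (nat_lit 5) (nat_lit 90) (nat_lit 5) (nat_lit 91) (nat_lit 5) (nat_lit 387) (nat_lit 344) (nat_lit 214)) (XT.lf (nat_lit 0) (nat_lit 12995748137) (nat_lit 336) (nat_lit 7089286622) (nat_lit 420) (nat_lit 641151779) (nat_lit 86) (nat_lit 5) (nat_lit 90) (nat_lit 5) (nat_lit 91) (nat_lit 5) (nat_lit 388) (nat_lit 344) (nat_lit 213))))) (XT.nd (nat_lit 282) (nat_lit 672) (nat_lit 0) (XT.nd (nat_lit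 94) (nat_lit 0) (nat_lit 0) (XT.lf (nat_lit 0) (nat_lit 1747428446) (nat_lit 420) (nat_lit 444765799) (nat_lit 504) (nat_lit 18937440173) (nat_lit 80) (nat_lit 5) (nat_lit 85) (nat_lit 5) (nat_lit 86) (nat_lit 5) (nat_lit 389) (nat_lit 344) (nat_lit 212)) (XT.nd (nat_lit 94) (nat_lit 0) (nat_lit 0) (XT.lf (nat_lit 0) (nat_lit 5229503214) (nat_lit 504) (nat_lit 9954516031) (nat_lit 84) (nat_lit 6357032144) (nat_lit 80) (nat_lit 5) (nat_lit 86) (nat_lit 5) (nat_lit 81) (nat_lit 5) (nat_lit 390) (nat_lit 344) (nat_lit 211)) (XT.lf (nat_lit 0) (nat_lit 8354084529) (nat_lit 504) (nat_lit 259211601) (nat_lit 84) (nat_lit 13351641376) (nat_lit 80) (nat_lit 5) (nat_lit 86) (nat_lit 5) (nat_lit 81) (nat_lit 5) (nat_lit 391) (nat_lit 344) (nat_lit 210)))) (XT.nd (nat_lit 188) (nat_lit 336) (nat_lit 0) (XT.nd (nat_lit 94) (nat_lit 0) (nat_lit 0) (XT.lf (nat_lit 0) (nat_lit 9909830795) (nat_lit 336)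 (nat_lit 1749821607) (nat_lit 420) (nat_lit 10739281233) (nat_lit 76) (nat_lit 5) (nat_lit 80) (nat_lit 5) (nat_lit 81) (nat_lit 5) (nat_lit 392) (nat_lit 344) (nat_lit 209)) (XT.lf (nat_lit 0) (nat_lit 15110264541) (nat_lit 420) (nat_lit 2518391256) (nat_lit 84) (nat_lit 5215928119) (nat_lit 76) (nat_lit 5) (nat_lit 81) (nat_lit 5) (nat_lit 77) (nat_lit 5) (nat_lit 393) (nat_lit 344) (nat_lit 208))) (XT.nd (nat_lit 94) (nat_lit 0) (nat_lit 0) (XT.lf (nat_lit 0) (nat_lit 7877527460) (nat_lit 336) (nat_lit 10872245237) (nat_lit 420) (nat_lit 4551279956) (nat_lit 72) (nat_lit 5) (nat_lit 76) (nat_lit 5) (nat_lit 77) (nat_lit 5) (nat_lit 394) (nat_lit 344) (nat_lit 207)) (XT.lf (nat_lit 0) (nat_lit 18626741168) (nat_lit 336) (nat_lit 3889610125) (nat_lit 420) (nat_lit 1254337580) (nat_lit 72) (nat_lit 5) (nat_lit 76) (nat_lit 5) (nat_lit 77) (nat_lit 5) (nat_lit 395) (nat_lit 344) (nat_lit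 206))))))))
noncomputable def xc149 : XT := (XT.nd (nat_lit 2538) (nat_lit 1428) (nat_lit 0) (XT.nd (nat_lit 1222) (nat_lit 1260) (nat_lit 0) (XT.nd (nat_lit 564) (nat_lit 924) (nat_lit 0) (XT.nd (nat_lit 282) (nat_lit 252) (nat_lit 0) (XT.nd (nat_lit 94) (nat_lit 336) (nat_lit 0) (XT.lf (nat_lit 0) (nat_lit 2177838181) (nat_lit 420) (nat_lit 18763784019) (nat_lit 84) (nat_lit 3309840407) (nat_lit 67) (nat_lit 5) (nat_lit 72) (nat_lit 5) (nat_lit 68) (nat_lit 5) (nat_lit 396) (nat_lit 344) (nat_lit 205)) (XT.nd (nat_lit 94) (nat_lit 336) (nat_lit 0) (XT.lf (nat_lit 0) (nat_lit 5771423653) (nat_lit 420) (nat_lit 8263016129) (nat_lit 84) (nat_lit 10709346663) (nat_lit 67) (nat_lit 5) (nat_lit 72) (nat_lit 5) (nat_lit 68) (nat_lit 5) (nat_lit 397) (nat_lit 344) (nat_lit 204)) (XT.lf (nat_lit 0) (nat_lit 2593509749) (nat_lit 336) (nat_lit 6897136672) (nat_lit 420) (nat_lit 15759707552) (nat_lit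 63) (nat_lit 5) (nat_lit 67) (nat_lit 5) (nat_lit 68) (nat_lit 5) (nat_lit 398) (nat_lit 344) (nat_lit 203)))) (XT.nd (nat_lit 94) (nat_lit 252) (nat_lit 0) (XT.lf (nat_lit 0) (nat_lit 13403064499) (nat_lit 420) (nat_lit 11839661588) (nat_lit 84) (nat_lit 526952488) (nat_lit 63) (nat_lit 5) (nat_lit 68) (nat_lit 5) (nat_lit 64) (nat_lit 5) (nat_lit 399) (nat_lit 344) (nat_lit 202)) (XT.nd (nat_lit 94) (nat_lit 252) (nat_lit 0) (XT.lf (nat_lit 0) (nat_lit 17494333262) (nat_lit 420) (nat_lit 775930006) (nat_lit 84) (nat_lit 8032483657) (nat_lit 63) (nat_lit 5) (nat_lit 68) (nat_lit 5) (nat_lit 64) (nat_lit 5) (nat_lit 400) (nat_lit 344) (nat_lit 201)) (XT.lf (nat_lit 0) (nat_lit 10821483477) (nat_lit 252) (nat_lit 10984267352) (nat_lit 336) (nat_lit 5043142287) (nat_lit 60) (nat_lit 5) (nat_lit 63) (nat_lit 5) (nat_lit 64) (nat_lit 5) (nat_lit 401) (nat_lit 344) (nat_lit 200))))) (XT.nd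 (nat_lit 282) (nat_lit 504) (nat_lit 0) (XT.nd (nat_lit 94) (nat_lit 420) (nat_lit 0) (XT.lf (nat_lit 0) (nat_lit 22773421123) (nat_lit 252) (nat_lit 3474416340) (nat_lit 336) (nat_lit 1163554311) (nat_lit 60) (nat_lit 5) (nat_lit 63) (nat_lit 5) (nat_lit 64) (nat_lit 5) (nat_lit 402) (nat_lit 344) (nat_lit 199)) (XT.nd (nat_lit 94) (nat_lit 0) (nat_lit 0) (XT.lf (nat_lit 0) (nat_lit 2881829735) (nat_lit 420) (nat_lit 20832756571) (nat_lit 84) (nat_lit 4272229325) (nat_lit 55) (nat_lit 5) (nat_lit 60) (nat_lit 5) (nat_lit 56) (nat_lit 5) (nat_lit 403) (nat_lit 344) (nat_lit 198)) (XT.lf (nat_lit 0) (nat_lit 7100570015) (nat_lit 420) (nat_lit 9238804755) (nat_lit 84) (nat_lit 12237527601) (nat_lit 55) (nat_lit 5) (nat_lit 60) (nat_lit 5) (nat_lit 56) (nat_lit 5) (nat_lit 404) (nat_lit 344) (nat_lit 197)))) (XT.nd (nat_lit 188) (nat_lit 252) (nat_lit 0) (XT.nd (nat_lit 94) (nat_lit 0) (nat_lit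 0) (XT.lf (nat_lit 0) (nat_lit 2747603696) (nat_lit 252) (nat_lit 8718547177) (nat_lit 336) (nat_lit 17717939487) (nat_lit 52) (nat_lit 5) (nat_lit 55) (nat_lit 5) (nat_lit 56) (nat_lit 5) (nat_lit 405) (nat_lit 344) (nat_lit 196)) (XT.lf (nat_lit 0) (nat_lit 15274101294) (nat_lit 252) (nat_lit 775851585) (nat_lit 336) (nat_lit 13756930293) (nat_lit 52) (nat_lit 5) (nat_lit 55) (nat_lit 5) (nat_lit 56) (nat_lit 5) (nat_lit 406) (nat_lit 344) (nat_lit 195))) (XT.nd (nat_lit 94) (nat_lit 252) (nat_lit 0) (XT.lf (nat_lit 0) (nat_lit 20836560776) (nat_lit 336) (nat_lit 2351935096) (nat_lit 84) (nat_lit 7257911736) (nat_lit 52) (nat_lit 5) (nat_lit 56) (nat_lit 5) (nat_lit 53) (nat_lit 5) (nat_lit 407) (nat_lit 344) (nat_lit 194)) (XT.lf (nat_lit 0) (nat_lit 10380689391) (nat_lit 252) (nat_lit 15487825571) (nat_lit 336) (nat_lit 5233556780) (nat_lit 49) (nat_lit 5) (nat_lit 52) (nat_lit 5)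 (nat_lit 53) (nat_lit 5) (nat_lit 408) (nat_lit 344) (nat_lit 193)))))) (XT.nd (nat_lit 658) (nat_lit 504) (nat_lit 0) (XT.nd (nat_lit 282) (nat_lit 420) (nat_lit 0) (XT.nd (nat_lit 94) (nat_lit 336) (nat_lit 0) (XT.lf (nat_lit 0) (nat_lit 23535057973) (nat_lit 252) (nat_lit 7534485931) (nat_lit 336) (nat_lit 707324629) (nat_lit 49) (nat_lit 5) (nat_lit 52) (nat_lit 5) (nat_lit 53) (nat_lit 5) (nat_lit 409) (nat_lit 344) (nat_lit 192)) (XT.nd (nat_lit 94) (nat_lit 0) (nat_lit 0) (XT.lf (nat_lit 0) (nat_lit 3923869914) (nat_lit 336) (nat_lit 27820025032) (nat_lit 84) (nat_lit 725489320) (nat_lit 45) (nat_lit 5) (nat_lit 49) (nat_lit 5) (nat_lit 46) (nat_lit 5) (nat_lit 410) (nat_lit 344) (nat_lit 191)) (XT.lf (nat_lit 0) (nat_lit 8832958105) (nat_lit 336) (nat_lit 15174769317) (nat_lit 84) (nat_lit 9170148413) (nat_lit 45) (nat_lit 5) (nat_lit 49) (nat_lit 5) (nat_lit 46) (nat_lit 5) (nat_lit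 411) (nat_lit 344) (nat_lit 190)))) (XT.nd (nat_lit 188) (nat_lit 168) (nat_lit 0) (XT.nd (nat_lit 94) (nat_lit 252) (nat_lit 0) (XT.lf (nat_lit 0) (nat_lit 13884003717) (nat_lit 336) (nat_lit 2158289604) (nat_lit 84) (nat_lit 17865493812) (nat_lit 45) (nat_lit 5) (nat_lit 49) (nat_lit 5) (nat_lit 46) (nat_lit 5) (nat_lit 412) (nat_lit 344) (nat_lit 189)) (XT.lf (nat_lit 0) (nat_lit 11464501447) (nat_lit 252) (nat_lit 7727122638) (nat_lit 336) (nat_lit 15464825747) (nat_lit 42) (nat_lit 5) (nat_lit 45) (nat_lit 5) (nat_lit 46) (nat_lit 5) (nat_lit 413) (nat_lit 344) (nat_lit 188))) (XT.nd (nat_lit 94) (nat_lit 168) (nat_lit 0) (XT.lf (nat_lit 0) (nat_lit 24683422381) (nat_lit 336) (nat_lit 9902916739) (nat_lit 84) (nat_lit 840490017) (nat_lit 42) (nat_lit 5) (nat_lit 46) (nat_lit 5) (nat_lit 43) (nat_lit 5) (nat_lit 414) (nat_lit 344) (nat_lit 187)) (XT.lf (nat_lit 0) (nat_lit 3774208842)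 (nat_lit 168) (nat_lit 26673589277) (nat_lit 252) (nat_lit 5769292056) (nat_lit 40) (nat_lit 5) (nat_lit 42) (nat_lit 5) (nat_lit 43) (nat_lit 5) (nat_lit 415) (nat_lit 344) (nat_lit 186))))) (XT.nd (nat_lit 282) (nat_lit 168) (nat_lit 0) (XT.nd (nat_lit 94) (nat_lit 336) (nat_lit 0) (XT.lf (nat_lit 0) (nat_lit 18057004699) (nat_lit 168) (nat_lit 18423208866) (nat_lit 252) (nat_lit 547997132) (nat_lit 40) (nat_lit 5) (nat_lit 42) (nat_lit 5) (nat_lit 43) (nat_lit 5) (nat_lit 416) (nat_lit 344) (nat_lit 185)) (XT.nd (nat_lit 94) (nat_lit 252) (nat_lit 0) (XT.lf (nat_lit 0) (nat_lit 4730886351) (nat_lit 252) (nat_lit 5149329832) (nat_lit 84) (nat_lit 27982204455) (nat_lit 39) (nat_lit 5) (nat_lit 42) (nat_lit 5) (nat_lit 40) (nat_lit 5) (nat_lit 417) (nat_lit 344) (nat_lit 184)) (XT.lf (nat_lit 0) (nat_lit 9255074687) (nat_lit 252) (nat_lit 986351896) (nat_lit 336) (nat_lit 28477542880)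 (nat_lit 36) (nat_lit 5) (nat_lit 39) (nat_lit 5) (nat_lit 40) (nat_lit 5) (nat_lit 418) (nat_lit 344) (nat_lit 183)))) (XT.nd (nat_lit 188) (nat_lit 168) (nat_lit 0) (XT.nd (nat_lit 94) (nat_lit 0) (nat_lit 0) (XT.lf (nat_lit 0) (nat_lit 16043752557) (nat_lit 336) (nat_lit 15488926069) (nat_lit 84) (nat_lit 8064746403) (nat_lit 36) (nat_lit 5) (nat_lit 40) (nat_lit 5) (nat_lit 37) (nat_lit 5) (nat_lit 419) (nat_lit 344) (nat_lit 182)) (XT.lf (nat_lit 0) (nat_lit 22025428657) (nat_lit 336) (nat_lit 1111607498) (nat_lit 84) (nat_lit 17365043930) (nat_lit 36) (nat_lit 5) (nat_lit 40) (nat_lit 5) (nat_lit 37) (nat_lit 5) (nat_lit 420) (nat_lit 344) (nat_lit 181))) (XT.nd (nat_lit 94) (nat_lit 0) (nat_lit 0) (XT.lf (nat_lit 0) (nat_lit 13962564992) (nat_lit 168) (nat_lit 14353851896) (nat_lit 252) (nat_lit 13113566160) (nat_lit 34) (nat_lit 5) (nat_lit 36) (nat_lit 5) (nat_lit 37) (nat_lit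 5) (nat_lit 421) (nat_lit 344) (nat_lit 180)) (XT.lf (nat_lit 0) (nat_lit 29504891850) (nat_lit 168) (nat_lit 5298174027) (nat_lit 252) (nat_lit 7582453281) (nat_lit 34) (nat_lit 5) (nat_lit 36) (nat_lit 5) (nat_lit 37) (nat_lit 5) (nat_lit 422) (nat_lit 344) (nat_lit 179))))))) (XT.nd (nat_lit 1316) (nat_lit 420) (nat_lit 0) (XT.nd (nat_lit 658) (nat_lit 420) (nat_lit 0) (XT.nd (nat_lit 282) (nat_lit 336) (nat_lit 0) (XT.nd (nat_lit 94) (nat_lit 84) (nat_lit 0) (XT.lf (nat_lit 0) (nat_lit 2140033079) (nat_lit 168) (nat_lit 39399390643) (nat_lit 252) (nat_lit 1828648220) (nat_lit 32) (nat_lit 5) (nat_lit 34) (nat_lit 5) (nat_lit 35) (nat_lit 5) (nat_lit 423) (nat_lit 344) (nat_lit 178)) (XT.nd (nat_lit 94) (nat_lit 0) (nat_lit 0) (XT.lf (nat_lit 0) (nat_lit 4197443092) (nat_lit 252) (nat_lit 26600764475) (nat_lit 84) (nat_lit 13575326657) (nat_lit 31) (nat_lit 5) (nat_lit 34) (nat_lit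 5) (nat_lit 32) (nat_lit 5) (nat_lit 424) (nat_lit 344) (nat_lit 177)) (XT.lf (nat_lit 0) (nat_lit 10363505177) (nat_lit 252) (nat_lit 11559363186) (nat_lit 84) (nat_lit 23485874132) (nat_lit 31) (nat_lit 5) (nat_lit 34) (nat_lit 5) (nat_lit 32) (nat_lit 5) (nat_lit 425) (nat_lit 344) (nat_lit 176)))) (XT.nd (nat_lit 188) (nat_lit 168) (nat_lit 0) (XT.nd (nat_lit 94) (nat_lit 0) (nat_lit 0) (XT.lf (nat_lit 0) (nat_lit 4005038790) (nat_lit 168) (nat_lit 12744069461) (nat_lit 252) (nat_lit 29724865433) (nat_lit 29) (nat_lit 5) (nat_lit 31) (nat_lit 5) (nat_lit 32) (nat_lit 5) (nat_lit 426) (nat_lit 344) (nat_lit 175)) (XT.lf (nat_lit 0) (nat_lit 20266997043) (nat_lit 168) (nat_lit 3172123409) (nat_lit 252) (nat_lit 24128659467) (nat_lit 29) (nat_lit 5) (nat_lit 31) (nat_lit 5) (nat_lit 32) (nat_lit 5) (nat_lit 427) (nat_lit 344) (nat_lit 174))) (XT.nd (nat_lit 94) (nat_lit 168) (nat_lit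 0) (XT.lf (nat_lit 0) (nat_lit 30390316862) (nat_lit 252) (nat_lit 11748106238) (nat_lit 84) (nat_lit 6554165971) (nat_lit 29) (nat_lit 5) (nat_lit 32) (nat_lit 5) (nat_lit 30) (nat_lit 5) (nat_lit 428) (nat_lit 344) (nat_lit 173)) (XT.lf (nat_lit 0) (nat_lit 4317943339) (nat_lit 168) (nat_lit 33301334738) (nat_lit 252) (nat_lit 12229790703) (nat_lit 27) (nat_lit 5) (nat_lit 29) (nat_lit 5) (nat_lit 30) (nat_lit 5) (nat_lit 429) (nat_lit 344) (nat_lit 172))))) (XT.nd (nat_lit 282) (nat_lit 168) (nat_lit 0) (XT.nd (nat_lit 94) (nat_lit 252) (nat_lit 0) (XT.lf (nat_lit 0) (nat_lit 21100799642) (nat_lit 168) (nat_lit 24079306023) (nat_lit 252) (nat_lit 5856690349) (nat_lit 27) (nat_lit 5) (nat_lit 29) (nat_lit 5) (nat_lit 30) (nat_lit 5) (nat_lit 430) (nat_lit 344) (nat_lit 171)) (XT.nd (nat_lit 94) (nat_lit 168) (nat_lit 0) (XT.lf (nat_lit 0) (nat_lit 690227855) (nat_lit 252) (nat_lit 13885713905)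 (nat_lit 84) (nat_lit 37684119148) (nat_lit 26) (nat_lit 5) (nat_lit 29) (nat_lit 5) (nat_lit 27) (nat_lit 5) (nat_lit 431) (nat_lit 344) (nat_lit 170)) (XT.lf (nat_lit 0) (nat_lit 2633757335) (nat_lit 168) (nat_lit 4703936505) (nat_lit 252) (nat_lit 46179937480) (nat_lit 24) (nat_lit 5) (nat_lit 26) (nat_lit 5) (nat_lit 27) (nat_lit 5) (nat_lit 432) (nat_lit 344) (nat_lit 169)))) (XT.nd (nat_lit 188) (nat_lit 168) (nat_lit 0) (XT.nd (nat_lit 94) (nat_lit 0) (nat_lit 0) (XT.lf (nat_lit 0) (nat_lit 14375277429) (nat_lit 252) (nat_lit 34934934048) (nat_lit 84) (nat_lit 5496999276) (nat_lit 24) (nat_lit 5) (nat_lit 27) (nat_lit 5) (nat_lit 25) (nat_lit 5) (nat_lit 433) (nat_lit 344) (nat_lit 168)) (XT.lf (nat_lit 0) (nat_lit 21667223637) (nat_lit 252) (nat_lit 18559686121) (nat_lit 84) (nat_lit 15907273395) (nat_lit 24) (nat_lit 5) (nat_lit 27) (nat_lit 5) (nat_lit 25) (nat_lit 5) (nat_lit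 434) (nat_lit 344) (nat_lit 167))) (XT.nd (nat_lit 94) (nat_lit 168) (nat_lit 0) (XT.lf (nat_lit 0) (nat_lit 29174686953) (nat_lit 252) (nat_lit 1698604623) (nat_lit 84) (nat_lit 26627772950) (nat_lit 24) (nat_lit 5) (nat_lit 27) (nat_lit 5) (nat_lit 25) (nat_lit 5) (nat_lit 435) (nat_lit 344) (nat_lit 166)) (XT.lf (nat_lit 0) (nat_lit 15974768706) (nat_lit 168) (nat_lit 21083017839) (nat_lit 252) (nat_lit 21846655912) (nat_lit 22) (nat_lit 5) (nat_lit 24) (nat_lit 5) (nat_lit 25) (nat_lit 5) (nat_lit 436) (nat_lit 344) (nat_lit 165)))))) (XT.nd (nat_lit 658) (nat_lit 84) (nat_lit 0) (XT.nd (nat_lit 282) (nat_lit 252) (nat_lit 0) (XT.nd (nat_lit 94) (nat_lit 84) (nat_lit 0) (XT.lf (nat_lit 0) (nat_lit 34207948703) (nat_lit 168) (nat_lit 10983477659) (nat_lit 252) (nat_lit 15158076359) (nat_lit 22) (nat_lit 5) (nat_lit 24) (nat_lit 5) (nat_lit 25) (nat_lit 5) (nat_lit 437) (nat_lit 344)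 (nat_lit 164)) (XT.nd (nat_lit 94) (nat_lit 84) (nat_lit 0) (XT.lf (nat_lit 0) (nat_lit 52983061710) (nat_lit 168) (nat_lit 582998773) (nat_lit 252) (nat_lit 8271947103) (nat_lit 22) (nat_lit 5) (nat_lit 24) (nat_lit 5) (nat_lit 25) (nat_lit 5) (nat_lit 438) (nat_lit 344) (nat_lit 163)) (XT.lf (nat_lit 0) (nat_lit 9023994321) (nat_lit 84) (nat_lit 53349108170) (nat_lit 168) (nat_lit 992632316) (nat_lit 21) (nat_lit 5) (nat_lit 22) (nat_lit 5) (nat_lit 23) (nat_lit 4) (nat_lit 439) (nat_lit 344) (nat_lit 162)))) (XT.nd (nat_lit 188) (nat_lit 168) (nat_lit 0) (XT.nd (nat_lit 94) (nat_lit 0) (nat_lit 0) (XT.lf (nat_lit 0) (nat_lit 6471261113) (nat_lit 168) (nat_lit 37389976777) (nat_lit 84) (nat_lit 21073388088) (nat_lit 20) (nat_lit 5) (nat_lit 22) (nat_lit 5) (nat_lit 21) (nat_lit 5) (nat_lit 440) (nat_lit 344) (nat_lit 161)) (XT.lf (nat_lit 0) (nat_lit 14136267223) (nat_lit 168) (nat_lit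 19944340310) (nat_lit 84) (nat_lit 32469769189) (nat_lit 20) (nat_lit 5) (nat_lit 22) (nat_lit 5) (nat_lit 21) (nat_lit 5) (nat_lit 441) (nat_lit 344) (nat_lit 160))) (XT.nd (nat_lit 94) (nat_lit 168) (nat_lit 0) (XT.lf (nat_lit 0) (nat_lit 22028453423) (nat_lit 168) (nat_lit 1980045536) (nat_lit 84) (nat_lit 44206186154) (nat_lit 20) (nat_lit 5) (nat_lit 22) (nat_lit 5) (nat_lit 21) (nat_lit 5) (nat_lit 442) (nat_lit 344) (nat_lit 159)) (XT.lf (nat_lit 0) (nat_lit 16847357120) (nat_lit 168) (nat_lit 13469305781) (nat_lit 252) (nat_lit 39607484087) (nat_lit 18) (nat_lit 5) (nat_lit 20) (nat_lit 5) (nat_lit 21) (nat_lit 5) (nat_lit 443) (nat_lit 344) (nat_lit 158))))) (XT.nd (nat_lit 50008) (nat_lit 0) (nat_lit 14616) (XT.nd (nat_lit 94) (nat_lit 84) (nat_lit 0) (XT.lf (nat_lit 0) (nat_lit 36275642109) (nat_lit 168) (nat_lit 2595216521) (nat_lit 252) (nat_lit 32813515796) (nat_lit 18) (nat_lit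 5) (nat_lit 20) (nat_lit 5) (nat_lit 21) (nat_lit 5) (nat_lit 444) (nat_lit 344) (nat_lit 157)) (XT.nd (nat_lit 94) (nat_lit 84) (nat_lit 0) (XT.lf (nat_lit 0) (nat_lit 47761802891) (nat_lit 252) (nat_lit 17297808997) (nat_lit 84) (nat_lit 8435394972) (nat_lit 18) (nat_lit 5) (nat_lit 21) (nat_lit 5) (nat_lit 19) (nat_lit 4) (nat_lit 445) (nat_lit 344) (nat_lit 156)) (XT.lf (nat_lit 0) (nat_lit 1352816478) (nat_lit 84) (nat_lit 55602839105) (nat_lit 168) (nat_lit 18403219075) (nat_lit 17) (nat_lit 5) (nat_lit 18) (nat_lit 5) (nat_lit 19) (nat_lit 4) (nat_lit 446) (nat_lit 344) (nat_lit 155)))) (XT.nd (nat_lit 188) (nat_lit 0) (nat_lit 0) (XT.nd (nat_lit 94) (nat_lit 0) (nat_lit 0) (XT.lf (nat_lit 0) (nat_lit 1770116998) (nat_lit 0) (nat_lit 1770116998) (nat_lit 1092) (nat_lit 1658284184) (nat_lit 191) (nat_lit 5) (nat_lit 191) (nat_lit 3) (nat_lit 204) (nat_lit 3) (nat_lit 345) (nat_lit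 345) (nat_lit 255)) (XT.lf (nat_lit 0) (nat_lit 7787663071) (nat_lit 1092) (nat_lit 2344686809) (nat_lit 1176) (nat_lit 401423372) (nat_lit 191) (nat_lit 5) (nat_lit 204) (nat_lit 3) (nat_lit 205) (nat_lit 5) (nat_lit 346) (nat_lit 345) (nat_lit 254))) (XT.nd (nat_lit 94) (nat_lit 0) (nat_lit 0) (XT.lf (nat_lit 84) (nat_lit 2300115855) (nat_lit 0) (nat_lit 6249930789) (nat_lit 1176) (nat_lit 2123592828) (nat_lit 192) (nat_lit 5) (nat_lit 191) (nat_lit 5) (nat_lit 205) (nat_lit 5) (nat_lit 347) (nat_lit 345) (nat_lit 253)) (XT.lf (nat_lit 84) (nat_lit 7119940928) (nat_lit 0) (nat_lit 2216404599) (nat_lit 1176) (nat_lit 1481369891) (nat_lit 192) (nat_lit 5) (nat_lit 191) (nat_lit 5) (nat_lit 205) (nat_lit 5) (nat_lit 348) (nat_lit 345) (nat_lit 252))))))))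
noncomputable def xc150 : XT := (XT.nd (nat_lit 2538) (nat_lit 4872) (nat_lit 0) (XT.nd (nat_lit 1222) (nat_lit 5040) (nat_lit 0) (XT.nd (nat_lit 564) (nat_lit 0) (nat_lit 168) (XT.nd (nat_lit 282) (nat_lit 0) (nat_lit 84) (XT.nd (nat_lit 94) (nat_lit 1176) (nat_lit 0) (XT.lf (nat_lit 84) (nat_lit 1108422662) (nat_lit 0) (nat_lit 9045217927) (nat_lit 1176) (nat_lit 812294577) (nat_lit 193) (nat_lit 5) (nat_lit 192) (nat_lit 5) (nat_lit 206) (nat_lit 5) (nat_lit 349) (nat_lit 345) (nat_lit 251)) (XT.nd (nat_lit 94) (nat_lit 1176) (nat_lit 0) (XT.lf (nat_lit 84) (nat_lit 6099527561) (nat_lit 0) (nat_lit 4933633749) (nat_lit 1176) (nat_lit 84351458) (nat_lit 193) (nat_lit 5) (nat_lit 192) (nat_lit 5) (nat_lit 206) (nat_lit 5) (nat_lit 350) (nat_lit 345) (nat_lit 250)) (XT.lf (nat_lit 0) (nat_lit 631458540) (nat_lit 1176) (nat_lit 52454061) (nat_lit 1260) (nat_lit 10590202825) (nat_lit 178)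 (nat_lit 5) (nat_lit 192) (nat_lit 5) (nat_lit 193) (nat_lit 5) (nat_lit 351) (nat_lit 345) (nat_lit 249)))) (XT.nd (nat_lit 94) (nat_lit 0) (nat_lit 0) (XT.lf (nat_lit 0) (nat_lit 1432247371) (nat_lit 1176) (nat_lit 6321357719) (nat_lit 1260) (nat_lit 3679868884) (nat_lit 179) (nat_lit 5) (nat_lit 193) (nat_lit 5) (nat_lit 194) (nat_lit 5) (nat_lit 352) (nat_lit 345) (nat_lit 248)) (XT.nd (nat_lit 94) (nat_lit 0) (nat_lit 84) (XT.lf (nat_lit 0) (nat_lit 2244539424) (nat_lit 1176) (nat_lit 1184674333) (nat_lit 1260) (nat_lit 8168812865) (nat_lit 179) (nat_lit 5) (nat_lit 193) (nat_lit 5) (nat_lit 194) (nat_lit 5) (nat_lit 353) (nat_lit 345) (nat_lit 247)) (XT.lf (nat_lit 0) (nat_lit 3112396303) (nat_lit 1176) (nat_lit 7602281714) (nat_lit 1260) (nat_lit 1051938582) (nat_lit 180) (nat_lit 5) (nat_lit 194) (nat_lit 5) (nat_lit 195) (nat_lit 5) (nat_lit 354) (nat_lit 345) (nat_lit 246)))))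 (XT.nd (nat_lit 282) (nat_lit 0) (nat_lit 84) (XT.nd (nat_lit 94) (nat_lit 0) (nat_lit 0) (XT.lf (nat_lit 0) (nat_lit 4033574734) (nat_lit 1176) (nat_lit 2289034781) (nat_lit 1260) (nat_lit 5616871750) (nat_lit 180) (nat_lit 5) (nat_lit 194) (nat_lit 5) (nat_lit 195) (nat_lit 5) (nat_lit 355) (nat_lit 345) (nat_lit 245)) (XT.nd (nat_lit 94) (nat_lit 0) (nat_lit 84) (XT.lf (nat_lit 84) (nat_lit 3233941248) (nat_lit 0) (nat_lit 1761331855) (nat_lit 1260) (nat_lit 7121906759) (nat_lit 181) (nat_lit 5) (nat_lit 180) (nat_lit 5) (nat_lit 195) (nat_lit 5) (nat_lit 356) (nat_lit 345) (nat_lit 244)) (XT.lf (nat_lit 0) (nat_lit 6019652194) (nat_lit 1176) (nat_lit 3371711169) (nat_lit 1260) (nat_lit 2907864683) (nat_lit 181) (nat_lit 5) (nat_lit 195) (nat_lit 5) (nat_lit 196) (nat_lit 5) (nat_lit 357) (nat_lit 345) (nat_lit 243)))) (XT.nd (nat_lit 188) (nat_lit 0) (nat_lit 84) (XT.nd (nat_lit 94)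 (nat_lit 0) (nat_lit 84) (XT.lf (nat_lit 84) (nat_lit 2320117704) (nat_lit 0) (nat_lit 4777159072) (nat_lit 1260) (nat_lit 5388818024) (nat_lit 182) (nat_lit 5) (nat_lit 181) (nat_lit 5) (nat_lit 196) (nat_lit 5) (nat_lit 358) (nat_lit 345) (nat_lit 242)) (XT.lf (nat_lit 0) (nat_lit 8224570426) (nat_lit 1176) (nat_lit 4439158683) (nat_lit 1260) (nat_lit 14349837) (nat_lit 182) (nat_lit 5) (nat_lit 196) (nat_lit 5) (nat_lit 197) (nat_lit 5) (nat_lit 359) (nat_lit 345) (nat_lit 241))) (XT.nd (nat_lit 94) (nat_lit 0) (nat_lit 0) (XT.lf (nat_lit 84) (nat_lit 1427071772) (nat_lit 0) (nat_lit 8003308512) (nat_lit 1260) (nat_lit 3444132088) (nat_lit 183) (nat_lit 5) (nat_lit 182) (nat_lit 5) (nat_lit 197) (nat_lit 5) (nat_lit 360) (nat_lit 345) (nat_lit 240)) (XT.lf (nat_lit 84) (nat_lit 7547473200) (nat_lit 0) (nat_lit 3153751078) (nat_lit 1260) (nat_lit 2374778512) (nat_lit 183) (nat_lit 5)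 (nat_lit 182) (nat_lit 5) (nat_lit 197) (nat_lit 5) (nat_lit 361) (nat_lit 345) (nat_lit 239)))))) (XT.nd (nat_lit 658) (nat_lit 2352) (nat_lit 0) (XT.nd (nat_lit 282) (nat_lit 1848) (nat_lit 0) (XT.nd (nat_lit 94) (nat_lit 84) (nat_lit 0) (XT.lf (nat_lit 0) (nat_lit 547977625) (nat_lit 1176) (nat_lit 11469710620) (nat_lit 1260) (nat_lit 1265653753) (nat_lit 169) (nat_lit 5) (nat_lit 183) (nat_lit 5) (nat_lit 184) (nat_lit 5) (nat_lit 362) (nat_lit 345) (nat_lit 238)) (XT.nd (nat_lit 94) (nat_lit 84) (nat_lit 0) (XT.lf (nat_lit 0) (nat_lit 6875425390) (nat_lit 1176) (nat_lit 6569821954) (nat_lit 1260) (nat_lit 49534078) (nat_lit 169) (nat_lit 5) (nat_lit 183) (nat_lit 5) (nat_lit 184) (nat_lit 5) (nat_lit 363) (nat_lit 345) (nat_lit 237)) (XT.lf (nat_lit 0) (nat_lit 1164716561) (nat_lit 1260) (nat_lit 344218108) (nat_lit 84) (nat_lit 12203755177) (nat_lit 168) (nat_lit 5) (nat_lit 183)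 (nat_lit 5) (nat_lit 169) (nat_lit 5) (nat_lit 364) (nat_lit 345) (nat_lit 236)))) (XT.nd (nat_lit 188) (nat_lit 588) (nat_lit 0) (XT.nd (nat_lit 94) (nat_lit 0) (nat_lit 0) (XT.lf (nat_lit 0) (nat_lit 2496041489) (nat_lit 1344) (nat_lit 7744207278) (nat_lit 84) (nat_lit 3694448463) (nat_lit 153) (nat_lit 5) (nat_lit 169) (nat_lit 5) (nat_lit 154) (nat_lit 5) (nat_lit 365) (nat_lit 345) (nat_lit 235)) (XT.lf (nat_lit 0) (nat_lit 3871633624) (nat_lit 1344) (nat_lit 1262698384) (nat_lit 84) (nat_lit 9028927950) (nat_lit 153) (nat_lit 5) (nat_lit 169) (nat_lit 5) (nat_lit 154) (nat_lit 5) (nat_lit 366) (nat_lit 345) (nat_lit 234))) (XT.nd (nat_lit 94) (nat_lit 0) (nat_lit 0) (XT.lf (nat_lit 0) (nat_lit 5329468002) (nat_lit 672) (nat_lit 8890906499) (nat_lit 84) (nat_lit 177100049) (nat_lit 146) (nat_lit 5) (nat_lit 154) (nat_lit 5) (nat_lit 147) (nat_lit 5) (nat_lit 367) (nat_lit 345) (nat_lit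 233)) (XT.lf (nat_lit 0) (nat_lit 6881330566) (nat_lit 672) (nat_lit 2197201111) (nat_lit 84) (nat_lit 5558698622) (nat_lit 146) (nat_lit 5) (nat_lit 154) (nat_lit 5) (nat_lit 147) (nat_lit 5) (nat_lit 368) (nat_lit 345) (nat_lit 232))))) (XT.nd (nat_lit 282) (nat_lit 1176) (nat_lit 0) (XT.nd (nat_lit 94) (nat_lit 588) (nat_lit 0) (XT.lf (nat_lit 0) (nat_lit 4778222372) (nat_lit 588) (nat_lit 3734429831) (nat_lit 672) (nat_lit 6370562246) (nat_lit 139) (nat_lit 5) (nat_lit 146) (nat_lit 5) (nat_lit 147) (nat_lit 5) (nat_lit 369) (nat_lit 345) (nat_lit 231)) (XT.nd (nat_lit 94) (nat_lit 588) (nat_lit 0) (XT.lf (nat_lit 0) (nat_lit 10219574252) (nat_lit 672) (nat_lit 3157820368) (nat_lit 84) (nat_lit 1758405847) (nat_lit 139) (nat_lit 5) (nat_lit 147) (nat_lit 5) (nat_lit 140) (nat_lit 5) (nat_lit 370) (nat_lit 345) (nat_lit 230)) (XT.lf (nat_lit 0) (nat_lit 4027120279) (nat_lit 588) (nat_lit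 8013880430) (nat_lit 672) (nat_lit 3353085970) (nat_lit 132) (nat_lit 5) (nat_lit 139) (nat_lit 5) (nat_lit 140) (nat_lit 5) (nat_lit 371) (nat_lit 345) (nat_lit 229)))) (XT.nd (nat_lit 188) (nat_lit 504) (nat_lit 0) (XT.nd (nat_lit 94) (nat_lit 672) (nat_lit 0) (XT.lf (nat_lit 0) (nat_lit 11480206236) (nat_lit 588) (nat_lit 2456606763) (nat_lit 672) (nat_lit 1722737077) (nat_lit 132) (nat_lit 5) (nat_lit 139) (nat_lit 5) (nat_lit 140) (nat_lit 5) (nat_lit 372) (nat_lit 345) (nat_lit 228)) (XT.lf (nat_lit 0) (nat_lit 8650751) (nat_lit 672) (nat_lit 12687919983) (nat_lit 84) (nat_lit 3234900470) (nat_lit 124) (nat_lit 5) (nat_lit 132) (nat_lit 5) (nat_lit 125) (nat_lit 5) (nat_lit 373) (nat_lit 345) (nat_lit 227))) (XT.nd (nat_lit 94) (nat_lit 504) (nat_lit 0) (XT.lf (nat_lit 0) (nat_lit 1812601769) (nat_lit 672) (nat_lit 5289564298) (nat_lit 84) (nat_lit 9107233905) (nat_lit 124) (nat_lit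 5) (nat_lit 132) (nat_lit 5) (nat_lit 125) (nat_lit 5) (nat_lit 374) (nat_lit 345) (nat_lit 226)) (XT.lf (nat_lit 0) (nat_lit 2364960348) (nat_lit 504) (nat_lit 1317088098) (nat_lit 588) (nat_lit 12813295405) (nat_lit 118) (nat_lit 5) (nat_lit 124) (nat_lit 5) (nat_lit 125) (nat_lit 5) (nat_lit 375) (nat_lit 345) (nat_lit 225))))))) (XT.nd (nat_lit 1316) (nat_lit 2184) (nat_lit 0) (XT.nd (nat_lit 658) (nat_lit 1176) (nat_lit 0) (XT.nd (nat_lit 282) (nat_lit 1008) (nat_lit 0) (XT.nd (nat_lit 94) (nat_lit 504) (nat_lit 0) (XT.lf (nat_lit 0) (nat_lit 5694993354) (nat_lit 588) (nat_lit 6488017547) (nat_lit 84) (nat_lit 4604250721) (nat_lit 118) (nat_lit 5) (nat_lit 125) (nat_lit 5) (nat_lit 119) (nat_lit 5) (nat_lit 376) (nat_lit 345) (nat_lit 224)) (XT.nd (nat_lit 94) (nat_lit 0) (nat_lit 0) (XT.lf (nat_lit 0) (nat_lit 1385815983) (nat_lit 504) (nat_lit 6398051448) (nat_lit 588) (nat_lit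 9303620766) (nat_lit 112) (nat_lit 5) (nat_lit 118) (nat_lit 5) (nat_lit 119) (nat_lit 5) (nat_lit 377) (nat_lit 345) (nat_lit 223)) (XT.lf (nat_lit 0) (nat_lit 9617173065) (nat_lit 504) (nat_lit 373132762) (nat_lit 588) (nat_lit 7404785784) (nat_lit 112) (nat_lit 5) (nat_lit 118) (nat_lit 5) (nat_lit 119) (nat_lit 5) (nat_lit 378) (nat_lit 345) (nat_lit 222)))) (XT.nd (nat_lit 188) (nat_lit 588) (nat_lit 0) (XT.nd (nat_lit 94) (nat_lit 0) (nat_lit 0) (XT.lf (nat_lit 0) (nat_lit 322102487) (nat_lit 420) (nat_lit 11989678126) (nat_lit 504) (nat_lit 5398693710) (nat_lit 107) (nat_lit 5) (nat_lit 112) (nat_lit 5) (nat_lit 113) (nat_lit 5) (nat_lit 379) (nat_lit 345) (nat_lit 221)) (XT.lf (nat_lit 0) (nat_lit 8809245564) (nat_lit 420) (nat_lit 5965724601) (nat_lit 504) (nat_lit 3258202246) (nat_lit 107) (nat_lit 5) (nat_lit 112) (nat_lit 5) (nat_lit 113) (nat_lit 5) (nat_lit 380) (nat_lit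 345) (nat_lit 220))) (XT.nd (nat_lit 94) (nat_lit 588) (nat_lit 0) (XT.lf (nat_lit 0) (nat_lit 17304504713) (nat_lit 504) (nat_lit 828356695) (nat_lit 84) (nat_lit 232932098) (nat_lit 107) (nat_lit 5) (nat_lit 113) (nat_lit 5) (nat_lit 108) (nat_lit 5) (nat_lit 381) (nat_lit 345) (nat_lit 219)) (XT.lf (nat_lit 0) (nat_lit 1304788173) (nat_lit 588) (nat_lit 10814381071) (nat_lit 84) (nat_lit 6585091076) (nat_lit 100) (nat_lit 5) (nat_lit 107) (nat_lit 5) (nat_lit 101) (nat_lit 5) (nat_lit 382) (nat_lit 345) (nat_lit 218))))) (XT.nd (nat_lit 282) (nat_lit 756) (nat_lit 0) (XT.nd (nat_lit 94) (nat_lit 420) (nat_lit 0) (XT.lf (nat_lit 0) (nat_lit 3719468186) (nat_lit 588) (nat_lit 2187847695) (nat_lit 84) (nat_lit 13145295702) (nat_lit 100) (nat_lit 5) (nat_lit 107) (nat_lit 5) (nat_lit 101) (nat_lit 5) (nat_lit 383) (nat_lit 345) (nat_lit 217)) (XT.nd (nat_lit 94) (nat_lit 0) (nat_lit 0)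 (XT.lf (nat_lit 0) (nat_lit 6268274755) (nat_lit 504) (nat_lit 12595472872) (nat_lit 84) (nat_lit 545828984) (nat_lit 95) (nat_lit 5) (nat_lit 101) (nat_lit 5) (nat_lit 96) (nat_lit 5) (nat_lit 384) (nat_lit 345) (nat_lit 216)) (XT.lf (nat_lit 0) (nat_lit 8965273366) (nat_lit 504) (nat_lit 3715434458) (nat_lit 84) (nat_lit 7094404338) (nat_lit 95) (nat_lit 5) (nat_lit 101) (nat_lit 5) (nat_lit 96) (nat_lit 5) (nat_lit 385) (nat_lit 345) (nat_lit 215)))) (XT.nd (nat_lit 188) (nat_lit 336) (nat_lit 0) (XT.nd (nat_lit 94) (nat_lit 0) (nat_lit 0) (XT.lf (nat_lit 0) (nat_lit 5528099510) (nat_lit 420) (nat_lit 6259413992) (nat_lit 504) (nat_lit 8362783349) (nat_lit 90) (nat_lit 5) (nat_lit 95) (nat_lit 5) (nat_lit 96) (nat_lit 5) (nat_lit 386) (nat_lit 345) (nat_lit 214)) (XT.lf (nat_lit 0) (nat_lit 14727045397) (nat_lit 504) (nat_lit 5425214488) (nat_lit 84) (nat_lit 383511100) (nat_lit 90)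 (nat_lit 5) (nat_lit 96) (nat_lit 5) (nat_lit 91) (nat_lit 5) (nat_lit 387) (nat_lit 345) (nat_lit 213))) (XT.nd (nat_lit 94) (nat_lit 0) (nat_lit 0) (XT.lf (nat_lit 0) (nat_lit 4054207981) (nat_lit 336) (nat_lit 13793080440) (nat_lit 420) (nat_lit 3082757435) (nat_lit 86) (nat_lit 5) (nat_lit 90) (nat_lit 5) (nat_lit 91) (nat_lit 5) (nat_lit 388) (nat_lit 345) (nat_lit 212)) (XT.lf (nat_lit 0) (nat_lit 13918721026) (nat_lit 336) (nat_lit 7188925289) (nat_lit 420) (nat_lit 227119347) (nat_lit 86) (nat_lit 5) (nat_lit 90) (nat_lit 5) (nat_lit 91) (nat_lit 5) (nat_lit 389) (nat_lit 345) (nat_lit 211)))))) (XT.nd (nat_lit 658) (nat_lit 1008) (nat_lit 0) (XT.nd (nat_lit 282) (nat_lit 336) (nat_lit 0) (XT.nd (nat_lit 94) (nat_lit 336) (nat_lit 0) (XT.lf (nat_lit 0) (nat_lit 2336678272) (nat_lit 420) (nat_lit 338881321) (nat_lit 504) (nat_lit 19074865925) (nat_lit 80) (nat_lit 5) (nat_lit 85)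 (nat_lit 5) (nat_lit 86) (nat_lit 5) (nat_lit 390) (nat_lit 345) (nat_lit 210)) (XT.nd (nat_lit 94) (nat_lit 336) (nat_lit 0) (XT.lf (nat_lit 0) (nat_lit 5792937444) (nat_lit 504) (nat_lit 9720356543) (nat_lit 84) (nat_lit 6661239123) (nat_lit 80) (nat_lit 5) (nat_lit 86) (nat_lit 5) (nat_lit 81) (nat_lit 5) (nat_lit 391) (nat_lit 345) (nat_lit 209)) (XT.lf (nat_lit 0) (nat_lit 255269956) (nat_lit 336) (nat_lit 8746598816) (nat_lit 420) (nat_lit 13609564777) (nat_lit 76) (nat_lit 5) (nat_lit 80) (nat_lit 5) (nat_lit 81) (nat_lit 5) (nat_lit 392) (nat_lit 345) (nat_lit 208)))) (XT.nd (nat_lit 188) (nat_lit 336) (nat_lit 0) (XT.nd (nat_lit 94) (nat_lit 0) (nat_lit 0) (XT.lf (nat_lit 0) (nat_lit 10719331048) (nat_lit 336) (nat_lit 1678246106) (nat_lit 420) (nat_lit 10661158851) (nat_lit 76) (nat_lit 5) (nat_lit 80) (nat_lit 5) (nat_lit 81) (nat_lit 5) (nat_lit 393) (nat_lit 345) (nat_lit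 207)) (XT.lf (nat_lit 0) (nat_lit 15941560650) (nat_lit 420) (nat_lit 2086002868) (nat_lit 84) (nat_lit 5490511878) (nat_lit 76) (nat_lit 5) (nat_lit 81) (nat_lit 5) (nat_lit 77) (nat_lit 5) (nat_lit 394) (nat_lit 345) (nat_lit 206))) (XT.nd (nat_lit 94) (nat_lit 0) (nat_lit 0) (XT.lf (nat_lit 0) (nat_lit 8616813604) (nat_lit 336) (nat_lit 11067265845) (nat_lit 420) (nat_lit 4304358734) (nat_lit 72) (nat_lit 5) (nat_lit 76) (nat_lit 5) (nat_lit 77) (nat_lit 5) (nat_lit 395) (nat_lit 345) (nat_lit 205)) (XT.lf (nat_lit 0) (nat_lit 19673854395) (nat_lit 336) (nat_lit 3878971488) (nat_lit 420) (nat_lit 919676814) (nat_lit 72) (nat_lit 5) (nat_lit 76) (nat_lit 5) (nat_lit 77) (nat_lit 5) (nat_lit 396) (nat_lit 345) (nat_lit 204))))) (XT.nd (nat_lit 282) (nat_lit 252) (nat_lit 0) (XT.nd (nat_lit 94) (nat_lit 336) (nat_lit 0) (XT.lf (nat_lit 0) (nat_lit 2603558582) (nat_lit 420) (nat_lit 18825567569)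 (nat_lit 84) (nat_lit 3538618855) (nat_lit 67) (nat_lit 5) (nat_lit 72) (nat_lit 5) (nat_lit 68) (nat_lit 5) (nat_lit 397) (nat_lit 345) (nat_lit 203)) (XT.nd (nat_lit 94) (nat_lit 336) (nat_lit 0) (XT.lf (nat_lit 0) (nat_lit 6294454961) (nat_lit 420) (nat_lit 8024372661) (nat_lit 84) (nat_lit 11156338943) (nat_lit 67) (nat_lit 5) (nat_lit 72) (nat_lit 5) (nat_lit 68) (nat_lit 5) (nat_lit 398) (nat_lit 345) (nat_lit 202)) (XT.lf (nat_lit 0) (nat_lit 3153079054) (nat_lit 336) (nat_lit 6966615438) (nat_lit 420) (nat_lit 15877416145) (nat_lit 63) (nat_lit 5) (nat_lit 67) (nat_lit 5) (nat_lit 68) (nat_lit 5) (nat_lit 399) (nat_lit 345) (nat_lit 201)))) (XT.nd (nat_lit 188) (nat_lit 252) (nat_lit 0) (XT.nd (nat_lit 94) (nat_lit 0) (nat_lit 0) (XT.lf (nat_lit 0) (nat_lit 14140738755) (nat_lit 420) (nat_lit 11717961285) (nat_lit 84) (nat_lit 673589679) (nat_lit 63) (nat_lit 5) (nat_lit 68) (nat_lit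 5) (nat_lit 64) (nat_lit 5) (nat_lit 400) (nat_lit 345) (nat_lit 200)) (XT.lf (nat_lit 0) (nat_lit 18344971339) (nat_lit 420) (nat_lit 336207760) (nat_lit 84) (nat_lit 8400476242) (nat_lit 63) (nat_lit 5) (nat_lit 68) (nat_lit 5) (nat_lit 64) (nat_lit 5) (nat_lit 401) (nat_lit 345) (nat_lit 199))) (XT.nd (nat_lit 94) (nat_lit 0) (nat_lit 0) (XT.lf (nat_lit 0) (nat_lit 11604588910) (nat_lit 252) (nat_lit 11176059973) (nat_lit 336) (nat_lit 4863701153) (nat_lit 60) (nat_lit 5) (nat_lit 63) (nat_lit 5) (nat_lit 64) (nat_lit 5) (nat_lit 402) (nat_lit 345) (nat_lit 198)) (XT.lf (nat_lit 0) (nat_lit 23901731454) (nat_lit 252) (nat_lit 3444925141) (nat_lit 336) (nat_lit 877358608) (nat_lit 60) (nat_lit 5) (nat_lit 63) (nat_lit 5) (nat_lit 64) (nat_lit 5) (nat_lit 403) (nat_lit 345) (nat_lit 197))))))))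
noncomputable def xc151 : XT := (XT.nd (nat_lit 2632) (nat_lit 840) (nat_lit 0) (XT.nd (nat_lit 1316) (nat_lit 1092) (nat_lit 0) (XT.nd (nat_lit 658) (nat_lit 756) (nat_lit 0) (XT.nd (nat_lit 282) (nat_lit 252) (nat_lit 0) (XT.nd (nat_lit 94) (nat_lit 252) (nat_lit 0) (XT.lf (nat_lit 0) (nat_lit 3279571162) (nat_lit 420) (nat_lit 21002094772) (nat_lit 84) (nat_lit 4535060396) (nat_lit 55) (nat_lit 5) (nat_lit 60) (nat_lit 5) (nat_lit 56) (nat_lit 5) (nat_lit 404) (nat_lit 345) (nat_lit 196)) (XT.nd (nat_lit 94) (nat_lit 252) (nat_lit 0) (XT.lf (nat_lit 0) (nat_lit 7615807053) (nat_lit 420) (nat_lit 9073595600) (nat_lit 84) (nat_lit 12735395362) (nat_lit 55) (nat_lit 5) (nat_lit 60) (nat_lit 5) (nat_lit 56) (nat_lit 5) (nat_lit 405) (nat_lit 345) (nat_lit 195)) (XT.lf (nat_lit 0) (nat_lit 3268068111) (nat_lit 252) (nat_lit 8839695376) (nat_lit 336) (nat_lit 17942585957) (nat_lit 52) (nat_lit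 5) (nat_lit 55) (nat_lit 5) (nat_lit 56) (nat_lit 5) (nat_lit 406) (nat_lit 345) (nat_lit 194)))) (XT.nd (nat_lit 188) (nat_lit 252) (nat_lit 0) (XT.nd (nat_lit 94) (nat_lit 0) (nat_lit 0) (XT.lf (nat_lit 0) (nat_lit 16157602297) (nat_lit 252) (nat_lit 662808476) (nat_lit 336) (nat_lit 13871685081) (nat_lit 52) (nat_lit 5) (nat_lit 55) (nat_lit 5) (nat_lit 56) (nat_lit 5) (nat_lit 407) (nat_lit 345) (nat_lit 193)) (XT.lf (nat_lit 0) (nat_lit 21743472829) (nat_lit 336) (nat_lit 2002142276) (nat_lit 84) (nat_lit 7605414708) (nat_lit 52) (nat_lit 5) (nat_lit 56) (nat_lit 5) (nat_lit 53) (nat_lit 5) (nat_lit 408) (nat_lit 345) (nat_lit 192))) (XT.nd (nat_lit 94) (nat_lit 0) (nat_lit 0) (XT.lf (nat_lit 0) (nat_lit 11108339859) (nat_lit 252) (nat_lit 15813838627) (nat_lit 336) (nat_lit 5104320791) (nat_lit 49) (nat_lit 5) (nat_lit 52) (nat_lit 5) (nat_lit 53) (nat_lit 5) (nat_lit 409) (nat_lit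 345) (nat_lit 191)) (XT.lf (nat_lit 0) (nat_lit 24645216300) (nat_lit 252) (nat_lit 7625936323) (nat_lit 336) (nat_lit 450638841) (nat_lit 49) (nat_lit 5) (nat_lit 52) (nat_lit 5) (nat_lit 53) (nat_lit 5) (nat_lit 410) (nat_lit 345) (nat_lit 190))))) (XT.nd (nat_lit 282) (nat_lit 420) (nat_lit 0) (XT.nd (nat_lit 94) (nat_lit 0) (nat_lit 0) (XT.lf (nat_lit 0) (nat_lit 4311353342) (nat_lit 336) (nat_lit 28241811834) (nat_lit 84) (nat_lit 881927221) (nat_lit 45) (nat_lit 5) (nat_lit 49) (nat_lit 5) (nat_lit 46) (nat_lit 5) (nat_lit 411) (nat_lit 345) (nat_lit 189)) (XT.nd (nat_lit 94) (nat_lit 0) (nat_lit 0) (XT.lf (nat_lit 0) (nat_lit 9359856878) (nat_lit 336) (nat_lit 15229222155) (nat_lit 84) (nat_lit 9576003566) (nat_lit 45) (nat_lit 5) (nat_lit 49) (nat_lit 5) (nat_lit 46) (nat_lit 5) (nat_lit 412) (nat_lit 345) (nat_lit 188)) (XT.lf (nat_lit 0) (nat_lit 14554805411) (nat_lit 336) (nat_lit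 1833921553) (nat_lit 84) (nat_lit 18528401054) (nat_lit 45) (nat_lit 5) (nat_lit 49) (nat_lit 5) (nat_lit 46) (nat_lit 5) (nat_lit 413) (nat_lit 345) (nat_lit 187)))) (XT.nd (nat_lit 188) (nat_lit 168) (nat_lit 0) (XT.nd (nat_lit 94) (nat_lit 0) (nat_lit 0) (XT.lf (nat_lit 0) (nat_lit 12193738359) (nat_lit 252) (nat_lit 7824213527) (nat_lit 336) (nat_lit 15670417483) (nat_lit 42) (nat_lit 5) (nat_lit 45) (nat_lit 5) (nat_lit 46) (nat_lit 5) (nat_lit 414) (nat_lit 345) (nat_lit 186)) (XT.lf (nat_lit 0) (nat_lit 25668463031) (nat_lit 336) (nat_lit 9819634544) (nat_lit 84) (nat_lit 993951187) (nat_lit 42) (nat_lit 5) (nat_lit 46) (nat_lit 5) (nat_lit 43) (nat_lit 5) (nat_lit 415) (nat_lit 345) (nat_lit 185))) (XT.nd (nat_lit 94) (nat_lit 0) (nat_lit 0) (XT.lf (nat_lit 0) (nat_lit 4264075690) (nat_lit 168) (nat_lit 27338192385) (nat_lit 252) (nat_lit 5693861869) (nat_lit 40) (nat_lit 5) (nat_lit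 42) (nat_lit 5) (nat_lit 43) (nat_lit 5) (nat_lit 416) (nat_lit 345) (nat_lit 184)) (XT.lf (nat_lit 0) (nat_lit 18964385308) (nat_lit 168) (nat_lit 18844250210) (nat_lit 252) (nat_lit 323166223) (nat_lit 40) (nat_lit 5) (nat_lit 42) (nat_lit 5) (nat_lit 43) (nat_lit 5) (nat_lit 417) (nat_lit 345) (nat_lit 183)))))) (XT.nd (nat_lit 658) (nat_lit 420) (nat_lit 0) (XT.nd (nat_lit 282) (nat_lit 336) (nat_lit 0) (XT.nd (nat_lit 94) (nat_lit 252) (nat_lit 0) (XT.lf (nat_lit 0) (nat_lit 5102485525) (nat_lit 252) (nat_lit 4943997588) (nat_lit 84) (nat_lit 28944698635) (nat_lit 39) (nat_lit 5) (nat_lit 42) (nat_lit 5) (nat_lit 40) (nat_lit 5) (nat_lit 418) (nat_lit 345) (nat_lit 182)) (XT.nd (nat_lit 94) (nat_lit 0) (nat_lit 0) (XT.lf (nat_lit 0) (nat_lit 9889011497) (nat_lit 252) (nat_lit 886065800) (nat_lit 336) (nat_lit 29098454128) (nat_lit 36) (nat_lit 5) (nat_lit 39) (nat_lit 5) (nat_lit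 40) (nat_lit 5) (nat_lit 419) (nat_lit 345) (nat_lit 181)) (XT.lf (nat_lit 0) (nat_lit 16746090736) (nat_lit 336) (nat_lit 15602095562) (nat_lit 84) (nat_lit 8430322088) (nat_lit 36) (nat_lit 5) (nat_lit 40) (nat_lit 5) (nat_lit 37) (nat_lit 5) (nat_lit 420) (nat_lit 345) (nat_lit 180)))) (XT.nd (nat_lit 188) (nat_lit 168) (nat_lit 0) (XT.nd (nat_lit 94) (nat_lit 168) (nat_lit 0) (XT.lf (nat_lit 0) (nat_lit 22900779480) (nat_lit 336) (nat_lit 803695248) (nat_lit 84) (nat_lit 18006027571) (nat_lit 36) (nat_lit 5) (nat_lit 40) (nat_lit 5) (nat_lit 37) (nat_lit 5) (nat_lit 421) (nat_lit 345) (nat_lit 179)) (XT.lf (nat_lit 0) (nat_lit 14719356726) (nat_lit 168) (nat_lit 14658138740) (nat_lit 252) (nat_lit 13288842840) (nat_lit 34) (nat_lit 5) (nat_lit 36) (nat_lit 5) (nat_lit 37) (nat_lit 5) (nat_lit 422) (nat_lit 345) (nat_lit 178))) (XT.nd (nat_lit 94) (nat_lit 168) (nat_lit 0) (XT.lf (nat_lit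 0) (nat_lit 30718111211) (nat_lit 168) (nat_lit 5334470012) (nat_lit 252) (nat_lit 7598149885) (nat_lit 34) (nat_lit 5) (nat_lit 36) (nat_lit 5) (nat_lit 37) (nat_lit 5) (nat_lit 423) (nat_lit 345) (nat_lit 177)) (XT.lf (nat_lit 0) (nat_lit 2534214192) (nat_lit 168) (nat_lit 40455149018) (nat_lit 252) (nat_lit 1673452825) (nat_lit 32) (nat_lit 5) (nat_lit 34) (nat_lit 5) (nat_lit 35) (nat_lit 5) (nat_lit 424) (nat_lit 345) (nat_lit 176))))) (XT.nd (nat_lit 282) (nat_lit 168) (nat_lit 0) (XT.nd (nat_lit 94) (nat_lit 168) (nat_lit 0) (XT.lf (nat_lit 0) (nat_lit 4523323584) (nat_lit 252) (nat_lit 27074264098) (nat_lit 84) (nat_lit 14100979131) (nat_lit 31) (nat_lit 5) (nat_lit 34) (nat_lit 5) (nat_lit 32) (nat_lit 5) (nat_lit 425) (nat_lit 345) (nat_lit 175)) (XT.nd (nat_lit 94) (nat_lit 168) (nat_lit 0) (XT.lf (nat_lit 0) (nat_lit 10868543536) (nat_lit 252) (nat_lit 11591072906) (nat_lit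 84) (nat_lit 24305394700) (nat_lit 31) (nat_lit 5) (nat_lit 34) (nat_lit 5) (nat_lit 32) (nat_lit 5) (nat_lit 426) (nat_lit 345) (nat_lit 174)) (XT.lf (nat_lit 0) (nat_lit 4437172196) (nat_lit 168) (nat_lit 13005887104) (nat_lit 252) (nat_lit 30419224568) (nat_lit 29) (nat_lit 5) (nat_lit 31) (nat_lit 5) (nat_lit 32) (nat_lit 5) (nat_lit 427) (nat_lit 345) (nat_lit 173)))) (XT.nd (nat_lit 188) (nat_lit 168) (nat_lit 0) (XT.nd (nat_lit 94) (nat_lit 0) (nat_lit 0) (XT.lf (nat_lit 0) (nat_lit 21177902335) (nat_lit 168) (nat_lit 3150292509) (nat_lit 252) (nat_lit 24660881554) (nat_lit 29) (nat_lit 5) (nat_lit 31) (nat_lit 5) (nat_lit 32) (nat_lit 5) (nat_lit 428) (nat_lit 345) (nat_lit 172)) (XT.lf (nat_lit 0) (nat_lit 31483604429) (nat_lit 252) (nat_lit 11801998284) (nat_lit 84) (nat_lit 6862161451) (nat_lit 29) (nat_lit 5) (nat_lit 32) (nat_lit 5) (nat_lit 30) (nat_lit 5) (nat_lit 429) (nat_lit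 345) (nat_lit 171))) (XT.nd (nat_lit 94) (nat_lit 0) (nat_lit 0) (XT.lf (nat_lit 0) (nat_lit 4743105809) (nat_lit 168) (nat_lit 34183881711) (nat_lit 252) (nat_lit 12412028675) (nat_lit 27) (nat_lit 5) (nat_lit 29) (nat_lit 5) (nat_lit 30) (nat_lit 5) (nat_lit 430) (nat_lit 345) (nat_lit 170)) (XT.lf (nat_lit 0) (nat_lit 22020837388) (nat_lit 168) (nat_lit 24688585136) (nat_lit 252) (nat_lit 5853113633) (nat_lit 27) (nat_lit 5) (nat_lit 29) (nat_lit 5) (nat_lit 30) (nat_lit 5) (nat_lit 431) (nat_lit 345) (nat_lit 169))))))) (XT.nd (nat_lit 1316) (nat_lit 84) (nat_lit 0) (XT.nd (nat_lit 658) (nat_lit 336) (nat_lit 0) (XT.nd (nat_lit 282) (nat_lit 168) (nat_lit 0) (XT.nd (nat_lit 94) (nat_lit 168) (nat_lit 0) (XT.lf (nat_lit 0) (nat_lit 881593990) (nat_lit 252) (nat_lit 14020096808) (nat_lit 84) (nat_lit 38920914232) (nat_lit 26) (nat_lit 5) (nat_lit 29) (nat_lit 5) (nat_lit 27) (nat_lit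 5) (nat_lit 432) (nat_lit 345) (nat_lit 168)) (XT.nd (nat_lit 94) (nat_lit 0) (nat_lit 0) (XT.lf (nat_lit 0) (nat_lit 2992192015) (nat_lit 168) (nat_lit 4734007255) (nat_lit 252) (nat_lit 47391775842) (nat_lit 24) (nat_lit 5) (nat_lit 26) (nat_lit 5) (nat_lit 27) (nat_lit 5) (nat_lit 433) (nat_lit 345) (nat_lit 167)) (XT.lf (nat_lit 0) (nat_lit 14971042616) (nat_lit 252) (nat_lit 35707700852) (nat_lit 84) (nat_lit 5767618392) (nat_lit 24) (nat_lit 5) (nat_lit 27) (nat_lit 5) (nat_lit 25) (nat_lit 5) (nat_lit 434) (nat_lit 345) (nat_lit 166)))) (XT.nd (nat_lit 188) (nat_lit 168) (nat_lit 0) (XT.nd (nat_lit 94) (nat_lit 0) (nat_lit 0) (XT.lf (nat_lit 0) (nat_lit 22476955748) (nat_lit 252) (nat_lit 18849213388) (nat_lit 84) (nat_lit 16487121828) (nat_lit 24) (nat_lit 5) (nat_lit 27) (nat_lit 5) (nat_lit 25) (nat_lit 5) (nat_lit 435) (nat_lit 345) (nat_lit 165)) (XT.lf (nat_lit 0) (nat_lit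 30204991059) (nat_lit 252) (nat_lit 1490083813) (nat_lit 84) (nat_lit 27526247140) (nat_lit 24) (nat_lit 5) (nat_lit 27) (nat_lit 5) (nat_lit 25) (nat_lit 5) (nat_lit 436) (nat_lit 345) (nat_lit 164))) (XT.nd (nat_lit 94) (nat_lit 0) (nat_lit 0) (XT.lf (nat_lit 0) (nat_lit 16710946805) (nat_lit 168) (nat_lit 21611590238) (nat_lit 252) (nat_lit 22344329204) (nat_lit 22) (nat_lit 5) (nat_lit 24) (nat_lit 5) (nat_lit 25) (nat_lit 5) (nat_lit 437) (nat_lit 345) (nat_lit 163)) (XT.lf (nat_lit 0) (nat_lit 35483638657) (nat_lit 168) (nat_lit 11212090595) (nat_lit 252) (nat_lit 15459686238) (nat_lit 22) (nat_lit 5) (nat_lit 24) (nat_lit 5) (nat_lit 25) (nat_lit 5) (nat_lit 438) (nat_lit 345) (nat_lit 162))))) (XT.nd (nat_lit 282) (nat_lit 168) (nat_lit 0) (XT.nd (nat_lit 94) (nat_lit 168) (nat_lit 0) (XT.lf (nat_lit 0) (nat_lit 54814739476) (nat_lit 168) (nat_lit 502535926) (nat_lit 252) (nat_lit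 8371433271) (nat_lit 22) (nat_lit 5) (nat_lit 24) (nat_lit 5) (nat_lit 25) (nat_lit 5) (nat_lit 439) (nat_lit 345) (nat_lit 161)) (XT.nd (nat_lit 94) (nat_lit 84) (nat_lit 0) (XT.lf (nat_lit 0) (nat_lit 9537988962) (nat_lit 84) (nat_lit 54849591408) (nat_lit 168) (nat_lit 874719056) (nat_lit 21) (nat_lit 5) (nat_lit 22) (nat_lit 5) (nat_lit 23) (nat_lit 4) (nat_lit 440) (nat_lit 345) (nat_lit 160)) (XT.lf (nat_lit 0) (nat_lit 6805991394) (nat_lit 168) (nat_lit 38272586247) (nat_lit 84) (nat_lit 21799766712) (nat_lit 20) (nat_lit 5) (nat_lit 22) (nat_lit 5) (nat_lit 21) (nat_lit 5) (nat_lit 441) (nat_lit 345) (nat_lit 159)))) (XT.nd (nat_lit 188) (nat_lit 168) (nat_lit 0) (XT.nd (nat_lit 94) (nat_lit 0) (nat_lit 0) (XT.lf (nat_lit 0) (nat_lit 14696852762) (nat_lit 168) (nat_lit 20310544468) (nat_lit 84) (nat_lit 33535296227) (nat_lit 20) (nat_lit 5) (nat_lit 22) (nat_lit 5) (nat_lit 21)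 (nat_lit 5) (nat_lit 442) (nat_lit 345) (nat_lit 158)) (XT.lf (nat_lit 0) (nat_lit 22821828893) (nat_lit 168) (nat_lit 1814081803) (nat_lit 84) (nat_lit 45621142576) (nat_lit 20) (nat_lit 5) (nat_lit 22) (nat_lit 5) (nat_lit 21) (nat_lit 5) (nat_lit 443) (nat_lit 345) (nat_lit 157))) (XT.nd (nat_lit 94) (nat_lit 0) (nat_lit 0) (XT.lf (nat_lit 0) (nat_lit 17575933471) (nat_lit 168) (nat_lit 13781036432) (nat_lit 252) (nat_lit 40660883359) (nat_lit 18) (nat_lit 5) (nat_lit 20) (nat_lit 5) (nat_lit 21) (nat_lit 5) (nat_lit 444) (nat_lit 345) (nat_lit 156)) (XT.lf (nat_lit 0) (nat_lit 37580567331) (nat_lit 168) (nat_lit 2583414258) (nat_lit 252) (nat_lit 33667022969) (nat_lit 18) (nat_lit 5) (nat_lit 20) (nat_lit 5) (nat_lit 21) (nat_lit 5) (nat_lit 445) (nat_lit 345) (nat_lit 155)))))) (XT.nd (nat_lit 50384) (nat_lit 0) (nat_lit 13524) (XT.nd (nat_lit 50008) (nat_lit 0) (nat_lit 13524) (XT.nd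 (nat_lit 94) (nat_lit 84) (nat_lit 0) (XT.lf (nat_lit 0) (nat_lit 49318791981) (nat_lit 252) (nat_lit 17603446951) (nat_lit 84) (nat_lit 8773805553) (nat_lit 18) (nat_lit 5) (nat_lit 21) (nat_lit 5) (nat_lit 19) (nat_lit 4) (nat_lit 446) (nat_lit 345) (nat_lit 154)) (XT.nd (nat_lit 49820) (nat_lit 0) (nat_lit 14616) (XT.lf (nat_lit 0) (nat_lit 1604606148) (nat_lit 84) (nat_lit 57182268758) (nat_lit 168) (nat_lit 18829003551) (nat_lit 17) (nat_lit 5) (nat_lit 18) (nat_lit 5) (nat_lit 19) (nat_lit 4) (nat_lit 447) (nat_lit 345) (nat_lit 153)) (XT.lf (nat_lit 0) (nat_lit 2118877158) (nat_lit 0) (nat_lit 2118877158) (nat_lit 1092) (nat_lit 1097802426) (nat_lit 191) (nat_lit 5) (nat_lit 191) (nat_lit 3) (nat_lit 204) (nat_lit 3) (nat_lit 346) (nat_lit 346) (nat_lit 253)))) (XT.nd (nat_lit 188) (nat_lit 1092) (nat_lit 0) (XT.nd (nat_lit 94) (nat_lit 0) (nat_lit 0) (XT.lf (nat_lit 0) (nat_lit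 9013024815) (nat_lit 0) (nat_lit 152395723) (nat_lit 1092) (nat_lit 1647755512) (nat_lit 191) (nat_lit 5) (nat_lit 191) (nat_lit 3) (nat_lit 204) (nat_lit 3) (nat_lit 347) (nat_lit 346) (nat_lit 252)) (XT.lf (nat_lit 84) (nat_lit 2979417870) (nat_lit 0) (nat_lit 6942377955) (nat_lit 1176) (nat_lit 1036375426) (nat_lit 192) (nat_lit 5) (nat_lit 191) (nat_lit 5) (nat_lit 205) (nat_lit 5) (nat_lit 348) (nat_lit 346) (nat_lit 251))) (XT.nd (nat_lit 94) (nat_lit 1092) (nat_lit 0) (XT.lf (nat_lit 84) (nat_lit 7926062009) (nat_lit 0) (nat_lit 2773138719) (nat_lit 1176) (nat_lit 408407894) (nat_lit 192) (nat_lit 5) (nat_lit 191) (nat_lit 5) (nat_lit 205) (nat_lit 5) (nat_lit 349) (nat_lit 346) (nat_lit 250)) (XT.lf (nat_lit 0) (nat_lit 244804207) (nat_lit 1176) (nat_lit 9496286591) (nat_lit 1260) (nat_lit 1520077870) (nat_lit 178) (nat_lit 5) (nat_lit 192) (nat_lit 5) (nat_lit 193) (nat_lit 5)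 (nat_lit 350) (nat_lit 346) (nat_lit 249))))) (XT.nd (nat_lit 282) (nat_lit 0) (nat_lit 84) (XT.nd (nat_lit 94) (nat_lit 0) (nat_lit 0) (XT.lf (nat_lit 0) (nat_lit 948931150) (nat_lit 1176) (nat_lit 4537681089) (nat_lit 1260) (nat_lit 5931455018) (nat_lit 178) (nat_lit 5) (nat_lit 192) (nat_lit 5) (nat_lit 193) (nat_lit 5) (nat_lit 351) (nat_lit 346) (nat_lit 248)) (XT.nd (nat_lit 94) (nat_lit 0) (nat_lit 84) (XT.lf (nat_lit 84) (nat_lit 568729018) (nat_lit 0) (nat_lit 1091138086) (nat_lit 1260) (nat_lit 9920272873) (nat_lit 179) (nat_lit 5) (nat_lit 178) (nat_lit 5) (nat_lit 193) (nat_lit 5) (nat_lit 352) (nat_lit 346) (nat_lit 247)) (XT.lf (nat_lit 0) (nat_lit 2452188055) (nat_lit 1176) (nat_lit 5870455935) (nat_lit 1260) (nat_lit 3422665813) (nat_lit 179) (nat_lit 5) (nat_lit 193) (nat_lit 5) (nat_lit 194) (nat_lit 5) (nat_lit 353) (nat_lit 346) (nat_lit 246)))) (XT.nd (nat_lit 188)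 (nat_lit 0) (nat_lit 84) (XT.nd (nat_lit 94) (nat_lit 0) (nat_lit 84) (XT.lf (nat_lit 0) (nat_lit 3260393338) (nat_lit 1176) (nat_lit 598328625) (nat_lit 1260) (nat_lit 8056984885) (nat_lit 179) (nat_lit 5) (nat_lit 193) (nat_lit 5) (nat_lit 194) (nat_lit 5) (nat_lit 354) (nat_lit 346) (nat_lit 245)) (XT.lf (nat_lit 0) (nat_lit 4129588807) (nat_lit 1176) (nat_lit 7182014644) (nat_lit 1260) (nat_lit 778544561) (nat_lit 180) (nat_lit 5) (nat_lit 194) (nat_lit 5) (nat_lit 195) (nat_lit 5) (nat_lit 355) (nat_lit 346) (nat_lit 244))) (XT.nd (nat_lit 94) (nat_lit 0) (nat_lit 0) (XT.lf (nat_lit 0) (nat_lit 5051495195) (nat_lit 1176) (nat_lit 1728253862) (nat_lit 1260) (nat_lit 5489307826) (nat_lit 180) (nat_lit 5) (nat_lit 194) (nat_lit 5) (nat_lit 195) (nat_lit 5) (nat_lit 356) (nat_lit 346) (nat_lit 243)) (XT.lf (nat_lit 84) (nat_lit 3954240350) (nat_lit 0) (nat_lit 2067671835) (nat_lit 1260)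 (nat_lit 6430827777) (nat_lit 181) (nat_lit 5) (nat_lit 180) (nat_lit 5) (nat_lit 195) (nat_lit 5) (nat_lit 357) (nat_lit 346) (nat_lit 242))))))))
noncomputable def xc152 : XT := (XT.nd (nat_lit 2538) (nat_lit 4620) (nat_lit 0) (XT.nd (nat_lit 1222) (nat_lit 3276) (nat_lit 0) (XT.nd (nat_lit 564) (nat_lit 2520) (nat_lit 0) (XT.nd (nat_lit 282) (nat_lit 1008) (nat_lit 0) (XT.nd (nat_lit 94) (nat_lit 0) (nat_lit 0) (XT.lf (nat_lit 0) (nat_lit 7049119519) (nat_lit 1176) (nat_lit 2838228566) (nat_lit 1260) (nat_lit 2753786715) (nat_lit 181) (nat_lit 5) (nat_lit 195) (nat_lit 5) (nat_lit 196) (nat_lit 5) (nat_lit 358) (nat_lit 346) (nat_lit 241)) (XT.nd (nat_lit 94) (nat_lit 0) (nat_lit 0) (XT.lf (nat_lit 84) (nat_lit 3018133273) (nat_lit 0) (nat_lit 5122255653) (nat_lit 1260) (nat_lit 4693825860) (nat_lit 182) (nat_lit 5) (nat_lit 181) (nat_lit 5) (nat_lit 196) (nat_lit 5) (nat_lit 359) (nat_lit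 346) (nat_lit 240)) (XT.lf (nat_lit 84) (nat_lit 9096345897) (nat_lit 0) (nat_lit 180830177) (nat_lit 1260) (nat_lit 3755557490) (nat_lit 182) (nat_lit 5) (nat_lit 181) (nat_lit 5) (nat_lit 196) (nat_lit 5) (nat_lit 360) (nat_lit 346) (nat_lit 239)))) (XT.nd (nat_lit 94) (nat_lit 1092) (nat_lit 0) (XT.lf (nat_lit 84) (nat_lit 2101316147) (nat_lit 0) (nat_lit 8398754274) (nat_lit 1260) (nat_lit 2735606297) (nat_lit 183) (nat_lit 5) (nat_lit 182) (nat_lit 5) (nat_lit 197) (nat_lit 5) (nat_lit 361) (nat_lit 346) (nat_lit 238)) (XT.nd (nat_lit 94) (nat_lit 1092) (nat_lit 0) (XT.lf (nat_lit 84) (nat_lit 8386938388) (nat_lit 0) (nat_lit 3399185462) (nat_lit 1260) (nat_lit 1657818223) (nat_lit 183) (nat_lit 5) (nat_lit 182) (nat_lit 5) (nat_lit 197) (nat_lit 5) (nat_lit 362) (nat_lit 346) (nat_lit 237)) (XT.lf (nat_lit 0) (nat_lit 1196985484) (nat_lit 1176) (nat_lit 11927520890) (nat_lit 1260)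 (nat_lit 533563846) (nat_lit 169) (nat_lit 5) (nat_lit 183) (nat_lit 5) (nat_lit 184) (nat_lit 5) (nat_lit 363) (nat_lit 346) (nat_lit 236))))) (XT.nd (nat_lit 282) (nat_lit 1176) (nat_lit 0) (XT.nd (nat_lit 94) (nat_lit 1260) (nat_lit 0) (XT.lf (nat_lit 0) (nat_lit 683017120) (nat_lit 1260) (nat_lit 6187409107) (nat_lit 84) (nat_lit 7005918102) (nat_lit 168) (nat_lit 5) (nat_lit 183) (nat_lit 5) (nat_lit 169) (nat_lit 5) (nat_lit 364) (nat_lit 346) (nat_lit 235)) (XT.nd (nat_lit 94) (nat_lit 0) (nat_lit 0) (XT.lf (nat_lit 0) (nat_lit 262259549) (nat_lit 1260) (nat_lit 1651610416) (nat_lit 1344) (nat_lit 12187508199) (nat_lit 153) (nat_lit 5) (nat_lit 168) (nat_lit 5) (nat_lit 169) (nat_lit 5) (nat_lit 365) (nat_lit 346) (nat_lit 234)) (XT.lf (nat_lit 0) (nat_lit 3266831383) (nat_lit 1344) (nat_lit 7347835519) (nat_lit 84) (nat_lit 3715964841) (nat_lit 153) (nat_lit 5) (nat_lit 169) (nat_lit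 5) (nat_lit 154) (nat_lit 5) (nat_lit 366) (nat_lit 346) (nat_lit 233)))) (XT.nd (nat_lit 188) (nat_lit 588) (nat_lit 0) (XT.nd (nat_lit 94) (nat_lit 588) (nat_lit 0) (XT.lf (nat_lit 0) (nat_lit 4663422098) (nat_lit 1344) (nat_lit 690192949) (nat_lit 84) (nat_lit 9213080181) (nat_lit 153) (nat_lit 5) (nat_lit 169) (nat_lit 5) (nat_lit 154) (nat_lit 5) (nat_lit 367) (nat_lit 346) (nat_lit 232)) (XT.lf (nat_lit 0) (nat_lit 6150571112) (nat_lit 672) (nat_lit 8531668326) (nat_lit 84) (nat_lit 126164190) (nat_lit 146) (nat_lit 5) (nat_lit 154) (nat_lit 5) (nat_lit 147) (nat_lit 5) (nat_lit 368) (nat_lit 346) (nat_lit 231))) (XT.nd (nat_lit 94) (nat_lit 588) (nat_lit 0) (XT.lf (nat_lit 0) (nat_lit 7729730745) (nat_lit 672) (nat_lit 1655383777) (nat_lit 84) (nat_lit 5670849036) (nat_lit 146) (nat_lit 5) (nat_lit 154) (nat_lit 5) (nat_lit 147) (nat_lit 5) (nat_lit 369) (nat_lit 346) (nat_lit 230))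 (XT.lf (nat_lit 0) (nat_lit 5523344241) (nat_lit 588) (nat_lit 3873734551) (nat_lit 672) (nat_lit 5912668602) (nat_lit 139) (nat_lit 5) (nat_lit 146) (nat_lit 5) (nat_lit 147) (nat_lit 5) (nat_lit 370) (nat_lit 346) (nat_lit 229)))))) (XT.nd (nat_lit 658) (nat_lit 1512) (nat_lit 0) (XT.nd (nat_lit 282) (nat_lit 1176) (nat_lit 0) (XT.nd (nat_lit 94) (nat_lit 588) (nat_lit 0) (XT.lf (nat_lit 0) (nat_lit 11136632225) (nat_lit 672) (nat_lit 2648670668) (nat_lit 84) (nat_lit 1785197194) (nat_lit 139) (nat_lit 5) (nat_lit 147) (nat_lit 5) (nat_lit 140) (nat_lit 5) (nat_lit 371) (nat_lit 346) (nat_lit 228)) (XT.nd (nat_lit 94) (nat_lit 0) (nat_lit 0) (XT.lf (nat_lit 0) (nat_lit 4745897764) (nat_lit 588) (nat_lit 8254771006) (nat_lit 672) (nat_lit 2836257979) (nat_lit 132) (nat_lit 5) (nat_lit 139) (nat_lit 5) (nat_lit 140) (nat_lit 5) (nat_lit 372) (nat_lit 346) (nat_lit 227)) (XT.lf (nat_lit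 0) (nat_lit 12405159876) (nat_lit 588) (nat_lit 2530765318) (nat_lit 672) (nat_lit 1174981743) (nat_lit 132) (nat_lit 5) (nat_lit 139) (nat_lit 5) (nat_lit 140) (nat_lit 5) (nat_lit 373) (nat_lit 346) (nat_lit 226)))) (XT.nd (nat_lit 188) (nat_lit 504) (nat_lit 0) (XT.nd (nat_lit 94) (nat_lit 0) (nat_lit 0) (XT.lf (nat_lit 0) (nat_lit 585285326) (nat_lit 672) (nat_lit 12463035400) (nat_lit 84) (nat_lit 3342861325) (nat_lit 124) (nat_lit 5) (nat_lit 132) (nat_lit 5) (nat_lit 125) (nat_lit 5) (nat_lit 374) (nat_lit 346) (nat_lit 225)) (XT.lf (nat_lit 0) (nat_lit 2426567252) (nat_lit 672) (nat_lit 4860365613) (nat_lit 84) (nat_lit 9391046885) (nat_lit 124) (nat_lit 5) (nat_lit 132) (nat_lit 5) (nat_lit 125) (nat_lit 5) (nat_lit 375) (nat_lit 346) (nat_lit 224))) (XT.nd (nat_lit 94) (nat_lit 0) (nat_lit 0) (XT.lf (nat_lit 0) (nat_lit 3018031188) (nat_lit 504) (nat_lit 1323363191) (nat_lit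 588) (nat_lit 12631455293) (nat_lit 118) (nat_lit 5) (nat_lit 124) (nat_lit 5) (nat_lit 125) (nat_lit 5) (nat_lit 376) (nat_lit 346) (nat_lit 223)) (XT.lf (nat_lit 0) (nat_lit 6399050902) (nat_lit 588) (nat_lit 6100952223) (nat_lit 84) (nat_lit 4774018015) (nat_lit 118) (nat_lit 5) (nat_lit 125) (nat_lit 5) (nat_lit 119) (nat_lit 5) (nat_lit 377) (nat_lit 346) (nat_lit 222))))) (XT.nd (nat_lit 282) (nat_lit 588) (nat_lit 0) (XT.nd (nat_lit 94) (nat_lit 420) (nat_lit 0) (XT.lf (nat_lit 0) (nat_lit 2003393314) (nat_lit 504) (nat_lit 6537204456) (nat_lit 588) (nat_lit 9042981655) (nat_lit 112) (nat_lit 5) (nat_lit 118) (nat_lit 5) (nat_lit 119) (nat_lit 5) (nat_lit 378) (nat_lit 346) (nat_lit 221)) (XT.nd (nat_lit 94) (nat_lit 420) (nat_lit 0) (XT.lf (nat_lit 0) (nat_lit 10464914327) (nat_lit 504) (nat_lit 333075740) (nat_lit 588) (nat_lit 7102902432) (nat_lit 112) (nat_lit 5) (nat_lit 118)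 (nat_lit 5) (nat_lit 119) (nat_lit 5) (nat_lit 379) (nat_lit 346) (nat_lit 220)) (XT.lf (nat_lit 0) (nat_lit 900915686) (nat_lit 420) (nat_lit 12279347345) (nat_lit 504) (nat_lit 5045762710) (nat_lit 107) (nat_lit 5) (nat_lit 112) (nat_lit 5) (nat_lit 113) (nat_lit 5) (nat_lit 380) (nat_lit 346) (nat_lit 219)))) (XT.nd (nat_lit 188) (nat_lit 588) (nat_lit 0) (XT.nd (nat_lit 94) (nat_lit 0) (nat_lit 0) (XT.lf (nat_lit 0) (nat_lit 9626095867) (nat_lit 420) (nat_lit 6076714664) (nat_lit 504) (nat_lit 2856053351) (nat_lit 107) (nat_lit 5) (nat_lit 112) (nat_lit 5) (nat_lit 113) (nat_lit 5) (nat_lit 381) (nat_lit 346) (nat_lit 218)) (XT.lf (nat_lit 0) (nat_lit 18294751255) (nat_lit 504) (nat_lit 302505303) (nat_lit 84) (nat_lit 304633758) (nat_lit 107) (nat_lit 5) (nat_lit 113) (nat_lit 5) (nat_lit 108) (nat_lit 5) (nat_lit 382) (nat_lit 346) (nat_lit 217))) (XT.nd (nat_lit 94) (nat_lit 0)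 (nat_lit 0) (XT.lf (nat_lit 0) (nat_lit 1811851729) (nat_lit 588) (nat_lit 10583495963) (nat_lit 84) (nat_lit 6855301877) (nat_lit 100) (nat_lit 5) (nat_lit 107) (nat_lit 5) (nat_lit 101) (nat_lit 5) (nat_lit 383) (nat_lit 346) (nat_lit 216)) (XT.lf (nat_lit 0) (nat_lit 4285343408) (nat_lit 588) (nat_lit 1714340854) (nat_lit 84) (nat_lit 13610196387) (nat_lit 100) (nat_lit 5) (nat_lit 107) (nat_lit 5) (nat_lit 101) (nat_lit 5) (nat_lit 384) (nat_lit 346) (nat_lit 215))))))) (XT.nd (nat_lit 1316) (nat_lit 1848) (nat_lit 0) (XT.nd (nat_lit 658) (nat_lit 1092) (nat_lit 0) (XT.nd (nat_lit 282) (nat_lit 840) (nat_lit 0) (XT.nd (nat_lit 94) (nat_lit 420) (nat_lit 0) (XT.lf (nat_lit 0) (nat_lit 6903356841) (nat_lit 504) (nat_lit 12426276727) (nat_lit 84) (nat_lit 648158600) (nat_lit 95) (nat_lit 5) (nat_lit 101) (nat_lit 5) (nat_lit 96) (nat_lit 5) (nat_lit 385) (nat_lit 346) (nat_lit 214)) (XT.nd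 (nat_lit 94) (nat_lit 420) (nat_lit 0) (XT.lf (nat_lit 0) (nat_lit 9668245007) (nat_lit 504) (nat_lit 3295770957) (nat_lit 84) (nat_lit 7390687678) (nat_lit 95) (nat_lit 5) (nat_lit 101) (nat_lit 5) (nat_lit 96) (nat_lit 5) (nat_lit 386) (nat_lit 346) (nat_lit 213)) (XT.lf (nat_lit 0) (nat_lit 6219861907) (nat_lit 420) (nat_lit 6347704731) (nat_lit 504) (nat_lit 8173823489) (nat_lit 90) (nat_lit 5) (nat_lit 95) (nat_lit 5) (nat_lit 96) (nat_lit 5) (nat_lit 387) (nat_lit 346) (nat_lit 212)))) (XT.nd (nat_lit 188) (nat_lit 504) (nat_lit 0) (XT.nd (nat_lit 94) (nat_lit 336) (nat_lit 0) (XT.lf (nat_lit 0) (nat_lit 15583792784) (nat_lit 504) (nat_lit 5065273188) (nat_lit 84) (nat_lit 489725403) (nat_lit 90) (nat_lit 5) (nat_lit 96) (nat_lit 5) (nat_lit 91) (nat_lit 5) (nat_lit 388) (nat_lit 346) (nat_lit 211)) (XT.lf (nat_lit 0) (nat_lit 4693407468) (nat_lit 336) (nat_lit 14097125347) (nat_lit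 420) (nat_lit 2754592599) (nat_lit 86) (nat_lit 5) (nat_lit 90) (nat_lit 5) (nat_lit 91) (nat_lit 5) (nat_lit 389) (nat_lit 346) (nat_lit 210))) (XT.nd (nat_lit 94) (nat_lit 420) (nat_lit 0) (XT.lf (nat_lit 0) (nat_lit 171058364) (nat_lit 420) (nat_lit 7125256352) (nat_lit 84) (nat_lit 14665995237) (nat_lit 85) (nat_lit 5) (nat_lit 90) (nat_lit 5) (nat_lit 86) (nat_lit 5) (nat_lit 390) (nat_lit 346) (nat_lit 209)) (XT.lf (nat_lit 0) (nat_lit 2912789527) (nat_lit 420) (nat_lit 236664452) (nat_lit 504) (nat_lit 19241138246) (nat_lit 80) (nat_lit 5) (nat_lit 85) (nat_lit 5) (nat_lit 86) (nat_lit 5) (nat_lit 391) (nat_lit 346) (nat_lit 208))))) (XT.nd (nat_lit 282) (nat_lit 756) (nat_lit 0) (XT.nd (nat_lit 94) (nat_lit 336) (nat_lit 0) (XT.lf (nat_lit 0) (nat_lit 6349937116) (nat_lit 504) (nat_lit 9509756880) (nat_lit 84) (nat_lit 6968057176) (nat_lit 80) (nat_lit 5) (nat_lit 86) (nat_lit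 5) (nat_lit 81) (nat_lit 5) (nat_lit 392) (nat_lit 346) (nat_lit 207)) (XT.nd (nat_lit 94) (nat_lit 0) (nat_lit 0) (XT.lf (nat_lit 0) (nat_lit 760214782) (nat_lit 336) (nat_lit 8888540325) (nat_lit 420) (nat_lit 13629210149) (nat_lit 76) (nat_lit 5) (nat_lit 80) (nat_lit 5) (nat_lit 81) (nat_lit 5) (nat_lit 393) (nat_lit 346) (nat_lit 206)) (XT.lf (nat_lit 0) (nat_lit 11523713628) (nat_lit 336) (nat_lit 1611645475) (nat_lit 420) (nat_lit 10603671702) (nat_lit 76) (nat_lit 5) (nat_lit 80) (nat_lit 5) (nat_lit 81) (nat_lit 5) (nat_lit 394) (nat_lit 346) (nat_lit 205)))) (XT.nd (nat_lit 188) (nat_lit 420) (nat_lit 0) (XT.nd (nat_lit 94) (nat_lit 336) (nat_lit 0) (XT.lf (nat_lit 0) (nat_lit 16776097576) (nat_lit 420) (nat_lit 1669800670) (nat_lit 84) (nat_lit 5766553388) (nat_lit 76) (nat_lit 5) (nat_lit 81) (nat_lit 5) (nat_lit 77) (nat_lit 5) (nat_lit 395) (nat_lit 346) (nat_lit 204)) (XT.lf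 (nat_lit 0) (nat_lit 9349406353) (nat_lit 336) (nat_lit 11275665431) (nat_lit 420) (nat_lit 4072042027) (nat_lit 72) (nat_lit 5) (nat_lit 76) (nat_lit 5) (nat_lit 77) (nat_lit 5) (nat_lit 396) (nat_lit 346) (nat_lit 203))) (XT.nd (nat_lit 94) (nat_lit 420) (nat_lit 0) (XT.lf (nat_lit 0) (nat_lit 20724349969) (nat_lit 336) (nat_lit 3875322779) (nat_lit 420) (nat_lit 596347244) (nat_lit 72) (nat_lit 5) (nat_lit 76) (nat_lit 5) (nat_lit 77) (nat_lit 5) (nat_lit 397) (nat_lit 346) (nat_lit 202)) (XT.lf (nat_lit 0) (nat_lit 3021363007) (nat_lit 420) (nat_lit 18917971535) (nat_lit 84) (nat_lit 3766827789) (nat_lit 67) (nat_lit 5) (nat_lit 72) (nat_lit 5) (nat_lit 68) (nat_lit 5) (nat_lit 398) (nat_lit 346) (nat_lit 201)))))) (XT.nd (nat_lit 658) (nat_lit 840) (nat_lit 0) (XT.nd (nat_lit 282) (nat_lit 672) (nat_lit 0) (XT.nd (nat_lit 94) (nat_lit 336) (nat_lit 0) (XT.lf (nat_lit 0) (nat_lit 6813092170)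 (nat_lit 420) (nat_lit 7806498927) (nat_lit 84) (nat_lit 11609524614) (nat_lit 67) (nat_lit 5) (nat_lit 72) (nat_lit 5) (nat_lit 68) (nat_lit 5) (nat_lit 399) (nat_lit 346) (nat_lit 200)) (XT.nd (nat_lit 94) (nat_lit 0) (nat_lit 0) (XT.lf (nat_lit 0) (nat_lit 3701780213) (nat_lit 336) (nat_lit 7046067918) (nat_lit 420) (nat_lit 16019039192) (nat_lit 63) (nat_lit 5) (nat_lit 67) (nat_lit 5) (nat_lit 68) (nat_lit 5) (nat_lit 400) (nat_lit 346) (nat_lit 199)) (XT.lf (nat_lit 0) (nat_lit 14881279440) (nat_lit 420) (nat_lit 11619985419) (nat_lit 84) (nat_lit 817115889) (nat_lit 63) (nat_lit 5) (nat_lit 68) (nat_lit 5) (nat_lit 64) (nat_lit 5) (nat_lit 401) (nat_lit 346) (nat_lit 198)))) (XT.nd (nat_lit 188) (nat_lit 420) (nat_lit 0) (XT.nd (nat_lit 94) (nat_lit 0) (nat_lit 0) (XT.lf (nat_lit 0) (nat_lit 91921775) (nat_lit 252) (nat_lit 19111387674) (nat_lit 336) (nat_lit 8681179080) (nat_lit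 60) (nat_lit 5) (nat_lit 63) (nat_lit 5) (nat_lit 64) (nat_lit 5) (nat_lit 402) (nat_lit 346) (nat_lit 197)) (XT.lf (nat_lit 0) (nat_lit 12384869974) (nat_lit 252) (nat_lit 11381512949) (nat_lit 336) (nat_lit 4697862351) (nat_lit 60) (nat_lit 5) (nat_lit 63) (nat_lit 5) (nat_lit 64) (nat_lit 5) (nat_lit 403) (nat_lit 346) (nat_lit 196))) (XT.nd (nat_lit 94) (nat_lit 420) (nat_lit 0) (XT.lf (nat_lit 0) (nat_lit 25038340093) (nat_lit 252) (nat_lit 3422225494) (nat_lit 336) (nat_lit 601009621) (nat_lit 60) (nat_lit 5) (nat_lit 63) (nat_lit 5) (nat_lit 64) (nat_lit 5) (nat_lit 404) (nat_lit 346) (nat_lit 195)) (XT.lf (nat_lit 0) (nat_lit 3671375712) (nat_lit 420) (nat_lit 21202668977) (nat_lit 84) (nat_lit 4798046124) (nat_lit 55) (nat_lit 5) (nat_lit 60) (nat_lit 5) (nat_lit 56) (nat_lit 5) (nat_lit 405) (nat_lit 346) (nat_lit 194))))) (XT.nd (nat_lit 282) (nat_lit 588) (nat_lit 0) (XT.nd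 (nat_lit 94) (nat_lit 252) (nat_lit 0) (XT.lf (nat_lit 0) (nat_lit 8129152541) (nat_lit 420) (nat_lit 8928824208) (nat_lit 84) (nat_lit 13240694035) (nat_lit 55) (nat_lit 5) (nat_lit 60) (nat_lit 5) (nat_lit 56) (nat_lit 5) (nat_lit 406) (nat_lit 346) (nat_lit 193)) (XT.nd (nat_lit 94) (nat_lit 0) (nat_lit 0) (XT.lf (nat_lit 0) (nat_lit 3779001382) (nat_lit 252) (nat_lit 8972538027) (nat_lit 336) (nat_lit 18191588661) (nat_lit 52) (nat_lit 5) (nat_lit 55) (nat_lit 5) (nat_lit 56) (nat_lit 5) (nat_lit 407) (nat_lit 346) (nat_lit 192)) (XT.lf (nat_lit 0) (nat_lit 17043195636) (nat_lit 252) (nat_lit 554199322) (nat_lit 336) (nat_lit 14006986240) (nat_lit 52) (nat_lit 5) (nat_lit 55) (nat_lit 5) (nat_lit 56) (nat_lit 5) (nat_lit 408) (nat_lit 346) (nat_lit 191)))) (XT.nd (nat_lit 188) (nat_lit 336) (nat_lit 0) (XT.nd (nat_lit 94) (nat_lit 252) (nat_lit 0) (XT.lf (nat_lit 0) (nat_lit 22661414897)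 (nat_lit 336) (nat_lit 1665985531) (nat_lit 84) (nat_lit 7955893692) (nat_lit 52) (nat_lit 5) (nat_lit 56) (nat_lit 5) (nat_lit 53) (nat_lit 5) (nat_lit 409) (nat_lit 346) (nat_lit 190)) (XT.lf (nat_lit 0) (nat_lit 11833926548) (nat_lit 252) (nat_lit 16157589527) (nat_lit 336) (nat_lit 4987639225) (nat_lit 49) (nat_lit 5) (nat_lit 52) (nat_lit 5) (nat_lit 53) (nat_lit 5) (nat_lit 410) (nat_lit 346) (nat_lit 189))) (XT.nd (nat_lit 94) (nat_lit 336) (nat_lit 0) (XT.lf (nat_lit 0) (nat_lit 25765482007) (nat_lit 252) (nat_lit 7727855909) (nat_lit 336) (nat_lit 202205395) (nat_lit 49) (nat_lit 5) (nat_lit 52) (nat_lit 5) (nat_lit 53) (nat_lit 5) (nat_lit 411) (nat_lit 346) (nat_lit 188)) (XT.lf (nat_lit 0) (nat_lit 4694975525) (nat_lit 336) (nat_lit 28699949450) (nat_lit 84) (nat_lit 1035327465) (nat_lit 45) (nat_lit 5) (nat_lit 49) (nat_lit 5) (nat_lit 46) (nat_lit 5) (nat_lit 412) (nat_lit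 346) (nat_lit 187))))))))
noncomputable def xc153 : XT := (XT.nd (nat_lit 2538) (nat_lit 336) (nat_lit 0) (XT.nd (nat_lit 1222) (nat_lit 840) (nat_lit 0) (XT.nd (nat_lit 564) (nat_lit 672) (nat_lit 0) (XT.nd (nat_lit 282) (nat_lit 168) (nat_lit 0) (XT.nd (nat_lit 94) (nat_lit 252) (nat_lit 0) (XT.lf (nat_lit 0) (nat_lit 9887527907) (nat_lit 336) (nat_lit 15308315578) (nat_lit 84) (nat_lit 9986528748) (nat_lit 45) (nat_lit 5) (nat_lit 49) (nat_lit 5) (nat_lit 46) (nat_lit 5) (nat_lit 413) (nat_lit 346) (nat_lit 186)) (XT.nd (nat_lit 94) (nat_lit 252) (nat_lit 0) (XT.lf (nat_lit 0) (nat_lit 15231134352) (nat_lit 336) (nat_lit 1522159353) (nat_lit 84) (nat_lit 19203908499) (nat_lit 45) (nat_lit 5) (nat_lit 49) (nat_lit 5) (nat_lit 46) (nat_lit 5) (nat_lit 414) (nat_lit 346) (nat_lit 185)) (XT.lf (nat_lit 0) (nat_lit 12922734476) (nat_lit 252) (nat_lit 7931950783) (nat_lit 336) (nat_lit 15897007492)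 (nat_lit 42) (nat_lit 5) (nat_lit 45) (nat_lit 5) (nat_lit 46) (nat_lit 5) (nat_lit 415) (nat_lit 346) (nat_lit 184)))) (XT.nd (nat_lit 94) (nat_lit 168) (nat_lit 0) (XT.lf (nat_lit 0) (nat_lit 26669017420) (nat_lit 336) (nat_lit 9755688660) (nat_lit 84) (nat_lit 1144654319) (nat_lit 42) (nat_lit 5) (nat_lit 46) (nat_lit 5) (nat_lit 43) (nat_lit 5) (nat_lit 416) (nat_lit 346) (nat_lit 183)) (XT.nd (nat_lit 94) (nat_lit 0) (nat_lit 0) (XT.lf (nat_lit 0) (nat_lit 4747017833) (nat_lit 168) (nat_lit 28030517844) (nat_lit 252) (nat_lit 5630434207) (nat_lit 40) (nat_lit 5) (nat_lit 42) (nat_lit 5) (nat_lit 43) (nat_lit 5) (nat_lit 417) (nat_lit 346) (nat_lit 182)) (XT.lf (nat_lit 0) (nat_lit 19877996355) (nat_lit 168) (nat_lit 19285480325) (nat_lit 252) (nat_lit 105440318) (nat_lit 40) (nat_lit 5) (nat_lit 42) (nat_lit 5) (nat_lit 43) (nat_lit 5) (nat_lit 418) (nat_lit 346) (nat_lit 181)))))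 (XT.nd (nat_lit 282) (nat_lit 336) (nat_lit 0) (XT.nd (nat_lit 94) (nat_lit 252) (nat_lit 0) (XT.lf (nat_lit 0) (nat_lit 5472048528) (nat_lit 252) (nat_lit 4753160065) (nat_lit 84) (nat_lit 29929005327) (nat_lit 39) (nat_lit 5) (nat_lit 42) (nat_lit 5) (nat_lit 40) (nat_lit 5) (nat_lit 419) (nat_lit 346) (nat_lit 180)) (XT.nd (nat_lit 94) (nat_lit 0) (nat_lit 0) (XT.lf (nat_lit 0) (nat_lit 10521514219) (nat_lit 252) (nat_lit 790226572) (nat_lit 336) (nat_lit 29751391691) (nat_lit 36) (nat_lit 5) (nat_lit 39) (nat_lit 5) (nat_lit 40) (nat_lit 5) (nat_lit 420) (nat_lit 346) (nat_lit 179)) (XT.lf (nat_lit 0) (nat_lit 17456811286) (nat_lit 336) (nat_lit 15738837579) (nat_lit 84) (nat_lit 8799767987) (nat_lit 36) (nat_lit 5) (nat_lit 40) (nat_lit 5) (nat_lit 37) (nat_lit 5) (nat_lit 421) (nat_lit 346) (nat_lit 178)))) (XT.nd (nat_lit 188) (nat_lit 168) (nat_lit 0) (XT.nd (nat_lit 94) (nat_lit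 168) (nat_lit 0) (XT.lf (nat_lit 0) (nat_lit 23790072600) (nat_lit 336) (nat_lit 506135378) (nat_lit 84) (nat_lit 18659350375) (nat_lit 36) (nat_lit 5) (nat_lit 40) (nat_lit 5) (nat_lit 37) (nat_lit 5) (nat_lit 422) (nat_lit 346) (nat_lit 177)) (XT.lf (nat_lit 0) (nat_lit 15479454521) (nat_lit 168) (nat_lit 14978805975) (nat_lit 252) (nat_lit 13481899393) (nat_lit 34) (nat_lit 5) (nat_lit 36) (nat_lit 5) (nat_lit 37) (nat_lit 5) (nat_lit 423) (nat_lit 346) (nat_lit 176))) (XT.nd (nat_lit 94) (nat_lit 168) (nat_lit 0) (XT.lf (nat_lit 0) (nat_lit 31948894444) (nat_lit 168) (nat_lit 5378895445) (nat_lit 252) (nat_lit 7626474252) (nat_lit 34) (nat_lit 5) (nat_lit 36) (nat_lit 5) (nat_lit 37) (nat_lit 5) (nat_lit 424) (nat_lit 346) (nat_lit 175)) (XT.lf (nat_lit 0) (nat_lit 2921278529) (nat_lit 168) (nat_lit 41549825881) (nat_lit 252) (nat_lit 1525659575) (nat_lit 32) (nat_lit 5) (nat_lit 34)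 (nat_lit 5) (nat_lit 35) (nat_lit 5) (nat_lit 425) (nat_lit 346) (nat_lit 174)))))) (XT.nd (nat_lit 658) (nat_lit 420) (nat_lit 0) (XT.nd (nat_lit 282) (nat_lit 168) (nat_lit 0) (XT.nd (nat_lit 94) (nat_lit 168) (nat_lit 0) (XT.lf (nat_lit 0) (nat_lit 4847502130) (nat_lit 252) (nat_lit 27580597675) (nat_lit 84) (nat_lit 14635604956) (nat_lit 31) (nat_lit 5) (nat_lit 34) (nat_lit 5) (nat_lit 32) (nat_lit 5) (nat_lit 426) (nat_lit 346) (nat_lit 173)) (XT.nd (nat_lit 94) (nat_lit 168) (nat_lit 0) (XT.lf (nat_lit 0) (nat_lit 11377589005) (nat_lit 252) (nat_lit 11641820292) (nat_lit 84) (nat_lit 25142902609) (nat_lit 31) (nat_lit 5) (nat_lit 34) (nat_lit 5) (nat_lit 32) (nat_lit 5) (nat_lit 427) (nat_lit 346) (nat_lit 172)) (XT.lf (nat_lit 0) (nat_lit 4864360547) (nat_lit 168) (nat_lit 13282476725) (nat_lit 252) (nat_lit 31145745289) (nat_lit 29) (nat_lit 5) (nat_lit 31) (nat_lit 5) (nat_lit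 32) (nat_lit 5) (nat_lit 428) (nat_lit 346) (nat_lit 171)))) (XT.nd (nat_lit 188) (nat_lit 168) (nat_lit 0) (XT.nd (nat_lit 94) (nat_lit 0) (nat_lit 0) (XT.lf (nat_lit 0) (nat_lit 22098747353) (nat_lit 168) (nat_lit 3134522651) (nat_lit 252) (nat_lit 25220071091) (nat_lit 29) (nat_lit 5) (nat_lit 31) (nat_lit 5) (nat_lit 32) (nat_lit 5) (nat_lit 429) (nat_lit 346) (nat_lit 170)) (XT.lf (nat_lit 0) (nat_lit 32599267299) (nat_lit 252) (nat_lit 11874645148) (nat_lit 84) (nat_lit 7173003673) (nat_lit 29) (nat_lit 5) (nat_lit 32) (nat_lit 5) (nat_lit 30) (nat_lit 5) (nat_lit 430) (nat_lit 346) (nat_lit 169))) (XT.nd (nat_lit 94) (nat_lit 0) (nat_lit 0) (XT.lf (nat_lit 0) (nat_lit 5164053116) (nat_lit 168) (nat_lit 35099592271) (nat_lit 252) (nat_lit 12610333782) (nat_lit 27) (nat_lit 5) (nat_lit 29) (nat_lit 5) (nat_lit 30) (nat_lit 5) (nat_lit 431) (nat_lit 346) (nat_lit 168)) (XT.lf (nat_lit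 0) (nat_lit 22952000503) (nat_lit 168) (nat_lit 25322635029) (nat_lit 252) (nat_lit 5859720874) (nat_lit 27) (nat_lit 5) (nat_lit 29) (nat_lit 5) (nat_lit 30) (nat_lit 5) (nat_lit 432) (nat_lit 346) (nat_lit 167))))) (XT.nd (nat_lit 282) (nat_lit 168) (nat_lit 0) (XT.nd (nat_lit 94) (nat_lit 168) (nat_lit 0) (XT.lf (nat_lit 0) (nat_lit 1068904566) (nat_lit 252) (nat_lit 14174709973) (nat_lit 84) (nat_lit 40188712749) (nat_lit 26) (nat_lit 5) (nat_lit 29) (nat_lit 5) (nat_lit 27) (nat_lit 5) (nat_lit 433) (nat_lit 346) (nat_lit 166)) (XT.nd (nat_lit 94) (nat_lit 0) (nat_lit 0) (XT.lf (nat_lit 0) (nat_lit 3345339772) (nat_lit 168) (nat_lit 4771354699) (nat_lit 252) (nat_lit 48649932395) (nat_lit 24) (nat_lit 5) (nat_lit 26) (nat_lit 5) (nat_lit 27) (nat_lit 5) (nat_lit 434) (nat_lit 346) (nat_lit 165)) (XT.lf (nat_lit 0) (nat_lit 15575237391) (nat_lit 252) (nat_lit 36519452929) (nat_lit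 84) (nat_lit 6040287945) (nat_lit 24) (nat_lit 5) (nat_lit 27) (nat_lit 5) (nat_lit 25) (nat_lit 5) (nat_lit 435) (nat_lit 346) (nat_lit 164)))) (XT.nd (nat_lit 188) (nat_lit 168) (nat_lit 0) (XT.nd (nat_lit 94) (nat_lit 0) (nat_lit 0) (XT.lf (nat_lit 0) (nat_lit 23301811505) (nat_lit 252) (nat_lit 19162768480) (nat_lit 84) (nat_lit 17078474318) (nat_lit 24) (nat_lit 5) (nat_lit 27) (nat_lit 5) (nat_lit 25) (nat_lit 5) (nat_lit 436) (nat_lit 346) (nat_lit 163)) (XT.lf (nat_lit 0) (nat_lit 31257303008) (nat_lit 252) (nat_lit 1290202532) (nat_lit 84) (nat_lit 28445955754) (nat_lit 24) (nat_lit 5) (nat_lit 27) (nat_lit 5) (nat_lit 25) (nat_lit 5) (nat_lit 437) (nat_lit 346) (nat_lit 162))) (XT.nd (nat_lit 94) (nat_lit 0) (nat_lit 0) (XT.lf (nat_lit 0) (nat_lit 17454461124) (nat_lit 168) (nat_lit 22161985135) (nat_lit 252) (nat_lit 22865986835) (nat_lit 22) (nat_lit 5) (nat_lit 24) (nat_lit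 5) (nat_lit 25) (nat_lit 5) (nat_lit 438) (nat_lit 346) (nat_lit 161)) (XT.lf (nat_lit 0) (nat_lit 36783279773) (nat_lit 168) (nat_lit 11453353497) (nat_lit 252) (nat_lit 15779134839) (nat_lit 22) (nat_lit 5) (nat_lit 24) (nat_lit 5) (nat_lit 25) (nat_lit 5) (nat_lit 439) (nat_lit 346) (nat_lit 160))))))) (XT.nd (nat_lit 51136) (nat_lit 0) (nat_lit 11340) (XT.nd (nat_lit 658) (nat_lit 0) (nat_lit 0) (XT.nd (nat_lit 282) (nat_lit 168) (nat_lit 0) (XT.nd (nat_lit 94) (nat_lit 168) (nat_lit 0) (XT.lf (nat_lit 0) (nat_lit 56687465113) (nat_lit 168) (nat_lit 425282086) (nat_lit 252) (nat_lit 8482438419) (nat_lit 22) (nat_lit 5) (nat_lit 24) (nat_lit 5) (nat_lit 25) (nat_lit 5) (nat_lit 440) (nat_lit 346) (nat_lit 159)) (XT.nd (nat_lit 94) (nat_lit 84) (nat_lit 0) (XT.lf (nat_lit 0) (nat_lit 10053438473) (nat_lit 84) (nat_lit 56400828979) (nat_lit 168) (nat_lit 761746537) (nat_lit 21) (nat_lit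 5) (nat_lit 22) (nat_lit 5) (nat_lit 23) (nat_lit 4) (nat_lit 441) (nat_lit 346) (nat_lit 158)) (XT.lf (nat_lit 0) (nat_lit 7142693003) (nat_lit 168) (nat_lit 39195398736) (nat_lit 84) (nat_lit 22542530550) (nat_lit 20) (nat_lit 5) (nat_lit 22) (nat_lit 5) (nat_lit 21) (nat_lit 5) (nat_lit 442) (nat_lit 346) (nat_lit 157)))) (XT.nd (nat_lit 188) (nat_lit 168) (nat_lit 0) (XT.nd (nat_lit 94) (nat_lit 0) (nat_lit 0) (XT.lf (nat_lit 0) (nat_lit 15266420352) (nat_lit 168) (nat_lit 20701059735) (nat_lit 84) (nat_lit 34627540392) (nat_lit 20) (nat_lit 5) (nat_lit 22) (nat_lit 5) (nat_lit 21) (nat_lit 5) (nat_lit 443) (nat_lit 346) (nat_lit 156)) (XT.lf (nat_lit 0) (nat_lit 23631398329) (nat_lit 168) (nat_lit 1656076037) (nat_lit 84) (nat_lit 47073451880) (nat_lit 20) (nat_lit 5) (nat_lit 22) (nat_lit 5) (nat_lit 21) (nat_lit 5) (nat_lit 444) (nat_lit 346) (nat_lit 155))) (XT.nd (nat_lit 94)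 (nat_lit 0) (nat_lit 0) (XT.lf (nat_lit 0) (nat_lit 18313557066) (nat_lit 168) (nat_lit 14107420187) (nat_lit 252) (nat_lit 41753624131) (nat_lit 18) (nat_lit 5) (nat_lit 20) (nat_lit 5) (nat_lit 21) (nat_lit 5) (nat_lit 445) (nat_lit 346) (nat_lit 154)) (XT.lf (nat_lit 0) (nat_lit 38912203371) (nat_lit 168) (nat_lit 2576404706) (nat_lit 252) (nat_lit 34553649455) (nat_lit 18) (nat_lit 5) (nat_lit 20) (nat_lit 5) (nat_lit 21) (nat_lit 5) (nat_lit 446) (nat_lit 346) (nat_lit 153))))) (XT.nd (nat_lit 50102) (nat_lit 0) (nat_lit 13356) (XT.nd (nat_lit 49914) (nat_lit 0) (nat_lit 14532) (XT.lf (nat_lit 0) (nat_lit 50915364888) (nat_lit 252) (nat_lit 17930498125) (nat_lit 84) (nat_lit 9117469085) (nat_lit 18) (nat_lit 5) (nat_lit 21) (nat_lit 5) (nat_lit 19) (nat_lit 4) (nat_lit 447) (nat_lit 346) (nat_lit 152)) (XT.nd (nat_lit 94) (nat_lit 0) (nat_lit 0) (XT.lf (nat_lit 0) (nat_lit 2461128221)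 (nat_lit 0) (nat_lit 2461128221) (nat_lit 1092) (nat_lit 555535931) (nat_lit 191) (nat_lit 5) (nat_lit 191) (nat_lit 3) (nat_lit 204) (nat_lit 3) (nat_lit 347) (nat_lit 347) (nat_lit 251)) (XT.lf (nat_lit 0) (nat_lit 9824550994) (nat_lit 0) (nat_lit 698103029) (nat_lit 1092) (nat_lit 580293870) (nat_lit 191) (nat_lit 5) (nat_lit 191) (nat_lit 3) (nat_lit 204) (nat_lit 3) (nat_lit 348) (nat_lit 347) (nat_lit 250)))) (XT.nd (nat_lit 188) (nat_lit 0) (nat_lit 84) (XT.nd (nat_lit 94) (nat_lit 0) (nat_lit 0) (XT.lf (nat_lit 0) (nat_lit 17051328) (nat_lit 1176) (nat_lit 7609388870) (nat_lit 1260) (nat_lit 3626841798) (nat_lit 177) (nat_lit 5) (nat_lit 191) (nat_lit 5) (nat_lit 192) (nat_lit 5) (nat_lit 349) (nat_lit 347) (nat_lit 249)) (XT.lf (nat_lit 0) (nat_lit 620255159) (nat_lit 1176) (nat_lit 2691914447) (nat_lit 1260) (nat_lit 8095834966) (nat_lit 177) (nat_lit 5) (nat_lit 191) (nat_lit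 5) (nat_lit 192) (nat_lit 5) (nat_lit 350) (nat_lit 347) (nat_lit 248))) (XT.nd (nat_lit 94) (nat_lit 0) (nat_lit 0) (XT.lf (nat_lit 0) (nat_lit 1256146171) (nat_lit 1176) (nat_lit 9169516439) (nat_lit 1260) (nat_lit 1141306216) (nat_lit 178) (nat_lit 5) (nat_lit 192) (nat_lit 5) (nat_lit 193) (nat_lit 5) (nat_lit 351) (nat_lit 347) (nat_lit 247)) (XT.lf (nat_lit 0) (nat_lit 1952154267) (nat_lit 1176) (nat_lit 4079968075) (nat_lit 1260) (nat_lit 5697385085) (nat_lit 178) (nat_lit 5) (nat_lit 192) (nat_lit 5) (nat_lit 193) (nat_lit 5) (nat_lit 352) (nat_lit 347) (nat_lit 246)))))) (XT.nd (nat_lit 658) (nat_lit 2100) (nat_lit 0) (XT.nd (nat_lit 282) (nat_lit 0) (nat_lit 168) (XT.nd (nat_lit 94) (nat_lit 0) (nat_lit 84) (XT.lf (nat_lit 84) (nat_lit 1173812340) (nat_lit 0) (nat_lit 1487867453) (nat_lit 1260) (nat_lit 9235498841) (nat_lit 179) (nat_lit 5) (nat_lit 178) (nat_lit 5) (nat_lit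 193) (nat_lit 5) (nat_lit 353) (nat_lit 347) (nat_lit 245)) (XT.nd (nat_lit 94) (nat_lit 0) (nat_lit 0) (XT.lf (nat_lit 0) (nat_lit 3446644699) (nat_lit 1176) (nat_lit 5442796858) (nat_lit 1260) (nat_lit 3178848344) (nat_lit 179) (nat_lit 5) (nat_lit 193) (nat_lit 5) (nat_lit 194) (nat_lit 5) (nat_lit 354) (nat_lit 347) (nat_lit 244)) (XT.lf (nat_lit 0) (nat_lit 4252274072) (nat_lit 1176) (nat_lit 30091342) (nat_lit 1260) (nat_lit 7962289147) (nat_lit 179) (nat_lit 5) (nat_lit 193) (nat_lit 5) (nat_lit 194) (nat_lit 5) (nat_lit 355) (nat_lit 347) (nat_lit 243)))) (XT.nd (nat_lit 188) (nat_lit 0) (nat_lit 0) (XT.nd (nat_lit 94) (nat_lit 0) (nat_lit 0) (XT.lf (nat_lit 0) (nat_lit 5124266004) (nat_lit 1176) (nat_lit 6786356673) (nat_lit 1260) (nat_lit 514454221) (nat_lit 180) (nat_lit 5) (nat_lit 194) (nat_lit 5) (nat_lit 195) (nat_lit 5) (nat_lit 356) (nat_lit 347) (nat_lit 242)) (XT.lf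 (nat_lit 0) (nat_lit 6048466781) (nat_lit 1176) (nat_lit 1186782633) (nat_lit 1260) (nat_lit 5374912617) (nat_lit 180) (nat_lit 5) (nat_lit 194) (nat_lit 5) (nat_lit 195) (nat_lit 5) (nat_lit 357) (nat_lit 347) (nat_lit 241))) (XT.nd (nat_lit 94) (nat_lit 0) (nat_lit 84) (XT.lf (nat_lit 84) (nat_lit 4660369554) (nat_lit 0) (nat_lit 2368650077) (nat_lit 1260) (nat_lit 5770951985) (nat_lit 181) (nat_lit 5) (nat_lit 180) (nat_lit 5) (nat_lit 195) (nat_lit 5) (nat_lit 358) (nat_lit 347) (nat_lit 240)) (XT.lf (nat_lit 0) (nat_lit 8060741808) (nat_lit 1176) (nat_lit 2325172068) (nat_lit 1260) (nat_lit 2608938813) (nat_lit 181) (nat_lit 5) (nat_lit 195) (nat_lit 5) (nat_lit 196) (nat_lit 5) (nat_lit 359) (nat_lit 347) (nat_lit 239))))) (XT.nd (nat_lit 282) (nat_lit 2352) (nat_lit 0) (XT.nd (nat_lit 94) (nat_lit 0) (nat_lit 0) (XT.lf (nat_lit 84) (nat_lit 3701015886) (nat_lit 0) (nat_lit 5466122029)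 (nat_lit 1260) (nat_lit 4027159530) (nat_lit 182) (nat_lit 5) (nat_lit 181) (nat_lit 5) (nat_lit 196) (nat_lit 5) (nat_lit 360) (nat_lit 347) (nat_lit 238)) (XT.nd (nat_lit 94) (nat_lit 0) (nat_lit 84) (XT.lf (nat_lit 84) (nat_lit 9944322309) (nat_lit 0) (nat_lit 370914021) (nat_lit 1260) (nat_lit 3084261976) (nat_lit 182) (nat_lit 5) (nat_lit 181) (nat_lit 5) (nat_lit 196) (nat_lit 5) (nat_lit 361) (nat_lit 347) (nat_lit 237)) (XT.lf (nat_lit 84) (nat_lit 2759541061) (nat_lit 0) (nat_lit 8797145884) (nat_lit 1260) (nat_lit 2052428229) (nat_lit 183) (nat_lit 5) (nat_lit 182) (nat_lit 5) (nat_lit 197) (nat_lit 5) (nat_lit 362) (nat_lit 347) (nat_lit 236)))) (XT.nd (nat_lit 188) (nat_lit 1260) (nat_lit 0) (XT.nd (nat_lit 94) (nat_lit 1176) (nat_lit 0) (XT.lf (nat_lit 84) (nat_lit 9216396471) (nat_lit 0) (nat_lit 3643325086) (nat_lit 1260) (nat_lit 964595238) (nat_lit 183) (nat_lit 5) (nat_lit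 182) (nat_lit 5) (nat_lit 197) (nat_lit 5) (nat_lit 363) (nat_lit 347) (nat_lit 235)) (XT.lf (nat_lit 0) (nat_lit 172844252) (nat_lit 1260) (nat_lit 12217947895) (nat_lit 84) (nat_lit 1654561918) (nat_lit 168) (nat_lit 5) (nat_lit 183) (nat_lit 5) (nat_lit 169) (nat_lit 5) (nat_lit 364) (nat_lit 347) (nat_lit 234))) (XT.nd (nat_lit 94) (nat_lit 1260) (nat_lit 0) (XT.lf (nat_lit 0) (nat_lit 1394469681) (nat_lit 1260) (nat_lit 5779160921) (nat_lit 84) (nat_lit 7097046051) (nat_lit 168) (nat_lit 5) (nat_lit 183) (nat_lit 5) (nat_lit 169) (nat_lit 5) (nat_lit 365) (nat_lit 347) (nat_lit 233)) (XT.lf (nat_lit 0) (nat_lit 858175536) (nat_lit 1260) (nat_lit 1789600147) (nat_lit 1344) (nat_lit 11855155794) (nat_lit 153) (nat_lit 5) (nat_lit 168) (nat_lit 5) (nat_lit 169) (nat_lit 5) (nat_lit 366) (nat_lit 347) (nat_lit 232))))))))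
noncomputable def xc154 : XT := (XT.nd (nat_lit 2538) (nat_lit 3696) (nat_lit 0) (XT.nd (nat_lit 1222) (nat_lit 2688) (nat_lit 0) (XT.nd (nat_lit 564) (nat_lit 2268) (nat_lit 0) (XT.nd (nat_lit 282) (nat_lit 588) (nat_lit 0) (XT.nd (nat_lit 94) (nat_lit 588) (nat_lit 0) (XT.lf (nat_lit 0) (nat_lit 4020796971) (nat_lit 1344) (nat_lit 6975662442) (nat_lit 84) (nat_lit 3743253876) (nat_lit 153) (nat_lit 5) (nat_lit 169) (nat_lit 5) (nat_lit 154) (nat_lit 5) (nat_lit 367) (nat_lit 347) (nat_lit 231)) (XT.nd (nat_lit 94) (nat_lit 588) (nat_lit 0) (XT.lf (nat_lit 0) (nat_lit 5440179757) (nat_lit 1344) (nat_lit 135551027) (nat_lit 84) (nat_lit 9407734809) (nat_lit 153) (nat_lit 5) (nat_lit 169) (nat_lit 5) (nat_lit 154) (nat_lit 5) (nat_lit 368) (nat_lit 347) (nat_lit 230)) (XT.lf (nat_lit 0) (nat_lit 6958350636) (nat_lit 672) (nat_lit 8197585980) (nat_lit 84) (nat_lit 76929169) (nat_lit 146)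 (nat_lit 5) (nat_lit 154) (nat_lit 5) (nat_lit 147) (nat_lit 5) (nat_lit 369) (nat_lit 347) (nat_lit 229)))) (XT.nd (nat_lit 94) (nat_lit 588) (nat_lit 0) (XT.lf (nat_lit 0) (nat_lit 8566731784) (nat_lit 672) (nat_lit 1132198304) (nat_lit 84) (nat_lit 5789498831) (nat_lit 146) (nat_lit 5) (nat_lit 154) (nat_lit 5) (nat_lit 147) (nat_lit 5) (nat_lit 370) (nat_lit 347) (nat_lit 228)) (XT.nd (nat_lit 94) (nat_lit 0) (nat_lit 0) (XT.lf (nat_lit 0) (nat_lit 6256275407) (nat_lit 588) (nat_lit 4015652898) (nat_lit 672) (nat_lit 5478294007) (nat_lit 139) (nat_lit 5) (nat_lit 146) (nat_lit 5) (nat_lit 147) (nat_lit 5) (nat_lit 371) (nat_lit 347) (nat_lit 227)) (XT.lf (nat_lit 0) (nat_lit 12046158420) (nat_lit 672) (nat_lit 2158911907) (nat_lit 84) (nat_lit 1814282539) (nat_lit 139) (nat_lit 5) (nat_lit 147) (nat_lit 5) (nat_lit 140) (nat_lit 5) (nat_lit 372) (nat_lit 347) (nat_lit 226))))) (XT.nd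 (nat_lit 282) (nat_lit 1008) (nat_lit 0) (XT.nd (nat_lit 94) (nat_lit 672) (nat_lit 0) (XT.lf (nat_lit 0) (nat_lit 5451913001) (nat_lit 588) (nat_lit 8502861079) (nat_lit 672) (nat_lit 2339367615) (nat_lit 132) (nat_lit 5) (nat_lit 139) (nat_lit 5) (nat_lit 140) (nat_lit 5) (nat_lit 373) (nat_lit 347) (nat_lit 225)) (XT.nd (nat_lit 94) (nat_lit 672) (nat_lit 0) (XT.lf (nat_lit 0) (nat_lit 13324536327) (nat_lit 588) (nat_lit 2607122204) (nat_lit 672) (nat_lit 645203910) (nat_lit 132) (nat_lit 5) (nat_lit 139) (nat_lit 5) (nat_lit 140) (nat_lit 5) (nat_lit 374) (nat_lit 347) (nat_lit 224)) (XT.lf (nat_lit 0) (nat_lit 1146132652) (nat_lit 672) (nat_lit 12266163729) (nat_lit 84) (nat_lit 3453434508) (nat_lit 124) (nat_lit 5) (nat_lit 132) (nat_lit 5) (nat_lit 125) (nat_lit 5) (nat_lit 375) (nat_lit 347) (nat_lit 223)))) (XT.nd (nat_lit 188) (nat_lit 504) (nat_lit 0) (XT.nd (nat_lit 94) (nat_lit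 504) (nat_lit 0) (XT.lf (nat_lit 0) (nat_lit 3026829091) (nat_lit 672) (nat_lit 4452038006) (nat_lit 84) (nat_lit 9682766002) (nat_lit 124) (nat_lit 5) (nat_lit 132) (nat_lit 5) (nat_lit 125) (nat_lit 5) (nat_lit 376) (nat_lit 347) (nat_lit 222)) (XT.lf (nat_lit 0) (nat_lit 3657277968) (nat_lit 504) (nat_lit 1331734508) (nat_lit 588) (nat_lit 12476664411) (nat_lit 118) (nat_lit 5) (nat_lit 124) (nat_lit 5) (nat_lit 125) (nat_lit 5) (nat_lit 377) (nat_lit 347) (nat_lit 221))) (XT.nd (nat_lit 94) (nat_lit 504) (nat_lit 0) (XT.lf (nat_lit 0) (nat_lit 7093621870) (nat_lit 588) (nat_lit 5735667236) (nat_lit 84) (nat_lit 4947062076) (nat_lit 118) (nat_lit 5) (nat_lit 125) (nat_lit 5) (nat_lit 119) (nat_lit 5) (nat_lit 378) (nat_lit 347) (nat_lit 220)) (XT.lf (nat_lit 0) (nat_lit 2606433044) (nat_lit 504) (nat_lit 6683562332) (nat_lit 588) (nat_lit 8805507100) (nat_lit 112) (nat_lit 5) (nat_lit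 118) (nat_lit 5) (nat_lit 119) (nat_lit 5) (nat_lit 379) (nat_lit 347) (nat_lit 219)))))) (XT.nd (nat_lit 658) (nat_lit 1260) (nat_lit 0) (XT.nd (nat_lit 282) (nat_lit 1008) (nat_lit 0) (XT.nd (nat_lit 94) (nat_lit 420) (nat_lit 0) (XT.lf (nat_lit 0) (nat_lit 11305985961) (nat_lit 504) (nat_lit 294759024) (nat_lit 588) (nat_lit 6822043868) (nat_lit 112) (nat_lit 5) (nat_lit 118) (nat_lit 5) (nat_lit 119) (nat_lit 5) (nat_lit 380) (nat_lit 347) (nat_lit 218)) (XT.nd (nat_lit 94) (nat_lit 0) (nat_lit 0) (XT.lf (nat_lit 0) (nat_lit 1464421736) (nat_lit 420) (nat_lit 12581726139) (nat_lit 504) (nat_lit 4711800676) (nat_lit 107) (nat_lit 5) (nat_lit 112) (nat_lit 5) (nat_lit 113) (nat_lit 5) (nat_lit 381) (nat_lit 347) (nat_lit 217)) (XT.lf (nat_lit 0) (nat_lit 10435731733) (nat_lit 420) (nat_lit 6194936855) (nat_lit 504) (nat_lit 2470536005) (nat_lit 107) (nat_lit 5) (nat_lit 112) (nat_lit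 5) (nat_lit 113) (nat_lit 5) (nat_lit 382) (nat_lit 347) (nat_lit 216)))) (XT.nd (nat_lit 188) (nat_lit 420) (nat_lit 0) (XT.nd (nat_lit 94) (nat_lit 84) (nat_lit 0) (XT.lf (nat_lit 0) (nat_lit 211638914) (nat_lit 504) (nat_lit 19078056961) (nat_lit 588) (nat_lit 165167124) (nat_lit 101) (nat_lit 5) (nat_lit 107) (nat_lit 5) (nat_lit 108) (nat_lit 5) (nat_lit 383) (nat_lit 347) (nat_lit 215)) (XT.lf (nat_lit 0) (nat_lit 2307266675) (nat_lit 588) (nat_lit 10377561742) (nat_lit 84) (nat_lit 7129448131) (nat_lit 100) (nat_lit 5) (nat_lit 107) (nat_lit 5) (nat_lit 101) (nat_lit 5) (nat_lit 384) (nat_lit 347) (nat_lit 214))) (XT.nd (nat_lit 94) (nat_lit 420) (nat_lit 0) (XT.lf (nat_lit 0) (nat_lit 4842116713) (nat_lit 588) (nat_lit 1257577779) (nat_lit 84) (nat_lit 14084994704) (nat_lit 100) (nat_lit 5) (nat_lit 107) (nat_lit 5) (nat_lit 101) (nat_lit 5) (nat_lit 385) (nat_lit 347) (nat_lit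 213)) (XT.lf (nat_lit 0) (nat_lit 7531829818) (nat_lit 504) (nat_lit 12283408199) (nat_lit 84) (nat_lit 748623950) (nat_lit 95) (nat_lit 5) (nat_lit 101) (nat_lit 5) (nat_lit 96) (nat_lit 5) (nat_lit 386) (nat_lit 347) (nat_lit 212))))) (XT.nd (nat_lit 282) (nat_lit 840) (nat_lit 0) (XT.nd (nat_lit 94) (nat_lit 420) (nat_lit 0) (XT.lf (nat_lit 0) (nat_lit 10367391651) (nat_lit 504) (nat_lit 2894006387) (nat_lit 84) (nat_lit 7691069077) (nat_lit 95) (nat_lit 5) (nat_lit 101) (nat_lit 5) (nat_lit 96) (nat_lit 5) (nat_lit 387) (nat_lit 347) (nat_lit 211)) (XT.nd (nat_lit 94) (nat_lit 0) (nat_lit 0) (XT.lf (nat_lit 0) (nat_lit 6902187251) (nat_lit 420) (nat_lit 6444355422) (nat_lit 504) (nat_lit 8004443642) (nat_lit 90) (nat_lit 5) (nat_lit 95) (nat_lit 5) (nat_lit 96) (nat_lit 5) (nat_lit 388) (nat_lit 347) (nat_lit 210)) (XT.lf (nat_lit 0) (nat_lit 16442423567) (nat_lit 504) (nat_lit 4724538637)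 (nat_lit 84) (nat_lit 593689454) (nat_lit 90) (nat_lit 5) (nat_lit 96) (nat_lit 5) (nat_lit 91) (nat_lit 5) (nat_lit 389) (nat_lit 347) (nat_lit 209)))) (XT.nd (nat_lit 188) (nat_lit 420) (nat_lit 0) (XT.nd (nat_lit 94) (nat_lit 84) (nat_lit 0) (XT.lf (nat_lit 0) (nat_lit 5322072117) (nat_lit 336) (nat_lit 14416591557) (nat_lit 420) (nat_lit 2440729708) (nat_lit 86) (nat_lit 5) (nat_lit 90) (nat_lit 5) (nat_lit 91) (nat_lit 5) (nat_lit 390) (nat_lit 347) (nat_lit 208)) (XT.lf (nat_lit 0) (nat_lit 553630418) (nat_lit 420) (nat_lit 6857327817) (nat_lit 84) (nat_lit 15198376223) (nat_lit 85) (nat_lit 5) (nat_lit 90) (nat_lit 5) (nat_lit 86) (nat_lit 5) (nat_lit 391) (nat_lit 347) (nat_lit 207))) (XT.nd (nat_lit 94) (nat_lit 0) (nat_lit 0) (XT.lf (nat_lit 0) (nat_lit 3477137025) (nat_lit 420) (nat_lit 137832338) (nat_lit 504) (nat_lit 19435703284) (nat_lit 80) (nat_lit 5) (nat_lit 85) (nat_lit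 5) (nat_lit 86) (nat_lit 5) (nat_lit 392) (nat_lit 347) (nat_lit 206)) (XT.lf (nat_lit 0) (nat_lit 6901648869) (nat_lit 504) (nat_lit 9321668158) (nat_lit 84) (nat_lit 7277938630) (nat_lit 80) (nat_lit 5) (nat_lit 86) (nat_lit 5) (nat_lit 81) (nat_lit 5) (nat_lit 393) (nat_lit 347) (nat_lit 205))))))) (XT.nd (nat_lit 1316) (nat_lit 1596) (nat_lit 0) (XT.nd (nat_lit 658) (nat_lit 1008) (nat_lit 0) (XT.nd (nat_lit 282) (nat_lit 756) (nat_lit 0) (XT.nd (nat_lit 94) (nat_lit 0) (nat_lit 0) (XT.lf (nat_lit 0) (nat_lit 1251761660) (nat_lit 336) (nat_lit 9041654773) (nat_lit 420) (nat_lit 13671754498) (nat_lit 76) (nat_lit 5) (nat_lit 80) (nat_lit 5) (nat_lit 81) (nat_lit 5) (nat_lit 394) (nat_lit 347) (nat_lit 204)) (XT.nd (nat_lit 94) (nat_lit 0) (nat_lit 0) (XT.lf (nat_lit 0) (nat_lit 12324512837) (nat_lit 336) (nat_lit 1549760119) (nat_lit 420) (nat_lit 10566119760) (nat_lit 76) (nat_lit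 5) (nat_lit 80) (nat_lit 5) (nat_lit 81) (nat_lit 5) (nat_lit 395) (nat_lit 347) (nat_lit 203)) (XT.lf (nat_lit 0) (nat_lit 17615218099) (nat_lit 420) (nat_lit 1268596467) (nat_lit 84) (nat_lit 6044485566) (nat_lit 76) (nat_lit 5) (nat_lit 81) (nat_lit 5) (nat_lit 77) (nat_lit 5) (nat_lit 396) (nat_lit 347) (nat_lit 202)))) (XT.nd (nat_lit 188) (nat_lit 420) (nat_lit 0) (XT.nd (nat_lit 94) (nat_lit 0) (nat_lit 0) (XT.lf (nat_lit 0) (nat_lit 10076762274) (nat_lit 336) (nat_lit 11497413205) (nat_lit 420) (nat_lit 3853504381) (nat_lit 72) (nat_lit 5) (nat_lit 76) (nat_lit 5) (nat_lit 77) (nat_lit 5) (nat_lit 397) (nat_lit 347) (nat_lit 201)) (XT.lf (nat_lit 0) (nat_lit 21779938459) (nat_lit 336) (nat_lit 3878454124) (nat_lit 420) (nat_lit 283462024) (nat_lit 72) (nat_lit 5) (nat_lit 76) (nat_lit 5) (nat_lit 77) (nat_lit 5) (nat_lit 398) (nat_lit 347) (nat_lit 200))) (XT.nd (nat_lit 94) (nat_lit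 0) (nat_lit 0) (XT.lf (nat_lit 0) (nat_lit 3432201529) (nat_lit 420) (nat_lit 19040263192) (nat_lit 84) (nat_lit 3994876801) (nat_lit 67) (nat_lit 5) (nat_lit 72) (nat_lit 5) (nat_lit 68) (nat_lit 5) (nat_lit 399) (nat_lit 347) (nat_lit 199)) (XT.lf (nat_lit 0) (nat_lit 7328356423) (nat_lit 420) (nat_lit 7608414779) (nat_lit 84) (nat_lit 12069503729) (nat_lit 67) (nat_lit 5) (nat_lit 72) (nat_lit 5) (nat_lit 68) (nat_lit 5) (nat_lit 400) (nat_lit 347) (nat_lit 198))))) (XT.nd (nat_lit 282) (nat_lit 420) (nat_lit 0) (XT.nd (nat_lit 94) (nat_lit 252) (nat_lit 0) (XT.lf (nat_lit 0) (nat_lit 4240874704) (nat_lit 336) (nat_lit 7135340441) (nat_lit 420) (nat_lit 16184124047) (nat_lit 63) (nat_lit 5) (nat_lit 67) (nat_lit 5) (nat_lit 68) (nat_lit 5) (nat_lit 401) (nat_lit 347) (nat_lit 197)) (XT.nd (nat_lit 94) (nat_lit 252) (nat_lit 0) (XT.lf (nat_lit 0) (nat_lit 15625878369) (nat_lit 420) (nat_lit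 11544874260) (nat_lit 84) (nat_lit 957868898) (nat_lit 63) (nat_lit 5) (nat_lit 68) (nat_lit 5) (nat_lit 64) (nat_lit 5) (nat_lit 402) (nat_lit 347) (nat_lit 196)) (XT.lf (nat_lit 0) (nat_lit 514236123) (nat_lit 252) (nat_lit 19558681902) (nat_lit 336) (nat_lit 8638944707) (nat_lit 60) (nat_lit 5) (nat_lit 63) (nat_lit 5) (nat_lit 64) (nat_lit 5) (nat_lit 403) (nat_lit 347) (nat_lit 195)))) (XT.nd (nat_lit 188) (nat_lit 420) (nat_lit 0) (XT.nd (nat_lit 94) (nat_lit 0) (nat_lit 0) (XT.lf (nat_lit 0) (nat_lit 13163752670) (nat_lit 252) (nat_lit 11600582219) (nat_lit 336) (nat_lit 4544944100) (nat_lit 60) (nat_lit 5) (nat_lit 63) (nat_lit 5) (nat_lit 64) (nat_lit 5) (nat_lit 404) (nat_lit 347) (nat_lit 194)) (XT.lf (nat_lit 0) (nat_lit 26184962720) (nat_lit 252) (nat_lit 3406080494) (nat_lit 336) (nat_lit 333744646) (nat_lit 60) (nat_lit 5) (nat_lit 63) (nat_lit 5) (nat_lit 64) (nat_lit 5)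 (nat_lit 405) (nat_lit 347) (nat_lit 193))) (XT.nd (nat_lit 94) (nat_lit 0) (nat_lit 0) (XT.lf (nat_lit 0) (nat_lit 4058091038) (nat_lit 420) (nat_lit 21433914814) (nat_lit 84) (nat_lit 5061634898) (nat_lit 55) (nat_lit 5) (nat_lit 60) (nat_lit 5) (nat_lit 56) (nat_lit 5) (nat_lit 406) (nat_lit 347) (nat_lit 192)) (XT.lf (nat_lit 0) (nat_lit 8641545617) (nat_lit 420) (nat_lit 8803645990) (nat_lit 84) (nat_lit 13754077371) (nat_lit 55) (nat_lit 5) (nat_lit 60) (nat_lit 5) (nat_lit 56) (nat_lit 5) (nat_lit 407) (nat_lit 347) (nat_lit 191)))))) (XT.nd (nat_lit 658) (nat_lit 756) (nat_lit 0) (XT.nd (nat_lit 282) (nat_lit 588) (nat_lit 0) (XT.nd (nat_lit 94) (nat_lit 0) (nat_lit 0) (XT.lf (nat_lit 0) (nat_lit 4281561006) (nat_lit 252) (nat_lit 9116963286) (nat_lit 336) (nat_lit 18464667007) (nat_lit 52) (nat_lit 5) (nat_lit 55) (nat_lit 5) (nat_lit 56) (nat_lit 5) (nat_lit 408) (nat_lit 347)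 (nat_lit 190)) (XT.nd (nat_lit 94) (nat_lit 0) (nat_lit 0) (XT.lf (nat_lit 0) (nat_lit 17932345469) (nat_lit 252) (nat_lit 449707941) (nat_lit 336) (nat_lit 14162468339) (nat_lit 52) (nat_lit 5) (nat_lit 55) (nat_lit 5) (nat_lit 56) (nat_lit 5) (nat_lit 409) (nat_lit 347) (nat_lit 189)) (XT.lf (nat_lit 0) (nat_lit 23591646525) (nat_lit 336) (nat_lit 1342488791) (nat_lit 84) (nat_lit 8309865576) (nat_lit 52) (nat_lit 5) (nat_lit 56) (nat_lit 5) (nat_lit 53) (nat_lit 5) (nat_lit 410) (nat_lit 347) (nat_lit 188)))) (XT.nd (nat_lit 188) (nat_lit 252) (nat_lit 0) (XT.nd (nat_lit 94) (nat_lit 84) (nat_lit 0) (XT.lf (nat_lit 0) (nat_lit 12558759118) (nat_lit 252) (nat_lit 16519153618) (nat_lit 336) (nat_lit 4882945477) (nat_lit 49) (nat_lit 5) (nat_lit 52) (nat_lit 5) (nat_lit 53) (nat_lit 5) (nat_lit 411) (nat_lit 347) (nat_lit 187)) (XT.lf (nat_lit 0) (nat_lit 37889821) (nat_lit 336) (nat_lit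 7801842846) (nat_lit 84) (nat_lit 26859217502) (nat_lit 48) (nat_lit 5) (nat_lit 52) (nat_lit 5) (nat_lit 49) (nat_lit 5) (nat_lit 412) (nat_lit 347) (nat_lit 186))) (XT.nd (nat_lit 94) (nat_lit 0) (nat_lit 0) (XT.lf (nat_lit 0) (nat_lit 5075509570) (nat_lit 336) (nat_lit 29194168087) (nat_lit 84) (nat_lit 1186042703) (nat_lit 45) (nat_lit 5) (nat_lit 49) (nat_lit 5) (nat_lit 46) (nat_lit 5) (nat_lit 413) (nat_lit 347) (nat_lit 185)) (XT.lf (nat_lit 0) (nat_lit 10416857413) (nat_lit 336) (nat_lit 15411468107) (nat_lit 84) (nat_lit 10402294915) (nat_lit 45) (nat_lit 5) (nat_lit 49) (nat_lit 5) (nat_lit 46) (nat_lit 5) (nat_lit 414) (nat_lit 347) (nat_lit 184))))) (XT.nd (nat_lit 282) (nat_lit 504) (nat_lit 0) (XT.nd (nat_lit 94) (nat_lit 252) (nat_lit 0) (XT.lf (nat_lit 0) (nat_lit 15913994275) (nat_lit 336) (nat_lit 1222098950) (nat_lit 84) (nat_lit 19892812457) (nat_lit 45) (nat_lit 5)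 (nat_lit 49) (nat_lit 5) (nat_lit 46) (nat_lit 5) (nat_lit 415) (nat_lit 347) (nat_lit 183)) (XT.nd (nat_lit 94) (nat_lit 0) (nat_lit 0) (XT.lf (nat_lit 0) (nat_lit 13652752231) (nat_lit 252) (nat_lit 8050209853) (nat_lit 336) (nat_lit 16144374390) (nat_lit 42) (nat_lit 5) (nat_lit 45) (nat_lit 5) (nat_lit 46) (nat_lit 5) (nat_lit 416) (nat_lit 347) (nat_lit 182)) (XT.lf (nat_lit 0) (nat_lit 27686356769) (nat_lit 336) (nat_lit 9710405770) (nat_lit 84) (nat_lit 1292939275) (nat_lit 42) (nat_lit 5) (nat_lit 46) (nat_lit 5) (nat_lit 43) (nat_lit 5) (nat_lit 417) (nat_lit 347) (nat_lit 181)))) (XT.nd (nat_lit 188) (nat_lit 252) (nat_lit 0) (XT.nd (nat_lit 94) (nat_lit 84) (nat_lit 0) (XT.lf (nat_lit 0) (nat_lit 5224068647) (nat_lit 168) (nat_lit 28750950475) (nat_lit 252) (nat_lit 5578550251) (nat_lit 40) (nat_lit 5) (nat_lit 42) (nat_lit 5) (nat_lit 43) (nat_lit 5) (nat_lit 418) (nat_lit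 347) (nat_lit 180)) (XT.lf (nat_lit 0) (nat_lit 103698666) (nat_lit 252) (nat_lit 19642325221) (nat_lit 84) (nat_lit 20694483901) (nat_lit 39) (nat_lit 5) (nat_lit 42) (nat_lit 5) (nat_lit 40) (nat_lit 5) (nat_lit 419) (nat_lit 347) (nat_lit 179))) (XT.nd (nat_lit 94) (nat_lit 252) (nat_lit 0) (XT.lf (nat_lit 0) (nat_lit 5840271100) (nat_lit 252) (nat_lit 4576066442) (nat_lit 84) (nat_lit 30936184312) (nat_lit 39) (nat_lit 5) (nat_lit 42) (nat_lit 5) (nat_lit 40) (nat_lit 5) (nat_lit 420) (nat_lit 347) (nat_lit 178)) (XT.lf (nat_lit 0) (nat_lit 11153713871) (nat_lit 252) (nat_lit 698539645) (nat_lit 336) (nat_lit 30436547203) (nat_lit 36) (nat_lit 5) (nat_lit 39) (nat_lit 5) (nat_lit 40) (nat_lit 5) (nat_lit 421) (nat_lit 347) (nat_lit 177))))))))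
noncomputable def xc155 : XT := (XT.nd (nat_lit 52546) (nat_lit 0) (nat_lit 8904) (XT.nd (nat_lit 1316) (nat_lit 504) (nat_lit 0) (XT.nd (nat_lit 658) (nat_lit 588) (nat_lit 0) (XT.nd (nat_lit 282) (nat_lit 252) (nat_lit 0) (XT.nd (nat_lit 94) (nat_lit 168) (nat_lit 0) (XT.lf (nat_lit 0) (nat_lit 18176894009) (nat_lit 336) (nat_lit 15898701029) (nat_lit 84) (nat_lit 9173607606) (nat_lit 36) (nat_lit 5) (nat_lit 40) (nat_lit 5) (nat_lit 37) (nat_lit 5) (nat_lit 422) (nat_lit 347) (nat_lit 176)) (XT.nd (nat_lit 94) (nat_lit 168) (nat_lit 0) (XT.lf (nat_lit 0) (nat_lit 24694433404) (nat_lit 336) (nat_lit 218113927) (nat_lit 84) (nat_lit 19325778051) (nat_lit 36) (nat_lit 5) (nat_lit 40) (nat_lit 5) (nat_lit 37) (nat_lit 5) (nat_lit 423) (nat_lit 347) (nat_lit 175)) (XT.lf (nat_lit 0) (nat_lit 16244071066) (nat_lit 168) (nat_lit 15315928729) (nat_lit 252) (nat_lit 13692550424) (nat_lit 34)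 (nat_lit 5) (nat_lit 36) (nat_lit 5) (nat_lit 37) (nat_lit 5) (nat_lit 424) (nat_lit 347) (nat_lit 174)))) (XT.nd (nat_lit 188) (nat_lit 84) (nat_lit 0) (XT.nd (nat_lit 94) (nat_lit 168) (nat_lit 0) (XT.lf (nat_lit 0) (nat_lit 33198849539) (nat_lit 168) (nat_lit 5431290051) (nat_lit 252) (nat_lit 7667107363) (nat_lit 34) (nat_lit 5) (nat_lit 36) (nat_lit 5) (nat_lit 37) (nat_lit 5) (nat_lit 425) (nat_lit 347) (nat_lit 173)) (XT.lf (nat_lit 0) (nat_lit 3302099949) (nat_lit 168) (nat_lit 42684172851) (nat_lit 252) (nat_lit 1384798356) (nat_lit 32) (nat_lit 5) (nat_lit 34) (nat_lit 5) (nat_lit 35) (nat_lit 5) (nat_lit 426) (nat_lit 347) (nat_lit 172))) (XT.nd (nat_lit 94) (nat_lit 0) (nat_lit 0) (XT.lf (nat_lit 0) (nat_lit 5170586576) (nat_lit 252) (nat_lit 28119680847) (nat_lit 84) (nat_lit 15179863462) (nat_lit 31) (nat_lit 5) (nat_lit 34) (nat_lit 5) (nat_lit 32) (nat_lit 5) (nat_lit 427)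 (nat_lit 347) (nat_lit 171)) (XT.lf (nat_lit 0) (nat_lit 11891401512) (nat_lit 252) (nat_lit 11711138242) (nat_lit 84) (nat_lit 25999316248) (nat_lit 31) (nat_lit 5) (nat_lit 34) (nat_lit 5) (nat_lit 32) (nat_lit 5) (nat_lit 428) (nat_lit 347) (nat_lit 170))))) (XT.nd (nat_lit 282) (nat_lit 420) (nat_lit 0) (XT.nd (nat_lit 94) (nat_lit 0) (nat_lit 0) (XT.lf (nat_lit 0) (nat_lit 5287483546) (nat_lit 168) (nat_lit 13573884392) (nat_lit 252) (nat_lit 31904742007) (nat_lit 29) (nat_lit 5) (nat_lit 31) (nat_lit 5) (nat_lit 32) (nat_lit 5) (nat_lit 429) (nat_lit 347) (nat_lit 169)) (XT.nd (nat_lit 94) (nat_lit 0) (nat_lit 0) (XT.lf (nat_lit 0) (nat_lit 23030828396) (nat_lit 168) (nat_lit 3124610142) (nat_lit 252) (nat_lit 25806405612) (nat_lit 29) (nat_lit 5) (nat_lit 31) (nat_lit 5) (nat_lit 32) (nat_lit 5) (nat_lit 430) (nat_lit 347) (nat_lit 168)) (XT.lf (nat_lit 0) (nat_lit 33738575073)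 (nat_lit 252) (nat_lit 11965625680) (nat_lit 84) (nat_lit 7487145031) (nat_lit 29) (nat_lit 5) (nat_lit 32) (nat_lit 5) (nat_lit 30) (nat_lit 5) (nat_lit 431) (nat_lit 347) (nat_lit 167)))) (XT.nd (nat_lit 188) (nat_lit 252) (nat_lit 0) (XT.nd (nat_lit 94) (nat_lit 0) (nat_lit 0) (XT.lf (nat_lit 0) (nat_lit 5581632955) (nat_lit 168) (nat_lit 36049077455) (nat_lit 252) (nat_lit 12824579554) (nat_lit 27) (nat_lit 5) (nat_lit 29) (nat_lit 5) (nat_lit 30) (nat_lit 5) (nat_lit 432) (nat_lit 347) (nat_lit 166)) (XT.lf (nat_lit 0) (nat_lit 23895568523) (nat_lit 168) (nat_lit 25981826134) (nat_lit 252) (nat_lit 5876226829) (nat_lit 27) (nat_lit 5) (nat_lit 29) (nat_lit 5) (nat_lit 30) (nat_lit 5) (nat_lit 433) (nat_lit 347) (nat_lit 165))) (XT.nd (nat_lit 94) (nat_lit 168) (nat_lit 0) (XT.lf (nat_lit 0) (nat_lit 1252600280) (nat_lit 252) (nat_lit 14349230433) (nat_lit 84) (nat_lit 41488794991)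 (nat_lit 26) (nat_lit 5) (nat_lit 29) (nat_lit 5) (nat_lit 27) (nat_lit 5) (nat_lit 434) (nat_lit 347) (nat_lit 164)) (XT.lf (nat_lit 0) (nat_lit 3693962758) (nat_lit 168) (nat_lit 4815831211) (nat_lit 252) (nat_lit 49955224766) (nat_lit 24) (nat_lit 5) (nat_lit 26) (nat_lit 5) (nat_lit 27) (nat_lit 5) (nat_lit 435) (nat_lit 347) (nat_lit 163)))))) (XT.nd (nat_lit 658) (nat_lit 252) (nat_lit 0) (XT.nd (nat_lit 282) (nat_lit 252) (nat_lit 0) (XT.nd (nat_lit 94) (nat_lit 0) (nat_lit 0) (XT.lf (nat_lit 0) (nat_lit 16188656730) (nat_lit 252) (nat_lit 37370452722) (nat_lit 84) (nat_lit 6315417783) (nat_lit 24) (nat_lit 5) (nat_lit 27) (nat_lit 5) (nat_lit 25) (nat_lit 5) (nat_lit 436) (nat_lit 347) (nat_lit 162)) (XT.nd (nat_lit 94) (nat_lit 0) (nat_lit 0) (XT.lf (nat_lit 0) (nat_lit 24142770916) (nat_lit 252) (nat_lit 19500191539) (nat_lit 84) (nat_lit 17682014179) (nat_lit 24) (nat_lit 5)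 (nat_lit 27) (nat_lit 5) (nat_lit 25) (nat_lit 5) (nat_lit 437) (nat_lit 347) (nat_lit 161)) (XT.lf (nat_lit 0) (nat_lit 32332794007) (nat_lit 252) (nat_lit 1098364923) (nat_lit 84) (nat_lit 29387864165) (nat_lit 24) (nat_lit 5) (nat_lit 27) (nat_lit 5) (nat_lit 25) (nat_lit 5) (nat_lit 438) (nat_lit 347) (nat_lit 160)))) (XT.nd (nat_lit 188) (nat_lit 84) (nat_lit 0) (XT.nd (nat_lit 94) (nat_lit 0) (nat_lit 0) (XT.lf (nat_lit 0) (nat_lit 18206378411) (nat_lit 168) (nat_lit 22734514771) (nat_lit 252) (nat_lit 23411828590) (nat_lit 22) (nat_lit 5) (nat_lit 24) (nat_lit 5) (nat_lit 25) (nat_lit 5) (nat_lit 439) (nat_lit 347) (nat_lit 159)) (XT.lf (nat_lit 0) (nat_lit 38108412587) (nat_lit 168) (nat_lit 11707313404) (nat_lit 252) (nat_lit 16116452719) (nat_lit 22) (nat_lit 5) (nat_lit 24) (nat_lit 5) (nat_lit 25) (nat_lit 5) (nat_lit 440) (nat_lit 347) (nat_lit 158))) (XT.nd (nat_lit 94) (nat_lit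 84) (nat_lit 0) (XT.lf (nat_lit 0) (nat_lit 58603268116) (nat_lit 168) (nat_lit 351010745) (nat_lit 252) (nat_lit 8604818208) (nat_lit 22) (nat_lit 5) (nat_lit 24) (nat_lit 5) (nat_lit 25) (nat_lit 5) (nat_lit 441) (nat_lit 347) (nat_lit 157)) (XT.lf (nat_lit 0) (nat_lit 10571188146) (nat_lit 84) (nat_lit 58004014022) (nat_lit 168) (nat_lit 653376300) (nat_lit 21) (nat_lit 5) (nat_lit 22) (nat_lit 5) (nat_lit 23) (nat_lit 4) (nat_lit 442) (nat_lit 347) (nat_lit 156))))) (XT.nd (nat_lit 282) (nat_lit 168) (nat_lit 0) (XT.nd (nat_lit 94) (nat_lit 0) (nat_lit 0) (XT.lf (nat_lit 0) (nat_lit 7481888363) (nat_lit 168) (nat_lit 40158832478) (nat_lit 84) (nat_lit 23302481494) (nat_lit 20) (nat_lit 5) (nat_lit 22) (nat_lit 5) (nat_lit 21) (nat_lit 5) (nat_lit 443) (nat_lit 347) (nat_lit 155)) (XT.nd (nat_lit 94) (nat_lit 0) (nat_lit 0) (XT.lf (nat_lit 0) (nat_lit 15845689243) (nat_lit 168) (nat_lit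 21115850537) (nat_lit 84) (nat_lit 35747604495) (nat_lit 20) (nat_lit 5) (nat_lit 22) (nat_lit 5) (nat_lit 21) (nat_lit 5) (nat_lit 444) (nat_lit 347) (nat_lit 154)) (XT.lf (nat_lit 0) (nat_lit 24458084241) (nat_lit 168) (nat_lit 1505524347) (nat_lit 84) (nat_lit 48564527176) (nat_lit 20) (nat_lit 5) (nat_lit 22) (nat_lit 5) (nat_lit 21) (nat_lit 5) (nat_lit 445) (nat_lit 347) (nat_lit 153)))) (XT.nd (nat_lit 50102) (nat_lit 0) (nat_lit 13272) (XT.nd (nat_lit 94) (nat_lit 0) (nat_lit 0) (XT.lf (nat_lit 0) (nat_lit 19061234671) (nat_lit 168) (nat_lit 14448592327) (nat_lit 252) (nat_lit 42886442367) (nat_lit 18) (nat_lit 5) (nat_lit 20) (nat_lit 5) (nat_lit 21) (nat_lit 5) (nat_lit 446) (nat_lit 347) (nat_lit 152)) (XT.lf (nat_lit 0) (nat_lit 40272065484) (nat_lit 168) (nat_lit 2574036201) (nat_lit 252) (nat_lit 35473957494) (nat_lit 18) (nat_lit 5) (nat_lit 20) (nat_lit 5) (nat_lit 21)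 (nat_lit 5) (nat_lit 447) (nat_lit 347) (nat_lit 151))) (XT.nd (nat_lit 94) (nat_lit 1260) (nat_lit 0) (XT.lf (nat_lit 0) (nat_lit 2797649172) (nat_lit 0) (nat_lit 2797649172) (nat_lit 1092) (nat_lit 30020306) (nat_lit 191) (nat_lit 5) (nat_lit 191) (nat_lit 3) (nat_lit 204) (nat_lit 3) (nat_lit 348) (nat_lit 348) (nat_lit 249)) (XT.lf (nat_lit 0) (nat_lit 446197121) (nat_lit 1260) (nat_lit 778415329) (nat_lit 1260) (nat_lit 10178656733) (nat_lit 176) (nat_lit 3) (nat_lit 191) (nat_lit 3) (nat_lit 191) (nat_lit 5) (nat_lit 349) (nat_lit 348) (nat_lit 248))))))) (XT.nd (nat_lit 1316) (nat_lit 4452) (nat_lit 0) (XT.nd (nat_lit 658) (nat_lit 0) (nat_lit 252) (XT.nd (nat_lit 282) (nat_lit 0) (nat_lit 84) (XT.nd (nat_lit 94) (nat_lit 0) (nat_lit 0) (XT.lf (nat_lit 0) (nat_lit 1020190729) (nat_lit 1176) (nat_lit 7273558961) (nat_lit 1260) (nat_lit 3265136963) (nat_lit 177) (nat_lit 5) (nat_lit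 191) (nat_lit 5) (nat_lit 192) (nat_lit 5) (nat_lit 350) (nat_lit 348) (nat_lit 247)) (XT.nd (nat_lit 94) (nat_lit 0) (nat_lit 84) (XT.lf (nat_lit 0) (nat_lit 1612287922) (nat_lit 1176) (nat_lit 2224990739) (nat_lit 1260) (nat_lit 7881904103) (nat_lit 177) (nat_lit 5) (nat_lit 191) (nat_lit 5) (nat_lit 192) (nat_lit 5) (nat_lit 351) (nat_lit 348) (nat_lit 246)) (XT.lf (nat_lit 0) (nat_lit 2240194810) (nat_lit 1176) (nat_lit 8868054897) (nat_lit 1260) (nat_lit 775532215) (nat_lit 178) (nat_lit 5) (nat_lit 192) (nat_lit 5) (nat_lit 193) (nat_lit 5) (nat_lit 352) (nat_lit 348) (nat_lit 245)))) (XT.nd (nat_lit 188) (nat_lit 0) (nat_lit 84) (XT.nd (nat_lit 94) (nat_lit 0) (nat_lit 0) (XT.lf (nat_lit 0) (nat_lit 2929519142) (nat_lit 1176) (nat_lit 3642612713) (nat_lit 1260) (nat_lit 5479944320) (nat_lit 178) (nat_lit 5) (nat_lit 192) (nat_lit 5) (nat_lit 193) (nat_lit 5) (nat_lit 353) (nat_lit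 348) (nat_lit 244)) (XT.lf (nat_lit 84) (nat_lit 1763293326) (nat_lit 0) (nat_lit 1875603886) (nat_lit 1260) (nat_lit 8586574347) (nat_lit 179) (nat_lit 5) (nat_lit 178) (nat_lit 5) (nat_lit 193) (nat_lit 5) (nat_lit 354) (nat_lit 348) (nat_lit 243))) (XT.nd (nat_lit 94) (nat_lit 0) (nat_lit 0) (XT.lf (nat_lit 0) (nat_lit 4418072130) (nat_lit 1176) (nat_lit 5036967034) (nat_lit 1260) (nat_lit 2947606722) (nat_lit 179) (nat_lit 5) (nat_lit 193) (nat_lit 5) (nat_lit 194) (nat_lit 5) (nat_lit 355) (nat_lit 348) (nat_lit 242)) (XT.lf (nat_lit 84) (nat_lit 531923256) (nat_lit 0) (nat_lit 4695777928) (nat_lit 1260) (nat_lit 7357253491) (nat_lit 180) (nat_lit 5) (nat_lit 179) (nat_lit 5) (nat_lit 194) (nat_lit 5) (nat_lit 356) (nat_lit 348) (nat_lit 241))))) (XT.nd (nat_lit 282) (nat_lit 0) (nat_lit 84) (XT.nd (nat_lit 94) (nat_lit 0) (nat_lit 0) (XT.lf (nat_lit 0) (nat_lit 6098796635) (nat_lit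 1176) (nat_lit 6413909660) (nat_lit 1260) (nat_lit 258941786) (nat_lit 180) (nat_lit 5) (nat_lit 194) (nat_lit 5) (nat_lit 195) (nat_lit 5) (nat_lit 357) (nat_lit 348) (nat_lit 240)) (XT.nd (nat_lit 94) (nat_lit 0) (nat_lit 0) (XT.lf (nat_lit 0) (nat_lit 7026816562) (nat_lit 1176) (nat_lit 663126196) (nat_lit 1260) (nat_lit 5273105568) (nat_lit 180) (nat_lit 5) (nat_lit 194) (nat_lit 5) (nat_lit 195) (nat_lit 5) (nat_lit 358) (nat_lit 348) (nat_lit 239)) (XT.lf (nat_lit 84) (nat_lit 5353957616) (nat_lit 0) (nat_lit 2664941068) (nat_lit 1260) (nat_lit 5140234163) (nat_lit 181) (nat_lit 5) (nat_lit 180) (nat_lit 5) (nat_lit 195) (nat_lit 5) (nat_lit 359) (nat_lit 348) (nat_lit 238)))) (XT.nd (nat_lit 188) (nat_lit 0) (nat_lit 0) (XT.nd (nat_lit 94) (nat_lit 0) (nat_lit 0) (XT.lf (nat_lit 0) (nat_lit 9056780957) (nat_lit 1176) (nat_lit 1831063196) (nat_lit 1260) (nat_lit 2472802695) (nat_lit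 181) (nat_lit 5) (nat_lit 195) (nat_lit 5) (nat_lit 196) (nat_lit 5) (nat_lit 360) (nat_lit 348) (nat_lit 237)) (XT.lf (nat_lit 84) (nat_lit 4370382319) (nat_lit 0) (nat_lit 5809386213) (nat_lit 1260) (nat_lit 3386845929) (nat_lit 182) (nat_lit 5) (nat_lit 181) (nat_lit 5) (nat_lit 196) (nat_lit 5) (nat_lit 361) (nat_lit 348) (nat_lit 236))) (XT.nd (nat_lit 94) (nat_lit 0) (nat_lit 84) (XT.lf (nat_lit 84) (nat_lit 10784725722) (nat_lit 0) (nat_lit 556100202) (nat_lit 1260) (nat_lit 2437830237) (nat_lit 182) (nat_lit 5) (nat_lit 181) (nat_lit 5) (nat_lit 196) (nat_lit 5) (nat_lit 362) (nat_lit 348) (nat_lit 235)) (XT.lf (nat_lit 84) (nat_lit 3403346643) (nat_lit 0) (nat_lit 9199083620) (nat_lit 1260) (nat_lit 1392683084) (nat_lit 183) (nat_lit 5) (nat_lit 182) (nat_lit 5) (nat_lit 197) (nat_lit 5) (nat_lit 363) (nat_lit 348) (nat_lit 234)))))) (XT.nd (nat_lit 658) (nat_lit 1848) (nat_lit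 0) (XT.nd (nat_lit 282) (nat_lit 1848) (nat_lit 0) (XT.nd (nat_lit 94) (nat_lit 1176) (nat_lit 0) (XT.lf (nat_lit 84) (nat_lit 10037567347) (nat_lit 0) (nat_lit 3886628100) (nat_lit 1260) (nat_lit 293224366) (nat_lit 183) (nat_lit 5) (nat_lit 182) (nat_lit 5) (nat_lit 197) (nat_lit 5) (nat_lit 364) (nat_lit 348) (nat_lit 233)) (XT.nd (nat_lit 94) (nat_lit 0) (nat_lit 0) (XT.lf (nat_lit 0) (nat_lit 848866518) (nat_lit 1260) (nat_lit 12007913071) (nat_lit 84) (nat_lit 1588616645) (nat_lit 168) (nat_lit 5) (nat_lit 183) (nat_lit 5) (nat_lit 169) (nat_lit 5) (nat_lit 365) (nat_lit 348) (nat_lit 232)) (XT.lf (nat_lit 0) (nat_lit 2087601771) (nat_lit 1260) (nat_lit 5392755883) (nat_lit 84) (nat_lit 7197741772) (nat_lit 168) (nat_lit 5) (nat_lit 183) (nat_lit 5) (nat_lit 169) (nat_lit 5) (nat_lit 366) (nat_lit 348) (nat_lit 231)))) (XT.nd (nat_lit 188) (nat_lit 588) (nat_lit 0) (XT.nd (nat_lit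 94) (nat_lit 0) (nat_lit 0) (XT.lf (nat_lit 0) (nat_lit 1438212629) (nat_lit 1260) (nat_lit 1926652670) (nat_lit 1344) (nat_lit 11552899589) (nat_lit 153) (nat_lit 5) (nat_lit 168) (nat_lit 5) (nat_lit 169) (nat_lit 5) (nat_lit 367) (nat_lit 348) (nat_lit 230)) (XT.lf (nat_lit 0) (nat_lit 4759726701) (nat_lit 1344) (nat_lit 6626342305) (nat_lit 84) (nat_lit 3776194428) (nat_lit 153) (nat_lit 5) (nat_lit 169) (nat_lit 5) (nat_lit 154) (nat_lit 5) (nat_lit 368) (nat_lit 348) (nat_lit 229))) (XT.nd (nat_lit 94) (nat_lit 0) (nat_lit 0) (XT.lf (nat_lit 0) (nat_lit 410717416) (nat_lit 588) (nat_lit 5796912714) (nat_lit 672) (nat_lit 9206151810) (nat_lit 146) (nat_lit 5) (nat_lit 153) (nat_lit 5) (nat_lit 154) (nat_lit 5) (nat_lit 369) (nat_lit 348) (nat_lit 228)) (XT.lf (nat_lit 0) (nat_lit 7754585735) (nat_lit 672) (nat_lit 7887351438) (nat_lit 84) (nat_lit 29260660) (nat_lit 146) (nat_lit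 5) (nat_lit 154) (nat_lit 5) (nat_lit 147) (nat_lit 5) (nat_lit 370) (nat_lit 348) (nat_lit 227))))) (XT.nd (nat_lit 282) (nat_lit 1260) (nat_lit 0) (XT.nd (nat_lit 94) (nat_lit 588) (nat_lit 0) (XT.lf (nat_lit 0) (nat_lit 9394107116) (nat_lit 672) (nat_lit 626201028) (nat_lit 84) (nat_lit 5914663034) (nat_lit 146) (nat_lit 5) (nat_lit 154) (nat_lit 5) (nat_lit 147) (nat_lit 5) (nat_lit 371) (nat_lit 348) (nat_lit 226)) (XT.nd (nat_lit 94) (nat_lit 0) (nat_lit 0) (XT.lf (nat_lit 0) (nat_lit 6978633137) (nat_lit 588) (nat_lit 4160353149) (nat_lit 672) (nat_lit 5066005393) (nat_lit 139) (nat_lit 5) (nat_lit 146) (nat_lit 5) (nat_lit 147) (nat_lit 5) (nat_lit 372) (nat_lit 348) (nat_lit 225)) (XT.lf (nat_lit 0) (nat_lit 12949938523) (nat_lit 672) (nat_lit 1687135876) (nat_lit 84) (nat_lit 1845645155) (nat_lit 139) (nat_lit 5) (nat_lit 147) (nat_lit 5) (nat_lit 140) (nat_lit 5) (nat_lit 373)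 (nat_lit 348) (nat_lit 224)))) (XT.nd (nat_lit 188) (nat_lit 672) (nat_lit 0) (XT.nd (nat_lit 94) (nat_lit 0) (nat_lit 0) (XT.lf (nat_lit 0) (nat_lit 6146753550) (nat_lit 588) (nat_lit 8758368199) (nat_lit 672) (nat_lit 1860978464) (nat_lit 132) (nat_lit 5) (nat_lit 139) (nat_lit 5) (nat_lit 140) (nat_lit 5) (nat_lit 374) (nat_lit 348) (nat_lit 223)) (XT.lf (nat_lit 0) (nat_lit 14240081309) (nat_lit 588) (nat_lit 2685744887) (nat_lit 672) (nat_lit 131967620) (nat_lit 132) (nat_lit 5) (nat_lit 139) (nat_lit 5) (nat_lit 140) (nat_lit 5) (nat_lit 375) (nat_lit 348) (nat_lit 222))) (XT.nd (nat_lit 94) (nat_lit 0) (nat_lit 0) (XT.lf (nat_lit 0) (nat_lit 1692618401) (nat_lit 672) (nat_lit 12096150024) (nat_lit 84) (nat_lit 3566734350) (nat_lit 124) (nat_lit 5) (nat_lit 132) (nat_lit 5) (nat_lit 125) (nat_lit 5) (nat_lit 376) (nat_lit 348) (nat_lit 221)) (XT.lf (nat_lit 0) (nat_lit 3614820147)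 (nat_lit 672) (nat_lit 4063270392) (nat_lit 84) (nat_lit 9982663358) (nat_lit 124) (nat_lit 5) (nat_lit 132) (nat_lit 5) (nat_lit 125) (nat_lit 5) (nat_lit 377) (nat_lit 348) (nat_lit 220))))))))
noncomputable def xc156 : XT := (XT.nd (nat_lit 2538) (nat_lit 2604) (nat_lit 0) (XT.nd (nat_lit 1222) (nat_lit 2520) (nat_lit 0) (XT.nd (nat_lit 564) (nat_lit 1428) (nat_lit 0) (XT.nd (nat_lit 282) (nat_lit 420) (nat_lit 0) (XT.nd (nat_lit 94) (nat_lit 504) (nat_lit 0) (XT.lf (nat_lit 0) (nat_lit 4284204191) (nat_lit 504) (nat_lit 1342155410) (nat_lit 588) (nat_lit 12347868348) (nat_lit 118) (nat_lit 5) (nat_lit 124) (nat_lit 5) (nat_lit 125) (nat_lit 5) (nat_lit 378) (nat_lit 348) (nat_lit 219)) (XT.nd (nat_lit 94) (nat_lit 504) (nat_lit 0) (XT.lf (nat_lit 0) (nat_lit 7780178703) (nat_lit 588) (nat_lit 5390899140) (nat_lit 84) (nat_lit 5123585467) (nat_lit 118) (nat_lit 5) (nat_lit 125) (nat_lit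 5) (nat_lit 119) (nat_lit 5) (nat_lit 379) (nat_lit 348) (nat_lit 218)) (XT.lf (nat_lit 0) (nat_lit 3196397109) (nat_lit 504) (nat_lit 6837167272) (nat_lit 588) (nat_lit 8590113442) (nat_lit 112) (nat_lit 5) (nat_lit 118) (nat_lit 5) (nat_lit 119) (nat_lit 5) (nat_lit 380) (nat_lit 348) (nat_lit 217)))) (XT.nd (nat_lit 94) (nat_lit 420) (nat_lit 0) (XT.lf (nat_lit 0) (nat_lit 12142030660) (nat_lit 504) (nat_lit 258065941) (nat_lit 588) (nat_lit 6561114048) (nat_lit 112) (nat_lit 5) (nat_lit 118) (nat_lit 5) (nat_lit 119) (nat_lit 5) (nat_lit 381) (nat_lit 348) (nat_lit 216)) (XT.nd (nat_lit 94) (nat_lit 0) (nat_lit 0) (XT.lf (nat_lit 0) (nat_lit 2014036903) (nat_lit 420) (nat_lit 12896965061) (nat_lit 504) (nat_lit 4395679991) (nat_lit 107) (nat_lit 5) (nat_lit 112) (nat_lit 5) (nat_lit 113) (nat_lit 5) (nat_lit 382) (nat_lit 348) (nat_lit 215)) (XT.lf (nat_lit 0) (nat_lit 11239757583)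 (nat_lit 420) (nat_lit 6320384123) (nat_lit 504) (nat_lit 2100501886) (nat_lit 107) (nat_lit 5) (nat_lit 112) (nat_lit 5) (nat_lit 113) (nat_lit 5) (nat_lit 383) (nat_lit 348) (nat_lit 214))))) (XT.nd (nat_lit 282) (nat_lit 840) (nat_lit 0) (XT.nd (nat_lit 94) (nat_lit 0) (nat_lit 0) (XT.lf (nat_lit 0) (nat_lit 261410560) (nat_lit 588) (nat_lit 19310692189) (nat_lit 84) (nat_lit 452967327) (nat_lit 100) (nat_lit 5) (nat_lit 107) (nat_lit 5) (nat_lit 101) (nat_lit 5) (nat_lit 384) (nat_lit 348) (nat_lit 213)) (XT.nd (nat_lit 94) (nat_lit 0) (nat_lit 0) (XT.lf (nat_lit 0) (nat_lit 2792225456) (nat_lit 588) (nat_lit 10195497040) (nat_lit 84) (nat_lit 7407887328) (nat_lit 100) (nat_lit 5) (nat_lit 107) (nat_lit 5) (nat_lit 101) (nat_lit 5) (nat_lit 385) (nat_lit 348) (nat_lit 212)) (XT.lf (nat_lit 0) (nat_lit 5391012040) (nat_lit 588) (nat_lit 816284186) (nat_lit 84) (nat_lit 14570220033)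 (nat_lit 100) (nat_lit 5) (nat_lit 107) (nat_lit 5) (nat_lit 101) (nat_lit 5) (nat_lit 386) (nat_lit 348) (nat_lit 211)))) (XT.nd (nat_lit 188) (nat_lit 420) (nat_lit 0) (XT.nd (nat_lit 94) (nat_lit 0) (nat_lit 0) (XT.lf (nat_lit 0) (nat_lit 8154968492) (nat_lit 504) (nat_lit 12165854426) (nat_lit 84) (nat_lit 847452348) (nat_lit 95) (nat_lit 5) (nat_lit 101) (nat_lit 5) (nat_lit 96) (nat_lit 5) (nat_lit 387) (nat_lit 348) (nat_lit 210)) (XT.lf (nat_lit 0) (nat_lit 11064028721) (nat_lit 504) (nat_lit 2508927532) (nat_lit 84) (nat_lit 7995946469) (nat_lit 95) (nat_lit 5) (nat_lit 101) (nat_lit 5) (nat_lit 96) (nat_lit 5) (nat_lit 388) (nat_lit 348) (nat_lit 209))) (XT.nd (nat_lit 94) (nat_lit 0) (nat_lit 0) (XT.lf (nat_lit 0) (nat_lit 7576525454) (nat_lit 420) (nat_lit 6549289014) (nat_lit 504) (nat_lit 7853781822) (nat_lit 90) (nat_lit 5) (nat_lit 95) (nat_lit 5) (nat_lit 96) (nat_lit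 5) (nat_lit 389) (nat_lit 348) (nat_lit 208)) (XT.lf (nat_lit 0) (nat_lit 17304361558) (nat_lit 504) (nat_lit 4401864629) (nat_lit 84) (nat_lit 695647831) (nat_lit 90) (nat_lit 5) (nat_lit 96) (nat_lit 5) (nat_lit 91) (nat_lit 5) (nat_lit 390) (nat_lit 348) (nat_lit 207)))))) (XT.nd (nat_lit 658) (nat_lit 1344) (nat_lit 0) (XT.nd (nat_lit 282) (nat_lit 336) (nat_lit 0) (XT.nd (nat_lit 94) (nat_lit 504) (nat_lit 0) (XT.lf (nat_lit 0) (nat_lit 5941591407) (nat_lit 336) (nat_lit 14751580066) (nat_lit 420) (nat_lit 2140211691) (nat_lit 86) (nat_lit 5) (nat_lit 90) (nat_lit 5) (nat_lit 91) (nat_lit 5) (nat_lit 391) (nat_lit 348) (nat_lit 206)) (XT.nd (nat_lit 94) (nat_lit 420) (nat_lit 0) (XT.lf (nat_lit 0) (nat_lit 926013016) (nat_lit 420) (nat_lit 6609012186) (nat_lit 84) (nat_lit 15741424437) (nat_lit 85) (nat_lit 5) (nat_lit 90) (nat_lit 5) (nat_lit 86) (nat_lit 5) (nat_lit 392) (nat_lit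 348) (nat_lit 205)) (XT.lf (nat_lit 0) (nat_lit 4031035273) (nat_lit 420) (nat_lit 42116194) (nat_lit 504) (nat_lit 19658072046) (nat_lit 80) (nat_lit 5) (nat_lit 85) (nat_lit 5) (nat_lit 86) (nat_lit 5) (nat_lit 393) (nat_lit 348) (nat_lit 204)))) (XT.nd (nat_lit 188) (nat_lit 0) (nat_lit 0) (XT.nd (nat_lit 94) (nat_lit 336) (nat_lit 0) (XT.lf (nat_lit 0) (nat_lit 7449176833) (nat_lit 504) (nat_lit 9155110804) (nat_lit 84) (nat_lit 7591327915) (nat_lit 80) (nat_lit 5) (nat_lit 86) (nat_lit 5) (nat_lit 81) (nat_lit 5) (nat_lit 394) (nat_lit 348) (nat_lit 203)) (XT.lf (nat_lit 0) (nat_lit 1731147326) (nat_lit 336) (nat_lit 9205880416) (nat_lit 420) (nat_lit 13736604130) (nat_lit 76) (nat_lit 5) (nat_lit 80) (nat_lit 5) (nat_lit 81) (nat_lit 5) (nat_lit 395) (nat_lit 348) (nat_lit 202))) (XT.nd (nat_lit 94) (nat_lit 0) (nat_lit 0) (XT.lf (nat_lit 0) (nat_lit 13123212122) (nat_lit 336) (nat_lit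 1492346126) (nat_lit 420) (nat_lit 10547857719) (nat_lit 76) (nat_lit 5) (nat_lit 80) (nat_lit 5) (nat_lit 81) (nat_lit 5) (nat_lit 396) (nat_lit 348) (nat_lit 201)) (XT.lf (nat_lit 0) (nat_lit 18460233787) (nat_lit 420) (nat_lit 881262502) (nat_lit 84) (nat_lit 6324731978) (nat_lit 76) (nat_lit 5) (nat_lit 81) (nat_lit 5) (nat_lit 77) (nat_lit 5) (nat_lit 397) (nat_lit 348) (nat_lit 200))))) (XT.nd (nat_lit 282) (nat_lit 588) (nat_lit 0) (XT.nd (nat_lit 94) (nat_lit 420) (nat_lit 0) (XT.lf (nat_lit 0) (nat_lit 10800286493) (nat_lit 336) (nat_lit 11732502264) (nat_lit 420) (nat_lit 3647968117) (nat_lit 72) (nat_lit 5) (nat_lit 76) (nat_lit 5) (nat_lit 77) (nat_lit 5) (nat_lit 398) (nat_lit 348) (nat_lit 199)) (XT.nd (nat_lit 94) (nat_lit 336) (nat_lit 0) (XT.lf (nat_lit 0) (nat_lit 19435080) (nat_lit 420) (nat_lit 3868542102) (nat_lit 84) (nat_lit 22822658043) (nat_lit 71) (nat_lit 5)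 (nat_lit 76) (nat_lit 5) (nat_lit 72) (nat_lit 5) (nat_lit 399) (nat_lit 348) (nat_lit 198)) (XT.lf (nat_lit 0) (nat_lit 3836984553) (nat_lit 420) (nat_lit 19191782626) (nat_lit 84) (nat_lit 4223163276) (nat_lit 67) (nat_lit 5) (nat_lit 72) (nat_lit 5) (nat_lit 68) (nat_lit 5) (nat_lit 400) (nat_lit 348) (nat_lit 197)))) (XT.nd (nat_lit 188) (nat_lit 252) (nat_lit 0) (XT.nd (nat_lit 94) (nat_lit 336) (nat_lit 0) (XT.lf (nat_lit 0) (nat_lit 7841233308) (nat_lit 420) (nat_lit 7429202697) (nat_lit 84) (nat_lit 12536870561) (nat_lit 67) (nat_lit 5) (nat_lit 72) (nat_lit 5) (nat_lit 68) (nat_lit 5) (nat_lit 401) (nat_lit 348) (nat_lit 196)) (XT.lf (nat_lit 0) (nat_lit 4771570721) (nat_lit 336) (nat_lit 7234300726) (nat_lit 420) (nat_lit 16372271653) (nat_lit 63) (nat_lit 5) (nat_lit 67) (nat_lit 5) (nat_lit 68) (nat_lit 5) (nat_lit 402) (nat_lit 348) (nat_lit 195))) (XT.nd (nat_lit 94) (nat_lit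 252) (nat_lit 0) (XT.lf (nat_lit 0) (nat_lit 16375699631) (nat_lit 420) (nat_lit 11491832494) (nat_lit 84) (nat_lit 1096171872) (nat_lit 63) (nat_lit 5) (nat_lit 68) (nat_lit 5) (nat_lit 64) (nat_lit 5) (nat_lit 403) (nat_lit 348) (nat_lit 194)) (XT.lf (nat_lit 0) (nat_lit 925135632) (nat_lit 252) (nat_lit 20026630594) (nat_lit 336) (nat_lit 8612817785) (nat_lit 60) (nat_lit 5) (nat_lit 63) (nat_lit 5) (nat_lit 64) (nat_lit 5) (nat_lit 404) (nat_lit 348) (nat_lit 193))))))) (XT.nd (nat_lit 1316) (nat_lit 1092) (nat_lit 0) (XT.nd (nat_lit 658) (nat_lit 840) (nat_lit 0) (XT.nd (nat_lit 282) (nat_lit 252) (nat_lit 0) (XT.nd (nat_lit 94) (nat_lit 420) (nat_lit 0) (XT.lf (nat_lit 0) (nat_lit 13942619060) (nat_lit 252) (nat_lit 11833248457) (nat_lit 336) (nat_lit 4404306730) (nat_lit 60) (nat_lit 5) (nat_lit 63) (nat_lit 5) (nat_lit 64) (nat_lit 5) (nat_lit 405) (nat_lit 348) (nat_lit 192))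 (XT.nd (nat_lit 94) (nat_lit 420) (nat_lit 0) (XT.lf (nat_lit 0) (nat_lit 27343282292) (nat_lit 252) (nat_lit 3396271425) (nat_lit 336) (nat_lit 74838837) (nat_lit 60) (nat_lit 5) (nat_lit 63) (nat_lit 5) (nat_lit 64) (nat_lit 5) (nat_lit 406) (nat_lit 348) (nat_lit 191)) (XT.lf (nat_lit 0) (nat_lit 4440531342) (nat_lit 420) (nat_lit 21695337166) (nat_lit 84) (nat_lit 5326263086) (nat_lit 55) (nat_lit 5) (nat_lit 60) (nat_lit 5) (nat_lit 56) (nat_lit 5) (nat_lit 407) (nat_lit 348) (nat_lit 190)))) (XT.nd (nat_lit 188) (nat_lit 0) (nat_lit 0) (XT.nd (nat_lit 94) (nat_lit 252) (nat_lit 0) (XT.lf (nat_lit 0) (nat_lit 9153896425) (nat_lit 420) (nat_lit 8697274698) (nat_lit 84) (nat_lit 14276194003) (nat_lit 55) (nat_lit 5) (nat_lit 60) (nat_lit 5) (nat_lit 56) (nat_lit 5) (nat_lit 408) (nat_lit 348) (nat_lit 189)) (XT.lf (nat_lit 0) (nat_lit 4776856345) (nat_lit 252) (nat_lit 9272882514) (nat_lit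 336) (nat_lit 18761590038) (nat_lit 52) (nat_lit 5) (nat_lit 55) (nat_lit 5) (nat_lit 56) (nat_lit 5) (nat_lit 409) (nat_lit 348) (nat_lit 188))) (XT.nd (nat_lit 94) (nat_lit 0) (nat_lit 0) (XT.lf (nat_lit 0) (nat_lit 18826479434) (nat_lit 252) (nat_lit 349034450) (nat_lit 336) (nat_lit 14337811341) (nat_lit 52) (nat_lit 5) (nat_lit 55) (nat_lit 5) (nat_lit 56) (nat_lit 5) (nat_lit 410) (nat_lit 348) (nat_lit 187)) (XT.lf (nat_lit 0) (nat_lit 24535411739) (nat_lit 336) (nat_lit 1030726216) (nat_lit 84) (nat_lit 8667838207) (nat_lit 52) (nat_lit 5) (nat_lit 56) (nat_lit 5) (nat_lit 53) (nat_lit 5) (nat_lit 411) (nat_lit 348) (nat_lit 186))))) (XT.nd (nat_lit 282) (nat_lit 252) (nat_lit 0) (XT.nd (nat_lit 94) (nat_lit 336) (nat_lit 0) (XT.lf (nat_lit 0) (nat_lit 13284107785) (nat_lit 252) (nat_lit 16898634725) (nat_lit 336) (nat_lit 4789710093) (nat_lit 49) (nat_lit 5) (nat_lit 52) (nat_lit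 5) (nat_lit 53) (nat_lit 5) (nat_lit 412) (nat_lit 348) (nat_lit 185)) (XT.nd (nat_lit 94) (nat_lit 252) (nat_lit 0) (XT.lf (nat_lit 0) (nat_lit 267226394) (nat_lit 336) (nat_lit 7692681745) (nat_lit 84) (nat_lit 27772922683) (nat_lit 48) (nat_lit 5) (nat_lit 52) (nat_lit 5) (nat_lit 49) (nat_lit 5) (nat_lit 413) (nat_lit 348) (nat_lit 184)) (XT.lf (nat_lit 0) (nat_lit 5453700749) (nat_lit 336) (nat_lit 29724267946) (nat_lit 84) (nat_lit 1334410686) (nat_lit 45) (nat_lit 5) (nat_lit 49) (nat_lit 5) (nat_lit 46) (nat_lit 5) (nat_lit 414) (nat_lit 348) (nat_lit 183)))) (XT.nd (nat_lit 188) (nat_lit 252) (nat_lit 0) (XT.nd (nat_lit 94) (nat_lit 0) (nat_lit 0) (XT.lf (nat_lit 0) (nat_lit 10948708662) (nat_lit 336) (nat_lit 15538156633) (nat_lit 84) (nat_lit 10823865415) (nat_lit 45) (nat_lit 5) (nat_lit 49) (nat_lit 5) (nat_lit 46) (nat_lit 5) (nat_lit 415) (nat_lit 348) (nat_lit 182)) (XT.lf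 (nat_lit 0) (nat_lit 16604370925) (nat_lit 336) (nat_lit 932882776) (nat_lit 84) (nat_lit 20595909115) (nat_lit 45) (nat_lit 5) (nat_lit 49) (nat_lit 5) (nat_lit 46) (nat_lit 5) (nat_lit 416) (nat_lit 348) (nat_lit 181))) (XT.nd (nat_lit 94) (nat_lit 0) (nat_lit 0) (XT.lf (nat_lit 0) (nat_lit 14385019047) (nat_lit 252) (nat_lit 8178887933) (nat_lit 336) (nat_lit 16412339021) (nat_lit 42) (nat_lit 5) (nat_lit 45) (nat_lit 5) (nat_lit 46) (nat_lit 5) (nat_lit 417) (nat_lit 348) (nat_lit 180)) (XT.lf (nat_lit 0) (nat_lit 28721744179) (nat_lit 336) (nat_lit 9683164310) (nat_lit 84) (nat_lit 1439131851) (nat_lit 42) (nat_lit 5) (nat_lit 46) (nat_lit 5) (nat_lit 43) (nat_lit 5) (nat_lit 418) (nat_lit 348) (nat_lit 179)))))) (XT.nd (nat_lit 658) (nat_lit 420) (nat_lit 0) (XT.nd (nat_lit 282) (nat_lit 420) (nat_lit 0) (XT.nd (nat_lit 94) (nat_lit 84) (nat_lit 0) (XT.lf (nat_lit 0) (nat_lit 5696221265)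 (nat_lit 168) (nat_lit 29499912297) (nat_lit 252) (nat_lit 5537784427) (nat_lit 40) (nat_lit 5) (nat_lit 42) (nat_lit 5) (nat_lit 43) (nat_lit 5) (nat_lit 419) (nat_lit 348) (nat_lit 178)) (XT.nd (nat_lit 94) (nat_lit 0) (nat_lit 0) (XT.lf (nat_lit 0) (nat_lit 304927214) (nat_lit 252) (nat_lit 19921217866) (nat_lit 84) (nat_lit 21421443491) (nat_lit 39) (nat_lit 5) (nat_lit 42) (nat_lit 5) (nat_lit 40) (nat_lit 5) (nat_lit 420) (nat_lit 348) (nat_lit 177)) (XT.lf (nat_lit 0) (nat_lit 6207826406) (nat_lit 252) (nat_lit 4412011434) (nat_lit 84) (nat_lit 31967303893) (nat_lit 39) (nat_lit 5) (nat_lit 42) (nat_lit 5) (nat_lit 40) (nat_lit 5) (nat_lit 421) (nat_lit 348) (nat_lit 176)))) (XT.nd (nat_lit 188) (nat_lit 168) (nat_lit 0) (XT.nd (nat_lit 94) (nat_lit 0) (nat_lit 0) (XT.lf (nat_lit 0) (nat_lit 11786708005) (nat_lit 252) (nat_lit 610726182) (nat_lit 336) (nat_lit 31154162199) (nat_lit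 36) (nat_lit 5) (nat_lit 39) (nat_lit 5) (nat_lit 40) (nat_lit 5) (nat_lit 422) (nat_lit 348) (nat_lit 175)) (XT.lf (nat_lit 0) (nat_lit 18907306291) (nat_lit 336) (nat_lit 16081287776) (nat_lit 84) (nat_lit 9552356771) (nat_lit 36) (nat_lit 5) (nat_lit 40) (nat_lit 5) (nat_lit 37) (nat_lit 5) (nat_lit 423) (nat_lit 348) (nat_lit 174))) (XT.nd (nat_lit 94) (nat_lit 0) (nat_lit 0) (XT.lf (nat_lit 0) (nat_lit 62359794) (nat_lit 168) (nat_lit 25553220093) (nat_lit 252) (nat_lit 19944316220) (nat_lit 34) (nat_lit 5) (nat_lit 36) (nat_lit 5) (nat_lit 37) (nat_lit 5) (nat_lit 424) (nat_lit 348) (nat_lit 173)) (XT.lf (nat_lit 0) (nat_lit 17014391510) (nat_lit 168) (nat_lit 15669608283) (nat_lit 252) (nat_lit 13920646241) (nat_lit 34) (nat_lit 5) (nat_lit 36) (nat_lit 5) (nat_lit 37) (nat_lit 5) (nat_lit 425) (nat_lit 348) (nat_lit 172))))) (XT.nd (nat_lit 282) (nat_lit 168) (nat_lit 0) (XT.nd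 (nat_lit 94) (nat_lit 252) (nat_lit 0) (XT.lf (nat_lit 0) (nat_lit 34469570667) (nat_lit 168) (nat_lit 5491511949) (nat_lit 252) (nat_lit 7719760685) (nat_lit 34) (nat_lit 5) (nat_lit 36) (nat_lit 5) (nat_lit 37) (nat_lit 5) (nat_lit 426) (nat_lit 348) (nat_lit 171)) (XT.nd (nat_lit 94) (nat_lit 84) (nat_lit 0) (XT.lf (nat_lit 0) (nat_lit 3677516103) (nat_lit 168) (nat_lit 43858987973) (nat_lit 252) (nat_lit 1250424684) (nat_lit 32) (nat_lit 5) (nat_lit 34) (nat_lit 5) (nat_lit 35) (nat_lit 5) (nat_lit 427) (nat_lit 348) (nat_lit 170)) (XT.lf (nat_lit 0) (nat_lit 5493165179) (nat_lit 252) (nat_lit 28691488109) (nat_lit 84) (nat_lit 15734411366) (nat_lit 31) (nat_lit 5) (nat_lit 34) (nat_lit 5) (nat_lit 32) (nat_lit 5) (nat_lit 428) (nat_lit 348) (nat_lit 169)))) (XT.nd (nat_lit 188) (nat_lit 0) (nat_lit 0) (XT.nd (nat_lit 94) (nat_lit 168) (nat_lit 0) (XT.lf (nat_lit 0) (nat_lit 12410727059)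 (nat_lit 252) (nat_lit 11798605240) (nat_lit 84) (nat_lit 26875559814) (nat_lit 31) (nat_lit 5) (nat_lit 34) (nat_lit 5) (nat_lit 32) (nat_lit 5) (nat_lit 429) (nat_lit 348) (nat_lit 168)) (XT.lf (nat_lit 0) (nat_lit 5707388269) (nat_lit 168) (nat_lit 13880180353) (nat_lit 252) (nat_lit 32696575906) (nat_lit 29) (nat_lit 5) (nat_lit 31) (nat_lit 5) (nat_lit 32) (nat_lit 5) (nat_lit 430) (nat_lit 348) (nat_lit 167))) (XT.nd (nat_lit 94) (nat_lit 0) (nat_lit 0) (XT.lf (nat_lit 0) (nat_lit 23975423361) (nat_lit 168) (nat_lit 3120367308) (nat_lit 252) (nat_lit 26420104226) (nat_lit 29) (nat_lit 5) (nat_lit 31) (nat_lit 5) (nat_lit 32) (nat_lit 5) (nat_lit 431) (nat_lit 348) (nat_lit 166)) (XT.lf (nat_lit 0) (nat_lit 34902801092) (nat_lit 252) (nat_lit 12074562570) (nat_lit 84) (nat_lit 7805030423) (nat_lit 29) (nat_lit 5) (nat_lit 32) (nat_lit 5) (nat_lit 30) (nat_lit 5) (nat_lit 432) (nat_lit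 348) (nat_lit 165))))))))
noncomputable def xc157 : XT := (XT.nd (nat_lit 52640) (nat_lit 0) (nat_lit 6468) (XT.nd (nat_lit 1316) (nat_lit 168) (nat_lit 0) (XT.nd (nat_lit 658) (nat_lit 336) (nat_lit 0) (XT.nd (nat_lit 282) (nat_lit 168) (nat_lit 0) (XT.nd (nat_lit 94) (nat_lit 84) (nat_lit 0) (XT.lf (nat_lit 0) (nat_lit 5996662532) (nat_lit 168) (nat_lit 37032988667) (nat_lit 252) (nat_lit 13054670658) (nat_lit 27) (nat_lit 5) (nat_lit 29) (nat_lit 5) (nat_lit 30) (nat_lit 5) (nat_lit 433) (nat_lit 348) (nat_lit 164)) (XT.nd (nat_lit 94) (nat_lit 84) (nat_lit 0) (XT.lf (nat_lit 0) (nat_lit 24852805082) (nat_lit 168) (nat_lit 26666561392) (nat_lit 252) (nat_lit 5902371611) (nat_lit 27) (nat_lit 5) (nat_lit 29) (nat_lit 5) (nat_lit 30) (nat_lit 5) (nat_lit 434) (nat_lit 348) (nat_lit 163)) (XT.lf (nat_lit 0) (nat_lit 1433102765) (nat_lit 252) (nat_lit 14543378907) (nat_lit 84) (nat_lit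 42822459557) (nat_lit 26) (nat_lit 5) (nat_lit 29) (nat_lit 5) (nat_lit 27) (nat_lit 5) (nat_lit 435) (nat_lit 348) (nat_lit 162)))) (XT.nd (nat_lit 188) (nat_lit 0) (nat_lit 0) (XT.nd (nat_lit 94) (nat_lit 0) (nat_lit 0) (XT.lf (nat_lit 0) (nat_lit 4038793133) (nat_lit 168) (nat_lit 4867305744) (nat_lit 252) (nat_lit 51308527940) (nat_lit 24) (nat_lit 5) (nat_lit 26) (nat_lit 5) (nat_lit 27) (nat_lit 5) (nat_lit 436) (nat_lit 348) (nat_lit 161)) (XT.lf (nat_lit 0) (nat_lit 16812088341) (nat_lit 252) (nat_lit 38261022618) (nat_lit 84) (nat_lit 6593410055) (nat_lit 24) (nat_lit 5) (nat_lit 27) (nat_lit 5) (nat_lit 25) (nat_lit 5) (nat_lit 437) (nat_lit 348) (nat_lit 160))) (XT.nd (nat_lit 94) (nat_lit 0) (nat_lit 0) (XT.lf (nat_lit 0) (nat_lit 25000813178) (nat_lit 252) (nat_lit 19861368465) (nat_lit 84) (nat_lit 18298425807) (nat_lit 24) (nat_lit 5) (nat_lit 27) (nat_lit 5) (nat_lit 25)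 (nat_lit 5) (nat_lit 438) (nat_lit 348) (nat_lit 159)) (XT.lf (nat_lit 0) (nat_lit 33432641065) (nat_lit 252) (nat_lit 914006336) (nat_lit 84) (nat_lit 30352947860) (nat_lit 24) (nat_lit 5) (nat_lit 27) (nat_lit 5) (nat_lit 25) (nat_lit 5) (nat_lit 439) (nat_lit 348) (nat_lit 158))))) (XT.nd (nat_lit 282) (nat_lit 168) (nat_lit 0) (XT.nd (nat_lit 94) (nat_lit 0) (nat_lit 0) (XT.lf (nat_lit 0) (nat_lit 18967748812) (nat_lit 168) (nat_lit 23329520411) (nat_lit 252) (nat_lit 23982090084) (nat_lit 22) (nat_lit 5) (nat_lit 24) (nat_lit 5) (nat_lit 25) (nat_lit 5) (nat_lit 440) (nat_lit 348) (nat_lit 157)) (XT.nd (nat_lit 94) (nat_lit 0) (nat_lit 0) (XT.lf (nat_lit 0) (nat_lit 39460576662) (nat_lit 168) (nat_lit 11974037852) (nat_lit 252) (nat_lit 16471700316) (nat_lit 22) (nat_lit 5) (nat_lit 24) (nat_lit 5) (nat_lit 25) (nat_lit 5) (nat_lit 441) (nat_lit 348) (nat_lit 156)) (XT.lf (nat_lit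 0) (nat_lit 60564193050) (nat_lit 168) (nat_lit 279507131) (nat_lit 252) (nat_lit 8738452089) (nat_lit 22) (nat_lit 5) (nat_lit 24) (nat_lit 5) (nat_lit 25) (nat_lit 5) (nat_lit 442) (nat_lit 348) (nat_lit 155)))) (XT.nd (nat_lit 188) (nat_lit 0) (nat_lit 0) (XT.nd (nat_lit 94) (nat_lit 84) (nat_lit 0) (XT.lf (nat_lit 0) (nat_lit 11092062615) (nat_lit 84) (nat_lit 59660394386) (nat_lit 168) (nat_lit 549287672) (nat_lit 21) (nat_lit 5) (nat_lit 22) (nat_lit 5) (nat_lit 23) (nat_lit 4) (nat_lit 443) (nat_lit 348) (nat_lit 154)) (XT.lf (nat_lit 0) (nat_lit 7824088976) (nat_lit 168) (nat_lit 41163363481) (nat_lit 84) (nat_lit 24080427677) (nat_lit 20) (nat_lit 5) (nat_lit 22) (nat_lit 5) (nat_lit 21) (nat_lit 5) (nat_lit 444) (nat_lit 348) (nat_lit 153))) (XT.nd (nat_lit 94) (nat_lit 0) (nat_lit 0) (XT.lf (nat_lit 0) (nat_lit 16435374447) (nat_lit 168) (nat_lit 21554924139) (nat_lit 84) (nat_lit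 36896607133) (nat_lit 20) (nat_lit 5) (nat_lit 22) (nat_lit 5) (nat_lit 21) (nat_lit 5) (nat_lit 445) (nat_lit 348) (nat_lit 152)) (XT.lf (nat_lit 0) (nat_lit 25302811745) (nat_lit 168) (nat_lit 1361950355) (nat_lit 84) (nat_lit 50095807169) (nat_lit 20) (nat_lit 5) (nat_lit 22) (nat_lit 5) (nat_lit 21) (nat_lit 5) (nat_lit 446) (nat_lit 348) (nat_lit 151)))))) (XT.nd (nat_lit 50666) (nat_lit 0) (nat_lit 13440) (XT.nd (nat_lit 50290) (nat_lit 0) (nat_lit 13356) (XT.nd (nat_lit 50102) (nat_lit 0) (nat_lit 13272) (XT.lf (nat_lit 0) (nat_lit 19819961044) (nat_lit 168) (nat_lit 14804709663) (nat_lit 252) (nat_lit 44060121613) (nat_lit 18) (nat_lit 5) (nat_lit 20) (nat_lit 5) (nat_lit 21) (nat_lit 5) (nat_lit 447) (nat_lit 348) (nat_lit 150)) (XT.nd (nat_lit 94) (nat_lit 0) (nat_lit 0) (XT.lf (nat_lit 0) (nat_lit 470768130) (nat_lit 1260) (nat_lit 2653664471) (nat_lit 1260) (nat_lit 2653664471)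 (nat_lit 176) (nat_lit 3) (nat_lit 191) (nat_lit 3) (nat_lit 191) (nat_lit 5) (nat_lit 349) (nat_lit 349) (nat_lit 247)) (XT.lf (nat_lit 0) (nat_lit 1432564913) (nat_lit 1260) (nat_lit 299752525) (nat_lit 1260) (nat_lit 9982001171) (nat_lit 176) (nat_lit 3) (nat_lit 191) (nat_lit 3) (nat_lit 191) (nat_lit 5) (nat_lit 350) (nat_lit 349) (nat_lit 246)))) (XT.nd (nat_lit 188) (nat_lit 0) (nat_lit 84) (XT.nd (nat_lit 94) (nat_lit 0) (nat_lit 0) (XT.lf (nat_lit 0) (nat_lit 1995869371) (nat_lit 1176) (nat_lit 6960036466) (nat_lit 1260) (nat_lit 2919590186) (nat_lit 177) (nat_lit 5) (nat_lit 191) (nat_lit 5) (nat_lit 192) (nat_lit 5) (nat_lit 351) (nat_lit 349) (nat_lit 245)) (XT.lf (nat_lit 0) (nat_lit 2578203084) (nat_lit 1176) (nat_lit 1775498458) (nat_lit 1260) (nat_lit 7687777842) (nat_lit 177) (nat_lit 5) (nat_lit 191) (nat_lit 5) (nat_lit 192) (nat_lit 5) (nat_lit 352) (nat_lit 349) (nat_lit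 244))) (XT.nd (nat_lit 94) (nat_lit 0) (nat_lit 0) (XT.lf (nat_lit 0) (nat_lit 3199439729) (nat_lit 1176) (nat_lit 8590645666) (nat_lit 1260) (nat_lit 421747388) (nat_lit 178) (nat_lit 5) (nat_lit 192) (nat_lit 5) (nat_lit 193) (nat_lit 5) (nat_lit 353) (nat_lit 349) (nat_lit 243)) (XT.lf (nat_lit 0) (nat_lit 3883462070) (nat_lit 1176) (nat_lit 3224268884) (nat_lit 1260) (nat_lit 5278273918) (nat_lit 178) (nat_lit 5) (nat_lit 192) (nat_lit 5) (nat_lit 193) (nat_lit 5) (nat_lit 354) (nat_lit 349) (nat_lit 242))))) (XT.nd (nat_lit 282) (nat_lit 0) (nat_lit 168) (XT.nd (nat_lit 94) (nat_lit 0) (nat_lit 84) (XT.lf (nat_lit 84) (nat_lit 2338641570) (nat_lit 0) (nat_lit 2255277045) (nat_lit 1260) (nat_lit 7971337701) (nat_lit 179) (nat_lit 5) (nat_lit 178) (nat_lit 5) (nat_lit 193) (nat_lit 5) (nat_lit 355) (nat_lit 349) (nat_lit 241)) (XT.nd (nat_lit 94) (nat_lit 0) (nat_lit 0) (XT.lf (nat_lit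 0) (nat_lit 5368814022) (nat_lit 1176) (nat_lit 4651631772) (nat_lit 1260) (nat_lit 2728176433) (nat_lit 179) (nat_lit 5) (nat_lit 193) (nat_lit 5) (nat_lit 194) (nat_lit 5) (nat_lit 356) (nat_lit 349) (nat_lit 240)) (XT.lf (nat_lit 84) (nat_lit 1079065969) (nat_lit 0) (nat_lit 5104940993) (nat_lit 1260) (nat_lit 6753000418) (nat_lit 180) (nat_lit 5) (nat_lit 179) (nat_lit 5) (nat_lit 194) (nat_lit 5) (nat_lit 357) (nat_lit 349) (nat_lit 239)))) (XT.nd (nat_lit 188) (nat_lit 0) (nat_lit 0) (XT.nd (nat_lit 94) (nat_lit 0) (nat_lit 0) (XT.lf (nat_lit 0) (nat_lit 7055445755) (nat_lit 1176) (nat_lit 6063356158) (nat_lit 1260) (nat_lit 11317391) (nat_lit 180) (nat_lit 5) (nat_lit 194) (nat_lit 5) (nat_lit 195) (nat_lit 5) (nat_lit 358) (nat_lit 349) (nat_lit 238)) (XT.lf (nat_lit 0) (nat_lit 7988771759) (nat_lit 1176) (nat_lit 155863873) (nat_lit 1260) (nat_lit 5183344707) (nat_lit 180) (nat_lit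 5) (nat_lit 194) (nat_lit 5) (nat_lit 195) (nat_lit 5) (nat_lit 359) (nat_lit 349) (nat_lit 237))) (XT.nd (nat_lit 94) (nat_lit 0) (nat_lit 84) (XT.lf (nat_lit 84) (nat_lit 6036564256) (nat_lit 0) (nat_lit 2957191579) (nat_lit 1260) (nat_lit 4536738877) (nat_lit 181) (nat_lit 5) (nat_lit 180) (nat_lit 5) (nat_lit 195) (nat_lit 5) (nat_lit 360) (nat_lit 349) (nat_lit 236)) (XT.lf (nat_lit 0) (nat_lit 10039406145) (nat_lit 1176) (nat_lit 1354499159) (nat_lit 1260) (nat_lit 2344890176) (nat_lit 181) (nat_lit 5) (nat_lit 195) (nat_lit 5) (nat_lit 196) (nat_lit 5) (nat_lit 361) (nat_lit 349) (nat_lit 235))))))) (XT.nd (nat_lit 1316) (nat_lit 3108) (nat_lit 0) (XT.nd (nat_lit 658) (nat_lit 1764) (nat_lit 0) (XT.nd (nat_lit 282) (nat_lit 2352) (nat_lit 0) (XT.nd (nat_lit 94) (nat_lit 0) (nat_lit 0) (XT.lf (nat_lit 84) (nat_lit 5027778976) (nat_lit 0) (nat_lit 6152656887) (nat_lit 1260) (nat_lit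 2771014803) (nat_lit 182) (nat_lit 5) (nat_lit 181) (nat_lit 5) (nat_lit 196) (nat_lit 5) (nat_lit 362) (nat_lit 349) (nat_lit 234)) (XT.nd (nat_lit 94) (nat_lit 0) (nat_lit 84) (XT.lf (nat_lit 84) (nat_lit 11619223987) (nat_lit 0) (nat_lit 736850283) (nat_lit 1260) (nat_lit 1814424849) (nat_lit 182) (nat_lit 5) (nat_lit 181) (nat_lit 5) (nat_lit 196) (nat_lit 5) (nat_lit 363) (nat_lit 349) (nat_lit 233)) (XT.lf (nat_lit 84) (nat_lit 4034261588) (nat_lit 0) (nat_lit 9605156382) (nat_lit 1260) (nat_lit 754552189) (nat_lit 183) (nat_lit 5) (nat_lit 182) (nat_lit 5) (nat_lit 197) (nat_lit 5) (nat_lit 364) (nat_lit 349) (nat_lit 232)))) (XT.nd (nat_lit 188) (nat_lit 1176) (nat_lit 0) (XT.nd (nat_lit 94) (nat_lit 0) (nat_lit 84) (XT.lf (nat_lit 0) (nat_lit 351099478) (nat_lit 1260) (nat_lit 3774892974) (nat_lit 1344) (nat_lit 10497461652) (nat_lit 167) (nat_lit 5) (nat_lit 182) (nat_lit 5)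 (nat_lit 183) (nat_lit 5) (nat_lit 365) (nat_lit 349) (nat_lit 231)) (XT.lf (nat_lit 0) (nat_lit 1506660668) (nat_lit 1260) (nat_lit 11824674865) (nat_lit 84) (nat_lit 1527327901) (nat_lit 168) (nat_lit 5) (nat_lit 183) (nat_lit 5) (nat_lit 169) (nat_lit 5) (nat_lit 366) (nat_lit 349) (nat_lit 230))) (XT.nd (nat_lit 94) (nat_lit 1260) (nat_lit 0) (XT.lf (nat_lit 0) (nat_lit 2764140654) (nat_lit 1260) (nat_lit 5026892348) (nat_lit 84) (nat_lit 7307900002) (nat_lit 168) (nat_lit 5) (nat_lit 183) (nat_lit 5) (nat_lit 169) (nat_lit 5) (nat_lit 367) (nat_lit 349) (nat_lit 229)) (XT.lf (nat_lit 0) (nat_lit 2003832217) (nat_lit 1260) (nat_lit 2063031305) (nat_lit 1344) (nat_lit 11279342474) (nat_lit 153) (nat_lit 5) (nat_lit 168) (nat_lit 5) (nat_lit 169) (nat_lit 5) (nat_lit 368) (nat_lit 349) (nat_lit 228))))) (XT.nd (nat_lit 282) (nat_lit 1176) (nat_lit 0) (XT.nd (nat_lit 94) (nat_lit 588)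 (nat_lit 0) (XT.lf (nat_lit 0) (nat_lit 5485331040) (nat_lit 1344) (nat_lit 6298607916) (nat_lit 84) (nat_lit 3814678616) (nat_lit 153) (nat_lit 5) (nat_lit 169) (nat_lit 5) (nat_lit 154) (nat_lit 5) (nat_lit 369) (nat_lit 349) (nat_lit 227)) (XT.nd (nat_lit 94) (nat_lit 0) (nat_lit 0) (XT.lf (nat_lit 0) (nat_lit 944401590) (nat_lit 588) (nat_lit 6020306516) (nat_lit 672) (nat_lit 8893362413) (nat_lit 146) (nat_lit 5) (nat_lit 153) (nat_lit 5) (nat_lit 154) (nat_lit 5) (nat_lit 370) (nat_lit 349) (nat_lit 226)) (XT.lf (nat_lit 0) (nat_lit 8523843458) (nat_lit 588) (nat_lit 17306773) (nat_lit 672) (nat_lit 7582595430) (nat_lit 146) (nat_lit 5) (nat_lit 153) (nat_lit 5) (nat_lit 154) (nat_lit 5) (nat_lit 371) (nat_lit 349) (nat_lit 225)))) (XT.nd (nat_lit 188) (nat_lit 588) (nat_lit 0) (XT.nd (nat_lit 94) (nat_lit 588) (nat_lit 0) (XT.lf (nat_lit 0) (nat_lit 10213561943) (nat_lit 672) (nat_lit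 136019932) (nat_lit 84) (nat_lit 6046367454) (nat_lit 146) (nat_lit 5) (nat_lit 154) (nat_lit 5) (nat_lit 147) (nat_lit 5) (nat_lit 372) (nat_lit 349) (nat_lit 224)) (XT.lf (nat_lit 0) (nat_lit 7691969385) (nat_lit 588) (nat_lit 4308003467) (nat_lit 672) (nat_lit 4674449469) (nat_lit 139) (nat_lit 5) (nat_lit 146) (nat_lit 5) (nat_lit 147) (nat_lit 5) (nat_lit 373) (nat_lit 349) (nat_lit 223))) (XT.nd (nat_lit 94) (nat_lit 588) (nat_lit 0) (XT.lf (nat_lit 0) (nat_lit 13849696318) (nat_lit 672) (nat_lit 1232006348) (nat_lit 84) (nat_lit 1879272724) (nat_lit 139) (nat_lit 5) (nat_lit 147) (nat_lit 5) (nat_lit 140) (nat_lit 5) (nat_lit 374) (nat_lit 349) (nat_lit 222)) (XT.lf (nat_lit 0) (nat_lit 6831941490) (nat_lit 588) (nat_lit 9021516349) (nat_lit 672) (nat_lit 1399727811) (nat_lit 132) (nat_lit 5) (nat_lit 139) (nat_lit 5) (nat_lit 140) (nat_lit 5) (nat_lit 375) (nat_lit 349) (nat_lit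 221)))))) (XT.nd (nat_lit 658) (nat_lit 1428) (nat_lit 0) (XT.nd (nat_lit 282) (nat_lit 1008) (nat_lit 0) (XT.nd (nat_lit 94) (nat_lit 588) (nat_lit 0) (XT.lf (nat_lit 0) (nat_lit 358948986) (nat_lit 672) (nat_lit 2404129104) (nat_lit 84) (nat_lit 14790909434) (nat_lit 131) (nat_lit 5) (nat_lit 139) (nat_lit 5) (nat_lit 132) (nat_lit 5) (nat_lit 376) (nat_lit 349) (nat_lit 220)) (XT.nd (nat_lit 94) (nat_lit 0) (nat_lit 0) (XT.lf (nat_lit 0) (nat_lit 2226101985) (nat_lit 672) (nat_lit 11951919230) (nat_lit 84) (nat_lit 3682876551) (nat_lit 124) (nat_lit 5) (nat_lit 132) (nat_lit 5) (nat_lit 125) (nat_lit 5) (nat_lit 377) (nat_lit 349) (nat_lit 219)) (XT.lf (nat_lit 0) (nat_lit 4191910414) (nat_lit 672) (nat_lit 3692823557) (nat_lit 84) (nat_lit 10291017211) (nat_lit 124) (nat_lit 5) (nat_lit 132) (nat_lit 5) (nat_lit 125) (nat_lit 5) (nat_lit 378) (nat_lit 349) (nat_lit 218)))) (XT.nd (nat_lit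 188) (nat_lit 504) (nat_lit 0) (XT.nd (nat_lit 94) (nat_lit 0) (nat_lit 0) (XT.lf (nat_lit 0) (nat_lit 4900248352) (nat_lit 504) (nat_lit 1354584147) (nat_lit 588) (nat_lit 12244088172) (nat_lit 118) (nat_lit 5) (nat_lit 124) (nat_lit 5) (nat_lit 125) (nat_lit 5) (nat_lit 379) (nat_lit 349) (nat_lit 217)) (XT.lf (nat_lit 0) (nat_lit 8460137158) (nat_lit 588) (nat_lit 5065456623) (nat_lit 84) (nat_lit 5303790842) (nat_lit 118) (nat_lit 5) (nat_lit 125) (nat_lit 5) (nat_lit 119) (nat_lit 5) (nat_lit 380) (nat_lit 349) (nat_lit 216))) (XT.nd (nat_lit 94) (nat_lit 0) (nat_lit 0) (XT.lf (nat_lit 0) (nat_lit 3774682342) (nat_lit 504) (nat_lit 6998072723) (nat_lit 588) (nat_lit 8395786616) (nat_lit 112) (nat_lit 5) (nat_lit 118) (nat_lit 5) (nat_lit 119) (nat_lit 5) (nat_lit 381) (nat_lit 349) (nat_lit 215)) (XT.lf (nat_lit 0) (nat_lit 12974634608) (nat_lit 504) (nat_lit 222886009) (nat_lit 588)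 (nat_lit 6319083169) (nat_lit 112) (nat_lit 5) (nat_lit 118) (nat_lit 5) (nat_lit 119) (nat_lit 5) (nat_lit 382) (nat_lit 349) (nat_lit 214))))) (XT.nd (nat_lit 282) (nat_lit 420) (nat_lit 0) (XT.nd (nat_lit 94) (nat_lit 588) (nat_lit 0) (XT.lf (nat_lit 0) (nat_lit 2551112279) (nat_lit 420) (nat_lit 13225232422) (nat_lit 504) (nat_lit 4096336605) (nat_lit 107) (nat_lit 5) (nat_lit 112) (nat_lit 5) (nat_lit 113) (nat_lit 5) (nat_lit 383) (nat_lit 349) (nat_lit 213)) (XT.nd (nat_lit 94) (nat_lit 588) (nat_lit 0) (XT.lf (nat_lit 0) (nat_lit 12039721445) (nat_lit 420) (nat_lit 6453062064) (nat_lit 504) (nat_lit 1744862782) (nat_lit 107) (nat_lit 5) (nat_lit 112) (nat_lit 5) (nat_lit 113) (nat_lit 5) (nat_lit 384) (nat_lit 349) (nat_lit 212)) (XT.lf (nat_lit 0) (nat_lit 672884703) (nat_lit 588) (nat_lit 19410992029) (nat_lit 84) (nat_lit 529231835) (nat_lit 100) (nat_lit 5) (nat_lit 107) (nat_lit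 5) (nat_lit 101) (nat_lit 5) (nat_lit 385) (nat_lit 349) (nat_lit 211)))) (XT.nd (nat_lit 188) (nat_lit 420) (nat_lit 0) (XT.nd (nat_lit 94) (nat_lit 0) (nat_lit 0) (XT.lf (nat_lit 0) (nat_lit 3267867778) (nat_lit 588) (nat_lit 10036293091) (nat_lit 84) (nat_lit 7690973936) (nat_lit 100) (nat_lit 5) (nat_lit 107) (nat_lit 5) (nat_lit 101) (nat_lit 5) (nat_lit 386) (nat_lit 349) (nat_lit 210)) (XT.lf (nat_lit 0) (nat_lit 5933204109) (nat_lit 588) (nat_lit 389249546) (nat_lit 84) (nat_lit 15066404293) (nat_lit 100) (nat_lit 5) (nat_lit 107) (nat_lit 5) (nat_lit 101) (nat_lit 5) (nat_lit 387) (nat_lit 349) (nat_lit 209))) (XT.nd (nat_lit 94) (nat_lit 0) (nat_lit 0) (XT.lf (nat_lit 0) (nat_lit 8774001353) (nat_lit 504) (nat_lit 12072675645) (nat_lit 84) (nat_lit 944861665) (nat_lit 95) (nat_lit 5) (nat_lit 101) (nat_lit 5) (nat_lit 96) (nat_lit 5) (nat_lit 388) (nat_lit 349) (nat_lit 208))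 (XT.lf (nat_lit 0) (nat_lit 11759429005) (nat_lit 504) (nat_lit 2139385246) (nat_lit 84) (nat_lit 8305713938) (nat_lit 95) (nat_lit 5) (nat_lit 101) (nat_lit 5) (nat_lit 96) (nat_lit 5) (nat_lit 389) (nat_lit 349) (nat_lit 207))))))))
noncomputable def xc158 : XT := (XT.nd (nat_lit 2538) (nat_lit 2016) (nat_lit 0) (XT.nd (nat_lit 1222) (nat_lit 1848) (nat_lit 0) (XT.nd (nat_lit 564) (nat_lit 1092) (nat_lit 0) (XT.nd (nat_lit 282) (nat_lit 504) (nat_lit 0) (XT.nd (nat_lit 94) (nat_lit 336) (nat_lit 0) (XT.lf (nat_lit 0) (nat_lit 8244270446) (nat_lit 420) (nat_lit 6662444968) (nat_lit 504) (nat_lit 7721033387) (nat_lit 90) (nat_lit 5) (nat_lit 95) (nat_lit 5) (nat_lit 96) (nat_lit 5) (nat_lit 390) (nat_lit 349) (nat_lit 206)) (XT.nd (nat_lit 94) (nat_lit 336) (nat_lit 0) (XT.lf (nat_lit 0) (nat_lit 18170994794) (nat_lit 504) (nat_lit 4096169444) (nat_lit 84) (nat_lit 795834538) (nat_lit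 90) (nat_lit 5) (nat_lit 96) (nat_lit 5) (nat_lit 91) (nat_lit 5) (nat_lit 391) (nat_lit 349) (nat_lit 205)) (XT.lf (nat_lit 0) (nat_lit 6553298595) (nat_lit 336) (nat_lit 15102215659) (nat_lit 420) (nat_lit 1852132333) (nat_lit 86) (nat_lit 5) (nat_lit 90) (nat_lit 5) (nat_lit 91) (nat_lit 5) (nat_lit 392) (nat_lit 349) (nat_lit 204)))) (XT.nd (nat_lit 94) (nat_lit 420) (nat_lit 0) (XT.lf (nat_lit 0) (nat_lit 1289144228) (nat_lit 420) (nat_lit 6379310579) (nat_lit 84) (nat_lit 16295764377) (nat_lit 85) (nat_lit 5) (nat_lit 90) (nat_lit 5) (nat_lit 86) (nat_lit 5) (nat_lit 393) (nat_lit 349) (nat_lit 203)) (XT.nd (nat_lit 94) (nat_lit 0) (nat_lit 0) (XT.lf (nat_lit 0) (nat_lit 4525490668) (nat_lit 504) (nat_lit 19857565829) (nat_lit 84) (nat_lit 49749459) (nat_lit 80) (nat_lit 5) (nat_lit 86) (nat_lit 5) (nat_lit 81) (nat_lit 5) (nat_lit 394) (nat_lit 349) (nat_lit 202)) (XT.lf (nat_lit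 0) (nat_lit 7993585778) (nat_lit 504) (nat_lit 9009170859) (nat_lit 84) (nat_lit 7908662555) (nat_lit 80) (nat_lit 5) (nat_lit 86) (nat_lit 5) (nat_lit 81) (nat_lit 5) (nat_lit 395) (nat_lit 349) (nat_lit 201))))) (XT.nd (nat_lit 282) (nat_lit 756) (nat_lit 0) (XT.nd (nat_lit 94) (nat_lit 0) (nat_lit 0) (XT.lf (nat_lit 0) (nat_lit 2199551552) (nat_lit 336) (nat_lit 9381176444) (nat_lit 420) (nat_lit 13823221056) (nat_lit 76) (nat_lit 5) (nat_lit 80) (nat_lit 5) (nat_lit 81) (nat_lit 5) (nat_lit 396) (nat_lit 349) (nat_lit 200)) (XT.nd (nat_lit 94) (nat_lit 0) (nat_lit 0) (XT.lf (nat_lit 0) (nat_lit 13921248102) (nat_lit 336) (nat_lit 1439174388) (nat_lit 420) (nat_lit 10548292288) (nat_lit 76) (nat_lit 5) (nat_lit 80) (nat_lit 5) (nat_lit 81) (nat_lit 5) (nat_lit 397) (nat_lit 349) (nat_lit 199)) (XT.lf (nat_lit 0) (nat_lit 19312428155) (nat_lit 420) (nat_lit 506727751) (nat_lit 84) (nat_lit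 6607707838) (nat_lit 76) (nat_lit 5) (nat_lit 81) (nat_lit 5) (nat_lit 77) (nat_lit 5) (nat_lit 398) (nat_lit 349) (nat_lit 198)))) (XT.nd (nat_lit 188) (nat_lit 336) (nat_lit 0) (XT.nd (nat_lit 94) (nat_lit 84) (nat_lit 0) (XT.lf (nat_lit 0) (nat_lit 11521336609) (nat_lit 336) (nat_lit 11980948877) (nat_lit 420) (nat_lit 3454700595) (nat_lit 72) (nat_lit 5) (nat_lit 76) (nat_lit 5) (nat_lit 77) (nat_lit 5) (nat_lit 399) (nat_lit 349) (nat_lit 197)) (XT.lf (nat_lit 0) (nat_lit 308173152) (nat_lit 420) (nat_lit 3593020482) (nat_lit 84) (nat_lit 23601750170) (nat_lit 71) (nat_lit 5) (nat_lit 76) (nat_lit 5) (nat_lit 72) (nat_lit 5) (nat_lit 400) (nat_lit 349) (nat_lit 196))) (XT.nd (nat_lit 94) (nat_lit 0) (nat_lit 0) (XT.lf (nat_lit 0) (nat_lit 4236585538) (nat_lit 420) (nat_lit 19371939478) (nat_lit 84) (nat_lit 4452073437) (nat_lit 67) (nat_lit 5) (nat_lit 72) (nat_lit 5) (nat_lit 68)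 (nat_lit 5) (nat_lit 401) (nat_lit 349) (nat_lit 195)) (XT.lf (nat_lit 0) (nat_lit 8352675597) (nat_lit 420) (nat_lit 7268004382) (nat_lit 84) (nat_lit 13012214797) (nat_lit 67) (nat_lit 5) (nat_lit 72) (nat_lit 5) (nat_lit 68) (nat_lit 5) (nat_lit 402) (nat_lit 349) (nat_lit 194)))))) (XT.nd (nat_lit 658) (nat_lit 840) (nat_lit 0) (XT.nd (nat_lit 282) (nat_lit 420) (nat_lit 0) (XT.nd (nat_lit 94) (nat_lit 252) (nat_lit 0) (XT.lf (nat_lit 0) (nat_lit 5295026802) (nat_lit 336) (nat_lit 7342837026) (nat_lit 420) (nat_lit 16583134293) (nat_lit 63) (nat_lit 5) (nat_lit 67) (nat_lit 5) (nat_lit 68) (nat_lit 5) (nat_lit 403) (nat_lit 349) (nat_lit 193)) (XT.nd (nat_lit 94) (nat_lit 252) (nat_lit 0) (XT.lf (nat_lit 0) (nat_lit 17131882403) (nat_lit 420) (nat_lit 11460125981) (nat_lit 84) (nat_lit 1232334347) (nat_lit 63) (nat_lit 5) (nat_lit 68) (nat_lit 5) (nat_lit 64) (nat_lit 5) (nat_lit 404)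 (nat_lit 349) (nat_lit 192)) (XT.lf (nat_lit 0) (nat_lit 1325660390) (nat_lit 252) (nat_lit 20515438028) (nat_lit 336) (nat_lit 8602284170) (nat_lit 60) (nat_lit 5) (nat_lit 63) (nat_lit 5) (nat_lit 64) (nat_lit 5) (nat_lit 405) (nat_lit 349) (nat_lit 191)))) (XT.nd (nat_lit 188) (nat_lit 336) (nat_lit 0) (XT.nd (nat_lit 94) (nat_lit 84) (nat_lit 0) (XT.lf (nat_lit 0) (nat_lit 14722810923) (nat_lit 252) (nat_lit 12079516315) (nat_lit 336) (nat_lit 4275350351) (nat_lit 60) (nat_lit 5) (nat_lit 63) (nat_lit 5) (nat_lit 64) (nat_lit 5) (nat_lit 406) (nat_lit 349) (nat_lit 190)) (XT.lf (nat_lit 0) (nat_lit 172955000) (nat_lit 336) (nat_lit 3217895347) (nat_lit 84) (nat_lit 28340251381) (nat_lit 59) (nat_lit 5) (nat_lit 63) (nat_lit 5) (nat_lit 60) (nat_lit 5) (nat_lit 407) (nat_lit 349) (nat_lit 189))) (XT.nd (nat_lit 94) (nat_lit 0) (nat_lit 0) (XT.lf (nat_lit 0) (nat_lit 4819479748) (nat_lit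 420) (nat_lit 21986507308) (nat_lit 84) (nat_lit 5592356135) (nat_lit 55) (nat_lit 5) (nat_lit 60) (nat_lit 5) (nat_lit 56) (nat_lit 5) (nat_lit 408) (nat_lit 349) (nat_lit 188)) (XT.lf (nat_lit 0) (nat_lit 9667088527) (nat_lit 420) (nat_lit 8608979373) (nat_lit 84) (nat_lit 14807688713) (nat_lit 55) (nat_lit 5) (nat_lit 60) (nat_lit 5) (nat_lit 56) (nat_lit 5) (nat_lit 409) (nat_lit 349) (nat_lit 187))))) (XT.nd (nat_lit 282) (nat_lit 588) (nat_lit 0) (XT.nd (nat_lit 94) (nat_lit 0) (nat_lit 0) (XT.lf (nat_lit 0) (nat_lit 5265951939) (nat_lit 252) (nat_lit 9440229447) (nat_lit 336) (nat_lit 19082174586) (nat_lit 52) (nat_lit 5) (nat_lit 55) (nat_lit 5) (nat_lit 56) (nat_lit 5) (nat_lit 410) (nat_lit 349) (nat_lit 186)) (XT.nd (nat_lit 94) (nat_lit 0) (nat_lit 0) (XT.lf (nat_lit 0) (nat_lit 19726992169) (nat_lit 252) (nat_lit 251894277) (nat_lit 336) (nat_lit 14532738736) (nat_lit 52)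 (nat_lit 5) (nat_lit 55) (nat_lit 5) (nat_lit 56) (nat_lit 5) (nat_lit 411) (nat_lit 349) (nat_lit 185)) (XT.lf (nat_lit 0) (nat_lit 25493941636) (nat_lit 336) (nat_lit 729819142) (nat_lit 84) (nat_lit 9030311532) (nat_lit 52) (nat_lit 5) (nat_lit 56) (nat_lit 5) (nat_lit 53) (nat_lit 5) (nat_lit 412) (nat_lit 349) (nat_lit 184)))) (XT.nd (nat_lit 188) (nat_lit 252) (nat_lit 0) (XT.nd (nat_lit 94) (nat_lit 84) (nat_lit 0) (XT.lf (nat_lit 0) (nat_lit 14011206655) (nat_lit 252) (nat_lit 17296164508) (nat_lit 336) (nat_lit 4707438772) (nat_lit 49) (nat_lit 5) (nat_lit 52) (nat_lit 5) (nat_lit 53) (nat_lit 5) (nat_lit 413) (nat_lit 349) (nat_lit 183)) (XT.lf (nat_lit 0) (nat_lit 490343457) (nat_lit 336) (nat_lit 7599947835) (nat_lit 84) (nat_lit 28707843474) (nat_lit 48) (nat_lit 5) (nat_lit 52) (nat_lit 5) (nat_lit 49) (nat_lit 5) (nat_lit 414) (nat_lit 349) (nat_lit 182))) (XT.nd (nat_lit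 94) (nat_lit 0) (nat_lit 0) (XT.lf (nat_lit 0) (nat_lit 5830268593) (nat_lit 336) (nat_lit 30290116842) (nat_lit 84) (nat_lit 1480755292) (nat_lit 45) (nat_lit 5) (nat_lit 49) (nat_lit 5) (nat_lit 46) (nat_lit 5) (nat_lit 415) (nat_lit 349) (nat_lit 181)) (XT.lf (nat_lit 0) (nat_lit 11483924118) (nat_lit 336) (nat_lit 15687913814) (nat_lit 84) (nat_lit 11251797188) (nat_lit 45) (nat_lit 5) (nat_lit 49) (nat_lit 5) (nat_lit 46) (nat_lit 5) (nat_lit 416) (nat_lit 349) (nat_lit 180))))))) (XT.nd (nat_lit 1316) (nat_lit 840) (nat_lit 0) (XT.nd (nat_lit 658) (nat_lit 420) (nat_lit 0) (XT.nd (nat_lit 282) (nat_lit 504) (nat_lit 0) (XT.nd (nat_lit 94) (nat_lit 252) (nat_lit 0) (XT.lf (nat_lit 0) (nat_lit 17303234282) (nat_lit 336) (nat_lit 653696912) (nat_lit 84) (nat_lit 21313995913) (nat_lit 45) (nat_lit 5) (nat_lit 49) (nat_lit 5) (nat_lit 46) (nat_lit 5) (nat_lit 417) (nat_lit 349) (nat_lit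 179)) (XT.nd (nat_lit 94) (nat_lit 0) (nat_lit 0) (XT.lf (nat_lit 0) (nat_lit 15120730472) (nat_lit 252) (nat_lit 8317903157) (nat_lit 336) (nat_lit 16700762918) (nat_lit 42) (nat_lit 5) (nat_lit 45) (nat_lit 5) (nat_lit 46) (nat_lit 5) (nat_lit 418) (nat_lit 349) (nat_lit 178)) (XT.lf (nat_lit 0) (nat_lit 29776437042) (nat_lit 336) (nat_lit 9673391888) (nat_lit 84) (nat_lit 1583544753) (nat_lit 42) (nat_lit 5) (nat_lit 46) (nat_lit 5) (nat_lit 43) (nat_lit 5) (nat_lit 419) (nat_lit 349) (nat_lit 177)))) (XT.nd (nat_lit 188) (nat_lit 252) (nat_lit 0) (XT.nd (nat_lit 94) (nat_lit 84) (nat_lit 0) (XT.lf (nat_lit 0) (nat_lit 6164431457) (nat_lit 168) (nat_lit 30277862166) (nat_lit 252) (nat_lit 5507742701) (nat_lit 40) (nat_lit 5) (nat_lit 42) (nat_lit 5) (nat_lit 43) (nat_lit 5) (nat_lit 420) (nat_lit 349) (nat_lit 176)) (XT.lf (nat_lit 0) (nat_lit 500819859) (nat_lit 252) (nat_lit 20226294206)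 (nat_lit 84) (nat_lit 22164119856) (nat_lit 39) (nat_lit 5) (nat_lit 42) (nat_lit 5) (nat_lit 40) (nat_lit 5) (nat_lit 421) (nat_lit 349) (nat_lit 175))) (XT.nd (nat_lit 94) (nat_lit 252) (nat_lit 0) (XT.lf (nat_lit 0) (nat_lit 6575366856) (nat_lit 252) (nat_lit 4260332751) (nat_lit 84) (nat_lit 33023442486) (nat_lit 39) (nat_lit 5) (nat_lit 42) (nat_lit 5) (nat_lit 40) (nat_lit 5) (nat_lit 422) (nat_lit 349) (nat_lit 174)) (XT.lf (nat_lit 0) (nat_lit 12421563574) (nat_lit 252) (nat_lit 526522138) (nat_lit 336) (nat_lit 31904527078) (nat_lit 36) (nat_lit 5) (nat_lit 39) (nat_lit 5) (nat_lit 40) (nat_lit 5) (nat_lit 423) (nat_lit 349) (nat_lit 173))))) (XT.nd (nat_lit 282) (nat_lit 252) (nat_lit 0) (XT.nd (nat_lit 94) (nat_lit 168) (nat_lit 0) (XT.lf (nat_lit 0) (nat_lit 19649005131) (nat_lit 336) (nat_lit 16286250414) (nat_lit 84) (nat_lit 9936524737) (nat_lit 36) (nat_lit 5) (nat_lit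 40) (nat_lit 5) (nat_lit 37) (nat_lit 5) (nat_lit 424) (nat_lit 349) (nat_lit 172)) (XT.nd (nat_lit 94) (nat_lit 0) (nat_lit 0) (XT.lf (nat_lit 0) (nat_lit 338986230) (nat_lit 168) (nat_lit 26217099891) (nat_lit 252) (nat_lit 20365285808) (nat_lit 34) (nat_lit 5) (nat_lit 36) (nat_lit 5) (nat_lit 37) (nat_lit 5) (nat_lit 425) (nat_lit 349) (nat_lit 171)) (XT.lf (nat_lit 0) (nat_lit 17791576306) (nat_lit 168) (nat_lit 16039971479) (nat_lit 252) (nat_lit 14166071552) (nat_lit 34) (nat_lit 5) (nat_lit 36) (nat_lit 5) (nat_lit 37) (nat_lit 5) (nat_lit 426) (nat_lit 349) (nat_lit 170)))) (XT.nd (nat_lit 188) (nat_lit 84) (nat_lit 0) (XT.nd (nat_lit 94) (nat_lit 168) (nat_lit 0) (XT.lf (nat_lit 0) (nat_lit 35762641332) (nat_lit 168) (nat_lit 5559436868) (nat_lit 252) (nat_lit 7784174791) (nat_lit 34) (nat_lit 5) (nat_lit 36) (nat_lit 5) (nat_lit 37) (nat_lit 5) (nat_lit 427) (nat_lit 349) (nat_lit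 169)) (XT.lf (nat_lit 0) (nat_lit 4048330941) (nat_lit 168) (nat_lit 45075115739) (nat_lit 252) (nat_lit 1122118192) (nat_lit 32) (nat_lit 5) (nat_lit 34) (nat_lit 5) (nat_lit 35) (nat_lit 5) (nat_lit 428) (nat_lit 349) (nat_lit 168))) (XT.nd (nat_lit 94) (nat_lit 0) (nat_lit 0) (XT.lf (nat_lit 0) (nat_lit 5815808194) (nat_lit 252) (nat_lit 29296051054) (nat_lit 84) (nat_lit 16299903978) (nat_lit 31) (nat_lit 5) (nat_lit 34) (nat_lit 5) (nat_lit 32) (nat_lit 5) (nat_lit 429) (nat_lit 349) (nat_lit 167)) (XT.lf (nat_lit 0) (nat_lit 12936299414) (nat_lit 252) (nat_lit 11903843301) (nat_lit 84) (nat_lit 27772564735) (nat_lit 31) (nat_lit 5) (nat_lit 34) (nat_lit 5) (nat_lit 32) (nat_lit 5) (nat_lit 430) (nat_lit 349) (nat_lit 166)))))) (XT.nd (nat_lit 658) (nat_lit 252) (nat_lit 0) (XT.nd (nat_lit 282) (nat_lit 420) (nat_lit 0) (XT.nd (nat_lit 94) (nat_lit 0) (nat_lit 0) (XT.lf (nat_lit 0)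 (nat_lit 6124891580) (nat_lit 168) (nat_lit 14201458445) (nat_lit 252) (nat_lit 33521654199) (nat_lit 29) (nat_lit 5) (nat_lit 31) (nat_lit 5) (nat_lit 32) (nat_lit 5) (nat_lit 431) (nat_lit 349) (nat_lit 165)) (XT.nd (nat_lit 94) (nat_lit 0) (nat_lit 0) (XT.lf (nat_lit 0) (nat_lit 24933794473) (nat_lit 168) (nat_lit 3121621708) (nat_lit 252) (nat_lit 27061426785) (nat_lit 29) (nat_lit 5) (nat_lit 31) (nat_lit 5) (nat_lit 32) (nat_lit 5) (nat_lit 432) (nat_lit 349) (nat_lit 164)) (XT.lf (nat_lit 0) (nat_lit 36093224523) (nat_lit 252) (nat_lit 12201120419) (nat_lit 84) (nat_lit 8127098238) (nat_lit 29) (nat_lit 5) (nat_lit 32) (nat_lit 5) (nat_lit 30) (nat_lit 5) (nat_lit 433) (nat_lit 349) (nat_lit 163)))) (XT.nd (nat_lit 188) (nat_lit 252) (nat_lit 0) (XT.nd (nat_lit 94) (nat_lit 0) (nat_lit 0) (XT.lf (nat_lit 0) (nat_lit 6409930857) (nat_lit 168) (nat_lit 38052017622) (nat_lit 252) (nat_lit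 13300541824) (nat_lit 27) (nat_lit 5) (nat_lit 29) (nat_lit 5) (nat_lit 30) (nat_lit 5) (nat_lit 434) (nat_lit 349) (nat_lit 162)) (XT.lf (nat_lit 0) (nat_lit 25824960544) (nat_lit 168) (nat_lit 27377275996) (nat_lit 252) (nat_lit 5937919504) (nat_lit 27) (nat_lit 5) (nat_lit 29) (nat_lit 5) (nat_lit 30) (nat_lit 5) (nat_lit 435) (nat_lit 349) (nat_lit 161))) (XT.nd (nat_lit 94) (nat_lit 168) (nat_lit 0) (XT.lf (nat_lit 0) (nat_lit 1610815874) (nat_lit 252) (nat_lit 14756918056) (nat_lit 84) (nat_lit 44191025055) (nat_lit 26) (nat_lit 5) (nat_lit 29) (nat_lit 5) (nat_lit 27) (nat_lit 5) (nat_lit 436) (nat_lit 349) (nat_lit 160)) (XT.lf (nat_lit 0) (nat_lit 4380535203) (nat_lit 168) (nat_lit 4925663116) (nat_lit 252) (nat_lit 52710774099) (nat_lit 24) (nat_lit 5) (nat_lit 26) (nat_lit 5) (nat_lit 27) (nat_lit 5) (nat_lit 437) (nat_lit 349) (nat_lit 159))))) (XT.nd (nat_lit 282) (nat_lit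 252) (nat_lit 0) (XT.nd (nat_lit 94) (nat_lit 0) (nat_lit 0) (XT.lf (nat_lit 0) (nat_lit 17446314228) (nat_lit 252) (nat_lit 39191543763) (nat_lit 84) (nat_lit 6874660126) (nat_lit 24) (nat_lit 5) (nat_lit 27) (nat_lit 5) (nat_lit 25) (nat_lit 5) (nat_lit 438) (nat_lit 349) (nat_lit 158)) (XT.nd (nat_lit 94) (nat_lit 0) (nat_lit 0) (XT.lf (nat_lit 0) (nat_lit 25876918386) (nat_lit 252) (nat_lit 20246229388) (nat_lit 84) (nat_lit 18928395833) (nat_lit 24) (nat_lit 5) (nat_lit 27) (nat_lit 5) (nat_lit 25) (nat_lit 5) (nat_lit 439) (nat_lit 349) (nat_lit 157)) (XT.lf (nat_lit 0) (nat_lit 34558028853) (nat_lit 252) (nat_lit 736591448) (nat_lit 84) (nat_lit 31342193822) (nat_lit 24) (nat_lit 5) (nat_lit 27) (nat_lit 5) (nat_lit 25) (nat_lit 5) (nat_lit 440) (nat_lit 349) (nat_lit 156)))) (XT.nd (nat_lit 188) (nat_lit 84) (nat_lit 0) (XT.nd (nat_lit 94) (nat_lit 0) (nat_lit 0) (XT.lf (nat_lit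 0) (nat_lit 19739608167) (nat_lit 168) (nat_lit 23947372086) (nat_lit 252) (nat_lit 24577042122) (nat_lit 22) (nat_lit 5) (nat_lit 24) (nat_lit 5) (nat_lit 25) (nat_lit 5) (nat_lit 441) (nat_lit 349) (nat_lit 155)) (XT.lf (nat_lit 0) (nat_lit 40841313274) (nat_lit 168) (nat_lit 12253614389) (nat_lit 252) (nat_lit 16844967185) (nat_lit 22) (nat_lit 5) (nat_lit 24) (nat_lit 5) (nat_lit 25) (nat_lit 5) (nat_lit 442) (nat_lit 349) (nat_lit 154))) (XT.nd (nat_lit 94) (nat_lit 84) (nat_lit 0) (XT.lf (nat_lit 0) (nat_lit 62572302640) (nat_lit 168) (nat_lit 210567492) (nat_lit 252) (nat_lit 8883242409) (nat_lit 22) (nat_lit 5) (nat_lit 24) (nat_lit 5) (nat_lit 25) (nat_lit 5) (nat_lit 443) (nat_lit 349) (nat_lit 153)) (XT.lf (nat_lit 0) (nat_lit 11616867877) (nat_lit 84) (nat_lit 61371273183) (nat_lit 168) (nat_lit 449176692) (nat_lit 21) (nat_lit 5) (nat_lit 22) (nat_lit 5) (nat_lit 23) (nat_lit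 4) (nat_lit 444) (nat_lit 349) (nat_lit 152))))))))
noncomputable def xc159 : XT := (XT.nd (nat_lit 52640) (nat_lit 0) (nat_lit 4452) (XT.nd (nat_lit 51324) (nat_lit 0) (nat_lit 10164) (XT.nd (nat_lit 50666) (nat_lit 0) (nat_lit 13356) (XT.nd (nat_lit 282) (nat_lit 168) (nat_lit 0) (XT.nd (nat_lit 94) (nat_lit 0) (nat_lit 0) (XT.lf (nat_lit 0) (nat_lit 8169796622) (nat_lit 168) (nat_lit 42209524663) (nat_lit 84) (nat_lit 24877184686) (nat_lit 20) (nat_lit 5) (nat_lit 22) (nat_lit 5) (nat_lit 21) (nat_lit 5) (nat_lit 445) (nat_lit 349) (nat_lit 151)) (XT.nd (nat_lit 94) (nat_lit 0) (nat_lit 0) (XT.lf (nat_lit 0) (nat_lit 17036188086) (nat_lit 168) (nat_lit 22018329414) (nat_lit 84) (nat_lit 38075684161) (nat_lit 20) (nat_lit 5) (nat_lit 22) (nat_lit 5) (nat_lit 21) (nat_lit 5) (nat_lit 446) (nat_lit 349) (nat_lit 150)) (XT.lf (nat_lit 0) (nat_lit 26166510083) (nat_lit 168) (nat_lit 1224903576)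 (nat_lit 84) (nat_lit 51668757903) (nat_lit 20) (nat_lit 5) (nat_lit 22) (nat_lit 5) (nat_lit 21) (nat_lit 5) (nat_lit 447) (nat_lit 349) (nat_lit 149)))) (XT.nd (nat_lit 50196) (nat_lit 0) (nat_lit 13272) (XT.nd (nat_lit 50102) (nat_lit 0) (nat_lit 13272) (XT.lf (nat_lit 0) (nat_lit 20590720996) (nat_lit 168) (nat_lit 15175950177) (nat_lit 252) (nat_lit 45275492964) (nat_lit 18) (nat_lit 5) (nat_lit 20) (nat_lit 5) (nat_lit 21) (nat_lit 5) (nat_lit 448) (nat_lit 349) (nat_lit 148)) (XT.lf (nat_lit 0) (nat_lit 957212474) (nat_lit 1260) (nat_lit 2489577675) (nat_lit 1260) (nat_lit 2489577675) (nat_lit 176) (nat_lit 3) (nat_lit 191) (nat_lit 3) (nat_lit 191) (nat_lit 5) (nat_lit 350) (nat_lit 350) (nat_lit 245))) (XT.nd (nat_lit 94) (nat_lit 0) (nat_lit 84) (XT.lf (nat_lit 84) (nat_lit 167725358) (nat_lit 0) (nat_lit 2226557520) (nat_lit 1260) (nat_lit 9642150593) (nat_lit 177) (nat_lit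 5) (nat_lit 176) (nat_lit 3) (nat_lit 191) (nat_lit 5) (nat_lit 351) (nat_lit 350) (nat_lit 244)) (XT.lf (nat_lit 0) (nat_lit 2946567321) (nat_lit 1176) (nat_lit 6667631732) (nat_lit 1260) (nat_lit 2589135772) (nat_lit 177) (nat_lit 5) (nat_lit 191) (nat_lit 5) (nat_lit 192) (nat_lit 5) (nat_lit 352) (nat_lit 350) (nat_lit 243))))) (XT.nd (nat_lit 282) (nat_lit 0) (nat_lit 84) (XT.nd (nat_lit 94) (nat_lit 0) (nat_lit 84) (XT.lf (nat_lit 0) (nat_lit 3520424778) (nat_lit 1176) (nat_lit 1342155812) (nat_lit 1260) (nat_lit 7512545041) (nat_lit 177) (nat_lit 5) (nat_lit 191) (nat_lit 5) (nat_lit 192) (nat_lit 5) (nat_lit 353) (nat_lit 350) (nat_lit 242)) (XT.nd (nat_lit 94) (nat_lit 0) (nat_lit 0) (XT.lf (nat_lit 0) (nat_lit 4136255304) (nat_lit 1176) (nat_lit 8336110463) (nat_lit 1260) (nat_lit 78993273) (nat_lit 178) (nat_lit 5) (nat_lit 192) (nat_lit 5) (nat_lit 193) (nat_lit 5) (nat_lit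 354) (nat_lit 350) (nat_lit 241)) (XT.lf (nat_lit 0) (nat_lit 4816308052) (nat_lit 1176) (nat_lit 2823662413) (nat_lit 1260) (nat_lit 5091567246) (nat_lit 178) (nat_lit 5) (nat_lit 192) (nat_lit 5) (nat_lit 193) (nat_lit 5) (nat_lit 355) (nat_lit 350) (nat_lit 240)))) (XT.nd (nat_lit 188) (nat_lit 0) (nat_lit 84) (XT.nd (nat_lit 94) (nat_lit 0) (nat_lit 84) (XT.lf (nat_lit 84) (nat_lit 2901259525) (nat_lit 0) (nat_lit 2627775626) (nat_lit 1260) (nat_lit 7387748191) (nat_lit 179) (nat_lit 5) (nat_lit 178) (nat_lit 5) (nat_lit 193) (nat_lit 5) (nat_lit 356) (nat_lit 350) (nat_lit 239)) (XT.lf (nat_lit 0) (nat_lit 6301110158) (nat_lit 1176) (nat_lit 4285530548) (nat_lit 1260) (nat_lit 2519835573) (nat_lit 179) (nat_lit 5) (nat_lit 193) (nat_lit 5) (nat_lit 194) (nat_lit 5) (nat_lit 357) (nat_lit 350) (nat_lit 238))) (XT.nd (nat_lit 94) (nat_lit 0) (nat_lit 0) (XT.lf (nat_lit 84) (nat_lit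 1612130771) (nat_lit 0) (nat_lit 5510978023) (nat_lit 1260) (nat_lit 6177976444) (nat_lit 180) (nat_lit 5) (nat_lit 179) (nat_lit 5) (nat_lit 194) (nat_lit 5) (nat_lit 358) (nat_lit 350) (nat_lit 237)) (XT.lf (nat_lit 84) (nat_lit 7764993289) (nat_lit 0) (nat_lit 233634197) (nat_lit 1260) (nat_lit 5502066432) (nat_lit 180) (nat_lit 5) (nat_lit 179) (nat_lit 5) (nat_lit 194) (nat_lit 5) (nat_lit 359) (nat_lit 350) (nat_lit 236)))))) (XT.nd (nat_lit 658) (nat_lit 2352) (nat_lit 0) (XT.nd (nat_lit 282) (nat_lit 1092) (nat_lit 0) (XT.nd (nat_lit 94) (nat_lit 0) (nat_lit 0) (XT.lf (nat_lit 84) (nat_lit 343049534) (nat_lit 0) (nat_lit 8596714556) (nat_lit 1260) (nat_lit 4765372663) (nat_lit 181) (nat_lit 5) (nat_lit 180) (nat_lit 5) (nat_lit 195) (nat_lit 5) (nat_lit 360) (nat_lit 350) (nat_lit 235)) (XT.nd (nat_lit 94) (nat_lit 0) (nat_lit 84) (XT.lf (nat_lit 84) (nat_lit 6709684854) (nat_lit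 0) (nat_lit 3246022587) (nat_lit 1260) (nat_lit 3958633945) (nat_lit 181) (nat_lit 5) (nat_lit 180) (nat_lit 5) (nat_lit 195) (nat_lit 5) (nat_lit 361) (nat_lit 350) (nat_lit 234)) (XT.lf (nat_lit 0) (nat_lit 11010700271) (nat_lit 1176) (nat_lit 894148242) (nat_lit 1260) (nat_lit 2224741453) (nat_lit 181) (nat_lit 5) (nat_lit 195) (nat_lit 5) (nat_lit 196) (nat_lit 5) (nat_lit 362) (nat_lit 350) (nat_lit 233)))) (XT.nd (nat_lit 188) (nat_lit 1176) (nat_lit 0) (XT.nd (nat_lit 94) (nat_lit 0) (nat_lit 0) (XT.lf (nat_lit 84) (nat_lit 5674686611) (nat_lit 0) (nat_lit 6496525016) (nat_lit 1260) (nat_lit 2177892534) (nat_lit 182) (nat_lit 5) (nat_lit 181) (nat_lit 5) (nat_lit 196) (nat_lit 5) (nat_lit 363) (nat_lit 350) (nat_lit 232)) (XT.lf (nat_lit 84) (nat_lit 12449426207) (nat_lit 0) (nat_lit 913604746) (nat_lit 1260) (nat_lit 1212301562) (nat_lit 182) (nat_lit 5) (nat_lit 181) (nat_lit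 5) (nat_lit 196) (nat_lit 5) (nat_lit 364) (nat_lit 350) (nat_lit 231))) (XT.nd (nat_lit 94) (nat_lit 1260) (nat_lit 0) (XT.lf (nat_lit 84) (nat_lit 4653747862) (nat_lit 0) (nat_lit 10015943041) (nat_lit 1260) (nat_lit 136307062) (nat_lit 183) (nat_lit 5) (nat_lit 182) (nat_lit 5) (nat_lit 197) (nat_lit 5) (nat_lit 365) (nat_lit 350) (nat_lit 230)) (XT.lf (nat_lit 0) (nat_lit 971706037) (nat_lit 1260) (nat_lit 3390965803) (nat_lit 1344) (nat_lit 10680091600) (nat_lit 167) (nat_lit 5) (nat_lit 182) (nat_lit 5) (nat_lit 183) (nat_lit 5) (nat_lit 366) (nat_lit 350) (nat_lit 229))))) (XT.nd (nat_lit 282) (nat_lit 1176) (nat_lit 0) (XT.nd (nat_lit 94) (nat_lit 1260) (nat_lit 0) (XT.lf (nat_lit 0) (nat_lit 2147890420) (nat_lit 1260) (nat_lit 11667137236) (nat_lit 84) (nat_lit 1470454512) (nat_lit 168) (nat_lit 5) (nat_lit 183) (nat_lit 5) (nat_lit 169) (nat_lit 5) (nat_lit 367) (nat_lit 350)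 (nat_lit 228)) (XT.nd (nat_lit 94) (nat_lit 1260) (nat_lit 0) (XT.lf (nat_lit 0) (nat_lit 3425734710) (nat_lit 1260) (nat_lit 4680341958) (nat_lit 84) (nat_lit 7427434841) (nat_lit 168) (nat_lit 5) (nat_lit 183) (nat_lit 5) (nat_lit 169) (nat_lit 5) (nat_lit 368) (nat_lit 350) (nat_lit 227)) (XT.lf (nat_lit 0) (nat_lit 2556428293) (nat_lit 1260) (nat_lit 2198990540) (nat_lit 1344) (nat_lit 11033177453) (nat_lit 153) (nat_lit 5) (nat_lit 168) (nat_lit 5) (nat_lit 169) (nat_lit 5) (nat_lit 369) (nat_lit 350) (nat_lit 226)))) (XT.nd (nat_lit 188) (nat_lit 588) (nat_lit 0) (XT.nd (nat_lit 94) (nat_lit 588) (nat_lit 0) (XT.lf (nat_lit 0) (nat_lit 6199247685) (nat_lit 1344) (nat_lit 5991266164) (nat_lit 84) (nat_lit 3858611250) (nat_lit 153) (nat_lit 5) (nat_lit 169) (nat_lit 5) (nat_lit 154) (nat_lit 5) (nat_lit 370) (nat_lit 350) (nat_lit 225)) (XT.lf (nat_lit 0) (nat_lit 1464167941) (nat_lit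 588) (nat_lit 6247561408) (nat_lit 672) (nat_lit 8604998848) (nat_lit 146) (nat_lit 5) (nat_lit 153) (nat_lit 5) (nat_lit 154) (nat_lit 5) (nat_lit 371) (nat_lit 350) (nat_lit 224))) (XT.nd (nat_lit 94) (nat_lit 588) (nat_lit 0) (XT.lf (nat_lit 0) (nat_lit 9256679445) (nat_lit 588) (nat_lit 63113060) (nat_lit 672) (nat_lit 7271078693) (nat_lit 146) (nat_lit 5) (nat_lit 153) (nat_lit 5) (nat_lit 154) (nat_lit 5) (nat_lit 372) (nat_lit 350) (nat_lit 223)) (XT.lf (nat_lit 0) (nat_lit 346409498) (nat_lit 588) (nat_lit 10683658561) (nat_lit 672) (nat_lit 5841568810) (nat_lit 139) (nat_lit 5) (nat_lit 146) (nat_lit 5) (nat_lit 147) (nat_lit 5) (nat_lit 373) (nat_lit 350) (nat_lit 222))))))) (XT.nd (nat_lit 1316) (nat_lit 2436) (nat_lit 0) (XT.nd (nat_lit 658) (nat_lit 1512) (nat_lit 0) (XT.nd (nat_lit 282) (nat_lit 1176) (nat_lit 0) (XT.nd (nat_lit 94) (nat_lit 588) (nat_lit 0) (XT.lf (nat_lit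 0) (nat_lit 8397775364) (nat_lit 588) (nat_lit 4458772202) (nat_lit 672) (nat_lit 4302348061) (nat_lit 139) (nat_lit 5) (nat_lit 146) (nat_lit 5) (nat_lit 147) (nat_lit 5) (nat_lit 374) (nat_lit 350) (nat_lit 221)) (XT.nd (nat_lit 94) (nat_lit 588) (nat_lit 0) (XT.lf (nat_lit 0) (nat_lit 14747098452) (nat_lit 672) (nat_lit 792254687) (nat_lit 84) (nat_lit 1915157188) (nat_lit 139) (nat_lit 5) (nat_lit 147) (nat_lit 5) (nat_lit 140) (nat_lit 5) (nat_lit 375) (nat_lit 350) (nat_lit 220)) (XT.lf (nat_lit 0) (nat_lit 7508937940) (nat_lit 588) (nat_lit 9292536148) (nat_lit 672) (nat_lit 954322146) (nat_lit 132) (nat_lit 5) (nat_lit 139) (nat_lit 5) (nat_lit 140) (nat_lit 5) (nat_lit 376) (nat_lit 350) (nat_lit 219)))) (XT.nd (nat_lit 188) (nat_lit 504) (nat_lit 0) (XT.nd (nat_lit 94) (nat_lit 588) (nat_lit 0) (XT.lf (nat_lit 0) (nat_lit 833685046) (nat_lit 672) (nat_lit 2007963629) (nat_lit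 84) (nat_lit 15224273483) (nat_lit 131) (nat_lit 5) (nat_lit 139) (nat_lit 5) (nat_lit 132) (nat_lit 5) (nat_lit 377) (nat_lit 350) (nat_lit 218)) (XT.lf (nat_lit 0) (nat_lit 2747880833) (nat_lit 672) (nat_lit 11832472004) (nat_lit 84) (nat_lit 3801978335) (nat_lit 124) (nat_lit 5) (nat_lit 132) (nat_lit 5) (nat_lit 125) (nat_lit 5) (nat_lit 378) (nat_lit 350) (nat_lit 217))) (XT.nd (nat_lit 94) (nat_lit 504) (nat_lit 0) (XT.lf (nat_lit 0) (nat_lit 4759411211) (nat_lit 672) (nat_lit 3339525931) (nat_lit 84) (nat_lit 10608112278) (nat_lit 124) (nat_lit 5) (nat_lit 132) (nat_lit 5) (nat_lit 125) (nat_lit 5) (nat_lit 379) (nat_lit 350) (nat_lit 216)) (XT.lf (nat_lit 0) (nat_lit 5506788309) (nat_lit 504) (nat_lit 1368983642) (nat_lit 588) (nat_lit 12164416542) (nat_lit 118) (nat_lit 5) (nat_lit 124) (nat_lit 5) (nat_lit 125) (nat_lit 5) (nat_lit 380) (nat_lit 350) (nat_lit 215))))) (XT.nd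 (nat_lit 282) (nat_lit 1008) (nat_lit 0) (XT.nd (nat_lit 94) (nat_lit 504) (nat_lit 0) (XT.lf (nat_lit 0) (nat_lit 9134860392) (nat_lit 588) (nat_lit 4758216352) (nat_lit 84) (nat_lit 5487881297) (nat_lit 118) (nat_lit 5) (nat_lit 125) (nat_lit 5) (nat_lit 119) (nat_lit 5) (nat_lit 381) (nat_lit 350) (nat_lit 214)) (XT.nd (nat_lit 94) (nat_lit 0) (nat_lit 0) (XT.lf (nat_lit 0) (nat_lit 4342624782) (nat_lit 504) (nat_lit 7166343148) (nat_lit 588) (nat_lit 8221578370) (nat_lit 112) (nat_lit 5) (nat_lit 118) (nat_lit 5) (nat_lit 119) (nat_lit 5) (nat_lit 382) (nat_lit 350) (nat_lit 213)) (XT.lf (nat_lit 0) (nat_lit 13805331870) (nat_lit 504) (nat_lit 189114573) (nat_lit 588) (nat_lit 6094983970) (nat_lit 112) (nat_lit 5) (nat_lit 118) (nat_lit 5) (nat_lit 119) (nat_lit 5) (nat_lit 383) (nat_lit 350) (nat_lit 212)))) (XT.nd (nat_lit 188) (nat_lit 588) (nat_lit 0) (XT.nd (nat_lit 94) (nat_lit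 0) (nat_lit 0) (XT.lf (nat_lit 0) (nat_lit 3076938012) (nat_lit 420) (nat_lit 13566714072) (nat_lit 504) (nat_lit 3812766353) (nat_lit 107) (nat_lit 5) (nat_lit 112) (nat_lit 5) (nat_lit 113) (nat_lit 5) (nat_lit 384) (nat_lit 350) (nat_lit 211)) (XT.lf (nat_lit 0) (nat_lit 12837119268) (nat_lit 420) (nat_lit 6592988564) (nat_lit 504) (nat_lit 1402586966) (nat_lit 107) (nat_lit 5) (nat_lit 112) (nat_lit 5) (nat_lit 113) (nat_lit 5) (nat_lit 385) (nat_lit 350) (nat_lit 210))) (XT.nd (nat_lit 94) (nat_lit 0) (nat_lit 0) (XT.lf (nat_lit 0) (nat_lit 1073532951) (nat_lit 588) (nat_lit 19541798624) (nat_lit 84) (nat_lit 604186449) (nat_lit 100) (nat_lit 5) (nat_lit 107) (nat_lit 5) (nat_lit 101) (nat_lit 5) (nat_lit 386) (nat_lit 350) (nat_lit 209)) (XT.lf (nat_lit 0) (nat_lit 3735284110) (nat_lit 588) (nat_lit 9899009879) (nat_lit 84) (nat_lit 7979060104) (nat_lit 100) (nat_lit 5) (nat_lit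 107) (nat_lit 5) (nat_lit 101) (nat_lit 5) (nat_lit 387) (nat_lit 350) (nat_lit 208)))))) (XT.nd (nat_lit 658) (nat_lit 1176) (nat_lit 0) (XT.nd (nat_lit 282) (nat_lit 840) (nat_lit 0) (XT.nd (nat_lit 94) (nat_lit 0) (nat_lit 0) (XT.lf (nat_lit 0) (nat_lit 25167973) (nat_lit 420) (nat_lit 6444895838) (nat_lit 504) (nat_lit 15549156737) (nat_lit 95) (nat_lit 5) (nat_lit 100) (nat_lit 5) (nat_lit 101) (nat_lit 5) (nat_lit 388) (nat_lit 350) (nat_lit 207)) (XT.nd (nat_lit 94) (nat_lit 0) (nat_lit 0) (XT.lf (nat_lit 0) (nat_lit 9390114038) (nat_lit 504) (nat_lit 12003001437) (nat_lit 84) (nat_lit 1041060985) (nat_lit 95) (nat_lit 5) (nat_lit 101) (nat_lit 5) (nat_lit 96) (nat_lit 5) (nat_lit 389) (nat_lit 350) (nat_lit 206)) (XT.lf (nat_lit 0) (nat_lit 12454826093) (nat_lit 504) (nat_lit 1784290612) (nat_lit 84) (nat_lit 8620762512) (nat_lit 95) (nat_lit 5) (nat_lit 101) (nat_lit 5) (nat_lit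 96) (nat_lit 5) (nat_lit 390) (nat_lit 350) (nat_lit 205)))) (XT.nd (nat_lit 188) (nat_lit 420) (nat_lit 0) (XT.nd (nat_lit 94) (nat_lit 0) (nat_lit 0) (XT.lf (nat_lit 0) (nat_lit 8906764199) (nat_lit 420) (nat_lit 6783778666) (nat_lit 504) (nat_lit 7605447978) (nat_lit 90) (nat_lit 5) (nat_lit 95) (nat_lit 5) (nat_lit 96) (nat_lit 5) (nat_lit 391) (nat_lit 350) (nat_lit 204)) (XT.lf (nat_lit 0) (nat_lit 19043678968) (nat_lit 504) (nat_lit 3806432109) (nat_lit 84) (nat_lit 894473711) (nat_lit 90) (nat_lit 5) (nat_lit 96) (nat_lit 5) (nat_lit 91) (nat_lit 5) (nat_lit 392) (nat_lit 350) (nat_lit 203))) (XT.nd (nat_lit 94) (nat_lit 84) (nat_lit 0) (XT.lf (nat_lit 0) (nat_lit 7158474654) (nat_lit 336) (nat_lit 15468646434) (nat_lit 420) (nat_lit 1575633236) (nat_lit 86) (nat_lit 5) (nat_lit 90) (nat_lit 5) (nat_lit 91) (nat_lit 5) (nat_lit 393) (nat_lit 350) (nat_lit 202)) (XT.lf (nat_lit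 0) (nat_lit 1643918866) (nat_lit 420) (nat_lit 6167285266) (nat_lit 84) (nat_lit 16862021800) (nat_lit 85) (nat_lit 5) (nat_lit 90) (nat_lit 5) (nat_lit 86) (nat_lit 5) (nat_lit 394) (nat_lit 350) (nat_lit 201))))) (XT.nd (nat_lit 282) (nat_lit 420) (nat_lit 0) (XT.nd (nat_lit 94) (nat_lit 336) (nat_lit 0) (XT.lf (nat_lit 0) (nat_lit 4972841446) (nat_lit 504) (nat_lit 20044949825) (nat_lit 84) (nat_lit 138227188) (nat_lit 80) (nat_lit 5) (nat_lit 86) (nat_lit 5) (nat_lit 81) (nat_lit 5) (nat_lit 395) (nat_lit 350) (nat_lit 200)) (XT.nd (nat_lit 94) (nat_lit 336) (nat_lit 0) (XT.lf (nat_lit 0) (nat_lit 8535904087) (nat_lit 504) (nat_lit 8882996490) (nat_lit 84) (nat_lit 8230374125) (nat_lit 80) (nat_lit 5) (nat_lit 86) (nat_lit 5) (nat_lit 81) (nat_lit 5) (nat_lit 396) (nat_lit 350) (nat_lit 199)) (XT.lf (nat_lit 0) (nat_lit 2658100833) (nat_lit 336) (nat_lit 9567522299) (nat_lit 420) (nat_lit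 13931120442) (nat_lit 76) (nat_lit 5) (nat_lit 80) (nat_lit 5) (nat_lit 81) (nat_lit 5) (nat_lit 397) (nat_lit 350) (nat_lit 198)))) (XT.nd (nat_lit 188) (nat_lit 420) (nat_lit 0) (XT.nd (nat_lit 94) (nat_lit 0) (nat_lit 0) (XT.lf (nat_lit 0) (nat_lit 14720014414) (nat_lit 336) (nat_lit 1390029777) (nat_lit 420) (nat_lit 10566879653) (nat_lit 76) (nat_lit 5) (nat_lit 80) (nat_lit 5) (nat_lit 81) (nat_lit 5) (nat_lit 398) (nat_lit 350) (nat_lit 197)) (XT.lf (nat_lit 0) (nat_lit 20173059699) (nat_lit 420) (nat_lit 143974427) (nat_lit 84) (nat_lit 6893820967) (nat_lit 76) (nat_lit 5) (nat_lit 81) (nat_lit 5) (nat_lit 77) (nat_lit 5) (nat_lit 399) (nat_lit 350) (nat_lit 196))) (XT.nd (nat_lit 94) (nat_lit 84) (nat_lit 0) (XT.lf (nat_lit 0) (nat_lit 12241226422) (nat_lit 336) (nat_lit 12242791845) (nat_lit 420) (nat_lit 3273011643) (nat_lit 72) (nat_lit 5) (nat_lit 76) (nat_lit 5) (nat_lit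 77) (nat_lit 5) (nat_lit 400) (nat_lit 350) (nat_lit 195)) (XT.lf (nat_lit 0) (nat_lit 589032089) (nat_lit 420) (nat_lit 3331711385) (nat_lit 84) (nat_lit 24398795403) (nat_lit 71) (nat_lit 5) (nat_lit 76) (nat_lit 5) (nat_lit 72) (nat_lit 5) (nat_lit 401) (nat_lit 350) (nat_lit 194))))))))
noncomputable def xc160 : XT := (XT.nd (nat_lit 2538) (nat_lit 1176) (nat_lit 0) (XT.nd (nat_lit 1222) (nat_lit 1260) (nat_lit 0) (XT.nd (nat_lit 564) (nat_lit 924) (nat_lit 0) (XT.nd (nat_lit 282) (nat_lit 252) (nat_lit 0) (XT.nd (nat_lit 94) (nat_lit 336) (nat_lit 0) (XT.lf (nat_lit 0) (nat_lit 4631843580) (nat_lit 420) (nat_lit 19580209900) (nat_lit 84) (nat_lit 4681983328) (nat_lit 67) (nat_lit 5) (nat_lit 72) (nat_lit 5) (nat_lit 68) (nat_lit 5) (nat_lit 402) (nat_lit 350) (nat_lit 193)) (XT.nd (nat_lit 94) (nat_lit 336) (nat_lit 0) (XT.lf (nat_lit 0) (nat_lit 8863605841) (nat_lit 420) (nat_lit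 7124017560) (nat_lit 84) (nat_lit 13496122685) (nat_lit 67) (nat_lit 5) (nat_lit 72) (nat_lit 5) (nat_lit 68) (nat_lit 5) (nat_lit 403) (nat_lit 350) (nat_lit 192)) (XT.lf (nat_lit 0) (nat_lit 5812355276) (nat_lit 336) (nat_lit 7460857341) (nat_lit 420) (nat_lit 16816413495) (nat_lit 63) (nat_lit 5) (nat_lit 67) (nat_lit 5) (nat_lit 68) (nat_lit 5) (nat_lit 404) (nat_lit 350) (nat_lit 191)))) (XT.nd (nat_lit 94) (nat_lit 252) (nat_lit 0) (XT.lf (nat_lit 0) (nat_lit 17895543638) (nat_lit 420) (nat_lit 11449078701) (nat_lit 84) (nat_lit 1366653155) (nat_lit 63) (nat_lit 5) (nat_lit 68) (nat_lit 5) (nat_lit 64) (nat_lit 5) (nat_lit 405) (nat_lit 350) (nat_lit 190)) (XT.nd (nat_lit 94) (nat_lit 0) (nat_lit 0) (XT.lf (nat_lit 0) (nat_lit 1716802329) (nat_lit 252) (nat_lit 21025338455) (nat_lit 336) (nat_lit 8606871549) (nat_lit 60) (nat_lit 5) (nat_lit 63) (nat_lit 5) (nat_lit 64) (nat_lit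 5) (nat_lit 406) (nat_lit 350) (nat_lit 189)) (XT.lf (nat_lit 0) (nat_lit 15505633238) (nat_lit 252) (nat_lit 12339413732) (nat_lit 336) (nat_lit 4157512661) (nat_lit 60) (nat_lit 5) (nat_lit 63) (nat_lit 5) (nat_lit 64) (nat_lit 5) (nat_lit 407) (nat_lit 350) (nat_lit 188))))) (XT.nd (nat_lit 282) (nat_lit 504) (nat_lit 0) (XT.nd (nat_lit 94) (nat_lit 336) (nat_lit 0) (XT.lf (nat_lit 0) (nat_lit 412411551) (nat_lit 336) (nat_lit 2978295677) (nat_lit 84) (nat_lit 29285027304) (nat_lit 59) (nat_lit 5) (nat_lit 63) (nat_lit 5) (nat_lit 60) (nat_lit 5) (nat_lit 408) (nat_lit 350) (nat_lit 187)) (XT.nd (nat_lit 94) (nat_lit 0) (nat_lit 0) (XT.lf (nat_lit 0) (nat_lit 5195690557) (nat_lit 420) (nat_lit 22307060231) (nat_lit 84) (nat_lit 5860329625) (nat_lit 55) (nat_lit 5) (nat_lit 60) (nat_lit 5) (nat_lit 56) (nat_lit 5) (nat_lit 409) (nat_lit 350) (nat_lit 186)) (XT.lf (nat_lit 0) (nat_lit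 10181981199) (nat_lit 420) (nat_lit 8538081476) (nat_lit 84) (nat_lit 15349203652) (nat_lit 55) (nat_lit 5) (nat_lit 60) (nat_lit 5) (nat_lit 56) (nat_lit 5) (nat_lit 410) (nat_lit 350) (nat_lit 185)))) (XT.nd (nat_lit 188) (nat_lit 252) (nat_lit 0) (XT.nd (nat_lit 94) (nat_lit 0) (nat_lit 0) (XT.lf (nat_lit 0) (nat_lit 5749870645) (nat_lit 252) (nat_lit 9618959431) (nat_lit 336) (nat_lit 19426283566) (nat_lit 52) (nat_lit 5) (nat_lit 55) (nat_lit 5) (nat_lit 56) (nat_lit 5) (nat_lit 411) (nat_lit 350) (nat_lit 184)) (XT.lf (nat_lit 0) (nat_lit 20635248680) (nat_lit 252) (nat_lit 158017223) (nat_lit 336) (nat_lit 14747015794) (nat_lit 52) (nat_lit 5) (nat_lit 55) (nat_lit 5) (nat_lit 56) (nat_lit 5) (nat_lit 412) (nat_lit 350) (nat_lit 183))) (XT.nd (nat_lit 94) (nat_lit 252) (nat_lit 0) (XT.lf (nat_lit 0) (nat_lit 26468456883) (nat_lit 336) (nat_lit 438933189) (nat_lit 84) (nat_lit 9397778686)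 (nat_lit 52) (nat_lit 5) (nat_lit 56) (nat_lit 5) (nat_lit 53) (nat_lit 5) (nat_lit 413) (nat_lit 350) (nat_lit 182)) (XT.lf (nat_lit 0) (nat_lit 14741256906) (nat_lit 252) (nat_lit 17711901871) (nat_lit 336) (nat_lit 4635670490) (nat_lit 49) (nat_lit 5) (nat_lit 52) (nat_lit 5) (nat_lit 53) (nat_lit 5) (nat_lit 414) (nat_lit 350) (nat_lit 181)))))) (XT.nd (nat_lit 658) (nat_lit 504) (nat_lit 0) (XT.nd (nat_lit 282) (nat_lit 420) (nat_lit 0) (XT.nd (nat_lit 94) (nat_lit 252) (nat_lit 0) (XT.lf (nat_lit 0) (nat_lit 707806397) (nat_lit 336) (nat_lit 7523002957) (nat_lit 84) (nat_lit 29664971992) (nat_lit 48) (nat_lit 5) (nat_lit 52) (nat_lit 5) (nat_lit 49) (nat_lit 5) (nat_lit 415) (nat_lit 350) (nat_lit 180)) (XT.nd (nat_lit 94) (nat_lit 0) (nat_lit 0) (XT.lf (nat_lit 0) (nat_lit 6205908880) (nat_lit 336) (nat_lit 30891648000) (nat_lit 84) (nat_lit 1625387475) (nat_lit 45) (nat_lit 5)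 (nat_lit 49) (nat_lit 5) (nat_lit 46) (nat_lit 5) (nat_lit 416) (nat_lit 350) (nat_lit 179)) (XT.lf (nat_lit 0) (nat_lit 12023327501) (nat_lit 336) (nat_lit 15860325648) (nat_lit 84) (nat_lit 11686641905) (nat_lit 45) (nat_lit 5) (nat_lit 49) (nat_lit 5) (nat_lit 46) (nat_lit 5) (nat_lit 417) (nat_lit 350) (nat_lit 178)))) (XT.nd (nat_lit 188) (nat_lit 168) (nat_lit 0) (XT.nd (nat_lit 94) (nat_lit 252) (nat_lit 0) (XT.lf (nat_lit 0) (nat_lit 18011540689) (nat_lit 336) (nat_lit 383768421) (nat_lit 84) (nat_lit 22047872879) (nat_lit 45) (nat_lit 5) (nat_lit 49) (nat_lit 5) (nat_lit 46) (nat_lit 5) (nat_lit 418) (nat_lit 350) (nat_lit 177)) (XT.lf (nat_lit 0) (nat_lit 15861053163) (nat_lit 252) (nat_lit 8467193844) (nat_lit 336) (nat_lit 17009546884) (nat_lit 42) (nat_lit 5) (nat_lit 45) (nat_lit 5) (nat_lit 46) (nat_lit 5) (nat_lit 419) (nat_lit 350) (nat_lit 176))) (XT.nd (nat_lit 94) (nat_lit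 168) (nat_lit 0) (XT.lf (nat_lit 0) (nat_lit 30851689375) (nat_lit 336) (nat_lit 9680562868) (nat_lit 84) (nat_lit 1726478513) (nat_lit 42) (nat_lit 5) (nat_lit 46) (nat_lit 5) (nat_lit 43) (nat_lit 5) (nat_lit 420) (nat_lit 350) (nat_lit 175)) (XT.lf (nat_lit 0) (nat_lit 6629620366) (nat_lit 168) (nat_lit 31085295496) (nat_lit 252) (nat_lit 5488060985) (nat_lit 40) (nat_lit 5) (nat_lit 42) (nat_lit 5) (nat_lit 43) (nat_lit 5) (nat_lit 421) (nat_lit 350) (nat_lit 174))))) (XT.nd (nat_lit 282) (nat_lit 168) (nat_lit 0) (XT.nd (nat_lit 94) (nat_lit 252) (nat_lit 0) (XT.lf (nat_lit 0) (nat_lit 691869366) (nat_lit 252) (nat_lit 20557316988) (nat_lit 84) (nat_lit 22923334205) (nat_lit 39) (nat_lit 5) (nat_lit 42) (nat_lit 5) (nat_lit 40) (nat_lit 5) (nat_lit 422) (nat_lit 350) (nat_lit 173)) (XT.nd (nat_lit 94) (nat_lit 252) (nat_lit 0) (XT.lf (nat_lit 0) (nat_lit 6943525833) (nat_lit 252)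 (nat_lit 4120408711) (nat_lit 84) (nat_lit 34105690181) (nat_lit 39) (nat_lit 5) (nat_lit 42) (nat_lit 5) (nat_lit 40) (nat_lit 5) (nat_lit 423) (nat_lit 350) (nat_lit 172)) (XT.lf (nat_lit 0) (nat_lit 13059319661) (nat_lit 252) (nat_lit 445677375) (nat_lit 336) (nat_lit 32687980180) (nat_lit 36) (nat_lit 5) (nat_lit 39) (nat_lit 5) (nat_lit 40) (nat_lit 5) (nat_lit 424) (nat_lit 350) (nat_lit 171)))) (XT.nd (nat_lit 188) (nat_lit 0) (nat_lit 0) (XT.nd (nat_lit 94) (nat_lit 168) (nat_lit 0) (XT.lf (nat_lit 0) (nat_lit 20402939090) (nat_lit 336) (nat_lit 16513290188) (nat_lit 84) (nat_lit 10326615260) (nat_lit 36) (nat_lit 5) (nat_lit 40) (nat_lit 5) (nat_lit 37) (nat_lit 5) (nat_lit 425) (nat_lit 350) (nat_lit 170)) (XT.lf (nat_lit 0) (nat_lit 608139362) (nat_lit 168) (nat_lit 26906792449) (nat_lit 252) (nat_lit 20809065667) (nat_lit 34) (nat_lit 5) (nat_lit 36) (nat_lit 5) (nat_lit 37)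 (nat_lit 5) (nat_lit 426) (nat_lit 350) (nat_lit 169))) (XT.nd (nat_lit 94) (nat_lit 0) (nat_lit 0) (XT.lf (nat_lit 0) (nat_lit 18576763930) (nat_lit 168) (nat_lit 16427170197) (nat_lit 252) (nat_lit 14428744267) (nat_lit 34) (nat_lit 5) (nat_lit 36) (nat_lit 5) (nat_lit 37) (nat_lit 5) (nat_lit 427) (nat_lit 350) (nat_lit 168)) (XT.lf (nat_lit 0) (nat_lit 37079637402) (nat_lit 168) (nat_lit 5634957424) (nat_lit 252) (nat_lit 7860118062) (nat_lit 34) (nat_lit 5) (nat_lit 36) (nat_lit 5) (nat_lit 37) (nat_lit 5) (nat_lit 428) (nat_lit 350) (nat_lit 167))))))) (XT.nd (nat_lit 1316) (nat_lit 168) (nat_lit 0) (XT.nd (nat_lit 658) (nat_lit 420) (nat_lit 0) (XT.nd (nat_lit 282) (nat_lit 336) (nat_lit 0) (XT.nd (nat_lit 94) (nat_lit 84) (nat_lit 0) (XT.lf (nat_lit 0) (nat_lit 4415317069) (nat_lit 168) (nat_lit 46333447189) (nat_lit 252) (nat_lit 999481209) (nat_lit 32) (nat_lit 5) (nat_lit 34)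 (nat_lit 5) (nat_lit 35) (nat_lit 5) (nat_lit 429) (nat_lit 350) (nat_lit 166)) (XT.nd (nat_lit 94) (nat_lit 0) (nat_lit 0) (XT.lf (nat_lit 0) (nat_lit 6139069375) (nat_lit 252) (nat_lit 29933456764) (nat_lit 84) (nat_lit 16876996366) (nat_lit 31) (nat_lit 5) (nat_lit 34) (nat_lit 5) (nat_lit 32) (nat_lit 5) (nat_lit 430) (nat_lit 350) (nat_lit 165)) (XT.lf (nat_lit 0) (nat_lit 13468841731) (nat_lit 252) (nat_lit 12026516056) (nat_lit 84) (nat_lit 28691271064) (nat_lit 31) (nat_lit 5) (nat_lit 34) (nat_lit 5) (nat_lit 32) (nat_lit 5) (nat_lit 431) (nat_lit 350) (nat_lit 164)))) (XT.nd (nat_lit 188) (nat_lit 168) (nat_lit 0) (XT.nd (nat_lit 94) (nat_lit 0) (nat_lit 0) (XT.lf (nat_lit 0) (nat_lit 6540782416) (nat_lit 168) (nat_lit 14537835578) (nat_lit 252) (nat_lit 34380429487) (nat_lit 29) (nat_lit 5) (nat_lit 31) (nat_lit 5) (nat_lit 32) (nat_lit 5) (nat_lit 432) (nat_lit 350) (nat_lit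 163)) (XT.lf (nat_lit 0) (nat_lit 25907190917) (nat_lit 168) (nat_lit 3128215388) (nat_lit 252) (nat_lit 27730673144) (nat_lit 29) (nat_lit 5) (nat_lit 31) (nat_lit 5) (nat_lit 32) (nat_lit 5) (nat_lit 433) (nat_lit 350) (nat_lit 162))) (XT.nd (nat_lit 94) (nat_lit 168) (nat_lit 0) (XT.lf (nat_lit 0) (nat_lit 37311132389) (nat_lit 252) (nat_lit 12345003943) (nat_lit 84) (nat_lit 8453781298) (nat_lit 29) (nat_lit 5) (nat_lit 32) (nat_lit 5) (nat_lit 30) (nat_lit 5) (nat_lit 434) (nat_lit 350) (nat_lit 161)) (XT.lf (nat_lit 0) (nat_lit 6822200928) (nat_lit 168) (nat_lit 39106896366) (nat_lit 252) (nat_lit 13562156859) (nat_lit 27) (nat_lit 5) (nat_lit 29) (nat_lit 5) (nat_lit 30) (nat_lit 5) (nat_lit 435) (nat_lit 350) (nat_lit 160))))) (XT.nd (nat_lit 282) (nat_lit 168) (nat_lit 0) (XT.nd (nat_lit 94) (nat_lit 252) (nat_lit 0) (XT.lf (nat_lit 0) (nat_lit 26813274551) (nat_lit 168) (nat_lit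 28114437204) (nat_lit 252) (nat_lit 5982657847) (nat_lit 27) (nat_lit 5) (nat_lit 29) (nat_lit 5) (nat_lit 30) (nat_lit 5) (nat_lit 436) (nat_lit 350) (nat_lit 159)) (XT.nd (nat_lit 94) (nat_lit 168) (nat_lit 0) (XT.lf (nat_lit 0) (nat_lit 1786126896) (nat_lit 252) (nat_lit 14989650841) (nat_lit 84) (nat_lit 45595831790) (nat_lit 26) (nat_lit 5) (nat_lit 29) (nat_lit 5) (nat_lit 27) (nat_lit 5) (nat_lit 437) (nat_lit 350) (nat_lit 158)) (XT.lf (nat_lit 0) (nat_lit 4719867439) (nat_lit 168) (nat_lit 4990803356) (nat_lit 252) (nat_lit 54162952559) (nat_lit 24) (nat_lit 5) (nat_lit 26) (nat_lit 5) (nat_lit 27) (nat_lit 5) (nat_lit 438) (nat_lit 350) (nat_lit 157)))) (XT.nd (nat_lit 188) (nat_lit 168) (nat_lit 0) (XT.nd (nat_lit 94) (nat_lit 0) (nat_lit 0) (XT.lf (nat_lit 0) (nat_lit 18092112211) (nat_lit 252) (nat_lit 40162454997) (nat_lit 84) (nat_lit 7159557456) (nat_lit 24) (nat_lit 5)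 (nat_lit 27) (nat_lit 5) (nat_lit 25) (nat_lit 5) (nat_lit 439) (nat_lit 350) (nat_lit 156)) (XT.lf (nat_lit 0) (nat_lit 26772069196) (nat_lit 252) (nat_lit 20654747262) (nat_lit 84) (nat_lit 19572614238) (nat_lit 24) (nat_lit 5) (nat_lit 27) (nat_lit 5) (nat_lit 25) (nat_lit 5) (nat_lit 440) (nat_lit 350) (nat_lit 155))) (XT.nd (nat_lit 94) (nat_lit 168) (nat_lit 0) (XT.lf (nat_lit 0) (nat_lit 35710151523) (nat_lit 252) (nat_lit 565612485) (nat_lit 84) (nat_lit 32356601899) (nat_lit 24) (nat_lit 5) (nat_lit 27) (nat_lit 5) (nat_lit 25) (nat_lit 5) (nat_lit 441) (nat_lit 350) (nat_lit 154)) (XT.lf (nat_lit 0) (nat_lit 20522980210) (nat_lit 168) (nat_lit 24588468396) (nat_lit 252) (nat_lit 25196990142) (nat_lit 22) (nat_lit 5) (nat_lit 24) (nat_lit 5) (nat_lit 25) (nat_lit 5) (nat_lit 442) (nat_lit 350) (nat_lit 153)))))) (XT.nd (nat_lit 50760) (nat_lit 0) (nat_lit 13104) (XT.nd (nat_lit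 282) (nat_lit 84) (nat_lit 0) (XT.nd (nat_lit 94) (nat_lit 84) (nat_lit 0) (XT.lf (nat_lit 0) (nat_lit 42252168010) (nat_lit 168) (nat_lit 12546150148) (nat_lit 252) (nat_lit 17236371305) (nat_lit 22) (nat_lit 5) (nat_lit 24) (nat_lit 5) (nat_lit 25) (nat_lit 5) (nat_lit 443) (nat_lit 350) (nat_lit 152)) (XT.nd (nat_lit 94) (nat_lit 84) (nat_lit 0) (XT.lf (nat_lit 0) (nat_lit 64629680785) (nat_lit 168) (nat_lit 143998427) (nat_lit 252) (nat_lit 9039113568) (nat_lit 22) (nat_lit 5) (nat_lit 24) (nat_lit 5) (nat_lit 25) (nat_lit 5) (nat_lit 444) (nat_lit 350) (nat_lit 151)) (XT.lf (nat_lit 0) (nat_lit 12146393220) (nat_lit 84) (nat_lit 63138009423) (nat_lit 168) (nat_lit 352755104) (nat_lit 21) (nat_lit 5) (nat_lit 22) (nat_lit 5) (nat_lit 23) (nat_lit 4) (nat_lit 445) (nat_lit 350) (nat_lit 150)))) (XT.nd (nat_lit 188) (nat_lit 0) (nat_lit 0) (XT.nd (nat_lit 94) (nat_lit 0) (nat_lit 0)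 (XT.lf (nat_lit 0) (nat_lit 8519504507) (nat_lit 168) (nat_lit 43297905113) (nat_lit 84) (nat_lit 25693576745) (nat_lit 20) (nat_lit 5) (nat_lit 22) (nat_lit 5) (nat_lit 21) (nat_lit 5) (nat_lit 446) (nat_lit 350) (nat_lit 149)) (XT.lf (nat_lit 0) (nat_lit 17648840704) (nat_lit 168) (nat_lit 22506155714) (nat_lit 84) (nat_lit 39285990140) (nat_lit 20) (nat_lit 5) (nat_lit 22) (nat_lit 5) (nat_lit 21) (nat_lit 5) (nat_lit 447) (nat_lit 350) (nat_lit 148))) (XT.nd (nat_lit 50196) (nat_lit 0) (nat_lit 13104) (XT.lf (nat_lit 0) (nat_lit 27050114101) (nat_lit 168) (nat_lit 1093957885) (nat_lit 84) (nat_lit 53284874479) (nat_lit 20) (nat_lit 5) (nat_lit 22) (nat_lit 5) (nat_lit 21) (nat_lit 5) (nat_lit 448) (nat_lit 350) (nat_lit 147)) (XT.lf (nat_lit 0) (nat_lit 1431136974) (nat_lit 1260) (nat_lit 2334557465) (nat_lit 1260) (nat_lit 2334557465) (nat_lit 176) (nat_lit 3) (nat_lit 191) (nat_lit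 3) (nat_lit 191) (nat_lit 5) (nat_lit 351) (nat_lit 351) (nat_lit 243))))) (XT.nd (nat_lit 282) (nat_lit 0) (nat_lit 84) (XT.nd (nat_lit 94) (nat_lit 0) (nat_lit 84) (XT.lf (nat_lit 84) (nat_lit 627668131) (nat_lit 0) (nat_lit 2707297914) (nat_lit 1260) (nat_lit 9034842922) (nat_lit 177) (nat_lit 5) (nat_lit 176) (nat_lit 3) (nat_lit 191) (nat_lit 5) (nat_lit 352) (nat_lit 351) (nat_lit 242)) (XT.nd (nat_lit 94) (nat_lit 0) (nat_lit 0) (XT.lf (nat_lit 0) (nat_lit 3874649390) (nat_lit 1176) (nat_lit 6395226120) (nat_lit 1260) (nat_lit 2272765052) (nat_lit 177) (nat_lit 5) (nat_lit 191) (nat_lit 5) (nat_lit 192) (nat_lit 5) (nat_lit 353) (nat_lit 351) (nat_lit 241)) (XT.lf (nat_lit 0) (nat_lit 4441265724) (nat_lit 1176) (nat_lit 923746153) (nat_lit 1260) (nat_lit 7355353633) (nat_lit 177) (nat_lit 5) (nat_lit 191) (nat_lit 5) (nat_lit 192) (nat_lit 5) (nat_lit 354) (nat_lit 351) (nat_lit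 240)))) (XT.nd (nat_lit 188) (nat_lit 0) (nat_lit 84) (XT.nd (nat_lit 94) (nat_lit 0) (nat_lit 84) (XT.lf (nat_lit 84) (nat_lit 4796705169) (nat_lit 0) (nat_lit 258689641) (nat_lit 1260) (nat_lit 7847141753) (nat_lit 178) (nat_lit 5) (nat_lit 177) (nat_lit 5) (nat_lit 192) (nat_lit 5) (nat_lit 355) (nat_lit 351) (nat_lit 239)) (XT.lf (nat_lit 0) (nat_lit 5730278035) (nat_lit 1176) (nat_lit 2439586785) (nat_lit 1260) (nat_lit 4919066936) (nat_lit 178) (nat_lit 5) (nat_lit 192) (nat_lit 5) (nat_lit 193) (nat_lit 5) (nat_lit 356) (nat_lit 351) (nat_lit 238))) (XT.nd (nat_lit 94) (nat_lit 0) (nat_lit 84) (XT.lf (nat_lit 84) (nat_lit 3452486875) (nat_lit 0) (nat_lit 2993950087) (nat_lit 1260) (nat_lit 6833879043) (nat_lit 179) (nat_lit 5) (nat_lit 178) (nat_lit 5) (nat_lit 193) (nat_lit 5) (nat_lit 357) (nat_lit 351) (nat_lit 237)) (XT.lf (nat_lit 0) (nat_lit 7217103323) (nat_lit 1176) (nat_lit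 3937472676) (nat_lit 1260) (nat_lit 2321902359) (nat_lit 179) (nat_lit 5) (nat_lit 193) (nat_lit 5) (nat_lit 194) (nat_lit 5) (nat_lit 358) (nat_lit 351) (nat_lit 236))))))))
noncomputable def xc161 : XT := (XT.nd (nat_lit 2538) (nat_lit 4620) (nat_lit 0) (XT.nd (nat_lit 1222) (nat_lit 3864) (nat_lit 0) (XT.nd (nat_lit 564) (nat_lit 2184) (nat_lit 0) (XT.nd (nat_lit 282) (nat_lit 0) (nat_lit 84) (XT.nd (nat_lit 94) (nat_lit 0) (nat_lit 0) (XT.lf (nat_lit 84) (nat_lit 2132445700) (nat_lit 0) (nat_lit 5914679311) (nat_lit 1260) (nat_lit 5630339975) (nat_lit 180) (nat_lit 5) (nat_lit 179) (nat_lit 5) (nat_lit 194) (nat_lit 5) (nat_lit 359) (nat_lit 351) (nat_lit 235)) (XT.nd (nat_lit 94) (nat_lit 0) (nat_lit 84) (XT.lf (nat_lit 84) (nat_lit 8456147948) (nat_lit 0) (nat_lit 472072298) (nat_lit 1260) (nat_lit 4955501471) (nat_lit 180) (nat_lit 5) (nat_lit 179) (nat_lit 5) (nat_lit 194) (nat_lit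 5) (nat_lit 360) (nat_lit 351) (nat_lit 234)) (XT.lf (nat_lit 84) (nat_lit 831033904) (nat_lit 0) (nat_lit 9048902654) (nat_lit 1260) (nat_lit 4214928893) (nat_lit 181) (nat_lit 5) (nat_lit 180) (nat_lit 5) (nat_lit 195) (nat_lit 5) (nat_lit 361) (nat_lit 351) (nat_lit 233)))) (XT.nd (nat_lit 94) (nat_lit 0) (nat_lit 84) (XT.lf (nat_lit 84) (nat_lit 7374754899) (nat_lit 0) (nat_lit 3532031090) (nat_lit 1260) (nat_lit 3404184274) (nat_lit 181) (nat_lit 5) (nat_lit 180) (nat_lit 5) (nat_lit 195) (nat_lit 5) (nat_lit 362) (nat_lit 351) (nat_lit 232)) (XT.nd (nat_lit 94) (nat_lit 0) (nat_lit 0) (XT.lf (nat_lit 0) (nat_lit 11972666055) (nat_lit 1176) (nat_lit 448745438) (nat_lit 1260) (nat_lit 2111923486) (nat_lit 181) (nat_lit 5) (nat_lit 195) (nat_lit 5) (nat_lit 196) (nat_lit 5) (nat_lit 363) (nat_lit 351) (nat_lit 231)) (XT.lf (nat_lit 84) (nat_lit 6312524782) (nat_lit 0) (nat_lit 6841565382)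 (nat_lit 1260) (nat_lit 1605796269) (nat_lit 182) (nat_lit 5) (nat_lit 181) (nat_lit 5) (nat_lit 196) (nat_lit 5) (nat_lit 364) (nat_lit 351) (nat_lit 230))))) (XT.nd (nat_lit 282) (nat_lit 1176) (nat_lit 0) (XT.nd (nat_lit 94) (nat_lit 1176) (nat_lit 0) (XT.lf (nat_lit 84) (nat_lit 13276887219) (nat_lit 0) (nat_lit 1086784360) (nat_lit 1260) (nat_lit 629803578) (nat_lit 182) (nat_lit 5) (nat_lit 181) (nat_lit 5) (nat_lit 196) (nat_lit 5) (nat_lit 365) (nat_lit 351) (nat_lit 229)) (XT.nd (nat_lit 94) (nat_lit 0) (nat_lit 0) (XT.lf (nat_lit 0) (nat_lit 454647805) (nat_lit 1260) (nat_lit 9972774866) (nat_lit 1344) (nat_lit 4803966316) (nat_lit 167) (nat_lit 5) (nat_lit 182) (nat_lit 5) (nat_lit 183) (nat_lit 5) (nat_lit 366) (nat_lit 351) (nat_lit 228)) (XT.lf (nat_lit 0) (nat_lit 1575910075) (nat_lit 1260) (nat_lit 3024060637) (nat_lit 1344) (nat_lit 10875794657) (nat_lit 167) (nat_lit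 5) (nat_lit 182) (nat_lit 5) (nat_lit 183) (nat_lit 5) (nat_lit 367) (nat_lit 351) (nat_lit 227)))) (XT.nd (nat_lit 188) (nat_lit 1260) (nat_lit 0) (XT.nd (nat_lit 94) (nat_lit 0) (nat_lit 0) (XT.lf (nat_lit 0) (nat_lit 2774142508) (nat_lit 1260) (nat_lit 11534280324) (nat_lit 84) (nat_lit 1417769933) (nat_lit 168) (nat_lit 5) (nat_lit 183) (nat_lit 5) (nat_lit 169) (nat_lit 5) (nat_lit 368) (nat_lit 351) (nat_lit 226)) (XT.lf (nat_lit 0) (nat_lit 4073958572) (nat_lit 1260) (nat_lit 4351945393) (nat_lit 84) (nat_lit 7556279037) (nat_lit 168) (nat_lit 5) (nat_lit 183) (nat_lit 5) (nat_lit 169) (nat_lit 5) (nat_lit 369) (nat_lit 351) (nat_lit 225))) (XT.nd (nat_lit 94) (nat_lit 0) (nat_lit 0) (XT.lf (nat_lit 0) (nat_lit 3097331821) (nat_lit 1260) (nat_lit 2334776728) (nat_lit 1344) (nat_lit 10813182774) (nat_lit 153) (nat_lit 5) (nat_lit 168) (nat_lit 5) (nat_lit 169) (nat_lit 5) (nat_lit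 370) (nat_lit 351) (nat_lit 224)) (XT.lf (nat_lit 0) (nat_lit 6903046506) (nat_lit 1344) (nat_lit 5703193810) (nat_lit 84) (nat_lit 3907909294) (nat_lit 153) (nat_lit 5) (nat_lit 169) (nat_lit 5) (nat_lit 154) (nat_lit 5) (nat_lit 371) (nat_lit 351) (nat_lit 223)))))) (XT.nd (nat_lit 658) (nat_lit 2016) (nat_lit 0) (XT.nd (nat_lit 282) (nat_lit 672) (nat_lit 0) (XT.nd (nat_lit 94) (nat_lit 588) (nat_lit 0) (XT.lf (nat_lit 0) (nat_lit 1971316943) (nat_lit 588) (nat_lit 6478956294) (nat_lit 672) (nat_lit 8339853086) (nat_lit 146) (nat_lit 5) (nat_lit 153) (nat_lit 5) (nat_lit 154) (nat_lit 5) (nat_lit 372) (nat_lit 351) (nat_lit 222)) (XT.nd (nat_lit 94) (nat_lit 588) (nat_lit 0) (XT.lf (nat_lit 0) (nat_lit 9984111831) (nat_lit 588) (nat_lit 107693873) (nat_lit 672) (nat_lit 6981156950) (nat_lit 146) (nat_lit 5) (nat_lit 153) (nat_lit 5) (nat_lit 154) (nat_lit 5) (nat_lit 373) (nat_lit 351)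 (nat_lit 221)) (XT.lf (nat_lit 0) (nat_lit 818012363) (nat_lit 588) (nat_lit 11025069901) (nat_lit 672) (nat_lit 5519403359) (nat_lit 139) (nat_lit 5) (nat_lit 146) (nat_lit 5) (nat_lit 147) (nat_lit 5) (nat_lit 374) (nat_lit 351) (nat_lit 220)))) (XT.nd (nat_lit 188) (nat_lit 672) (nat_lit 0) (XT.nd (nat_lit 94) (nat_lit 0) (nat_lit 0) (XT.lf (nat_lit 0) (nat_lit 9097485887) (nat_lit 588) (nat_lit 4612828167) (nat_lit 672) (nat_lit 3948493731) (nat_lit 139) (nat_lit 5) (nat_lit 146) (nat_lit 5) (nat_lit 147) (nat_lit 5) (nat_lit 375) (nat_lit 351) (nat_lit 219)) (XT.lf (nat_lit 0) (nat_lit 15643758973) (nat_lit 672) (nat_lit 366675687) (nat_lit 84) (nat_lit 1953294610) (nat_lit 139) (nat_lit 5) (nat_lit 147) (nat_lit 5) (nat_lit 140) (nat_lit 5) (nat_lit 376) (nat_lit 351) (nat_lit 218))) (XT.nd (nat_lit 94) (nat_lit 84) (nat_lit 0) (XT.lf (nat_lit 0) (nat_lit 8179147361) (nat_lit 588)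 (nat_lit 9571665054) (nat_lit 672) (nat_lit 523532921) (nat_lit 132) (nat_lit 5) (nat_lit 139) (nat_lit 5) (nat_lit 140) (nat_lit 5) (nat_lit 377) (nat_lit 351) (nat_lit 217)) (XT.lf (nat_lit 0) (nat_lit 1296029551) (nat_lit 672) (nat_lit 1626794915) (nat_lit 84) (nat_lit 15671233346) (nat_lit 131) (nat_lit 5) (nat_lit 139) (nat_lit 5) (nat_lit 132) (nat_lit 5) (nat_lit 378) (nat_lit 351) (nat_lit 216))))) (XT.nd (nat_lit 282) (nat_lit 924) (nat_lit 0) (XT.nd (nat_lit 94) (nat_lit 504) (nat_lit 0) (XT.lf (nat_lit 0) (nat_lit 3259194428) (nat_lit 672) (nat_lit 11736880792) (nat_lit 84) (nat_lit 3924158608) (nat_lit 124) (nat_lit 5) (nat_lit 132) (nat_lit 5) (nat_lit 125) (nat_lit 5) (nat_lit 379) (nat_lit 351) (nat_lit 215)) (XT.nd (nat_lit 94) (nat_lit 504) (nat_lit 0) (XT.lf (nat_lit 0) (nat_lit 5318579149) (nat_lit 672) (nat_lit 3002269600) (nat_lit 84) (nat_lit 10934240038) (nat_lit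 124) (nat_lit 5) (nat_lit 132) (nat_lit 5) (nat_lit 125) (nat_lit 5) (nat_lit 380) (nat_lit 351) (nat_lit 214)) (XT.lf (nat_lit 0) (nat_lit 6105145418) (nat_lit 504) (nat_lit 1385321293) (nat_lit 588) (nat_lit 12108014063) (nat_lit 118) (nat_lit 5) (nat_lit 124) (nat_lit 5) (nat_lit 125) (nat_lit 5) (nat_lit 381) (nat_lit 351) (nat_lit 213)))) (XT.nd (nat_lit 188) (nat_lit 420) (nat_lit 0) (XT.nd (nat_lit 94) (nat_lit 504) (nat_lit 0) (XT.lf (nat_lit 0) (nat_lit 9805662843) (nat_lit 588) (nat_lit 4468119059) (nat_lit 84) (nat_lit 5676060698) (nat_lit 118) (nat_lit 5) (nat_lit 125) (nat_lit 5) (nat_lit 119) (nat_lit 5) (nat_lit 382) (nat_lit 351) (nat_lit 212)) (XT.lf (nat_lit 0) (nat_lit 4901503742) (nat_lit 504) (nat_lit 7342053814) (nat_lit 588) (nat_lit 8066602717) (nat_lit 112) (nat_lit 5) (nat_lit 118) (nat_lit 5) (nat_lit 119) (nat_lit 5) (nat_lit 383) (nat_lit 351) (nat_lit 211)))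 (XT.nd (nat_lit 94) (nat_lit 420) (nat_lit 0) (XT.lf (nat_lit 0) (nat_lit 14635608541) (nat_lit 504) (nat_lit 156652449) (nat_lit 588) (nat_lit 5887908243) (nat_lit 112) (nat_lit 5) (nat_lit 118) (nat_lit 5) (nat_lit 119) (nat_lit 5) (nat_lit 384) (nat_lit 351) (nat_lit 210)) (XT.lf (nat_lit 0) (nat_lit 3592747297) (nat_lit 420) (nat_lit 13921613201) (nat_lit 504) (nat_lit 3544021480) (nat_lit 107) (nat_lit 5) (nat_lit 112) (nat_lit 5) (nat_lit 113) (nat_lit 5) (nat_lit 385) (nat_lit 351) (nat_lit 209))))))) (XT.nd (nat_lit 1316) (nat_lit 2016) (nat_lit 0) (XT.nd (nat_lit 658) (nat_lit 1176) (nat_lit 0) (XT.nd (nat_lit 282) (nat_lit 840) (nat_lit 0) (XT.nd (nat_lit 94) (nat_lit 588) (nat_lit 0) (XT.lf (nat_lit 0) (nat_lit 13633399006) (nat_lit 420) (nat_lit 6740193471) (nat_lit 504) (nat_lit 1072695775) (nat_lit 107) (nat_lit 5) (nat_lit 112) (nat_lit 5) (nat_lit 113) (nat_lit 5) (nat_lit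 386) (nat_lit 351) (nat_lit 208)) (XT.nd (nat_lit 94) (nat_lit 0) (nat_lit 0) (XT.lf (nat_lit 0) (nat_lit 1464360589) (nat_lit 588) (nat_lit 19702448694) (nat_lit 84) (nat_lit 677998402) (nat_lit 100) (nat_lit 5) (nat_lit 107) (nat_lit 5) (nat_lit 101) (nat_lit 5) (nat_lit 387) (nat_lit 351) (nat_lit 207)) (XT.lf (nat_lit 0) (nat_lit 4195518992) (nat_lit 588) (nat_lit 9782772516) (nat_lit 84) (nat_lit 8272496334) (nat_lit 100) (nat_lit 5) (nat_lit 107) (nat_lit 5) (nat_lit 101) (nat_lit 5) (nat_lit 388) (nat_lit 351) (nat_lit 206)))) (XT.nd (nat_lit 188) (nat_lit 420) (nat_lit 0) (XT.nd (nat_lit 94) (nat_lit 0) (nat_lit 0) (XT.lf (nat_lit 0) (nat_lit 435079616) (nat_lit 420) (nat_lit 6571054473) (nat_lit 504) (nat_lit 15662897634) (nat_lit 95) (nat_lit 5) (nat_lit 100) (nat_lit 5) (nat_lit 101) (nat_lit 5) (nat_lit 389) (nat_lit 351) (nat_lit 205)) (XT.lf (nat_lit 0) (nat_lit 10004452621)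 (nat_lit 504) (nat_lit 11956027217) (nat_lit 84) (nat_lit 1136251219) (nat_lit 95) (nat_lit 5) (nat_lit 101) (nat_lit 5) (nat_lit 96) (nat_lit 5) (nat_lit 390) (nat_lit 351) (nat_lit 204))) (XT.nd (nat_lit 94) (nat_lit 420) (nat_lit 0) (XT.lf (nat_lit 0) (nat_lit 13151417636) (nat_lit 504) (nat_lit 1442611308) (nat_lit 84) (nat_lit 8941480925) (nat_lit 95) (nat_lit 5) (nat_lit 101) (nat_lit 5) (nat_lit 96) (nat_lit 5) (nat_lit 391) (nat_lit 351) (nat_lit 203)) (XT.lf (nat_lit 0) (nat_lit 9565300560) (nat_lit 420) (nat_lit 6913260871) (nat_lit 504) (nat_lit 7506326649) (nat_lit 90) (nat_lit 5) (nat_lit 95) (nat_lit 5) (nat_lit 96) (nat_lit 5) (nat_lit 392) (nat_lit 351) (nat_lit 202))))) (XT.nd (nat_lit 282) (nat_lit 756) (nat_lit 0) (XT.nd (nat_lit 94) (nat_lit 420) (nat_lit 0) (XT.lf (nat_lit 0) (nat_lit 19923740708) (nat_lit 504) (nat_lit 3531688869) (nat_lit 84) (nat_lit 991780291)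 (nat_lit 90) (nat_lit 5) (nat_lit 96) (nat_lit 5) (nat_lit 91) (nat_lit 5) (nat_lit 393) (nat_lit 351) (nat_lit 201)) (XT.nd (nat_lit 94) (nat_lit 84) (nat_lit 0) (XT.lf (nat_lit 0) (nat_lit 7758351997) (nat_lit 336) (nat_lit 15851043375) (nat_lit 420) (nat_lit 1309900944) (nat_lit 86) (nat_lit 5) (nat_lit 90) (nat_lit 5) (nat_lit 91) (nat_lit 5) (nat_lit 394) (nat_lit 351) (nat_lit 200)) (XT.lf (nat_lit 0) (nat_lit 1991191293) (nat_lit 420) (nat_lit 5972056270) (nat_lit 84) (nat_lit 17440824759) (nat_lit 85) (nat_lit 5) (nat_lit 90) (nat_lit 5) (nat_lit 86) (nat_lit 5) (nat_lit 395) (nat_lit 351) (nat_lit 199)))) (XT.nd (nat_lit 188) (nat_lit 336) (nat_lit 0) (XT.nd (nat_lit 94) (nat_lit 0) (nat_lit 0) (XT.lf (nat_lit 0) (nat_lit 5415726433) (nat_lit 504) (nat_lit 20261395898) (nat_lit 84) (nat_lit 224365939) (nat_lit 80) (nat_lit 5) (nat_lit 86) (nat_lit 5) (nat_lit 81) (nat_lit 5) (nat_lit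 396) (nat_lit 351) (nat_lit 198)) (XT.lf (nat_lit 0) (nat_lit 9077126591) (nat_lit 504) (nat_lit 8775794713) (nat_lit 84) (nat_lit 8556889170) (nat_lit 80) (nat_lit 5) (nat_lit 86) (nat_lit 5) (nat_lit 81) (nat_lit 5) (nat_lit 397) (nat_lit 351) (nat_lit 197))) (XT.nd (nat_lit 94) (nat_lit 0) (nat_lit 0) (XT.lf (nat_lit 0) (nat_lit 3107871886) (nat_lit 336) (nat_lit 9764917052) (nat_lit 420) (nat_lit 14059868226) (nat_lit 76) (nat_lit 5) (nat_lit 80) (nat_lit 5) (nat_lit 81) (nat_lit 5) (nat_lit 398) (nat_lit 351) (nat_lit 196)) (XT.lf (nat_lit 0) (nat_lit 15520865359) (nat_lit 336) (nat_lit 1344710364) (nat_lit 420) (nat_lit 10603123102) (nat_lit 76) (nat_lit 5) (nat_lit 80) (nat_lit 5) (nat_lit 81) (nat_lit 5) (nat_lit 399) (nat_lit 351) (nat_lit 195)))))) (XT.nd (nat_lit 658) (nat_lit 924) (nat_lit 0) (XT.nd (nat_lit 282) (nat_lit 672) (nat_lit 0) (XT.nd (nat_lit 94) (nat_lit 84) (nat_lit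 0) (XT.lf (nat_lit 0) (nat_lit 212104242) (nat_lit 336) (nat_lit 20833299424) (nat_lit 420) (nat_lit 6973407343) (nat_lit 72) (nat_lit 5) (nat_lit 76) (nat_lit 5) (nat_lit 77) (nat_lit 5) (nat_lit 400) (nat_lit 351) (nat_lit 194)) (XT.nd (nat_lit 94) (nat_lit 84) (nat_lit 0) (XT.lf (nat_lit 0) (nat_lit 12961229464) (nat_lit 336) (nat_lit 12518091909) (nat_lit 420) (nat_lit 3102251129) (nat_lit 72) (nat_lit 5) (nat_lit 76) (nat_lit 5) (nat_lit 77) (nat_lit 5) (nat_lit 401) (nat_lit 351) (nat_lit 193)) (XT.lf (nat_lit 0) (nat_lit 862725055) (nat_lit 420) (nat_lit 3083750849) (nat_lit 84) (nat_lit 25214643446) (nat_lit 71) (nat_lit 5) (nat_lit 76) (nat_lit 5) (nat_lit 72) (nat_lit 5) (nat_lit 402) (nat_lit 351) (nat_lit 192)))) (XT.nd (nat_lit 188) (nat_lit 336) (nat_lit 0) (XT.nd (nat_lit 94) (nat_lit 0) (nat_lit 0) (XT.lf (nat_lit 0) (nat_lit 5023565855) (nat_lit 420) (nat_lit 19816133717)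 (nat_lit 84) (nat_lit 4913259764) (nat_lit 67) (nat_lit 5) (nat_lit 72) (nat_lit 5) (nat_lit 68) (nat_lit 5) (nat_lit 403) (nat_lit 351) (nat_lit 191)) (XT.lf (nat_lit 0) (nat_lit 9374918839) (nat_lit 420) (nat_lit 6996492961) (nat_lit 84) (nat_lit 13989178149) (nat_lit 67) (nat_lit 5) (nat_lit 72) (nat_lit 5) (nat_lit 68) (nat_lit 5) (nat_lit 404) (nat_lit 351) (nat_lit 190))) (XT.nd (nat_lit 94) (nat_lit 0) (nat_lit 0) (XT.lf (nat_lit 0) (nat_lit 6324625520) (nat_lit 336) (nat_lit 7588288683) (nat_lit 420) (nat_lit 17071858085) (nat_lit 63) (nat_lit 5) (nat_lit 67) (nat_lit 5) (nat_lit 68) (nat_lit 5) (nat_lit 405) (nat_lit 351) (nat_lit 189)) (XT.lf (nat_lit 0) (nat_lit 18667780635) (nat_lit 420) (nat_lit 11458069906) (nat_lit 84) (nat_lit 1499413309) (nat_lit 63) (nat_lit 5) (nat_lit 68) (nat_lit 5) (nat_lit 64) (nat_lit 5) (nat_lit 406) (nat_lit 351) (nat_lit 188))))) (XT.nd (nat_lit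 282) (nat_lit 588) (nat_lit 0) (XT.nd (nat_lit 94) (nat_lit 84) (nat_lit 0) (XT.lf (nat_lit 0) (nat_lit 2099508328) (nat_lit 252) (nat_lit 21556595626) (nat_lit 336) (nat_lit 8626147403) (nat_lit 60) (nat_lit 5) (nat_lit 63) (nat_lit 5) (nat_lit 64) (nat_lit 5) (nat_lit 407) (nat_lit 351) (nat_lit 187)) (XT.nd (nat_lit 94) (nat_lit 84) (nat_lit 0) (XT.lf (nat_lit 0) (nat_lit 16292357507) (nat_lit 252) (nat_lit 12612991307) (nat_lit 336) (nat_lit 4050266884) (nat_lit 60) (nat_lit 5) (nat_lit 63) (nat_lit 5) (nat_lit 64) (nat_lit 5) (nat_lit 408) (nat_lit 351) (nat_lit 186)) (XT.lf (nat_lit 0) (nat_lit 645603863) (nat_lit 336) (nat_lit 2750803628) (nat_lit 84) (nat_lit 30252717893) (nat_lit 59) (nat_lit 5) (nat_lit 63) (nat_lit 5) (nat_lit 60) (nat_lit 5) (nat_lit 409) (nat_lit 351) (nat_lit 185)))) (XT.nd (nat_lit 188) (nat_lit 252) (nat_lit 0) (XT.nd (nat_lit 94) (nat_lit 0) (nat_lit 0)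 (XT.lf (nat_lit 0) (nat_lit 5569891386) (nat_lit 420) (nat_lit 22656692156) (nat_lit 84) (nat_lit 6130590268) (nat_lit 55) (nat_lit 5) (nat_lit 60) (nat_lit 5) (nat_lit 56) (nat_lit 5) (nat_lit 410) (nat_lit 351) (nat_lit 184)) (XT.lf (nat_lit 0) (nat_lit 10699411618) (nat_lit 420) (nat_lit 8483952190) (nat_lit 84) (nat_lit 15901379524) (nat_lit 55) (nat_lit 5) (nat_lit 60) (nat_lit 5) (nat_lit 56) (nat_lit 5) (nat_lit 411) (nat_lit 351) (nat_lit 183))) (XT.nd (nat_lit 94) (nat_lit 0) (nat_lit 0) (XT.lf (nat_lit 0) (nat_lit 6229596615) (nat_lit 252) (nat_lit 9809048716) (nat_lit 336) (nat_lit 19793824399) (nat_lit 52) (nat_lit 5) (nat_lit 55) (nat_lit 5) (nat_lit 56) (nat_lit 5) (nat_lit 412) (nat_lit 351) (nat_lit 182)) (XT.lf (nat_lit 0) (nat_lit 21552587549) (nat_lit 252) (nat_lit 67146577) (nat_lit 336) (nat_lit 14980447943) (nat_lit 52) (nat_lit 5) (nat_lit 55) (nat_lit 5) (nat_lit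 56) (nat_lit 5) (nat_lit 413) (nat_lit 351) (nat_lit 181))))))))
noncomputable def xc162 : XT := (XT.nd (nat_lit 2538) (nat_lit 336) (nat_lit 0) (XT.nd (nat_lit 1222) (nat_lit 1008) (nat_lit 0) (XT.nd (nat_lit 564) (nat_lit 756) (nat_lit 0) (XT.nd (nat_lit 282) (nat_lit 252) (nat_lit 0) (XT.nd (nat_lit 94) (nat_lit 336) (nat_lit 0) (XT.lf (nat_lit 0) (nat_lit 27460170122) (nat_lit 336) (nat_lit 157275540) (nat_lit 84) (nat_lit 9770727041) (nat_lit 52) (nat_lit 5) (nat_lit 56) (nat_lit 5) (nat_lit 53) (nat_lit 5) (nat_lit 414) (nat_lit 351) (nat_lit 180)) (XT.nd (nat_lit 94) (nat_lit 84) (nat_lit 0) (XT.lf (nat_lit 0) (nat_lit 15475429811) (nat_lit 252) (nat_lit 18146032448) (nat_lit 336) (nat_lit 4573975739) (nat_lit 49) (nat_lit 5) (nat_lit 52) (nat_lit 5) (nat_lit 53) (nat_lit 5) (nat_lit 415) (nat_lit 351) (nat_lit 179)) (XT.lf (nat_lit 0) (nat_lit 920154394) (nat_lit 336) (nat_lit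 7461254725) (nat_lit 84) (nat_lit 30645309702) (nat_lit 48) (nat_lit 5) (nat_lit 52) (nat_lit 5) (nat_lit 49) (nat_lit 5) (nat_lit 416) (nat_lit 351) (nat_lit 178)))) (XT.nd (nat_lit 94) (nat_lit 0) (nat_lit 0) (XT.lf (nat_lit 0) (nat_lit 6581295525) (nat_lit 336) (nat_lit 31528858042) (nat_lit 84) (nat_lit 1768606188) (nat_lit 45) (nat_lit 5) (nat_lit 49) (nat_lit 5) (nat_lit 46) (nat_lit 5) (nat_lit 417) (nat_lit 351) (nat_lit 177)) (XT.nd (nat_lit 94) (nat_lit 0) (nat_lit 0) (XT.lf (nat_lit 0) (nat_lit 12567725752) (nat_lit 336) (nat_lit 16055029206) (nat_lit 84) (nat_lit 12128947072) (nat_lit 45) (nat_lit 5) (nat_lit 49) (nat_lit 5) (nat_lit 46) (nat_lit 5) (nat_lit 418) (nat_lit 351) (nat_lit 176)) (XT.lf (nat_lit 0) (nat_lit 18730234895) (nat_lit 336) (nat_lit 122362822) (nat_lit 84) (nat_lit 22798343930) (nat_lit 45) (nat_lit 5) (nat_lit 49) (nat_lit 5) (nat_lit 46) (nat_lit 5)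 (nat_lit 419) (nat_lit 351) (nat_lit 175))))) (XT.nd (nat_lit 282) (nat_lit 336) (nat_lit 0) (XT.nd (nat_lit 94) (nat_lit 168) (nat_lit 0) (XT.lf (nat_lit 0) (nat_lit 16607127737) (nat_lit 252) (nat_lit 8626717805) (nat_lit 336) (nat_lit 17338629668) (nat_lit 42) (nat_lit 5) (nat_lit 45) (nat_lit 5) (nat_lit 46) (nat_lit 5) (nat_lit 420) (nat_lit 351) (nat_lit 174)) (XT.nd (nat_lit 94) (nat_lit 168) (nat_lit 0) (XT.lf (nat_lit 0) (nat_lit 31948754075) (nat_lit 336) (nat_lit 9704196101) (nat_lit 84) (nat_lit 1868222361) (nat_lit 42) (nat_lit 5) (nat_lit 46) (nat_lit 5) (nat_lit 43) (nat_lit 5) (nat_lit 421) (nat_lit 351) (nat_lit 173)) (XT.lf (nat_lit 0) (nat_lit 7092677104) (nat_lit 168) (nat_lit 31922744044) (nat_lit 252) (nat_lit 5478403639) (nat_lit 40) (nat_lit 5) (nat_lit 42) (nat_lit 5) (nat_lit 43) (nat_lit 5) (nat_lit 422) (nat_lit 351) (nat_lit 172)))) (XT.nd (nat_lit 188) (nat_lit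 252) (nat_lit 0) (XT.nd (nat_lit 94) (nat_lit 0) (nat_lit 0) (XT.lf (nat_lit 0) (nat_lit 878545807) (nat_lit 252) (nat_lit 20914100553) (nat_lit 84) (nat_lit 23699912309) (nat_lit 39) (nat_lit 5) (nat_lit 42) (nat_lit 5) (nat_lit 40) (nat_lit 5) (nat_lit 423) (nat_lit 351) (nat_lit 171)) (XT.lf (nat_lit 0) (nat_lit 7312919337) (nat_lit 252) (nat_lit 3991655977) (nat_lit 84) (nat_lit 35215150283) (nat_lit 39) (nat_lit 5) (nat_lit 42) (nat_lit 5) (nat_lit 40) (nat_lit 5) (nat_lit 424) (nat_lit 351) (nat_lit 170))) (XT.nd (nat_lit 94) (nat_lit 0) (nat_lit 0) (XT.lf (nat_lit 0) (nat_lit 13700990079) (nat_lit 252) (nat_lit 367954825) (nat_lit 336) (nat_lit 33504906974) (nat_lit 36) (nat_lit 5) (nat_lit 39) (nat_lit 5) (nat_lit 40) (nat_lit 5) (nat_lit 425) (nat_lit 351) (nat_lit 169)) (XT.lf (nat_lit 0) (nat_lit 21170050173) (nat_lit 336) (nat_lit 16762155066) (nat_lit 84) (nat_lit 10723127622)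 (nat_lit 36) (nat_lit 5) (nat_lit 40) (nat_lit 5) (nat_lit 37) (nat_lit 5) (nat_lit 426) (nat_lit 351) (nat_lit 168)))))) (XT.nd (nat_lit 658) (nat_lit 420) (nat_lit 0) (XT.nd (nat_lit 282) (nat_lit 420) (nat_lit 0) (XT.nd (nat_lit 94) (nat_lit 0) (nat_lit 0) (XT.lf (nat_lit 0) (nat_lit 870500373) (nat_lit 168) (nat_lit 27622733673) (nat_lit 252) (nat_lit 21275755664) (nat_lit 34) (nat_lit 5) (nat_lit 36) (nat_lit 5) (nat_lit 37) (nat_lit 5) (nat_lit 427) (nat_lit 351) (nat_lit 167)) (XT.nd (nat_lit 94) (nat_lit 0) (nat_lit 0) (XT.lf (nat_lit 0) (nat_lit 19371073479) (nat_lit 168) (nat_lit 16831380886) (nat_lit 252) (nat_lit 14708614388) (nat_lit 34) (nat_lit 5) (nat_lit 36) (nat_lit 5) (nat_lit 37) (nat_lit 5) (nat_lit 428) (nat_lit 351) (nat_lit 166)) (XT.lf (nat_lit 0) (nat_lit 38422130049) (nat_lit 168) (nat_lit 5717982441) (nat_lit 252) (nat_lit 7947385481) (nat_lit 34) (nat_lit 5)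 (nat_lit 36) (nat_lit 5) (nat_lit 37) (nat_lit 5) (nat_lit 429) (nat_lit 351) (nat_lit 165)))) (XT.nd (nat_lit 188) (nat_lit 168) (nat_lit 0) (XT.nd (nat_lit 94) (nat_lit 84) (nat_lit 0) (XT.lf (nat_lit 0) (nat_lit 4779217998) (nat_lit 168) (nat_lit 47634920091) (nat_lit 252) (nat_lit 882137405) (nat_lit 32) (nat_lit 5) (nat_lit 34) (nat_lit 5) (nat_lit 35) (nat_lit 5) (nat_lit 430) (nat_lit 351) (nat_lit 164)) (XT.lf (nat_lit 0) (nat_lit 6463487413) (nat_lit 252) (nat_lit 30603846346) (nat_lit 84) (nat_lit 17466344496) (nat_lit 31) (nat_lit 5) (nat_lit 34) (nat_lit 5) (nat_lit 32) (nat_lit 5) (nat_lit 431) (nat_lit 351) (nat_lit 163))) (XT.nd (nat_lit 94) (nat_lit 168) (nat_lit 0) (XT.lf (nat_lit 0) (nat_lit 14009068106) (nat_lit 252) (nat_lit 12166326954) (nat_lit 84) (nat_lit 29632628846) (nat_lit 31) (nat_lit 5) (nat_lit 34) (nat_lit 5) (nat_lit 32) (nat_lit 5) (nat_lit 432) (nat_lit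 351) (nat_lit 162)) (XT.lf (nat_lit 0) (nat_lit 6955823956) (nat_lit 168) (nat_lit 14889451255) (nat_lit 252) (nat_lit 35273399222) (nat_lit 29) (nat_lit 5) (nat_lit 31) (nat_lit 5) (nat_lit 32) (nat_lit 5) (nat_lit 433) (nat_lit 351) (nat_lit 161))))) (XT.nd (nat_lit 282) (nat_lit 252) (nat_lit 0) (XT.nd (nat_lit 94) (nat_lit 168) (nat_lit 0) (XT.lf (nat_lit 0) (nat_lit 26896851371) (nat_lit 168) (nat_lit 3140004189) (nat_lit 252) (nat_lit 28428182513) (nat_lit 29) (nat_lit 5) (nat_lit 31) (nat_lit 5) (nat_lit 32) (nat_lit 5) (nat_lit 434) (nat_lit 351) (nat_lit 160)) (XT.nd (nat_lit 94) (nat_lit 168) (nat_lit 0) (XT.lf (nat_lit 0) (nat_lit 38557821559) (nat_lit 252) (nat_lit 12505956298) (nat_lit 84) (nat_lit 8785507765) (nat_lit 29) (nat_lit 5) (nat_lit 32) (nat_lit 5) (nat_lit 30) (nat_lit 5) (nat_lit 435) (nat_lit 351) (nat_lit 159)) (XT.lf (nat_lit 0) (nat_lit 7234211801) (nat_lit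 168) (nat_lit 40198397362) (nat_lit 252) (nat_lit 13839507738) (nat_lit 27) (nat_lit 5) (nat_lit 29) (nat_lit 5) (nat_lit 30) (nat_lit 5) (nat_lit 436) (nat_lit 351) (nat_lit 158)))) (XT.nd (nat_lit 188) (nat_lit 168) (nat_lit 0) (XT.nd (nat_lit 94) (nat_lit 84) (nat_lit 0) (XT.lf (nat_lit 0) (nat_lit 27818978462) (nat_lit 168) (nat_lit 28878544208) (nat_lit 252) (nat_lit 6036396003) (nat_lit 27) (nat_lit 5) (nat_lit 29) (nat_lit 5) (nat_lit 30) (nat_lit 5) (nat_lit 437) (nat_lit 351) (nat_lit 157)) (XT.lf (nat_lit 0) (nat_lit 1959407702) (nat_lit 252) (nat_lit 15241419020) (nat_lit 84) (nat_lit 47038243443) (nat_lit 26) (nat_lit 5) (nat_lit 29) (nat_lit 5) (nat_lit 27) (nat_lit 5) (nat_lit 438) (nat_lit 351) (nat_lit 156))) (XT.nd (nat_lit 94) (nat_lit 0) (nat_lit 0) (XT.lf (nat_lit 0) (nat_lit 5057444403) (nat_lit 168) (nat_lit 5062641082) (nat_lit 252) (nat_lit 55666109810) (nat_lit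 24) (nat_lit 5) (nat_lit 26) (nat_lit 5) (nat_lit 27) (nat_lit 5) (nat_lit 439) (nat_lit 351) (nat_lit 155)) (XT.lf (nat_lit 0) (nat_lit 18750257382) (nat_lit 252) (nat_lit 41174251940) (nat_lit 84) (nat_lit 7448486443) (nat_lit 24) (nat_lit 5) (nat_lit 27) (nat_lit 5) (nat_lit 25) (nat_lit 5) (nat_lit 440) (nat_lit 351) (nat_lit 154))))))) (XT.nd (nat_lit 51418) (nat_lit 0) (nat_lit 12348) (XT.nd (nat_lit 658) (nat_lit 0) (nat_lit 0) (XT.nd (nat_lit 282) (nat_lit 168) (nat_lit 0) (XT.nd (nat_lit 94) (nat_lit 168) (nat_lit 0) (XT.lf (nat_lit 0) (nat_lit 27687252441) (nat_lit 252) (nat_lit 21086936567) (nat_lit 84) (nat_lit 20231775444) (nat_lit 24) (nat_lit 5) (nat_lit 27) (nat_lit 5) (nat_lit 25) (nat_lit 5) (nat_lit 441) (nat_lit 351) (nat_lit 153)) (XT.nd (nat_lit 94) (nat_lit 168) (nat_lit 0) (XT.lf (nat_lit 0) (nat_lit 36890214485) (nat_lit 252) (nat_lit 400587546) (nat_lit 84) (nat_lit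 33397186149) (nat_lit 24) (nat_lit 5) (nat_lit 27) (nat_lit 5) (nat_lit 25) (nat_lit 5) (nat_lit 442) (nat_lit 351) (nat_lit 152)) (XT.lf (nat_lit 0) (nat_lit 21318878682) (nat_lit 168) (nat_lit 25253236358) (nat_lit 252) (nat_lit 25842273734) (nat_lit 22) (nat_lit 5) (nat_lit 24) (nat_lit 5) (nat_lit 25) (nat_lit 5) (nat_lit 443) (nat_lit 351) (nat_lit 151)))) (XT.nd (nat_lit 188) (nat_lit 168) (nat_lit 0) (XT.nd (nat_lit 94) (nat_lit 0) (nat_lit 0) (XT.lf (nat_lit 0) (nat_lit 43694693308) (nat_lit 168) (nat_lit 12851771458) (nat_lit 252) (nat_lit 17646058451) (nat_lit 22) (nat_lit 5) (nat_lit 24) (nat_lit 5) (nat_lit 25) (nat_lit 5) (nat_lit 444) (nat_lit 351) (nat_lit 150)) (XT.lf (nat_lit 0) (nat_lit 66738435536) (nat_lit 168) (nat_lit 79616249) (nat_lit 252) (nat_lit 9206011254) (nat_lit 22) (nat_lit 5) (nat_lit 24) (nat_lit 5) (nat_lit 25) (nat_lit 5) (nat_lit 445) (nat_lit 351)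 (nat_lit 149))) (XT.nd (nat_lit 94) (nat_lit 84) (nat_lit 0) (XT.lf (nat_lit 0) (nat_lit 12681413074) (nat_lit 84) (nat_lit 64962018726) (nat_lit 168) (nat_lit 259749399) (nat_lit 21) (nat_lit 5) (nat_lit 22) (nat_lit 5) (nat_lit 23) (nat_lit 4) (nat_lit 446) (nat_lit 351) (nat_lit 148)) (XT.lf (nat_lit 0) (nat_lit 8873698357) (nat_lit 168) (nat_lit 44429149468) (nat_lit 84) (nat_lit 26530437887) (nat_lit 20) (nat_lit 5) (nat_lit 22) (nat_lit 5) (nat_lit 21) (nat_lit 5) (nat_lit 447) (nat_lit 351) (nat_lit 147))))) (XT.nd (nat_lit 50384) (nat_lit 0) (nat_lit 13104) (XT.nd (nat_lit 94) (nat_lit 0) (nat_lit 0) (XT.lf (nat_lit 0) (nat_lit 18274042542) (nat_lit 168) (nat_lit 23018531844) (nat_lit 84) (nat_lit 40528699786) (nat_lit 20) (nat_lit 5) (nat_lit 22) (nat_lit 5) (nat_lit 21) (nat_lit 5) (nat_lit 448) (nat_lit 351) (nat_lit 146)) (XT.nd (nat_lit 50196) (nat_lit 0) (nat_lit 13104) (XT.lf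 (nat_lit 0) (nat_lit 27954565695) (nat_lit 168) (nat_lit 968710075) (nat_lit 84) (nat_lit 54945682792) (nat_lit 20) (nat_lit 5) (nat_lit 22) (nat_lit 5) (nat_lit 21) (nat_lit 5) (nat_lit 449) (nat_lit 351) (nat_lit 145)) (XT.lf (nat_lit 0) (nat_lit 1893722441) (nat_lit 1260) (nat_lit 2188072801) (nat_lit 1260) (nat_lit 2188072801) (nat_lit 176) (nat_lit 3) (nat_lit 191) (nat_lit 3) (nat_lit 191) (nat_lit 5) (nat_lit 352) (nat_lit 352) (nat_lit 241)))) (XT.nd (nat_lit 188) (nat_lit 0) (nat_lit 84) (XT.nd (nat_lit 94) (nat_lit 0) (nat_lit 84) (XT.lf (nat_lit 84) (nat_lit 1075295433) (nat_lit 0) (nat_lit 3178698460) (nat_lit 1260) (nat_lit 8460782932) (nat_lit 177) (nat_lit 5) (nat_lit 176) (nat_lit 3) (nat_lit 191) (nat_lit 5) (nat_lit 353) (nat_lit 352) (nat_lit 240)) (XT.lf (nat_lit 0) (nat_lit 4782372563) (nat_lit 1176) (nat_lit 6141768017) (nat_lit 1260) (nat_lit 1969522994) (nat_lit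 177) (nat_lit 5) (nat_lit 191) (nat_lit 5) (nat_lit 192) (nat_lit 5) (nat_lit 354) (nat_lit 352) (nat_lit 239))) (XT.nd (nat_lit 94) (nat_lit 0) (nat_lit 0) (XT.lf (nat_lit 0) (nat_lit 5342934465) (nat_lit 1176) (nat_lit 519113987) (nat_lit 1260) (nat_lit 7215407436) (nat_lit 177) (nat_lit 5) (nat_lit 191) (nat_lit 5) (nat_lit 192) (nat_lit 5) (nat_lit 355) (nat_lit 352) (nat_lit 238)) (XT.lf (nat_lit 84) (nat_lit 5368712202) (nat_lit 0) (nat_lit 588508958) (nat_lit 1260) (nat_lit 7308461648) (nat_lit 178) (nat_lit 5) (nat_lit 177) (nat_lit 5) (nat_lit 192) (nat_lit 5) (nat_lit 356) (nat_lit 352) (nat_lit 237)))))) (XT.nd (nat_lit 658) (nat_lit 924) (nat_lit 0) (XT.nd (nat_lit 282) (nat_lit 0) (nat_lit 84) (XT.nd (nat_lit 94) (nat_lit 0) (nat_lit 0) (XT.lf (nat_lit 0) (nat_lit 6627495775) (nat_lit 1176) (nat_lit 2070899094) (nat_lit 1260) (nat_lit 4760062144) (nat_lit 178) (nat_lit 5)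 (nat_lit 192) (nat_lit 5) (nat_lit 193) (nat_lit 5) (nat_lit 357) (nat_lit 352) (nat_lit 236)) (XT.nd (nat_lit 94) (nat_lit 0) (nat_lit 84) (XT.lf (nat_lit 84) (nat_lit 3993604666) (nat_lit 0) (nat_lit 3354615221) (nat_lit 1260) (nat_lit 6307910784) (nat_lit 179) (nat_lit 5) (nat_lit 178) (nat_lit 5) (nat_lit 193) (nat_lit 5) (nat_lit 358) (nat_lit 352) (nat_lit 235)) (XT.lf (nat_lit 0) (nat_lit 8118845814) (nat_lit 1176) (nat_lit 3606333223) (nat_lit 1260) (nat_lit 2133732791) (nat_lit 179) (nat_lit 5) (nat_lit 193) (nat_lit 5) (nat_lit 194) (nat_lit 5) (nat_lit 359) (nat_lit 352) (nat_lit 234)))) (XT.nd (nat_lit 188) (nat_lit 0) (nat_lit 84) (XT.nd (nat_lit 94) (nat_lit 0) (nat_lit 0) (XT.lf (nat_lit 84) (nat_lit 2641278159) (nat_lit 0) (nat_lit 6316808113) (nat_lit 1260) (nat_lit 5108350219) (nat_lit 180) (nat_lit 5) (nat_lit 179) (nat_lit 5) (nat_lit 194) (nat_lit 5) (nat_lit 360)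 (nat_lit 352) (nat_lit 233)) (XT.lf (nat_lit 84) (nat_lit 9141734414) (nat_lit 0) (nat_lit 704378567) (nat_lit 1260) (nat_lit 4433389860) (nat_lit 180) (nat_lit 5) (nat_lit 179) (nat_lit 5) (nat_lit 194) (nat_lit 5) (nat_lit 361) (nat_lit 352) (nat_lit 232))) (XT.nd (nat_lit 94) (nat_lit 0) (nat_lit 0) (XT.lf (nat_lit 84) (nat_lit 1306236279) (nat_lit 0) (nat_lit 9503503545) (nat_lit 1260) (nat_lit 3687776090) (nat_lit 181) (nat_lit 5) (nat_lit 180) (nat_lit 5) (nat_lit 195) (nat_lit 5) (nat_lit 362) (nat_lit 352) (nat_lit 231)) (XT.lf (nat_lit 84) (nat_lit 8033154204) (nat_lit 0) (nat_lit 3815791840) (nat_lit 1260) (nat_lit 2871746046) (nat_lit 181) (nat_lit 5) (nat_lit 180) (nat_lit 5) (nat_lit 195) (nat_lit 5) (nat_lit 363) (nat_lit 352) (nat_lit 230))))) (XT.nd (nat_lit 282) (nat_lit 1176) (nat_lit 0) (XT.nd (nat_lit 94) (nat_lit 0) (nat_lit 0) (XT.lf (nat_lit 0) (nat_lit 12927231818)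 (nat_lit 1176) (nat_lit 17088325) (nat_lit 1260) (nat_lit 2006028470) (nat_lit 181) (nat_lit 5) (nat_lit 195) (nat_lit 5) (nat_lit 196) (nat_lit 5) (nat_lit 364) (nat_lit 352) (nat_lit 229)) (XT.nd (nat_lit 94) (nat_lit 0) (nat_lit 0) (XT.lf (nat_lit 84) (nat_lit 6942656085) (nat_lit 0) (nat_lit 7188338044) (nat_lit 1260) (nat_lit 1053128380) (nat_lit 182) (nat_lit 5) (nat_lit 181) (nat_lit 5) (nat_lit 196) (nat_lit 5) (nat_lit 365) (nat_lit 352) (nat_lit 228)) (XT.lf (nat_lit 84) (nat_lit 14103111855) (nat_lit 0) (nat_lit 1256791483) (nat_lit 1260) (nat_lit 65356155) (nat_lit 182) (nat_lit 5) (nat_lit 181) (nat_lit 5) (nat_lit 196) (nat_lit 5) (nat_lit 366) (nat_lit 352) (nat_lit 227)))) (XT.nd (nat_lit 188) (nat_lit 0) (nat_lit 84) (XT.nd (nat_lit 94) (nat_lit 0) (nat_lit 0) (XT.lf (nat_lit 0) (nat_lit 1026590983) (nat_lit 1260) (nat_lit 9816973509) (nat_lit 1344) (nat_lit 4827017644)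 (nat_lit 167) (nat_lit 5) (nat_lit 182) (nat_lit 5) (nat_lit 183) (nat_lit 5) (nat_lit 367) (nat_lit 352) (nat_lit 226)) (XT.lf (nat_lit 0) (nat_lit 2165229847) (nat_lit 1260) (nat_lit 2673049832) (nat_lit 1344) (nat_lit 11084527079) (nat_lit 167) (nat_lit 5) (nat_lit 182) (nat_lit 5) (nat_lit 183) (nat_lit 5) (nat_lit 368) (nat_lit 352) (nat_lit 225))) (XT.nd (nat_lit 94) (nat_lit 0) (nat_lit 0) (XT.lf (nat_lit 0) (nat_lit 3386931658) (nat_lit 1260) (nat_lit 11425156477) (nat_lit 84) (nat_lit 1369061430) (nat_lit 168) (nat_lit 5) (nat_lit 183) (nat_lit 5) (nat_lit 169) (nat_lit 5) (nat_lit 369) (nat_lit 352) (nat_lit 224)) (XT.lf (nat_lit 0) (nat_lit 4710317984) (nat_lit 1260) (nat_lit 4040608359) (nat_lit 84) (nat_lit 7694383329) (nat_lit 168) (nat_lit 5) (nat_lit 183) (nat_lit 5) (nat_lit 169) (nat_lit 5) (nat_lit 370) (nat_lit 352) (nat_lit 223))))))))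
noncomputable def xc163 : XT := (XT.nd (nat_lit 2632) (nat_lit 3696) (nat_lit 0) (XT.nd (nat_lit 1316) (nat_lit 2688) (nat_lit 0) (XT.nd (nat_lit 658) (nat_lit 1680) (nat_lit 0) (XT.nd (nat_lit 282) (nat_lit 1176) (nat_lit 0) (XT.nd (nat_lit 94) (nat_lit 588) (nat_lit 0) (XT.lf (nat_lit 0) (nat_lit 3627814863) (nat_lit 1260) (nat_lit 2470628751) (nat_lit 1344) (nat_lit 10618217334) (nat_lit 153) (nat_lit 5) (nat_lit 168) (nat_lit 5) (nat_lit 169) (nat_lit 5) (nat_lit 371) (nat_lit 352) (nat_lit 222)) (XT.nd (nat_lit 94) (nat_lit 588) (nat_lit 0) (XT.lf (nat_lit 0) (nat_lit 7598234227) (nat_lit 1344) (nat_lit 5433333512) (nat_lit 84) (nat_lit 3962501373) (nat_lit 153) (nat_lit 5) (nat_lit 169) (nat_lit 5) (nat_lit 154) (nat_lit 5) (nat_lit 372) (nat_lit 352) (nat_lit 221)) (XT.lf (nat_lit 0) (nat_lit 2467089464) (nat_lit 588) (nat_lit 6714769080) (nat_lit 672) (nat_lit 8096792267) (nat_lit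 146) (nat_lit 5) (nat_lit 153) (nat_lit 5) (nat_lit 154) (nat_lit 5) (nat_lit 373) (nat_lit 352) (nat_lit 220)))) (XT.nd (nat_lit 188) (nat_lit 588) (nat_lit 0) (XT.nd (nat_lit 94) (nat_lit 588) (nat_lit 0) (XT.lf (nat_lit 0) (nat_lit 10707550733) (nat_lit 588) (nat_lit 151161677) (nat_lit 672) (nat_lit 6711701938) (nat_lit 146) (nat_lit 5) (nat_lit 153) (nat_lit 5) (nat_lit 154) (nat_lit 5) (nat_lit 374) (nat_lit 352) (nat_lit 219)) (XT.lf (nat_lit 0) (nat_lit 1277287940) (nat_lit 588) (nat_lit 11375523745) (nat_lit 672) (nat_lit 5216126457) (nat_lit 139) (nat_lit 5) (nat_lit 146) (nat_lit 5) (nat_lit 147) (nat_lit 5) (nat_lit 375) (nat_lit 352) (nat_lit 218))) (XT.nd (nat_lit 94) (nat_lit 588) (nat_lit 0) (XT.lf (nat_lit 0) (nat_lit 9792483479) (nat_lit 588) (nat_lit 4770340921) (nat_lit 672) (nat_lit 3611745628) (nat_lit 139) (nat_lit 5) (nat_lit 146) (nat_lit 5) (nat_lit 147) (nat_lit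 5) (nat_lit 376) (nat_lit 352) (nat_lit 217)) (XT.lf (nat_lit 0) (nat_lit 46789377) (nat_lit 588) (nat_lit 16494904032) (nat_lit 672) (nat_lit 1947345436) (nat_lit 132) (nat_lit 5) (nat_lit 139) (nat_lit 5) (nat_lit 140) (nat_lit 5) (nat_lit 377) (nat_lit 352) (nat_lit 216))))) (XT.nd (nat_lit 282) (nat_lit 1008) (nat_lit 0) (XT.nd (nat_lit 94) (nat_lit 672) (nat_lit 0) (XT.lf (nat_lit 0) (nat_lit 8843921614) (nat_lit 588) (nat_lit 9859147573) (nat_lit 672) (nat_lit 106192543) (nat_lit 132) (nat_lit 5) (nat_lit 139) (nat_lit 5) (nat_lit 140) (nat_lit 5) (nat_lit 378) (nat_lit 352) (nat_lit 215)) (XT.nd (nat_lit 94) (nat_lit 588) (nat_lit 0) (XT.lf (nat_lit 0) (nat_lit 1747139633) (nat_lit 672) (nat_lit 1259529742) (nat_lit 84) (nat_lit 16132162748) (nat_lit 131) (nat_lit 5) (nat_lit 139) (nat_lit 5) (nat_lit 132) (nat_lit 5) (nat_lit 379) (nat_lit 352) (nat_lit 214)) (XT.lf (nat_lit 0)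 (nat_lit 3761228126) (nat_lit 672) (nat_lit 11664286140) (nat_lit 84) (nat_lit 4049538115) (nat_lit 124) (nat_lit 5) (nat_lit 132) (nat_lit 5) (nat_lit 125) (nat_lit 5) (nat_lit 380) (nat_lit 352) (nat_lit 213)))) (XT.nd (nat_lit 188) (nat_lit 504) (nat_lit 0) (XT.nd (nat_lit 94) (nat_lit 504) (nat_lit 0) (XT.lf (nat_lit 0) (nat_lit 5870619888) (nat_lit 672) (nat_lit 2680006547) (nat_lit 84) (nat_lit 11269699034) (nat_lit 124) (nat_lit 5) (nat_lit 132) (nat_lit 5) (nat_lit 125) (nat_lit 5) (nat_lit 381) (nat_lit 352) (nat_lit 212)) (XT.lf (nat_lit 0) (nat_lit 6696588461) (nat_lit 504) (nat_lit 1403568782) (nat_lit 588) (nat_lit 12074105860) (nat_lit 118) (nat_lit 5) (nat_lit 124) (nat_lit 5) (nat_lit 125) (nat_lit 5) (nat_lit 382) (nat_lit 352) (nat_lit 211))) (XT.nd (nat_lit 94) (nat_lit 504) (nat_lit 0) (XT.lf (nat_lit 0) (nat_lit 10473813914) (nat_lit 588) (nat_lit 4194165852) (nat_lit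 84) (nat_lit 5868534019) (nat_lit 118) (nat_lit 5) (nat_lit 125) (nat_lit 5) (nat_lit 119) (nat_lit 5) (nat_lit 383) (nat_lit 352) (nat_lit 210)) (XT.lf (nat_lit 0) (nat_lit 5452545665) (nat_lit 504) (nat_lit 7525290612) (nat_lit 588) (nat_lit 7930032598) (nat_lit 112) (nat_lit 5) (nat_lit 118) (nat_lit 5) (nat_lit 119) (nat_lit 5) (nat_lit 384) (nat_lit 352) (nat_lit 209)))))) (XT.nd (nat_lit 658) (nat_lit 1260) (nat_lit 0) (XT.nd (nat_lit 282) (nat_lit 1008) (nat_lit 0) (XT.nd (nat_lit 94) (nat_lit 420) (nat_lit 0) (XT.lf (nat_lit 0) (nat_lit 15466906710) (nat_lit 504) (nat_lit 125405598) (nat_lit 588) (nat_lit 5697003548) (nat_lit 112) (nat_lit 5) (nat_lit 118) (nat_lit 5) (nat_lit 119) (nat_lit 5) (nat_lit 385) (nat_lit 352) (nat_lit 208)) (XT.nd (nat_lit 94) (nat_lit 0) (nat_lit 0) (XT.lf (nat_lit 0) (nat_lit 4099720162) (nat_lit 420) (nat_lit 14290150189) (nat_lit 504) (nat_lit 3289207367)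 (nat_lit 107) (nat_lit 5) (nat_lit 112) (nat_lit 5) (nat_lit 113) (nat_lit 5) (nat_lit 386) (nat_lit 352) (nat_lit 207)) (XT.lf (nat_lit 0) (nat_lit 14429964516) (nat_lit 420) (nat_lit 6894718296) (nat_lit 504) (nat_lit 754260380) (nat_lit 107) (nat_lit 5) (nat_lit 112) (nat_lit 5) (nat_lit 113) (nat_lit 5) (nat_lit 387) (nat_lit 352) (nat_lit 206)))) (XT.nd (nat_lit 188) (nat_lit 420) (nat_lit 0) (XT.nd (nat_lit 94) (nat_lit 0) (nat_lit 0) (XT.lf (nat_lit 0) (nat_lit 1846326706) (nat_lit 588) (nat_lit 19892349671) (nat_lit 84) (nat_lit 750828088) (nat_lit 100) (nat_lit 5) (nat_lit 107) (nat_lit 5) (nat_lit 101) (nat_lit 5) (nat_lit 388) (nat_lit 352) (nat_lit 205)) (XT.lf (nat_lit 0) (nat_lit 4649574173) (nat_lit 588) (nat_lit 9686767843) (nat_lit 84) (nat_lit 8571632131) (nat_lit 100) (nat_lit 5) (nat_lit 107) (nat_lit 5) (nat_lit 101) (nat_lit 5) (nat_lit 389) (nat_lit 352) (nat_lit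 204))) (XT.nd (nat_lit 94) (nat_lit 0) (nat_lit 0) (XT.lf (nat_lit 0) (nat_lit 833801345) (nat_lit 420) (nat_lit 6704854746) (nat_lit 504) (nat_lit 15800299121) (nat_lit 95) (nat_lit 5) (nat_lit 100) (nat_lit 5) (nat_lit 101) (nat_lit 5) (nat_lit 390) (nat_lit 352) (nat_lit 203)) (XT.lf (nat_lit 0) (nat_lit 10618126744) (nat_lit 504) (nat_lit 11931010924) (nat_lit 84) (nat_lit 1230625685) (nat_lit 95) (nat_lit 5) (nat_lit 101) (nat_lit 5) (nat_lit 96) (nat_lit 5) (nat_lit 391) (nat_lit 352) (nat_lit 202))))) (XT.nd (nat_lit 282) (nat_lit 840) (nat_lit 0) (XT.nd (nat_lit 94) (nat_lit 420) (nat_lit 0) (XT.lf (nat_lit 0) (nat_lit 13850368459) (nat_lit 504) (nat_lit 1113368182) (nat_lit 84) (nat_lit 9268256352) (nat_lit 95) (nat_lit 5) (nat_lit 101) (nat_lit 5) (nat_lit 96) (nat_lit 5) (nat_lit 392) (nat_lit 352) (nat_lit 201)) (XT.nd (nat_lit 94) (nat_lit 0) (nat_lit 0) (XT.lf (nat_lit 0)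 (nat_lit 10221128871) (nat_lit 420) (nat_lit 7050877234) (nat_lit 504) (nat_lit 7423019165) (nat_lit 90) (nat_lit 5) (nat_lit 95) (nat_lit 5) (nat_lit 96) (nat_lit 5) (nat_lit 393) (nat_lit 352) (nat_lit 200)) (XT.lf (nat_lit 0) (nat_lit 20812480709) (nat_lit 504) (nat_lit 3271029860) (nat_lit 84) (nat_lit 1087960666) (nat_lit 90) (nat_lit 5) (nat_lit 96) (nat_lit 5) (nat_lit 91) (nat_lit 5) (nat_lit 394) (nat_lit 352) (nat_lit 199)))) (XT.nd (nat_lit 188) (nat_lit 420) (nat_lit 0) (XT.nd (nat_lit 94) (nat_lit 84) (nat_lit 0) (XT.lf (nat_lit 0) (nat_lit 8354118019) (nat_lit 336) (nat_lit 16249599983) (nat_lit 420) (nat_lit 1054164237) (nat_lit 86) (nat_lit 5) (nat_lit 90) (nat_lit 5) (nat_lit 91) (nat_lit 5) (nat_lit 395) (nat_lit 352) (nat_lit 198)) (XT.lf (nat_lit 0) (nat_lit 2331778065) (nat_lit 420) (nat_lit 5792798168) (nat_lit 84) (nat_lit 18032804621) (nat_lit 85) (nat_lit 5) (nat_lit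 90) (nat_lit 5) (nat_lit 86) (nat_lit 5) (nat_lit 396) (nat_lit 352) (nat_lit 197))) (XT.nd (nat_lit 94) (nat_lit 0) (nat_lit 0) (XT.lf (nat_lit 0) (nat_lit 5855038403) (nat_lit 504) (nat_lit 20506430327) (nat_lit 84) (nat_lit 308382181) (nat_lit 80) (nat_lit 5) (nat_lit 86) (nat_lit 5) (nat_lit 81) (nat_lit 5) (nat_lit 397) (nat_lit 352) (nat_lit 196)) (XT.lf (nat_lit 0) (nat_lit 9618217260) (nat_lit 504) (nat_lit 8686828314) (nat_lit 84) (nat_lit 8888630082) (nat_lit 80) (nat_lit 5) (nat_lit 86) (nat_lit 5) (nat_lit 81) (nat_lit 5) (nat_lit 398) (nat_lit 352) (nat_lit 195))))))) (XT.nd (nat_lit 1316) (nat_lit 1596) (nat_lit 0) (XT.nd (nat_lit 658) (nat_lit 1008) (nat_lit 0) (XT.nd (nat_lit 282) (nat_lit 420) (nat_lit 0) (XT.nd (nat_lit 94) (nat_lit 336) (nat_lit 0) (XT.lf (nat_lit 0) (nat_lit 3549894948) (nat_lit 336) (nat_lit 9973378830) (nat_lit 420) (nat_lit 14209078894) (nat_lit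 76) (nat_lit 5) (nat_lit 80) (nat_lit 5) (nat_lit 81) (nat_lit 5) (nat_lit 399) (nat_lit 352) (nat_lit 194)) (XT.nd (nat_lit 94) (nat_lit 336) (nat_lit 0) (XT.lf (nat_lit 0) (nat_lit 16325119383) (nat_lit 336) (nat_lit 1303026691) (nat_lit 420) (nat_lit 10656570796) (nat_lit 76) (nat_lit 5) (nat_lit 80) (nat_lit 5) (nat_lit 81) (nat_lit 5) (nat_lit 400) (nat_lit 352) (nat_lit 193)) (XT.lf (nat_lit 0) (nat_lit 560958873) (nat_lit 336) (nat_lit 21368993852) (nat_lit 420) (nat_lit 6921492220) (nat_lit 72) (nat_lit 5) (nat_lit 76) (nat_lit 5) (nat_lit 77) (nat_lit 5) (nat_lit 401) (nat_lit 352) (nat_lit 192)))) (XT.nd (nat_lit 188) (nat_lit 336) (nat_lit 0) (XT.nd (nat_lit 94) (nat_lit 84) (nat_lit 0) (XT.lf (nat_lit 0) (nat_lit 13682582372) (nat_lit 336) (nat_lit 12806931215) (nat_lit 420) (nat_lit 2941806680) (nat_lit 72) (nat_lit 5) (nat_lit 76) (nat_lit 5) (nat_lit 77) (nat_lit 5) (nat_lit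 402) (nat_lit 352) (nat_lit 191)) (XT.lf (nat_lit 0) (nat_lit 1129932099) (nat_lit 420) (nat_lit 2848323062) (nat_lit 84) (nat_lit 26050151636) (nat_lit 71) (nat_lit 5) (nat_lit 76) (nat_lit 5) (nat_lit 72) (nat_lit 5) (nat_lit 403) (nat_lit 352) (nat_lit 190))) (XT.nd (nat_lit 94) (nat_lit 0) (nat_lit 0) (XT.lf (nat_lit 0) (nat_lit 5412529940) (nat_lit 420) (nat_lit 20079311782) (nat_lit 84) (nat_lit 5146261230) (nat_lit 67) (nat_lit 5) (nat_lit 72) (nat_lit 5) (nat_lit 68) (nat_lit 5) (nat_lit 404) (nat_lit 352) (nat_lit 189)) (XT.lf (nat_lit 0) (nat_lit 9887483986) (nat_lit 420) (nat_lit 6884731491) (nat_lit 84) (nat_lit 14491963855) (nat_lit 67) (nat_lit 5) (nat_lit 72) (nat_lit 5) (nat_lit 68) (nat_lit 5) (nat_lit 405) (nat_lit 352) (nat_lit 188))))) (XT.nd (nat_lit 282) (nat_lit 420) (nat_lit 0) (XT.nd (nat_lit 94) (nat_lit 252) (nat_lit 0) (XT.lf (nat_lit 0) (nat_lit 6832867052)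 (nat_lit 336) (nat_lit 7725076397) (nat_lit 420) (nat_lit 17349262377) (nat_lit 63) (nat_lit 5) (nat_lit 67) (nat_lit 5) (nat_lit 68) (nat_lit 5) (nat_lit 406) (nat_lit 352) (nat_lit 187)) (XT.nd (nat_lit 94) (nat_lit 252) (nat_lit 0) (XT.lf (nat_lit 0) (nat_lit 19449673502) (nat_lit 420) (nat_lit 11486531433) (nat_lit 84) (nat_lit 1630888837) (nat_lit 63) (nat_lit 5) (nat_lit 68) (nat_lit 5) (nat_lit 64) (nat_lit 5) (nat_lit 407) (nat_lit 352) (nat_lit 186)) (XT.lf (nat_lit 0) (nat_lit 2474683162) (nat_lit 252) (nat_lit 22109502390) (nat_lit 336) (nat_lit 8659717110) (nat_lit 60) (nat_lit 5) (nat_lit 63) (nat_lit 5) (nat_lit 64) (nat_lit 5) (nat_lit 408) (nat_lit 352) (nat_lit 185)))) (XT.nd (nat_lit 188) (nat_lit 336) (nat_lit 0) (XT.nd (nat_lit 94) (nat_lit 84) (nat_lit 0) (XT.lf (nat_lit 0) (nat_lit 17084224915) (nat_lit 252) (nat_lit 12900321721) (nat_lit 336) (nat_lit 3953119826)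 (nat_lit 60) (nat_lit 5) (nat_lit 63) (nat_lit 5) (nat_lit 64) (nat_lit 5) (nat_lit 409) (nat_lit 352) (nat_lit 184)) (XT.lf (nat_lit 0) (nat_lit 873115974) (nat_lit 336) (nat_lit 2534674784) (nat_lit 84) (nat_lit 31244322212) (nat_lit 59) (nat_lit 5) (nat_lit 63) (nat_lit 5) (nat_lit 60) (nat_lit 5) (nat_lit 410) (nat_lit 352) (nat_lit 183))) (XT.nd (nat_lit 94) (nat_lit 0) (nat_lit 0) (XT.lf (nat_lit 0) (nat_lit 5942785199) (nat_lit 420) (nat_lit 23035158231) (nat_lit 84) (nat_lit 6403536871) (nat_lit 55) (nat_lit 5) (nat_lit 60) (nat_lit 5) (nat_lit 56) (nat_lit 5) (nat_lit 411) (nat_lit 352) (nat_lit 182)) (XT.lf (nat_lit 0) (nat_lit 11220196949) (nat_lit 420) (nat_lit 8446009892) (nat_lit 84) (nat_lit 16464856730) (nat_lit 55) (nat_lit 5) (nat_lit 60) (nat_lit 5) (nat_lit 56) (nat_lit 5) (nat_lit 412) (nat_lit 352) (nat_lit 181)))))) (XT.nd (nat_lit 658) (nat_lit 756) (nat_lit 0)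 (XT.nd (nat_lit 282) (nat_lit 336) (nat_lit 0) (XT.nd (nat_lit 94) (nat_lit 252) (nat_lit 0) (XT.lf (nat_lit 0) (nat_lit 6706078113) (nat_lit 252) (nat_lit 10010493806) (nat_lit 336) (nat_lit 20184747554) (nat_lit 52) (nat_lit 5) (nat_lit 55) (nat_lit 5) (nat_lit 56) (nat_lit 5) (nat_lit 413) (nat_lit 352) (nat_lit 180)) (XT.nd (nat_lit 94) (nat_lit 252) (nat_lit 0) (XT.lf (nat_lit 0) (nat_lit 22459563791) (nat_lit 336) (nat_lit 15212119048) (nat_lit 84) (nat_lit 20552678) (nat_lit 52) (nat_lit 5) (nat_lit 56) (nat_lit 5) (nat_lit 53) (nat_lit 5) (nat_lit 414) (nat_lit 352) (nat_lit 179)) (XT.lf (nat_lit 0) (nat_lit 118214429) (nat_lit 252) (nat_lit 28353210211) (nat_lit 336) (nat_lit 10032561134) (nat_lit 49) (nat_lit 5) (nat_lit 52) (nat_lit 5) (nat_lit 53) (nat_lit 5) (nat_lit 415) (nat_lit 352) (nat_lit 178)))) (XT.nd (nat_lit 188) (nat_lit 252) (nat_lit 0) (XT.nd (nat_lit 94) (nat_lit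 84) (nat_lit 0) (XT.lf (nat_lit 0) (nat_lit 16214869628) (nat_lit 252) (nat_lit 18598768140) (nat_lit 336) (nat_lit 4521954871) (nat_lit 49) (nat_lit 5) (nat_lit 52) (nat_lit 5) (nat_lit 53) (nat_lit 5) (nat_lit 416) (nat_lit 352) (nat_lit 177)) (XT.lf (nat_lit 0) (nat_lit 1127902117) (nat_lit 336) (nat_lit 7414154182) (nat_lit 84) (nat_lit 31649868871) (nat_lit 48) (nat_lit 5) (nat_lit 52) (nat_lit 5) (nat_lit 49) (nat_lit 5) (nat_lit 417) (nat_lit 352) (nat_lit 176))) (XT.nd (nat_lit 94) (nat_lit 0) (nat_lit 0) (XT.lf (nat_lit 0) (nat_lit 6957082376) (nat_lit 336) (nat_lit 32201805131) (nat_lit 84) (nat_lit 1910699238) (nat_lit 45) (nat_lit 5) (nat_lit 49) (nat_lit 5) (nat_lit 46) (nat_lit 5) (nat_lit 418) (nat_lit 352) (nat_lit 175)) (XT.lf (nat_lit 0) (nat_lit 13117910908) (nat_lit 336) (nat_lit 16271710517) (nat_lit 84) (nat_lit 12579257101) (nat_lit 45) (nat_lit 5) (nat_lit 49) (nat_lit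 5) (nat_lit 46) (nat_lit 5) (nat_lit 419) (nat_lit 352) (nat_lit 174))))) (XT.nd (nat_lit 282) (nat_lit 504) (nat_lit 0) (XT.nd (nat_lit 94) (nat_lit 0) (nat_lit 0) (XT.lf (nat_lit 0) (nat_lit 133829799) (nat_lit 252) (nat_lit 19327708678) (nat_lit 336) (nat_lit 23433674802) (nat_lit 42) (nat_lit 5) (nat_lit 45) (nat_lit 5) (nat_lit 46) (nat_lit 5) (nat_lit 420) (nat_lit 352) (nat_lit 173)) (XT.nd (nat_lit 94) (nat_lit 0) (nat_lit 0) (XT.lf (nat_lit 0) (nat_lit 17360071495) (nat_lit 252) (nat_lit 8796451705) (nat_lit 336) (nat_lit 17687986766) (nat_lit 42) (nat_lit 5) (nat_lit 45) (nat_lit 5) (nat_lit 46) (nat_lit 5) (nat_lit 421) (nat_lit 352) (nat_lit 172)) (XT.lf (nat_lit 0) (nat_lit 33068885109) (nat_lit 336) (nat_lit 9743852804) (nat_lit 84) (nat_lit 2009055056) (nat_lit 42) (nat_lit 5) (nat_lit 46) (nat_lit 5) (nat_lit 43) (nat_lit 5) (nat_lit 422) (nat_lit 352) (nat_lit 171))))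 (XT.nd (nat_lit 188) (nat_lit 252) (nat_lit 0) (XT.nd (nat_lit 94) (nat_lit 84) (nat_lit 0) (XT.lf (nat_lit 0) (nat_lit 7554461213) (nat_lit 168) (nat_lit 32790775769) (nat_lit 252) (nat_lit 5478462057) (nat_lit 40) (nat_lit 5) (nat_lit 42) (nat_lit 5) (nat_lit 43) (nat_lit 5) (nat_lit 423) (nat_lit 352) (nat_lit 170)) (XT.lf (nat_lit 0) (nat_lit 1061298035) (nat_lit 252) (nat_lit 21296509011) (nat_lit 84) (nat_lit 24494685792) (nat_lit 39) (nat_lit 5) (nat_lit 42) (nat_lit 5) (nat_lit 40) (nat_lit 5) (nat_lit 424) (nat_lit 352) (nat_lit 169))) (XT.nd (nat_lit 94) (nat_lit 252) (nat_lit 0) (XT.lf (nat_lit 0) (nat_lit 7684147552) (nat_lit 252) (nat_lit 3873527444) (nat_lit 84) (nat_lit 36352940823) (nat_lit 39) (nat_lit 5) (nat_lit 42) (nat_lit 5) (nat_lit 40) (nat_lit 5) (nat_lit 425) (nat_lit 352) (nat_lit 168)) (XT.lf (nat_lit 0) (nat_lit 14347565854) (nat_lit 252) (nat_lit 293129702)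 (nat_lit 336) (nat_lit 34355739345) (nat_lit 36) (nat_lit 5) (nat_lit 39) (nat_lit 5) (nat_lit 40) (nat_lit 5) (nat_lit 426) (nat_lit 352) (nat_lit 167))))))))
noncomputable def xc164 : XT := (XT.nd (nat_lit 52734) (nat_lit 0) (nat_lit 8232) (XT.nd (nat_lit 1222) (nat_lit 504) (nat_lit 0) (XT.nd (nat_lit 564) (nat_lit 420) (nat_lit 0) (XT.nd (nat_lit 282) (nat_lit 252) (nat_lit 0) (XT.nd (nat_lit 94) (nat_lit 168) (nat_lit 0) (XT.lf (nat_lit 0) (nat_lit 21951275639) (nat_lit 336) (nat_lit 17032637940) (nat_lit 84) (nat_lit 11126557622) (nat_lit 36) (nat_lit 5) (nat_lit 40) (nat_lit 5) (nat_lit 37) (nat_lit 5) (nat_lit 427) (nat_lit 352) (nat_lit 166)) (XT.nd (nat_lit 94) (nat_lit 0) (nat_lit 0) (XT.lf (nat_lit 0) (nat_lit 1126718909) (nat_lit 168) (nat_lit 28365391977) (nat_lit 252) (nat_lit 21765492211) (nat_lit 34) (nat_lit 5) (nat_lit 36) (nat_lit 5) (nat_lit 37) (nat_lit 5) (nat_lit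 428) (nat_lit 352) (nat_lit 165)) (XT.lf (nat_lit 0) (nat_lit 20175607164) (nat_lit 168) (nat_lit 17252804151) (nat_lit 252) (nat_lit 15005662991) (nat_lit 34) (nat_lit 5) (nat_lit 36) (nat_lit 5) (nat_lit 37) (nat_lit 5) (nat_lit 429) (nat_lit 352) (nat_lit 164)))) (XT.nd (nat_lit 94) (nat_lit 252) (nat_lit 0) (XT.lf (nat_lit 0) (nat_lit 39791688592) (nat_lit 168) (nat_lit 5808436320) (nat_lit 252) (nat_lit 8045797503) (nat_lit 34) (nat_lit 5) (nat_lit 36) (nat_lit 5) (nat_lit 37) (nat_lit 5) (nat_lit 430) (nat_lit 352) (nat_lit 163)) (XT.nd (nat_lit 94) (nat_lit 84) (nat_lit 0) (XT.lf (nat_lit 0) (nat_lit 5140750272) (nat_lit 168) (nat_lit 48980519193) (nat_lit 252) (nat_lit 769730531) (nat_lit 32) (nat_lit 5) (nat_lit 34) (nat_lit 5) (nat_lit 35) (nat_lit 5) (nat_lit 431) (nat_lit 352) (nat_lit 162)) (XT.lf (nat_lit 0) (nat_lit 6789587301) (nat_lit 252) (nat_lit 31307413597) (nat_lit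 84) (nat_lit 18068606336) (nat_lit 31) (nat_lit 5) (nat_lit 34) (nat_lit 5) (nat_lit 32) (nat_lit 5) (nat_lit 432) (nat_lit 352) (nat_lit 161))))) (XT.nd (nat_lit 282) (nat_lit 252) (nat_lit 0) (XT.nd (nat_lit 94) (nat_lit 168) (nat_lit 0) (XT.lf (nat_lit 0) (nat_lit 14557685067) (nat_lit 252) (nat_lit 12323017598) (nat_lit 84) (nat_lit 30597599464) (nat_lit 31) (nat_lit 5) (nat_lit 34) (nat_lit 5) (nat_lit 32) (nat_lit 5) (nat_lit 433) (nat_lit 352) (nat_lit 160)) (XT.nd (nat_lit 94) (nat_lit 0) (nat_lit 0) (XT.lf (nat_lit 0) (nat_lit 7370755690) (nat_lit 168) (nat_lit 15256467162) (nat_lit 252) (nat_lit 36201105252) (nat_lit 29) (nat_lit 5) (nat_lit 31) (nat_lit 5) (nat_lit 32) (nat_lit 5) (nat_lit 434) (nat_lit 352) (nat_lit 159)) (XT.lf (nat_lit 0) (nat_lit 27904006442) (nat_lit 168) (nat_lit 3156857100) (nat_lit 252) (nat_lit 29154332895) (nat_lit 29) (nat_lit 5) (nat_lit 31) (nat_lit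 5) (nat_lit 32) (nat_lit 5) (nat_lit 435) (nat_lit 352) (nat_lit 158)))) (XT.nd (nat_lit 188) (nat_lit 84) (nat_lit 0) (XT.nd (nat_lit 94) (nat_lit 168) (nat_lit 0) (XT.lf (nat_lit 0) (nat_lit 39834600695) (nat_lit 252) (nat_lit 12683757511) (nat_lit 84) (nat_lit 9122702020) (nat_lit 29) (nat_lit 5) (nat_lit 32) (nat_lit 5) (nat_lit 30) (nat_lit 5) (nat_lit 436) (nat_lit 352) (nat_lit 157)) (XT.lf (nat_lit 0) (nat_lit 7646680557) (nat_lit 168) (nat_lit 41327333640) (nat_lit 252) (nat_lit 14132613767) (nat_lit 27) (nat_lit 5) (nat_lit 29) (nat_lit 5) (nat_lit 30) (nat_lit 5) (nat_lit 437) (nat_lit 352) (nat_lit 156))) (XT.nd (nat_lit 94) (nat_lit 84) (nat_lit 0) (XT.lf (nat_lit 0) (nat_lit 28843297721) (nat_lit 168) (nat_lit 29670128065) (nat_lit 252) (nat_lit 6098964384) (nat_lit 27) (nat_lit 5) (nat_lit 29) (nat_lit 5) (nat_lit 30) (nat_lit 5) (nat_lit 438) (nat_lit 352) (nat_lit 155))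 (XT.lf (nat_lit 0) (nat_lit 2131015834) (nat_lit 252) (nat_lit 15512101739) (nat_lit 84) (nat_lit 48519648733) (nat_lit 26) (nat_lit 5) (nat_lit 29) (nat_lit 5) (nat_lit 27) (nat_lit 5) (nat_lit 439) (nat_lit 352) (nat_lit 154)))))) (XT.nd (nat_lit 658) (nat_lit 168) (nat_lit 0) (XT.nd (nat_lit 282) (nat_lit 168) (nat_lit 0) (XT.nd (nat_lit 94) (nat_lit 0) (nat_lit 0) (XT.lf (nat_lit 0) (nat_lit 5393898569) (nat_lit 168) (nat_lit 5141104937) (nat_lit 252) (nat_lit 57221349655) (nat_lit 24) (nat_lit 5) (nat_lit 26) (nat_lit 5) (nat_lit 27) (nat_lit 5) (nat_lit 440) (nat_lit 352) (nat_lit 153)) (XT.nd (nat_lit 94) (nat_lit 0) (nat_lit 0) (XT.lf (nat_lit 0) (nat_lit 19421523520) (nat_lit 252) (nat_lit 42227486185) (nat_lit 84) (nat_lit 7741827229) (nat_lit 24) (nat_lit 5) (nat_lit 27) (nat_lit 5) (nat_lit 25) (nat_lit 5) (nat_lit 441) (nat_lit 352) (nat_lit 152)) (XT.lf (nat_lit 0) (nat_lit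 28623460710) (nat_lit 252) (nat_lit 21542852126) (nat_lit 84) (nat_lit 20906579381) (nat_lit 24) (nat_lit 5) (nat_lit 27) (nat_lit 5) (nat_lit 25) (nat_lit 5) (nat_lit 442) (nat_lit 352) (nat_lit 151)))) (XT.nd (nat_lit 188) (nat_lit 0) (nat_lit 0) (XT.nd (nat_lit 94) (nat_lit 168) (nat_lit 0) (XT.lf (nat_lit 0) (nat_lit 38099436158) (nat_lit 252) (nat_lit 241059019) (nat_lit 84) (nat_lit 34464976173) (nat_lit 24) (nat_lit 5) (nat_lit 27) (nat_lit 5) (nat_lit 25) (nat_lit 5) (nat_lit 443) (nat_lit 352) (nat_lit 150)) (XT.lf (nat_lit 0) (nat_lit 22128309371) (nat_lit 168) (nat_lit 25942131318) (nat_lit 252) (nat_lit 26513266224) (nat_lit 22) (nat_lit 5) (nat_lit 24) (nat_lit 5) (nat_lit 25) (nat_lit 5) (nat_lit 444) (nat_lit 352) (nat_lit 149))) (XT.nd (nat_lit 94) (nat_lit 0) (nat_lit 0) (XT.lf (nat_lit 0) (nat_lit 45170450931) (nat_lit 168) (nat_lit 13170623505) (nat_lit 252) (nat_lit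 18074201640) (nat_lit 22) (nat_lit 5) (nat_lit 24) (nat_lit 5) (nat_lit 25) (nat_lit 5) (nat_lit 445) (nat_lit 352) (nat_lit 148)) (XT.lf (nat_lit 0) (nat_lit 68900702023) (nat_lit 168) (nat_lit 17246390) (nat_lit 252) (nat_lit 9383901723) (nat_lit 22) (nat_lit 5) (nat_lit 24) (nat_lit 5) (nat_lit 25) (nat_lit 5) (nat_lit 446) (nat_lit 352) (nat_lit 147))))) (XT.nd (nat_lit 50478) (nat_lit 0) (nat_lit 13104) (XT.nd (nat_lit 94) (nat_lit 84) (nat_lit 0) (XT.lf (nat_lit 0) (nat_lit 13222688776) (nat_lit 84) (nat_lit 66844774114) (nat_lit 168) (nat_lit 169899918) (nat_lit 21) (nat_lit 5) (nat_lit 22) (nat_lit 5) (nat_lit 23) (nat_lit 4) (nat_lit 447) (nat_lit 352) (nat_lit 146)) (XT.nd (nat_lit 94) (nat_lit 0) (nat_lit 0) (XT.lf (nat_lit 0) (nat_lit 9232857478) (nat_lit 168) (nat_lit 45603957406) (nat_lit 84) (nat_lit 27388613102) (nat_lit 20) (nat_lit 5) (nat_lit 22) (nat_lit 5) (nat_lit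 21) (nat_lit 5) (nat_lit 448) (nat_lit 352) (nat_lit 145)) (XT.lf (nat_lit 0) (nat_lit 18912504761) (nat_lit 168) (nat_lit 23555625133) (nat_lit 84) (nat_lit 41805009400) (nat_lit 20) (nat_lit 5) (nat_lit 22) (nat_lit 5) (nat_lit 21) (nat_lit 5) (nat_lit 449) (nat_lit 352) (nat_lit 144)))) (XT.nd (nat_lit 188) (nat_lit 0) (nat_lit 84) (XT.nd (nat_lit 94) (nat_lit 0) (nat_lit 0) (XT.lf (nat_lit 0) (nat_lit 2346095768) (nat_lit 1260) (nat_lit 2049622810) (nat_lit 1260) (nat_lit 2049622810) (nat_lit 176) (nat_lit 3) (nat_lit 191) (nat_lit 3) (nat_lit 191) (nat_lit 5) (nat_lit 353) (nat_lit 353) (nat_lit 239)) (XT.lf (nat_lit 84) (nat_lit 1511736839) (nat_lit 0) (nat_lit 3641843001) (nat_lit 1260) (nat_lit 7918013643) (nat_lit 177) (nat_lit 5) (nat_lit 176) (nat_lit 3) (nat_lit 191) (nat_lit 5) (nat_lit 354) (nat_lit 353) (nat_lit 238))) (XT.nd (nat_lit 94) (nat_lit 0) (nat_lit 0) (XT.lf (nat_lit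 0) (nat_lit 5671893031) (nat_lit 1176) (nat_lit 5906269067) (nat_lit 1260) (nat_lit 1678504990) (nat_lit 177) (nat_lit 5) (nat_lit 191) (nat_lit 5) (nat_lit 192) (nat_lit 5) (nat_lit 355) (nat_lit 353) (nat_lit 237)) (XT.lf (nat_lit 0) (nat_lit 6227542198) (nat_lit 1176) (nat_lit 127161202) (nat_lit 1260) (nat_lit 7091963160) (nat_lit 177) (nat_lit 5) (nat_lit 191) (nat_lit 5) (nat_lit 192) (nat_lit 5) (nat_lit 356) (nat_lit 353) (nat_lit 236))))))) (XT.nd (nat_lit 1316) (nat_lit 4032) (nat_lit 0) (XT.nd (nat_lit 658) (nat_lit 924) (nat_lit 0) (XT.nd (nat_lit 282) (nat_lit 0) (nat_lit 168) (XT.nd (nat_lit 94) (nat_lit 0) (nat_lit 84) (XT.lf (nat_lit 84) (nat_lit 5933304417) (nat_lit 0) (nat_lit 909735372) (nat_lit 1260) (nat_lit 6798057323) (nat_lit 178) (nat_lit 5) (nat_lit 177) (nat_lit 5) (nat_lit 192) (nat_lit 5) (nat_lit 357) (nat_lit 353) (nat_lit 235)) (XT.nd (nat_lit 94) (nat_lit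 0) (nat_lit 0) (XT.lf (nat_lit 0) (nat_lit 7509994322) (nat_lit 1176) (nat_lit 1716516221) (nat_lit 1260) (nat_lit 4613885971) (nat_lit 178) (nat_lit 5) (nat_lit 192) (nat_lit 5) (nat_lit 193) (nat_lit 5) (nat_lit 358) (nat_lit 353) (nat_lit 234)) (XT.lf (nat_lit 84) (nat_lit 4525839221) (nat_lit 0) (nat_lit 3710552604) (nat_lit 1260) (nat_lit 5808124986) (nat_lit 179) (nat_lit 5) (nat_lit 178) (nat_lit 5) (nat_lit 193) (nat_lit 5) (nat_lit 359) (nat_lit 353) (nat_lit 233)))) (XT.nd (nat_lit 188) (nat_lit 0) (nat_lit 0) (XT.nd (nat_lit 94) (nat_lit 0) (nat_lit 0) (XT.lf (nat_lit 0) (nat_lit 9008305608) (nat_lit 1176) (nat_lit 3291049157) (nat_lit 1260) (nat_lit 1954718439) (nat_lit 179) (nat_lit 5) (nat_lit 193) (nat_lit 5) (nat_lit 194) (nat_lit 5) (nat_lit 360) (nat_lit 353) (nat_lit 232)) (XT.lf (nat_lit 84) (nat_lit 3139838860) (nat_lit 0) (nat_lit 6718102745) (nat_lit 1260) (nat_lit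 4610361254) (nat_lit 180) (nat_lit 5) (nat_lit 179) (nat_lit 5) (nat_lit 194) (nat_lit 5) (nat_lit 361) (nat_lit 353) (nat_lit 231))) (XT.nd (nat_lit 94) (nat_lit 0) (nat_lit 84) (XT.lf (nat_lit 84) (nat_lit 9823095530) (nat_lit 0) (nat_lit 931131660) (nat_lit 1260) (nat_lit 3934120224) (nat_lit 180) (nat_lit 5) (nat_lit 179) (nat_lit 5) (nat_lit 194) (nat_lit 5) (nat_lit 362) (nat_lit 353) (nat_lit 230)) (XT.lf (nat_lit 84) (nat_lit 1769847307) (nat_lit 0) (nat_lit 9961229833) (nat_lit 1260) (nat_lit 3182328056) (nat_lit 181) (nat_lit 5) (nat_lit 180) (nat_lit 5) (nat_lit 195) (nat_lit 5) (nat_lit 363) (nat_lit 353) (nat_lit 229))))) (XT.nd (nat_lit 282) (nat_lit 1176) (nat_lit 0) (XT.nd (nat_lit 94) (nat_lit 0) (nat_lit 84) (XT.lf (nat_lit 84) (nat_lit 8686210908) (nat_lit 0) (nat_lit 4097858975) (nat_lit 1260) (nat_lit 2359761226) (nat_lit 181) (nat_lit 5) (nat_lit 180) (nat_lit 5)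 (nat_lit 195) (nat_lit 5) (nat_lit 364) (nat_lit 353) (nat_lit 228)) (XT.nd (nat_lit 94) (nat_lit 0) (nat_lit 0) (XT.lf (nat_lit 84) (nat_lit 409966749) (nat_lit 0) (nat_lit 13470231075) (nat_lit 1260) (nat_lit 1500646503) (nat_lit 182) (nat_lit 5) (nat_lit 181) (nat_lit 5) (nat_lit 196) (nat_lit 5) (nat_lit 365) (nat_lit 353) (nat_lit 227)) (XT.lf (nat_lit 84) (nat_lit 7566390155) (nat_lit 0) (nat_lit 7537389731) (nat_lit 1260) (nat_lit 518371230) (nat_lit 182) (nat_lit 5) (nat_lit 181) (nat_lit 5) (nat_lit 196) (nat_lit 5) (nat_lit 366) (nat_lit 353) (nat_lit 226)))) (XT.nd (nat_lit 188) (nat_lit 0) (nat_lit 84) (XT.nd (nat_lit 94) (nat_lit 0) (nat_lit 84) (XT.lf (nat_lit 0) (nat_lit 473122436) (nat_lit 1260) (nat_lit 946111246) (nat_lit 1344) (nat_lit 14451658939) (nat_lit 166) (nat_lit 5) (nat_lit 181) (nat_lit 5) (nat_lit 182) (nat_lit 5) (nat_lit 367) (nat_lit 353) (nat_lit 225))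 (XT.lf (nat_lit 0) (nat_lit 1583643538) (nat_lit 1260) (nat_lit 9682616089) (nat_lit 1344) (nat_lit 4857710292) (nat_lit 167) (nat_lit 5) (nat_lit 182) (nat_lit 5) (nat_lit 183) (nat_lit 5) (nat_lit 368) (nat_lit 353) (nat_lit 224))) (XT.nd (nat_lit 94) (nat_lit 0) (nat_lit 84) (XT.lf (nat_lit 0) (nat_lit 2741113757) (nat_lit 1260) (nat_lit 2336865962) (nat_lit 1344) (nat_lit 11306268831) (nat_lit 167) (nat_lit 5) (nat_lit 182) (nat_lit 5) (nat_lit 183) (nat_lit 5) (nat_lit 369) (nat_lit 353) (nat_lit 223)) (XT.lf (nat_lit 0) (nat_lit 3987705292) (nat_lit 1260) (nat_lit 11338886516) (nat_lit 84) (nat_lit 1324129313) (nat_lit 168) (nat_lit 5) (nat_lit 183) (nat_lit 5) (nat_lit 169) (nat_lit 5) (nat_lit 370) (nat_lit 353) (nat_lit 222)))))) (XT.nd (nat_lit 658) (nat_lit 1764) (nat_lit 0) (XT.nd (nat_lit 282) (nat_lit 1176) (nat_lit 0) (XT.nd (nat_lit 94) (nat_lit 1260) (nat_lit 0) (XT.lf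 (nat_lit 0) (nat_lit 5336254402) (nat_lit 1260) (nat_lit 3745297819) (nat_lit 84) (nat_lit 7841715839) (nat_lit 168) (nat_lit 5) (nat_lit 183) (nat_lit 5) (nat_lit 169) (nat_lit 5) (nat_lit 371) (nat_lit 353) (nat_lit 221)) (XT.nd (nat_lit 94) (nat_lit 0) (nat_lit 0) (XT.lf (nat_lit 0) (nat_lit 4149094485) (nat_lit 1260) (nat_lit 2606778645) (nat_lit 1344) (nat_lit 10447216372) (nat_lit 153) (nat_lit 5) (nat_lit 168) (nat_lit 5) (nat_lit 169) (nat_lit 5) (nat_lit 372) (nat_lit 353) (nat_lit 220)) (XT.lf (nat_lit 0) (nat_lit 8286258853) (nat_lit 1344) (nat_lit 5180690090) (nat_lit 84) (nat_lit 4022327305) (nat_lit 153) (nat_lit 5) (nat_lit 169) (nat_lit 5) (nat_lit 154) (nat_lit 5) (nat_lit 373) (nat_lit 353) (nat_lit 219)))) (XT.nd (nat_lit 188) (nat_lit 588) (nat_lit 0) (XT.nd (nat_lit 94) (nat_lit 0) (nat_lit 0) (XT.lf (nat_lit 0) (nat_lit 2952670640) (nat_lit 588) (nat_lit 6955277189)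 (nat_lit 672) (nat_lit 7874754559) (nat_lit 146) (nat_lit 5) (nat_lit 153) (nat_lit 5) (nat_lit 154) (nat_lit 5) (nat_lit 374) (nat_lit 353) (nat_lit 218)) (XT.lf (nat_lit 0) (nat_lit 11428358315) (nat_lit 588) (nat_lit 193623748) (nat_lit 672) (nat_lit 6461653505) (nat_lit 146) (nat_lit 5) (nat_lit 153) (nat_lit 5) (nat_lit 154) (nat_lit 5) (nat_lit 375) (nat_lit 353) (nat_lit 217))) (XT.nd (nat_lit 94) (nat_lit 0) (nat_lit 0) (XT.lf (nat_lit 0) (nat_lit 1725386205) (nat_lit 588) (nat_lit 11735360243) (nat_lit 672) (nat_lit 4930665673) (nat_lit 139) (nat_lit 5) (nat_lit 146) (nat_lit 5) (nat_lit 147) (nat_lit 5) (nat_lit 376) (nat_lit 353) (nat_lit 216)) (XT.lf (nat_lit 0) (nat_lit 10484102281) (nat_lit 588) (nat_lit 4931481038) (nat_lit 672) (nat_lit 3291025591) (nat_lit 139) (nat_lit 5) (nat_lit 146) (nat_lit 5) (nat_lit 147) (nat_lit 5) (nat_lit 377) (nat_lit 353) (nat_lit 215)))))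 (XT.nd (nat_lit 282) (nat_lit 1092) (nat_lit 0) (XT.nd (nat_lit 94) (nat_lit 84) (nat_lit 0) (XT.lf (nat_lit 0) (nat_lit 455377361) (nat_lit 588) (nat_lit 16990074034) (nat_lit 672) (nat_lit 1585332435) (nat_lit 132) (nat_lit 5) (nat_lit 139) (nat_lit 5) (nat_lit 140) (nat_lit 5) (nat_lit 378) (nat_lit 353) (nat_lit 214)) (XT.nd (nat_lit 94) (nat_lit 0) (nat_lit 0) (XT.lf (nat_lit 0) (nat_lit 292978564) (nat_lit 672) (nat_lit 9859298404) (nat_lit 84) (nat_lit 9208626754) (nat_lit 131) (nat_lit 5) (nat_lit 139) (nat_lit 5) (nat_lit 132) (nat_lit 5) (nat_lit 379) (nat_lit 353) (nat_lit 213)) (XT.lf (nat_lit 0) (nat_lit 2188119375) (nat_lit 672) (nat_lit 905130678) (nat_lit 84) (nat_lit 16607448585) (nat_lit 131) (nat_lit 5) (nat_lit 139) (nat_lit 5) (nat_lit 132) (nat_lit 5) (nat_lit 380) (nat_lit 353) (nat_lit 212)))) (XT.nd (nat_lit 188) (nat_lit 504) (nat_lit 0) (XT.nd (nat_lit 94) (nat_lit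 0) (nat_lit 0) (XT.lf (nat_lit 0) (nat_lit 4255116780) (nat_lit 672) (nat_lit 11613893227) (nat_lit 84) (nat_lit 4178239594) (nat_lit 124) (nat_lit 5) (nat_lit 132) (nat_lit 5) (nat_lit 125) (nat_lit 5) (nat_lit 381) (nat_lit 353) (nat_lit 211)) (XT.lf (nat_lit 0) (nat_lit 6416691698) (nat_lit 672) (nat_lit 2371745095) (nat_lit 84) (nat_lit 11614795185) (nat_lit 124) (nat_lit 5) (nat_lit 132) (nat_lit 5) (nat_lit 125) (nat_lit 5) (nat_lit 382) (nat_lit 353) (nat_lit 210))) (XT.nd (nat_lit 94) (nat_lit 0) (nat_lit 0) (XT.lf (nat_lit 0) (nat_lit 7282337354) (nat_lit 504) (nat_lit 1423701909) (nat_lit 588) (nat_lit 12061978368) (nat_lit 118) (nat_lit 5) (nat_lit 124) (nat_lit 5) (nat_lit 125) (nat_lit 5) (nat_lit 383) (nat_lit 353) (nat_lit 209)) (XT.lf (nat_lit 0) (nat_lit 11140541467) (nat_lit 588) (nat_lit 3935414733) (nat_lit 84) (nat_lit 6065507657) (nat_lit 118) (nat_lit 5) (nat_lit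 125) (nat_lit 5) (nat_lit 119) (nat_lit 5) (nat_lit 384) (nat_lit 353) (nat_lit 208))))))))
noncomputable def xc165 : XT := (XT.nd (nat_lit 2538) (nat_lit 2688) (nat_lit 0) (XT.nd (nat_lit 1222) (nat_lit 2184) (nat_lit 0) (XT.nd (nat_lit 564) (nat_lit 1260) (nat_lit 0) (XT.nd (nat_lit 282) (nat_lit 588) (nat_lit 0) (XT.nd (nat_lit 94) (nat_lit 420) (nat_lit 0) (XT.lf (nat_lit 0) (nat_lit 5996927776) (nat_lit 504) (nat_lit 7716149890) (nat_lit 588) (nat_lit 7811096739) (nat_lit 112) (nat_lit 5) (nat_lit 118) (nat_lit 5) (nat_lit 119) (nat_lit 5) (nat_lit 385) (nat_lit 353) (nat_lit 207)) (XT.nd (nat_lit 94) (nat_lit 420) (nat_lit 0) (XT.lf (nat_lit 0) (nat_lit 16300628223) (nat_lit 504) (nat_lit 95284814) (nat_lit 588) (nat_lit 5521470123) (nat_lit 112) (nat_lit 5) (nat_lit 118) (nat_lit 5) (nat_lit 119) (nat_lit 5) (nat_lit 386) (nat_lit 353) (nat_lit 206)) (XT.lf (nat_lit 0) (nat_lit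 4598987049) (nat_lit 420) (nat_lit 14672562482) (nat_lit 504) (nat_lit 3047479444) (nat_lit 107) (nat_lit 5) (nat_lit 112) (nat_lit 5) (nat_lit 113) (nat_lit 5) (nat_lit 387) (nat_lit 353) (nat_lit 205)))) (XT.nd (nat_lit 94) (nat_lit 588) (nat_lit 0) (XT.lf (nat_lit 0) (nat_lit 15228179259) (nat_lit 420) (nat_lit 7056615949) (nat_lit 504) (nat_lit 446398730) (nat_lit 107) (nat_lit 5) (nat_lit 112) (nat_lit 5) (nat_lit 113) (nat_lit 5) (nat_lit 388) (nat_lit 353) (nat_lit 204)) (XT.nd (nat_lit 94) (nat_lit 0) (nat_lit 0) (XT.lf (nat_lit 0) (nat_lit 2220347198) (nat_lit 588) (nat_lit 20110976618) (nat_lit 84) (nat_lit 822829540) (nat_lit 100) (nat_lit 5) (nat_lit 107) (nat_lit 5) (nat_lit 101) (nat_lit 5) (nat_lit 389) (nat_lit 353) (nat_lit 203)) (XT.lf (nat_lit 0) (nat_lit 5098411583) (nat_lit 588) (nat_lit 9610241225) (nat_lit 84) (nat_lit 8876816638) (nat_lit 100) (nat_lit 5) (nat_lit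 107) (nat_lit 5) (nat_lit 101) (nat_lit 5) (nat_lit 390) (nat_lit 353) (nat_lit 202))))) (XT.nd (nat_lit 282) (nat_lit 840) (nat_lit 0) (XT.nd (nat_lit 94) (nat_lit 0) (nat_lit 0) (XT.lf (nat_lit 0) (nat_lit 1222345728) (nat_lit 420) (nat_lit 6846304507) (nat_lit 504) (nat_lit 15960908678) (nat_lit 95) (nat_lit 5) (nat_lit 100) (nat_lit 5) (nat_lit 101) (nat_lit 5) (nat_lit 391) (nat_lit 353) (nat_lit 201)) (XT.nd (nat_lit 94) (nat_lit 0) (nat_lit 0) (XT.lf (nat_lit 0) (nat_lit 11232212579) (nat_lit 504) (nat_lit 11927269926) (nat_lit 84) (nat_lit 1324370669) (nat_lit 95) (nat_lit 5) (nat_lit 101) (nat_lit 5) (nat_lit 96) (nat_lit 5) (nat_lit 392) (nat_lit 353) (nat_lit 200)) (XT.lf (nat_lit 0) (nat_lit 14552813526) (nat_lit 504) (nat_lit 795632018) (nat_lit 84) (nat_lit 9601475124) (nat_lit 95) (nat_lit 5) (nat_lit 101) (nat_lit 5) (nat_lit 96) (nat_lit 5) (nat_lit 393) (nat_lit 353)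 (nat_lit 199)))) (XT.nd (nat_lit 188) (nat_lit 420) (nat_lit 0) (XT.nd (nat_lit 94) (nat_lit 0) (nat_lit 0) (XT.lf (nat_lit 0) (nat_lit 10875457424) (nat_lit 420) (nat_lit 7196627829) (nat_lit 504) (nat_lit 7354921462) (nat_lit 90) (nat_lit 5) (nat_lit 95) (nat_lit 5) (nat_lit 96) (nat_lit 5) (nat_lit 394) (nat_lit 353) (nat_lit 198)) (XT.lf (nat_lit 0) (nat_lit 21711176725) (nat_lit 504) (nat_lit 3023595977) (nat_lit 84) (nat_lit 1183213273) (nat_lit 90) (nat_lit 5) (nat_lit 96) (nat_lit 5) (nat_lit 91) (nat_lit 5) (nat_lit 395) (nat_lit 353) (nat_lit 197))) (XT.nd (nat_lit 94) (nat_lit 84) (nat_lit 0) (XT.lf (nat_lit 0) (nat_lit 8946918449) (nat_lit 336) (nat_lit 16664531952) (nat_lit 420) (nat_lit 807691573) (nat_lit 86) (nat_lit 5) (nat_lit 90) (nat_lit 5) (nat_lit 91) (nat_lit 5) (nat_lit 396) (nat_lit 353) (nat_lit 196)) (XT.lf (nat_lit 0) (nat_lit 2666460441) (nat_lit 420) (nat_lit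 5628737086) (nat_lit 84) (nat_lit 18638597053) (nat_lit 85) (nat_lit 5) (nat_lit 90) (nat_lit 5) (nat_lit 86) (nat_lit 5) (nat_lit 397) (nat_lit 353) (nat_lit 195)))))) (XT.nd (nat_lit 658) (nat_lit 1008) (nat_lit 0) (XT.nd (nat_lit 282) (nat_lit 420) (nat_lit 0) (XT.nd (nat_lit 94) (nat_lit 336) (nat_lit 0) (XT.lf (nat_lit 0) (nat_lit 6291637973) (nat_lit 504) (nat_lit 20779642420) (nat_lit 84) (nat_lit 390482419) (nat_lit 80) (nat_lit 5) (nat_lit 86) (nat_lit 5) (nat_lit 81) (nat_lit 5) (nat_lit 398) (nat_lit 353) (nat_lit 194)) (XT.nd (nat_lit 94) (nat_lit 336) (nat_lit 0) (XT.lf (nat_lit 0) (nat_lit 10160111756) (nat_lit 504) (nat_lit 8615412953) (nat_lit 84) (nat_lit 9226015948) (nat_lit 80) (nat_lit 5) (nat_lit 86) (nat_lit 5) (nat_lit 81) (nat_lit 5) (nat_lit 399) (nat_lit 353) (nat_lit 193)) (XT.lf (nat_lit 0) (nat_lit 3985156906) (nat_lit 336) (nat_lit 10192944287) (nat_lit 420)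 (nat_lit 14378413398) (nat_lit 76) (nat_lit 5) (nat_lit 80) (nat_lit 5) (nat_lit 81) (nat_lit 5) (nat_lit 400) (nat_lit 353) (nat_lit 192)))) (XT.nd (nat_lit 188) (nat_lit 84) (nat_lit 0) (XT.nd (nat_lit 94) (nat_lit 336) (nat_lit 0) (XT.lf (nat_lit 0) (nat_lit 17134062392) (nat_lit 336) (nat_lit 1264801077) (nat_lit 420) (nat_lit 10726813684) (nat_lit 76) (nat_lit 5) (nat_lit 80) (nat_lit 5) (nat_lit 81) (nat_lit 5) (nat_lit 401) (nat_lit 353) (nat_lit 191)) (XT.lf (nat_lit 0) (nat_lit 900618730) (nat_lit 336) (nat_lit 21925885559) (nat_lit 420) (nat_lit 6883008848) (nat_lit 72) (nat_lit 5) (nat_lit 76) (nat_lit 5) (nat_lit 77) (nat_lit 5) (nat_lit 402) (nat_lit 353) (nat_lit 190))) (XT.nd (nat_lit 94) (nat_lit 84) (nat_lit 0) (XT.lf (nat_lit 0) (nat_lit 14406488086) (nat_lit 336) (nat_lit 13109412833) (nat_lit 420) (nat_lit 2791101522) (nat_lit 72) (nat_lit 5) (nat_lit 76) (nat_lit 5)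 (nat_lit 77) (nat_lit 5) (nat_lit 403) (nat_lit 353) (nat_lit 189)) (XT.lf (nat_lit 0) (nat_lit 1391302295) (nat_lit 420) (nat_lit 2624657557) (nat_lit 84) (nat_lit 26906186194) (nat_lit 71) (nat_lit 5) (nat_lit 76) (nat_lit 5) (nat_lit 72) (nat_lit 5) (nat_lit 404) (nat_lit 353) (nat_lit 188))))) (XT.nd (nat_lit 282) (nat_lit 336) (nat_lit 0) (XT.nd (nat_lit 94) (nat_lit 336) (nat_lit 0) (XT.lf (nat_lit 0) (nat_lit 5799486015) (nat_lit 420) (nat_lit 20369403505) (nat_lit 84) (nat_lit 5381338738) (nat_lit 67) (nat_lit 5) (nat_lit 72) (nat_lit 5) (nat_lit 68) (nat_lit 5) (nat_lit 405) (nat_lit 353) (nat_lit 187)) (XT.nd (nat_lit 94) (nat_lit 336) (nat_lit 0) (XT.lf (nat_lit 0) (nat_lit 10402147512) (nat_lit 420) (nat_lit 6788081561) (nat_lit 84) (nat_lit 15005062258) (nat_lit 67) (nat_lit 5) (nat_lit 72) (nat_lit 5) (nat_lit 68) (nat_lit 5) (nat_lit 406) (nat_lit 353) (nat_lit 186)) (XT.lf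 (nat_lit 0) (nat_lit 7338072468) (nat_lit 336) (nat_lit 7871183532) (nat_lit 420) (nat_lit 17648464490) (nat_lit 63) (nat_lit 5) (nat_lit 67) (nat_lit 5) (nat_lit 68) (nat_lit 5) (nat_lit 407) (nat_lit 353) (nat_lit 185)))) (XT.nd (nat_lit 188) (nat_lit 84) (nat_lit 0) (XT.nd (nat_lit 94) (nat_lit 252) (nat_lit 0) (XT.lf (nat_lit 0) (nat_lit 20242287515) (nat_lit 420) (nat_lit 11533945201) (nat_lit 84) (nat_lit 1761343571) (nat_lit 63) (nat_lit 5) (nat_lit 68) (nat_lit 5) (nat_lit 64) (nat_lit 5) (nat_lit 408) (nat_lit 353) (nat_lit 184)) (XT.lf (nat_lit 0) (nat_lit 2843192281) (nat_lit 252) (nat_lit 22684380350) (nat_lit 336) (nat_lit 8707222154) (nat_lit 60) (nat_lit 5) (nat_lit 63) (nat_lit 5) (nat_lit 64) (nat_lit 5) (nat_lit 409) (nat_lit 353) (nat_lit 183))) (XT.nd (nat_lit 94) (nat_lit 84) (nat_lit 0) (XT.lf (nat_lit 0) (nat_lit 17882449356) (nat_lit 252) (nat_lit 13201499226) (nat_lit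 336) (nat_lit 3865610053) (nat_lit 60) (nat_lit 5) (nat_lit 63) (nat_lit 5) (nat_lit 64) (nat_lit 5) (nat_lit 410) (nat_lit 353) (nat_lit 182)) (XT.lf (nat_lit 0) (nat_lit 1095505133) (nat_lit 336) (nat_lit 2329205975) (nat_lit 84) (nat_lit 32260851410) (nat_lit 59) (nat_lit 5) (nat_lit 63) (nat_lit 5) (nat_lit 60) (nat_lit 5) (nat_lit 411) (nat_lit 353) (nat_lit 181))))))) (XT.nd (nat_lit 1316) (nat_lit 1008) (nat_lit 0) (XT.nd (nat_lit 658) (nat_lit 756) (nat_lit 0) (XT.nd (nat_lit 282) (nat_lit 336) (nat_lit 0) (XT.nd (nat_lit 94) (nat_lit 252) (nat_lit 0) (XT.lf (nat_lit 0) (nat_lit 6315052232) (nat_lit 420) (nat_lit 23442270392) (nat_lit 84) (nat_lit 6679561250) (nat_lit 55) (nat_lit 5) (nat_lit 60) (nat_lit 5) (nat_lit 56) (nat_lit 5) (nat_lit 412) (nat_lit 353) (nat_lit 180)) (XT.nd (nat_lit 94) (nat_lit 252) (nat_lit 0) (XT.lf (nat_lit 0) (nat_lit 11745136330) (nat_lit 420) (nat_lit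 8423717775) (nat_lit 84) (nat_lit 17040276482) (nat_lit 55) (nat_lit 5) (nat_lit 60) (nat_lit 5) (nat_lit 56) (nat_lit 5) (nat_lit 413) (nat_lit 353) (nat_lit 179)) (XT.lf (nat_lit 0) (nat_lit 7180230200) (nat_lit 252) (nat_lit 10223310861) (nat_lit 336) (nat_lit 20599045210) (nat_lit 52) (nat_lit 5) (nat_lit 55) (nat_lit 5) (nat_lit 56) (nat_lit 5) (nat_lit 414) (nat_lit 353) (nat_lit 178)))) (XT.nd (nat_lit 188) (nat_lit 84) (nat_lit 0) (XT.nd (nat_lit 94) (nat_lit 252) (nat_lit 0) (XT.lf (nat_lit 0) (nat_lit 23314237177) (nat_lit 336) (nat_lit 15398675389) (nat_lit 84) (nat_lit 104460871) (nat_lit 52) (nat_lit 5) (nat_lit 56) (nat_lit 5) (nat_lit 53) (nat_lit 5) (nat_lit 415) (nat_lit 353) (nat_lit 177)) (XT.lf (nat_lit 0) (nat_lit 388922923) (nat_lit 252) (nat_lit 29114830516) (nat_lit 336) (nat_lit 10149809676) (nat_lit 49) (nat_lit 5) (nat_lit 52) (nat_lit 5) (nat_lit 53) (nat_lit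 5) (nat_lit 416) (nat_lit 353) (nat_lit 176))) (XT.nd (nat_lit 94) (nat_lit 84) (nat_lit 0) (XT.lf (nat_lit 0) (nat_lit 16960696359) (nat_lit 252) (nat_lit 19070346716) (nat_lit 336) (nat_lit 4479236535) (nat_lit 49) (nat_lit 5) (nat_lit 52) (nat_lit 5) (nat_lit 53) (nat_lit 5) (nat_lit 417) (nat_lit 353) (nat_lit 175)) (XT.lf (nat_lit 0) (nat_lit 1331541321) (nat_lit 336) (nat_lit 7381193583) (nat_lit 84) (nat_lit 32679673994) (nat_lit 48) (nat_lit 5) (nat_lit 52) (nat_lit 5) (nat_lit 49) (nat_lit 5) (nat_lit 418) (nat_lit 353) (nat_lit 174))))) (XT.nd (nat_lit 282) (nat_lit 252) (nat_lit 0) (XT.nd (nat_lit 94) (nat_lit 252) (nat_lit 0) (XT.lf (nat_lit 0) (nat_lit 7333904929) (nat_lit 336) (nat_lit 32910607280) (nat_lit 84) (nat_lit 2051944114) (nat_lit 45) (nat_lit 5) (nat_lit 49) (nat_lit 5) (nat_lit 46) (nat_lit 5) (nat_lit 419) (nat_lit 353) (nat_lit 173)) (XT.nd (nat_lit 94) (nat_lit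 252) (nat_lit 0) (XT.lf (nat_lit 0) (nat_lit 13674661907) (nat_lit 336) (nat_lit 16510102605) (nat_lit 84) (nat_lit 13038114328) (nat_lit 45) (nat_lit 5) (nat_lit 49) (nat_lit 5) (nat_lit 46) (nat_lit 5) (nat_lit 420) (nat_lit 353) (nat_lit 172)) (XT.lf (nat_lit 0) (nat_lit 385155301) (nat_lit 252) (nat_lit 19821066506) (nat_lit 336) (nat_lit 23970858063) (nat_lit 42) (nat_lit 5) (nat_lit 45) (nat_lit 5) (nat_lit 46) (nat_lit 5) (nat_lit 421) (nat_lit 353) (nat_lit 171)))) (XT.nd (nat_lit 188) (nat_lit 252) (nat_lit 0) (XT.nd (nat_lit 94) (nat_lit 0) (nat_lit 0) (XT.lf (nat_lit 0) (nat_lit 18120981027) (nat_lit 252) (nat_lit 8976390467) (nat_lit 336) (nat_lit 18057629298) (nat_lit 42) (nat_lit 5) (nat_lit 45) (nat_lit 5) (nat_lit 46) (nat_lit 5) (nat_lit 422) (nat_lit 353) (nat_lit 170)) (XT.lf (nat_lit 0) (nat_lit 34213339645) (nat_lit 336) (nat_lit 9799134568) (nat_lit 84) (nat_lit 2149245667)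 (nat_lit 42) (nat_lit 5) (nat_lit 46) (nat_lit 5) (nat_lit 43) (nat_lit 5) (nat_lit 423) (nat_lit 353) (nat_lit 169))) (XT.nd (nat_lit 94) (nat_lit 84) (nat_lit 0) (XT.lf (nat_lit 0) (nat_lit 8015805008) (nat_lit 168) (nat_lit 33689994757) (nat_lit 252) (nat_lit 5487953358) (nat_lit 40) (nat_lit 5) (nat_lit 42) (nat_lit 5) (nat_lit 43) (nat_lit 5) (nat_lit 424) (nat_lit 353) (nat_lit 168)) (XT.lf (nat_lit 0) (nat_lit 1240555068) (nat_lit 252) (nat_lit 21704454561) (nat_lit 84) (nat_lit 25308493387) (nat_lit 39) (nat_lit 5) (nat_lit 42) (nat_lit 5) (nat_lit 40) (nat_lit 5) (nat_lit 425) (nat_lit 353) (nat_lit 167)))))) (XT.nd (nat_lit 658) (nat_lit 420) (nat_lit 0) (XT.nd (nat_lit 282) (nat_lit 336) (nat_lit 0) (XT.nd (nat_lit 94) (nat_lit 252) (nat_lit 0) (XT.lf (nat_lit 0) (nat_lit 8057796339) (nat_lit 252) (nat_lit 3765510238) (nat_lit 84) (nat_lit 37520196059) (nat_lit 39) (nat_lit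 5) (nat_lit 42) (nat_lit 5) (nat_lit 40) (nat_lit 5) (nat_lit 426) (nat_lit 353) (nat_lit 166)) (XT.nd (nat_lit 94) (nat_lit 0) (nat_lit 0) (XT.lf (nat_lit 0) (nat_lit 15000017594) (nat_lit 252) (nat_lit 220988756) (nat_lit 336) (nat_lit 35240954990) (nat_lit 36) (nat_lit 5) (nat_lit 39) (nat_lit 5) (nat_lit 40) (nat_lit 5) (nat_lit 427) (nat_lit 353) (nat_lit 165)) (XT.lf (nat_lit 0) (nat_lit 22747549756) (nat_lit 336) (nat_lit 17324574965) (nat_lit 84) (nat_lit 11537398532) (nat_lit 36) (nat_lit 5) (nat_lit 40) (nat_lit 5) (nat_lit 37) (nat_lit 5) (nat_lit 428) (nat_lit 353) (nat_lit 164)))) (XT.nd (nat_lit 188) (nat_lit 168) (nat_lit 0) (XT.nd (nat_lit 94) (nat_lit 0) (nat_lit 0) (XT.lf (nat_lit 0) (nat_lit 1377415118) (nat_lit 168) (nat_lit 29135268143) (nat_lit 252) (nat_lit 22278447435) (nat_lit 34) (nat_lit 5) (nat_lit 36) (nat_lit 5) (nat_lit 37) (nat_lit 5) (nat_lit 429) (nat_lit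 353) (nat_lit 163)) (XT.lf (nat_lit 0) (nat_lit 20991452701) (nat_lit 168) (nat_lit 17691664399) (nat_lit 252) (nat_lit 15319901287) (nat_lit 34) (nat_lit 5) (nat_lit 36) (nat_lit 5) (nat_lit 37) (nat_lit 5) (nat_lit 430) (nat_lit 353) (nat_lit 162))) (XT.nd (nat_lit 94) (nat_lit 168) (nat_lit 0) (XT.lf (nat_lit 0) (nat_lit 41189883252) (nat_lit 168) (nat_lit 5906258461) (nat_lit 252) (nat_lit 8155199007) (nat_lit 34) (nat_lit 5) (nat_lit 36) (nat_lit 5) (nat_lit 37) (nat_lit 5) (nat_lit 431) (nat_lit 353) (nat_lit 161)) (XT.lf (nat_lit 0) (nat_lit 5500605481) (nat_lit 168) (nat_lit 50371276554) (nat_lit 252) (nat_lit 661923214) (nat_lit 32) (nat_lit 5) (nat_lit 34) (nat_lit 5) (nat_lit 35) (nat_lit 5) (nat_lit 432) (nat_lit 353) (nat_lit 160))))) (XT.nd (nat_lit 282) (nat_lit 168) (nat_lit 0) (XT.nd (nat_lit 94) (nat_lit 168) (nat_lit 0) (XT.lf (nat_lit 0) (nat_lit 7117881635) (nat_lit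 252) (nat_lit 32044403807) (nat_lit 84) (nat_lit 18684442927) (nat_lit 31) (nat_lit 5) (nat_lit 34) (nat_lit 5) (nat_lit 32) (nat_lit 5) (nat_lit 433) (nat_lit 353) (nat_lit 159)) (XT.nd (nat_lit 94) (nat_lit 168) (nat_lit 0) (XT.lf (nat_lit 0) (nat_lit 15115393013) (nat_lit 252) (nat_lit 12496366186) (nat_lit 84) (nat_lit 31587156963) (nat_lit 31) (nat_lit 5) (nat_lit 34) (nat_lit 5) (nat_lit 32) (nat_lit 5) (nat_lit 434) (nat_lit 353) (nat_lit 158)) (XT.lf (nat_lit 0) (nat_lit 7786295380) (nat_lit 168) (nat_lit 15639066793) (nat_lit 252) (nat_lit 37164133464) (nat_lit 29) (nat_lit 5) (nat_lit 31) (nat_lit 5) (nat_lit 32) (nat_lit 5) (nat_lit 435) (nat_lit 353) (nat_lit 157)))) (XT.nd (nat_lit 188) (nat_lit 168) (nat_lit 0) (XT.nd (nat_lit 94) (nat_lit 0) (nat_lit 0) (XT.lf (nat_lit 0) (nat_lit 28929881023) (nat_lit 168) (nat_lit 3178655645) (nat_lit 252) (nat_lit 29909540605) (nat_lit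 29) (nat_lit 5) (nat_lit 31) (nat_lit 5) (nat_lit 32) (nat_lit 5) (nat_lit 436) (nat_lit 353) (nat_lit 156)) (XT.lf (nat_lit 0) (nat_lit 41142792160) (nat_lit 252) (nat_lit 12878223036) (nat_lit 84) (nat_lit 9465785494) (nat_lit 29) (nat_lit 5) (nat_lit 32) (nat_lit 5) (nat_lit 30) (nat_lit 5) (nat_lit 437) (nat_lit 353) (nat_lit 155))) (XT.nd (nat_lit 94) (nat_lit 0) (nat_lit 0) (XT.lf (nat_lit 0) (nat_lit 8060304183) (nat_lit 168) (nat_lit 42494559020) (nat_lit 252) (nat_lit 14441520822) (nat_lit 27) (nat_lit 5) (nat_lit 29) (nat_lit 5) (nat_lit 30) (nat_lit 5) (nat_lit 438) (nat_lit 353) (nat_lit 154)) (XT.lf (nat_lit 0) (nat_lit 29887454137) (nat_lit 168) (nat_lit 30489751684) (nat_lit 252) (nat_lit 6170213551) (nat_lit 27) (nat_lit 5) (nat_lit 29) (nat_lit 5) (nat_lit 30) (nat_lit 5) (nat_lit 439) (nat_lit 353) (nat_lit 153))))))))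
noncomputable def xc166 : XT := (XT.nd (nat_lit 52734) (nat_lit 0) (nat_lit 5544) (XT.nd (nat_lit 51418) (nat_lit 0) (nat_lit 12264) (XT.nd (nat_lit 564) (nat_lit 168) (nat_lit 0) (XT.nd (nat_lit 282) (nat_lit 168) (nat_lit 0) (XT.nd (nat_lit 94) (nat_lit 168) (nat_lit 0) (XT.lf (nat_lit 0) (nat_lit 2301295542) (nat_lit 252) (nat_lit 15801614239) (nat_lit 84) (nat_lit 50041463086) (nat_lit 26) (nat_lit 5) (nat_lit 29) (nat_lit 5) (nat_lit 27) (nat_lit 5) (nat_lit 440) (nat_lit 353) (nat_lit 152)) (XT.nd (nat_lit 94) (nat_lit 0) (nat_lit 0) (XT.lf (nat_lit 0) (nat_lit 5729842053) (nat_lit 168) (nat_lit 5226137051) (nat_lit 252) (nat_lit 58829833439) (nat_lit 24) (nat_lit 5) (nat_lit 26) (nat_lit 5) (nat_lit 27) (nat_lit 5) (nat_lit 441) (nat_lit 353) (nat_lit 151)) (XT.lf (nat_lit 0) (nat_lit 20106684465) (nat_lit 252) (nat_lit 43322764617) (nat_lit 84) (nat_lit 8039956486) (nat_lit 24)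 (nat_lit 5) (nat_lit 27) (nat_lit 5) (nat_lit 25) (nat_lit 5) (nat_lit 442) (nat_lit 353) (nat_lit 150)))) (XT.nd (nat_lit 94) (nat_lit 168) (nat_lit 0) (XT.lf (nat_lit 0) (nat_lit 29581693890) (nat_lit 252) (nat_lit 22022588026) (nat_lit 84) (nat_lit 21597732529) (nat_lit 24) (nat_lit 5) (nat_lit 27) (nat_lit 5) (nat_lit 25) (nat_lit 5) (nat_lit 443) (nat_lit 353) (nat_lit 149)) (XT.nd (nat_lit 94) (nat_lit 168) (nat_lit 0) (XT.lf (nat_lit 0) (nat_lit 39339049688) (nat_lit 252) (nat_lit 86592087) (nat_lit 84) (nat_lit 35561018436) (nat_lit 24) (nat_lit 5) (nat_lit 27) (nat_lit 5) (nat_lit 25) (nat_lit 5) (nat_lit 444) (nat_lit 353) (nat_lit 148)) (XT.lf (nat_lit 0) (nat_lit 22952272073) (nat_lit 168) (nat_lit 26655636911) (nat_lit 252) (nat_lit 27210374342) (nat_lit 22) (nat_lit 5) (nat_lit 24) (nat_lit 5) (nat_lit 25) (nat_lit 5) (nat_lit 445) (nat_lit 353) (nat_lit 147))))) (XT.nd (nat_lit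 282) (nat_lit 84) (nat_lit 0) (XT.nd (nat_lit 94) (nat_lit 84) (nat_lit 0) (XT.lf (nat_lit 0) (nat_lit 46681014382) (nat_lit 168) (nat_lit 13502870028) (nat_lit 252) (nat_lit 18521000632) (nat_lit 22) (nat_lit 5) (nat_lit 24) (nat_lit 5) (nat_lit 25) (nat_lit 5) (nat_lit 446) (nat_lit 353) (nat_lit 146)) (XT.nd (nat_lit 94) (nat_lit 84) (nat_lit 0) (XT.lf (nat_lit 0) (nat_lit 71075784175) (nat_lit 252) (nat_lit 9529909983) (nat_lit 84) (nat_lit 42432677) (nat_lit 22) (nat_lit 5) (nat_lit 25) (nat_lit 5) (nat_lit 23) (nat_lit 4) (nat_lit 447) (nat_lit 353) (nat_lit 145)) (XT.lf (nat_lit 0) (nat_lit 13770970259) (nat_lit 84) (nat_lit 68787806871) (nat_lit 168) (nat_lit 82960001) (nat_lit 21) (nat_lit 5) (nat_lit 22) (nat_lit 5) (nat_lit 23) (nat_lit 4) (nat_lit 448) (nat_lit 353) (nat_lit 144)))) (XT.nd (nat_lit 50384) (nat_lit 0) (nat_lit 13104) (XT.nd (nat_lit 94) (nat_lit 0) (nat_lit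 0) (XT.lf (nat_lit 0) (nat_lit 9597455769) (nat_lit 168) (nat_lit 46823083249) (nat_lit 84) (nat_lit 28268959476) (nat_lit 20) (nat_lit 5) (nat_lit 22) (nat_lit 5) (nat_lit 21) (nat_lit 5) (nat_lit 449) (nat_lit 353) (nat_lit 143)) (XT.lf (nat_lit 0) (nat_lit 19564940647) (nat_lit 168) (nat_lit 24117640606) (nat_lit 84) (nat_lit 43116138304) (nat_lit 20) (nat_lit 5) (nat_lit 22) (nat_lit 5) (nat_lit 21) (nat_lit 5) (nat_lit 450) (nat_lit 353) (nat_lit 142))) (XT.nd (nat_lit 94) (nat_lit 0) (nat_lit 0) (XT.lf (nat_lit 0) (nat_lit 2789333437) (nat_lit 1260) (nat_lit 1918735045) (nat_lit 1260) (nat_lit 1918735045) (nat_lit 176) (nat_lit 3) (nat_lit 191) (nat_lit 3) (nat_lit 191) (nat_lit 5) (nat_lit 354) (nat_lit 354) (nat_lit 237)) (XT.lf (nat_lit 84) (nat_lit 1938069755) (nat_lit 0) (nat_lit 4097769597) (nat_lit 1260) (nat_lit 7404688959) (nat_lit 177) (nat_lit 5) (nat_lit 176) (nat_lit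 3) (nat_lit 191) (nat_lit 5) (nat_lit 355) (nat_lit 354) (nat_lit 236)))))) (XT.nd (nat_lit 658) (nat_lit 924) (nat_lit 0) (XT.nd (nat_lit 282) (nat_lit 0) (nat_lit 84) (XT.nd (nat_lit 94) (nat_lit 0) (nat_lit 0) (XT.lf (nat_lit 0) (nat_lit 6545272831) (nat_lit 1176) (nat_lit 5687800630) (nat_lit 1260) (nat_lit 1398853829) (nat_lit 177) (nat_lit 5) (nat_lit 191) (nat_lit 5) (nat_lit 192) (nat_lit 5) (nat_lit 356) (nat_lit 354) (nat_lit 235)) (XT.nd (nat_lit 94) (nat_lit 0) (nat_lit 0) (XT.lf (nat_lit 84) (nat_lit 258194804) (nat_lit 0) (nat_lit 6841396371) (nat_lit 1260) (nat_lit 6728614701) (nat_lit 178) (nat_lit 5) (nat_lit 177) (nat_lit 5) (nat_lit 192) (nat_lit 5) (nat_lit 357) (nat_lit 354) (nat_lit 234)) (XT.lf (nat_lit 84) (nat_lit 6491670078) (nat_lit 0) (nat_lit 1223172352) (nat_lit 1260) (nat_lit 6314226233) (nat_lit 178) (nat_lit 5) (nat_lit 177) (nat_lit 5) (nat_lit 192) (nat_lit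 5) (nat_lit 358) (nat_lit 354) (nat_lit 233)))) (XT.nd (nat_lit 188) (nat_lit 0) (nat_lit 84) (XT.nd (nat_lit 94) (nat_lit 0) (nat_lit 0) (XT.lf (nat_lit 0) (nat_lit 8379722158) (nat_lit 1176) (nat_lit 1375411231) (nat_lit 1260) (nat_lit 4479913034) (nat_lit 178) (nat_lit 5) (nat_lit 192) (nat_lit 5) (nat_lit 193) (nat_lit 5) (nat_lit 359) (nat_lit 354) (nat_lit 232)) (XT.lf (nat_lit 84) (nat_lit 5050365850) (nat_lit 0) (nat_lit 4062512906) (nat_lit 1260) (nat_lit 5332898359) (nat_lit 179) (nat_lit 5) (nat_lit 178) (nat_lit 5) (nat_lit 193) (nat_lit 5) (nat_lit 360) (nat_lit 354) (nat_lit 231))) (XT.nd (nat_lit 94) (nat_lit 0) (nat_lit 0) (XT.lf (nat_lit 0) (nat_lit 9887372215) (nat_lit 1176) (nat_lit 2990615713) (nat_lit 1260) (nat_lit 1784284363) (nat_lit 179) (nat_lit 5) (nat_lit 193) (nat_lit 5) (nat_lit 194) (nat_lit 5) (nat_lit 361) (nat_lit 354) (nat_lit 230)) (XT.lf (nat_lit 84)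 (nat_lit 3629285563) (nat_lit 0) (nat_lit 7119278581) (nat_lit 1260) (nat_lit 4134816430) (nat_lit 180) (nat_lit 5) (nat_lit 179) (nat_lit 5) (nat_lit 194) (nat_lit 5) (nat_lit 362) (nat_lit 354) (nat_lit 229))))) (XT.nd (nat_lit 282) (nat_lit 1092) (nat_lit 0) (XT.nd (nat_lit 94) (nat_lit 0) (nat_lit 84) (XT.lf (nat_lit 84) (nat_lit 10501527753) (nat_lit 0) (nat_lit 1152883818) (nat_lit 1260) (nat_lit 3456167461) (nat_lit 180) (nat_lit 5) (nat_lit 179) (nat_lit 5) (nat_lit 194) (nat_lit 5) (nat_lit 363) (nat_lit 354) (nat_lit 228)) (XT.nd (nat_lit 94) (nat_lit 0) (nat_lit 0) (XT.lf (nat_lit 84) (nat_lit 2223002996) (nat_lit 0) (nat_lit 10422778747) (nat_lit 1260) (nat_lit 2697082169) (nat_lit 181) (nat_lit 5) (nat_lit 180) (nat_lit 5) (nat_lit 195) (nat_lit 5) (nat_lit 364) (nat_lit 354) (nat_lit 227)) (XT.lf (nat_lit 84) (nat_lit 9335205264) (nat_lit 0) (nat_lit 4378767579) (nat_lit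 1260) (nat_lit 1866752384) (nat_lit 181) (nat_lit 5) (nat_lit 180) (nat_lit 5) (nat_lit 195) (nat_lit 5) (nat_lit 365) (nat_lit 354) (nat_lit 226)))) (XT.nd (nat_lit 188) (nat_lit 1260) (nat_lit 0) (XT.nd (nat_lit 94) (nat_lit 0) (nat_lit 0) (XT.lf (nat_lit 84) (nat_lit 825619526) (nat_lit 0) (nat_lit 14003854072) (nat_lit 1260) (nat_lit 995810558) (nat_lit 182) (nat_lit 5) (nat_lit 181) (nat_lit 5) (nat_lit 196) (nat_lit 5) (nat_lit 366) (nat_lit 354) (nat_lit 225)) (XT.lf (nat_lit 84) (nat_lit 8184987466) (nat_lit 0) (nat_lit 7889255175) (nat_lit 1260) (nat_lit 82231) (nat_lit 182) (nat_lit 5) (nat_lit 181) (nat_lit 5) (nat_lit 196) (nat_lit 5) (nat_lit 367) (nat_lit 354) (nat_lit 224))) (XT.nd (nat_lit 94) (nat_lit 0) (nat_lit 84) (XT.lf (nat_lit 0) (nat_lit 995493772) (nat_lit 1260) (nat_lit 583266635) (nat_lit 1344) (nat_lit 14752099063) (nat_lit 166) (nat_lit 5) (nat_lit 181) (nat_lit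 5) (nat_lit 182) (nat_lit 5) (nat_lit 368) (nat_lit 354) (nat_lit 223)) (XT.lf (nat_lit 0) (nat_lit 2127198489) (nat_lit 1260) (nat_lit 9568846645) (nat_lit 1344) (nat_lit 4895874552) (nat_lit 167) (nat_lit 5) (nat_lit 182) (nat_lit 5) (nat_lit 183) (nat_lit 5) (nat_lit 369) (nat_lit 354) (nat_lit 222))))))) (XT.nd (nat_lit 1316) (nat_lit 3192) (nat_lit 0) (XT.nd (nat_lit 658) (nat_lit 1848) (nat_lit 0) (XT.nd (nat_lit 282) (nat_lit 1764) (nat_lit 0) (XT.nd (nat_lit 94) (nat_lit 0) (nat_lit 84) (XT.lf (nat_lit 0) (nat_lit 3304944884) (nat_lit 1260) (nat_lit 2014498226) (nat_lit 1344) (nat_lit 11541022868) (nat_lit 167) (nat_lit 5) (nat_lit 182) (nat_lit 5) (nat_lit 183) (nat_lit 5) (nat_lit 370) (nat_lit 354) (nat_lit 221)) (XT.nd (nat_lit 94) (nat_lit 0) (nat_lit 0) (XT.lf (nat_lit 0) (nat_lit 4577847983) (nat_lit 1260) (nat_lit 11274656227) (nat_lit 84) (nat_lit 1282786211) (nat_lit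 168) (nat_lit 5) (nat_lit 183) (nat_lit 5) (nat_lit 169) (nat_lit 5) (nat_lit 371) (nat_lit 354) (nat_lit 220)) (XT.lf (nat_lit 0) (nat_lit 5953149346) (nat_lit 1260) (nat_lit 3465038418) (nat_lit 84) (nat_lit 7998261508) (nat_lit 168) (nat_lit 5) (nat_lit 183) (nat_lit 5) (nat_lit 169) (nat_lit 5) (nat_lit 372) (nat_lit 354) (nat_lit 219)))) (XT.nd (nat_lit 188) (nat_lit 588) (nat_lit 0) (XT.nd (nat_lit 94) (nat_lit 0) (nat_lit 0) (XT.lf (nat_lit 0) (nat_lit 4662336455) (nat_lit 1260) (nat_lit 2743452201) (nat_lit 1344) (nat_lit 10299187410) (nat_lit 153) (nat_lit 5) (nat_lit 168) (nat_lit 5) (nat_lit 169) (nat_lit 5) (nat_lit 373) (nat_lit 354) (nat_lit 218)) (XT.lf (nat_lit 0) (nat_lit 8968513881) (nat_lit 1344) (nat_lit 4944326998) (nat_lit 84) (nat_lit 4087337676) (nat_lit 153) (nat_lit 5) (nat_lit 169) (nat_lit 5) (nat_lit 154) (nat_lit 5) (nat_lit 374) (nat_lit 354) (nat_lit 217)))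 (XT.nd (nat_lit 94) (nat_lit 0) (nat_lit 0) (XT.lf (nat_lit 0) (nat_lit 3429193536) (nat_lit 588) (nat_lit 7200758049) (nat_lit 672) (nat_lit 7672745262) (nat_lit 146) (nat_lit 5) (nat_lit 153) (nat_lit 5) (nat_lit 154) (nat_lit 5) (nat_lit 375) (nat_lit 354) (nat_lit 216)) (XT.lf (nat_lit 0) (nat_lit 12147852537) (nat_lit 588) (nat_lit 235182503) (nat_lit 672) (nat_lit 6230015796) (nat_lit 146) (nat_lit 5) (nat_lit 153) (nat_lit 5) (nat_lit 154) (nat_lit 5) (nat_lit 376) (nat_lit 354) (nat_lit 215))))) (XT.nd (nat_lit 282) (nat_lit 672) (nat_lit 0) (XT.nd (nat_lit 94) (nat_lit 588) (nat_lit 0) (XT.lf (nat_lit 0) (nat_lit 2163404391) (nat_lit 588) (nat_lit 12104925797) (nat_lit 672) (nat_lit 4662010492) (nat_lit 139) (nat_lit 5) (nat_lit 146) (nat_lit 5) (nat_lit 147) (nat_lit 5) (nat_lit 377) (nat_lit 354) (nat_lit 214)) (XT.nd (nat_lit 94) (nat_lit 588) (nat_lit 0) (XT.lf (nat_lit 0)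 (nat_lit 11173631757) (nat_lit 588) (nat_lit 5096420368) (nat_lit 672) (nat_lit 2985314464) (nat_lit 139) (nat_lit 5) (nat_lit 146) (nat_lit 5) (nat_lit 147) (nat_lit 5) (nat_lit 378) (nat_lit 354) (nat_lit 213)) (XT.lf (nat_lit 0) (nat_lit 852848940) (nat_lit 588) (nat_lit 17500080602) (nat_lit 672) (nat_lit 1236593638) (nat_lit 132) (nat_lit 5) (nat_lit 139) (nat_lit 5) (nat_lit 140) (nat_lit 5) (nat_lit 379) (nat_lit 354) (nat_lit 212)))) (XT.nd (nat_lit 188) (nat_lit 588) (nat_lit 0) (XT.nd (nat_lit 94) (nat_lit 0) (nat_lit 0) (XT.lf (nat_lit 0) (nat_lit 679016031) (nat_lit 672) (nat_lit 9774315263) (nat_lit 84) (nat_lit 9476459300) (nat_lit 131) (nat_lit 5) (nat_lit 139) (nat_lit 5) (nat_lit 132) (nat_lit 5) (nat_lit 380) (nat_lit 354) (nat_lit 211)) (XT.lf (nat_lit 0) (nat_lit 2620023257) (nat_lit 672) (nat_lit 562612663) (nat_lit 84) (nat_lit 17097491211) (nat_lit 131) (nat_lit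 5) (nat_lit 139) (nat_lit 5) (nat_lit 132) (nat_lit 5) (nat_lit 381) (nat_lit 354) (nat_lit 210))) (XT.nd (nat_lit 94) (nat_lit 0) (nat_lit 0) (XT.lf (nat_lit 0) (nat_lit 4741948160) (nat_lit 672) (nat_lit 11584968619) (nat_lit 84) (nat_lit 4310387927) (nat_lit 124) (nat_lit 5) (nat_lit 132) (nat_lit 5) (nat_lit 125) (nat_lit 5) (nat_lit 382) (nat_lit 354) (nat_lit 209)) (XT.lf (nat_lit 0) (nat_lit 6957908834) (nat_lit 672) (nat_lit 2076546569) (nat_lit 84) (nat_lit 11969842094) (nat_lit 124) (nat_lit 5) (nat_lit 132) (nat_lit 5) (nat_lit 125) (nat_lit 5) (nat_lit 383) (nat_lit 354) (nat_lit 208)))))) (XT.nd (nat_lit 658) (nat_lit 1176) (nat_lit 0) (XT.nd (nat_lit 282) (nat_lit 1008) (nat_lit 0) (XT.nd (nat_lit 94) (nat_lit 504) (nat_lit 0) (XT.lf (nat_lit 0) (nat_lit 7863566678) (nat_lit 504) (nat_lit 1445700424) (nat_lit 588) (nat_lit 12070976310) (nat_lit 118) (nat_lit 5) (nat_lit 124)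 (nat_lit 5) (nat_lit 125) (nat_lit 5) (nat_lit 384) (nat_lit 354) (nat_lit 207)) (XT.nd (nat_lit 94) (nat_lit 504) (nat_lit 0) (XT.lf (nat_lit 0) (nat_lit 11807035151) (nat_lit 588) (nat_lit 3690977321) (nat_lit 84) (nat_lit 6267189747) (nat_lit 118) (nat_lit 5) (nat_lit 125) (nat_lit 5) (nat_lit 119) (nat_lit 5) (nat_lit 385) (nat_lit 354) (nat_lit 206)) (XT.lf (nat_lit 0) (nat_lit 6535781543) (nat_lit 504) (nat_lit 7914738317) (nat_lit 588) (nat_lit 7709076698) (nat_lit 112) (nat_lit 5) (nat_lit 118) (nat_lit 5) (nat_lit 119) (nat_lit 5) (nat_lit 386) (nat_lit 354) (nat_lit 205)))) (XT.nd (nat_lit 188) (nat_lit 588) (nat_lit 0) (XT.nd (nat_lit 94) (nat_lit 420) (nat_lit 0) (XT.lf (nat_lit 0) (nat_lit 17138138268) (nat_lit 504) (nat_lit 66205427) (nat_lit 588) (nat_lit 5360557972) (nat_lit 112) (nat_lit 5) (nat_lit 118) (nat_lit 5) (nat_lit 119) (nat_lit 5) (nat_lit 387) (nat_lit 354)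 (nat_lit 204)) (XT.lf (nat_lit 0) (nat_lit 5091632202) (nat_lit 420) (nat_lit 15069104506) (nat_lit 504) (nat_lit 2818040273) (nat_lit 107) (nat_lit 5) (nat_lit 112) (nat_lit 5) (nat_lit 113) (nat_lit 5) (nat_lit 388) (nat_lit 354) (nat_lit 203))) (XT.nd (nat_lit 94) (nat_lit 588) (nat_lit 0) (XT.lf (nat_lit 0) (nat_lit 16029369823) (nat_lit 420) (nat_lit 7225950495) (nat_lit 504) (nat_lit 148272679) (nat_lit 107) (nat_lit 5) (nat_lit 112) (nat_lit 5) (nat_lit 113) (nat_lit 5) (nat_lit 389) (nat_lit 354) (nat_lit 202)) (XT.lf (nat_lit 0) (nat_lit 2587297599) (nat_lit 588) (nat_lit 20357869361) (nat_lit 84) (nat_lit 894150875) (nat_lit 100) (nat_lit 5) (nat_lit 107) (nat_lit 5) (nat_lit 101) (nat_lit 5) (nat_lit 390) (nat_lit 354) (nat_lit 201))))) (XT.nd (nat_lit 282) (nat_lit 756) (nat_lit 0) (XT.nd (nat_lit 94) (nat_lit 420) (nat_lit 0) (XT.lf (nat_lit 0) (nat_lit 5542956149) (nat_lit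 588) (nat_lit 9552493553) (nat_lit 84) (nat_lit 9188399243) (nat_lit 100) (nat_lit 5) (nat_lit 107) (nat_lit 5) (nat_lit 101) (nat_lit 5) (nat_lit 391) (nat_lit 354) (nat_lit 200)) (XT.nd (nat_lit 94) (nat_lit 0) (nat_lit 0) (XT.lf (nat_lit 0) (nat_lit 1601678313) (nat_lit 420) (nat_lit 6995424549) (nat_lit 504) (nat_lit 16144326929) (nat_lit 95) (nat_lit 5) (nat_lit 100) (nat_lit 5) (nat_lit 101) (nat_lit 5) (nat_lit 392) (nat_lit 354) (nat_lit 199)) (XT.lf (nat_lit 0) (nat_lit 11847755669) (nat_lit 504) (nat_lit 11944178112) (nat_lit 84) (nat_lit 1417665945) (nat_lit 95) (nat_lit 5) (nat_lit 101) (nat_lit 5) (nat_lit 96) (nat_lit 5) (nat_lit 393) (nat_lit 354) (nat_lit 198)))) (XT.nd (nat_lit 188) (nat_lit 336) (nat_lit 0) (XT.nd (nat_lit 94) (nat_lit 420) (nat_lit 0) (XT.lf (nat_lit 0) (nat_lit 15259860759) (nat_lit 504) (nat_lit 488520482) (nat_lit 84) (nat_lit 9941523413) (nat_lit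 95) (nat_lit 5) (nat_lit 101) (nat_lit 5) (nat_lit 96) (nat_lit 5) (nat_lit 394) (nat_lit 354) (nat_lit 197)) (XT.lf (nat_lit 0) (nat_lit 11529456737) (nat_lit 420) (nat_lit 7350526738) (nat_lit 504) (nat_lit 7301473265) (nat_lit 90) (nat_lit 5) (nat_lit 95) (nat_lit 5) (nat_lit 96) (nat_lit 5) (nat_lit 395) (nat_lit 354) (nat_lit 196))) (XT.nd (nat_lit 94) (nat_lit 336) (nat_lit 0) (XT.lf (nat_lit 0) (nat_lit 22621086439) (nat_lit 504) (nat_lit 2788575909) (nat_lit 84) (nat_lit 1277729171) (nat_lit 90) (nat_lit 5) (nat_lit 96) (nat_lit 5) (nat_lit 91) (nat_lit 5) (nat_lit 396) (nat_lit 354) (nat_lit 195)) (XT.lf (nat_lit 0) (nat_lit 9537860538) (nat_lit 336) (nat_lit 17096076893) (nat_lit 420) (nat_lit 569788668) (nat_lit 86) (nat_lit 5) (nat_lit 90) (nat_lit 5) (nat_lit 91) (nat_lit 5) (nat_lit 397) (nat_lit 354) (nat_lit 194))))))))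
noncomputable def xc167 : XT := (XT.nd (nat_lit 2632) (nat_lit 1680) (nat_lit 0) (XT.nd (nat_lit 1316) (nat_lit 1680) (nat_lit 0) (XT.nd (nat_lit 658) (nat_lit 1008) (nat_lit 0) (XT.nd (nat_lit 282) (nat_lit 672) (nat_lit 0) (XT.nd (nat_lit 94) (nat_lit 420) (nat_lit 0) (XT.lf (nat_lit 0) (nat_lit 2995986760) (nat_lit 420) (nat_lit 5479147859) (nat_lit 84) (nat_lit 19258842997) (nat_lit 85) (nat_lit 5) (nat_lit 90) (nat_lit 5) (nat_lit 86) (nat_lit 5) (nat_lit 398) (nat_lit 354) (nat_lit 193)) (XT.nd (nat_lit 94) (nat_lit 0) (nat_lit 0) (XT.lf (nat_lit 0) (nat_lit 6726356023) (nat_lit 504) (nat_lit 21080681974) (nat_lit 84) (nat_lit 470863848) (nat_lit 80) (nat_lit 5) (nat_lit 86) (nat_lit 5) (nat_lit 81) (nat_lit 5) (nat_lit 399) (nat_lit 354) (nat_lit 192)) (XT.lf (nat_lit 0) (nat_lit 10703719877) (nat_lit 504) (nat_lit 8560914450) (nat_lit 84) (nat_lit 9569463374) (nat_lit 80) (nat_lit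 5) (nat_lit 86) (nat_lit 5) (nat_lit 81) (nat_lit 5) (nat_lit 400) (nat_lit 354) (nat_lit 191)))) (XT.nd (nat_lit 188) (nat_lit 336) (nat_lit 0) (XT.nd (nat_lit 94) (nat_lit 0) (nat_lit 0) (XT.lf (nat_lit 0) (nat_lit 4414604261) (nat_lit 336) (nat_lit 10423668136) (nat_lit 420) (nat_lit 14567577221) (nat_lit 76) (nat_lit 5) (nat_lit 80) (nat_lit 5) (nat_lit 81) (nat_lit 5) (nat_lit 401) (nat_lit 354) (nat_lit 190)) (XT.lf (nat_lit 0) (nat_lit 17948950912) (nat_lit 336) (nat_lit 1229866972) (nat_lit 420) (nat_lit 10813483552) (nat_lit 76) (nat_lit 5) (nat_lit 80) (nat_lit 5) (nat_lit 81) (nat_lit 5) (nat_lit 402) (nat_lit 354) (nat_lit 189))) (XT.nd (nat_lit 94) (nat_lit 0) (nat_lit 0) (XT.lf (nat_lit 0) (nat_lit 1231936558) (nat_lit 336) (nat_lit 22504316186) (nat_lit 420) (nat_lit 6857499737) (nat_lit 72) (nat_lit 5) (nat_lit 76) (nat_lit 5) (nat_lit 77) (nat_lit 5) (nat_lit 403) (nat_lit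 354) (nat_lit 188)) (XT.lf (nat_lit 0) (nat_lit 15134118909) (nat_lit 336) (nat_lit 13425660324) (nat_lit 420) (nat_lit 2649592454) (nat_lit 72) (nat_lit 5) (nat_lit 76) (nat_lit 5) (nat_lit 77) (nat_lit 5) (nat_lit 404) (nat_lit 354) (nat_lit 187))))) (XT.nd (nat_lit 282) (nat_lit 588) (nat_lit 0) (XT.nd (nat_lit 94) (nat_lit 336) (nat_lit 0) (XT.lf (nat_lit 0) (nat_lit 1647455761) (nat_lit 420) (nat_lit 2412026563) (nat_lit 84) (nat_lit 27783623461) (nat_lit 71) (nat_lit 5) (nat_lit 76) (nat_lit 5) (nat_lit 72) (nat_lit 5) (nat_lit 405) (nat_lit 354) (nat_lit 186)) (XT.nd (nat_lit 94) (nat_lit 0) (nat_lit 0) (XT.lf (nat_lit 0) (nat_lit 6185158951) (nat_lit 420) (nat_lit 20686124567) (nat_lit 84) (nat_lit 5618836655) (nat_lit 67) (nat_lit 5) (nat_lit 72) (nat_lit 5) (nat_lit 68) (nat_lit 5) (nat_lit 406) (nat_lit 354) (nat_lit 185)) (XT.lf (nat_lit 0) (nat_lit 10919734613) (nat_lit 420)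 (nat_lit 6705936588) (nat_lit 84) (nat_lit 15529056606) (nat_lit 67) (nat_lit 5) (nat_lit 72) (nat_lit 5) (nat_lit 68) (nat_lit 5) (nat_lit 407) (nat_lit 354) (nat_lit 184)))) (XT.nd (nat_lit 188) (nat_lit 252) (nat_lit 0) (XT.nd (nat_lit 94) (nat_lit 0) (nat_lit 0) (XT.lf (nat_lit 0) (nat_lit 7841200225) (nat_lit 336) (nat_lit 8026590264) (nat_lit 420) (nat_lit 17969344801) (nat_lit 63) (nat_lit 5) (nat_lit 67) (nat_lit 5) (nat_lit 68) (nat_lit 5) (nat_lit 408) (nat_lit 354) (nat_lit 183)) (XT.lf (nat_lit 0) (nat_lit 21046675386) (nat_lit 420) (nat_lit 11599840854) (nat_lit 84) (nat_lit 1891031902) (nat_lit 63) (nat_lit 5) (nat_lit 68) (nat_lit 5) (nat_lit 64) (nat_lit 5) (nat_lit 409) (nat_lit 354) (nat_lit 182))) (XT.nd (nat_lit 94) (nat_lit 0) (nat_lit 0) (XT.lf (nat_lit 0) (nat_lit 3205864451) (nat_lit 252) (nat_lit 23281579579) (nat_lit 336) (nat_lit 8768338460) (nat_lit 60) (nat_lit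 5) (nat_lit 63) (nat_lit 5) (nat_lit 64) (nat_lit 5) (nat_lit 410) (nat_lit 354) (nat_lit 181)) (XT.lf (nat_lit 0) (nat_lit 18688220315) (nat_lit 252) (nat_lit 13516639172) (nat_lit 336) (nat_lit 3787306162) (nat_lit 60) (nat_lit 5) (nat_lit 63) (nat_lit 5) (nat_lit 64) (nat_lit 5) (nat_lit 411) (nat_lit 354) (nat_lit 180)))))) (XT.nd (nat_lit 658) (nat_lit 756) (nat_lit 0) (XT.nd (nat_lit 282) (nat_lit 504) (nat_lit 0) (XT.nd (nat_lit 94) (nat_lit 336) (nat_lit 0) (XT.lf (nat_lit 0) (nat_lit 1313303531) (nat_lit 336) (nat_lit 2133732873) (nat_lit 84) (nat_lit 33303330106) (nat_lit 59) (nat_lit 5) (nat_lit 63) (nat_lit 5) (nat_lit 60) (nat_lit 5) (nat_lit 412) (nat_lit 354) (nat_lit 179)) (XT.nd (nat_lit 94) (nat_lit 0) (nat_lit 0) (XT.lf (nat_lit 0) (nat_lit 6687351832) (nat_lit 420) (nat_lit 23877895384) (nat_lit 84) (nat_lit 6959049107) (nat_lit 55) (nat_lit 5) (nat_lit 60) (nat_lit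 5) (nat_lit 56) (nat_lit 5) (nat_lit 413) (nat_lit 354) (nat_lit 178)) (XT.lf (nat_lit 0) (nat_lit 12275012782) (nat_lit 420) (nat_lit 8416581620) (nat_lit 84) (nat_lit 17628281884) (nat_lit 55) (nat_lit 5) (nat_lit 60) (nat_lit 5) (nat_lit 56) (nat_lit 5) (nat_lit 414) (nat_lit 354) (nat_lit 177)))) (XT.nd (nat_lit 188) (nat_lit 252) (nat_lit 0) (XT.nd (nat_lit 94) (nat_lit 0) (nat_lit 0) (XT.lf (nat_lit 0) (nat_lit 7652937269) (nat_lit 252) (nat_lit 10447535158) (nat_lit 336) (nat_lit 21036750028) (nat_lit 52) (nat_lit 5) (nat_lit 55) (nat_lit 5) (nat_lit 56) (nat_lit 5) (nat_lit 415) (nat_lit 354) (nat_lit 176)) (XT.lf (nat_lit 0) (nat_lit 24184167141) (nat_lit 336) (nat_lit 15606316460) (nat_lit 84) (nat_lit 186105032) (nat_lit 52) (nat_lit 5) (nat_lit 56) (nat_lit 5) (nat_lit 53) (nat_lit 5) (nat_lit 416) (nat_lit 354) (nat_lit 175))) (XT.nd (nat_lit 94) (nat_lit 0) (nat_lit 0) (XT.lf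 (nat_lit 0) (nat_lit 652416477) (nat_lit 252) (nat_lit 29904407016) (nat_lit 336) (nat_lit 10281122431) (nat_lit 49) (nat_lit 5) (nat_lit 52) (nat_lit 5) (nat_lit 53) (nat_lit 5) (nat_lit 417) (nat_lit 354) (nat_lit 174)) (XT.lf (nat_lit 0) (nat_lit 17714008381) (nat_lit 252) (nat_lit 19561031472) (nat_lit 336) (nat_lit 4445476217) (nat_lit 49) (nat_lit 5) (nat_lit 52) (nat_lit 5) (nat_lit 53) (nat_lit 5) (nat_lit 418) (nat_lit 354) (nat_lit 173))))) (XT.nd (nat_lit 282) (nat_lit 420) (nat_lit 0) (XT.nd (nat_lit 94) (nat_lit 252) (nat_lit 0) (XT.lf (nat_lit 0) (nat_lit 1531542364) (nat_lit 336) (nat_lit 7361904323) (nat_lit 84) (nat_lit 33735763202) (nat_lit 48) (nat_lit 5) (nat_lit 52) (nat_lit 5) (nat_lit 49) (nat_lit 5) (nat_lit 419) (nat_lit 354) (nat_lit 172)) (XT.nd (nat_lit 94) (nat_lit 0) (nat_lit 0) (XT.lf (nat_lit 0) (nat_lit 7712381952) (nat_lit 336) (nat_lit 33655440811) (nat_lit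 84) (nat_lit 2192608762) (nat_lit 45) (nat_lit 5) (nat_lit 49) (nat_lit 5) (nat_lit 46) (nat_lit 5) (nat_lit 420) (nat_lit 354) (nat_lit 171)) (XT.lf (nat_lit 0) (nat_lit 14238746303) (nat_lit 336) (nat_lit 16769983656) (nat_lit 84) (nat_lit 13506060014) (nat_lit 45) (nat_lit 5) (nat_lit 49) (nat_lit 5) (nat_lit 46) (nat_lit 5) (nat_lit 421) (nat_lit 354) (nat_lit 170)))) (XT.nd (nat_lit 188) (nat_lit 168) (nat_lit 0) (XT.nd (nat_lit 94) (nat_lit 0) (nat_lit 0) (XT.lf (nat_lit 0) (nat_lit 629823928) (nat_lit 252) (nat_lit 20334188998) (nat_lit 336) (nat_lit 24533675969) (nat_lit 42) (nat_lit 5) (nat_lit 45) (nat_lit 5) (nat_lit 46) (nat_lit 5) (nat_lit 422) (nat_lit 354) (nat_lit 169)) (XT.lf (nat_lit 0) (nat_lit 18890934698) (nat_lit 252) (nat_lit 9166546741) (nat_lit 336) (nat_lit 18447602996) (nat_lit 42) (nat_lit 5) (nat_lit 45) (nat_lit 5) (nat_lit 46) (nat_lit 5) (nat_lit 423) (nat_lit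 354) (nat_lit 168))) (XT.nd (nat_lit 94) (nat_lit 168) (nat_lit 0) (XT.lf (nat_lit 0) (nat_lit 35383380125) (nat_lit 336) (nat_lit 9869681496) (nat_lit 84) (nat_lit 2289054321) (nat_lit 42) (nat_lit 5) (nat_lit 46) (nat_lit 5) (nat_lit 43) (nat_lit 5) (nat_lit 424) (nat_lit 354) (nat_lit 167)) (XT.lf (nat_lit 0) (nat_lit 8477515806) (nat_lit 168) (nat_lit 34621041207) (nat_lit 252) (nat_lit 5506619143) (nat_lit 40) (nat_lit 5) (nat_lit 42) (nat_lit 5) (nat_lit 43) (nat_lit 5) (nat_lit 425) (nat_lit 354) (nat_lit 166))))))) (XT.nd (nat_lit 1316) (nat_lit 588) (nat_lit 0) (XT.nd (nat_lit 658) (nat_lit 588) (nat_lit 0) (XT.nd (nat_lit 282) (nat_lit 168) (nat_lit 0) (XT.nd (nat_lit 94) (nat_lit 252) (nat_lit 0) (XT.lf (nat_lit 0) (nat_lit 1416727410) (nat_lit 252) (nat_lit 22137895937) (nat_lit 84) (nat_lit 26142182180) (nat_lit 39) (nat_lit 5) (nat_lit 42) (nat_lit 5) (nat_lit 40) (nat_lit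 5) (nat_lit 426) (nat_lit 354) (nat_lit 165)) (XT.nd (nat_lit 94) (nat_lit 252) (nat_lit 0) (XT.lf (nat_lit 0) (nat_lit 8434438667) (nat_lit 252) (nat_lit 3667123835) (nat_lit 84) (nat_lit 38718067952) (nat_lit 39) (nat_lit 5) (nat_lit 42) (nat_lit 5) (nat_lit 40) (nat_lit 5) (nat_lit 427) (nat_lit 354) (nat_lit 164)) (XT.lf (nat_lit 0) (nat_lit 15659297756) (nat_lit 252) (nat_lit 151329573) (nat_lit 336) (nat_lit 36161076904) (nat_lit 36) (nat_lit 5) (nat_lit 39) (nat_lit 5) (nat_lit 40) (nat_lit 5) (nat_lit 428) (nat_lit 354) (nat_lit 163)))) (XT.nd (nat_lit 188) (nat_lit 0) (nat_lit 0) (XT.nd (nat_lit 94) (nat_lit 168) (nat_lit 0) (XT.lf (nat_lit 0) (nat_lit 23559805495) (nat_lit 336) (nat_lit 17637844014) (nat_lit 84) (nat_lit 11956142018) (nat_lit 36) (nat_lit 5) (nat_lit 40) (nat_lit 5) (nat_lit 37) (nat_lit 5) (nat_lit 429) (nat_lit 354) (nat_lit 162)) (XT.lf (nat_lit 0) (nat_lit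 1623181573) (nat_lit 168) (nat_lit 29932895238) (nat_lit 252) (nat_lit 22814828437) (nat_lit 34) (nat_lit 5) (nat_lit 36) (nat_lit 5) (nat_lit 37) (nat_lit 5) (nat_lit 430) (nat_lit 354) (nat_lit 161))) (XT.nd (nat_lit 94) (nat_lit 0) (nat_lit 0) (XT.lf (nat_lit 0) (nat_lit 21819685604) (nat_lit 168) (nat_lit 18148209526) (nat_lit 252) (nat_lit 15651369761) (nat_lit 34) (nat_lit 5) (nat_lit 36) (nat_lit 5) (nat_lit 37) (nat_lit 5) (nat_lit 431) (nat_lit 354) (nat_lit 160)) (XT.lf (nat_lit 0) (nat_lit 42618287829) (nat_lit 168) (nat_lit 6011402716) (nat_lit 252) (nat_lit 8275458313) (nat_lit 34) (nat_lit 5) (nat_lit 36) (nat_lit 5) (nat_lit 37) (nat_lit 5) (nat_lit 432) (nat_lit 354) (nat_lit 159))))) (XT.nd (nat_lit 282) (nat_lit 336) (nat_lit 0) (XT.nd (nat_lit 94) (nat_lit 84) (nat_lit 0) (XT.lf (nat_lit 0) (nat_lit 5859452189) (nat_lit 168) (nat_lit 51808271939) (nat_lit 252) (nat_lit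 558395829) (nat_lit 32) (nat_lit 5) (nat_lit 34) (nat_lit 5) (nat_lit 35) (nat_lit 5) (nat_lit 433) (nat_lit 354) (nat_lit 158)) (XT.nd (nat_lit 94) (nat_lit 0) (nat_lit 0) (XT.lf (nat_lit 0) (nat_lit 7448871865) (nat_lit 252) (nat_lit 32815112678) (nat_lit 84) (nat_lit 19314519433) (nat_lit 31) (nat_lit 5) (nat_lit 34) (nat_lit 5) (nat_lit 32) (nat_lit 5) (nat_lit 434) (nat_lit 354) (nat_lit 157)) (XT.lf (nat_lit 0) (nat_lit 15682887600) (nat_lit 252) (nat_lit 12686186062) (nat_lit 84) (nat_lit 32602289359) (nat_lit 31) (nat_lit 5) (nat_lit 34) (nat_lit 5) (nat_lit 32) (nat_lit 5) (nat_lit 435) (nat_lit 354) (nat_lit 156)))) (XT.nd (nat_lit 188) (nat_lit 168) (nat_lit 0) (XT.nd (nat_lit 94) (nat_lit 0) (nat_lit 0) (XT.lf (nat_lit 0) (nat_lit 8203140929) (nat_lit 168) (nat_lit 16037455139) (nat_lit 252) (nat_lit 38163113509) (nat_lit 29) (nat_lit 5) (nat_lit 31) (nat_lit 5) (nat_lit 32)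 (nat_lit 5) (nat_lit 436) (nat_lit 354) (nat_lit 155)) (XT.lf (nat_lit 0) (nat_lit 29975696567) (nat_lit 168) (nat_lit 3205293316) (nat_lit 252) (nat_lit 30694259873) (nat_lit 29) (nat_lit 5) (nat_lit 31) (nat_lit 5) (nat_lit 32) (nat_lit 5) (nat_lit 437) (nat_lit 354) (nat_lit 154))) (XT.nd (nat_lit 94) (nat_lit 168) (nat_lit 0) (XT.lf (nat_lit 0) (nat_lit 42483733899) (nat_lit 252) (nat_lit 13089202396) (nat_lit 84) (nat_lit 9815177491) (nat_lit 29) (nat_lit 5) (nat_lit 32) (nat_lit 5) (nat_lit 30) (nat_lit 5) (nat_lit 438) (nat_lit 354) (nat_lit 153)) (XT.lf (nat_lit 0) (nat_lit 8475761352) (nat_lit 168) (nat_lit 43700968389) (nat_lit 252) (nat_lit 14766300655) (nat_lit 27) (nat_lit 5) (nat_lit 29) (nat_lit 5) (nat_lit 30) (nat_lit 5) (nat_lit 439) (nat_lit 354) (nat_lit 152)))))) (XT.nd (nat_lit 658) (nat_lit 168) (nat_lit 0) (XT.nd (nat_lit 282) (nat_lit 168) (nat_lit 0) (XT.nd (nat_lit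 94) (nat_lit 252) (nat_lit 0) (XT.lf (nat_lit 0) (nat_lit 30952668094) (nat_lit 168) (nat_lit 31338009865) (nat_lit 252) (nat_lit 6250013364) (nat_lit 27) (nat_lit 5) (nat_lit 29) (nat_lit 5) (nat_lit 30) (nat_lit 5) (nat_lit 440) (nat_lit 354) (nat_lit 151)) (XT.nd (nat_lit 94) (nat_lit 168) (nat_lit 0) (XT.lf (nat_lit 0) (nat_lit 2470578760) (nat_lit 252) (nat_lit 16109906654) (nat_lit 84) (nat_lit 51605130291) (nat_lit 26) (nat_lit 5) (nat_lit 29) (nat_lit 5) (nat_lit 27) (nat_lit 5) (nat_lit 441) (nat_lit 354) (nat_lit 150)) (XT.lf (nat_lit 0) (nat_lit 6065868268) (nat_lit 168) (nat_lit 5317692551) (nat_lit 252) (nat_lit 60492780374) (nat_lit 24) (nat_lit 5) (nat_lit 26) (nat_lit 5) (nat_lit 27) (nat_lit 5) (nat_lit 442) (nat_lit 354) (nat_lit 149)))) (XT.nd (nat_lit 188) (nat_lit 168) (nat_lit 0) (XT.nd (nat_lit 94) (nat_lit 0) (nat_lit 0) (XT.lf (nat_lit 0) (nat_lit 20806515443)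 (nat_lit 252) (nat_lit 44460748854) (nat_lit 84) (nat_lit 8343248158) (nat_lit 24) (nat_lit 5) (nat_lit 27) (nat_lit 5) (nat_lit 25) (nat_lit 5) (nat_lit 443) (nat_lit 354) (nat_lit 148)) (XT.lf (nat_lit 0) (nat_lit 30562960672) (nat_lit 252) (nat_lit 22526276636) (nat_lit 84) (nat_lit 22305948949) (nat_lit 24) (nat_lit 5) (nat_lit 27) (nat_lit 5) (nat_lit 25) (nat_lit 5) (nat_lit 444) (nat_lit 354) (nat_lit 147))) (XT.nd (nat_lit 94) (nat_lit 0) (nat_lit 0) (XT.lf (nat_lit 0) (nat_lit 64485019) (nat_lit 168) (nat_lit 40546439490) (nat_lit 252) (nat_lit 36622512425) (nat_lit 22) (nat_lit 5) (nat_lit 24) (nat_lit 5) (nat_lit 25) (nat_lit 5) (nat_lit 445) (nat_lit 354) (nat_lit 146)) (XT.lf (nat_lit 0) (nat_lit 23791762490) (nat_lit 168) (nat_lit 27394265065) (nat_lit 252) (nat_lit 27934037945) (nat_lit 22) (nat_lit 5) (nat_lit 24) (nat_lit 5) (nat_lit 25) (nat_lit 5) (nat_lit 446) (nat_lit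 354) (nat_lit 145))))) (XT.nd (nat_lit 282) (nat_lit 0) (nat_lit 0) (XT.nd (nat_lit 94) (nat_lit 168) (nat_lit 0) (XT.lf (nat_lit 0) (nat_lit 48227971275) (nat_lit 168) (nat_lit 13848693068) (nat_lit 252) (nat_lit 18986681498) (nat_lit 22) (nat_lit 5) (nat_lit 24) (nat_lit 5) (nat_lit 25) (nat_lit 5) (nat_lit 447) (nat_lit 354) (nat_lit 144)) (XT.nd (nat_lit 94) (nat_lit 168) (nat_lit 0) (XT.lf (nat_lit 0) (nat_lit 73293332529) (nat_lit 252) (nat_lit 9671494135) (nat_lit 84) (nat_lit 100119856) (nat_lit 22) (nat_lit 5) (nat_lit 25) (nat_lit 5) (nat_lit 23) (nat_lit 4) (nat_lit 448) (nat_lit 354) (nat_lit 143)) (XT.lf (nat_lit 0) (nat_lit 1279355) (nat_lit 168) (nat_lit 70791415212) (nat_lit 84) (nat_lit 14325705405) (nat_lit 20) (nat_lit 5) (nat_lit 22) (nat_lit 5) (nat_lit 21) (nat_lit 5) (nat_lit 449) (nat_lit 354) (nat_lit 142)))) (XT.nd (nat_lit 50478) (nat_lit 0) (nat_lit 13104) (XT.nd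 (nat_lit 50384) (nat_lit 0) (nat_lit 13104) (XT.lf (nat_lit 0) (nat_lit 9967962688) (nat_lit 168) (nat_lit 48087335668) (nat_lit 84) (nat_lit 29172347311) (nat_lit 20) (nat_lit 5) (nat_lit 22) (nat_lit 5) (nat_lit 21) (nat_lit 5) (nat_lit 450) (nat_lit 354) (nat_lit 141)) (XT.lf (nat_lit 0) (nat_lit 3224464846) (nat_lit 1260) (nat_lit 1794963843) (nat_lit 1260) (nat_lit 1794963843) (nat_lit 176) (nat_lit 3) (nat_lit 191) (nat_lit 3) (nat_lit 191) (nat_lit 5) (nat_lit 355) (nat_lit 355) (nat_lit 235))) (XT.nd (nat_lit 94) (nat_lit 0) (nat_lit 84) (XT.lf (nat_lit 84) (nat_lit 2355322801) (nat_lit 0) (nat_lit 4547473639) (nat_lit 1260) (nat_lit 6919067263) (nat_lit 177) (nat_lit 5) (nat_lit 176) (nat_lit 3) (nat_lit 191) (nat_lit 5) (nat_lit 356) (nat_lit 355) (nat_lit 234)) (XT.lf (nat_lit 0) (nat_lit 7404486147) (nat_lit 1176) (nat_lit 5485490442) (nat_lit 1260) (nat_lit 1129756846) (nat_lit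 177) (nat_lit 5) (nat_lit 191) (nat_lit 5) (nat_lit 192) (nat_lit 5) (nat_lit 357) (nat_lit 355) (nat_lit 233))))))))
noncomputable def xc168 : XT := (XT.nd (nat_lit 2538) (nat_lit 5376) (nat_lit 0) (XT.nd (nat_lit 1222) (nat_lit 3528) (nat_lit 0) (XT.nd (nat_lit 564) (nat_lit 924) (nat_lit 0) (XT.nd (nat_lit 282) (nat_lit 0) (nat_lit 84) (XT.nd (nat_lit 94) (nat_lit 0) (nat_lit 0) (XT.lf (nat_lit 84) (nat_lit 635228540) (nat_lit 0) (nat_lit 7324448864) (nat_lit 1260) (nat_lit 6262732549) (nat_lit 178) (nat_lit 5) (nat_lit 177) (nat_lit 5) (nat_lit 192) (nat_lit 5) (nat_lit 358) (nat_lit 355) (nat_lit 232)) (XT.nd (nat_lit 94) (nat_lit 0) (nat_lit 84) (XT.lf (nat_lit 84) (nat_lit 7044952113) (nat_lit 0) (nat_lit 1529586554) (nat_lit 1260) (nat_lit 5855361183) (nat_lit 178) (nat_lit 5) (nat_lit 177) (nat_lit 5) (nat_lit 192) (nat_lit 5) (nat_lit 359) (nat_lit 355) (nat_lit 231)) (XT.lf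 (nat_lit 0) (nat_lit 9238549026) (nat_lit 1176) (nat_lit 1046609965) (nat_lit 1260) (nat_lit 4357557182) (nat_lit 178) (nat_lit 5) (nat_lit 192) (nat_lit 5) (nat_lit 193) (nat_lit 5) (nat_lit 360) (nat_lit 355) (nat_lit 230)))) (XT.nd (nat_lit 94) (nat_lit 0) (nat_lit 84) (XT.lf (nat_lit 84) (nat_lit 5568312354) (nat_lit 0) (nat_lit 4411218083) (nat_lit 1260) (nat_lit 4880697190) (nat_lit 179) (nat_lit 5) (nat_lit 178) (nat_lit 5) (nat_lit 193) (nat_lit 5) (nat_lit 361) (nat_lit 355) (nat_lit 229)) (XT.nd (nat_lit 94) (nat_lit 0) (nat_lit 0) (XT.lf (nat_lit 0) (nat_lit 10757862208) (nat_lit 1176) (nat_lit 2704082964) (nat_lit 1260) (nat_lit 1621887143) (nat_lit 179) (nat_lit 5) (nat_lit 193) (nat_lit 5) (nat_lit 194) (nat_lit 5) (nat_lit 362) (nat_lit 355) (nat_lit 228)) (XT.lf (nat_lit 84) (nat_lit 4110726613) (nat_lit 0) (nat_lit 7521029955) (nat_lit 1260) (nat_lit 3680243087) (nat_lit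 180) (nat_lit 5) (nat_lit 179) (nat_lit 5) (nat_lit 194) (nat_lit 5) (nat_lit 363) (nat_lit 355) (nat_lit 227))))) (XT.nd (nat_lit 282) (nat_lit 1092) (nat_lit 0) (XT.nd (nat_lit 94) (nat_lit 0) (nat_lit 84) (XT.lf (nat_lit 84) (nat_lit 11178284733) (nat_lit 0) (nat_lit 1370162581) (nat_lit 1260) (nat_lit 2998087596) (nat_lit 180) (nat_lit 5) (nat_lit 179) (nat_lit 5) (nat_lit 194) (nat_lit 5) (nat_lit 364) (nat_lit 355) (nat_lit 226)) (XT.nd (nat_lit 94) (nat_lit 0) (nat_lit 0) (XT.lf (nat_lit 84) (nat_lit 2666788260) (nat_lit 0) (nat_lit 10888833793) (nat_lit 1260) (nat_lit 2230614363) (nat_lit 181) (nat_lit 5) (nat_lit 180) (nat_lit 5) (nat_lit 195) (nat_lit 5) (nat_lit 365) (nat_lit 355) (nat_lit 225)) (XT.lf (nat_lit 84) (nat_lit 9981373241) (nat_lit 0) (nat_lit 4659035154) (nat_lit 1260) (nat_lit 1391317800) (nat_lit 181) (nat_lit 5) (nat_lit 180) (nat_lit 5) (nat_lit 195) (nat_lit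 5) (nat_lit 366) (nat_lit 355) (nat_lit 224)))) (XT.nd (nat_lit 188) (nat_lit 0) (nat_lit 0) (XT.nd (nat_lit 94) (nat_lit 1260) (nat_lit 0) (XT.lf (nat_lit 84) (nat_lit 1230587729) (nat_lit 0) (nat_lit 14546051006) (nat_lit 1260) (nat_lit 507393480) (nat_lit 182) (nat_lit 5) (nat_lit 181) (nat_lit 5) (nat_lit 196) (nat_lit 5) (nat_lit 367) (nat_lit 355) (nat_lit 223)) (XT.lf (nat_lit 0) (nat_lit 493293326) (nat_lit 1260) (nat_lit 7746183754) (nat_lit 1344) (nat_lit 8301388310) (nat_lit 166) (nat_lit 5) (nat_lit 181) (nat_lit 5) (nat_lit 182) (nat_lit 5) (nat_lit 368) (nat_lit 355) (nat_lit 222))) (XT.nd (nat_lit 94) (nat_lit 0) (nat_lit 84) (XT.lf (nat_lit 0) (nat_lit 1504364772) (nat_lit 1260) (nat_lit 231994770) (nat_lit 1344) (nat_lit 15069193430) (nat_lit 166) (nat_lit 5) (nat_lit 181) (nat_lit 5) (nat_lit 182) (nat_lit 5) (nat_lit 369) (nat_lit 355) (nat_lit 221)) (XT.lf (nat_lit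 0) (nat_lit 2658585040) (nat_lit 1260) (nat_lit 9474869603) (nat_lit 1344) (nat_lit 4941358528) (nat_lit 167) (nat_lit 5) (nat_lit 182) (nat_lit 5) (nat_lit 183) (nat_lit 5) (nat_lit 370) (nat_lit 355) (nat_lit 220)))))) (XT.nd (nat_lit 658) (nat_lit 1848) (nat_lit 0) (XT.nd (nat_lit 282) (nat_lit 1764) (nat_lit 0) (XT.nd (nat_lit 94) (nat_lit 0) (nat_lit 84) (XT.lf (nat_lit 0) (nat_lit 3858045266) (nat_lit 1260) (nat_lit 1704989055) (nat_lit 1344) (nat_lit 11788814466) (nat_lit 167) (nat_lit 5) (nat_lit 182) (nat_lit 5) (nat_lit 183) (nat_lit 5) (nat_lit 371) (nat_lit 355) (nat_lit 219)) (XT.nd (nat_lit 94) (nat_lit 0) (nat_lit 0) (XT.lf (nat_lit 0) (nat_lit 5158685667) (nat_lit 1260) (nat_lit 11231713064) (nat_lit 84) (nat_lit 1244856393) (nat_lit 168) (nat_lit 5) (nat_lit 183) (nat_lit 5) (nat_lit 169) (nat_lit 5) (nat_lit 372) (nat_lit 355) (nat_lit 218)) (XT.lf (nat_lit 0) (nat_lit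 6562328531) (nat_lit 1260) (nat_lit 3198909134) (nat_lit 84) (nat_lit 8164021582) (nat_lit 168) (nat_lit 5) (nat_lit 183) (nat_lit 5) (nat_lit 169) (nat_lit 5) (nat_lit 373) (nat_lit 355) (nat_lit 217)))) (XT.nd (nat_lit 188) (nat_lit 588) (nat_lit 0) (XT.nd (nat_lit 94) (nat_lit 0) (nat_lit 0) (XT.lf (nat_lit 0) (nat_lit 5168658746) (nat_lit 1260) (nat_lit 2880869535) (nat_lit 1344) (nat_lit 10173206436) (nat_lit 153) (nat_lit 5) (nat_lit 168) (nat_lit 5) (nat_lit 169) (nat_lit 5) (nat_lit 374) (nat_lit 355) (nat_lit 216)) (XT.lf (nat_lit 0) (nat_lit 9646342285) (nat_lit 1344) (nat_lit 4723363006) (nat_lit 84) (nat_lit 4157493437) (nat_lit 153) (nat_lit 5) (nat_lit 169) (nat_lit 5) (nat_lit 154) (nat_lit 5) (nat_lit 375) (nat_lit 355) (nat_lit 215))) (XT.nd (nat_lit 94) (nat_lit 0) (nat_lit 0) (XT.lf (nat_lit 0) (nat_lit 3897742617) (nat_lit 588) (nat_lit 7451489570) (nat_lit 672) (nat_lit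 7489833140) (nat_lit 146) (nat_lit 5) (nat_lit 153) (nat_lit 5) (nat_lit 154) (nat_lit 5) (nat_lit 376) (nat_lit 355) (nat_lit 214)) (XT.lf (nat_lit 0) (nat_lit 12867310710) (nat_lit 588) (nat_lit 275935822) (nat_lit 672) (nat_lit 6015853668) (nat_lit 146) (nat_lit 5) (nat_lit 153) (nat_lit 5) (nat_lit 154) (nat_lit 5) (nat_lit 377) (nat_lit 355) (nat_lit 213))))) (XT.nd (nat_lit 282) (nat_lit 672) (nat_lit 0) (XT.nd (nat_lit 94) (nat_lit 588) (nat_lit 0) (XT.lf (nat_lit 0) (nat_lit 2592390414) (nat_lit 588) (nat_lit 12484573473) (nat_lit 672) (nat_lit 4409208774) (nat_lit 139) (nat_lit 5) (nat_lit 146) (nat_lit 5) (nat_lit 147) (nat_lit 5) (nat_lit 378) (nat_lit 355) (nat_lit 212)) (XT.nd (nat_lit 94) (nat_lit 588) (nat_lit 0) (XT.lf (nat_lit 0) (nat_lit 11862320215) (nat_lit 588) (nat_lit 5265332302) (nat_lit 672) (nat_lit 2693648623) (nat_lit 139) (nat_lit 5) (nat_lit 146) (nat_lit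 5) (nat_lit 147) (nat_lit 5) (nat_lit 379) (nat_lit 355) (nat_lit 211)) (XT.lf (nat_lit 0) (nat_lit 1240212388) (nat_lit 588) (nat_lit 18025369896) (nat_lit 672) (nat_lit 900141849) (nat_lit 132) (nat_lit 5) (nat_lit 139) (nat_lit 5) (nat_lit 140) (nat_lit 5) (nat_lit 380) (nat_lit 355) (nat_lit 210)))) (XT.nd (nat_lit 188) (nat_lit 588) (nat_lit 0) (XT.nd (nat_lit 94) (nat_lit 0) (nat_lit 0) (XT.lf (nat_lit 0) (nat_lit 1054979037) (nat_lit 672) (nat_lit 9708639929) (nat_lit 84) (nat_lit 9752810524) (nat_lit 131) (nat_lit 5) (nat_lit 139) (nat_lit 5) (nat_lit 132) (nat_lit 5) (nat_lit 381) (nat_lit 355) (nat_lit 209)) (XT.lf (nat_lit 0) (nat_lit 3043859415) (nat_lit 672) (nat_lit 231039789) (nat_lit 84) (nat_lit 17602704728) (nat_lit 131) (nat_lit 5) (nat_lit 139) (nat_lit 5) (nat_lit 132) (nat_lit 5) (nat_lit 382) (nat_lit 355) (nat_lit 208))) (XT.nd (nat_lit 94) (nat_lit 0) (nat_lit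 0) (XT.lf (nat_lit 0) (nat_lit 5222766203) (nat_lit 672) (nat_lit 11576837212) (nat_lit 84) (nat_lit 4446110296) (nat_lit 124) (nat_lit 5) (nat_lit 132) (nat_lit 5) (nat_lit 125) (nat_lit 5) (nat_lit 383) (nat_lit 355) (nat_lit 207)) (XT.lf (nat_lit 0) (nat_lit 7495344738) (nat_lit 672) (nat_lit 1793522127) (nat_lit 84) (nat_lit 12335161368) (nat_lit 124) (nat_lit 5) (nat_lit 132) (nat_lit 5) (nat_lit 125) (nat_lit 5) (nat_lit 384) (nat_lit 355) (nat_lit 206))))))) (XT.nd (nat_lit 1316) (nat_lit 2184) (nat_lit 0) (XT.nd (nat_lit 658) (nat_lit 1176) (nat_lit 0) (XT.nd (nat_lit 282) (nat_lit 1008) (nat_lit 0) (XT.nd (nat_lit 94) (nat_lit 504) (nat_lit 0) (XT.lf (nat_lit 0) (nat_lit 8441409020) (nat_lit 504) (nat_lit 1469547879) (nat_lit 588) (nat_lit 12100499879) (nat_lit 118) (nat_lit 5) (nat_lit 124) (nat_lit 5) (nat_lit 125) (nat_lit 5) (nat_lit 385) (nat_lit 355) (nat_lit 205)) (XT.nd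 (nat_lit 94) (nat_lit 504) (nat_lit 0) (XT.lf (nat_lit 0) (nat_lit 12474449561) (nat_lit 588) (nat_lit 3460015761) (nat_lit 84) (nat_lit 6473790471) (nat_lit 118) (nat_lit 5) (nat_lit 125) (nat_lit 5) (nat_lit 119) (nat_lit 5) (nat_lit 386) (nat_lit 355) (nat_lit 204)) (XT.lf (nat_lit 0) (nat_lit 7070195958) (nat_lit 504) (nat_lit 8121172765) (nat_lit 588) (nat_lit 7623304091) (nat_lit 112) (nat_lit 5) (nat_lit 118) (nat_lit 5) (nat_lit 119) (nat_lit 5) (nat_lit 387) (nat_lit 355) (nat_lit 203)))) (XT.nd (nat_lit 188) (nat_lit 588) (nat_lit 0) (XT.nd (nat_lit 94) (nat_lit 420) (nat_lit 0) (XT.lf (nat_lit 0) (nat_lit 17980768794) (nat_lit 504) (nat_lit 38087025) (nat_lit 588) (nat_lit 5213564121) (nat_lit 112) (nat_lit 5) (nat_lit 118) (nat_lit 5) (nat_lit 119) (nat_lit 5) (nat_lit 388) (nat_lit 355) (nat_lit 202)) (XT.lf (nat_lit 0) (nat_lit 5578696882) (nat_lit 420) (nat_lit 15480047610)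 (nat_lit 504) (nat_lit 2600136808) (nat_lit 107) (nat_lit 5) (nat_lit 112) (nat_lit 5) (nat_lit 113) (nat_lit 5) (nat_lit 389) (nat_lit 355) (nat_lit 201))) (XT.nd (nat_lit 94) (nat_lit 504) (nat_lit 0) (XT.lf (nat_lit 0) (nat_lit 138164991) (nat_lit 504) (nat_lit 7263236754) (nat_lit 84) (nat_lit 16695269094) (nat_lit 106) (nat_lit 5) (nat_lit 112) (nat_lit 5) (nat_lit 107) (nat_lit 5) (nat_lit 390) (nat_lit 355) (nat_lit 200)) (XT.lf (nat_lit 0) (nat_lit 2948015768) (nat_lit 588) (nat_lit 20632629802) (nat_lit 84) (nat_lit 964934728) (nat_lit 100) (nat_lit 5) (nat_lit 107) (nat_lit 5) (nat_lit 101) (nat_lit 5) (nat_lit 391) (nat_lit 355) (nat_lit 199))))) (XT.nd (nat_lit 282) (nat_lit 756) (nat_lit 0) (XT.nd (nat_lit 94) (nat_lit 420) (nat_lit 0) (XT.lf (nat_lit 0) (nat_lit 5984098466) (nat_lit 588) (nat_lit 9512878418) (nat_lit 84) (nat_lit 9506730178) (nat_lit 100) (nat_lit 5) (nat_lit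 107) (nat_lit 5) (nat_lit 101) (nat_lit 5) (nat_lit 392) (nat_lit 355) (nat_lit 198)) (XT.nd (nat_lit 94) (nat_lit 0) (nat_lit 0) (XT.lf (nat_lit 0) (nat_lit 1972720664) (nat_lit 420) (nat_lit 7152248268) (nat_lit 504) (nat_lit 16350205414) (nat_lit 95) (nat_lit 5) (nat_lit 100) (nat_lit 5) (nat_lit 101) (nat_lit 5) (nat_lit 393) (nat_lit 355) (nat_lit 197)) (XT.lf (nat_lit 0) (nat_lit 12465773608) (nat_lit 504) (nat_lit 11981163167) (nat_lit 84) (nat_lit 1510685278) (nat_lit 95) (nat_lit 5) (nat_lit 101) (nat_lit 5) (nat_lit 96) (nat_lit 5) (nat_lit 394) (nat_lit 355) (nat_lit 196)))) (XT.nd (nat_lit 188) (nat_lit 336) (nat_lit 0) (XT.nd (nat_lit 94) (nat_lit 420) (nat_lit 0) (XT.lf (nat_lit 0) (nat_lit 15972593736) (nat_lit 504) (nat_lit 191195233) (nat_lit 84) (nat_lit 10288787906) (nat_lit 95) (nat_lit 5) (nat_lit 101) (nat_lit 5) (nat_lit 96) (nat_lit 5) (nat_lit 395) (nat_lit 355)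 (nat_lit 195)) (XT.lf (nat_lit 0) (nat_lit 12184262666) (nat_lit 420) (nat_lit 7512601663) (nat_lit 504) (nat_lit 7262155845) (nat_lit 90) (nat_lit 5) (nat_lit 95) (nat_lit 5) (nat_lit 96) (nat_lit 5) (nat_lit 396) (nat_lit 355) (nat_lit 194))) (XT.nd (nat_lit 94) (nat_lit 336) (nat_lit 0) (XT.lf (nat_lit 0) (nat_lit 23543450216) (nat_lit 504) (nat_lit 2565203355) (nat_lit 84) (nat_lit 1371692585) (nat_lit 90) (nat_lit 5) (nat_lit 96) (nat_lit 5) (nat_lit 91) (nat_lit 5) (nat_lit 397) (nat_lit 355) (nat_lit 193)) (XT.lf (nat_lit 0) (nat_lit 10128016089) (nat_lit 336) (nat_lit 17544494106) (nat_lit 420) (nat_lit 339796220) (nat_lit 86) (nat_lit 5) (nat_lit 90) (nat_lit 5) (nat_lit 91) (nat_lit 5) (nat_lit 398) (nat_lit 355) (nat_lit 192)))))) (XT.nd (nat_lit 658) (nat_lit 1008) (nat_lit 0) (XT.nd (nat_lit 282) (nat_lit 672) (nat_lit 0) (XT.nd (nat_lit 94) (nat_lit 420) (nat_lit 0) (XT.lf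 (nat_lit 0) (nat_lit 3321074681) (nat_lit 420) (nat_lit 5343351364) (nat_lit 84) (nat_lit 19894189616) (nat_lit 85) (nat_lit 5) (nat_lit 90) (nat_lit 5) (nat_lit 86) (nat_lit 5) (nat_lit 399) (nat_lit 355) (nat_lit 191)) (XT.nd (nat_lit 94) (nat_lit 0) (nat_lit 0) (XT.lf (nat_lit 0) (nat_lit 7159995994) (nat_lit 504) (nat_lit 21409256907) (nat_lit 84) (nat_lit 549714954) (nat_lit 80) (nat_lit 5) (nat_lit 86) (nat_lit 5) (nat_lit 81) (nat_lit 5) (nat_lit 400) (nat_lit 355) (nat_lit 190)) (XT.lf (nat_lit 0) (nat_lit 11249927871) (nat_lit 504) (nat_lit 8522746227) (nat_lit 84) (nat_lit 9919387267) (nat_lit 80) (nat_lit 5) (nat_lit 86) (nat_lit 5) (nat_lit 81) (nat_lit 5) (nat_lit 401) (nat_lit 355) (nat_lit 189)))) (XT.nd (nat_lit 188) (nat_lit 336) (nat_lit 0) (XT.nd (nat_lit 94) (nat_lit 0) (nat_lit 0) (XT.lf (nat_lit 0) (nat_lit 4839145931) (nat_lit 336) (nat_lit 10665622707) (nat_lit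 420) (nat_lit 14776318574) (nat_lit 76) (nat_lit 5) (nat_lit 80) (nat_lit 5) (nat_lit 81) (nat_lit 5) (nat_lit 402) (nat_lit 355) (nat_lit 188)) (XT.lf (nat_lit 0) (nat_lit 18771015111) (nat_lit 336) (nat_lit 1198068348) (nat_lit 420) (nat_lit 10916251201) (nat_lit 76) (nat_lit 5) (nat_lit 80) (nat_lit 5) (nat_lit 81) (nat_lit 5) (nat_lit 403) (nat_lit 355) (nat_lit 187))) (XT.nd (nat_lit 94) (nat_lit 0) (nat_lit 0) (XT.lf (nat_lit 0) (nat_lit 1555725898) (nat_lit 336) (nat_lit 23104654513) (nat_lit 420) (nat_lit 6844543065) (nat_lit 72) (nat_lit 5) (nat_lit 76) (nat_lit 5) (nat_lit 77) (nat_lit 5) (nat_lit 404) (nat_lit 355) (nat_lit 186)) (XT.lf (nat_lit 0) (nat_lit 15866619411) (nat_lit 336) (nat_lit 13755817359) (nat_lit 420) (nat_lit 2516767933) (nat_lit 72) (nat_lit 5) (nat_lit 76) (nat_lit 5) (nat_lit 77) (nat_lit 5) (nat_lit 405) (nat_lit 355) (nat_lit 185))))) (XT.nd (nat_lit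 282) (nat_lit 588) (nat_lit 0) (XT.nd (nat_lit 94) (nat_lit 336) (nat_lit 0) (XT.lf (nat_lit 0) (nat_lit 1898985567) (nat_lit 420) (nat_lit 2209742511) (nat_lit 84) (nat_lit 28683351113) (nat_lit 71) (nat_lit 5) (nat_lit 76) (nat_lit 5) (nat_lit 72) (nat_lit 5) (nat_lit 406) (nat_lit 355) (nat_lit 184)) (XT.nd (nat_lit 94) (nat_lit 0) (nat_lit 0) (XT.lf (nat_lit 0) (nat_lit 6570250298) (nat_lit 420) (nat_lit 21029244789) (nat_lit 84) (nat_lit 5859093483) (nat_lit 67) (nat_lit 5) (nat_lit 72) (nat_lit 5) (nat_lit 68) (nat_lit 5) (nat_lit 407) (nat_lit 355) (nat_lit 183)) (XT.lf (nat_lit 0) (nat_lit 11441051485) (nat_lit 420) (nat_lit 6637732632) (nat_lit 84) (nat_lit 16064531924) (nat_lit 67) (nat_lit 5) (nat_lit 72) (nat_lit 5) (nat_lit 68) (nat_lit 5) (nat_lit 408) (nat_lit 355) (nat_lit 182)))) (XT.nd (nat_lit 188) (nat_lit 252) (nat_lit 0) (XT.nd (nat_lit 94) (nat_lit 0) (nat_lit 0)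 (XT.lf (nat_lit 0) (nat_lit 8343177285) (nat_lit 336) (nat_lit 8191293360) (nat_lit 420) (nat_lit 18311824500) (nat_lit 63) (nat_lit 5) (nat_lit 67) (nat_lit 5) (nat_lit 68) (nat_lit 5) (nat_lit 409) (nat_lit 355) (nat_lit 181)) (XT.lf (nat_lit 0) (nat_lit 21863879442) (nat_lit 420) (nat_lit 11683793566) (nat_lit 84) (nat_lit 2020199493) (nat_lit 63) (nat_lit 5) (nat_lit 68) (nat_lit 5) (nat_lit 64) (nat_lit 5) (nat_lit 410) (nat_lit 355) (nat_lit 180))) (XT.nd (nat_lit 94) (nat_lit 0) (nat_lit 0) (XT.lf (nat_lit 0) (nat_lit 3563494247) (nat_lit 252) (nat_lit 23901478393) (nat_lit 336) (nat_lit 8842774836) (nat_lit 60) (nat_lit 5) (nat_lit 63) (nat_lit 5) (nat_lit 64) (nat_lit 5) (nat_lit 411) (nat_lit 355) (nat_lit 179)) (XT.lf (nat_lit 0) (nat_lit 19502705625) (nat_lit 252) (nat_lit 13845877596) (nat_lit 336) (nat_lit 3717805174) (nat_lit 60) (nat_lit 5) (nat_lit 63) (nat_lit 5) (nat_lit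 64) (nat_lit 5) (nat_lit 412) (nat_lit 355) (nat_lit 178))))))))
noncomputable def xc169 : XT := (XT.nd (nat_lit 2538) (nat_lit 756) (nat_lit 0) (XT.nd (nat_lit 1222) (nat_lit 1092) (nat_lit 0) (XT.nd (nat_lit 564) (nat_lit 588) (nat_lit 0) (XT.nd (nat_lit 282) (nat_lit 504) (nat_lit 0) (XT.nd (nat_lit 94) (nat_lit 336) (nat_lit 0) (XT.lf (nat_lit 0) (nat_lit 1527019957) (nat_lit 336) (nat_lit 1947627712) (nat_lit 84) (nat_lit 34372797767) (nat_lit 59) (nat_lit 5) (nat_lit 63) (nat_lit 5) (nat_lit 60) (nat_lit 5) (nat_lit 413) (nat_lit 355) (nat_lit 177)) (XT.nd (nat_lit 94) (nat_lit 0) (nat_lit 0) (XT.lf (nat_lit 0) (nat_lit 7060324194) (nat_lit 420) (nat_lit 24341952935) (nat_lit 84) (nat_lit 7242380879) (nat_lit 55) (nat_lit 5) (nat_lit 60) (nat_lit 5) (nat_lit 56) (nat_lit 5) (nat_lit 414) (nat_lit 355) (nat_lit 176)) (XT.lf (nat_lit 0) (nat_lit 12810595017) (nat_lit 420) (nat_lit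 8424147699) (nat_lit 84) (nat_lit 18229518979) (nat_lit 55) (nat_lit 5) (nat_lit 60) (nat_lit 5) (nat_lit 56) (nat_lit 5) (nat_lit 415) (nat_lit 355) (nat_lit 175)))) (XT.nd (nat_lit 94) (nat_lit 252) (nat_lit 0) (XT.lf (nat_lit 0) (nat_lit 8125055468) (nat_lit 252) (nat_lit 10683220588) (nat_lit 336) (nat_lit 21497934027) (nat_lit 52) (nat_lit 5) (nat_lit 55) (nat_lit 5) (nat_lit 56) (nat_lit 5) (nat_lit 416) (nat_lit 355) (nat_lit 174)) (XT.nd (nat_lit 94) (nat_lit 252) (nat_lit 0) (XT.lf (nat_lit 0) (nat_lit 25070407443) (nat_lit 336) (nat_lit 15834785724) (nat_lit 84) (nat_lit 265691703) (nat_lit 52) (nat_lit 5) (nat_lit 56) (nat_lit 5) (nat_lit 53) (nat_lit 5) (nat_lit 417) (nat_lit 355) (nat_lit 173)) (XT.lf (nat_lit 0) (nat_lit 909359002) (nat_lit 252) (nat_lit 30722485202) (nat_lit 336) (nat_lit 10426315896) (nat_lit 49) (nat_lit 5) (nat_lit 52) (nat_lit 5) (nat_lit 53) (nat_lit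 5) (nat_lit 418) (nat_lit 355) (nat_lit 172))))) (XT.nd (nat_lit 282) (nat_lit 252) (nat_lit 0) (XT.nd (nat_lit 94) (nat_lit 336) (nat_lit 0) (XT.lf (nat_lit 0) (nat_lit 18475884974) (nat_lit 252) (nat_lit 20071110935) (nat_lit 336) (nat_lit 4420354865) (nat_lit 49) (nat_lit 5) (nat_lit 52) (nat_lit 5) (nat_lit 53) (nat_lit 5) (nat_lit 419) (nat_lit 355) (nat_lit 171)) (XT.nd (nat_lit 94) (nat_lit 252) (nat_lit 0) (XT.lf (nat_lit 0) (nat_lit 1728355638) (nat_lit 336) (nat_lit 7355854988) (nat_lit 84) (nat_lit 34819189655) (nat_lit 48) (nat_lit 5) (nat_lit 52) (nat_lit 5) (nat_lit 49) (nat_lit 5) (nat_lit 420) (nat_lit 355) (nat_lit 170)) (XT.lf (nat_lit 0) (nat_lit 8093117041) (nat_lit 336) (nat_lit 34436538961) (nat_lit 84) (nat_lit 2332952322) (nat_lit 45) (nat_lit 5) (nat_lit 49) (nat_lit 5) (nat_lit 46) (nat_lit 5) (nat_lit 421) (nat_lit 355) (nat_lit 169)))) (XT.nd (nat_lit 188) (nat_lit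 0) (nat_lit 0) (XT.nd (nat_lit 94) (nat_lit 252) (nat_lit 0) (XT.lf (nat_lit 0) (nat_lit 14810921926) (nat_lit 336) (nat_lit 17051175327) (nat_lit 84) (nat_lit 13983635307) (nat_lit 45) (nat_lit 5) (nat_lit 49) (nat_lit 5) (nat_lit 46) (nat_lit 5) (nat_lit 422) (nat_lit 355) (nat_lit 168)) (XT.lf (nat_lit 0) (nat_lit 868450918) (nat_lit 252) (nat_lit 20867384144) (nat_lit 336) (nat_lit 25122351121) (nat_lit 42) (nat_lit 5) (nat_lit 45) (nat_lit 5) (nat_lit 46) (nat_lit 5) (nat_lit 423) (nat_lit 355) (nat_lit 167))) (XT.nd (nat_lit 94) (nat_lit 0) (nat_lit 0) (XT.lf (nat_lit 0) (nat_lit 19670995042) (nat_lit 252) (nat_lit 9366950402) (nat_lit 336) (nat_lit 18857987273) (nat_lit 42) (nat_lit 5) (nat_lit 45) (nat_lit 5) (nat_lit 46) (nat_lit 5) (nat_lit 424) (nat_lit 355) (nat_lit 166)) (XT.lf (nat_lit 0) (nat_lit 36580276278) (nat_lit 336) (nat_lit 9955170462) (nat_lit 84) (nat_lit 2428732911)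 (nat_lit 42) (nat_lit 5) (nat_lit 46) (nat_lit 5) (nat_lit 43) (nat_lit 5) (nat_lit 425) (nat_lit 355) (nat_lit 165)))))) (XT.nd (nat_lit 658) (nat_lit 420) (nat_lit 0) (XT.nd (nat_lit 282) (nat_lit 420) (nat_lit 0) (XT.nd (nat_lit 94) (nat_lit 84) (nat_lit 0) (XT.lf (nat_lit 0) (nat_lit 8940378039) (nat_lit 168) (nat_lit 35584591481) (nat_lit 252) (nat_lit 5534224337) (nat_lit 40) (nat_lit 5) (nat_lit 42) (nat_lit 5) (nat_lit 43) (nat_lit 5) (nat_lit 426) (nat_lit 355) (nat_lit 164)) (XT.nd (nat_lit 94) (nat_lit 0) (nat_lit 0) (XT.lf (nat_lit 0) (nat_lit 1590208297) (nat_lit 252) (nat_lit 22596836980) (nat_lit 84) (nat_lit 26996608821) (nat_lit 39) (nat_lit 5) (nat_lit 42) (nat_lit 5) (nat_lit 40) (nat_lit 5) (nat_lit 427) (nat_lit 355) (nat_lit 163)) (XT.lf (nat_lit 0) (nat_lit 8814635967) (nat_lit 252) (nat_lit 3577918293) (nat_lit 84) (nat_lit 39947727637) (nat_lit 39) (nat_lit 5)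 (nat_lit 42) (nat_lit 5) (nat_lit 40) (nat_lit 5) (nat_lit 428) (nat_lit 355) (nat_lit 162)))) (XT.nd (nat_lit 188) (nat_lit 168) (nat_lit 0) (XT.nd (nat_lit 94) (nat_lit 0) (nat_lit 0) (XT.lf (nat_lit 0) (nat_lit 16326342817) (nat_lit 252) (nat_lit 83959906) (nat_lit 336) (nat_lit 37116672964) (nat_lit 36) (nat_lit 5) (nat_lit 39) (nat_lit 5) (nat_lit 40) (nat_lit 5) (nat_lit 429) (nat_lit 355) (nat_lit 161)) (XT.lf (nat_lit 0) (nat_lit 24388976176) (nat_lit 336) (nat_lit 17972363254) (nat_lit 84) (nat_lit 12383279035) (nat_lit 36) (nat_lit 5) (nat_lit 40) (nat_lit 5) (nat_lit 37) (nat_lit 5) (nat_lit 430) (nat_lit 355) (nat_lit 160))) (XT.nd (nat_lit 94) (nat_lit 0) (nat_lit 0) (XT.lf (nat_lit 0) (nat_lit 1864585100) (nat_lit 168) (nat_lit 30758838596) (nat_lit 252) (nat_lit 23374876626) (nat_lit 34) (nat_lit 5) (nat_lit 36) (nat_lit 5) (nat_lit 37) (nat_lit 5) (nat_lit 431) (nat_lit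 355) (nat_lit 159)) (XT.lf (nat_lit 0) (nat_lit 22661371395) (nat_lit 168) (nat_lit 18622710667) (nat_lit 252) (nat_lit 16000137393) (nat_lit 34) (nat_lit 5) (nat_lit 36) (nat_lit 5) (nat_lit 37) (nat_lit 5) (nat_lit 432) (nat_lit 355) (nat_lit 158))))) (XT.nd (nat_lit 282) (nat_lit 168) (nat_lit 0) (XT.nd (nat_lit 94) (nat_lit 252) (nat_lit 0) (XT.lf (nat_lit 0) (nat_lit 44078482311) (nat_lit 168) (nat_lit 6123836889) (nat_lit 252) (nat_lit 8406466275) (nat_lit 34) (nat_lit 5) (nat_lit 36) (nat_lit 5) (nat_lit 37) (nat_lit 5) (nat_lit 433) (nat_lit 355) (nat_lit 157)) (XT.nd (nat_lit 94) (nat_lit 84) (nat_lit 0) (XT.lf (nat_lit 0) (nat_lit 6217937747) (nat_lit 168) (nat_lit 53292633292) (nat_lit 252) (nat_lit 458845431) (nat_lit 32) (nat_lit 5) (nat_lit 34) (nat_lit 5) (nat_lit 35) (nat_lit 5) (nat_lit 434) (nat_lit 355) (nat_lit 156)) (XT.lf (nat_lit 0) (nat_lit 7783049474) (nat_lit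 252) (nat_lit 33619885370) (nat_lit 84) (nat_lit 19959506169) (nat_lit 31) (nat_lit 5) (nat_lit 34) (nat_lit 5) (nat_lit 32) (nat_lit 5) (nat_lit 435) (nat_lit 355) (nat_lit 155)))) (XT.nd (nat_lit 188) (nat_lit 0) (nat_lit 0) (XT.nd (nat_lit 94) (nat_lit 168) (nat_lit 0) (XT.lf (nat_lit 0) (nat_lit 16260861076) (nat_lit 252) (nat_lit 12892324373) (nat_lit 84) (nat_lit 33643999937) (nat_lit 31) (nat_lit 5) (nat_lit 34) (nat_lit 5) (nat_lit 32) (nat_lit 5) (nat_lit 436) (nat_lit 355) (nat_lit 154)) (XT.lf (nat_lit 0) (nat_lit 8621972160) (nat_lit 168) (nat_lit 16451858406) (nat_lit 252) (nat_lit 39198718614) (nat_lit 29) (nat_lit 5) (nat_lit 31) (nat_lit 5) (nat_lit 32) (nat_lit 5) (nat_lit 437) (nat_lit 355) (nat_lit 153))) (XT.nd (nat_lit 94) (nat_lit 0) (nat_lit 0) (XT.lf (nat_lit 0) (nat_lit 31042673293) (nat_lit 168) (nat_lit 3236675041) (nat_lit 252) (nat_lit 31508982523) (nat_lit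 29) (nat_lit 5) (nat_lit 31) (nat_lit 5) (nat_lit 32) (nat_lit 5) (nat_lit 438) (nat_lit 355) (nat_lit 152)) (XT.lf (nat_lit 0) (nat_lit 43858781286) (nat_lit 252) (nat_lit 13316577939) (nat_lit 84) (nat_lit 10171295962) (nat_lit 29) (nat_lit 5) (nat_lit 32) (nat_lit 5) (nat_lit 30) (nat_lit 5) (nat_lit 439) (nat_lit 355) (nat_lit 151))))))) (XT.nd (nat_lit 51606) (nat_lit 0) (nat_lit 12264) (XT.nd (nat_lit 658) (nat_lit 168) (nat_lit 0) (XT.nd (nat_lit 282) (nat_lit 336) (nat_lit 0) (XT.nd (nat_lit 94) (nat_lit 84) (nat_lit 0) (XT.lf (nat_lit 0) (nat_lit 8893714127) (nat_lit 168) (nat_lit 44947498053) (nat_lit 252) (nat_lit 15107050264) (nat_lit 27) (nat_lit 5) (nat_lit 29) (nat_lit 5) (nat_lit 30) (nat_lit 5) (nat_lit 440) (nat_lit 355) (nat_lit 150)) (XT.nd (nat_lit 94) (nat_lit 84) (nat_lit 0) (XT.lf (nat_lit 0) (nat_lit 32040160695) (nat_lit 168) (nat_lit 32215529396) (nat_lit 252)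 (nat_lit 6338252201) (nat_lit 27) (nat_lit 5) (nat_lit 29) (nat_lit 5) (nat_lit 30) (nat_lit 5) (nat_lit 441) (nat_lit 355) (nat_lit 149)) (XT.lf (nat_lit 0) (nat_lit 2639186039) (nat_lit 252) (nat_lit 16436962915) (nat_lit 84) (nat_lit 53212124158) (nat_lit 26) (nat_lit 5) (nat_lit 29) (nat_lit 5) (nat_lit 27) (nat_lit 5) (nat_lit 442) (nat_lit 355) (nat_lit 148)))) (XT.nd (nat_lit 188) (nat_lit 168) (nat_lit 0) (XT.nd (nat_lit 94) (nat_lit 0) (nat_lit 0) (XT.lf (nat_lit 0) (nat_lit 6402553480) (nat_lit 168) (nat_lit 5415739104) (nat_lit 252) (nat_lit 62211467953) (nat_lit 24) (nat_lit 5) (nat_lit 26) (nat_lit 5) (nat_lit 27) (nat_lit 5) (nat_lit 443) (nat_lit 355) (nat_lit 147)) (XT.lf (nat_lit 0) (nat_lit 21521794369) (nat_lit 252) (nat_lit 45642154784) (nat_lit 84) (nat_lit 8652074189) (nat_lit 24) (nat_lit 5) (nat_lit 27) (nat_lit 5) (nat_lit 25) (nat_lit 5) (nat_lit 444) (nat_lit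 355) (nat_lit 146))) (XT.nd (nat_lit 94) (nat_lit 168) (nat_lit 0) (XT.lf (nat_lit 0) (nat_lit 31568280038) (nat_lit 252) (nat_lit 23054087716) (nat_lit 84) (nat_lit 23031951288) (nat_lit 24) (nat_lit 5) (nat_lit 27) (nat_lit 5) (nat_lit 25) (nat_lit 5) (nat_lit 445) (nat_lit 355) (nat_lit 145)) (XT.lf (nat_lit 0) (nat_lit 212946031) (nat_lit 168) (nat_lit 41703569614) (nat_lit 252) (nat_lit 37631238645) (nat_lit 22) (nat_lit 5) (nat_lit 24) (nat_lit 5) (nat_lit 25) (nat_lit 5) (nat_lit 446) (nat_lit 355) (nat_lit 144))))) (XT.nd (nat_lit 282) (nat_lit 168) (nat_lit 0) (XT.nd (nat_lit 94) (nat_lit 0) (nat_lit 0) (XT.lf (nat_lit 0) (nat_lit 24647774066) (nat_lit 168) (nat_lit 28158556065) (nat_lit 252) (nat_lit 28684729808) (nat_lit 22) (nat_lit 5) (nat_lit 24) (nat_lit 5) (nat_lit 25) (nat_lit 5) (nat_lit 447) (nat_lit 355) (nat_lit 143)) (XT.nd (nat_lit 94) (nat_lit 0) (nat_lit 0) (XT.lf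 (nat_lit 0) (nat_lit 49812925657) (nat_lit 168) (nat_lit 14208292741) (nat_lit 252) (nat_lit 19471496239) (nat_lit 22) (nat_lit 5) (nat_lit 24) (nat_lit 5) (nat_lit 25) (nat_lit 5) (nat_lit 448) (nat_lit 355) (nat_lit 142)) (XT.lf (nat_lit 0) (nat_lit 75572512209) (nat_lit 252) (nat_lit 9825609977) (nat_lit 84) (nat_lit 156299246) (nat_lit 22) (nat_lit 5) (nat_lit 25) (nat_lit 5) (nat_lit 23) (nat_lit 4) (nat_lit 449) (nat_lit 355) (nat_lit 141)))) (XT.nd (nat_lit 50478) (nat_lit 0) (nat_lit 13104) (XT.nd (nat_lit 94) (nat_lit 0) (nat_lit 0) (XT.lf (nat_lit 0) (nat_lit 81495644) (nat_lit 168) (nat_lit 72778808077) (nat_lit 84) (nat_lit 14809184384) (nat_lit 20) (nat_lit 5) (nat_lit 22) (nat_lit 5) (nat_lit 21) (nat_lit 5) (nat_lit 450) (nat_lit 355) (nat_lit 140)) (XT.lf (nat_lit 0) (nat_lit 10344844198) (nat_lit 168) (nat_lit 49397577494) (nat_lit 84) (nat_lit 30099661241) (nat_lit 20)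 (nat_lit 5) (nat_lit 22) (nat_lit 5) (nat_lit 21) (nat_lit 5) (nat_lit 451) (nat_lit 355) (nat_lit 139))) (XT.nd (nat_lit 94) (nat_lit 0) (nat_lit 0) (XT.lf (nat_lit 0) (nat_lit 3652475448) (nat_lit 1260) (nat_lit 1677888775) (nat_lit 1260) (nat_lit 1677888775) (nat_lit 176) (nat_lit 3) (nat_lit 191) (nat_lit 3) (nat_lit 191) (nat_lit 5) (nat_lit 356) (nat_lit 356) (nat_lit 233)) (XT.lf (nat_lit 84) (nat_lit 2764479001) (nat_lit 0) (nat_lit 4991910812) (nat_lit 1260) (nat_lit 6459505371) (nat_lit 177) (nat_lit 5) (nat_lit 176) (nat_lit 3) (nat_lit 191) (nat_lit 5) (nat_lit 357) (nat_lit 356) (nat_lit 232)))))) (XT.nd (nat_lit 658) (nat_lit 924) (nat_lit 0) (XT.nd (nat_lit 282) (nat_lit 0) (nat_lit 84) (XT.nd (nat_lit 94) (nat_lit 0) (nat_lit 0) (XT.lf (nat_lit 0) (nat_lit 8251425267) (nat_lit 1176) (nat_lit 5298519471) (nat_lit 1260) (nat_lit 870443219) (nat_lit 177) (nat_lit 5) (nat_lit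 191) (nat_lit 5) (nat_lit 192) (nat_lit 5) (nat_lit 358) (nat_lit 356) (nat_lit 231)) (XT.nd (nat_lit 94) (nat_lit 0) (nat_lit 0) (XT.lf (nat_lit 84) (nat_lit 1002374651) (nat_lit 0) (nat_lit 7806045466) (nat_lit 1260) (nat_lit 5821204975) (nat_lit 178) (nat_lit 5) (nat_lit 177) (nat_lit 5) (nat_lit 192) (nat_lit 5) (nat_lit 359) (nat_lit 356) (nat_lit 230)) (XT.lf (nat_lit 84) (nat_lit 7594251410) (nat_lit 0) (nat_lit 1829710205) (nat_lit 1260) (nat_lit 5419944785) (nat_lit 178) (nat_lit 5) (nat_lit 177) (nat_lit 5) (nat_lit 192) (nat_lit 5) (nat_lit 360) (nat_lit 356) (nat_lit 229)))) (XT.nd (nat_lit 188) (nat_lit 0) (nat_lit 84) (XT.nd (nat_lit 94) (nat_lit 0) (nat_lit 0) (XT.lf (nat_lit 0) (nat_lit 10088271435) (nat_lit 1176) (nat_lit 729187826) (nat_lit 1260) (nat_lit 4246269341) (nat_lit 178) (nat_lit 5) (nat_lit 192) (nat_lit 5) (nat_lit 193) (nat_lit 5) (nat_lit 361) (nat_lit 356)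 (nat_lit 228)) (XT.lf (nat_lit 84) (nat_lit 6080762355) (nat_lit 0) (nat_lit 4757363458) (nat_lit 1260) (nat_lit 4450072089) (nat_lit 179) (nat_lit 5) (nat_lit 178) (nat_lit 5) (nat_lit 193) (nat_lit 5) (nat_lit 362) (nat_lit 356) (nat_lit 227))) (XT.nd (nat_lit 94) (nat_lit 0) (nat_lit 0) (XT.lf (nat_lit 0) (nat_lit 11621524483) (nat_lit 1176) (nat_lit 2430552593) (nat_lit 1260) (nat_lit 1467013027) (nat_lit 179) (nat_lit 5) (nat_lit 193) (nat_lit 5) (nat_lit 194) (nat_lit 5) (nat_lit 363) (nat_lit 356) (nat_lit 226)) (XT.lf (nat_lit 84) (nat_lit 4585224283) (nat_lit 0) (nat_lit 7924031970) (nat_lit 1260) (nat_lit 3245247575) (nat_lit 180) (nat_lit 5) (nat_lit 179) (nat_lit 5) (nat_lit 194) (nat_lit 5) (nat_lit 364) (nat_lit 356) (nat_lit 225))))) (XT.nd (nat_lit 282) (nat_lit 1092) (nat_lit 0) (XT.nd (nat_lit 94) (nat_lit 0) (nat_lit 84) (XT.lf (nat_lit 84) (nat_lit 11854580724) (nat_lit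 0) (nat_lit 1583472426) (nat_lit 1260) (nat_lit 2558512937) (nat_lit 180) (nat_lit 5) (nat_lit 179) (nat_lit 5) (nat_lit 194) (nat_lit 5) (nat_lit 365) (nat_lit 356) (nat_lit 224)) (XT.nd (nat_lit 94) (nat_lit 0) (nat_lit 0) (XT.lf (nat_lit 84) (nat_lit 3102240275) (nat_lit 0) (nat_lit 11360066329) (nat_lit 1260) (nat_lit 1781574390) (nat_lit 181) (nat_lit 5) (nat_lit 180) (nat_lit 5) (nat_lit 195) (nat_lit 5) (nat_lit 366) (nat_lit 356) (nat_lit 223)) (XT.lf (nat_lit 84) (nat_lit 10625909941) (nat_lit 0) (nat_lit 4939163026) (nat_lit 1260) (nat_lit 932126845) (nat_lit 181) (nat_lit 5) (nat_lit 180) (nat_lit 5) (nat_lit 195) (nat_lit 5) (nat_lit 367) (nat_lit 356) (nat_lit 222)))) (XT.nd (nat_lit 188) (nat_lit 0) (nat_lit 0) (XT.nd (nat_lit 94) (nat_lit 1260) (nat_lit 0) (XT.lf (nat_lit 84) (nat_lit 1625879965) (nat_lit 0) (nat_lit 15097505882) (nat_lit 1260) (nat_lit 34075936) (nat_lit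 182) (nat_lit 5) (nat_lit 181) (nat_lit 5) (nat_lit 196) (nat_lit 5) (nat_lit 368) (nat_lit 356) (nat_lit 221)) (XT.lf (nat_lit 0) (nat_lit 973146675) (nat_lit 1260) (nat_lit 7620540273) (nat_lit 1344) (nat_lit 8428615779) (nat_lit 166) (nat_lit 5) (nat_lit 181) (nat_lit 5) (nat_lit 182) (nat_lit 5) (nat_lit 369) (nat_lit 356) (nat_lit 220))) (XT.nd (nat_lit 94) (nat_lit 0) (nat_lit 84) (XT.lf (nat_lit 84) (nat_lit 110808626) (nat_lit 0) (nat_lit 1891261520) (nat_lit 1344) (nat_lit 15293259572) (nat_lit 167) (nat_lit 5) (nat_lit 166) (nat_lit 5) (nat_lit 182) (nat_lit 5) (nat_lit 370) (nat_lit 356) (nat_lit 219)) (XT.lf (nat_lit 0) (nat_lit 3179072722) (nat_lit 1260) (nat_lit 9399946644) (nat_lit 1344) (nat_lit 4994027355) (nat_lit 167) (nat_lit 5) (nat_lit 182) (nat_lit 5) (nat_lit 183) (nat_lit 5) (nat_lit 371) (nat_lit 356) (nat_lit 218))))))))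
noncomputable def xc170 : XT := (XT.nd (nat_lit 2538) (nat_lit 4032) (nat_lit 0) (XT.nd (nat_lit 1222) (nat_lit 2856) (nat_lit 0) (XT.nd (nat_lit 564) (nat_lit 1848) (nat_lit 0) (XT.nd (nat_lit 282) (nat_lit 1764) (nat_lit 0) (XT.nd (nat_lit 94) (nat_lit 0) (nat_lit 84) (XT.lf (nat_lit 0) (nat_lit 4401679955) (nat_lit 1260) (nat_lit 1407430914) (nat_lit 1344) (nat_lit 12049690619) (nat_lit 167) (nat_lit 5) (nat_lit 182) (nat_lit 5) (nat_lit 183) (nat_lit 5) (nat_lit 372) (nat_lit 356) (nat_lit 217)) (XT.nd (nat_lit 94) (nat_lit 0) (nat_lit 0) (XT.lf (nat_lit 0) (nat_lit 5731489639) (nat_lit 1260) (nat_lit 11209363061) (nat_lit 84) (nat_lit 1210175123) (nat_lit 168) (nat_lit 5) (nat_lit 183) (nat_lit 5) (nat_lit 169) (nat_lit 5) (nat_lit 373) (nat_lit 356) (nat_lit 216)) (XT.lf (nat_lit 0) (nat_lit 7165065767) (nat_lit 1260) (nat_lit 2946040103) (nat_lit 84) (nat_lit 8339013139) (nat_lit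 168) (nat_lit 5) (nat_lit 183) (nat_lit 5) (nat_lit 169) (nat_lit 5) (nat_lit 374) (nat_lit 356) (nat_lit 215)))) (XT.nd (nat_lit 94) (nat_lit 588) (nat_lit 0) (XT.lf (nat_lit 0) (nat_lit 5669134850) (nat_lit 1260) (nat_lit 3019245633) (nat_lit 1344) (nat_lit 10068414320) (nat_lit 153) (nat_lit 5) (nat_lit 168) (nat_lit 5) (nat_lit 169) (nat_lit 5) (nat_lit 375) (nat_lit 356) (nat_lit 214)) (XT.nd (nat_lit 94) (nat_lit 588) (nat_lit 0) (XT.lf (nat_lit 0) (nat_lit 10321040300) (nat_lit 1344) (nat_lit 4516969069) (nat_lit 84) (nat_lit 4232765541) (nat_lit 153) (nat_lit 5) (nat_lit 169) (nat_lit 5) (nat_lit 154) (nat_lit 5) (nat_lit 376) (nat_lit 356) (nat_lit 213)) (XT.lf (nat_lit 0) (nat_lit 4359357028) (nat_lit 588) (nat_lit 7707750610) (nat_lit 672) (nat_lit 7325146968) (nat_lit 146) (nat_lit 5) (nat_lit 153) (nat_lit 5) (nat_lit 154) (nat_lit 5) (nat_lit 377) (nat_lit 356) (nat_lit 212)))))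 (XT.nd (nat_lit 282) (nat_lit 1260) (nat_lit 0) (XT.nd (nat_lit 94) (nat_lit 588) (nat_lit 0) (XT.lf (nat_lit 0) (nat_lit 13587972879) (nat_lit 588) (nat_lit 315977346) (nat_lit 672) (nat_lit 5818289311) (nat_lit 146) (nat_lit 5) (nat_lit 153) (nat_lit 5) (nat_lit 154) (nat_lit 5) (nat_lit 378) (nat_lit 356) (nat_lit 211)) (XT.nd (nat_lit 94) (nat_lit 0) (nat_lit 0) (XT.lf (nat_lit 0) (nat_lit 3013346112) (nat_lit 588) (nat_lit 12874663418) (nat_lit 672) (nat_lit 4171363411) (nat_lit 139) (nat_lit 5) (nat_lit 146) (nat_lit 5) (nat_lit 147) (nat_lit 5) (nat_lit 379) (nat_lit 356) (nat_lit 210)) (XT.lf (nat_lit 0) (nat_lit 12551378158) (nat_lit 588) (nat_lit 5438392020) (nat_lit 672) (nat_lit 2415116697) (nat_lit 139) (nat_lit 5) (nat_lit 146) (nat_lit 5) (nat_lit 147) (nat_lit 5) (nat_lit 380) (nat_lit 356) (nat_lit 209)))) (XT.nd (nat_lit 188) (nat_lit 588) (nat_lit 0) (XT.nd (nat_lit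 94) (nat_lit 84) (nat_lit 0) (XT.lf (nat_lit 0) (nat_lit 1618429203) (nat_lit 588) (nat_lit 18566401402) (nat_lit 672) (nat_lit 575039780) (nat_lit 132) (nat_lit 5) (nat_lit 139) (nat_lit 5) (nat_lit 140) (nat_lit 5) (nat_lit 381) (nat_lit 356) (nat_lit 208)) (XT.lf (nat_lit 0) (nat_lit 1421808467) (nat_lit 672) (nat_lit 9661596939) (nat_lit 84) (nat_lit 10037908219) (nat_lit 131) (nat_lit 5) (nat_lit 139) (nat_lit 5) (nat_lit 132) (nat_lit 5) (nat_lit 382) (nat_lit 356) (nat_lit 207))) (XT.nd (nat_lit 94) (nat_lit 0) (nat_lit 0) (XT.lf (nat_lit 0) (nat_lit 92278428) (nat_lit 588) (nat_lit 3369201340) (nat_lit 672) (nat_lit 18032125915) (nat_lit 124) (nat_lit 5) (nat_lit 131) (nat_lit 5) (nat_lit 132) (nat_lit 5) (nat_lit 383) (nat_lit 356) (nat_lit 206)) (XT.lf (nat_lit 0) (nat_lit 5698574081) (nat_lit 672) (nat_lit 11588879377) (nat_lit 84) (nat_lit 4585536335) (nat_lit 124) (nat_lit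 5) (nat_lit 132) (nat_lit 5) (nat_lit 125) (nat_lit 5) (nat_lit 384) (nat_lit 356) (nat_lit 205)))))) (XT.nd (nat_lit 658) (nat_lit 1344) (nat_lit 0) (XT.nd (nat_lit 282) (nat_lit 1008) (nat_lit 0) (XT.nd (nat_lit 94) (nat_lit 504) (nat_lit 0) (XT.lf (nat_lit 0) (nat_lit 8030035072) (nat_lit 672) (nat_lit 1521829779) (nat_lit 84) (nat_lit 12711082937) (nat_lit 124) (nat_lit 5) (nat_lit 132) (nat_lit 5) (nat_lit 125) (nat_lit 5) (nat_lit 385) (nat_lit 356) (nat_lit 204)) (XT.nd (nat_lit 94) (nat_lit 0) (nat_lit 0) (XT.lf (nat_lit 0) (nat_lit 9016958144) (nat_lit 504) (nat_lit 1495231490) (nat_lit 588) (nat_lit 12150002084) (nat_lit 118) (nat_lit 5) (nat_lit 124) (nat_lit 5) (nat_lit 125) (nat_lit 5) (nat_lit 386) (nat_lit 356) (nat_lit 203)) (XT.lf (nat_lit 0) (nat_lit 13143907249) (nat_lit 588) (nat_lit 3241739809) (nat_lit 84) (nat_lit 6685522361) (nat_lit 118) (nat_lit 5) (nat_lit 125)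 (nat_lit 5) (nat_lit 119) (nat_lit 5) (nat_lit 387) (nat_lit 356) (nat_lit 202)))) (XT.nd (nat_lit 188) (nat_lit 504) (nat_lit 0) (XT.nd (nat_lit 94) (nat_lit 0) (nat_lit 0) (XT.lf (nat_lit 0) (nat_lit 7601220650) (nat_lit 504) (nat_lit 8335580216) (nat_lit 588) (nat_lit 7553157980) (nat_lit 112) (nat_lit 5) (nat_lit 118) (nat_lit 5) (nat_lit 119) (nat_lit 5) (nat_lit 388) (nat_lit 356) (nat_lit 201)) (XT.lf (nat_lit 0) (nat_lit 18829821773) (nat_lit 504) (nat_lit 10853197) (nat_lit 588) (nat_lit 5079830041) (nat_lit 112) (nat_lit 5) (nat_lit 118) (nat_lit 5) (nat_lit 119) (nat_lit 5) (nat_lit 389) (nat_lit 356) (nat_lit 200))) (XT.nd (nat_lit 94) (nat_lit 84) (nat_lit 0) (XT.lf (nat_lit 0) (nat_lit 6061182413) (nat_lit 420) (nat_lit 15905680039) (nat_lit 504) (nat_lit 2393057801) (nat_lit 107) (nat_lit 5) (nat_lit 112) (nat_lit 5) (nat_lit 113) (nat_lit 5) (nat_lit 390) (nat_lit 356)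 (nat_lit 199)) (XT.lf (nat_lit 0) (nat_lit 413688692) (nat_lit 504) (nat_lit 7169374907) (nat_lit 84) (nat_lit 17227954260) (nat_lit 106) (nat_lit 5) (nat_lit 112) (nat_lit 5) (nat_lit 107) (nat_lit 5) (nat_lit 391) (nat_lit 356) (nat_lit 198))))) (XT.nd (nat_lit 282) (nat_lit 420) (nat_lit 0) (XT.nd (nat_lit 94) (nat_lit 420) (nat_lit 0) (XT.lf (nat_lit 0) (nat_lit 3303304428) (nat_lit 588) (nat_lit 20934919432) (nat_lit 84) (nat_lit 1035318651) (nat_lit 100) (nat_lit 5) (nat_lit 107) (nat_lit 5) (nat_lit 101) (nat_lit 5) (nat_lit 392) (nat_lit 356) (nat_lit 197)) (XT.nd (nat_lit 94) (nat_lit 420) (nat_lit 0) (XT.lf (nat_lit 0) (nat_lit 6422697329) (nat_lit 588) (nat_lit 9490799466) (nat_lit 84) (nat_lit 9832161094) (nat_lit 100) (nat_lit 5) (nat_lit 107) (nat_lit 5) (nat_lit 101) (nat_lit 5) (nat_lit 393) (nat_lit 356) (nat_lit 196)) (XT.lf (nat_lit 0) (nat_lit 2336353222) (nat_lit 420)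 (nat_lit 7316821355) (nat_lit 504) (nat_lit 16578244498) (nat_lit 95) (nat_lit 5) (nat_lit 100) (nat_lit 5) (nat_lit 101) (nat_lit 5) (nat_lit 394) (nat_lit 356) (nat_lit 195)))) (XT.nd (nat_lit 188) (nat_lit 0) (nat_lit 0) (XT.nd (nat_lit 94) (nat_lit 420) (nat_lit 0) (XT.lf (nat_lit 0) (nat_lit 13087258616) (nat_lit 504) (nat_lit 12037704021) (nat_lit 84) (nat_lit 1603596895) (nat_lit 95) (nat_lit 5) (nat_lit 101) (nat_lit 5) (nat_lit 96) (nat_lit 5) (nat_lit 395) (nat_lit 356) (nat_lit 194)) (XT.lf (nat_lit 0) (nat_lit 99074086) (nat_lit 420) (nat_lit 16593952542) (nat_lit 504) (nat_lit 10545534729) (nat_lit 90) (nat_lit 5) (nat_lit 95) (nat_lit 5) (nat_lit 96) (nat_lit 5) (nat_lit 396) (nat_lit 356) (nat_lit 193))) (XT.nd (nat_lit 94) (nat_lit 0) (nat_lit 0) (XT.lf (nat_lit 0) (nat_lit 12840979373) (nat_lit 420) (nat_lit 7682893582) (nat_lit 504) (nat_lit 7236489916) (nat_lit 90) (nat_lit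 5) (nat_lit 95) (nat_lit 5) (nat_lit 96) (nat_lit 5) (nat_lit 397) (nat_lit 356) (nat_lit 192)) (XT.lf (nat_lit 0) (nat_lit 24479493739) (nat_lit 504) (nat_lit 2352754393) (nat_lit 84) (nat_lit 1465281423) (nat_lit 90) (nat_lit 5) (nat_lit 96) (nat_lit 5) (nat_lit 91) (nat_lit 5) (nat_lit 398) (nat_lit 356) (nat_lit 191))))))) (XT.nd (nat_lit 1316) (nat_lit 1512) (nat_lit 0) (XT.nd (nat_lit 658) (nat_lit 1008) (nat_lit 0) (XT.nd (nat_lit 282) (nat_lit 672) (nat_lit 0) (XT.nd (nat_lit 94) (nat_lit 504) (nat_lit 0) (XT.lf (nat_lit 0) (nat_lit 10718424330) (nat_lit 336) (nat_lit 18010064396) (nat_lit 420) (nat_lit 117087752) (nat_lit 86) (nat_lit 5) (nat_lit 90) (nat_lit 5) (nat_lit 91) (nat_lit 5) (nat_lit 399) (nat_lit 356) (nat_lit 190)) (XT.nd (nat_lit 94) (nat_lit 420) (nat_lit 0) (XT.lf (nat_lit 0) (nat_lit 3642413320) (nat_lit 420) (nat_lit 5220712013) (nat_lit 84) (nat_lit 20545291230)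 (nat_lit 85) (nat_lit 5) (nat_lit 90) (nat_lit 5) (nat_lit 86) (nat_lit 5) (nat_lit 400) (nat_lit 356) (nat_lit 189)) (XT.lf (nat_lit 0) (nat_lit 7593336066) (nat_lit 504) (nat_lit 21765131065) (nat_lit 84) (nat_lit 627216104) (nat_lit 80) (nat_lit 5) (nat_lit 86) (nat_lit 5) (nat_lit 81) (nat_lit 5) (nat_lit 401) (nat_lit 356) (nat_lit 188)))) (XT.nd (nat_lit 188) (nat_lit 336) (nat_lit 0) (XT.nd (nat_lit 94) (nat_lit 336) (nat_lit 0) (XT.lf (nat_lit 0) (nat_lit 11799600651) (nat_lit 504) (nat_lit 8500366915) (nat_lit 84) (nat_lit 10276201604) (nat_lit 80) (nat_lit 5) (nat_lit 86) (nat_lit 5) (nat_lit 81) (nat_lit 5) (nat_lit 402) (nat_lit 356) (nat_lit 187)) (XT.lf (nat_lit 0) (nat_lit 5259655913) (nat_lit 336) (nat_lit 10918897570) (nat_lit 420) (nat_lit 15004426716) (nat_lit 76) (nat_lit 5) (nat_lit 80) (nat_lit 5) (nat_lit 81) (nat_lit 5) (nat_lit 403) (nat_lit 356) (nat_lit 186)))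 (XT.nd (nat_lit 94) (nat_lit 336) (nat_lit 0) (XT.lf (nat_lit 0) (nat_lit 19601461685) (nat_lit 336) (nat_lit 1169259119) (nat_lit 420) (nat_lit 11034824741) (nat_lit 76) (nat_lit 5) (nat_lit 80) (nat_lit 5) (nat_lit 81) (nat_lit 5) (nat_lit 404) (nat_lit 356) (nat_lit 185)) (XT.lf (nat_lit 0) (nat_lit 1872763631) (nat_lit 336) (nat_lit 23727296308) (nat_lit 420) (nat_lit 6843750916) (nat_lit 72) (nat_lit 5) (nat_lit 76) (nat_lit 5) (nat_lit 77) (nat_lit 5) (nat_lit 405) (nat_lit 356) (nat_lit 184))))) (XT.nd (nat_lit 282) (nat_lit 588) (nat_lit 0) (XT.nd (nat_lit 94) (nat_lit 420) (nat_lit 0) (XT.lf (nat_lit 0) (nat_lit 16605109213) (nat_lit 336) (nat_lit 14100047374) (nat_lit 420) (nat_lit 2392146271) (nat_lit 72) (nat_lit 5) (nat_lit 76) (nat_lit 5) (nat_lit 77) (nat_lit 5) (nat_lit 406) (nat_lit 356) (nat_lit 183)) (XT.nd (nat_lit 94) (nat_lit 336) (nat_lit 0) (XT.lf (nat_lit 0) (nat_lit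 2146459548) (nat_lit 420) (nat_lit 2017155676) (nat_lit 84) (nat_lit 29606269355) (nat_lit 71) (nat_lit 5) (nat_lit 76) (nat_lit 5) (nat_lit 72) (nat_lit 5) (nat_lit 407) (nat_lit 356) (nat_lit 182)) (XT.lf (nat_lit 0) (nat_lit 6955440169) (nat_lit 420) (nat_lit 21398586159) (nat_lit 84) (nat_lit 6102442617) (nat_lit 67) (nat_lit 5) (nat_lit 72) (nat_lit 5) (nat_lit 68) (nat_lit 5) (nat_lit 408) (nat_lit 356) (nat_lit 181)))) (XT.nd (nat_lit 188) (nat_lit 252) (nat_lit 0) (XT.nd (nat_lit 94) (nat_lit 336) (nat_lit 0) (XT.lf (nat_lit 0) (nat_lit 11966887265) (nat_lit 420) (nat_lit 6582946190) (nat_lit 84) (nat_lit 16612075969) (nat_lit 67) (nat_lit 5) (nat_lit 72) (nat_lit 5) (nat_lit 68) (nat_lit 5) (nat_lit 409) (nat_lit 356) (nat_lit 180)) (XT.lf (nat_lit 0) (nat_lit 8844901629) (nat_lit 336) (nat_lit 8365305690) (nat_lit 420) (nat_lit 18675864272) (nat_lit 63) (nat_lit 5) (nat_lit 67)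 (nat_lit 5) (nat_lit 68) (nat_lit 5) (nat_lit 410) (nat_lit 356) (nat_lit 179))) (XT.nd (nat_lit 94) (nat_lit 252) (nat_lit 0) (XT.lf (nat_lit 0) (nat_lit 22694933722) (nat_lit 420) (nat_lit 11785421980) (nat_lit 84) (nat_lit 2149083952) (nat_lit 63) (nat_lit 5) (nat_lit 68) (nat_lit 5) (nat_lit 64) (nat_lit 5) (nat_lit 411) (nat_lit 356) (nat_lit 178)) (XT.lf (nat_lit 0) (nat_lit 3916844414) (nat_lit 252) (nat_lit 24544483181) (nat_lit 336) (nat_lit 8930271505) (nat_lit 60) (nat_lit 5) (nat_lit 63) (nat_lit 5) (nat_lit 64) (nat_lit 5) (nat_lit 412) (nat_lit 356) (nat_lit 177)))))) (XT.nd (nat_lit 658) (nat_lit 588) (nat_lit 0) (XT.nd (nat_lit 282) (nat_lit 504) (nat_lit 0) (XT.nd (nat_lit 94) (nat_lit 420) (nat_lit 0) (XT.lf (nat_lit 0) (nat_lit 20327054114) (nat_lit 252) (nat_lit 14189370852) (nat_lit 336) (nat_lit 3656731003) (nat_lit 60) (nat_lit 5) (nat_lit 63) (nat_lit 5) (nat_lit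 64) (nat_lit 5) (nat_lit 413) (nat_lit 356) (nat_lit 176)) (XT.nd (nat_lit 94) (nat_lit 336) (nat_lit 0) (XT.lf (nat_lit 0) (nat_lit 1737141348) (nat_lit 336) (nat_lit 1770297144) (nat_lit 84) (nat_lit 35470310060) (nat_lit 59) (nat_lit 5) (nat_lit 63) (nat_lit 5) (nat_lit 60) (nat_lit 5) (nat_lit 414) (nat_lit 356) (nat_lit 175)) (XT.lf (nat_lit 0) (nat_lit 7434592028) (nat_lit 420) (nat_lit 24834414078) (nat_lit 84) (nat_lit 7529932537) (nat_lit 55) (nat_lit 5) (nat_lit 60) (nat_lit 5) (nat_lit 56) (nat_lit 5) (nat_lit 415) (nat_lit 356) (nat_lit 174)))) (XT.nd (nat_lit 188) (nat_lit 252) (nat_lit 0) (XT.nd (nat_lit 94) (nat_lit 252) (nat_lit 0) (XT.lf (nat_lit 0) (nat_lit 13352639186) (nat_lit 420) (nat_lit 8446000824) (nat_lit 84) (nat_lit 18844637783) (nat_lit 55) (nat_lit 5) (nat_lit 60) (nat_lit 5) (nat_lit 56) (nat_lit 5) (nat_lit 416) (nat_lit 356) (nat_lit 173)) (XT.lf (nat_lit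 0) (nat_lit 8597414994) (nat_lit 252) (nat_lit 10930439210) (nat_lit 336) (nat_lit 21982707563) (nat_lit 52) (nat_lit 5) (nat_lit 55) (nat_lit 5) (nat_lit 56) (nat_lit 5) (nat_lit 417) (nat_lit 356) (nat_lit 172))) (XT.nd (nat_lit 94) (nat_lit 252) (nat_lit 0) (XT.lf (nat_lit 0) (nat_lit 25974009239) (nat_lit 336) (nat_lit 16083869989) (nat_lit 84) (nat_lit 343417869) (nat_lit 52) (nat_lit 5) (nat_lit 56) (nat_lit 5) (nat_lit 53) (nat_lit 5) (nat_lit 418) (nat_lit 356) (nat_lit 171)) (XT.lf (nat_lit 0) (nat_lit 1160383793) (nat_lit 252) (nat_lit 31569643757) (nat_lit 336) (nat_lit 10585235821) (nat_lit 49) (nat_lit 5) (nat_lit 52) (nat_lit 5) (nat_lit 53) (nat_lit 5) (nat_lit 419) (nat_lit 356) (nat_lit 170))))) (XT.nd (nat_lit 282) (nat_lit 252) (nat_lit 0) (XT.nd (nat_lit 94) (nat_lit 336) (nat_lit 0) (XT.lf (nat_lit 0) (nat_lit 19247388727) (nat_lit 252) (nat_lit 20600898631) (nat_lit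 336) (nat_lit 4403577597) (nat_lit 49) (nat_lit 5) (nat_lit 52) (nat_lit 5) (nat_lit 53) (nat_lit 5) (nat_lit 420) (nat_lit 356) (nat_lit 169)) (XT.nd (nat_lit 94) (nat_lit 252) (nat_lit 0) (XT.lf (nat_lit 0) (nat_lit 1922412926) (nat_lit 336) (nat_lit 7362649533) (nat_lit 84) (nat_lit 35931022915) (nat_lit 48) (nat_lit 5) (nat_lit 52) (nat_lit 5) (nat_lit 49) (nat_lit 5) (nat_lit 421) (nat_lit 356) (nat_lit 168)) (XT.lf (nat_lit 0) (nat_lit 8476700099) (nat_lit 336) (nat_lit 35254190626) (nat_lit 84) (nat_lit 2473225836) (nat_lit 45) (nat_lit 5) (nat_lit 49) (nat_lit 5) (nat_lit 46) (nat_lit 5) (nat_lit 422) (nat_lit 356) (nat_lit 167)))) (XT.nd (nat_lit 188) (nat_lit 0) (nat_lit 0) (XT.nd (nat_lit 94) (nat_lit 252) (nat_lit 0) (XT.lf (nat_lit 0) (nat_lit 15391938464) (nat_lit 336) (nat_lit 17353541165) (nat_lit 84) (nat_lit 14471382177) (nat_lit 45) (nat_lit 5) (nat_lit 49) (nat_lit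 5) (nat_lit 46) (nat_lit 5) (nat_lit 423) (nat_lit 356) (nat_lit 166)) (XT.lf (nat_lit 0) (nat_lit 1101623186) (nat_lit 252) (nat_lit 21420985530) (nat_lit 336) (nat_lit 25737144167) (nat_lit 42) (nat_lit 5) (nat_lit 45) (nat_lit 5) (nat_lit 46) (nat_lit 5) (nat_lit 424) (nat_lit 356) (nat_lit 165))) (XT.nd (nat_lit 94) (nat_lit 0) (nat_lit 0) (XT.lf (nat_lit 0) (nat_lit 20462211049) (nat_lit 252) (nat_lit 9577648100) (nat_lit 336) (nat_lit 19288894379) (nat_lit 42) (nat_lit 5) (nat_lit 45) (nat_lit 5) (nat_lit 46) (nat_lit 5) (nat_lit 425) (nat_lit 356) (nat_lit 164)) (XT.lf (nat_lit 0) (nat_lit 37805307103) (nat_lit 336) (nat_lit 10055313483) (nat_lit 84) (nat_lit 2568525768) (nat_lit 42) (nat_lit 5) (nat_lit 46) (nat_lit 5) (nat_lit 43) (nat_lit 5) (nat_lit 426) (nat_lit 356) (nat_lit 163))))))))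
noncomputable def xc171 : XT := (XT.nd (nat_lit 53016) (nat_lit 0) (nat_lit 8232) (XT.nd (nat_lit 1316) (nat_lit 756) (nat_lit 0) (XT.nd (nat_lit 658) (nat_lit 420) (nat_lit 0) (XT.nd (nat_lit 282) (nat_lit 420) (nat_lit 0) (XT.nd (nat_lit 94) (nat_lit 84) (nat_lit 0) (XT.lf (nat_lit 0) (nat_lit 9405155276) (nat_lit 168) (nat_lit 36581358217) (nat_lit 252) (nat_lit 5570556111) (nat_lit 40) (nat_lit 5) (nat_lit 42) (nat_lit 5) (nat_lit 43) (nat_lit 5) (nat_lit 427) (nat_lit 356) (nat_lit 162)) (XT.nd (nat_lit 94) (nat_lit 0) (nat_lit 0) (XT.lf (nat_lit 0) (nat_lit 1761374877) (nat_lit 252) (nat_lit 23081325334) (nat_lit 84) (nat_lit 27872640723) (nat_lit 39) (nat_lit 5) (nat_lit 42) (nat_lit 5) (nat_lit 40) (nat_lit 5) (nat_lit 428) (nat_lit 356) (nat_lit 161)) (XT.lf (nat_lit 0) (nat_lit 9198939445) (nat_lit 252) (nat_lit 3497472585) (nat_lit 84) (nat_lit 41210366881) (nat_lit 39) (nat_lit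 5) (nat_lit 42) (nat_lit 5) (nat_lit 40) (nat_lit 5) (nat_lit 429) (nat_lit 356) (nat_lit 160)))) (XT.nd (nat_lit 188) (nat_lit 168) (nat_lit 0) (XT.nd (nat_lit 94) (nat_lit 0) (nat_lit 0) (XT.lf (nat_lit 0) (nat_lit 17002075346) (nat_lit 252) (nat_lit 18697052) (nat_lit 336) (nat_lit 38108355594) (nat_lit 36) (nat_lit 5) (nat_lit 39) (nat_lit 5) (nat_lit 40) (nat_lit 5) (nat_lit 430) (nat_lit 356) (nat_lit 159)) (XT.lf (nat_lit 0) (nat_lit 25235997066) (nat_lit 336) (nat_lit 18328089830) (nat_lit 84) (nat_lit 12819300695) (nat_lit 36) (nat_lit 5) (nat_lit 40) (nat_lit 5) (nat_lit 37) (nat_lit 5) (nat_lit 431) (nat_lit 356) (nat_lit 158))) (XT.nd (nat_lit 94) (nat_lit 0) (nat_lit 0) (XT.lf (nat_lit 0) (nat_lit 2102168500) (nat_lit 168) (nat_lit 31613695846) (nat_lit 252) (nat_lit 23958867137) (nat_lit 34) (nat_lit 5) (nat_lit 36) (nat_lit 5) (nat_lit 37) (nat_lit 5) (nat_lit 432) (nat_lit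 356) (nat_lit 157)) (XT.lf (nat_lit 0) (nat_lit 23517567729) (nat_lit 168) (nat_lit 19115461979) (nat_lit 252) (nat_lit 16366300945) (nat_lit 34) (nat_lit 5) (nat_lit 36) (nat_lit 5) (nat_lit 37) (nat_lit 5) (nat_lit 433) (nat_lit 356) (nat_lit 156))))) (XT.nd (nat_lit 282) (nat_lit 168) (nat_lit 0) (XT.nd (nat_lit 94) (nat_lit 252) (nat_lit 0) (XT.lf (nat_lit 0) (nat_lit 45572055414) (nat_lit 168) (nat_lit 6243542280) (nat_lit 252) (nat_lit 8548135438) (nat_lit 34) (nat_lit 5) (nat_lit 36) (nat_lit 5) (nat_lit 37) (nat_lit 5) (nat_lit 434) (nat_lit 356) (nat_lit 155)) (XT.nd (nat_lit 94) (nat_lit 84) (nat_lit 0) (XT.lf (nat_lit 0) (nat_lit 6576690030) (nat_lit 168) (nat_lit 54825537274) (nat_lit 252) (nat_lit 362984747) (nat_lit 32) (nat_lit 5) (nat_lit 34) (nat_lit 5) (nat_lit 35) (nat_lit 5) (nat_lit 435) (nat_lit 356) (nat_lit 154)) (XT.lf (nat_lit 0) (nat_lit 8120897121) (nat_lit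 252) (nat_lit 34459115648) (nat_lit 84) (nat_lit 20620079603) (nat_lit 31) (nat_lit 5) (nat_lit 34) (nat_lit 5) (nat_lit 32) (nat_lit 5) (nat_lit 436) (nat_lit 356) (nat_lit 153)))) (XT.nd (nat_lit 188) (nat_lit 0) (nat_lit 0) (XT.nd (nat_lit 94) (nat_lit 168) (nat_lit 0) (XT.lf (nat_lit 0) (nat_lit 16850003571) (nat_lit 252) (nat_lit 13114660821) (nat_lit 84) (nat_lit 34713308526) (nat_lit 31) (nat_lit 5) (nat_lit 34) (nat_lit 5) (nat_lit 32) (nat_lit 5) (nat_lit 437) (nat_lit 356) (nat_lit 152)) (XT.lf (nat_lit 0) (nat_lit 9043452518) (nat_lit 168) (nat_lit 16882523794) (nat_lit 252) (nat_lit 40271665467) (nat_lit 29) (nat_lit 5) (nat_lit 31) (nat_lit 5) (nat_lit 32) (nat_lit 5) (nat_lit 438) (nat_lit 356) (nat_lit 151))) (XT.nd (nat_lit 94) (nat_lit 0) (nat_lit 0) (XT.lf (nat_lit 0) (nat_lit 32132032320) (nat_lit 168) (nat_lit 3272716687) (nat_lit 252) (nat_lit 32354237721) (nat_lit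 29) (nat_lit 5) (nat_lit 31) (nat_lit 5) (nat_lit 32) (nat_lit 5) (nat_lit 439) (nat_lit 356) (nat_lit 150)) (XT.lf (nat_lit 0) (nat_lit 45269308953) (nat_lit 252) (nat_lit 13560263676) (nat_lit 84) (nat_lit 10534558270) (nat_lit 29) (nat_lit 5) (nat_lit 32) (nat_lit 5) (nat_lit 30) (nat_lit 5) (nat_lit 440) (nat_lit 356) (nat_lit 149)))))) (XT.nd (nat_lit 658) (nat_lit 168) (nat_lit 0) (XT.nd (nat_lit 282) (nat_lit 336) (nat_lit 0) (XT.nd (nat_lit 94) (nat_lit 84) (nat_lit 0) (XT.lf (nat_lit 0) (nat_lit 9314809588) (nat_lit 168) (nat_lit 46235126135) (nat_lit 252) (nat_lit 15463891321) (nat_lit 27) (nat_lit 5) (nat_lit 29) (nat_lit 5) (nat_lit 30) (nat_lit 5) (nat_lit 441) (nat_lit 356) (nat_lit 148)) (XT.nd (nat_lit 94) (nat_lit 84) (nat_lit 0) (XT.lf (nat_lit 0) (nat_lit 33151155843) (nat_lit 168) (nat_lit 33122969200) (nat_lit 252) (nat_lit 6434836222) (nat_lit 27) (nat_lit 5) (nat_lit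 29) (nat_lit 5) (nat_lit 30) (nat_lit 5) (nat_lit 442) (nat_lit 356) (nat_lit 147)) (XT.lf (nat_lit 0) (nat_lit 2807427429) (nat_lit 252) (nat_lit 16782799733) (nat_lit 84) (nat_lit 54863950186) (nat_lit 26) (nat_lit 5) (nat_lit 29) (nat_lit 5) (nat_lit 27) (nat_lit 5) (nat_lit 443) (nat_lit 356) (nat_lit 146)))) (XT.nd (nat_lit 188) (nat_lit 168) (nat_lit 0) (XT.nd (nat_lit 94) (nat_lit 0) (nat_lit 0) (XT.lf (nat_lit 0) (nat_lit 6740458310) (nat_lit 168) (nat_lit 5520256501) (nat_lit 252) (nat_lit 63987232453) (nat_lit 24) (nat_lit 5) (nat_lit 26) (nat_lit 5) (nat_lit 27) (nat_lit 5) (nat_lit 444) (nat_lit 356) (nat_lit 145)) (XT.lf (nat_lit 0) (nat_lit 22253303098) (nat_lit 252) (nat_lit 46867752225) (nat_lit 84) (nat_lit 8966805221) (nat_lit 24) (nat_lit 5) (nat_lit 27) (nat_lit 5) (nat_lit 25) (nat_lit 5) (nat_lit 445) (nat_lit 356) (nat_lit 144))) (XT.nd (nat_lit 94) (nat_lit 168)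 (nat_lit 0) (XT.lf (nat_lit 0) (nat_lit 32598682709) (nat_lit 252) (nat_lit 23606227627) (nat_lit 84) (nat_lit 23776471775) (nat_lit 24) (nat_lit 5) (nat_lit 27) (nat_lit 5) (nat_lit 25) (nat_lit 5) (nat_lit 446) (nat_lit 356) (nat_lit 143)) (XT.lf (nat_lit 0) (nat_lit 357449656) (nat_lit 168) (nat_lit 42898815583) (nat_lit 252) (nat_lit 38675390100) (nat_lit 22) (nat_lit 5) (nat_lit 24) (nat_lit 5) (nat_lit 25) (nat_lit 5) (nat_lit 447) (nat_lit 356) (nat_lit 142))))) (XT.nd (nat_lit 282) (nat_lit 168) (nat_lit 0) (XT.nd (nat_lit 94) (nat_lit 0) (nat_lit 0) (XT.lf (nat_lit 0) (nat_lit 25521299757) (nat_lit 168) (nat_lit 28949078651) (nat_lit 252) (nat_lit 29462955485) (nat_lit 22) (nat_lit 5) (nat_lit 24) (nat_lit 5) (nat_lit 25) (nat_lit 5) (nat_lit 448) (nat_lit 356) (nat_lit 141)) (XT.nd (nat_lit 94) (nat_lit 0) (nat_lit 0) (XT.lf (nat_lit 0) (nat_lit 51437500290) (nat_lit 168) (nat_lit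 14581887061) (nat_lit 252) (nat_lit 19975722468) (nat_lit 22) (nat_lit 5) (nat_lit 24) (nat_lit 5) (nat_lit 25) (nat_lit 5) (nat_lit 449) (nat_lit 356) (nat_lit 140)) (XT.lf (nat_lit 0) (nat_lit 77915453156) (nat_lit 252) (nat_lit 9992157914) (nat_lit 84) (nat_lit 211111509) (nat_lit 22) (nat_lit 5) (nat_lit 25) (nat_lit 5) (nat_lit 23) (nat_lit 4) (nat_lit 450) (nat_lit 356) (nat_lit 139)))) (XT.nd (nat_lit 50572) (nat_lit 0) (nat_lit 13104) (XT.nd (nat_lit 50478) (nat_lit 0) (nat_lit 13104) (XT.lf (nat_lit 0) (nat_lit 159515883) (nat_lit 168) (nat_lit 74833649753) (nat_lit 84) (nat_lit 15304084683) (nat_lit 20) (nat_lit 5) (nat_lit 22) (nat_lit 5) (nat_lit 21) (nat_lit 5) (nat_lit 451) (nat_lit 356) (nat_lit 138)) (XT.lf (nat_lit 0) (nat_lit 4074309734) (nat_lit 1260) (nat_lit 1567113191) (nat_lit 1260) (nat_lit 1567113191) (nat_lit 176) (nat_lit 3) (nat_lit 191) (nat_lit 3) (nat_lit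 191) (nat_lit 5) (nat_lit 357) (nat_lit 357) (nat_lit 231))) (XT.nd (nat_lit 94) (nat_lit 0) (nat_lit 84) (XT.lf (nat_lit 84) (nat_lit 3166478802) (nat_lit 0) (nat_lit 5431999897) (nat_lit 1260) (nat_lit 6024452838) (nat_lit 177) (nat_lit 5) (nat_lit 176) (nat_lit 3) (nat_lit 191) (nat_lit 5) (nat_lit 358) (nat_lit 357) (nat_lit 230)) (XT.lf (nat_lit 0) (nat_lit 9087906224) (nat_lit 1176) (nat_lit 5126118958) (nat_lit 1260) (nat_lit 620181426) (nat_lit 177) (nat_lit 5) (nat_lit 191) (nat_lit 5) (nat_lit 192) (nat_lit 5) (nat_lit 359) (nat_lit 357) (nat_lit 229))))))) (XT.nd (nat_lit 1316) (nat_lit 4032) (nat_lit 0) (XT.nd (nat_lit 658) (nat_lit 924) (nat_lit 0) (XT.nd (nat_lit 282) (nat_lit 0) (nat_lit 84) (XT.nd (nat_lit 94) (nat_lit 0) (nat_lit 0) (XT.lf (nat_lit 84) (nat_lit 1360553399) (nat_lit 0) (nat_lit 8287057951) (nat_lit 1260) (nat_lit 5402562257) (nat_lit 178) (nat_lit 5) (nat_lit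 177) (nat_lit 5) (nat_lit 192) (nat_lit 5) (nat_lit 360) (nat_lit 357) (nat_lit 228)) (XT.nd (nat_lit 94) (nat_lit 0) (nat_lit 84) (XT.lf (nat_lit 84) (nat_lit 8140629932) (nat_lit 0) (nat_lit 2124243376) (nat_lit 1260) (nat_lit 5006544227) (nat_lit 178) (nat_lit 5) (nat_lit 177) (nat_lit 5) (nat_lit 192) (nat_lit 5) (nat_lit 361) (nat_lit 357) (nat_lit 227)) (XT.lf (nat_lit 0) (nat_lit 10930617889) (nat_lit 1176) (nat_lit 422266743) (nat_lit 1260) (nat_lit 4145535490) (nat_lit 178) (nat_lit 5) (nat_lit 192) (nat_lit 5) (nat_lit 193) (nat_lit 5) (nat_lit 362) (nat_lit 357) (nat_lit 226)))) (XT.nd (nat_lit 188) (nat_lit 0) (nat_lit 84) (XT.nd (nat_lit 94) (nat_lit 0) (nat_lit 84) (XT.lf (nat_lit 84) (nat_lit 6588758447) (nat_lit 0) (nat_lit 5101619692) (nat_lit 1260) (nat_lit 4039653036) (nat_lit 179) (nat_lit 5) (nat_lit 178) (nat_lit 5) (nat_lit 193) (nat_lit 5) (nat_lit 363) (nat_lit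 357) (nat_lit 225)) (XT.lf (nat_lit 0) (nat_lit 12480045237) (nat_lit 1176) (nat_lit 2169174835) (nat_lit 1260) (nat_lit 1319176185) (nat_lit 179) (nat_lit 5) (nat_lit 193) (nat_lit 5) (nat_lit 194) (nat_lit 5) (nat_lit 364) (nat_lit 357) (nat_lit 224))) (XT.nd (nat_lit 94) (nat_lit 0) (nat_lit 0) (XT.lf (nat_lit 84) (nat_lit 5053797951) (nat_lit 0) (nat_lit 8328942217) (nat_lit 1260) (nat_lit 2828510550) (nat_lit 180) (nat_lit 5) (nat_lit 179) (nat_lit 5) (nat_lit 194) (nat_lit 5) (nat_lit 365) (nat_lit 357) (nat_lit 223)) (XT.lf (nat_lit 84) (nat_lit 12531593815) (nat_lit 0) (nat_lit 1793296296) (nat_lit 1260) (nat_lit 2136147498) (nat_lit 180) (nat_lit 5) (nat_lit 179) (nat_lit 5) (nat_lit 194) (nat_lit 5) (nat_lit 366) (nat_lit 357) (nat_lit 222))))) (XT.nd (nat_lit 282) (nat_lit 0) (nat_lit 0) (XT.nd (nat_lit 94) (nat_lit 1176) (nat_lit 0) (XT.lf (nat_lit 84) (nat_lit 3530351661)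 (nat_lit 0) (nat_lit 11837137074) (nat_lit 1260) (nat_lit 1348681341) (nat_lit 181) (nat_lit 5) (nat_lit 180) (nat_lit 5) (nat_lit 195) (nat_lit 5) (nat_lit 367) (nat_lit 357) (nat_lit 221)) (XT.nd (nat_lit 94) (nat_lit 1176) (nat_lit 0) (XT.lf (nat_lit 84) (nat_lit 11269972848) (nat_lit 0) (nat_lit 5219637679) (nat_lit 1260) (nat_lit 487915620) (nat_lit 181) (nat_lit 5) (nat_lit 180) (nat_lit 5) (nat_lit 195) (nat_lit 5) (nat_lit 368) (nat_lit 357) (nat_lit 220)) (XT.lf (nat_lit 0) (nat_lit 417095950) (nat_lit 1260) (nat_lit 15237590922) (nat_lit 1344) (nat_lit 1591150998) (nat_lit 166) (nat_lit 5) (nat_lit 181) (nat_lit 5) (nat_lit 182) (nat_lit 5) (nat_lit 369) (nat_lit 357) (nat_lit 219)))) (XT.nd (nat_lit 188) (nat_lit 0) (nat_lit 84) (XT.nd (nat_lit 94) (nat_lit 0) (nat_lit 0) (XT.lf (nat_lit 0) (nat_lit 1440699592) (nat_lit 1260) (nat_lit 7511679816) (nat_lit 1344) (nat_lit 8566652705)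 (nat_lit 166) (nat_lit 5) (nat_lit 181) (nat_lit 5) (nat_lit 182) (nat_lit 5) (nat_lit 370) (nat_lit 357) (nat_lit 218)) (XT.lf (nat_lit 84) (nat_lit 448300956) (nat_lit 0) (nat_lit 2042634315) (nat_lit 1344) (nat_lit 15309624286) (nat_lit 167) (nat_lit 5) (nat_lit 166) (nat_lit 5) (nat_lit 182) (nat_lit 5) (nat_lit 371) (nat_lit 357) (nat_lit 217))) (XT.nd (nat_lit 94) (nat_lit 0) (nat_lit 0) (XT.lf (nat_lit 0) (nat_lit 3689875323) (nat_lit 1260) (nat_lit 9343393769) (nat_lit 1344) (nat_lit 5053762465) (nat_lit 167) (nat_lit 5) (nat_lit 182) (nat_lit 5) (nat_lit 183) (nat_lit 5) (nat_lit 372) (nat_lit 357) (nat_lit 216)) (XT.lf (nat_lit 0) (nat_lit 4937060857) (nat_lit 1260) (nat_lit 1120963283) (nat_lit 1344) (nat_lit 12323719484) (nat_lit 167) (nat_lit 5) (nat_lit 182) (nat_lit 5) (nat_lit 183) (nat_lit 5) (nat_lit 373) (nat_lit 357) (nat_lit 215)))))) (XT.nd (nat_lit 658) (nat_lit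 1764) (nat_lit 0) (XT.nd (nat_lit 282) (nat_lit 1176) (nat_lit 0) (XT.nd (nat_lit 94) (nat_lit 1260) (nat_lit 0) (XT.lf (nat_lit 0) (nat_lit 6297480329) (nat_lit 1260) (nat_lit 11206967928) (nat_lit 84) (nat_lit 1178588056) (nat_lit 168) (nat_lit 5) (nat_lit 183) (nat_lit 5) (nat_lit 169) (nat_lit 5) (nat_lit 374) (nat_lit 357) (nat_lit 214)) (XT.nd (nat_lit 94) (nat_lit 1260) (nat_lit 0) (XT.lf (nat_lit 0) (nat_lit 7762586673) (nat_lit 1260) (nat_lit 2705609632) (nat_lit 84) (nat_lit 8523268659) (nat_lit 168) (nat_lit 5) (nat_lit 183) (nat_lit 5) (nat_lit 169) (nat_lit 5) (nat_lit 375) (nat_lit 357) (nat_lit 213)) (XT.lf (nat_lit 0) (nat_lit 6164796926) (nat_lit 1260) (nat_lit 3158790871) (nat_lit 1344) (nat_lit 9984013447) (nat_lit 153) (nat_lit 5) (nat_lit 168) (nat_lit 5) (nat_lit 169) (nat_lit 5) (nat_lit 376) (nat_lit 357) (nat_lit 212)))) (XT.nd (nat_lit 188) (nat_lit 588) (nat_lit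 0) (XT.nd (nat_lit 94) (nat_lit 588) (nat_lit 0) (XT.lf (nat_lit 0) (nat_lit 10993861014) (nat_lit 1344) (nat_lit 4324365381) (nat_lit 84) (nat_lit 4313134595) (nat_lit 153) (nat_lit 5) (nat_lit 169) (nat_lit 5) (nat_lit 154) (nat_lit 5) (nat_lit 377) (nat_lit 357) (nat_lit 211)) (XT.lf (nat_lit 0) (nat_lit 4815033707) (nat_lit 588) (nat_lit 7969821429) (nat_lit 672) (nat_lit 7177872283) (nat_lit 146) (nat_lit 5) (nat_lit 153) (nat_lit 5) (nat_lit 154) (nat_lit 5) (nat_lit 378) (nat_lit 357) (nat_lit 210))) (XT.nd (nat_lit 94) (nat_lit 588) (nat_lit 0) (XT.lf (nat_lit 0) (nat_lit 14311045044) (nat_lit 588) (nat_lit 355396765) (nat_lit 672) (nat_lit 5636499064) (nat_lit 146) (nat_lit 5) (nat_lit 153) (nat_lit 5) (nat_lit 154) (nat_lit 5) (nat_lit 379) (nat_lit 357) (nat_lit 209)) (XT.lf (nat_lit 0) (nat_lit 3427230317) (nat_lit 588) (nat_lit 13275563270) (nat_lit 672) (nat_lit 3947629182)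 (nat_lit 139) (nat_lit 5) (nat_lit 146) (nat_lit 5) (nat_lit 147) (nat_lit 5) (nat_lit 380) (nat_lit 357) (nat_lit 208))))) (XT.nd (nat_lit 282) (nat_lit 1092) (nat_lit 0) (XT.nd (nat_lit 94) (nat_lit 672) (nat_lit 0) (XT.lf (nat_lit 0) (nat_lit 13241981465) (nat_lit 588) (nat_lit 5615776741) (nat_lit 672) (nat_lit 2148856479) (nat_lit 139) (nat_lit 5) (nat_lit 146) (nat_lit 5) (nat_lit 147) (nat_lit 5) (nat_lit 381) (nat_lit 357) (nat_lit 207)) (XT.nd (nat_lit 94) (nat_lit 84) (nat_lit 0) (XT.lf (nat_lit 0) (nat_lit 1988417128) (nat_lit 588) (nat_lit 19123648329) (nat_lit 672) (nat_lit 260396993) (nat_lit 132) (nat_lit 5) (nat_lit 139) (nat_lit 5) (nat_lit 140) (nat_lit 5) (nat_lit 382) (nat_lit 357) (nat_lit 206)) (XT.lf (nat_lit 0) (nat_lit 1780402074) (nat_lit 672) (nat_lit 9632562588) (nat_lit 84) (nat_lit 10331988608) (nat_lit 131) (nat_lit 5) (nat_lit 139) (nat_lit 5) (nat_lit 132)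 (nat_lit 5) (nat_lit 383) (nat_lit 357) (nat_lit 205)))) (XT.nd (nat_lit 188) (nat_lit 504) (nat_lit 0) (XT.nd (nat_lit 94) (nat_lit 0) (nat_lit 0) (XT.lf (nat_lit 0) (nat_lit 410802743) (nat_lit 588) (nat_lit 3464293893) (nat_lit 672) (nat_lit 18253517652) (nat_lit 124) (nat_lit 5) (nat_lit 131) (nat_lit 5) (nat_lit 132) (nat_lit 5) (nat_lit 384) (nat_lit 357) (nat_lit 204)) (XT.lf (nat_lit 0) (nat_lit 6170337121) (nat_lit 672) (nat_lit 11620528272) (nat_lit 84) (nat_lit 4728798277) (nat_lit 124) (nat_lit 5) (nat_lit 132) (nat_lit 5) (nat_lit 125) (nat_lit 5) (nat_lit 385) (nat_lit 357) (nat_lit 203))) (XT.nd (nat_lit 94) (nat_lit 504) (nat_lit 0) (XT.lf (nat_lit 0) (nat_lit 8562980608) (nat_lit 672) (nat_lit 1260671579) (nat_lit 84) (nat_lit 13097945378) (nat_lit 124) (nat_lit 5) (nat_lit 132) (nat_lit 5) (nat_lit 125) (nat_lit 5) (nat_lit 386) (nat_lit 357) (nat_lit 202)) (XT.lf (nat_lit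 0) (nat_lit 9591272011) (nat_lit 504) (nat_lit 1522742006) (nat_lit 588) (nat_lit 12218986272) (nat_lit 118) (nat_lit 5) (nat_lit 124) (nat_lit 5) (nat_lit 125) (nat_lit 5) (nat_lit 387) (nat_lit 357) (nat_lit 201))))))))
noncomputable def xc172 : XT := (XT.nd (nat_lit 2538) (nat_lit 2772) (nat_lit 0) (XT.nd (nat_lit 1222) (nat_lit 2100) (nat_lit 0) (XT.nd (nat_lit 564) (nat_lit 1260) (nat_lit 0) (XT.nd (nat_lit 282) (nat_lit 1008) (nat_lit 0) (XT.nd (nat_lit 94) (nat_lit 504) (nat_lit 0) (XT.lf (nat_lit 0) (nat_lit 13816501591) (nat_lit 588) (nat_lit 3035404082) (nat_lit 84) (nat_lit 6902600592) (nat_lit 118) (nat_lit 5) (nat_lit 125) (nat_lit 5) (nat_lit 119) (nat_lit 5) (nat_lit 388) (nat_lit 357) (nat_lit 200)) (XT.nd (nat_lit 94) (nat_lit 0) (nat_lit 0) (XT.lf (nat_lit 0) (nat_lit 8129868838) (nat_lit 504) (nat_lit 8558097682) (nat_lit 588) (nat_lit 7498062425) (nat_lit 112) (nat_lit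 5) (nat_lit 118) (nat_lit 5) (nat_lit 119) (nat_lit 5) (nat_lit 389) (nat_lit 357) (nat_lit 199)) (XT.lf (nat_lit 0) (nat_lit 19671153253) (nat_lit 588) (nat_lit 4943320154) (nat_lit 84) (nat_lit 15264919) (nat_lit 112) (nat_lit 5) (nat_lit 119) (nat_lit 5) (nat_lit 113) (nat_lit 5) (nat_lit 390) (nat_lit 357) (nat_lit 198)))) (XT.nd (nat_lit 94) (nat_lit 588) (nat_lit 0) (XT.lf (nat_lit 0) (nat_lit 6540053068) (nat_lit 420) (nat_lit 16346306940) (nat_lit 504) (nat_lit 2196131360) (nat_lit 107) (nat_lit 5) (nat_lit 112) (nat_lit 5) (nat_lit 113) (nat_lit 5) (nat_lit 391) (nat_lit 357) (nat_lit 197)) (XT.nd (nat_lit 94) (nat_lit 504) (nat_lit 0) (XT.lf (nat_lit 0) (nat_lit 681899853) (nat_lit 504) (nat_lit 7090593444) (nat_lit 84) (nat_lit 17774792976) (nat_lit 106) (nat_lit 5) (nat_lit 112) (nat_lit 5) (nat_lit 107) (nat_lit 5) (nat_lit 392) (nat_lit 357) (nat_lit 196)) (XT.lf (nat_lit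 0) (nat_lit 3653933570) (nat_lit 588) (nat_lit 21264457011) (nat_lit 84) (nat_lit 1105435502) (nat_lit 100) (nat_lit 5) (nat_lit 107) (nat_lit 5) (nat_lit 101) (nat_lit 5) (nat_lit 393) (nat_lit 357) (nat_lit 195))))) (XT.nd (nat_lit 282) (nat_lit 840) (nat_lit 0) (XT.nd (nat_lit 94) (nat_lit 420) (nat_lit 0) (XT.lf (nat_lit 0) (nat_lit 6859582142) (nat_lit 588) (nat_lit 9485707912) (nat_lit 84) (nat_lit 10165045628) (nat_lit 100) (nat_lit 5) (nat_lit 107) (nat_lit 5) (nat_lit 101) (nat_lit 5) (nat_lit 394) (nat_lit 357) (nat_lit 194)) (XT.nd (nat_lit 94) (nat_lit 0) (nat_lit 0) (XT.lf (nat_lit 0) (nat_lit 2693418028) (nat_lit 420) (nat_lit 7489201516) (nat_lit 504) (nat_lit 16828191439) (nat_lit 95) (nat_lit 5) (nat_lit 100) (nat_lit 5) (nat_lit 101) (nat_lit 5) (nat_lit 395) (nat_lit 357) (nat_lit 193)) (XT.lf (nat_lit 0) (nat_lit 13713179985) (nat_lit 504) (nat_lit 12113328457) (nat_lit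 84) (nat_lit 1696563940) (nat_lit 95) (nat_lit 5) (nat_lit 101) (nat_lit 5) (nat_lit 96) (nat_lit 5) (nat_lit 396) (nat_lit 357) (nat_lit 192)))) (XT.nd (nat_lit 188) (nat_lit 420) (nat_lit 0) (XT.nd (nat_lit 94) (nat_lit 0) (nat_lit 0) (XT.lf (nat_lit 0) (nat_lit 384753907) (nat_lit 420) (nat_lit 17038289437) (nat_lit 504) (nat_lit 10625463291) (nat_lit 90) (nat_lit 5) (nat_lit 95) (nat_lit 5) (nat_lit 96) (nat_lit 5) (nat_lit 397) (nat_lit 357) (nat_lit 191)) (XT.lf (nat_lit 0) (nat_lit 13500682152) (nat_lit 420) (nat_lit 7861456427) (nat_lit 504) (nat_lit 7224033662) (nat_lit 90) (nat_lit 5) (nat_lit 95) (nat_lit 5) (nat_lit 96) (nat_lit 5) (nat_lit 398) (nat_lit 357) (nat_lit 190))) (XT.nd (nat_lit 94) (nat_lit 420) (nat_lit 0) (XT.lf (nat_lit 0) (nat_lit 25430430551) (nat_lit 504) (nat_lit 2150544997) (nat_lit 84) (nat_lit 1558667767) (nat_lit 90) (nat_lit 5) (nat_lit 96) (nat_lit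 5) (nat_lit 91) (nat_lit 5) (nat_lit 399) (nat_lit 357) (nat_lit 189)) (XT.lf (nat_lit 0) (nat_lit 97001893) (nat_lit 420) (nat_lit 18395108505) (nat_lit 84) (nat_lit 11212113233) (nat_lit 85) (nat_lit 5) (nat_lit 90) (nat_lit 5) (nat_lit 86) (nat_lit 5) (nat_lit 400) (nat_lit 357) (nat_lit 188)))))) (XT.nd (nat_lit 658) (nat_lit 1008) (nat_lit 0) (XT.nd (nat_lit 282) (nat_lit 672) (nat_lit 0) (XT.nd (nat_lit 94) (nat_lit 420) (nat_lit 0) (XT.lf (nat_lit 0) (nat_lit 3960665265) (nat_lit 420) (nat_lit 5110635389) (nat_lit 84) (nat_lit 21212810232) (nat_lit 85) (nat_lit 5) (nat_lit 90) (nat_lit 5) (nat_lit 86) (nat_lit 5) (nat_lit 401) (nat_lit 357) (nat_lit 187)) (XT.nd (nat_lit 94) (nat_lit 0) (nat_lit 0) (XT.lf (nat_lit 0) (nat_lit 8027131238) (nat_lit 504) (nat_lit 22148122182) (nat_lit 84) (nat_lit 703540081) (nat_lit 80) (nat_lit 5) (nat_lit 86) (nat_lit 5) (nat_lit 81) (nat_lit 5)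 (nat_lit 402) (nat_lit 357) (nat_lit 186)) (XT.lf (nat_lit 0) (nat_lit 12353583905) (nat_lit 504) (nat_lit 8493278102) (nat_lit 84) (nat_lit 10640320171) (nat_lit 80) (nat_lit 5) (nat_lit 86) (nat_lit 5) (nat_lit 81) (nat_lit 5) (nat_lit 403) (nat_lit 357) (nat_lit 185)))) (XT.nd (nat_lit 188) (nat_lit 336) (nat_lit 0) (XT.nd (nat_lit 94) (nat_lit 0) (nat_lit 0) (XT.lf (nat_lit 0) (nat_lit 5676975804) (nat_lit 336) (nat_lit 11183599176) (nat_lit 420) (nat_lit 15251730395) (nat_lit 76) (nat_lit 5) (nat_lit 80) (nat_lit 5) (nat_lit 81) (nat_lit 5) (nat_lit 404) (nat_lit 357) (nat_lit 184)) (XT.lf (nat_lit 0) (nat_lit 20441476617) (nat_lit 336) (nat_lit 1143302600) (nat_lit 420) (nat_lit 11168948006) (nat_lit 76) (nat_lit 5) (nat_lit 80) (nat_lit 5) (nat_lit 81) (nat_lit 5) (nat_lit 405) (nat_lit 357) (nat_lit 183))) (XT.nd (nat_lit 94) (nat_lit 0) (nat_lit 0) (XT.lf (nat_lit 0) (nat_lit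 2183792384) (nat_lit 336) (nat_lit 24372664221) (nat_lit 420) (nat_lit 6854767618) (nat_lit 72) (nat_lit 5) (nat_lit 76) (nat_lit 5) (nat_lit 77) (nat_lit 5) (nat_lit 406) (nat_lit 357) (nat_lit 182)) (XT.lf (nat_lit 0) (nat_lit 17350685640) (nat_lit 336) (nat_lit 14458533285) (nat_lit 420) (nat_lit 2275273935) (nat_lit 72) (nat_lit 5) (nat_lit 76) (nat_lit 5) (nat_lit 77) (nat_lit 5) (nat_lit 407) (nat_lit 357) (nat_lit 181))))) (XT.nd (nat_lit 282) (nat_lit 588) (nat_lit 0) (XT.nd (nat_lit 94) (nat_lit 336) (nat_lit 0) (XT.lf (nat_lit 0) (nat_lit 2390422016) (nat_lit 420) (nat_lit 1833651955) (nat_lit 84) (nat_lit 30553292113) (nat_lit 71) (nat_lit 5) (nat_lit 76) (nat_lit 5) (nat_lit 72) (nat_lit 5) (nat_lit 408) (nat_lit 357) (nat_lit 180)) (XT.nd (nat_lit 94) (nat_lit 0) (nat_lit 0) (XT.lf (nat_lit 0) (nat_lit 7341389040) (nat_lit 420) (nat_lit 21794021004) (nat_lit 84) (nat_lit 6349213068)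 (nat_lit 67) (nat_lit 5) (nat_lit 72) (nat_lit 5) (nat_lit 68) (nat_lit 5) (nat_lit 409) (nat_lit 357) (nat_lit 179)) (XT.lf (nat_lit 0) (nat_lit 12498015888) (nat_lit 420) (nat_lit 6541092110) (nat_lit 84) (nat_lit 17172280162) (nat_lit 67) (nat_lit 5) (nat_lit 72) (nat_lit 5) (nat_lit 68) (nat_lit 5) (nat_lit 410) (nat_lit 357) (nat_lit 178)))) (XT.nd (nat_lit 188) (nat_lit 252) (nat_lit 0) (XT.nd (nat_lit 94) (nat_lit 0) (nat_lit 0) (XT.lf (nat_lit 0) (nat_lit 9347244648) (nat_lit 336) (nat_lit 8548655783) (nat_lit 420) (nat_lit 19061463073) (nat_lit 63) (nat_lit 5) (nat_lit 67) (nat_lit 5) (nat_lit 68) (nat_lit 5) (nat_lit 411) (nat_lit 357) (nat_lit 177)) (XT.lf (nat_lit 0) (nat_lit 23540865999) (nat_lit 420) (nat_lit 11904386286) (nat_lit 84) (nat_lit 2277915481) (nat_lit 63) (nat_lit 5) (nat_lit 68) (nat_lit 5) (nat_lit 64) (nat_lit 5) (nat_lit 412) (nat_lit 357) (nat_lit 176)))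 (XT.nd (nat_lit 94) (nat_lit 0) (nat_lit 0) (XT.lf (nat_lit 0) (nat_lit 4266648116) (nat_lit 252) (nat_lit 25211028286) (nat_lit 336) (nat_lit 9030598750) (nat_lit 60) (nat_lit 5) (nat_lit 63) (nat_lit 5) (nat_lit 64) (nat_lit 5) (nat_lit 413) (nat_lit 357) (nat_lit 175)) (XT.lf (nat_lit 0) (nat_lit 21162398135) (nat_lit 252) (nat_lit 14547295288) (nat_lit 336) (nat_lit 3603733030) (nat_lit 60) (nat_lit 5) (nat_lit 63) (nat_lit 5) (nat_lit 64) (nat_lit 5) (nat_lit 414) (nat_lit 357) (nat_lit 174))))))) (XT.nd (nat_lit 1316) (nat_lit 1092) (nat_lit 0) (XT.nd (nat_lit 658) (nat_lit 756) (nat_lit 0) (XT.nd (nat_lit 282) (nat_lit 504) (nat_lit 0) (XT.nd (nat_lit 94) (nat_lit 336) (nat_lit 0) (XT.lf (nat_lit 0) (nat_lit 1944134269) (nat_lit 336) (nat_lit 1601180213) (nat_lit 84) (nat_lit 36596940203) (nat_lit 59) (nat_lit 5) (nat_lit 63) (nat_lit 5) (nat_lit 60) (nat_lit 5) (nat_lit 415) (nat_lit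 357) (nat_lit 173)) (XT.nd (nat_lit 94) (nat_lit 0) (nat_lit 0) (XT.lf (nat_lit 0) (nat_lit 7810762137) (nat_lit 420) (nat_lit 25355299601) (nat_lit 84) (nat_lit 7822076372) (nat_lit 55) (nat_lit 5) (nat_lit 60) (nat_lit 5) (nat_lit 56) (nat_lit 5) (nat_lit 416) (nat_lit 357) (nat_lit 172)) (XT.lf (nat_lit 0) (nat_lit 13901890545) (nat_lit 420) (nat_lit 8481762500) (nat_lit 84) (nat_lit 19474293285) (nat_lit 55) (nat_lit 5) (nat_lit 60) (nat_lit 5) (nat_lit 56) (nat_lit 5) (nat_lit 417) (nat_lit 357) (nat_lit 171)))) (XT.nd (nat_lit 188) (nat_lit 252) (nat_lit 0) (XT.nd (nat_lit 94) (nat_lit 0) (nat_lit 0) (XT.lf (nat_lit 0) (nat_lit 9070822279) (nat_lit 252) (nat_lit 11189280848) (nat_lit 336) (nat_lit 22491218402) (nat_lit 52) (nat_lit 5) (nat_lit 55) (nat_lit 5) (nat_lit 56) (nat_lit 5) (nat_lit 418) (nat_lit 357) (nat_lit 170)) (XT.lf (nat_lit 0) (nat_lit 26896022967) (nat_lit 336)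 (nat_lit 16353397769) (nat_lit 84) (nat_lit 419471574) (nat_lit 52) (nat_lit 5) (nat_lit 56) (nat_lit 5) (nat_lit 53) (nat_lit 5) (nat_lit 419) (nat_lit 357) (nat_lit 169))) (XT.nd (nat_lit 94) (nat_lit 0) (nat_lit 0) (XT.lf (nat_lit 0) (nat_lit 1406095504) (nat_lit 252) (nat_lit 32446494592) (nat_lit 336) (nat_lit 10757756086) (nat_lit 49) (nat_lit 5) (nat_lit 52) (nat_lit 5) (nat_lit 53) (nat_lit 5) (nat_lit 420) (nat_lit 357) (nat_lit 168)) (XT.lf (nat_lit 0) (nat_lit 20029567863) (nat_lit 252) (nat_lit 21150732894) (nat_lit 336) (nat_lit 4394872488) (nat_lit 49) (nat_lit 5) (nat_lit 52) (nat_lit 5) (nat_lit 53) (nat_lit 5) (nat_lit 421) (nat_lit 357) (nat_lit 167))))) (XT.nd (nat_lit 282) (nat_lit 420) (nat_lit 0) (XT.nd (nat_lit 94) (nat_lit 252) (nat_lit 0) (XT.lf (nat_lit 0) (nat_lit 2114128692) (nat_lit 336) (nat_lit 7381925565) (nat_lit 84) (nat_lit 37072350313) (nat_lit 48) (nat_lit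 5) (nat_lit 52) (nat_lit 5) (nat_lit 49) (nat_lit 5) (nat_lit 422) (nat_lit 357) (nat_lit 166)) (XT.nd (nat_lit 94) (nat_lit 0) (nat_lit 0) (XT.lf (nat_lit 0) (nat_lit 8863708753) (nat_lit 336) (nat_lit 36108739236) (nat_lit 84) (nat_lit 2613672913) (nat_lit 45) (nat_lit 5) (nat_lit 49) (nat_lit 5) (nat_lit 46) (nat_lit 5) (nat_lit 423) (nat_lit 357) (nat_lit 165)) (XT.lf (nat_lit 0) (nat_lit 15982538997) (nat_lit 336) (nat_lit 17676985159) (nat_lit 84) (nat_lit 14969844323) (nat_lit 45) (nat_lit 5) (nat_lit 49) (nat_lit 5) (nat_lit 46) (nat_lit 5) (nat_lit 424) (nat_lit 357) (nat_lit 164)))) (XT.nd (nat_lit 188) (nat_lit 168) (nat_lit 0) (XT.nd (nat_lit 94) (nat_lit 0) (nat_lit 0) (XT.lf (nat_lit 0) (nat_lit 1329901160) (nat_lit 252) (nat_lit 21995352170) (nat_lit 336) (nat_lit 26378353140) (nat_lit 42) (nat_lit 5) (nat_lit 45) (nat_lit 5) (nat_lit 46) (nat_lit 5) (nat_lit 425) (nat_lit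 357) (nat_lit 163)) (XT.lf (nat_lit 0) (nat_lit 21265620369) (nat_lit 252) (nat_lit 9798702858) (nat_lit 336) (nat_lit 19740468636) (nat_lit 42) (nat_lit 5) (nat_lit 45) (nat_lit 5) (nat_lit 46) (nat_lit 5) (nat_lit 426) (nat_lit 357) (nat_lit 162))) (XT.nd (nat_lit 94) (nat_lit 168) (nat_lit 0) (XT.lf (nat_lit 0) (nat_lit 39059762798) (nat_lit 336) (nat_lit 10169856202) (nat_lit 84) (nat_lit 2708670306) (nat_lit 42) (nat_lit 5) (nat_lit 46) (nat_lit 5) (nat_lit 43) (nat_lit 5) (nat_lit 427) (nat_lit 357) (nat_lit 161)) (XT.lf (nat_lit 0) (nat_lit 9872592143) (nat_lit 168) (nat_lit 37612090501) (nat_lit 252) (nat_lit 5615422859) (nat_lit 40) (nat_lit 5) (nat_lit 42) (nat_lit 5) (nat_lit 43) (nat_lit 5) (nat_lit 428) (nat_lit 357) (nat_lit 160)))))) (XT.nd (nat_lit 658) (nat_lit 588) (nat_lit 0) (XT.nd (nat_lit 282) (nat_lit 168) (nat_lit 0) (XT.nd (nat_lit 94) (nat_lit 252) (nat_lit 0)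 (XT.lf (nat_lit 0) (nat_lit 1930589326) (nat_lit 252) (nat_lit 23591451252) (nat_lit 84) (nat_lit 28771157240) (nat_lit 39) (nat_lit 5) (nat_lit 42) (nat_lit 5) (nat_lit 40) (nat_lit 5) (nat_lit 429) (nat_lit 357) (nat_lit 159)) (XT.nd (nat_lit 94) (nat_lit 252) (nat_lit 0) (XT.lf (nat_lit 0) (nat_lit 9587891321) (nat_lit 252) (nat_lit 3425393032) (nat_lit 84) (nat_lit 42507199534) (nat_lit 39) (nat_lit 5) (nat_lit 42) (nat_lit 5) (nat_lit 40) (nat_lit 5) (nat_lit 430) (nat_lit 357) (nat_lit 158)) (XT.lf (nat_lit 0) (nat_lit 17643202300) (nat_lit 336) (nat_lit 39092577824) (nat_lit 84) (nat_lit 43761797) (nat_lit 36) (nat_lit 5) (nat_lit 40) (nat_lit 5) (nat_lit 37) (nat_lit 5) (nat_lit 431) (nat_lit 357) (nat_lit 157)))) (XT.nd (nat_lit 188) (nat_lit 0) (nat_lit 0) (XT.nd (nat_lit 94) (nat_lit 168) (nat_lit 0) (XT.lf (nat_lit 0) (nat_lit 26101806928) (nat_lit 336) (nat_lit 18705018658)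 (nat_lit 84) (nat_lit 13264699103) (nat_lit 36) (nat_lit 5) (nat_lit 40) (nat_lit 5) (nat_lit 37) (nat_lit 5) (nat_lit 432) (nat_lit 357) (nat_lit 156)) (XT.lf (nat_lit 0) (nat_lit 2336452188) (nat_lit 168) (nat_lit 32498097005) (nat_lit 252) (nat_lit 24567108326) (nat_lit 34) (nat_lit 5) (nat_lit 36) (nat_lit 5) (nat_lit 37) (nat_lit 5) (nat_lit 433) (nat_lit 357) (nat_lit 155))) (XT.nd (nat_lit 94) (nat_lit 0) (nat_lit 0) (XT.lf (nat_lit 0) (nat_lit 24389326443) (nat_lit 168) (nat_lit 19626780483) (nat_lit 252) (nat_lit 16749984318) (nat_lit 34) (nat_lit 5) (nat_lit 36) (nat_lit 5) (nat_lit 37) (nat_lit 5) (nat_lit 434) (nat_lit 357) (nat_lit 154)) (XT.lf (nat_lit 0) (nat_lit 47100607059) (nat_lit 168) (nat_lit 6370513251) (nat_lit 252) (nat_lit 8700399253) (nat_lit 34) (nat_lit 5) (nat_lit 36) (nat_lit 5) (nat_lit 37) (nat_lit 5) (nat_lit 435) (nat_lit 357) (nat_lit 153))))) (XT.nd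 (nat_lit 282) (nat_lit 336) (nat_lit 0) (XT.nd (nat_lit 94) (nat_lit 84) (nat_lit 0) (XT.lf (nat_lit 0) (nat_lit 6936319085) (nat_lit 168) (nat_lit 56408209871) (nat_lit 252) (nat_lit 270541226) (nat_lit 32) (nat_lit 5) (nat_lit 34) (nat_lit 5) (nat_lit 35) (nat_lit 5) (nat_lit 436) (nat_lit 357) (nat_lit 152)) (XT.nd (nat_lit 94) (nat_lit 0) (nat_lit 0) (XT.lf (nat_lit 0) (nat_lit 8462889727) (nat_lit 252) (nat_lit 35333245153) (nat_lit 84) (nat_lit 21296923341) (nat_lit 31) (nat_lit 5) (nat_lit 34) (nat_lit 5) (nat_lit 32) (nat_lit 5) (nat_lit 437) (nat_lit 357) (nat_lit 151)) (XT.lf (nat_lit 0) (nat_lit 17451004350) (nat_lit 252) (nat_lit 13353106504) (nat_lit 84) (nat_lit 35811252782) (nat_lit 31) (nat_lit 5) (nat_lit 34) (nat_lit 5) (nat_lit 32) (nat_lit 5) (nat_lit 438) (nat_lit 357) (nat_lit 150)))) (XT.nd (nat_lit 188) (nat_lit 168) (nat_lit 0) (XT.nd (nat_lit 94) (nat_lit 0) (nat_lit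 0) (XT.lf (nat_lit 0) (nat_lit 9468230684) (nat_lit 168) (nat_lit 17329719309) (nat_lit 252) (nat_lit 41382714191) (nat_lit 29) (nat_lit 5) (nat_lit 31) (nat_lit 5) (nat_lit 32) (nat_lit 5) (nat_lit 439) (nat_lit 357) (nat_lit 149)) (XT.lf (nat_lit 0) (nat_lit 33244997746) (nat_lit 168) (nat_lit 3313344595) (nat_lit 252) (nat_lit 33230591804) (nat_lit 29) (nat_lit 5) (nat_lit 31) (nat_lit 5) (nat_lit 32) (nat_lit 5) (nat_lit 440) (nat_lit 357) (nat_lit 148))) (XT.nd (nat_lit 94) (nat_lit 168) (nat_lit 0) (XT.lf (nat_lit 0) (nat_lit 46716712595) (nat_lit 252) (nat_lit 13820204208) (nat_lit 84) (nat_lit 10905381925) (nat_lit 29) (nat_lit 5) (nat_lit 32) (nat_lit 5) (nat_lit 30) (nat_lit 5) (nat_lit 441) (nat_lit 357) (nat_lit 147)) (XT.lf (nat_lit 0) (nat_lit 9739681378) (nat_lit 168) (nat_lit 47564873048) (nat_lit 252) (nat_lit 15836969668) (nat_lit 27) (nat_lit 5) (nat_lit 29) (nat_lit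 5) (nat_lit 30) (nat_lit 5) (nat_lit 442) (nat_lit 357) (nat_lit 146))))))))
noncomputable def xc173 : XT := (XT.nd (nat_lit 52922) (nat_lit 0) (nat_lit 5460) (XT.nd (nat_lit 51606) (nat_lit 0) (nat_lit 12264) (XT.nd (nat_lit 564) (nat_lit 168) (nat_lit 0) (XT.nd (nat_lit 282) (nat_lit 168) (nat_lit 0) (XT.nd (nat_lit 94) (nat_lit 252) (nat_lit 0) (XT.lf (nat_lit 0) (nat_lit 34286882268) (nat_lit 168) (nat_lit 34061020537) (nat_lit 252) (nat_lit 6539688695) (nat_lit 27) (nat_lit 5) (nat_lit 29) (nat_lit 5) (nat_lit 30) (nat_lit 5) (nat_lit 443) (nat_lit 357) (nat_lit 145)) (XT.nd (nat_lit 94) (nat_lit 168) (nat_lit 0) (XT.lf (nat_lit 0) (nat_lit 2975603318) (nat_lit 252) (nat_lit 17147465675) (nat_lit 84) (nat_lit 56562147233) (nat_lit 26) (nat_lit 5) (nat_lit 29) (nat_lit 5) (nat_lit 27) (nat_lit 5) (nat_lit 444) (nat_lit 357) (nat_lit 144)) (XT.lf (nat_lit 0) (nat_lit 7080129148) (nat_lit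 168) (nat_lit 5631236260) (nat_lit 252) (nat_lit 65821469524) (nat_lit 24) (nat_lit 5) (nat_lit 26) (nat_lit 5) (nat_lit 27) (nat_lit 5) (nat_lit 445) (nat_lit 357) (nat_lit 143)))) (XT.nd (nat_lit 94) (nat_lit 168) (nat_lit 0) (XT.lf (nat_lit 0) (nat_lit 23001828667) (nat_lit 252) (nat_lit 48138364674) (nat_lit 84) (nat_lit 9287811269) (nat_lit 24) (nat_lit 5) (nat_lit 27) (nat_lit 5) (nat_lit 25) (nat_lit 5) (nat_lit 446) (nat_lit 357) (nat_lit 142)) (XT.nd (nat_lit 94) (nat_lit 168) (nat_lit 0) (XT.lf (nat_lit 0) (nat_lit 33655212585) (nat_lit 252) (nat_lit 24182938614) (nat_lit 84) (nat_lit 24540253201) (nat_lit 24) (nat_lit 5) (nat_lit 27) (nat_lit 5) (nat_lit 25) (nat_lit 5) (nat_lit 447) (nat_lit 357) (nat_lit 141)) (XT.lf (nat_lit 0) (nat_lit 498360009) (nat_lit 168) (nat_lit 44133125589) (nat_lit 252) (nat_lit 39755733146) (nat_lit 22) (nat_lit 5) (nat_lit 24) (nat_lit 5) (nat_lit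 25) (nat_lit 5) (nat_lit 448) (nat_lit 357) (nat_lit 140))))) (XT.nd (nat_lit 282) (nat_lit 168) (nat_lit 0) (XT.nd (nat_lit 94) (nat_lit 0) (nat_lit 0) (XT.lf (nat_lit 0) (nat_lit 26413333763) (nat_lit 168) (nat_lit 29766430173) (nat_lit 252) (nat_lit 30269253220) (nat_lit 22) (nat_lit 5) (nat_lit 24) (nat_lit 5) (nat_lit 25) (nat_lit 5) (nat_lit 449) (nat_lit 357) (nat_lit 139)) (XT.nd (nat_lit 94) (nat_lit 0) (nat_lit 0) (XT.lf (nat_lit 0) (nat_lit 53103338903) (nat_lit 168) (nat_lit 14969711792) (nat_lit 252) (nat_lit 20499663143) (nat_lit 22) (nat_lit 5) (nat_lit 24) (nat_lit 5) (nat_lit 25) (nat_lit 5) (nat_lit 450) (nat_lit 357) (nat_lit 138)) (XT.lf (nat_lit 0) (nat_lit 80324333077) (nat_lit 252) (nat_lit 10171062663) (nat_lit 84) (nat_lit 264690858) (nat_lit 22) (nat_lit 5) (nat_lit 25) (nat_lit 5) (nat_lit 23) (nat_lit 4) (nat_lit 451) (nat_lit 357) (nat_lit 137)))) (XT.nd (nat_lit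 50572) (nat_lit 0) (nat_lit 13104) (XT.nd (nat_lit 50478) (nat_lit 0) (nat_lit 13104) (XT.lf (nat_lit 0) (nat_lit 235538393) (nat_lit 168) (nat_lit 76957514400) (nat_lit 84) (nat_lit 15810925922) (nat_lit 20) (nat_lit 5) (nat_lit 22) (nat_lit 5) (nat_lit 21) (nat_lit 5) (nat_lit 452) (nat_lit 357) (nat_lit 136)) (XT.lf (nat_lit 0) (nat_lit 4490874045) (nat_lit 1260) (nat_lit 1462262841) (nat_lit 1260) (nat_lit 1462262841) (nat_lit 176) (nat_lit 3) (nat_lit 191) (nat_lit 3) (nat_lit 191) (nat_lit 5) (nat_lit 358) (nat_lit 358) (nat_lit 229))) (XT.nd (nat_lit 94) (nat_lit 0) (nat_lit 84) (XT.lf (nat_lit 84) (nat_lit 3562222936) (nat_lit 0) (nat_lit 5868625424) (nat_lit 1260) (nat_lit 5612446585) (nat_lit 177) (nat_lit 5) (nat_lit 176) (nat_lit 3) (nat_lit 191) (nat_lit 5) (nat_lit 359) (nat_lit 358) (nat_lit 228)) (XT.lf (nat_lit 0) (nat_lit 9915674148) (nat_lit 1176) (nat_lit 4967567625)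 (nat_lit 1260) (nat_lit 378276840) (nat_lit 177) (nat_lit 5) (nat_lit 191) (nat_lit 5) (nat_lit 192) (nat_lit 5) (nat_lit 360) (nat_lit 358) (nat_lit 227)))))) (XT.nd (nat_lit 658) (nat_lit 924) (nat_lit 0) (XT.nd (nat_lit 282) (nat_lit 0) (nat_lit 84) (XT.nd (nat_lit 94) (nat_lit 0) (nat_lit 0) (XT.lf (nat_lit 84) (nat_lit 1710642796) (nat_lit 0) (nat_lit 8768331695) (nat_lit 1260) (nat_lit 5005416891) (nat_lit 178) (nat_lit 5) (nat_lit 177) (nat_lit 5) (nat_lit 192) (nat_lit 5) (nat_lit 361) (nat_lit 358) (nat_lit 226)) (XT.nd (nat_lit 94) (nat_lit 0) (nat_lit 84) (XT.lf (nat_lit 84) (nat_lit 8685113679) (nat_lit 0) (nat_lit 2413856119) (nat_lit 1260) (nat_lit 4613806347) (nat_lit 178) (nat_lit 5) (nat_lit 177) (nat_lit 5) (nat_lit 192) (nat_lit 5) (nat_lit 362) (nat_lit 358) (nat_lit 225)) (XT.lf (nat_lit 0) (nat_lit 11767253845) (nat_lit 1176) (nat_lit 125012303) (nat_lit 1260) (nat_lit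 4054874755) (nat_lit 178) (nat_lit 5) (nat_lit 192) (nat_lit 5) (nat_lit 193) (nat_lit 5) (nat_lit 363) (nat_lit 358) (nat_lit 224)))) (XT.nd (nat_lit 188) (nat_lit 0) (nat_lit 84) (XT.nd (nat_lit 94) (nat_lit 0) (nat_lit 84) (XT.lf (nat_lit 84) (nat_lit 7093305186) (nat_lit 0) (nat_lit 5444634661) (nat_lit 1260) (nat_lit 3648144715) (nat_lit 179) (nat_lit 5) (nat_lit 178) (nat_lit 5) (nat_lit 193) (nat_lit 5) (nat_lit 364) (nat_lit 358) (nat_lit 223)) (XT.lf (nat_lit 0) (nat_lit 13335052702) (nat_lit 1176) (nat_lit 1919145607) (nat_lit 1260) (nat_lit 1177917054) (nat_lit 179) (nat_lit 5) (nat_lit 193) (nat_lit 5) (nat_lit 194) (nat_lit 5) (nat_lit 365) (nat_lit 358) (nat_lit 222))) (XT.nd (nat_lit 94) (nat_lit 0) (nat_lit 0) (XT.lf (nat_lit 84) (nat_lit 5517427104) (nat_lit 0) (nat_lit 8736402423) (nat_lit 1260) (nat_lit 2428782539) (nat_lit 180) (nat_lit 5) (nat_lit 179) (nat_lit 5)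 (nat_lit 194) (nat_lit 5) (nat_lit 366) (nat_lit 358) (nat_lit 221)) (XT.lf (nat_lit 84) (nat_lit 13210469022) (nat_lit 0) (nat_lit 2000097067) (nat_lit 1260) (nat_lit 1729762672) (nat_lit 180) (nat_lit 5) (nat_lit 179) (nat_lit 5) (nat_lit 194) (nat_lit 5) (nat_lit 367) (nat_lit 358) (nat_lit 220))))) (XT.nd (nat_lit 282) (nat_lit 0) (nat_lit 0) (XT.nd (nat_lit 94) (nat_lit 1176) (nat_lit 0) (XT.lf (nat_lit 84) (nat_lit 3952073482) (nat_lit 0) (nat_lit 12320697557) (nat_lit 1260) (nat_lit 930719423) (nat_lit 181) (nat_lit 5) (nat_lit 180) (nat_lit 5) (nat_lit 195) (nat_lit 5) (nat_lit 368) (nat_lit 358) (nat_lit 219)) (XT.nd (nat_lit 94) (nat_lit 1176) (nat_lit 0) (XT.lf (nat_lit 84) (nat_lit 11914684918) (nat_lit 0) (nat_lit 5500932023) (nat_lit 1260) (nat_lit 57482837) (nat_lit 181) (nat_lit 5) (nat_lit 180) (nat_lit 5) (nat_lit 195) (nat_lit 5) (nat_lit 369) (nat_lit 358) (nat_lit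 218)) (XT.lf (nat_lit 0) (nat_lit 855199620) (nat_lit 1260) (nat_lit 15367071402) (nat_lit 1344) (nat_lit 1527408297) (nat_lit 166) (nat_lit 5) (nat_lit 181) (nat_lit 5) (nat_lit 182) (nat_lit 5) (nat_lit 370) (nat_lit 358) (nat_lit 217)))) (XT.nd (nat_lit 188) (nat_lit 0) (nat_lit 84) (XT.nd (nat_lit 94) (nat_lit 0) (nat_lit 0) (XT.lf (nat_lit 0) (nat_lit 1897115523) (nat_lit 1260) (nat_lit 7418926086) (nat_lit 1344) (nat_lit 8715421965) (nat_lit 166) (nat_lit 5) (nat_lit 181) (nat_lit 5) (nat_lit 182) (nat_lit 5) (nat_lit 371) (nat_lit 358) (nat_lit 216)) (XT.lf (nat_lit 84) (nat_lit 776735440) (nat_lit 0) (nat_lit 2193115861) (nat_lit 1344) (nat_lit 15351877409) (nat_lit 167) (nat_lit 5) (nat_lit 166) (nat_lit 5) (nat_lit 182) (nat_lit 5) (nat_lit 372) (nat_lit 358) (nat_lit 215))) (XT.nd (nat_lit 94) (nat_lit 0) (nat_lit 0) (XT.lf (nat_lit 0) (nat_lit 4192154595) (nat_lit 1260) (nat_lit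 9304578536) (nat_lit 1344) (nat_lit 5120460918) (nat_lit 167) (nat_lit 5) (nat_lit 182) (nat_lit 5) (nat_lit 183) (nat_lit 5) (nat_lit 373) (nat_lit 358) (nat_lit 214)) (XT.lf (nat_lit 0) (nat_lit 5465350365) (nat_lit 1260) (nat_lit 844769807) (nat_lit 1344) (nat_lit 12610989882) (nat_lit 167) (nat_lit 5) (nat_lit 182) (nat_lit 5) (nat_lit 183) (nat_lit 5) (nat_lit 374) (nat_lit 358) (nat_lit 213))))))) (XT.nd (nat_lit 1316) (nat_lit 2772) (nat_lit 0) (XT.nd (nat_lit 658) (nat_lit 1764) (nat_lit 0) (XT.nd (nat_lit 282) (nat_lit 1176) (nat_lit 0) (XT.nd (nat_lit 94) (nat_lit 1260) (nat_lit 0) (XT.lf (nat_lit 0) (nat_lit 6857830887) (nat_lit 1260) (nat_lit 11223942331) (nat_lit 84) (nat_lit 1149950675) (nat_lit 168) (nat_lit 5) (nat_lit 183) (nat_lit 5) (nat_lit 169) (nat_lit 5) (nat_lit 375) (nat_lit 358) (nat_lit 212)) (XT.nd (nat_lit 94) (nat_lit 1260) (nat_lit 0) (XT.lf (nat_lit 0) (nat_lit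 8356072184) (nat_lit 1260) (nat_lit 2476841381) (nat_lit 84) (nat_lit 8716835629) (nat_lit 168) (nat_lit 5) (nat_lit 183) (nat_lit 5) (nat_lit 169) (nat_lit 5) (nat_lit 376) (nat_lit 358) (nat_lit 211)) (XT.lf (nat_lit 0) (nat_lit 6656638780) (nat_lit 1260) (nat_lit 3299711510) (nat_lit 1344) (nat_lit 9919264549) (nat_lit 153) (nat_lit 5) (nat_lit 168) (nat_lit 5) (nat_lit 169) (nat_lit 5) (nat_lit 377) (nat_lit 358) (nat_lit 210)))) (XT.nd (nat_lit 188) (nat_lit 588) (nat_lit 0) (XT.nd (nat_lit 94) (nat_lit 588) (nat_lit 0) (XT.lf (nat_lit 0) (nat_lit 11666017787) (nat_lit 1344) (nat_lit 4144818597) (nat_lit 84) (nat_lit 4398590550) (nat_lit 153) (nat_lit 5) (nat_lit 169) (nat_lit 5) (nat_lit 154) (nat_lit 5) (nat_lit 378) (nat_lit 358) (nat_lit 209)) (XT.lf (nat_lit 0) (nat_lit 5265730329) (nat_lit 588) (nat_lit 8237984129) (nat_lit 672) (nat_lit 7047248328) (nat_lit 146) (nat_lit 5)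 (nat_lit 153) (nat_lit 5) (nat_lit 154) (nat_lit 5) (nat_lit 379) (nat_lit 358) (nat_lit 208))) (XT.nd (nat_lit 94) (nat_lit 588) (nat_lit 0) (XT.lf (nat_lit 0) (nat_lit 15037702230) (nat_lit 588) (nat_lit 394280081) (nat_lit 672) (nat_lit 5469710421) (nat_lit 146) (nat_lit 5) (nat_lit 153) (nat_lit 5) (nat_lit 154) (nat_lit 5) (nat_lit 380) (nat_lit 358) (nat_lit 207)) (XT.lf (nat_lit 0) (nat_lit 3834961753) (nat_lit 588) (nat_lit 13687648577) (nat_lit 672) (nat_lit 3737209787) (nat_lit 139) (nat_lit 5) (nat_lit 146) (nat_lit 5) (nat_lit 147) (nat_lit 5) (nat_lit 381) (nat_lit 358) (nat_lit 206))))) (XT.nd (nat_lit 282) (nat_lit 1092) (nat_lit 0) (XT.nd (nat_lit 94) (nat_lit 672) (nat_lit 0) (XT.lf (nat_lit 0) (nat_lit 13935274430) (nat_lit 588) (nat_lit 5797665974) (nat_lit 672) (nat_lit 1894052007) (nat_lit 139) (nat_lit 5) (nat_lit 146) (nat_lit 5) (nat_lit 147) (nat_lit 5) (nat_lit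 382) (nat_lit 358) (nat_lit 205)) (XT.nd (nat_lit 94) (nat_lit 0) (nat_lit 0) (XT.lf (nat_lit 0) (nat_lit 43762053) (nat_lit 672) (nat_lit 19653394069) (nat_lit 84) (nat_lit 2306849039) (nat_lit 131) (nat_lit 5) (nat_lit 139) (nat_lit 5) (nat_lit 132) (nat_lit 5) (nat_lit 383) (nat_lit 358) (nat_lit 204)) (XT.lf (nat_lit 0) (nat_lit 2131617278) (nat_lit 672) (nat_lit 9620962353) (nat_lit 84) (nat_lit 10635296501) (nat_lit 131) (nat_lit 5) (nat_lit 139) (nat_lit 5) (nat_lit 132) (nat_lit 5) (nat_lit 384) (nat_lit 358) (nat_lit 203)))) (XT.nd (nat_lit 188) (nat_lit 504) (nat_lit 0) (XT.nd (nat_lit 94) (nat_lit 0) (nat_lit 0) (XT.lf (nat_lit 0) (nat_lit 720757103) (nat_lit 588) (nat_lit 3562582699) (nat_lit 672) (nat_lit 18499895883) (nat_lit 124) (nat_lit 5) (nat_lit 131) (nat_lit 5) (nat_lit 132) (nat_lit 5) (nat_lit 385) (nat_lit 358) (nat_lit 202)) (XT.lf (nat_lit 0) (nat_lit 6638985568)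 (nat_lit 672) (nat_lit 11671267331) (nat_lit 84) (nat_lit 4876031112) (nat_lit 124) (nat_lit 5) (nat_lit 132) (nat_lit 5) (nat_lit 125) (nat_lit 5) (nat_lit 386) (nat_lit 358) (nat_lit 201))) (XT.nd (nat_lit 94) (nat_lit 504) (nat_lit 0) (XT.lf (nat_lit 0) (nat_lit 9095149961) (nat_lit 672) (nat_lit 1009290960) (nat_lit 84) (nat_lit 13496096251) (nat_lit 124) (nat_lit 5) (nat_lit 132) (nat_lit 5) (nat_lit 125) (nat_lit 5) (nat_lit 387) (nat_lit 358) (nat_lit 200)) (XT.lf (nat_lit 0) (nat_lit 10165375636) (nat_lit 504) (nat_lit 1552073594) (nat_lit 588) (nat_lit 12307003806) (nat_lit 118) (nat_lit 5) (nat_lit 124) (nat_lit 5) (nat_lit 125) (nat_lit 5) (nat_lit 388) (nat_lit 358) (nat_lit 199)))))) (XT.nd (nat_lit 658) (nat_lit 1260) (nat_lit 0) (XT.nd (nat_lit 282) (nat_lit 1008) (nat_lit 0) (XT.nd (nat_lit 94) (nat_lit 504) (nat_lit 0) (XT.lf (nat_lit 0) (nat_lit 14493299518) (nat_lit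 588) (nat_lit 2840305473) (nat_lit 84) (nat_lit 7125243281) (nat_lit 118) (nat_lit 5) (nat_lit 125) (nat_lit 5) (nat_lit 119) (nat_lit 5) (nat_lit 389) (nat_lit 358) (nat_lit 198)) (XT.nd (nat_lit 94) (nat_lit 0) (nat_lit 0) (XT.lf (nat_lit 0) (nat_lit 8657120138) (nat_lit 504) (nat_lit 8788872151) (nat_lit 588) (nat_lit 7457484179) (nat_lit 112) (nat_lit 5) (nat_lit 118) (nat_lit 5) (nat_lit 119) (nat_lit 5) (nat_lit 390) (nat_lit 358) (nat_lit 197)) (XT.lf (nat_lit 0) (nat_lit 20511420275) (nat_lit 588) (nat_lit 4808863491) (nat_lit 84) (nat_lit 40442986) (nat_lit 112) (nat_lit 5) (nat_lit 119) (nat_lit 5) (nat_lit 113) (nat_lit 5) (nat_lit 391) (nat_lit 358) (nat_lit 196)))) (XT.nd (nat_lit 188) (nat_lit 504) (nat_lit 0) (XT.nd (nat_lit 94) (nat_lit 84) (nat_lit 0) (XT.lf (nat_lit 0) (nat_lit 7016238807) (nat_lit 420) (nat_lit 16802250395) (nat_lit 504) (nat_lit 2008722648) (nat_lit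 107) (nat_lit 5) (nat_lit 112) (nat_lit 5) (nat_lit 113) (nat_lit 5) (nat_lit 392) (nat_lit 358) (nat_lit 195)) (XT.lf (nat_lit 0) (nat_lit 943473354) (nat_lit 504) (nat_lit 7026317459) (nat_lit 84) (nat_lit 18336314725) (nat_lit 106) (nat_lit 5) (nat_lit 112) (nat_lit 5) (nat_lit 107) (nat_lit 5) (nat_lit 393) (nat_lit 358) (nat_lit 194))) (XT.nd (nat_lit 94) (nat_lit 0) (nat_lit 0) (XT.lf (nat_lit 0) (nat_lit 4000642735) (nat_lit 588) (nat_lit 21621016412) (nat_lit 84) (nat_lit 1175413811) (nat_lit 100) (nat_lit 5) (nat_lit 107) (nat_lit 5) (nat_lit 101) (nat_lit 5) (nat_lit 394) (nat_lit 358) (nat_lit 193)) (XT.lf (nat_lit 0) (nat_lit 7295555196) (nat_lit 588) (nat_lit 9497100208) (nat_lit 84) (nat_lit 10505739952) (nat_lit 100) (nat_lit 5) (nat_lit 107) (nat_lit 5) (nat_lit 101) (nat_lit 5) (nat_lit 395) (nat_lit 358) (nat_lit 192))))) (XT.nd (nat_lit 282) (nat_lit 420) (nat_lit 0)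 (XT.nd (nat_lit 94) (nat_lit 420) (nat_lit 0) (XT.lf (nat_lit 0) (nat_lit 3044721285) (nat_lit 420) (nat_lit 7669458219) (nat_lit 504) (nat_lit 17099838583) (nat_lit 95) (nat_lit 5) (nat_lit 100) (nat_lit 5) (nat_lit 101) (nat_lit 5) (nat_lit 396) (nat_lit 358) (nat_lit 191)) (XT.nd (nat_lit 94) (nat_lit 420) (nat_lit 0) (XT.lf (nat_lit 0) (nat_lit 14344486414) (nat_lit 504) (nat_lit 12207610878) (nat_lit 84) (nat_lit 1789744898) (nat_lit 95) (nat_lit 5) (nat_lit 101) (nat_lit 5) (nat_lit 96) (nat_lit 5) (nat_lit 397) (nat_lit 358) (nat_lit 190)) (XT.lf (nat_lit 0) (nat_lit 662775551) (nat_lit 420) (nat_lit 17499026506) (nat_lit 504) (nat_lit 10721362188) (nat_lit 90) (nat_lit 5) (nat_lit 95) (nat_lit 5) (nat_lit 96) (nat_lit 5) (nat_lit 398) (nat_lit 358) (nat_lit 189)))) (XT.nd (nat_lit 188) (nat_lit 420) (nat_lit 0) (XT.nd (nat_lit 94) (nat_lit 0) (nat_lit 0) (XT.lf (nat_lit 0) (nat_lit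 14164420118) (nat_lit 420) (nat_lit 8048356806) (nat_lit 504) (nat_lit 7224380884) (nat_lit 90) (nat_lit 5) (nat_lit 95) (nat_lit 5) (nat_lit 96) (nat_lit 5) (nat_lit 399) (nat_lit 358) (nat_lit 188)) (XT.lf (nat_lit 0) (nat_lit 26397464497) (nat_lit 504) (nat_lit 1957928698) (nat_lit 84) (nat_lit 1652018338) (nat_lit 90) (nat_lit 5) (nat_lit 96) (nat_lit 5) (nat_lit 91) (nat_lit 5) (nat_lit 400) (nat_lit 358) (nat_lit 187))) (XT.nd (nat_lit 94) (nat_lit 0) (nat_lit 0) (XT.lf (nat_lit 0) (nat_lit 302804712) (nat_lit 420) (nat_lit 18688031678) (nat_lit 84) (nat_lit 11598146791) (nat_lit 85) (nat_lit 5) (nat_lit 90) (nat_lit 5) (nat_lit 86) (nat_lit 5) (nat_lit 401) (nat_lit 358) (nat_lit 186)) (XT.lf (nat_lit 0) (nat_lit 4276468486) (nat_lit 420) (nat_lit 5012566022) (nat_lit 84) (nat_lit 21897417996) (nat_lit 85) (nat_lit 5) (nat_lit 90) (nat_lit 5) (nat_lit 86) (nat_lit 5) (nat_lit 402)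 (nat_lit 358) (nat_lit 185))))))))
noncomputable def xc174 : XT := (XT.nd (nat_lit 2538) (nat_lit 1680) (nat_lit 0) (XT.nd (nat_lit 1222) (nat_lit 1680) (nat_lit 0) (XT.nd (nat_lit 564) (nat_lit 1008) (nat_lit 0) (XT.nd (nat_lit 282) (nat_lit 336) (nat_lit 0) (XT.nd (nat_lit 94) (nat_lit 336) (nat_lit 0) (XT.lf (nat_lit 0) (nat_lit 8462115306) (nat_lit 504) (nat_lit 22558100003) (nat_lit 84) (nat_lit 778852612) (nat_lit 80) (nat_lit 5) (nat_lit 86) (nat_lit 5) (nat_lit 81) (nat_lit 5) (nat_lit 403) (nat_lit 358) (nat_lit 184)) (XT.nd (nat_lit 94) (nat_lit 336) (nat_lit 0) (XT.lf (nat_lit 0) (nat_lit 12912706111) (nat_lit 504) (nat_lit 8501022227) (nat_lit 84) (nat_lit 11012157279) (nat_lit 80) (nat_lit 5) (nat_lit 86) (nat_lit 5) (nat_lit 81) (nat_lit 5) (nat_lit 404) (nat_lit 358) (nat_lit 183)) (XT.lf (nat_lit 0) (nat_lit 6091917196) (nat_lit 336) (nat_lit 11459850558) (nat_lit 420)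 (nat_lit 15518096407) (nat_lit 76) (nat_lit 5) (nat_lit 80) (nat_lit 5) (nat_lit 81) (nat_lit 5) (nat_lit 405) (nat_lit 358) (nat_lit 182)))) (XT.nd (nat_lit 94) (nat_lit 336) (nat_lit 0) (XT.lf (nat_lit 0) (nat_lit 21292227826) (nat_lit 336) (nat_lit 1120071004) (nat_lit 420) (nat_lit 11318399067) (nat_lit 76) (nat_lit 5) (nat_lit 80) (nat_lit 5) (nat_lit 81) (nat_lit 5) (nat_lit 406) (nat_lit 358) (nat_lit 181)) (XT.nd (nat_lit 94) (nat_lit 0) (nat_lit 0) (XT.lf (nat_lit 0) (nat_lit 2489522806) (nat_lit 336) (nat_lit 25041207730) (nat_lit 420) (nat_lit 6877268196) (nat_lit 72) (nat_lit 5) (nat_lit 76) (nat_lit 5) (nat_lit 77) (nat_lit 5) (nat_lit 407) (nat_lit 358) (nat_lit 180)) (XT.lf (nat_lit 0) (nat_lit 18104426258) (nat_lit 336) (nat_lit 14831477228) (nat_lit 420) (nat_lit 2165723949) (nat_lit 72) (nat_lit 5) (nat_lit 76) (nat_lit 5) (nat_lit 77) (nat_lit 5) (nat_lit 408) (nat_lit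 358) (nat_lit 179))))) (XT.nd (nat_lit 282) (nat_lit 588) (nat_lit 0) (XT.nd (nat_lit 94) (nat_lit 336) (nat_lit 0) (XT.lf (nat_lit 0) (nat_lit 2631395381) (nat_lit 420) (nat_lit 1658650776) (nat_lit 84) (nat_lit 31525348202) (nat_lit 71) (nat_lit 5) (nat_lit 76) (nat_lit 5) (nat_lit 72) (nat_lit 5) (nat_lit 409) (nat_lit 358) (nat_lit 178)) (XT.nd (nat_lit 94) (nat_lit 0) (nat_lit 0) (XT.lf (nat_lit 0) (nat_lit 7728739454) (nat_lit 420) (nat_lit 22215470309) (nat_lit 84) (nat_lit 6599730154) (nat_lit 67) (nat_lit 5) (nat_lit 72) (nat_lit 5) (nat_lit 68) (nat_lit 5) (nat_lit 410) (nat_lit 358) (nat_lit 177)) (XT.lf (nat_lit 0) (nat_lit 13035197863) (nat_lit 420) (nat_lit 6511721645) (nat_lit 84) (nat_lit 17745740503) (nat_lit 67) (nat_lit 5) (nat_lit 72) (nat_lit 5) (nat_lit 68) (nat_lit 5) (nat_lit 411) (nat_lit 358) (nat_lit 176)))) (XT.nd (nat_lit 188) (nat_lit 252) (nat_lit 0) (XT.nd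 (nat_lit 94) (nat_lit 0) (nat_lit 0) (XT.lf (nat_lit 0) (nat_lit 9851053420) (nat_lit 336) (nat_lit 8741387417) (nat_lit 420) (nat_lit 19468657021) (nat_lit 63) (nat_lit 5) (nat_lit 67) (nat_lit 5) (nat_lit 68) (nat_lit 5) (nat_lit 412) (nat_lit 358) (nat_lit 175)) (XT.lf (nat_lit 0) (nat_lit 24402699731) (nat_lit 420) (nat_lit 12040386426) (nat_lit 84) (nat_lit 2406917485) (nat_lit 63) (nat_lit 5) (nat_lit 68) (nat_lit 5) (nat_lit 64) (nat_lit 5) (nat_lit 413) (nat_lit 358) (nat_lit 174))) (XT.nd (nat_lit 94) (nat_lit 0) (nat_lit 0) (XT.lf (nat_lit 0) (nat_lit 4613611053) (nat_lit 252) (nat_lit 25901575941) (nat_lit 336) (nat_lit 9143555643) (nat_lit 60) (nat_lit 5) (nat_lit 63) (nat_lit 5) (nat_lit 64) (nat_lit 5) (nat_lit 414) (nat_lit 358) (nat_lit 173)) (XT.lf (nat_lit 0) (nat_lit 22009855995) (nat_lit 252) (nat_lit 14919846969) (nat_lit 336) (nat_lit 3558484759) (nat_lit 60) (nat_lit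 5) (nat_lit 63) (nat_lit 5) (nat_lit 64) (nat_lit 5) (nat_lit 415) (nat_lit 358) (nat_lit 172)))))) (XT.nd (nat_lit 658) (nat_lit 756) (nat_lit 0) (XT.nd (nat_lit 282) (nat_lit 504) (nat_lit 0) (XT.nd (nat_lit 94) (nat_lit 336) (nat_lit 0) (XT.lf (nat_lit 0) (nat_lit 2148446308) (nat_lit 336) (nat_lit 1439746447) (nat_lit 84) (nat_lit 37753780298) (nat_lit 59) (nat_lit 5) (nat_lit 63) (nat_lit 5) (nat_lit 60) (nat_lit 5) (nat_lit 416) (nat_lit 358) (nat_lit 171)) (XT.nd (nat_lit 94) (nat_lit 0) (nat_lit 0) (XT.lf (nat_lit 0) (nat_lit 8189426927) (nat_lit 420) (nat_lit 25904678639) (nat_lit 84) (nat_lit 8119181739) (nat_lit 55) (nat_lit 5) (nat_lit 60) (nat_lit 5) (nat_lit 56) (nat_lit 5) (nat_lit 417) (nat_lit 358) (nat_lit 170)) (XT.lf (nat_lit 0) (nat_lit 14459085052) (nat_lit 420) (nat_lit 8531089209) (nat_lit 84) (nat_lit 20119146429) (nat_lit 55) (nat_lit 5) (nat_lit 60) (nat_lit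 5) (nat_lit 56) (nat_lit 5) (nat_lit 418) (nat_lit 358) (nat_lit 169)))) (XT.nd (nat_lit 188) (nat_lit 252) (nat_lit 0) (XT.nd (nat_lit 94) (nat_lit 0) (nat_lit 0) (XT.lf (nat_lit 0) (nat_lit 9546062072) (nat_lit 252) (nat_lit 11459852724) (nat_lit 336) (nat_lit 23023650884) (nat_lit 52) (nat_lit 5) (nat_lit 55) (nat_lit 5) (nat_lit 56) (nat_lit 5) (nat_lit 419) (nat_lit 358) (nat_lit 168)) (XT.lf (nat_lit 0) (nat_lit 27837500180) (nat_lit 336) (nat_lit 16643237784) (nat_lit 84) (nat_lit 494032504) (nat_lit 52) (nat_lit 5) (nat_lit 56) (nat_lit 5) (nat_lit 53) (nat_lit 5) (nat_lit 420) (nat_lit 358) (nat_lit 167))) (XT.nd (nat_lit 94) (nat_lit 0) (nat_lit 0) (XT.lf (nat_lit 0) (nat_lit 1647072033) (nat_lit 252) (nat_lit 33353682929) (nat_lit 336) (nat_lit 10943777664) (nat_lit 49) (nat_lit 5) (nat_lit 52) (nat_lit 5) (nat_lit 53) (nat_lit 5) (nat_lit 421) (nat_lit 358) (nat_lit 166)) (XT.lf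 (nat_lit 0) (nat_lit 20823458456) (nat_lit 252) (nat_lit 21720976724) (nat_lit 336) (nat_lit 4393989435) (nat_lit 49) (nat_lit 5) (nat_lit 52) (nat_lit 5) (nat_lit 53) (nat_lit 5) (nat_lit 422) (nat_lit 358) (nat_lit 165))))) (XT.nd (nat_lit 282) (nat_lit 420) (nat_lit 0) (XT.nd (nat_lit 94) (nat_lit 252) (nat_lit 0) (XT.lf (nat_lit 0) (nat_lit 2303901292) (nat_lit 336) (nat_lit 7413352740) (nat_lit 84) (nat_lit 38244278303) (nat_lit 48) (nat_lit 5) (nat_lit 52) (nat_lit 5) (nat_lit 49) (nat_lit 5) (nat_lit 423) (nat_lit 358) (nat_lit 164)) (XT.nd (nat_lit 94) (nat_lit 0) (nat_lit 0) (XT.lf (nat_lit 0) (nat_lit 9254709705) (nat_lit 336) (nat_lit 37000581762) (nat_lit 84) (nat_lit 2754530363) (nat_lit 45) (nat_lit 5) (nat_lit 49) (nat_lit 5) (nat_lit 46) (nat_lit 5) (nat_lit 424) (nat_lit 358) (nat_lit 163)) (XT.lf (nat_lit 0) (nat_lit 16583461467) (nat_lit 336) (nat_lit 18021450392) (nat_lit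 84) (nat_lit 15479568063) (nat_lit 45) (nat_lit 5) (nat_lit 49) (nat_lit 5) (nat_lit 46) (nat_lit 5) (nat_lit 425) (nat_lit 358) (nat_lit 162)))) (XT.nd (nat_lit 188) (nat_lit 168) (nat_lit 0) (XT.nd (nat_lit 94) (nat_lit 0) (nat_lit 0) (XT.lf (nat_lit 0) (nat_lit 1553820513) (nat_lit 252) (nat_lit 22590868381) (nat_lit 336) (nat_lit 27046312885) (nat_lit 42) (nat_lit 5) (nat_lit 45) (nat_lit 5) (nat_lit 46) (nat_lit 5) (nat_lit 426) (nat_lit 358) (nat_lit 161)) (XT.lf (nat_lit 0) (nat_lit 22082251425) (nat_lit 252) (nat_lit 10030193696) (nat_lit 336) (nat_lit 20212885754) (nat_lit 42) (nat_lit 5) (nat_lit 45) (nat_lit 5) (nat_lit 46) (nat_lit 5) (nat_lit 427) (nat_lit 358) (nat_lit 160))) (XT.nd (nat_lit 94) (nat_lit 168) (nat_lit 0) (XT.lf (nat_lit 0) (nat_lit 40344946653) (nat_lit 336) (nat_lit 10298576464) (nat_lit 84) (nat_lit 2849397626) (nat_lit 42) (nat_lit 5) (nat_lit 46) (nat_lit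 5) (nat_lit 43) (nat_lit 5) (nat_lit 428) (nat_lit 358) (nat_lit 159)) (XT.lf (nat_lit 0) (nat_lit 10343416160) (nat_lit 168) (nat_lit 38677574092) (nat_lit 252) (nat_lit 5668653255) (nat_lit 40) (nat_lit 5) (nat_lit 42) (nat_lit 5) (nat_lit 43) (nat_lit 5) (nat_lit 429) (nat_lit 358) (nat_lit 158))))))) (XT.nd (nat_lit 1316) (nat_lit 588) (nat_lit 0) (XT.nd (nat_lit 658) (nat_lit 588) (nat_lit 0) (XT.nd (nat_lit 282) (nat_lit 168) (nat_lit 0) (XT.nd (nat_lit 94) (nat_lit 252) (nat_lit 0) (XT.lf (nat_lit 0) (nat_lit 2098199911) (nat_lit 252) (nat_lit 24127346509) (nat_lit 84) (nat_lit 29693050838) (nat_lit 39) (nat_lit 5) (nat_lit 42) (nat_lit 5) (nat_lit 40) (nat_lit 5) (nat_lit 430) (nat_lit 358) (nat_lit 157)) (XT.nd (nat_lit 94) (nat_lit 252) (nat_lit 0) (XT.lf (nat_lit 0) (nat_lit 9982026026) (nat_lit 252) (nat_lit 3361311831) (nat_lit 84) (nat_lit 43839462976) (nat_lit 39) (nat_lit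 5) (nat_lit 42) (nat_lit 5) (nat_lit 40) (nat_lit 5) (nat_lit 431) (nat_lit 358) (nat_lit 156)) (XT.lf (nat_lit 0) (nat_lit 18278061427) (nat_lit 336) (nat_lit 40097477619) (nat_lit 84) (nat_lit 104122600) (nat_lit 36) (nat_lit 5) (nat_lit 40) (nat_lit 5) (nat_lit 37) (nat_lit 5) (nat_lit 432) (nat_lit 358) (nat_lit 155)))) (XT.nd (nat_lit 188) (nat_lit 0) (nat_lit 0) (XT.nd (nat_lit 94) (nat_lit 168) (nat_lit 0) (XT.lf (nat_lit 0) (nat_lit 26987349542) (nat_lit 336) (nat_lit 19103181315) (nat_lit 84) (nat_lit 13719968183) (nat_lit 36) (nat_lit 5) (nat_lit 40) (nat_lit 5) (nat_lit 37) (nat_lit 5) (nat_lit 433) (nat_lit 358) (nat_lit 154)) (XT.lf (nat_lit 0) (nat_lit 2567935737) (nat_lit 168) (nat_lit 33412704618) (nat_lit 252) (nat_lit 25199941328) (nat_lit 34) (nat_lit 5) (nat_lit 36) (nat_lit 5) (nat_lit 37) (nat_lit 5) (nat_lit 434) (nat_lit 358) (nat_lit 153))) (XT.nd (nat_lit 94)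 (nat_lit 0) (nat_lit 0) (XT.lf (nat_lit 0) (nat_lit 25277695540) (nat_lit 168) (nat_lit 20157005939) (nat_lit 252) (nat_lit 17151337975) (nat_lit 34) (nat_lit 5) (nat_lit 36) (nat_lit 5) (nat_lit 37) (nat_lit 5) (nat_lit 435) (nat_lit 358) (nat_lit 152)) (XT.lf (nat_lit 0) (nat_lit 48665750808) (nat_lit 168) (nat_lit 6504756845) (nat_lit 252) (nat_lit 8863211355) (nat_lit 34) (nat_lit 5) (nat_lit 36) (nat_lit 5) (nat_lit 37) (nat_lit 5) (nat_lit 436) (nat_lit 358) (nat_lit 151))))) (XT.nd (nat_lit 282) (nat_lit 336) (nat_lit 0) (XT.nd (nat_lit 94) (nat_lit 84) (nat_lit 0) (XT.lf (nat_lit 0) (nat_lit 7297418699) (nat_lit 168) (nat_lit 58041927068) (nat_lit 252) (nat_lit 181256141) (nat_lit 32) (nat_lit 5) (nat_lit 34) (nat_lit 5) (nat_lit 35) (nat_lit 5) (nat_lit 437) (nat_lit 358) (nat_lit 150)) (XT.nd (nat_lit 94) (nat_lit 0) (nat_lit 0) (XT.lf (nat_lit 0) (nat_lit 8809495518) (nat_lit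 252) (nat_lit 36242762759) (nat_lit 84) (nat_lit 21990729100) (nat_lit 31) (nat_lit 5) (nat_lit 34) (nat_lit 5) (nat_lit 32) (nat_lit 5) (nat_lit 438) (nat_lit 358) (nat_lit 149)) (XT.lf (nat_lit 0) (nat_lit 18064553023) (nat_lit 252) (nat_lit 13607602857) (nat_lit 84) (nat_lit 36938889452) (nat_lit 31) (nat_lit 5) (nat_lit 34) (nat_lit 5) (nat_lit 32) (nat_lit 5) (nat_lit 439) (nat_lit 358) (nat_lit 148)))) (XT.nd (nat_lit 188) (nat_lit 168) (nat_lit 0) (XT.nd (nat_lit 94) (nat_lit 0) (nat_lit 0) (XT.lf (nat_lit 0) (nat_lit 9896942125) (nat_lit 168) (nat_lit 17793733614) (nat_lit 252) (nat_lit 42532668385) (nat_lit 29) (nat_lit 5) (nat_lit 31) (nat_lit 5) (nat_lit 32) (nat_lit 5) (nat_lit 440) (nat_lit 358) (nat_lit 147)) (XT.lf (nat_lit 0) (nat_lit 34382798670) (nat_lit 168) (nat_lit 3358495153) (nat_lit 252) (nat_lit 34138648169) (nat_lit 29) (nat_lit 5) (nat_lit 31) (nat_lit 5) (nat_lit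 32) (nat_lit 5) (nat_lit 441) (nat_lit 358) (nat_lit 146))) (XT.nd (nat_lit 94) (nat_lit 168) (nat_lit 0) (XT.lf (nat_lit 0) (nat_lit 48202410762) (nat_lit 252) (nat_lit 14096373744) (nat_lit 84) (nat_lit 11284185297) (nat_lit 29) (nat_lit 5) (nat_lit 32) (nat_lit 5) (nat_lit 30) (nat_lit 5) (nat_lit 442) (nat_lit 358) (nat_lit 145)) (XT.lf (nat_lit 0) (nat_lit 10168951188) (nat_lit 168) (nat_lit 48937802017) (nat_lit 252) (nat_lit 16226454861) (nat_lit 27) (nat_lit 5) (nat_lit 29) (nat_lit 5) (nat_lit 30) (nat_lit 5) (nat_lit 443) (nat_lit 358) (nat_lit 144)))))) (XT.nd (nat_lit 658) (nat_lit 168) (nat_lit 0) (XT.nd (nat_lit 282) (nat_lit 168) (nat_lit 0) (XT.nd (nat_lit 94) (nat_lit 252) (nat_lit 0) (XT.lf (nat_lit 0) (nat_lit 35448575502) (nat_lit 168) (nat_lit 35030407249) (nat_lit 252) (nat_lit 6652749358) (nat_lit 27) (nat_lit 5) (nat_lit 29) (nat_lit 5) (nat_lit 30) (nat_lit 5)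 (nat_lit 444) (nat_lit 358) (nat_lit 143)) (XT.nd (nat_lit 94) (nat_lit 168) (nat_lit 0) (XT.lf (nat_lit 0) (nat_lit 3144005235) (nat_lit 252) (nat_lit 17531040319) (nat_lit 84) (nat_lit 58308289188) (nat_lit 26) (nat_lit 5) (nat_lit 29) (nat_lit 5) (nat_lit 27) (nat_lit 5) (nat_lit 445) (nat_lit 358) (nat_lit 142)) (XT.lf (nat_lit 0) (nat_lit 7422099513) (nat_lit 168) (nat_lit 5748681279) (nat_lit 252) (nat_lit 67715634863) (nat_lit 24) (nat_lit 5) (nat_lit 26) (nat_lit 5) (nat_lit 27) (nat_lit 5) (nat_lit 446) (nat_lit 358) (nat_lit 141)))) (XT.nd (nat_lit 188) (nat_lit 168) (nat_lit 0) (XT.nd (nat_lit 94) (nat_lit 0) (nat_lit 0) (XT.lf (nat_lit 0) (nat_lit 23768164493) (nat_lit 252) (nat_lit 49454869166) (nat_lit 84) (nat_lit 9615462377) (nat_lit 24) (nat_lit 5) (nat_lit 27) (nat_lit 5) (nat_lit 25) (nat_lit 5) (nat_lit 447) (nat_lit 358) (nat_lit 140)) (XT.lf (nat_lit 0) (nat_lit 34738928152)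 (nat_lit 252) (nat_lit 24784498181) (nat_lit 84) (nat_lit 25324049894) (nat_lit 24) (nat_lit 5) (nat_lit 27) (nat_lit 5) (nat_lit 25) (nat_lit 5) (nat_lit 448) (nat_lit 358) (nat_lit 139))) (XT.nd (nat_lit 94) (nat_lit 0) (nat_lit 0) (XT.lf (nat_lit 0) (nat_lit 636024414) (nat_lit 168) (nat_lit 45407487476) (nat_lit 252) (nat_lit 40873074140) (nat_lit 22) (nat_lit 5) (nat_lit 24) (nat_lit 5) (nat_lit 25) (nat_lit 5) (nat_lit 449) (nat_lit 358) (nat_lit 138)) (XT.lf (nat_lit 0) (nat_lit 27324873198) (nat_lit 168) (nat_lit 30611236786) (nat_lit 252) (nat_lit 31104193923) (nat_lit 22) (nat_lit 5) (nat_lit 24) (nat_lit 5) (nat_lit 25) (nat_lit 5) (nat_lit 450) (nat_lit 358) (nat_lit 137))))) (XT.nd (nat_lit 50666) (nat_lit 0) (nat_lit 13104) (XT.nd (nat_lit 94) (nat_lit 168) (nat_lit 0) (XT.lf (nat_lit 0) (nat_lit 54812108412) (nat_lit 168) (nat_lit 15372020338) (nat_lit 252) (nat_lit 21043646345)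 (nat_lit 22) (nat_lit 5) (nat_lit 24) (nat_lit 5) (nat_lit 25) (nat_lit 5) (nat_lit 451) (nat_lit 358) (nat_lit 136)) (XT.nd (nat_lit 94) (nat_lit 168) (nat_lit 0) (XT.lf (nat_lit 0) (nat_lit 82801379806) (nat_lit 252) (nat_lit 10362272411) (nat_lit 84) (nat_lit 317165473) (nat_lit 22) (nat_lit 5) (nat_lit 25) (nat_lit 5) (nat_lit 23) (nat_lit 4) (nat_lit 452) (nat_lit 358) (nat_lit 135)) (XT.lf (nat_lit 0) (nat_lit 309752281) (nat_lit 168) (nat_lit 79152049196) (nat_lit 84) (nat_lit 16330233151) (nat_lit 20) (nat_lit 5) (nat_lit 22) (nat_lit 5) (nat_lit 21) (nat_lit 5) (nat_lit 453) (nat_lit 358) (nat_lit 134)))) (XT.nd (nat_lit 188) (nat_lit 0) (nat_lit 84) (XT.nd (nat_lit 94) (nat_lit 0) (nat_lit 0) (XT.lf (nat_lit 0) (nat_lit 4903039251) (nat_lit 1260) (nat_lit 1362984581) (nat_lit 1260) (nat_lit 1362984581) (nat_lit 176) (nat_lit 3) (nat_lit 191) (nat_lit 3) (nat_lit 191) (nat_lit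 5) (nat_lit 359) (nat_lit 359) (nat_lit 227)) (XT.lf (nat_lit 84) (nat_lit 3952575127) (nat_lit 0) (nat_lit 6302640195) (nat_lit 1260) (nat_lit 5222105835) (nat_lit 177) (nat_lit 5) (nat_lit 176) (nat_lit 3) (nat_lit 191) (nat_lit 5) (nat_lit 360) (nat_lit 359) (nat_lit 226))) (XT.nd (nat_lit 94) (nat_lit 0) (nat_lit 0) (XT.lf (nat_lit 0) (nat_lit 10736408335) (nat_lit 1176) (nat_lit 4822189053) (nat_lit 1260) (nat_lit 144069458) (nat_lit 177) (nat_lit 5) (nat_lit 191) (nat_lit 5) (nat_lit 192) (nat_lit 5) (nat_lit 361) (nat_lit 359) (nat_lit 225)) (XT.lf (nat_lit 84) (nat_lit 2053481352) (nat_lit 0) (nat_lit 9250687900) (nat_lit 1260) (nat_lit 4628458808) (nat_lit 178) (nat_lit 5) (nat_lit 177) (nat_lit 5) (nat_lit 192) (nat_lit 5) (nat_lit 362) (nat_lit 359) (nat_lit 224))))))))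
noncomputable def xc175 : XT := (XT.nd (nat_lit 2632) (nat_lit 5292) (nat_lit 0) (XT.nd (nat_lit 1316) (nat_lit 3948) (nat_lit 0) (XT.nd (nat_lit 658) (nat_lit 1008) (nat_lit 0) (XT.nd (nat_lit 282) (nat_lit 0) (nat_lit 168) (XT.nd (nat_lit 94) (nat_lit 0) (nat_lit 84) (XT.lf (nat_lit 84) (nat_lit 9228695508) (nat_lit 0) (nat_lit 2699190496) (nat_lit 1260) (nat_lit 4240452974) (nat_lit 178) (nat_lit 5) (nat_lit 177) (nat_lit 5) (nat_lit 192) (nat_lit 5) (nat_lit 363) (nat_lit 359) (nat_lit 223)) (XT.nd (nat_lit 94) (nat_lit 0) (nat_lit 0) (XT.lf (nat_lit 84) (nat_lit 166620314) (nat_lit 0) (nat_lit 12434767760) (nat_lit 1260) (nat_lit 3808818958) (nat_lit 179) (nat_lit 5) (nat_lit 178) (nat_lit 5) (nat_lit 193) (nat_lit 5) (nat_lit 364) (nat_lit 359) (nat_lit 222)) (XT.lf (nat_lit 84) (nat_lit 7595371932) (nat_lit 0) (nat_lit 5787035231) (nat_lit 1260) (nat_lit 3274322102) (nat_lit 179)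 (nat_lit 5) (nat_lit 178) (nat_lit 5) (nat_lit 193) (nat_lit 5) (nat_lit 365) (nat_lit 359) (nat_lit 221)))) (XT.nd (nat_lit 188) (nat_lit 0) (nat_lit 0) (XT.nd (nat_lit 94) (nat_lit 0) (nat_lit 0) (XT.lf (nat_lit 0) (nat_lit 14188121634) (nat_lit 1176) (nat_lit 1679703788) (nat_lit 1260) (nat_lit 1042800783) (nat_lit 179) (nat_lit 5) (nat_lit 193) (nat_lit 5) (nat_lit 194) (nat_lit 5) (nat_lit 366) (nat_lit 359) (nat_lit 220)) (XT.lf (nat_lit 84) (nat_lit 5977054181) (nat_lit 0) (nat_lit 9147040012) (nat_lit 1260) (nat_lit 2044879752) (nat_lit 180) (nat_lit 5) (nat_lit 179) (nat_lit 5) (nat_lit 194) (nat_lit 5) (nat_lit 367) (nat_lit 359) (nat_lit 219))) (XT.nd (nat_lit 94) (nat_lit 0) (nat_lit 84) (XT.lf (nat_lit 84) (nat_lit 13892321213) (nat_lit 0) (nat_lit 2204318928) (nat_lit 1260) (nat_lit 1338193162) (nat_lit 180) (nat_lit 5) (nat_lit 179) (nat_lit 5) (nat_lit 194) (nat_lit 5)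 (nat_lit 368) (nat_lit 359) (nat_lit 218)) (XT.lf (nat_lit 84) (nat_lit 4368318099) (nat_lit 0) (nat_lit 12811391507) (nat_lit 1260) (nat_lit 526533965) (nat_lit 181) (nat_lit 5) (nat_lit 180) (nat_lit 5) (nat_lit 195) (nat_lit 5) (nat_lit 369) (nat_lit 359) (nat_lit 217))))) (XT.nd (nat_lit 282) (nat_lit 0) (nat_lit 84) (XT.nd (nat_lit 94) (nat_lit 0) (nat_lit 84) (XT.lf (nat_lit 0) (nat_lit 353283049) (nat_lit 1260) (nat_lit 5426656093) (nat_lit 1344) (nat_lit 12204287001) (nat_lit 165) (nat_lit 5) (nat_lit 180) (nat_lit 5) (nat_lit 181) (nat_lit 5) (nat_lit 370) (nat_lit 359) (nat_lit 216)) (XT.nd (nat_lit 94) (nat_lit 0) (nat_lit 0) (XT.lf (nat_lit 0) (nat_lit 1282015749) (nat_lit 1260) (nat_lit 15519244589) (nat_lit 1344) (nat_lit 1468152564) (nat_lit 166) (nat_lit 5) (nat_lit 181) (nat_lit 5) (nat_lit 182) (nat_lit 5) (nat_lit 371) (nat_lit 359) (nat_lit 215)) (XT.lf (nat_lit 0)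 (nat_lit 2343504853) (nat_lit 1260) (nat_lit 7341650223) (nat_lit 1344) (nat_lit 8874867166) (nat_lit 166) (nat_lit 5) (nat_lit 181) (nat_lit 5) (nat_lit 182) (nat_lit 5) (nat_lit 372) (nat_lit 359) (nat_lit 214)))) (XT.nd (nat_lit 188) (nat_lit 0) (nat_lit 84) (XT.nd (nat_lit 94) (nat_lit 0) (nat_lit 84) (XT.lf (nat_lit 84) (nat_lit 1096941506) (nat_lit 0) (nat_lit 2342991264) (nat_lit 1344) (nat_lit 15419337676) (nat_lit 167) (nat_lit 5) (nat_lit 166) (nat_lit 5) (nat_lit 182) (nat_lit 5) (nat_lit 373) (nat_lit 359) (nat_lit 213)) (XT.lf (nat_lit 0) (nat_lit 4687023780) (nat_lit 1260) (nat_lit 9282917470) (nat_lit 1344) (nat_lit 5194034759) (nat_lit 167) (nat_lit 5) (nat_lit 182) (nat_lit 5) (nat_lit 183) (nat_lit 5) (nat_lit 374) (nat_lit 359) (nat_lit 212))) (XT.nd (nat_lit 94) (nat_lit 0) (nat_lit 84) (XT.lf (nat_lit 0) (nat_lit 5987664805) (nat_lit 1260) (nat_lit 578075598) (nat_lit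 1344) (nat_lit 12911610854) (nat_lit 167) (nat_lit 5) (nat_lit 182) (nat_lit 5) (nat_lit 183) (nat_lit 5) (nat_lit 375) (nat_lit 359) (nat_lit 211)) (XT.lf (nat_lit 0) (nat_lit 7413670582) (nat_lit 1260) (nat_lit 11259751339) (nat_lit 84) (nat_lit 1124127748) (nat_lit 168) (nat_lit 5) (nat_lit 183) (nat_lit 5) (nat_lit 169) (nat_lit 5) (nat_lit 376) (nat_lit 359) (nat_lit 210)))))) (XT.nd (nat_lit 658) (nat_lit 1764) (nat_lit 0) (XT.nd (nat_lit 282) (nat_lit 1176) (nat_lit 0) (XT.nd (nat_lit 94) (nat_lit 1260) (nat_lit 0) (XT.lf (nat_lit 0) (nat_lit 8946661891) (nat_lit 1260) (nat_lit 2259001709) (nat_lit 84) (nat_lit 8919776186) (nat_lit 168) (nat_lit 5) (nat_lit 183) (nat_lit 5) (nat_lit 169) (nat_lit 5) (nat_lit 377) (nat_lit 359) (nat_lit 209)) (XT.nd (nat_lit 94) (nat_lit 0) (nat_lit 0) (XT.lf (nat_lit 0) (nat_lit 7145618691) (nat_lit 1260) (nat_lit 3442210173) (nat_lit 1344) (nat_lit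 9873483731) (nat_lit 153) (nat_lit 5) (nat_lit 168) (nat_lit 5) (nat_lit 169) (nat_lit 5) (nat_lit 378) (nat_lit 359) (nat_lit 208)) (XT.lf (nat_lit 0) (nat_lit 12338687492) (nat_lit 1344) (nat_lit 3977639218) (nat_lit 84) (nat_lit 4489132409) (nat_lit 153) (nat_lit 5) (nat_lit 169) (nat_lit 5) (nat_lit 154) (nat_lit 5) (nat_lit 379) (nat_lit 359) (nat_lit 207)))) (XT.nd (nat_lit 188) (nat_lit 588) (nat_lit 0) (XT.nd (nat_lit 94) (nat_lit 0) (nat_lit 0) (XT.lf (nat_lit 0) (nat_lit 5712368098) (nat_lit 588) (nat_lit 8512523083) (nat_lit 672) (nat_lit 6932565181) (nat_lit 146) (nat_lit 5) (nat_lit 153) (nat_lit 5) (nat_lit 154) (nat_lit 5) (nat_lit 380) (nat_lit 359) (nat_lit 206)) (XT.lf (nat_lit 0) (nat_lit 15769091413) (nat_lit 588) (nat_lit 432709873) (nat_lit 672) (nat_lit 5317199212) (nat_lit 146) (nat_lit 5) (nat_lit 153) (nat_lit 5) (nat_lit 154) (nat_lit 5) (nat_lit 381) (nat_lit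 359) (nat_lit 205))) (XT.nd (nat_lit 94) (nat_lit 0) (nat_lit 0) (XT.lf (nat_lit 0) (nat_lit 4237421791) (nat_lit 588) (nat_lit 14111303210) (nat_lit 672) (nat_lit 3539355045) (nat_lit 139) (nat_lit 5) (nat_lit 146) (nat_lit 5) (nat_lit 147) (nat_lit 5) (nat_lit 382) (nat_lit 359) (nat_lit 204)) (XT.lf (nat_lit 0) (nat_lit 14632372649) (nat_lit 588) (nat_lit 5984241755) (nat_lit 672) (nat_lit 1649930815) (nat_lit 139) (nat_lit 5) (nat_lit 146) (nat_lit 5) (nat_lit 147) (nat_lit 5) (nat_lit 383) (nat_lit 359) (nat_lit 203))))) (XT.nd (nat_lit 282) (nat_lit 504) (nat_lit 0) (XT.nd (nat_lit 94) (nat_lit 588) (nat_lit 0) (XT.lf (nat_lit 0) (nat_lit 334204178) (nat_lit 672) (nat_lit 19951173451) (nat_lit 84) (nat_lit 2369596486) (nat_lit 131) (nat_lit 5) (nat_lit 139) (nat_lit 5) (nat_lit 132) (nat_lit 5) (nat_lit 384) (nat_lit 359) (nat_lit 202)) (XT.nd (nat_lit 94) (nat_lit 588) (nat_lit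 0) (XT.lf (nat_lit 0) (nat_lit 2476273819) (nat_lit 672) (nat_lit 9626268467) (nat_lit 84) (nat_lit 10948085469) (nat_lit 131) (nat_lit 5) (nat_lit 139) (nat_lit 5) (nat_lit 132) (nat_lit 5) (nat_lit 385) (nat_lit 359) (nat_lit 201)) (XT.lf (nat_lit 0) (nat_lit 1022924899) (nat_lit 588) (nat_lit 3664143929) (nat_lit 672) (nat_lit 18770957140) (nat_lit 124) (nat_lit 5) (nat_lit 131) (nat_lit 5) (nat_lit 132) (nat_lit 5) (nat_lit 386) (nat_lit 359) (nat_lit 200)))) (XT.nd (nat_lit 188) (nat_lit 504) (nat_lit 0) (XT.nd (nat_lit 94) (nat_lit 0) (nat_lit 0) (XT.lf (nat_lit 0) (nat_lit 7105417208) (nat_lit 672) (nat_lit 11740627907) (nat_lit 84) (nat_lit 5027372736) (nat_lit 124) (nat_lit 5) (nat_lit 132) (nat_lit 5) (nat_lit 125) (nat_lit 5) (nat_lit 387) (nat_lit 359) (nat_lit 199)) (XT.lf (nat_lit 0) (nat_lit 9627482200) (nat_lit 672) (nat_lit 766970229) (nat_lit 84) (nat_lit 13905892431)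 (nat_lit 124) (nat_lit 5) (nat_lit 132) (nat_lit 5) (nat_lit 125) (nat_lit 5) (nat_lit 388) (nat_lit 359) (nat_lit 198))) (XT.nd (nat_lit 94) (nat_lit 0) (nat_lit 0) (XT.lf (nat_lit 0) (nat_lit 10740263822) (nat_lit 504) (nat_lit 1583223725) (nat_lit 588) (nat_lit 12413651893) (nat_lit 118) (nat_lit 5) (nat_lit 124) (nat_lit 5) (nat_lit 125) (nat_lit 5) (nat_lit 389) (nat_lit 359) (nat_lit 197)) (XT.lf (nat_lit 0) (nat_lit 15175344124) (nat_lit 588) (nat_lit 2655780701) (nat_lit 84) (nat_lit 7353671776) (nat_lit 118) (nat_lit 5) (nat_lit 125) (nat_lit 5) (nat_lit 119) (nat_lit 5) (nat_lit 390) (nat_lit 359) (nat_lit 196))))))) (XT.nd (nat_lit 1316) (nat_lit 2100) (nat_lit 0) (XT.nd (nat_lit 658) (nat_lit 1260) (nat_lit 0) (XT.nd (nat_lit 282) (nat_lit 1008) (nat_lit 0) (XT.nd (nat_lit 94) (nat_lit 420) (nat_lit 0) (XT.lf (nat_lit 0) (nat_lit 9183923227) (nat_lit 504) (nat_lit 9028060550)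 (nat_lit 588) (nat_lit 7430930526) (nat_lit 112) (nat_lit 5) (nat_lit 118) (nat_lit 5) (nat_lit 119) (nat_lit 5) (nat_lit 391) (nat_lit 359) (nat_lit 195)) (XT.nd (nat_lit 94) (nat_lit 420) (nat_lit 0) (XT.lf (nat_lit 0) (nat_lit 21362536685) (nat_lit 588) (nat_lit 4686604494) (nat_lit 84) (nat_lit 64957359) (nat_lit 112) (nat_lit 5) (nat_lit 119) (nat_lit 5) (nat_lit 113) (nat_lit 5) (nat_lit 392) (nat_lit 359) (nat_lit 194)) (XT.lf (nat_lit 0) (nat_lit 7490637883) (nat_lit 420) (nat_lit 17273849480) (nat_lit 504) (nat_lit 1830231709) (nat_lit 107) (nat_lit 5) (nat_lit 112) (nat_lit 5) (nat_lit 113) (nat_lit 5) (nat_lit 393) (nat_lit 359) (nat_lit 193)))) (XT.nd (nat_lit 188) (nat_lit 420) (nat_lit 0) (XT.nd (nat_lit 94) (nat_lit 504) (nat_lit 0) (XT.lf (nat_lit 0) (nat_lit 1199052986) (nat_lit 504) (nat_lit 6976013770) (nat_lit 84) (nat_lit 18913058856) (nat_lit 106) (nat_lit 5) (nat_lit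 112) (nat_lit 5) (nat_lit 107) (nat_lit 5) (nat_lit 394) (nat_lit 359) (nat_lit 192)) (XT.lf (nat_lit 0) (nat_lit 4344143173) (nat_lit 588) (nat_lit 22004424632) (nat_lit 84) (nat_lit 1245378123) (nat_lit 100) (nat_lit 5) (nat_lit 107) (nat_lit 5) (nat_lit 101) (nat_lit 5) (nat_lit 395) (nat_lit 359) (nat_lit 191))) (XT.nd (nat_lit 94) (nat_lit 420) (nat_lit 0) (XT.lf (nat_lit 0) (nat_lit 7731393847) (nat_lit 588) (nat_lit 9524515863) (nat_lit 84) (nat_lit 10854603313) (nat_lit 100) (nat_lit 5) (nat_lit 107) (nat_lit 5) (nat_lit 101) (nat_lit 5) (nat_lit 396) (nat_lit 359) (nat_lit 190)) (XT.lf (nat_lit 0) (nat_lit 3391035792) (nat_lit 420) (nat_lit 7857672476) (nat_lit 504) (nat_lit 17393021695) (nat_lit 95) (nat_lit 5) (nat_lit 100) (nat_lit 5) (nat_lit 101) (nat_lit 5) (nat_lit 397) (nat_lit 359) (nat_lit 189))))) (XT.nd (nat_lit 282) (nat_lit 840) (nat_lit 0) (XT.nd (nat_lit 94) (nat_lit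 420) (nat_lit 0) (XT.lf (nat_lit 0) (nat_lit 14982108242) (nat_lit 504) (nat_lit 12320170213) (nat_lit 84) (nat_lit 1883294007) (nat_lit 95) (nat_lit 5) (nat_lit 101) (nat_lit 5) (nat_lit 96) (nat_lit 5) (nat_lit 398) (nat_lit 359) (nat_lit 188)) (XT.nd (nat_lit 94) (nat_lit 0) (nat_lit 0) (XT.lf (nat_lit 0) (nat_lit 933840858) (nat_lit 420) (nat_lit 17976479521) (nat_lit 504) (nat_lit 10832931416) (nat_lit 90) (nat_lit 5) (nat_lit 95) (nat_lit 5) (nat_lit 96) (nat_lit 5) (nat_lit 399) (nat_lit 359) (nat_lit 187)) (XT.lf (nat_lit 0) (nat_lit 14833218780) (nat_lit 420) (nat_lit 8243673742) (nat_lit 504) (nat_lit 7237159264) (nat_lit 90) (nat_lit 5) (nat_lit 95) (nat_lit 5) (nat_lit 96) (nat_lit 5) (nat_lit 400) (nat_lit 359) (nat_lit 186)))) (XT.nd (nat_lit 188) (nat_lit 420) (nat_lit 0) (XT.nd (nat_lit 94) (nat_lit 420) (nat_lit 0) (XT.lf (nat_lit 0) (nat_lit 27381792079) (nat_lit 504)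 (nat_lit 1774294375) (nat_lit 84) (nat_lit 1745494939) (nat_lit 90) (nat_lit 5) (nat_lit 96) (nat_lit 5) (nat_lit 91) (nat_lit 5) (nat_lit 401) (nat_lit 359) (nat_lit 185)) (XT.lf (nat_lit 0) (nat_lit 503134740) (nat_lit 420) (nat_lit 19004606193) (nat_lit 84) (nat_lit 11992910085) (nat_lit 85) (nat_lit 5) (nat_lit 90) (nat_lit 5) (nat_lit 86) (nat_lit 5) (nat_lit 402) (nat_lit 359) (nat_lit 184))) (XT.nd (nat_lit 94) (nat_lit 420) (nat_lit 0) (XT.lf (nat_lit 0) (nat_lit 4590438160) (nat_lit 420) (nat_lit 4925985298) (nat_lit 84) (nat_lit 22599795768) (nat_lit 85) (nat_lit 5) (nat_lit 90) (nat_lit 5) (nat_lit 86) (nat_lit 5) (nat_lit 403) (nat_lit 359) (nat_lit 183)) (XT.lf (nat_lit 0) (nat_lit 8899002735) (nat_lit 504) (nat_lit 22994984539) (nat_lit 84) (nat_lit 853312854) (nat_lit 80) (nat_lit 5) (nat_lit 86) (nat_lit 5) (nat_lit 81) (nat_lit 5) (nat_lit 404) (nat_lit 359) (nat_lit 182))))))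 (XT.nd (nat_lit 658) (nat_lit 1008) (nat_lit 0) (XT.nd (nat_lit 282) (nat_lit 756) (nat_lit 0) (XT.nd (nat_lit 94) (nat_lit 336) (nat_lit 0) (XT.lf (nat_lit 0) (nat_lit 13477780469) (nat_lit 504) (nat_lit 8523180599) (nat_lit 84) (nat_lit 11392128467) (nat_lit 80) (nat_lit 5) (nat_lit 86) (nat_lit 5) (nat_lit 81) (nat_lit 5) (nat_lit 405) (nat_lit 359) (nat_lit 181)) (XT.nd (nat_lit 94) (nat_lit 0) (nat_lit 0) (XT.lf (nat_lit 0) (nat_lit 6505263945) (nat_lit 336) (nat_lit 11747791051) (nat_lit 420) (nat_lit 15803428251) (nat_lit 76) (nat_lit 5) (nat_lit 80) (nat_lit 5) (nat_lit 81) (nat_lit 5) (nat_lit 406) (nat_lit 359) (nat_lit 180)) (XT.lf (nat_lit 0) (nat_lit 22154867703) (nat_lit 336) (nat_lit 1099444957) (nat_lit 420) (nat_lit 11482988857) (nat_lit 76) (nat_lit 5) (nat_lit 80) (nat_lit 5) (nat_lit 81) (nat_lit 5) (nat_lit 407) (nat_lit 359) (nat_lit 179)))) (XT.nd (nat_lit 188) (nat_lit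 420) (nat_lit 0) (XT.nd (nat_lit 94) (nat_lit 0) (nat_lit 0) (XT.lf (nat_lit 0) (nat_lit 2790635722) (nat_lit 336) (nat_lit 25733403131) (nat_lit 420) (nat_lit 6910956917) (nat_lit 72) (nat_lit 5) (nat_lit 76) (nat_lit 5) (nat_lit 77) (nat_lit 5) (nat_lit 408) (nat_lit 359) (nat_lit 178)) (XT.lf (nat_lit 0) (nat_lit 18867391309) (nat_lit 336) (nat_lit 15219100349) (nat_lit 420) (nat_lit 2063094382) (nat_lit 72) (nat_lit 5) (nat_lit 76) (nat_lit 5) (nat_lit 77) (nat_lit 5) (nat_lit 409) (nat_lit 359) (nat_lit 177))) (XT.nd (nat_lit 94) (nat_lit 336) (nat_lit 0) (XT.lf (nat_lit 0) (nat_lit 2869881690) (nat_lit 420) (nat_lit 1491603120) (nat_lit 84) (nat_lit 32523382497) (nat_lit 71) (nat_lit 5) (nat_lit 76) (nat_lit 5) (nat_lit 72) (nat_lit 5) (nat_lit 410) (nat_lit 359) (nat_lit 176)) (XT.lf (nat_lit 0) (nat_lit 8118117655) (nat_lit 420) (nat_lit 22662902157) (nat_lit 84) (nat_lit 6854316171)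 (nat_lit 67) (nat_lit 5) (nat_lit 72) (nat_lit 5) (nat_lit 68) (nat_lit 5) (nat_lit 411) (nat_lit 359) (nat_lit 175))))) (XT.nd (nat_lit 282) (nat_lit 672) (nat_lit 0) (XT.nd (nat_lit 94) (nat_lit 336) (nat_lit 0) (XT.lf (nat_lit 0) (nat_lit 13579181971) (nat_lit 420) (nat_lit 6494420614) (nat_lit 84) (nat_lit 18333058458) (nat_lit 67) (nat_lit 5) (nat_lit 72) (nat_lit 5) (nat_lit 68) (nat_lit 5) (nat_lit 412) (nat_lit 359) (nat_lit 174)) (XT.nd (nat_lit 94) (nat_lit 0) (nat_lit 0) (XT.lf (nat_lit 0) (nat_lit 10357152873) (nat_lit 336) (nat_lit 8943559250) (nat_lit 420) (nat_lit 19897518367) (nat_lit 63) (nat_lit 5) (nat_lit 67) (nat_lit 5) (nat_lit 68) (nat_lit 5) (nat_lit 413) (nat_lit 359) (nat_lit 173)) (XT.lf (nat_lit 0) (nat_lit 25281455955) (nat_lit 420) (nat_lit 12193160421) (nat_lit 84) (nat_lit 2536307157) (nat_lit 63) (nat_lit 5) (nat_lit 68) (nat_lit 5) (nat_lit 64) (nat_lit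 5) (nat_lit 414) (nat_lit 359) (nat_lit 172)))) (XT.nd (nat_lit 188) (nat_lit 420) (nat_lit 0) (XT.nd (nat_lit 94) (nat_lit 0) (nat_lit 0) (XT.lf (nat_lit 0) (nat_lit 4958413477) (nat_lit 252) (nat_lit 26616616250) (nat_lit 336) (nat_lit 9268968853) (nat_lit 60) (nat_lit 5) (nat_lit 63) (nat_lit 5) (nat_lit 64) (nat_lit 5) (nat_lit 415) (nat_lit 359) (nat_lit 171)) (XT.lf (nat_lit 0) (nat_lit 22870534289) (nat_lit 252) (nat_lit 15307241437) (nat_lit 336) (nat_lit 3520682546) (nat_lit 60) (nat_lit 5) (nat_lit 63) (nat_lit 5) (nat_lit 64) (nat_lit 5) (nat_lit 416) (nat_lit 359) (nat_lit 170))) (XT.nd (nat_lit 94) (nat_lit 336) (nat_lit 0) (XT.lf (nat_lit 0) (nat_lit 2350507400) (nat_lit 336) (nat_lit 1285494055) (nat_lit 84) (nat_lit 38941942665) (nat_lit 59) (nat_lit 5) (nat_lit 63) (nat_lit 5) (nat_lit 60) (nat_lit 5) (nat_lit 417) (nat_lit 359) (nat_lit 169)) (XT.lf (nat_lit 0) (nat_lit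 8571165843) (nat_lit 420) (nat_lit 26482667381) (nat_lit 84) (nat_lit 8421615779) (nat_lit 55) (nat_lit 5) (nat_lit 60) (nat_lit 5) (nat_lit 56) (nat_lit 5) (nat_lit 418) (nat_lit 359) (nat_lit 168))))))))
noncomputable def xc176 : XT := (XT.nd (nat_lit 2538) (nat_lit 420) (nat_lit 0) (XT.nd (nat_lit 1222) (nat_lit 1008) (nat_lit 0) (XT.nd (nat_lit 564) (nat_lit 756) (nat_lit 0) (XT.nd (nat_lit 282) (nat_lit 336) (nat_lit 0) (XT.nd (nat_lit 94) (nat_lit 252) (nat_lit 0) (XT.lf (nat_lit 0) (nat_lit 15024950913) (nat_lit 420) (nat_lit 8593670801) (nat_lit 84) (nat_lit 20779865082) (nat_lit 55) (nat_lit 5) (nat_lit 60) (nat_lit 5) (nat_lit 56) (nat_lit 5) (nat_lit 419) (nat_lit 359) (nat_lit 167)) (XT.nd (nat_lit 94) (nat_lit 0) (nat_lit 0) (XT.lf (nat_lit 0) (nat_lit 10023899420) (nat_lit 252) (nat_lit 11742279139) (nat_lit 336) (nat_lit 23580225177) (nat_lit 52) (nat_lit 5) (nat_lit 55)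 (nat_lit 5) (nat_lit 56) (nat_lit 5) (nat_lit 420) (nat_lit 359) (nat_lit 166)) (XT.lf (nat_lit 0) (nat_lit 28799495317) (nat_lit 336) (nat_lit 16953297555) (nat_lit 84) (nat_lit 567272541) (nat_lit 52) (nat_lit 5) (nat_lit 56) (nat_lit 5) (nat_lit 53) (nat_lit 5) (nat_lit 421) (nat_lit 359) (nat_lit 165)))) (XT.nd (nat_lit 94) (nat_lit 84) (nat_lit 0) (XT.lf (nat_lit 0) (nat_lit 1883866289) (nat_lit 252) (nat_lit 34291887439) (nat_lit 336) (nat_lit 11143227667) (nat_lit 49) (nat_lit 5) (nat_lit 52) (nat_lit 5) (nat_lit 53) (nat_lit 5) (nat_lit 422) (nat_lit 359) (nat_lit 164)) (XT.nd (nat_lit 94) (nat_lit 84) (nat_lit 0) (XT.lf (nat_lit 0) (nat_lit 21630086573) (nat_lit 252) (nat_lit 22312017698) (nat_lit 336) (nat_lit 4400699092) (nat_lit 49) (nat_lit 5) (nat_lit 52) (nat_lit 5) (nat_lit 53) (nat_lit 5) (nat_lit 423) (nat_lit 359) (nat_lit 163)) (XT.lf (nat_lit 0) (nat_lit 2492114136)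 (nat_lit 336) (nat_lit 7456631264) (nat_lit 84) (nat_lit 39447933809) (nat_lit 48) (nat_lit 5) (nat_lit 52) (nat_lit 5) (nat_lit 49) (nat_lit 5) (nat_lit 424) (nat_lit 359) (nat_lit 162))))) (XT.nd (nat_lit 282) (nat_lit 252) (nat_lit 0) (XT.nd (nat_lit 94) (nat_lit 252) (nat_lit 0) (XT.lf (nat_lit 0) (nat_lit 9650260025) (nat_lit 336) (nat_lit 37930167834) (nat_lit 84) (nat_lit 2896028808) (nat_lit 45) (nat_lit 5) (nat_lit 49) (nat_lit 5) (nat_lit 46) (nat_lit 5) (nat_lit 425) (nat_lit 359) (nat_lit 161)) (XT.nd (nat_lit 94) (nat_lit 252) (nat_lit 0) (XT.lf (nat_lit 0) (nat_lit 17195440097) (nat_lit 336) (nat_lit 18386917807) (nat_lit 84) (nat_lit 16001103196) (nat_lit 45) (nat_lit 5) (nat_lit 49) (nat_lit 5) (nat_lit 46) (nat_lit 5) (nat_lit 426) (nat_lit 359) (nat_lit 160)) (XT.lf (nat_lit 0) (nat_lit 1773893813) (nat_lit 252) (nat_lit 23207943707) (nat_lit 336) (nat_lit 27741394562)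 (nat_lit 42) (nat_lit 5) (nat_lit 45) (nat_lit 5) (nat_lit 46) (nat_lit 5) (nat_lit 427) (nat_lit 359) (nat_lit 159)))) (XT.nd (nat_lit 188) (nat_lit 252) (nat_lit 0) (XT.nd (nat_lit 94) (nat_lit 0) (nat_lit 0) (XT.lf (nat_lit 0) (nat_lit 22913125458) (nat_lit 252) (nat_lit 10272215308) (nat_lit 336) (nat_lit 20706352221) (nat_lit 42) (nat_lit 5) (nat_lit 45) (nat_lit 5) (nat_lit 46) (nat_lit 5) (nat_lit 428) (nat_lit 359) (nat_lit 158)) (XT.lf (nat_lit 0) (nat_lit 41662176918) (nat_lit 336) (nat_lit 10441283006) (nat_lit 84) (nat_lit 2990933105) (nat_lit 42) (nat_lit 5) (nat_lit 46) (nat_lit 5) (nat_lit 43) (nat_lit 5) (nat_lit 429) (nat_lit 359) (nat_lit 157))) (XT.nd (nat_lit 94) (nat_lit 84) (nat_lit 0) (XT.lf (nat_lit 0) (nat_lit 10818339487) (nat_lit 168) (nat_lit 39778631709) (nat_lit 252) (nat_lit 5730095369) (nat_lit 40) (nat_lit 5) (nat_lit 42) (nat_lit 5) (nat_lit 43) (nat_lit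 5) (nat_lit 430) (nat_lit 359) (nat_lit 156)) (XT.lf (nat_lit 0) (nat_lit 2264541992) (nat_lit 252) (nat_lit 24689183417) (nat_lit 84) (nat_lit 30639228243) (nat_lit 39) (nat_lit 5) (nat_lit 42) (nat_lit 5) (nat_lit 40) (nat_lit 5) (nat_lit 431) (nat_lit 359) (nat_lit 155)))))) (XT.nd (nat_lit 658) (nat_lit 420) (nat_lit 0) (XT.nd (nat_lit 282) (nat_lit 336) (nat_lit 0) (XT.nd (nat_lit 94) (nat_lit 252) (nat_lit 0) (XT.lf (nat_lit 0) (nat_lit 10381871354) (nat_lit 252) (nat_lit 3304885665) (nat_lit 84) (nat_lit 45208419564) (nat_lit 39) (nat_lit 5) (nat_lit 42) (nat_lit 5) (nat_lit 40) (nat_lit 5) (nat_lit 432) (nat_lit 359) (nat_lit 154)) (XT.nd (nat_lit 94) (nat_lit 0) (nat_lit 0) (XT.lf (nat_lit 0) (nat_lit 18925906577) (nat_lit 336) (nat_lit 41142161264) (nat_lit 84) (nat_lit 162904634) (nat_lit 36) (nat_lit 5) (nat_lit 40) (nat_lit 5) (nat_lit 37) (nat_lit 5) (nat_lit 433) (nat_lit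 359) (nat_lit 153)) (XT.lf (nat_lit 0) (nat_lit 27893575180) (nat_lit 336) (nat_lit 19522645023) (nat_lit 84) (nat_lit 14185604466) (nat_lit 36) (nat_lit 5) (nat_lit 40) (nat_lit 5) (nat_lit 37) (nat_lit 5) (nat_lit 434) (nat_lit 359) (nat_lit 152)))) (XT.nd (nat_lit 188) (nat_lit 168) (nat_lit 0) (XT.nd (nat_lit 94) (nat_lit 0) (nat_lit 0) (XT.lf (nat_lit 0) (nat_lit 2797099347) (nat_lit 168) (nat_lit 34358213953) (nat_lit 252) (nat_lit 25857739692) (nat_lit 34) (nat_lit 5) (nat_lit 36) (nat_lit 5) (nat_lit 37) (nat_lit 5) (nat_lit 435) (nat_lit 359) (nat_lit 151)) (XT.lf (nat_lit 0) (nat_lit 26183721103) (nat_lit 168) (nat_lit 20706500774) (nat_lit 252) (nat_lit 17570538430) (nat_lit 34) (nat_lit 5) (nat_lit 36) (nat_lit 5) (nat_lit 37) (nat_lit 5) (nat_lit 436) (nat_lit 359) (nat_lit 150))) (XT.nd (nat_lit 94) (nat_lit 168) (nat_lit 0) (XT.lf (nat_lit 0) (nat_lit 50269116242) (nat_lit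 168) (nat_lit 6646292421) (nat_lit 252) (nat_lit 9036544894) (nat_lit 34) (nat_lit 5) (nat_lit 36) (nat_lit 5) (nat_lit 37) (nat_lit 5) (nat_lit 437) (nat_lit 359) (nat_lit 149)) (XT.lf (nat_lit 0) (nat_lit 7660567900) (nat_lit 168) (nat_lit 59728015591) (nat_lit 252) (nat_lit 94883736) (nat_lit 32) (nat_lit 5) (nat_lit 34) (nat_lit 5) (nat_lit 35) (nat_lit 5) (nat_lit 438) (nat_lit 359) (nat_lit 148))))) (XT.nd (nat_lit 282) (nat_lit 168) (nat_lit 0) (XT.nd (nat_lit 94) (nat_lit 168) (nat_lit 0) (XT.lf (nat_lit 0) (nat_lit 9161177027) (nat_lit 252) (nat_lit 37188204047) (nat_lit 84) (nat_lit 22702197659) (nat_lit 31) (nat_lit 5) (nat_lit 34) (nat_lit 5) (nat_lit 32) (nat_lit 5) (nat_lit 439) (nat_lit 359) (nat_lit 147)) (XT.nd (nat_lit 94) (nat_lit 168) (nat_lit 0) (XT.lf (nat_lit 0) (nat_lit 18691340724) (nat_lit 252) (nat_lit 13878120656) (nat_lit 84) (nat_lit 38097295636) (nat_lit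 31) (nat_lit 5) (nat_lit 34) (nat_lit 5) (nat_lit 32) (nat_lit 5) (nat_lit 440) (nat_lit 359) (nat_lit 146)) (XT.lf (nat_lit 0) (nat_lit 10330210575) (nat_lit 168) (nat_lit 18274875933) (nat_lit 252) (nat_lit 43722375243) (nat_lit 29) (nat_lit 5) (nat_lit 31) (nat_lit 5) (nat_lit 32) (nat_lit 5) (nat_lit 441) (nat_lit 359) (nat_lit 145)))) (XT.nd (nat_lit 188) (nat_lit 168) (nat_lit 0) (XT.nd (nat_lit 94) (nat_lit 0) (nat_lit 0) (XT.lf (nat_lit 0) (nat_lit 35546671159) (nat_lit 168) (nat_lit 3408114387) (nat_lit 252) (nat_lit 35079047231) (nat_lit 29) (nat_lit 5) (nat_lit 31) (nat_lit 5) (nat_lit 32) (nat_lit 5) (nat_lit 442) (nat_lit 359) (nat_lit 144)) (XT.lf (nat_lit 0) (nat_lit 49727846634) (nat_lit 252) (nat_lit 14388775192) (nat_lit 84) (nat_lit 11671388313) (nat_lit 29) (nat_lit 5) (nat_lit 32) (nat_lit 5) (nat_lit 30) (nat_lit 5) (nat_lit 443) (nat_lit 359) (nat_lit 143))) (XT.nd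 (nat_lit 94) (nat_lit 0) (nat_lit 0) (XT.lf (nat_lit 0) (nat_lit 10603230176) (nat_lit 168) (nat_lit 50355019665) (nat_lit 252) (nat_lit 16632539771) (nat_lit 27) (nat_lit 5) (nat_lit 29) (nat_lit 5) (nat_lit 30) (nat_lit 5) (nat_lit 444) (nat_lit 359) (nat_lit 142)) (XT.lf (nat_lit 0) (nat_lit 36637479808) (nat_lit 168) (nat_lit 36031886056) (nat_lit 252) (nat_lit 6773973844) (nat_lit 27) (nat_lit 5) (nat_lit 29) (nat_lit 5) (nat_lit 30) (nat_lit 5) (nat_lit 445) (nat_lit 359) (nat_lit 141))))))) (XT.nd (nat_lit 51794) (nat_lit 0) (nat_lit 11004) (XT.nd (nat_lit 658) (nat_lit 0) (nat_lit 0) (XT.nd (nat_lit 282) (nat_lit 168) (nat_lit 0) (XT.nd (nat_lit 94) (nat_lit 168) (nat_lit 0) (XT.lf (nat_lit 0) (nat_lit 3312916604) (nat_lit 252) (nat_lit 17933633489) (nat_lit 84) (nat_lit 60103986670) (nat_lit 26) (nat_lit 5) (nat_lit 29) (nat_lit 5) (nat_lit 27) (nat_lit 5) (nat_lit 446) (nat_lit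 359) (nat_lit 140)) (XT.nd (nat_lit 94) (nat_lit 0) (nat_lit 0) (XT.lf (nat_lit 0) (nat_lit 7766891341) (nat_lit 168) (nat_lit 5872605504) (nat_lit 252) (nat_lit 69671244971) (nat_lit 24) (nat_lit 5) (nat_lit 26) (nat_lit 5) (nat_lit 27) (nat_lit 5) (nat_lit 447) (nat_lit 359) (nat_lit 139)) (XT.lf (nat_lit 0) (nat_lit 24553111553) (nat_lit 252) (nat_lit 50818196220) (nat_lit 84) (nat_lit 9950129255) (nat_lit 24) (nat_lit 5) (nat_lit 27) (nat_lit 5) (nat_lit 25) (nat_lit 5) (nat_lit 448) (nat_lit 359) (nat_lit 138)))) (XT.nd (nat_lit 188) (nat_lit 0) (nat_lit 0) (XT.nd (nat_lit 94) (nat_lit 168) (nat_lit 0) (XT.lf (nat_lit 0) (nat_lit 35850903886) (nat_lit 252) (nat_lit 25411218544) (nat_lit 84) (nat_lit 26128628679) (nat_lit 24) (nat_lit 5) (nat_lit 27) (nat_lit 5) (nat_lit 25) (nat_lit 5) (nat_lit 449) (nat_lit 359) (nat_lit 137)) (XT.lf (nat_lit 0) (nat_lit 770774488) (nat_lit 168)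 (nat_lit 46722929292) (nat_lit 252) (nat_lit 42028259672) (nat_lit 22) (nat_lit 5) (nat_lit 24) (nat_lit 5) (nat_lit 25) (nat_lit 5) (nat_lit 450) (nat_lit 359) (nat_lit 136))) (XT.nd (nat_lit 94) (nat_lit 0) (nat_lit 0) (XT.lf (nat_lit 0) (nat_lit 28256919725) (nat_lit 168) (nat_lit 31484153688) (nat_lit 252) (nat_lit 31968381205) (nat_lit 22) (nat_lit 5) (nat_lit 24) (nat_lit 5) (nat_lit 25) (nat_lit 5) (nat_lit 451) (nat_lit 359) (nat_lit 135)) (XT.lf (nat_lit 0) (nat_lit 56565501113) (nat_lit 168) (nat_lit 15789083665) (nat_lit 252) (nat_lit 21608025117) (nat_lit 22) (nat_lit 5) (nat_lit 24) (nat_lit 5) (nat_lit 25) (nat_lit 5) (nat_lit 452) (nat_lit 359) (nat_lit 134))))) (XT.nd (nat_lit 50760) (nat_lit 0) (nat_lit 12936) (XT.nd (nat_lit 50572) (nat_lit 0) (nat_lit 12936) (XT.lf (nat_lit 0) (nat_lit 85348873682) (nat_lit 252) (nat_lit 10565758049) (nat_lit 84) (nat_lit 368657900)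 (nat_lit 22) (nat_lit 5) (nat_lit 25) (nat_lit 5) (nat_lit 23) (nat_lit 4) (nat_lit 453) (nat_lit 359) (nat_lit 133)) (XT.nd (nat_lit 94) (nat_lit 0) (nat_lit 0) (XT.lf (nat_lit 0) (nat_lit 5311643281) (nat_lit 1260) (nat_lit 1268945148) (nat_lit 1260) (nat_lit 1268945148) (nat_lit 176) (nat_lit 3) (nat_lit 191) (nat_lit 3) (nat_lit 191) (nat_lit 5) (nat_lit 360) (nat_lit 360) (nat_lit 225)) (XT.lf (nat_lit 84) (nat_lit 4338364656) (nat_lit 0) (nat_lit 6734867680) (nat_lit 1260) (nat_lit 4852127341) (nat_lit 177) (nat_lit 5) (nat_lit 176) (nat_lit 3) (nat_lit 191) (nat_lit 5) (nat_lit 361) (nat_lit 360) (nat_lit 224)))) (XT.nd (nat_lit 188) (nat_lit 0) (nat_lit 84) (XT.nd (nat_lit 94) (nat_lit 0) (nat_lit 84) (XT.lf (nat_lit 84) (nat_lit 11467819985) (nat_lit 0) (nat_lit 84721464) (nat_lit 1260) (nat_lit 4605442140) (nat_lit 177) (nat_lit 5) (nat_lit 176) (nat_lit 3) (nat_lit 191) (nat_lit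 5) (nat_lit 362) (nat_lit 360) (nat_lit 223)) (XT.lf (nat_lit 84) (nat_lit 2389870665) (nat_lit 0) (nat_lit 9734925715) (nat_lit 1260) (nat_lit 4270450860) (nat_lit 178) (nat_lit 5) (nat_lit 177) (nat_lit 5) (nat_lit 192) (nat_lit 5) (nat_lit 363) (nat_lit 360) (nat_lit 222))) (XT.nd (nat_lit 94) (nat_lit 0) (nat_lit 84) (XT.lf (nat_lit 84) (nat_lit 9772337804) (nat_lit 0) (nat_lit 2980862500) (nat_lit 1260) (nat_lit 3885276552) (nat_lit 178) (nat_lit 5) (nat_lit 177) (nat_lit 5) (nat_lit 192) (nat_lit 5) (nat_lit 364) (nat_lit 360) (nat_lit 221)) (XT.lf (nat_lit 84) (nat_lit 452461244) (nat_lit 0) (nat_lit 12981656940) (nat_lit 1260) (nat_lit 3453892308) (nat_lit 179) (nat_lit 5) (nat_lit 178) (nat_lit 5) (nat_lit 193) (nat_lit 5) (nat_lit 365) (nat_lit 360) (nat_lit 220)))))) (XT.nd (nat_lit 658) (nat_lit 1008) (nat_lit 0) (XT.nd (nat_lit 282) (nat_lit 1092) (nat_lit 0) (XT.nd (nat_lit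 94) (nat_lit 0) (nat_lit 84) (XT.lf (nat_lit 84) (nat_lit 8095895537) (nat_lit 0) (nat_lit 6129428954) (nat_lit 1260) (nat_lit 2917026311) (nat_lit 179) (nat_lit 5) (nat_lit 178) (nat_lit 5) (nat_lit 193) (nat_lit 5) (nat_lit 366) (nat_lit 360) (nat_lit 219)) (XT.nd (nat_lit 94) (nat_lit 0) (nat_lit 0) (XT.lf (nat_lit 0) (nat_lit 15040777585) (nat_lit 1176) (nat_lit 1450128658) (nat_lit 1260) (nat_lit 913415769) (nat_lit 179) (nat_lit 5) (nat_lit 193) (nat_lit 5) (nat_lit 194) (nat_lit 5) (nat_lit 367) (nat_lit 360) (nat_lit 218)) (XT.lf (nat_lit 84) (nat_lit 6433587282) (nat_lit 0) (nat_lit 9561469610) (nat_lit 1260) (nat_lit 1675680135) (nat_lit 180) (nat_lit 5) (nat_lit 179) (nat_lit 5) (nat_lit 194) (nat_lit 5) (nat_lit 368) (nat_lit 360) (nat_lit 217)))) (XT.nd (nat_lit 188) (nat_lit 1176) (nat_lit 0) (XT.nd (nat_lit 94) (nat_lit 0) (nat_lit 84) (XT.lf (nat_lit 84) (nat_lit 14578237913)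 (nat_lit 0) (nat_lit 2406388687) (nat_lit 1260) (nat_lit 960333121) (nat_lit 180) (nat_lit 5) (nat_lit 179) (nat_lit 5) (nat_lit 194) (nat_lit 5) (nat_lit 369) (nat_lit 360) (nat_lit 216)) (XT.lf (nat_lit 84) (nat_lit 4779961866) (nat_lit 0) (nat_lit 13309856189) (nat_lit 1260) (nat_lit 135027656) (nat_lit 181) (nat_lit 5) (nat_lit 180) (nat_lit 5) (nat_lit 195) (nat_lit 5) (nat_lit 370) (nat_lit 360) (nat_lit 215))) (XT.nd (nat_lit 94) (nat_lit 0) (nat_lit 84) (XT.lf (nat_lit 0) (nat_lit 751604252) (nat_lit 1260) (nat_lit 5308616793) (nat_lit 1344) (nat_lit 12451199237) (nat_lit 165) (nat_lit 5) (nat_lit 180) (nat_lit 5) (nat_lit 181) (nat_lit 5) (nat_lit 371) (nat_lit 360) (nat_lit 214)) (XT.lf (nat_lit 0) (nat_lit 1698608128) (nat_lit 1260) (nat_lit 15693711590) (nat_lit 1344) (nat_lit 1413151066) (nat_lit 166) (nat_lit 5) (nat_lit 181) (nat_lit 5) (nat_lit 182) (nat_lit 5) (nat_lit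 372) (nat_lit 360) (nat_lit 213))))) (XT.nd (nat_lit 282) (nat_lit 1092) (nat_lit 0) (XT.nd (nat_lit 94) (nat_lit 0) (nat_lit 0) (XT.lf (nat_lit 0) (nat_lit 2780928355) (nat_lit 1260) (nat_lit 7279268336) (nat_lit 1344) (nat_lit 9044951942) (nat_lit 166) (nat_lit 5) (nat_lit 181) (nat_lit 5) (nat_lit 182) (nat_lit 5) (nat_lit 373) (nat_lit 360) (nat_lit 212)) (XT.nd (nat_lit 94) (nat_lit 0) (nat_lit 84) (XT.lf (nat_lit 84) (nat_lit 1409710249) (nat_lit 0) (nat_lit 2492536283) (nat_lit 1344) (nat_lit 15511387073) (nat_lit 167) (nat_lit 5) (nat_lit 166) (nat_lit 5) (nat_lit 182) (nat_lit 5) (nat_lit 374) (nat_lit 360) (nat_lit 211)) (XT.lf (nat_lit 0) (nat_lit 5175550928) (nat_lit 1260) (nat_lit 9277873631) (nat_lit 1344) (nat_lit 5274410438) (nat_lit 167) (nat_lit 5) (nat_lit 182) (nat_lit 5) (nat_lit 183) (nat_lit 5) (nat_lit 375) (nat_lit 360) (nat_lit 210)))) (XT.nd (nat_lit 188) (nat_lit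 1176) (nat_lit 0) (XT.nd (nat_lit 94) (nat_lit 0) (nat_lit 84) (XT.lf (nat_lit 0) (nat_lit 6505077696) (nat_lit 1260) (nat_lit 320144699) (nat_lit 1344) (nat_lit 13225711254) (nat_lit 167) (nat_lit 5) (nat_lit 182) (nat_lit 5) (nat_lit 183) (nat_lit 5) (nat_lit 376) (nat_lit 360) (nat_lit 209)) (XT.lf (nat_lit 0) (nat_lit 7966088021) (nat_lit 1260) (nat_lit 11313908041) (nat_lit 84) (nat_lit 1100992831) (nat_lit 168) (nat_lit 5) (nat_lit 183) (nat_lit 5) (nat_lit 169) (nat_lit 5) (nat_lit 377) (nat_lit 360) (nat_lit 208))) (XT.nd (nat_lit 94) (nat_lit 1260) (nat_lit 0) (XT.lf (nat_lit 0) (nat_lit 9535457206) (nat_lit 1260) (nat_lit 2051397159) (nat_lit 84) (nat_lit 9132166802) (nat_lit 168) (nat_lit 5) (nat_lit 183) (nat_lit 5) (nat_lit 169) (nat_lit 5) (nat_lit 378) (nat_lit 360) (nat_lit 207)) (XT.lf (nat_lit 0) (nat_lit 7632662102) (nat_lit 1260) (nat_lit 3586486297) (nat_lit 1344)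 (nat_lit 9846039687) (nat_lit 153) (nat_lit 5) (nat_lit 168) (nat_lit 5) (nat_lit 169) (nat_lit 5) (nat_lit 379) (nat_lit 360) (nat_lit 206))))))))
noncomputable def xc177 : XT := (XT.nd (nat_lit 2538) (nat_lit 3696) (nat_lit 0) (XT.nd (nat_lit 1222) (nat_lit 2688) (nat_lit 0) (XT.nd (nat_lit 564) (nat_lit 1596) (nat_lit 0) (XT.nd (nat_lit 282) (nat_lit 1260) (nat_lit 0) (XT.nd (nat_lit 94) (nat_lit 588) (nat_lit 0) (XT.lf (nat_lit 0) (nat_lit 13013013609) (nat_lit 1344) (nat_lit 3822179124) (nat_lit 84) (nat_lit 4584767964) (nat_lit 153) (nat_lit 5) (nat_lit 169) (nat_lit 5) (nat_lit 154) (nat_lit 5) (nat_lit 380) (nat_lit 360) (nat_lit 205)) (XT.nd (nat_lit 94) (nat_lit 0) (nat_lit 0) (XT.lf (nat_lit 0) (nat_lit 6155834399) (nat_lit 588) (nat_lit 8793725367) (nat_lit 672) (nat_lit 6833161048) (nat_lit 146) (nat_lit 5) (nat_lit 153) (nat_lit 5) (nat_lit 154) (nat_lit 5) (nat_lit 381)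 (nat_lit 360) (nat_lit 204)) (XT.lf (nat_lit 0) (nat_lit 16506334310) (nat_lit 588) (nat_lit 470765530) (nat_lit 672) (nat_lit 5178286947) (nat_lit 146) (nat_lit 5) (nat_lit 153) (nat_lit 5) (nat_lit 154) (nat_lit 5) (nat_lit 382) (nat_lit 360) (nat_lit 203)))) (XT.nd (nat_lit 94) (nat_lit 672) (nat_lit 0) (XT.lf (nat_lit 0) (nat_lit 4635457053) (nat_lit 588) (nat_lit 14546919783) (nat_lit 672) (nat_lit 3353358267) (nat_lit 139) (nat_lit 5) (nat_lit 146) (nat_lit 5) (nat_lit 147) (nat_lit 5) (nat_lit 383) (nat_lit 360) (nat_lit 202)) (XT.nd (nat_lit 94) (nat_lit 672) (nat_lit 0) (XT.lf (nat_lit 0) (nat_lit 15334365778) (nat_lit 588) (nat_lit 6175688888) (nat_lit 672) (nat_lit 1415761332) (nat_lit 139) (nat_lit 5) (nat_lit 146) (nat_lit 5) (nat_lit 147) (nat_lit 5) (nat_lit 384) (nat_lit 360) (nat_lit 201)) (XT.lf (nat_lit 0) (nat_lit 616762365) (nat_lit 672) (nat_lit 20274638017) (nat_lit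 84) (nat_lit 2434597073) (nat_lit 131) (nat_lit 5) (nat_lit 139) (nat_lit 5) (nat_lit 132) (nat_lit 5) (nat_lit 385) (nat_lit 360) (nat_lit 200))))) (XT.nd (nat_lit 282) (nat_lit 1008) (nat_lit 0) (XT.nd (nat_lit 94) (nat_lit 588) (nat_lit 0) (XT.lf (nat_lit 0) (nat_lit 2815156267) (nat_lit 672) (nat_lit 9647997649) (nat_lit 84) (nat_lit 11270618026) (nat_lit 131) (nat_lit 5) (nat_lit 139) (nat_lit 5) (nat_lit 132) (nat_lit 5) (nat_lit 386) (nat_lit 360) (nat_lit 199)) (XT.nd (nat_lit 94) (nat_lit 0) (nat_lit 0) (XT.lf (nat_lit 0) (nat_lit 1318053294) (nat_lit 588) (nat_lit 3769057171) (nat_lit 672) (nat_lit 19066449301) (nat_lit 124) (nat_lit 5) (nat_lit 131) (nat_lit 5) (nat_lit 132) (nat_lit 5) (nat_lit 387) (nat_lit 360) (nat_lit 198)) (XT.lf (nat_lit 0) (nat_lit 7570499860) (nat_lit 672) (nat_lit 11828187075) (nat_lit 84) (nat_lit 5182964105) (nat_lit 124) (nat_lit 5) (nat_lit 132)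 (nat_lit 5) (nat_lit 125) (nat_lit 5) (nat_lit 388) (nat_lit 360) (nat_lit 197)))) (XT.nd (nat_lit 188) (nat_lit 504) (nat_lit 0) (XT.nd (nat_lit 94) (nat_lit 504) (nat_lit 0) (XT.lf (nat_lit 0) (nat_lit 10160889323) (nat_lit 672) (nat_lit 533028200) (nat_lit 84) (nat_lit 14327700453) (nat_lit 124) (nat_lit 5) (nat_lit 132) (nat_lit 5) (nat_lit 125) (nat_lit 5) (nat_lit 389) (nat_lit 360) (nat_lit 196)) (XT.lf (nat_lit 0) (nat_lit 11316903743) (nat_lit 504) (nat_lit 1616193076) (nat_lit 588) (nat_lit 12538571558) (nat_lit 118) (nat_lit 5) (nat_lit 124) (nat_lit 5) (nat_lit 125) (nat_lit 5) (nat_lit 390) (nat_lit 360) (nat_lit 195))) (XT.nd (nat_lit 94) (nat_lit 504) (nat_lit 0) (XT.lf (nat_lit 0) (nat_lit 15863657159) (nat_lit 588) (nat_lit 2481204018) (nat_lit 84) (nat_lit 7588110938) (nat_lit 118) (nat_lit 5) (nat_lit 125) (nat_lit 5) (nat_lit 119) (nat_lit 5) (nat_lit 391) (nat_lit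 360) (nat_lit 194)) (XT.lf (nat_lit 0) (nat_lit 9711198380) (nat_lit 504) (nat_lit 9275829725) (nat_lit 588) (nat_lit 7417947255) (nat_lit 112) (nat_lit 5) (nat_lit 118) (nat_lit 5) (nat_lit 119) (nat_lit 5) (nat_lit 392) (nat_lit 360) (nat_lit 193)))))) (XT.nd (nat_lit 658) (nat_lit 1260) (nat_lit 0) (XT.nd (nat_lit 282) (nat_lit 924) (nat_lit 0) (XT.nd (nat_lit 94) (nat_lit 504) (nat_lit 0) (XT.lf (nat_lit 0) (nat_lit 22225652205) (nat_lit 588) (nat_lit 4575977348) (nat_lit 84) (nat_lit 88869586) (nat_lit 112) (nat_lit 5) (nat_lit 119) (nat_lit 5) (nat_lit 113) (nat_lit 5) (nat_lit 393) (nat_lit 360) (nat_lit 192)) (XT.nd (nat_lit 94) (nat_lit 84) (nat_lit 0) (XT.lf (nat_lit 0) (nat_lit 7964119309) (nat_lit 420) (nat_lit 17761460359) (nat_lit 504) (nat_lit 1660091420) (nat_lit 107) (nat_lit 5) (nat_lit 112) (nat_lit 5) (nat_lit 113) (nat_lit 5) (nat_lit 394) (nat_lit 360) (nat_lit 191))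 (XT.lf (nat_lit 0) (nat_lit 1449253468) (nat_lit 504) (nat_lit 6939188790) (nat_lit 84) (nat_lit 19505575223) (nat_lit 106) (nat_lit 5) (nat_lit 112) (nat_lit 5) (nat_lit 107) (nat_lit 5) (nat_lit 395) (nat_lit 360) (nat_lit 190)))) (XT.nd (nat_lit 188) (nat_lit 420) (nat_lit 0) (XT.nd (nat_lit 94) (nat_lit 0) (nat_lit 0) (XT.lf (nat_lit 0) (nat_lit 4685119891) (nat_lit 588) (nat_lit 22414559942) (nat_lit 84) (nat_lit 1315449334) (nat_lit 100) (nat_lit 5) (nat_lit 107) (nat_lit 5) (nat_lit 101) (nat_lit 5) (nat_lit 396) (nat_lit 360) (nat_lit 189)) (XT.lf (nat_lit 0) (nat_lit 8167852578) (nat_lit 588) (nat_lit 9567535388) (nat_lit 84) (nat_lit 11211998565) (nat_lit 100) (nat_lit 5) (nat_lit 107) (nat_lit 5) (nat_lit 101) (nat_lit 5) (nat_lit 397) (nat_lit 360) (nat_lit 188))) (XT.nd (nat_lit 94) (nat_lit 0) (nat_lit 0) (XT.lf (nat_lit 0) (nat_lit 3733103248) (nat_lit 420) (nat_lit 8053936640)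 (nat_lit 504) (nat_lit 17707618410) (nat_lit 95) (nat_lit 5) (nat_lit 100) (nat_lit 5) (nat_lit 101) (nat_lit 5) (nat_lit 398) (nat_lit 360) (nat_lit 187)) (XT.lf (nat_lit 0) (nat_lit 15626959590) (nat_lit 504) (nat_lit 12450667967) (nat_lit 84) (nat_lit 1977361649) (nat_lit 95) (nat_lit 5) (nat_lit 101) (nat_lit 5) (nat_lit 96) (nat_lit 5) (nat_lit 399) (nat_lit 360) (nat_lit 186))))) (XT.nd (nat_lit 282) (nat_lit 840) (nat_lit 0) (XT.nd (nat_lit 94) (nat_lit 0) (nat_lit 0) (XT.lf (nat_lit 0) (nat_lit 1198619247) (nat_lit 420) (nat_lit 18470983840) (nat_lit 504) (nat_lit 10959906691) (nat_lit 90) (nat_lit 5) (nat_lit 95) (nat_lit 5) (nat_lit 96) (nat_lit 5) (nat_lit 400) (nat_lit 360) (nat_lit 185)) (XT.nd (nat_lit 94) (nat_lit 0) (nat_lit 0) (XT.lf (nat_lit 0) (nat_lit 15508082492) (nat_lit 420) (nat_lit 8447498453) (nat_lit 504) (nat_lit 7262028734) (nat_lit 90) (nat_lit 5) (nat_lit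 95) (nat_lit 5) (nat_lit 96) (nat_lit 5) (nat_lit 401) (nat_lit 360) (nat_lit 184)) (XT.lf (nat_lit 0) (nat_lit 28384604732) (nat_lit 504) (nat_lit 1599064178) (nat_lit 84) (nat_lit 1839254876) (nat_lit 90) (nat_lit 5) (nat_lit 96) (nat_lit 5) (nat_lit 91) (nat_lit 5) (nat_lit 402) (nat_lit 360) (nat_lit 183)))) (XT.nd (nat_lit 188) (nat_lit 420) (nat_lit 0) (XT.nd (nat_lit 94) (nat_lit 0) (nat_lit 0) (XT.lf (nat_lit 0) (nat_lit 698496373) (nat_lit 420) (nat_lit 19344688355) (nat_lit 84) (nat_lit 12396828681) (nat_lit 85) (nat_lit 5) (nat_lit 90) (nat_lit 5) (nat_lit 86) (nat_lit 5) (nat_lit 403) (nat_lit 360) (nat_lit 182)) (XT.lf (nat_lit 0) (nat_lit 4903168383) (nat_lit 420) (nat_lit 4850409494) (nat_lit 84) (nat_lit 23320635558) (nat_lit 85) (nat_lit 5) (nat_lit 90) (nat_lit 5) (nat_lit 86) (nat_lit 5) (nat_lit 404) (nat_lit 360) (nat_lit 181))) (XT.nd (nat_lit 94) (nat_lit 0) (nat_lit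 0) (XT.lf (nat_lit 0) (nat_lit 9338490463) (nat_lit 504) (nat_lit 23458744468) (nat_lit 84) (nat_lit 927073861) (nat_lit 80) (nat_lit 5) (nat_lit 86) (nat_lit 5) (nat_lit 81) (nat_lit 5) (nat_lit 405) (nat_lit 360) (nat_lit 180)) (XT.lf (nat_lit 0) (nat_lit 14049606743) (nat_lit 504) (nat_lit 8559371544) (nat_lit 84) (nat_lit 11780651177) (nat_lit 80) (nat_lit 5) (nat_lit 86) (nat_lit 5) (nat_lit 81) (nat_lit 5) (nat_lit 406) (nat_lit 360) (nat_lit 179))))))) (XT.nd (nat_lit 1316) (nat_lit 1596) (nat_lit 0) (XT.nd (nat_lit 658) (nat_lit 1008) (nat_lit 0) (XT.nd (nat_lit 282) (nat_lit 420) (nat_lit 0) (XT.nd (nat_lit 94) (nat_lit 336) (nat_lit 0) (XT.lf (nat_lit 0) (nat_lit 6917774332) (nat_lit 336) (nat_lit 12047576066) (nat_lit 420) (nat_lit 16107664902) (nat_lit 76) (nat_lit 5) (nat_lit 80) (nat_lit 5) (nat_lit 81) (nat_lit 5) (nat_lit 407) (nat_lit 360) (nat_lit 178)) (XT.nd (nat_lit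 94) (nat_lit 336) (nat_lit 0) (XT.lf (nat_lit 0) (nat_lit 23030535548) (nat_lit 336) (nat_lit 1081313047) (nat_lit 420) (nat_lit 11662559885) (nat_lit 76) (nat_lit 5) (nat_lit 80) (nat_lit 5) (nat_lit 81) (nat_lit 5) (nat_lit 408) (nat_lit 360) (nat_lit 177)) (XT.lf (nat_lit 0) (nat_lit 3087784176) (nat_lit 336) (nat_lit 26449753579) (nat_lit 420) (nat_lit 6955565929) (nat_lit 72) (nat_lit 5) (nat_lit 76) (nat_lit 5) (nat_lit 77) (nat_lit 5) (nat_lit 409) (nat_lit 360) (nat_lit 176)))) (XT.nd (nat_lit 188) (nat_lit 336) (nat_lit 0) (XT.nd (nat_lit 94) (nat_lit 84) (nat_lit 0) (XT.lf (nat_lit 0) (nat_lit 19640626041) (nat_lit 336) (nat_lit 15621642635) (nat_lit 420) (nat_lit 1967006926) (nat_lit 72) (nat_lit 5) (nat_lit 76) (nat_lit 5) (nat_lit 77) (nat_lit 5) (nat_lit 410) (nat_lit 360) (nat_lit 175)) (XT.lf (nat_lit 0) (nat_lit 3106364085) (nat_lit 420) (nat_lit 1331989652) (nat_lit 84)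 (nat_lit 33548357088) (nat_lit 71) (nat_lit 5) (nat_lit 76) (nat_lit 5) (nat_lit 72) (nat_lit 5) (nat_lit 411) (nat_lit 360) (nat_lit 174))) (XT.nd (nat_lit 94) (nat_lit 0) (nat_lit 0) (XT.lf (nat_lit 0) (nat_lit 8510135138) (nat_lit 420) (nat_lit 23136330309) (nat_lit 84) (nat_lit 7113291035) (nat_lit 67) (nat_lit 5) (nat_lit 72) (nat_lit 5) (nat_lit 68) (nat_lit 5) (nat_lit 412) (nat_lit 360) (nat_lit 173)) (XT.lf (nat_lit 0) (nat_lit 14130706899) (nat_lit 420) (nat_lit 6488807686) (nat_lit 84) (nat_lit 18934841842) (nat_lit 67) (nat_lit 5) (nat_lit 72) (nat_lit 5) (nat_lit 68) (nat_lit 5) (nat_lit 413) (nat_lit 360) (nat_lit 172))))) (XT.nd (nat_lit 282) (nat_lit 420) (nat_lit 0) (XT.nd (nat_lit 94) (nat_lit 252) (nat_lit 0) (XT.lf (nat_lit 0) (nat_lit 10866347853) (nat_lit 336) (nat_lit 9155244490) (nat_lit 420) (nat_lit 20348154574) (nat_lit 63) (nat_lit 5) (nat_lit 67) (nat_lit 5)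 (nat_lit 68) (nat_lit 5) (nat_lit 414) (nat_lit 360) (nat_lit 171)) (XT.nd (nat_lit 94) (nat_lit 252) (nat_lit 0) (XT.lf (nat_lit 0) (nat_lit 26178155106) (nat_lit 420) (nat_lit 12362482806) (nat_lit 84) (nat_lit 2666296030) (nat_lit 63) (nat_lit 5) (nat_lit 68) (nat_lit 5) (nat_lit 64) (nat_lit 5) (nat_lit 415) (nat_lit 360) (nat_lit 170)) (XT.lf (nat_lit 0) (nat_lit 5301712109) (nat_lit 252) (nat_lit 27356667222) (nat_lit 336) (nat_lit 9406691554) (nat_lit 60) (nat_lit 5) (nat_lit 63) (nat_lit 5) (nat_lit 64) (nat_lit 5) (nat_lit 416) (nat_lit 360) (nat_lit 169)))) (XT.nd (nat_lit 188) (nat_lit 336) (nat_lit 0) (XT.nd (nat_lit 94) (nat_lit 84) (nat_lit 0) (XT.lf (nat_lit 0) (nat_lit 23745530150) (nat_lit 252) (nat_lit 15709713519) (nat_lit 336) (nat_lit 3490044415) (nat_lit 60) (nat_lit 5) (nat_lit 63) (nat_lit 5) (nat_lit 64) (nat_lit 5) (nat_lit 417) (nat_lit 360) (nat_lit 168)) (XT.lf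 (nat_lit 0) (nat_lit 2550731078) (nat_lit 336) (nat_lit 1137948229) (nat_lit 84) (nat_lit 40162561165) (nat_lit 59) (nat_lit 5) (nat_lit 63) (nat_lit 5) (nat_lit 60) (nat_lit 5) (nat_lit 418) (nat_lit 360) (nat_lit 167))) (XT.nd (nat_lit 94) (nat_lit 0) (nat_lit 0) (XT.lf (nat_lit 0) (nat_lit 8956546749) (nat_lit 420) (nat_lit 27089427903) (nat_lit 84) (nat_lit 8729744116) (nat_lit 55) (nat_lit 5) (nat_lit 60) (nat_lit 5) (nat_lit 56) (nat_lit 5) (nat_lit 419) (nat_lit 360) (nat_lit 166)) (XT.lf (nat_lit 0) (nat_lit 15600210053) (nat_lit 420) (nat_lit 8669228984) (nat_lit 84) (nat_lit 21457124980) (nat_lit 55) (nat_lit 5) (nat_lit 60) (nat_lit 5) (nat_lit 56) (nat_lit 5) (nat_lit 420) (nat_lit 360) (nat_lit 165)))))) (XT.nd (nat_lit 658) (nat_lit 756) (nat_lit 0) (XT.nd (nat_lit 282) (nat_lit 336) (nat_lit 0) (XT.nd (nat_lit 94) (nat_lit 252) (nat_lit 0) (XT.lf (nat_lit 0) (nat_lit 10505081560)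 (nat_lit 252) (nat_lit 12036701187) (nat_lit 336) (nat_lit 24161196609) (nat_lit 52) (nat_lit 5) (nat_lit 55) (nat_lit 5) (nat_lit 56) (nat_lit 5) (nat_lit 421) (nat_lit 360) (nat_lit 164)) (XT.nd (nat_lit 94) (nat_lit 252) (nat_lit 0) (XT.lf (nat_lit 0) (nat_lit 29783067444) (nat_lit 336) (nat_lit 17283522118) (nat_lit 84) (nat_lit 639356286) (nat_lit 52) (nat_lit 5) (nat_lit 56) (nat_lit 5) (nat_lit 53) (nat_lit 5) (nat_lit 422) (nat_lit 360) (nat_lit 163)) (XT.lf (nat_lit 0) (nat_lit 2117007873) (nat_lit 252) (nat_lit 35261820443) (nat_lit 336) (nat_lit 11356058452) (nat_lit 49) (nat_lit 5) (nat_lit 52) (nat_lit 5) (nat_lit 53) (nat_lit 5) (nat_lit 423) (nat_lit 360) (nat_lit 162)))) (XT.nd (nat_lit 188) (nat_lit 252) (nat_lit 0) (XT.nd (nat_lit 94) (nat_lit 84) (nat_lit 0) (XT.lf (nat_lit 0) (nat_lit 22450470331) (nat_lit 252) (nat_lit 22924267919) (nat_lit 336) (nat_lit 4414791866)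 (nat_lit 49) (nat_lit 5) (nat_lit 52) (nat_lit 5) (nat_lit 53) (nat_lit 5) (nat_lit 424) (nat_lit 360) (nat_lit 161)) (XT.lf (nat_lit 0) (nat_lit 2679136779) (nat_lit 336) (nat_lit 7511490483) (nat_lit 84) (nat_lit 40684465570) (nat_lit 48) (nat_lit 5) (nat_lit 52) (nat_lit 5) (nat_lit 49) (nat_lit 5) (nat_lit 425) (nat_lit 360) (nat_lit 160))) (XT.nd (nat_lit 94) (nat_lit 0) (nat_lit 0) (XT.lf (nat_lit 0) (nat_lit 10050908394) (nat_lit 336) (nat_lit 38897998988) (nat_lit 84) (nat_lit 3038393257) (nat_lit 45) (nat_lit 5) (nat_lit 49) (nat_lit 5) (nat_lit 46) (nat_lit 5) (nat_lit 426) (nat_lit 360) (nat_lit 159)) (XT.lf (nat_lit 0) (nat_lit 17819206764) (nat_lit 336) (nat_lit 18773405068) (nat_lit 84) (nat_lit 16535003850) (nat_lit 45) (nat_lit 5) (nat_lit 49) (nat_lit 5) (nat_lit 46) (nat_lit 5) (nat_lit 427) (nat_lit 360) (nat_lit 158))))) (XT.nd (nat_lit 282) (nat_lit 504) (nat_lit 0)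 (XT.nd (nat_lit 94) (nat_lit 0) (nat_lit 0) (XT.lf (nat_lit 0) (nat_lit 1990612074) (nat_lit 252) (nat_lit 23847012892) (nat_lit 336) (nat_lit 28464005228) (nat_lit 42) (nat_lit 5) (nat_lit 45) (nat_lit 5) (nat_lit 46) (nat_lit 5) (nat_lit 428) (nat_lit 360) (nat_lit 157)) (XT.nd (nat_lit 94) (nat_lit 0) (nat_lit 0) (XT.lf (nat_lit 0) (nat_lit 23759258491) (nat_lit 252) (nat_lit 10524877762) (nat_lit 336) (nat_lit 21221104757) (nat_lit 42) (nat_lit 5) (nat_lit 45) (nat_lit 5) (nat_lit 46) (nat_lit 5) (nat_lit 429) (nat_lit 360) (nat_lit 156)) (XT.lf (nat_lit 0) (nat_lit 43012788635) (nat_lit 336) (nat_lit 10597814217) (nat_lit 84) (nat_lit 3133496946) (nat_lit 42) (nat_lit 5) (nat_lit 46) (nat_lit 5) (nat_lit 43) (nat_lit 5) (nat_lit 430) (nat_lit 360) (nat_lit 155)))) (XT.nd (nat_lit 188) (nat_lit 252) (nat_lit 0) (XT.nd (nat_lit 94) (nat_lit 84) (nat_lit 0) (XT.lf (nat_lit 0) (nat_lit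 11298060605) (nat_lit 168) (nat_lit 40916123373) (nat_lit 252) (nat_lit 5799615834) (nat_lit 40) (nat_lit 5) (nat_lit 42) (nat_lit 5) (nat_lit 43) (nat_lit 5) (nat_lit 431) (nat_lit 360) (nat_lit 154)) (XT.lf (nat_lit 0) (nat_lit 2429938977) (nat_lit 252) (nat_lit 25277173947) (nat_lit 84) (nat_lit 31610611594) (nat_lit 39) (nat_lit 5) (nat_lit 42) (nat_lit 5) (nat_lit 40) (nat_lit 5) (nat_lit 432) (nat_lit 360) (nat_lit 153))) (XT.nd (nat_lit 94) (nat_lit 252) (nat_lit 0) (XT.lf (nat_lit 0) (nat_lit 10787949558) (nat_lit 252) (nat_lit 3255794398) (nat_lit 84) (nat_lit 46615358077) (nat_lit 39) (nat_lit 5) (nat_lit 42) (nat_lit 5) (nat_lit 40) (nat_lit 5) (nat_lit 433) (nat_lit 360) (nat_lit 152)) (XT.lf (nat_lit 0) (nat_lit 19587475184) (nat_lit 336) (nat_lit 42227269082) (nat_lit 84) (nat_lit 220255111) (nat_lit 36) (nat_lit 5) (nat_lit 40) (nat_lit 5) (nat_lit 37) (nat_lit 5) (nat_lit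 434) (nat_lit 360) (nat_lit 151))))))))
noncomputable def xc178 : XT := (XT.nd (nat_lit 53016) (nat_lit 0) (nat_lit 7140) (XT.nd (nat_lit 1222) (nat_lit 336) (nat_lit 0) (XT.nd (nat_lit 564) (nat_lit 420) (nat_lit 0) (XT.nd (nat_lit 282) (nat_lit 252) (nat_lit 0) (XT.nd (nat_lit 94) (nat_lit 168) (nat_lit 0) (XT.lf (nat_lit 0) (nat_lit 28821442057) (nat_lit 336) (nat_lit 19963511733) (nat_lit 84) (nat_lit 14662107880) (nat_lit 36) (nat_lit 5) (nat_lit 40) (nat_lit 5) (nat_lit 37) (nat_lit 5) (nat_lit 435) (nat_lit 360) (nat_lit 150)) (XT.nd (nat_lit 94) (nat_lit 0) (nat_lit 0) (XT.lf (nat_lit 0) (nat_lit 3024405237) (nat_lit 168) (nat_lit 35335353242) (nat_lit 252) (nat_lit 26540909081) (nat_lit 34) (nat_lit 5) (nat_lit 36) (nat_lit 5) (nat_lit 37) (nat_lit 5) (nat_lit 436) (nat_lit 360) (nat_lit 149)) (XT.lf (nat_lit 0) (nat_lit 27108449153) (nat_lit 168) (nat_lit 21275650040) (nat_lit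 252) (nat_lit 18007787785) (nat_lit 34) (nat_lit 5) (nat_lit 36) (nat_lit 5) (nat_lit 37) (nat_lit 5) (nat_lit 437) (nat_lit 360) (nat_lit 148)))) (XT.nd (nat_lit 94) (nat_lit 252) (nat_lit 0) (XT.lf (nat_lit 0) (nat_lit 51912351299) (nat_lit 168) (nat_lit 6795151332) (nat_lit 252) (nat_lit 9220391923) (nat_lit 34) (nat_lit 5) (nat_lit 36) (nat_lit 5) (nat_lit 37) (nat_lit 5) (nat_lit 438) (nat_lit 360) (nat_lit 147)) (XT.nd (nat_lit 94) (nat_lit 84) (nat_lit 0) (XT.lf (nat_lit 0) (nat_lit 8026332378) (nat_lit 168) (nat_lit 61467853712) (nat_lit 252) (nat_lit 11190435) (nat_lit 32) (nat_lit 5) (nat_lit 34) (nat_lit 5) (nat_lit 35) (nat_lit 5) (nat_lit 439) (nat_lit 360) (nat_lit 146)) (XT.lf (nat_lit 0) (nat_lit 9518392057) (nat_lit 252) (nat_lit 38170150861) (nat_lit 84) (nat_lit 23432039803) (nat_lit 31) (nat_lit 5) (nat_lit 34) (nat_lit 5) (nat_lit 32) (nat_lit 5) (nat_lit 440) (nat_lit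 360) (nat_lit 145))))) (XT.nd (nat_lit 282) (nat_lit 252) (nat_lit 0) (XT.nd (nat_lit 94) (nat_lit 168) (nat_lit 0) (XT.lf (nat_lit 0) (nat_lit 19332061255) (nat_lit 252) (nat_lit 14164659123) (nat_lit 84) (nat_lit 39287570053) (nat_lit 31) (nat_lit 5) (nat_lit 34) (nat_lit 5) (nat_lit 32) (nat_lit 5) (nat_lit 441) (nat_lit 360) (nat_lit 144)) (XT.nd (nat_lit 94) (nat_lit 0) (nat_lit 0) (XT.lf (nat_lit 0) (nat_lit 10768649445) (nat_lit 168) (nat_lit 18773475977) (nat_lit 252) (nat_lit 44952725740) (nat_lit 29) (nat_lit 5) (nat_lit 31) (nat_lit 5) (nat_lit 32) (nat_lit 5) (nat_lit 442) (nat_lit 360) (nat_lit 143)) (XT.lf (nat_lit 0) (nat_lit 36737860181) (nat_lit 168) (nat_lit 3462157591) (nat_lit 252) (nat_lit 36052466455) (nat_lit 29) (nat_lit 5) (nat_lit 31) (nat_lit 5) (nat_lit 32) (nat_lit 5) (nat_lit 443) (nat_lit 360) (nat_lit 142)))) (XT.nd (nat_lit 188) (nat_lit 84) (nat_lit 0)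 (XT.nd (nat_lit 94) (nat_lit 168) (nat_lit 0) (XT.lf (nat_lit 0) (nat_lit 51294489790) (nat_lit 252) (nat_lit 14697439331) (nat_lit 84) (nat_lit 12067413134) (nat_lit 29) (nat_lit 5) (nat_lit 32) (nat_lit 5) (nat_lit 30) (nat_lit 5) (nat_lit 444) (nat_lit 360) (nat_lit 141)) (XT.lf (nat_lit 0) (nat_lit 11043120325) (nat_lit 168) (nat_lit 51817676653) (nat_lit 252) (nat_lit 17055440241) (nat_lit 27) (nat_lit 5) (nat_lit 29) (nat_lit 5) (nat_lit 30) (nat_lit 5) (nat_lit 445) (nat_lit 360) (nat_lit 140))) (XT.nd (nat_lit 94) (nat_lit 84) (nat_lit 0) (XT.lf (nat_lit 0) (nat_lit 37854850070) (nat_lit 168) (nat_lit 37066246907) (nat_lit 252) (nat_lit 6903333133) (nat_lit 27) (nat_lit 5) (nat_lit 29) (nat_lit 5) (nat_lit 30) (nat_lit 5) (nat_lit 446) (nat_lit 360) (nat_lit 139)) (XT.lf (nat_lit 0) (nat_lit 3482613474) (nat_lit 252) (nat_lit 18355384562) (nat_lit 84) (nat_lit 61950888725) (nat_lit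 26) (nat_lit 5) (nat_lit 29) (nat_lit 5) (nat_lit 27) (nat_lit 5) (nat_lit 447) (nat_lit 360) (nat_lit 138)))))) (XT.nd (nat_lit 51136) (nat_lit 0) (nat_lit 12936) (XT.nd (nat_lit 282) (nat_lit 168) (nat_lit 0) (XT.nd (nat_lit 94) (nat_lit 0) (nat_lit 0) (XT.lf (nat_lit 0) (nat_lit 8115016229) (nat_lit 168) (nat_lit 6003033633) (nat_lit 252) (nat_lit 71689877996) (nat_lit 24) (nat_lit 5) (nat_lit 26) (nat_lit 5) (nat_lit 27) (nat_lit 5) (nat_lit 448) (nat_lit 360) (nat_lit 137)) (XT.nd (nat_lit 94) (nat_lit 0) (nat_lit 0) (XT.lf (nat_lit 0) (nat_lit 25357479550) (nat_lit 252) (nat_lit 52229329891) (nat_lit 84) (nat_lit 10292183898) (nat_lit 24) (nat_lit 5) (nat_lit 27) (nat_lit 5) (nat_lit 25) (nat_lit 5) (nat_lit 449) (nat_lit 360) (nat_lit 136)) (XT.lf (nat_lit 0) (nat_lit 36992231633) (nat_lit 252) (nat_lit 26063446152) (nat_lit 84) (nat_lit 26954769835) (nat_lit 24) (nat_lit 5) (nat_lit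 27) (nat_lit 5) (nat_lit 25) (nat_lit 5) (nat_lit 450) (nat_lit 360) (nat_lit 135)))) (XT.nd (nat_lit 188) (nat_lit 0) (nat_lit 0) (XT.nd (nat_lit 94) (nat_lit 0) (nat_lit 0) (XT.lf (nat_lit 0) (nat_lit 902927171) (nat_lit 168) (nat_lit 48080519888) (nat_lit 252) (nat_lit 43222176845) (nat_lit 22) (nat_lit 5) (nat_lit 24) (nat_lit 5) (nat_lit 25) (nat_lit 5) (nat_lit 451) (nat_lit 360) (nat_lit 134)) (XT.lf (nat_lit 0) (nat_lit 29210481151) (nat_lit 168) (nat_lit 32385865403) (nat_lit 252) (nat_lit 32862451459) (nat_lit 22) (nat_lit 5) (nat_lit 24) (nat_lit 5) (nat_lit 25) (nat_lit 5) (nat_lit 452) (nat_lit 360) (nat_lit 133))) (XT.nd (nat_lit 94) (nat_lit 0) (nat_lit 0) (XT.lf (nat_lit 0) (nat_lit 58365236858) (nat_lit 168) (nat_lit 16221190257) (nat_lit 252) (nat_lit 22193177344) (nat_lit 22) (nat_lit 5) (nat_lit 24) (nat_lit 5) (nat_lit 25) (nat_lit 5) (nat_lit 453) (nat_lit 360) (nat_lit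 132)) (XT.lf (nat_lit 0) (nat_lit 87969149941) (nat_lit 252) (nat_lit 10781512453) (nat_lit 84) (nat_lit 419285421) (nat_lit 22) (nat_lit 5) (nat_lit 25) (nat_lit 5) (nat_lit 23) (nat_lit 4) (nat_lit 454) (nat_lit 360) (nat_lit 131))))) (XT.nd (nat_lit 282) (nat_lit 0) (nat_lit 84) (XT.nd (nat_lit 94) (nat_lit 0) (nat_lit 0) (XT.lf (nat_lit 0) (nat_lit 5717493524) (nat_lit 1260) (nat_lit 1179830007) (nat_lit 1260) (nat_lit 1179830007) (nat_lit 176) (nat_lit 3) (nat_lit 191) (nat_lit 3) (nat_lit 191) (nat_lit 5) (nat_lit 361) (nat_lit 361) (nat_lit 223)) (XT.nd (nat_lit 94) (nat_lit 0) (nat_lit 0) (XT.lf (nat_lit 84) (nat_lit 4720388794) (nat_lit 0) (nat_lit 7166104283) (nat_lit 1260) (nat_lit 4501280879) (nat_lit 177) (nat_lit 5) (nat_lit 176) (nat_lit 3) (nat_lit 191) (nat_lit 5) (nat_lit 362) (nat_lit 361) (nat_lit 222)) (XT.lf (nat_lit 84) (nat_lit 12056391669) (nat_lit 0) (nat_lit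 309778227) (nat_lit 1260) (nat_lit 4261653673) (nat_lit 177) (nat_lit 5) (nat_lit 176) (nat_lit 3) (nat_lit 191) (nat_lit 5) (nat_lit 363) (nat_lit 361) (nat_lit 221)))) (XT.nd (nat_lit 188) (nat_lit 0) (nat_lit 84) (XT.nd (nat_lit 94) (nat_lit 0) (nat_lit 0) (XT.lf (nat_lit 84) (nat_lit 2720577882) (nat_lit 0) (nat_lit 10221824253) (nat_lit 1260) (nat_lit 3930224570) (nat_lit 178) (nat_lit 5) (nat_lit 177) (nat_lit 5) (nat_lit 192) (nat_lit 5) (nat_lit 364) (nat_lit 361) (nat_lit 220)) (XT.lf (nat_lit 84) (nat_lit 10316975022) (nat_lit 0) (nat_lit 3259463877) (nat_lit 1260) (nat_lit 3547135998) (nat_lit 178) (nat_lit 5) (nat_lit 177) (nat_lit 5) (nat_lit 192) (nat_lit 5) (nat_lit 365) (nat_lit 361) (nat_lit 219))) (XT.nd (nat_lit 94) (nat_lit 0) (nat_lit 0) (XT.lf (nat_lit 84) (nat_lit 730755904) (nat_lit 0) (nat_lit 13534973314) (nat_lit 1260) (nat_lit 3115251355) (nat_lit 179) (nat_lit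 5) (nat_lit 178) (nat_lit 5) (nat_lit 193) (nat_lit 5) (nat_lit 366) (nat_lit 361) (nat_lit 218)) (XT.lf (nat_lit 84) (nat_lit 8595782910) (nat_lit 0) (nat_lit 6472405674) (nat_lit 1260) (nat_lit 2575160670) (nat_lit 179) (nat_lit 5) (nat_lit 178) (nat_lit 5) (nat_lit 193) (nat_lit 5) (nat_lit 367) (nat_lit 361) (nat_lit 217))))))) (XT.nd (nat_lit 1316) (nat_lit 3864) (nat_lit 0) (XT.nd (nat_lit 658) (nat_lit 1008) (nat_lit 0) (XT.nd (nat_lit 282) (nat_lit 1176) (nat_lit 0) (XT.nd (nat_lit 94) (nat_lit 0) (nat_lit 0) (XT.lf (nat_lit 0) (nat_lit 15894500962) (nat_lit 1176) (nat_lit 1229737482) (nat_lit 1260) (nat_lit 789372265) (nat_lit 179) (nat_lit 5) (nat_lit 193) (nat_lit 5) (nat_lit 194) (nat_lit 5) (nat_lit 368) (nat_lit 361) (nat_lit 216)) (XT.nd (nat_lit 94) (nat_lit 0) (nat_lit 0) (XT.lf (nat_lit 84) (nat_lit 6887902730) (nat_lit 0) (nat_lit 9980294466) (nat_lit 1260) (nat_lit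 1320119631) (nat_lit 180) (nat_lit 5) (nat_lit 179) (nat_lit 5) (nat_lit 194) (nat_lit 5) (nat_lit 369) (nat_lit 361) (nat_lit 215)) (XT.lf (nat_lit 84) (nat_lit 15269281973) (nat_lit 0) (nat_lit 2606717015) (nat_lit 1260) (nat_lit 595132525) (nat_lit 180) (nat_lit 5) (nat_lit 179) (nat_lit 5) (nat_lit 194) (nat_lit 5) (nat_lit 370) (nat_lit 361) (nat_lit 214)))) (XT.nd (nat_lit 188) (nat_lit 0) (nat_lit 84) (XT.nd (nat_lit 94) (nat_lit 0) (nat_lit 0) (XT.lf (nat_lit 0) (nat_lit 240065253) (nat_lit 1260) (nat_lit 13574234246) (nat_lit 1344) (nat_lit 4945358248) (nat_lit 165) (nat_lit 5) (nat_lit 180) (nat_lit 5) (nat_lit 181) (nat_lit 5) (nat_lit 371) (nat_lit 361) (nat_lit 213)) (XT.lf (nat_lit 0) (nat_lit 1139618222) (nat_lit 1260) (nat_lit 5203157620) (nat_lit 1344) (nat_lit 12712362347) (nat_lit 165) (nat_lit 5) (nat_lit 180) (nat_lit 5) (nat_lit 181) (nat_lit 5) (nat_lit 372) (nat_lit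 361) (nat_lit 212))) (XT.nd (nat_lit 94) (nat_lit 0) (nat_lit 0) (XT.lf (nat_lit 0) (nat_lit 2105991960) (nat_lit 1260) (nat_lit 15890123526) (nat_lit 1344) (nat_lit 1362185172) (nat_lit 166) (nat_lit 5) (nat_lit 181) (nat_lit 5) (nat_lit 182) (nat_lit 5) (nat_lit 373) (nat_lit 361) (nat_lit 211)) (XT.lf (nat_lit 0) (nat_lit 3210400466) (nat_lit 1260) (nat_lit 7231239190) (nat_lit 1344) (nat_lit 9225659310) (nat_lit 166) (nat_lit 5) (nat_lit 181) (nat_lit 5) (nat_lit 182) (nat_lit 5) (nat_lit 374) (nat_lit 361) (nat_lit 210))))) (XT.nd (nat_lit 282) (nat_lit 1092) (nat_lit 0) (XT.nd (nat_lit 94) (nat_lit 0) (nat_lit 84) (XT.lf (nat_lit 84) (nat_lit 1715796917) (nat_lit 0) (nat_lit 2642018075) (nat_lit 1344) (nat_lit 15627467932) (nat_lit 167) (nat_lit 5) (nat_lit 166) (nat_lit 5) (nat_lit 182) (nat_lit 5) (nat_lit 375) (nat_lit 361) (nat_lit 209)) (XT.nd (nat_lit 94) (nat_lit 0) (nat_lit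 0) (XT.lf (nat_lit 0) (nat_lit 5658762065) (nat_lit 1260) (nat_lit 9288954338) (nat_lit 1344) (nat_lit 5361528260) (nat_lit 167) (nat_lit 5) (nat_lit 182) (nat_lit 5) (nat_lit 183) (nat_lit 5) (nat_lit 376) (nat_lit 361) (nat_lit 208)) (XT.lf (nat_lit 0) (nat_lit 7018622851) (nat_lit 1260) (nat_lit 70277678) (nat_lit 1344) (nat_lit 13553439396) (nat_lit 167) (nat_lit 5) (nat_lit 182) (nat_lit 5) (nat_lit 183) (nat_lit 5) (nat_lit 377) (nat_lit 361) (nat_lit 207)))) (XT.nd (nat_lit 188) (nat_lit 1260) (nat_lit 0) (XT.nd (nat_lit 94) (nat_lit 0) (nat_lit 0) (XT.lf (nat_lit 0) (nat_lit 8516134214) (nat_lit 1260) (nat_lit 11385971301) (nat_lit 84) (nat_lit 1080427791) (nat_lit 168) (nat_lit 5) (nat_lit 183) (nat_lit 5) (nat_lit 169) (nat_lit 5) (nat_lit 378) (nat_lit 361) (nat_lit 206)) (XT.lf (nat_lit 0) (nat_lit 10123524371) (nat_lit 1260) (nat_lit 1853372102) (nat_lit 84) (nat_lit 9354097996)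 (nat_lit 168) (nat_lit 5) (nat_lit 183) (nat_lit 5) (nat_lit 169) (nat_lit 5) (nat_lit 379) (nat_lit 361) (nat_lit 205))) (XT.nd (nat_lit 94) (nat_lit 0) (nat_lit 0) (XT.lf (nat_lit 0) (nat_lit 8118664163) (nat_lit 1260) (nat_lit 3732736574) (nat_lit 1344) (nat_lit 9836351072) (nat_lit 153) (nat_lit 5) (nat_lit 168) (nat_lit 5) (nat_lit 169) (nat_lit 5) (nat_lit 380) (nat_lit 361) (nat_lit 204)) (XT.lf (nat_lit 0) (nat_lit 13690109167) (nat_lit 1344) (nat_lit 3677829255) (nat_lit 84) (nat_lit 4685513551) (nat_lit 153) (nat_lit 5) (nat_lit 169) (nat_lit 5) (nat_lit 154) (nat_lit 5) (nat_lit 381) (nat_lit 361) (nat_lit 203)))))) (XT.nd (nat_lit 658) (nat_lit 1428) (nat_lit 0) (XT.nd (nat_lit 282) (nat_lit 1260) (nat_lit 0) (XT.nd (nat_lit 94) (nat_lit 588) (nat_lit 0) (XT.lf (nat_lit 0) (nat_lit 6596985309) (nat_lit 588) (nat_lit 9081881168) (nat_lit 672) (nat_lit 6748419723) (nat_lit 146)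 (nat_lit 5) (nat_lit 153) (nat_lit 5) (nat_lit 154) (nat_lit 5) (nat_lit 382) (nat_lit 361) (nat_lit 202)) (XT.nd (nat_lit 94) (nat_lit 588) (nat_lit 0) (XT.lf (nat_lit 0) (nat_lit 17250530045) (nat_lit 588) (nat_lit 508523486) (nat_lit 672) (nat_lit 5052338316) (nat_lit 146) (nat_lit 5) (nat_lit 153) (nat_lit 5) (nat_lit 154) (nat_lit 5) (nat_lit 383) (nat_lit 361) (nat_lit 201)) (XT.lf (nat_lit 0) (nat_lit 5029881880) (nat_lit 588) (nat_lit 14994900077) (nat_lit 672) (nat_lit 3178553765) (nat_lit 139) (nat_lit 5) (nat_lit 146) (nat_lit 5) (nat_lit 147) (nat_lit 5) (nat_lit 384) (nat_lit 361) (nat_lit 200)))) (XT.nd (nat_lit 188) (nat_lit 588) (nat_lit 0) (XT.nd (nat_lit 94) (nat_lit 672) (nat_lit 0) (XT.lf (nat_lit 0) (nat_lit 16042320164) (nat_lit 588) (nat_lit 6372195186) (nat_lit 672) (nat_lit 1190850435) (nat_lit 139) (nat_lit 5) (nat_lit 146) (nat_lit 5) (nat_lit 147) (nat_lit 5)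 (nat_lit 385) (nat_lit 361) (nat_lit 199)) (XT.lf (nat_lit 0) (nat_lit 892152842) (nat_lit 672) (nat_lit 20623596700) (nat_lit 84) (nat_lit 2501897114) (nat_lit 131) (nat_lit 5) (nat_lit 139) (nat_lit 5) (nat_lit 132) (nat_lit 5) (nat_lit 386) (nat_lit 361) (nat_lit 198))) (XT.nd (nat_lit 94) (nat_lit 588) (nat_lit 0) (XT.lf (nat_lit 0) (nat_lit 3149016398) (nat_lit 672) (nat_lit 9685708979) (nat_lit 84) (nat_lit 11603165818) (nat_lit 131) (nat_lit 5) (nat_lit 139) (nat_lit 5) (nat_lit 132) (nat_lit 5) (nat_lit 387) (nat_lit 361) (nat_lit 197)) (XT.lf (nat_lit 0) (nat_lit 1606855565) (nat_lit 588) (nat_lit 3877405466) (nat_lit 672) (nat_lit 19386169660) (nat_lit 124) (nat_lit 5) (nat_lit 131) (nat_lit 5) (nat_lit 132) (nat_lit 5) (nat_lit 388) (nat_lit 361) (nat_lit 196))))) (XT.nd (nat_lit 282) (nat_lit 924) (nat_lit 0) (XT.nd (nat_lit 94) (nat_lit 504) (nat_lit 0) (XT.lf (nat_lit 0)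 (nat_lit 8035073746) (nat_lit 672) (nat_lit 11933565565) (nat_lit 84) (nat_lit 5342949386) (nat_lit 124) (nat_lit 5) (nat_lit 132) (nat_lit 5) (nat_lit 125) (nat_lit 5) (nat_lit 389) (nat_lit 361) (nat_lit 195)) (XT.nd (nat_lit 94) (nat_lit 504) (nat_lit 0) (XT.lf (nat_lit 0) (nat_lit 10696258615) (nat_lit 672) (nat_lit 306817957) (nat_lit 84) (nat_lit 14761896863) (nat_lit 124) (nat_lit 5) (nat_lit 132) (nat_lit 5) (nat_lit 125) (nat_lit 5) (nat_lit 390) (nat_lit 361) (nat_lit 194)) (XT.lf (nat_lit 0) (nat_lit 11896237424) (nat_lit 504) (nat_lit 1650985438) (nat_lit 588) (nat_lit 12681445744) (nat_lit 118) (nat_lit 5) (nat_lit 124) (nat_lit 5) (nat_lit 125) (nat_lit 5) (nat_lit 391) (nat_lit 361) (nat_lit 193)))) (XT.nd (nat_lit 188) (nat_lit 420) (nat_lit 0) (XT.nd (nat_lit 94) (nat_lit 504) (nat_lit 0) (XT.lf (nat_lit 0) (nat_lit 16559241405) (nat_lit 588) (nat_lit 2315985031) (nat_lit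 84) (nat_lit 7828789434) (nat_lit 118) (nat_lit 5) (nat_lit 125) (nat_lit 5) (nat_lit 119) (nat_lit 5) (nat_lit 392) (nat_lit 361) (nat_lit 192)) (XT.lf (nat_lit 0) (nat_lit 10239839879) (nat_lit 504) (nat_lit 9532356439) (nat_lit 588) (nat_lit 7418116753) (nat_lit 112) (nat_lit 5) (nat_lit 118) (nat_lit 5) (nat_lit 119) (nat_lit 5) (nat_lit 393) (nat_lit 361) (nat_lit 191))) (XT.nd (nat_lit 94) (nat_lit 420) (nat_lit 0) (XT.lf (nat_lit 0) (nat_lit 23101903740) (nat_lit 588) (nat_lit 4476452745) (nat_lit 84) (nat_lit 112238385) (nat_lit 112) (nat_lit 5) (nat_lit 119) (nat_lit 5) (nat_lit 113) (nat_lit 5) (nat_lit 394) (nat_lit 361) (nat_lit 190)) (XT.lf (nat_lit 0) (nat_lit 8437525204) (nat_lit 420) (nat_lit 18265456393) (nat_lit 504) (nat_lit 1497765553) (nat_lit 107) (nat_lit 5) (nat_lit 112) (nat_lit 5) (nat_lit 113) (nat_lit 5) (nat_lit 395) (nat_lit 361) (nat_lit 189))))))))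
noncomputable def xc179 : XT := (XT.nd (nat_lit 2632) (nat_lit 2352) (nat_lit 0) (XT.nd (nat_lit 1316) (nat_lit 2016) (nat_lit 0) (XT.nd (nat_lit 658) (nat_lit 1176) (nat_lit 0) (XT.nd (nat_lit 282) (nat_lit 840) (nat_lit 0) (XT.nd (nat_lit 94) (nat_lit 504) (nat_lit 0) (XT.lf (nat_lit 0) (nat_lit 1694662349) (nat_lit 504) (nat_lit 6915386516) (nat_lit 84) (nat_lit 20114424826) (nat_lit 106) (nat_lit 5) (nat_lit 112) (nat_lit 5) (nat_lit 107) (nat_lit 5) (nat_lit 396) (nat_lit 361) (nat_lit 188)) (XT.nd (nat_lit 94) (nat_lit 0) (nat_lit 0) (XT.lf (nat_lit 0) (nat_lit 5024233600) (nat_lit 588) (nat_lit 22851350186) (nat_lit 84) (nat_lit 1385745001) (nat_lit 100) (nat_lit 5) (nat_lit 107) (nat_lit 5) (nat_lit 101) (nat_lit 5) (nat_lit 397) (nat_lit 361) (nat_lit 187)) (XT.lf (nat_lit 0) (nat_lit 8605664963) (nat_lit 588) (nat_lit 9625778387) (nat_lit 84) (nat_lit 11578292685) (nat_lit 100)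 (nat_lit 5) (nat_lit 107) (nat_lit 5) (nat_lit 101) (nat_lit 5) (nat_lit 398) (nat_lit 361) (nat_lit 186)))) (XT.nd (nat_lit 188) (nat_lit 420) (nat_lit 0) (XT.nd (nat_lit 94) (nat_lit 0) (nat_lit 0) (XT.lf (nat_lit 0) (nat_lit 4071636437) (nat_lit 420) (nat_lit 8258354240) (nat_lit 504) (nat_lit 18043546807) (nat_lit 95) (nat_lit 5) (nat_lit 100) (nat_lit 5) (nat_lit 101) (nat_lit 5) (nat_lit 399) (nat_lit 361) (nat_lit 185)) (XT.lf (nat_lit 0) (nat_lit 16279940402) (nat_lit 504) (nat_lit 12598806393) (nat_lit 84) (nat_lit 2072094716) (nat_lit 95) (nat_lit 5) (nat_lit 101) (nat_lit 5) (nat_lit 96) (nat_lit 5) (nat_lit 400) (nat_lit 361) (nat_lit 184))) (XT.nd (nat_lit 94) (nat_lit 0) (nat_lit 0) (XT.lf (nat_lit 0) (nat_lit 1457749814) (nat_lit 420) (nat_lit 18982894423) (nat_lit 504) (nat_lit 11102057961) (nat_lit 90) (nat_lit 5) (nat_lit 95) (nat_lit 5) (nat_lit 96) (nat_lit 5) (nat_lit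 401) (nat_lit 361) (nat_lit 183)) (XT.lf (nat_lit 0) (nat_lit 16189996801) (nat_lit 420) (nat_lit 8659934152) (nat_lit 504) (nat_lit 7298679955) (nat_lit 90) (nat_lit 5) (nat_lit 95) (nat_lit 5) (nat_lit 96) (nat_lit 5) (nat_lit 402) (nat_lit 361) (nat_lit 182))))) (XT.nd (nat_lit 282) (nat_lit 756) (nat_lit 0) (XT.nd (nat_lit 94) (nat_lit 420) (nat_lit 0) (XT.lf (nat_lit 0) (nat_lit 29407091023) (nat_lit 504) (nat_lit 1431691557) (nat_lit 84) (nat_lit 1933451365) (nat_lit 90) (nat_lit 5) (nat_lit 96) (nat_lit 5) (nat_lit 91) (nat_lit 5) (nat_lit 403) (nat_lit 361) (nat_lit 181)) (XT.nd (nat_lit 94) (nat_lit 0) (nat_lit 0) (XT.lf (nat_lit 0) (nat_lit 889370758) (nat_lit 420) (nat_lit 19708179139) (nat_lit 84) (nat_lit 12810331519) (nat_lit 85) (nat_lit 5) (nat_lit 90) (nat_lit 5) (nat_lit 86) (nat_lit 5) (nat_lit 404) (nat_lit 361) (nat_lit 180)) (XT.lf (nat_lit 0) (nat_lit 5215233817)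 (nat_lit 420) (nat_lit 4785387928) (nat_lit 84) (nat_lit 24060641011) (nat_lit 85) (nat_lit 5) (nat_lit 90) (nat_lit 5) (nat_lit 86) (nat_lit 5) (nat_lit 405) (nat_lit 361) (nat_lit 179)))) (XT.nd (nat_lit 188) (nat_lit 336) (nat_lit 0) (XT.nd (nat_lit 94) (nat_lit 0) (nat_lit 0) (XT.lf (nat_lit 0) (nat_lit 9781259604) (nat_lit 504) (nat_lit 23949395663) (nat_lit 84) (nat_lit 1000283024) (nat_lit 80) (nat_lit 5) (nat_lit 86) (nat_lit 5) (nat_lit 81) (nat_lit 5) (nat_lit 406) (nat_lit 361) (nat_lit 178)) (XT.lf (nat_lit 0) (nat_lit 14628973030) (nat_lit 504) (nat_lit 8609248672) (nat_lit 84) (nat_lit 12178145418) (nat_lit 80) (nat_lit 5) (nat_lit 86) (nat_lit 5) (nat_lit 81) (nat_lit 5) (nat_lit 407) (nat_lit 361) (nat_lit 177))) (XT.nd (nat_lit 94) (nat_lit 0) (nat_lit 0) (XT.lf (nat_lit 0) (nat_lit 7330183109) (nat_lit 336) (nat_lit 12359376884) (nat_lit 420) (nat_lit 16430779668) (nat_lit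 76) (nat_lit 5) (nat_lit 80) (nat_lit 5) (nat_lit 81) (nat_lit 5) (nat_lit 408) (nat_lit 361) (nat_lit 176)) (XT.lf (nat_lit 0) (nat_lit 23920359913) (nat_lit 336) (nat_lit 1065571405) (nat_lit 420) (nat_lit 11856985049) (nat_lit 76) (nat_lit 5) (nat_lit 80) (nat_lit 5) (nat_lit 81) (nat_lit 5) (nat_lit 409) (nat_lit 361) (nat_lit 175)))))) (XT.nd (nat_lit 658) (nat_lit 924) (nat_lit 0) (XT.nd (nat_lit 282) (nat_lit 672) (nat_lit 0) (XT.nd (nat_lit 94) (nat_lit 84) (nat_lit 0) (XT.lf (nat_lit 0) (nat_lit 3381595364) (nat_lit 336) (nat_lit 27190789172) (nat_lit 420) (nat_lit 7010853988) (nat_lit 72) (nat_lit 5) (nat_lit 76) (nat_lit 5) (nat_lit 77) (nat_lit 5) (nat_lit 410) (nat_lit 361) (nat_lit 174)) (XT.nd (nat_lit 94) (nat_lit 84) (nat_lit 0) (XT.lf (nat_lit 0) (nat_lit 20425162942) (nat_lit 336) (nat_lit 16039362775) (nat_lit 420) (nat_lit 1877105562) (nat_lit 72) (nat_lit 5) (nat_lit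 76) (nat_lit 5) (nat_lit 77) (nat_lit 5) (nat_lit 411) (nat_lit 361) (nat_lit 173)) (XT.lf (nat_lit 0) (nat_lit 3341308183) (nat_lit 420) (nat_lit 1179318971) (nat_lit 84) (nat_lit 34601252438) (nat_lit 71) (nat_lit 5) (nat_lit 76) (nat_lit 5) (nat_lit 72) (nat_lit 5) (nat_lit 412) (nat_lit 361) (nat_lit 172)))) (XT.nd (nat_lit 188) (nat_lit 336) (nat_lit 0) (XT.nd (nat_lit 94) (nat_lit 0) (nat_lit 0) (XT.lf (nat_lit 0) (nat_lit 8905390134) (nat_lit 420) (nat_lit 23635812891) (nat_lit 84) (nat_lit 7376972902) (nat_lit 67) (nat_lit 5) (nat_lit 72) (nat_lit 5) (nat_lit 68) (nat_lit 5) (nat_lit 413) (nat_lit 361) (nat_lit 171)) (XT.lf (nat_lit 0) (nat_lit 14690502807) (nat_lit 420) (nat_lit 6494532764) (nat_lit 84) (nat_lit 19551705676) (nat_lit 67) (nat_lit 5) (nat_lit 72) (nat_lit 5) (nat_lit 68) (nat_lit 5) (nat_lit 414) (nat_lit 361) (nat_lit 170))) (XT.nd (nat_lit 94) (nat_lit 0) (nat_lit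 0) (XT.lf (nat_lit 0) (nat_lit 11379425096) (nat_lit 336) (nat_lit 9376530594) (nat_lit 420) (nat_lit 20820707475) (nat_lit 63) (nat_lit 5) (nat_lit 67) (nat_lit 5) (nat_lit 68) (nat_lit 5) (nat_lit 415) (nat_lit 361) (nat_lit 169)) (XT.lf (nat_lit 0) (nat_lit 27093818803) (nat_lit 420) (nat_lit 12548163183) (nat_lit 84) (nat_lit 2797090508) (nat_lit 63) (nat_lit 5) (nat_lit 68) (nat_lit 5) (nat_lit 64) (nat_lit 5) (nat_lit 416) (nat_lit 361) (nat_lit 168))))) (XT.nd (nat_lit 282) (nat_lit 588) (nat_lit 0) (XT.nd (nat_lit 94) (nat_lit 84) (nat_lit 0) (XT.lf (nat_lit 0) (nat_lit 5644141950) (nat_lit 252) (nat_lit 28122274849) (nat_lit 336) (nat_lit 9556602391) (nat_lit 60) (nat_lit 5) (nat_lit 63) (nat_lit 5) (nat_lit 64) (nat_lit 5) (nat_lit 417) (nat_lit 361) (nat_lit 167)) (XT.nd (nat_lit 94) (nat_lit 84) (nat_lit 0) (XT.lf (nat_lit 0) (nat_lit 24635933412) (nat_lit 252) (nat_lit 16127517168)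 (nat_lit 336) (nat_lit 3466308943) (nat_lit 60) (nat_lit 5) (nat_lit 63) (nat_lit 5) (nat_lit 64) (nat_lit 5) (nat_lit 418) (nat_lit 361) (nat_lit 166)) (XT.lf (nat_lit 0) (nat_lit 2749515672) (nat_lit 336) (nat_lit 996659542) (nat_lit 84) (nat_lit 41416792529) (nat_lit 59) (nat_lit 5) (nat_lit 63) (nat_lit 5) (nat_lit 60) (nat_lit 5) (nat_lit 419) (nat_lit 361) (nat_lit 165)))) (XT.nd (nat_lit 188) (nat_lit 252) (nat_lit 0) (XT.nd (nat_lit 94) (nat_lit 0) (nat_lit 0) (XT.lf (nat_lit 0) (nat_lit 9346127241) (nat_lit 420) (nat_lit 27725167108) (nat_lit 84) (nat_lit 9043931532) (nat_lit 55) (nat_lit 5) (nat_lit 60) (nat_lit 5) (nat_lit 56) (nat_lit 5) (nat_lit 420) (nat_lit 361) (nat_lit 164)) (XT.lf (nat_lit 0) (nat_lit 16185579548) (nat_lit 420) (nat_lit 8757515920) (nat_lit 84) (nat_lit 22151610664) (nat_lit 55) (nat_lit 5) (nat_lit 60) (nat_lit 5) (nat_lit 56) (nat_lit 5) (nat_lit 421)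 (nat_lit 361) (nat_lit 163))) (XT.nd (nat_lit 94) (nat_lit 0) (nat_lit 0) (XT.lf (nat_lit 0) (nat_lit 10990339726) (nat_lit 252) (nat_lit 12343276512) (nat_lit 336) (nat_lit 24766855089) (nat_lit 52) (nat_lit 5) (nat_lit 55) (nat_lit 5) (nat_lit 56) (nat_lit 5) (nat_lit 422) (nat_lit 361) (nat_lit 162)) (XT.lf (nat_lit 0) (nat_lit 30789281937) (nat_lit 336) (nat_lit 17633892836) (nat_lit 84) (nat_lit 710441554) (nat_lit 52) (nat_lit 5) (nat_lit 56) (nat_lit 5) (nat_lit 53) (nat_lit 5) (nat_lit 423) (nat_lit 361) (nat_lit 161))))))) (XT.nd (nat_lit 1316) (nat_lit 840) (nat_lit 0) (XT.nd (nat_lit 658) (nat_lit 672) (nat_lit 0) (XT.nd (nat_lit 282) (nat_lit 504) (nat_lit 0) (XT.nd (nat_lit 94) (nat_lit 84) (nat_lit 0) (XT.lf (nat_lit 0) (nat_lit 2347004673) (nat_lit 252) (nat_lit 36264228154) (nat_lit 336) (nat_lit 11582246808) (nat_lit 49) (nat_lit 5) (nat_lit 52) (nat_lit 5) (nat_lit 53)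 (nat_lit 5) (nat_lit 424) (nat_lit 361) (nat_lit 160)) (XT.nd (nat_lit 94) (nat_lit 84) (nat_lit 0) (XT.lf (nat_lit 0) (nat_lit 23285621882) (nat_lit 252) (nat_lit 23558164013) (nat_lit 336) (nat_lit 4436076984) (nat_lit 49) (nat_lit 5) (nat_lit 52) (nat_lit 5) (nat_lit 53) (nat_lit 5) (nat_lit 425) (nat_lit 361) (nat_lit 159)) (XT.lf (nat_lit 0) (nat_lit 2865325962) (nat_lit 336) (nat_lit 7577687568) (nat_lit 84) (nat_lit 41955045486) (nat_lit 48) (nat_lit 5) (nat_lit 52) (nat_lit 5) (nat_lit 49) (nat_lit 5) (nat_lit 426) (nat_lit 361) (nat_lit 158)))) (XT.nd (nat_lit 188) (nat_lit 252) (nat_lit 0) (XT.nd (nat_lit 94) (nat_lit 0) (nat_lit 0) (XT.lf (nat_lit 0) (nat_lit 10457196291) (nat_lit 336) (nat_lit 39904628013) (nat_lit 84) (nat_lit 3181843654) (nat_lit 45) (nat_lit 5) (nat_lit 49) (nat_lit 5) (nat_lit 46) (nat_lit 5) (nat_lit 427) (nat_lit 361) (nat_lit 157)) (XT.lf (nat_lit 0)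 (nat_lit 18455492331) (nat_lit 336) (nat_lit 19180965526) (nat_lit 84) (nat_lit 17081829304) (nat_lit 45) (nat_lit 5) (nat_lit 49) (nat_lit 5) (nat_lit 46) (nat_lit 5) (nat_lit 428) (nat_lit 361) (nat_lit 156))) (XT.nd (nat_lit 94) (nat_lit 0) (nat_lit 0) (XT.lf (nat_lit 0) (nat_lit 2204446231) (nat_lit 252) (nat_lit 24508535895) (nat_lit 336) (nat_lit 29214587491) (nat_lit 42) (nat_lit 5) (nat_lit 45) (nat_lit 5) (nat_lit 46) (nat_lit 5) (nat_lit 429) (nat_lit 361) (nat_lit 155)) (XT.lf (nat_lit 0) (nat_lit 24621663231) (nat_lit 252) (nat_lit 10788306246) (nat_lit 336) (nat_lit 21757409848) (nat_lit 42) (nat_lit 5) (nat_lit 45) (nat_lit 5) (nat_lit 46) (nat_lit 5) (nat_lit 430) (nat_lit 361) (nat_lit 154))))) (XT.nd (nat_lit 282) (nat_lit 420) (nat_lit 0) (XT.nd (nat_lit 94) (nat_lit 252) (nat_lit 0) (XT.lf (nat_lit 0) (nat_lit 44398135447) (nat_lit 336) (nat_lit 10768037004) (nat_lit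 84) (nat_lit 3277304707) (nat_lit 42) (nat_lit 5) (nat_lit 46) (nat_lit 5) (nat_lit 43) (nat_lit 5) (nat_lit 431) (nat_lit 361) (nat_lit 153)) (XT.nd (nat_lit 94) (nat_lit 84) (nat_lit 0) (XT.lf (nat_lit 0) (nat_lit 11783265910) (nat_lit 168) (nat_lit 42090946798) (nat_lit 252) (nat_lit 5877099081) (nat_lit 40) (nat_lit 5) (nat_lit 42) (nat_lit 5) (nat_lit 43) (nat_lit 5) (nat_lit 432) (nat_lit 361) (nat_lit 152)) (XT.lf (nat_lit 0) (nat_lit 2594703227) (nat_lit 252) (nat_lit 25891568935) (nat_lit 84) (nat_lit 32608139579) (nat_lit 39) (nat_lit 5) (nat_lit 42) (nat_lit 5) (nat_lit 40) (nat_lit 5) (nat_lit 433) (nat_lit 361) (nat_lit 151)))) (XT.nd (nat_lit 188) (nat_lit 168) (nat_lit 0) (XT.nd (nat_lit 94) (nat_lit 252) (nat_lit 0) (XT.lf (nat_lit 0) (nat_lit 11200778415) (nat_lit 252) (nat_lit 3213739851) (nat_lit 84) (nat_lit 48061595166) (nat_lit 39) (nat_lit 5) (nat_lit 42) (nat_lit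 5) (nat_lit 40) (nat_lit 5) (nat_lit 434) (nat_lit 361) (nat_lit 150)) (XT.lf (nat_lit 0) (nat_lit 20263506839) (nat_lit 336) (nat_lit 43353492357) (nat_lit 84) (nat_lit 276314492) (nat_lit 36) (nat_lit 5) (nat_lit 40) (nat_lit 5) (nat_lit 37) (nat_lit 5) (nat_lit 435) (nat_lit 361) (nat_lit 149))) (XT.nd (nat_lit 94) (nat_lit 168) (nat_lit 0) (XT.lf (nat_lit 0) (nat_lit 29771917746) (nat_lit 336) (nat_lit 20425917281) (nat_lit 84) (nat_lit 15149982503) (nat_lit 36) (nat_lit 5) (nat_lit 40) (nat_lit 5) (nat_lit 37) (nat_lit 5) (nat_lit 436) (nat_lit 361) (nat_lit 148)) (XT.lf (nat_lit 0) (nat_lit 3250298964) (nat_lit 168) (nat_lit 36344883978) (nat_lit 252) (nat_lit 27249887036) (nat_lit 34) (nat_lit 5) (nat_lit 36) (nat_lit 5) (nat_lit 37) (nat_lit 5) (nat_lit 437) (nat_lit 361) (nat_lit 147)))))) (XT.nd (nat_lit 658) (nat_lit 420) (nat_lit 0) (XT.nd (nat_lit 282) (nat_lit 168) (nat_lit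 0) (XT.nd (nat_lit 94) (nat_lit 252) (nat_lit 0) (XT.lf (nat_lit 0) (nat_lit 28052927453) (nat_lit 168) (nat_lit 21864861424) (nat_lit 252) (nat_lit 18463313343) (nat_lit 34) (nat_lit 5) (nat_lit 36) (nat_lit 5) (nat_lit 37) (nat_lit 5) (nat_lit 438) (nat_lit 361) (nat_lit 146)) (XT.nd (nat_lit 94) (nat_lit 252) (nat_lit 0) (XT.lf (nat_lit 0) (nat_lit 53597124581) (nat_lit 168) (nat_lit 6951376632) (nat_lit 252) (nat_lit 9414762831) (nat_lit 34) (nat_lit 5) (nat_lit 36) (nat_lit 5) (nat_lit 37) (nat_lit 5) (nat_lit 439) (nat_lit 361) (nat_lit 145)) (XT.lf (nat_lit 0) (nat_lit 68679077) (nat_lit 252) (nat_lit 63193499523) (nat_lit 84) (nat_lit 8325893249) (nat_lit 31) (nat_lit 5) (nat_lit 34) (nat_lit 5) (nat_lit 32) (nat_lit 5) (nat_lit 440) (nat_lit 361) (nat_lit 144)))) (XT.nd (nat_lit 188) (nat_lit 168) (nat_lit 0) (XT.nd (nat_lit 94) (nat_lit 0) (nat_lit 0) (XT.lf (nat_lit 0) (nat_lit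 9881594604) (nat_lit 252) (nat_lit 39189230967) (nat_lit 84) (nat_lit 24180977257) (nat_lit 31) (nat_lit 5) (nat_lit 34) (nat_lit 5) (nat_lit 32) (nat_lit 5) (nat_lit 441) (nat_lit 361) (nat_lit 143)) (XT.lf (nat_lit 0) (nat_lit 19987412205) (nat_lit 252) (nat_lit 14467245091) (nat_lit 84) (nat_lit 40510834300) (nat_lit 31) (nat_lit 5) (nat_lit 34) (nat_lit 5) (nat_lit 32) (nat_lit 5) (nat_lit 442) (nat_lit 361) (nat_lit 142))) (XT.nd (nat_lit 94) (nat_lit 0) (nat_lit 0) (XT.lf (nat_lit 0) (nat_lit 11212863187) (nat_lit 168) (nat_lit 19289883920) (nat_lit 252) (nat_lit 46224654897) (nat_lit 29) (nat_lit 5) (nat_lit 31) (nat_lit 5) (nat_lit 32) (nat_lit 5) (nat_lit 443) (nat_lit 361) (nat_lit 141)) (XT.lf (nat_lit 0) (nat_lit 37957621480) (nat_lit 168) (nat_lit 3520588982) (nat_lit 252) (nat_lit 37059620433) (nat_lit 29) (nat_lit 5) (nat_lit 31) (nat_lit 5) (nat_lit 32) (nat_lit 5) (nat_lit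 444) (nat_lit 361) (nat_lit 140))))) (XT.nd (nat_lit 282) (nat_lit 252) (nat_lit 0) (XT.nd (nat_lit 94) (nat_lit 168) (nat_lit 0) (XT.lf (nat_lit 0) (nat_lit 52903837970) (nat_lit 252) (nat_lit 15022424046) (nat_lit 84) (nat_lit 12472684819) (nat_lit 29) (nat_lit 5) (nat_lit 32) (nat_lit 5) (nat_lit 30) (nat_lit 5) (nat_lit 445) (nat_lit 361) (nat_lit 139)) (XT.nd (nat_lit 94) (nat_lit 0) (nat_lit 0) (XT.lf (nat_lit 0) (nat_lit 11489215748) (nat_lit 168) (nat_lit 53326968379) (nat_lit 252) (nat_lit 17495394782) (nat_lit 27) (nat_lit 5) (nat_lit 29) (nat_lit 5) (nat_lit 30) (nat_lit 5) (nat_lit 446) (nat_lit 361) (nat_lit 138)) (XT.lf (nat_lit 0) (nat_lit 39101953643) (nat_lit 168) (nat_lit 38134313369) (nat_lit 252) (nat_lit 7040813063) (nat_lit 27) (nat_lit 5) (nat_lit 29) (nat_lit 5) (nat_lit 30) (nat_lit 5) (nat_lit 447) (nat_lit 361) (nat_lit 137)))) (XT.nd (nat_lit 188) (nat_lit 0)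 (nat_lit 0) (XT.nd (nat_lit 94) (nat_lit 168) (nat_lit 0) (XT.lf (nat_lit 0) (nat_lit 3653365204) (nat_lit 252) (nat_lit 18796461849) (nat_lit 84) (nat_lit 63850684550) (nat_lit 26) (nat_lit 5) (nat_lit 29) (nat_lit 5) (nat_lit 27) (nat_lit 5) (nat_lit 448) (nat_lit 361) (nat_lit 136)) (XT.lf (nat_lit 0) (nat_lit 8466976612) (nat_lit 168) (nat_lit 6140000846) (nat_lit 252) (nat_lit 73773174653) (nat_lit 24) (nat_lit 5) (nat_lit 26) (nat_lit 5) (nat_lit 27) (nat_lit 5) (nat_lit 449) (nat_lit 361) (nat_lit 135))) (XT.nd (nat_lit 94) (nat_lit 0) (nat_lit 0) (XT.lf (nat_lit 0) (nat_lit 26182088044) (nat_lit 252) (nat_lit 53689307896) (nat_lit 84) (nat_lit 10642000188) (nat_lit 24) (nat_lit 5) (nat_lit 27) (nat_lit 5) (nat_lit 25) (nat_lit 5) (nat_lit 450) (nat_lit 361) (nat_lit 134)) (XT.lf (nat_lit 0) (nat_lit 38164021988) (nat_lit 252) (nat_lit 26741561293) (nat_lit 84) (nat_lit 27803268050)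 (nat_lit 24) (nat_lit 5) (nat_lit 27) (nat_lit 5) (nat_lit 25) (nat_lit 5) (nat_lit 451) (nat_lit 361) (nat_lit 133))))))))
noncomputable def xc180 : XT := (XT.nd (nat_lit 53016) (nat_lit 0) (nat_lit 4200) (XT.nd (nat_lit 51700) (nat_lit 0) (nat_lit 10416) (XT.nd (nat_lit 51042) (nat_lit 0) (nat_lit 12936) (XT.nd (nat_lit 282) (nat_lit 0) (nat_lit 0) (XT.nd (nat_lit 94) (nat_lit 0) (nat_lit 0) (XT.lf (nat_lit 0) (nat_lit 1032785698) (nat_lit 168) (nat_lit 49481369566) (nat_lit 252) (nat_lit 44455753624) (nat_lit 22) (nat_lit 5) (nat_lit 24) (nat_lit 5) (nat_lit 25) (nat_lit 5) (nat_lit 452) (nat_lit 361) (nat_lit 132)) (XT.nd (nat_lit 94) (nat_lit 0) (nat_lit 0) (XT.lf (nat_lit 0) (nat_lit 30186572976) (nat_lit 168) (nat_lit 33317086104) (nat_lit 252) (nat_lit 33787074006) (nat_lit 22) (nat_lit 5) (nat_lit 24) (nat_lit 5) (nat_lit 25) (nat_lit 5) (nat_lit 453) (nat_lit 361) (nat_lit 131))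 (XT.lf (nat_lit 0) (nat_lit 60213065217) (nat_lit 168) (nat_lit 16668646099) (nat_lit 252) (nat_lit 22799505678) (nat_lit 22) (nat_lit 5) (nat_lit 24) (nat_lit 5) (nat_lit 25) (nat_lit 5) (nat_lit 454) (nat_lit 361) (nat_lit 130)))) (XT.nd (nat_lit 50572) (nat_lit 0) (nat_lit 12936) (XT.lf (nat_lit 0) (nat_lit 90664601147) (nat_lit 252) (nat_lit 11009549835) (nat_lit 84) (nat_lit 469160416) (nat_lit 22) (nat_lit 5) (nat_lit 25) (nat_lit 5) (nat_lit 23) (nat_lit 4) (nat_lit 455) (nat_lit 361) (nat_lit 129)) (XT.nd (nat_lit 94) (nat_lit 0) (nat_lit 0) (XT.lf (nat_lit 0) (nat_lit 6121369112) (nat_lit 1260) (nat_lit 1095342264) (nat_lit 1260) (nat_lit 1095342264) (nat_lit 176) (nat_lit 3) (nat_lit 191) (nat_lit 3) (nat_lit 191) (nat_lit 5) (nat_lit 362) (nat_lit 362) (nat_lit 221)) (XT.lf (nat_lit 84) (nat_lit 5099415103) (nat_lit 0) (nat_lit 7597121508) (nat_lit 1260) (nat_lit 4168405003)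 (nat_lit 177) (nat_lit 5) (nat_lit 176) (nat_lit 3) (nat_lit 191) (nat_lit 5) (nat_lit 363) (nat_lit 362) (nat_lit 220))))) (XT.nd (nat_lit 282) (nat_lit 0) (nat_lit 168) (XT.nd (nat_lit 94) (nat_lit 0) (nat_lit 84) (XT.lf (nat_lit 84) (nat_lit 12648583076) (nat_lit 0) (nat_lit 528813415) (nat_lit 1260) (nat_lit 3935217553) (nat_lit 177) (nat_lit 5) (nat_lit 176) (nat_lit 3) (nat_lit 191) (nat_lit 5) (nat_lit 364) (nat_lit 362) (nat_lit 219)) (XT.nd (nat_lit 94) (nat_lit 0) (nat_lit 0) (XT.lf (nat_lit 84) (nat_lit 3046338018) (nat_lit 0) (nat_lit 10712144515) (nat_lit 1260) (nat_lit 3606676111) (nat_lit 178) (nat_lit 5) (nat_lit 177) (nat_lit 5) (nat_lit 192) (nat_lit 5) (nat_lit 365) (nat_lit 362) (nat_lit 218)) (XT.lf (nat_lit 84) (nat_lit 10863516118) (nat_lit 0) (nat_lit 3535563847) (nat_lit 1260) (nat_lit 3224952801) (nat_lit 178) (nat_lit 5) (nat_lit 177) (nat_lit 5) (nat_lit 192)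 (nat_lit 5) (nat_lit 366) (nat_lit 362) (nat_lit 217)))) (XT.nd (nat_lit 188) (nat_lit 0) (nat_lit 84) (XT.nd (nat_lit 94) (nat_lit 0) (nat_lit 0) (XT.lf (nat_lit 84) (nat_lit 1002203345) (nat_lit 0) (nat_lit 14095482563) (nat_lit 1260) (nat_lit 2791838575) (nat_lit 179) (nat_lit 5) (nat_lit 178) (nat_lit 5) (nat_lit 193) (nat_lit 5) (nat_lit 367) (nat_lit 362) (nat_lit 216)) (XT.lf (nat_lit 84) (nat_lit 9095913450) (nat_lit 0) (nat_lit 6816539057) (nat_lit 1260) (nat_lit 2247687024) (nat_lit 179) (nat_lit 5) (nat_lit 178) (nat_lit 5) (nat_lit 193) (nat_lit 5) (nat_lit 368) (nat_lit 362) (nat_lit 215))) (XT.nd (nat_lit 94) (nat_lit 0) (nat_lit 0) (XT.lf (nat_lit 0) (nat_lit 16750730890) (nat_lit 1176) (nat_lit 1017883226) (nat_lit 1260) (nat_lit 670301074) (nat_lit 179) (nat_lit 5) (nat_lit 193) (nat_lit 5) (nat_lit 194) (nat_lit 5) (nat_lit 369) (nat_lit 362) (nat_lit 214)) (XT.lf (nat_lit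 84) (nat_lit 7340847503) (nat_lit 0) (nat_lit 10404107832) (nat_lit 1260) (nat_lit 977188666) (nat_lit 180) (nat_lit 5) (nat_lit 179) (nat_lit 5) (nat_lit 194) (nat_lit 5) (nat_lit 370) (nat_lit 362) (nat_lit 213)))))) (XT.nd (nat_lit 658) (nat_lit 1596) (nat_lit 0) (XT.nd (nat_lit 282) (nat_lit 0) (nat_lit 84) (XT.nd (nat_lit 94) (nat_lit 1176) (nat_lit 0) (XT.lf (nat_lit 84) (nat_lit 15966494112) (nat_lit 0) (nat_lit 2805699625) (nat_lit 1260) (nat_lit 241593730) (nat_lit 180) (nat_lit 5) (nat_lit 179) (nat_lit 5) (nat_lit 194) (nat_lit 5) (nat_lit 371) (nat_lit 362) (nat_lit 212)) (XT.nd (nat_lit 94) (nat_lit 0) (nat_lit 0) (XT.lf (nat_lit 0) (nat_lit 602088416) (nat_lit 1260) (nat_lit 13724453820) (nat_lit 1344) (nat_lit 4984619125) (nat_lit 165) (nat_lit 5) (nat_lit 180) (nat_lit 5) (nat_lit 181) (nat_lit 5) (nat_lit 372) (nat_lit 362) (nat_lit 211)) (XT.lf (nat_lit 0) (nat_lit 1518293376)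 (nat_lit 1260) (nat_lit 5109730549) (nat_lit 1344) (nat_lit 12987811013) (nat_lit 165) (nat_lit 5) (nat_lit 180) (nat_lit 5) (nat_lit 181) (nat_lit 5) (nat_lit 373) (nat_lit 362) (nat_lit 210)))) (XT.nd (nat_lit 188) (nat_lit 0) (nat_lit 0) (XT.nd (nat_lit 94) (nat_lit 0) (nat_lit 0) (XT.lf (nat_lit 0) (nat_lit 2505137020) (nat_lit 1260) (nat_lit 16108179469) (nat_lit 1344) (nat_lit 1315049571) (nat_lit 166) (nat_lit 5) (nat_lit 181) (nat_lit 5) (nat_lit 182) (nat_lit 5) (nat_lit 374) (nat_lit 362) (nat_lit 209)) (XT.lf (nat_lit 0) (nat_lit 3632892384) (nat_lit 1260) (nat_lit 7197062033) (nat_lit 1344) (nat_lit 9416991075) (nat_lit 166) (nat_lit 5) (nat_lit 181) (nat_lit 5) (nat_lit 182) (nat_lit 5) (nat_lit 375) (nat_lit 362) (nat_lit 208))) (XT.nd (nat_lit 94) (nat_lit 0) (nat_lit 84) (XT.lf (nat_lit 84) (nat_lit 2015923253) (nat_lit 0) (nat_lit 2791695907) (nat_lit 1344) (nat_lit 15767080212)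 (nat_lit 167) (nat_lit 5) (nat_lit 166) (nat_lit 5) (nat_lit 182) (nat_lit 5) (nat_lit 376) (nat_lit 362) (nat_lit 207)) (XT.lf (nat_lit 0) (nat_lit 6137644173) (nat_lit 1260) (nat_lit 9315709025) (nat_lit 1344) (nat_lit 5455341879) (nat_lit 167) (nat_lit 5) (nat_lit 182) (nat_lit 5) (nat_lit 183) (nat_lit 5) (nat_lit 377) (nat_lit 362) (nat_lit 206))))) (XT.nd (nat_lit 282) (nat_lit 1764) (nat_lit 0) (XT.nd (nat_lit 94) (nat_lit 0) (nat_lit 84) (XT.lf (nat_lit 84) (nat_lit 175617565) (nat_lit 0) (nat_lit 7355367887) (nat_lit 1344) (nat_lit 13721033322) (nat_lit 168) (nat_lit 5) (nat_lit 167) (nat_lit 5) (nat_lit 183) (nat_lit 5) (nat_lit 378) (nat_lit 362) (nat_lit 205)) (XT.nd (nat_lit 94) (nat_lit 0) (nat_lit 0) (XT.lf (nat_lit 0) (nat_lit 9064825471) (nat_lit 1260) (nat_lit 11475543671) (nat_lit 84) (nat_lit 1062322363) (nat_lit 168) (nat_lit 5) (nat_lit 183) (nat_lit 5) (nat_lit 169)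 (nat_lit 5) (nat_lit 379) (nat_lit 362) (nat_lit 204)) (XT.lf (nat_lit 0) (nat_lit 10711897317) (nat_lit 1260) (nat_lit 1664306499) (nat_lit 84) (nat_lit 9585674079) (nat_lit 168) (nat_lit 5) (nat_lit 183) (nat_lit 5) (nat_lit 169) (nat_lit 5) (nat_lit 380) (nat_lit 362) (nat_lit 203)))) (XT.nd (nat_lit 188) (nat_lit 588) (nat_lit 0) (XT.nd (nat_lit 94) (nat_lit 0) (nat_lit 0) (XT.lf (nat_lit 0) (nat_lit 8604492160) (nat_lit 1260) (nat_lit 3881155365) (nat_lit 1344) (nat_lit 9843884053) (nat_lit 153) (nat_lit 5) (nat_lit 168) (nat_lit 5) (nat_lit 169) (nat_lit 5) (nat_lit 381) (nat_lit 362) (nat_lit 202)) (XT.lf (nat_lit 0) (nat_lit 14371059543) (nat_lit 1344) (nat_lit 3544017425) (nat_lit 84) (nat_lit 4791393829) (nat_lit 153) (nat_lit 5) (nat_lit 169) (nat_lit 5) (nat_lit 154) (nat_lit 5) (nat_lit 382) (nat_lit 362) (nat_lit 201))) (XT.nd (nat_lit 94) (nat_lit 0) (nat_lit 0) (XT.lf (nat_lit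 0) (nat_lit 7036647981) (nat_lit 588) (nat_lit 9377284195) (nat_lit 672) (nat_lit 6677768199) (nat_lit 146) (nat_lit 5) (nat_lit 153) (nat_lit 5) (nat_lit 154) (nat_lit 5) (nat_lit 383) (nat_lit 362) (nat_lit 200)) (XT.lf (nat_lit 0) (nat_lit 18002757707) (nat_lit 588) (nat_lit 546057435) (nat_lit 672) (nat_lit 4938758839) (nat_lit 146) (nat_lit 5) (nat_lit 153) (nat_lit 5) (nat_lit 154) (nat_lit 5) (nat_lit 384) (nat_lit 362) (nat_lit 199))))))) (XT.nd (nat_lit 1316) (nat_lit 2352) (nat_lit 0) (XT.nd (nat_lit 658) (nat_lit 2016) (nat_lit 0) (XT.nd (nat_lit 282) (nat_lit 588) (nat_lit 0) (XT.nd (nat_lit 94) (nat_lit 672) (nat_lit 0) (XT.lf (nat_lit 0) (nat_lit 5421480680) (nat_lit 588) (nat_lit 15455655458) (nat_lit 672) (nat_lit 3014314516) (nat_lit 139) (nat_lit 5) (nat_lit 146) (nat_lit 5) (nat_lit 147) (nat_lit 5) (nat_lit 385) (nat_lit 362) (nat_lit 198)) (XT.nd (nat_lit 94) (nat_lit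 672) (nat_lit 0) (XT.lf (nat_lit 0) (nat_lit 16757281365) (nat_lit 588) (nat_lit 6573951701) (nat_lit 672) (nat_lit 974541130) (nat_lit 139) (nat_lit 5) (nat_lit 146) (nat_lit 5) (nat_lit 147) (nat_lit 5) (nat_lit 386) (nat_lit 362) (nat_lit 197)) (XT.lf (nat_lit 0) (nat_lit 1161058633) (nat_lit 672) (nat_lit 20997907902) (nat_lit 84) (nat_lit 2571545534) (nat_lit 131) (nat_lit 5) (nat_lit 139) (nat_lit 5) (nat_lit 132) (nat_lit 5) (nat_lit 387) (nat_lit 362) (nat_lit 196)))) (XT.nd (nat_lit 188) (nat_lit 0) (nat_lit 0) (XT.nd (nat_lit 94) (nat_lit 588) (nat_lit 0) (XT.lf (nat_lit 0) (nat_lit 3478575440) (nat_lit 672) (nat_lit 9739001900) (nat_lit 84) (nat_lit 11946009828) (nat_lit 131) (nat_lit 5) (nat_lit 139) (nat_lit 5) (nat_lit 132) (nat_lit 5) (nat_lit 388) (nat_lit 362) (nat_lit 195)) (XT.lf (nat_lit 0) (nat_lit 1890013322) (nat_lit 588) (nat_lit 3989275354) (nat_lit 672) (nat_lit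 19729963139) (nat_lit 124) (nat_lit 5) (nat_lit 131) (nat_lit 5) (nat_lit 132) (nat_lit 5) (nat_lit 389) (nat_lit 362) (nat_lit 194))) (XT.nd (nat_lit 94) (nat_lit 0) (nat_lit 0) (XT.lf (nat_lit 0) (nat_lit 8499953737) (nat_lit 672) (nat_lit 12056425843) (nat_lit 84) (nat_lit 5507476116) (nat_lit 124) (nat_lit 5) (nat_lit 132) (nat_lit 5) (nat_lit 125) (nat_lit 5) (nat_lit 390) (nat_lit 362) (nat_lit 193)) (XT.lf (nat_lit 0) (nat_lit 11234454896) (nat_lit 672) (nat_lit 87724740) (nat_lit 84) (nat_lit 15208868573) (nat_lit 124) (nat_lit 5) (nat_lit 132) (nat_lit 5) (nat_lit 125) (nat_lit 5) (nat_lit 391) (nat_lit 362) (nat_lit 192))))) (XT.nd (nat_lit 282) (nat_lit 1008) (nat_lit 0) (XT.nd (nat_lit 94) (nat_lit 504) (nat_lit 0) (XT.lf (nat_lit 0) (nat_lit 12479184090) (nat_lit 504) (nat_lit 1687607629) (nat_lit 588) (nat_lit 12841997553) (nat_lit 118) (nat_lit 5) (nat_lit 124) (nat_lit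 5) (nat_lit 125) (nat_lit 5) (nat_lit 392) (nat_lit 362) (nat_lit 191)) (XT.nd (nat_lit 94) (nat_lit 504) (nat_lit 0) (XT.lf (nat_lit 0) (nat_lit 17263082963) (nat_lit 588) (nat_lit 2159566657) (nat_lit 84) (nat_lit 8075940012) (nat_lit 118) (nat_lit 5) (nat_lit 125) (nat_lit 5) (nat_lit 119) (nat_lit 5) (nat_lit 393) (nat_lit 362) (nat_lit 190)) (XT.lf (nat_lit 0) (nat_lit 10770718315) (nat_lit 504) (nat_lit 9797827389) (nat_lit 588) (nat_lit 7431056222) (nat_lit 112) (nat_lit 5) (nat_lit 118) (nat_lit 5) (nat_lit 119) (nat_lit 5) (nat_lit 394) (nat_lit 362) (nat_lit 189)))) (XT.nd (nat_lit 188) (nat_lit 588) (nat_lit 0) (XT.nd (nat_lit 94) (nat_lit 420) (nat_lit 0) (XT.lf (nat_lit 0) (nat_lit 23992417698) (nat_lit 588) (nat_lit 4387535919) (nat_lit 84) (nat_lit 135119827) (nat_lit 112) (nat_lit 5) (nat_lit 119) (nat_lit 5) (nat_lit 113) (nat_lit 5) (nat_lit 395) (nat_lit 362) (nat_lit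 188)) (XT.lf (nat_lit 0) (nat_lit 8911673031) (nat_lit 420) (nat_lit 18786228289) (nat_lit 504) (nat_lit 1342746961) (nat_lit 107) (nat_lit 5) (nat_lit 112) (nat_lit 5) (nat_lit 113) (nat_lit 5) (nat_lit 396) (nat_lit 362) (nat_lit 187))) (XT.nd (nat_lit 94) (nat_lit 504) (nat_lit 0) (XT.lf (nat_lit 0) (nat_lit 1935841816) (nat_lit 504) (nat_lit 6904186657) (nat_lit 84) (nat_lit 20740180454) (nat_lit 106) (nat_lit 5) (nat_lit 112) (nat_lit 5) (nat_lit 107) (nat_lit 5) (nat_lit 397) (nat_lit 362) (nat_lit 186)) (XT.lf (nat_lit 0) (nat_lit 5362122557) (nat_lit 588) (nat_lit 23314771214) (nat_lit 84) (nat_lit 1456379645) (nat_lit 100) (nat_lit 5) (nat_lit 107) (nat_lit 5) (nat_lit 101) (nat_lit 5) (nat_lit 398) (nat_lit 362) (nat_lit 185)))))) (XT.nd (nat_lit 658) (nat_lit 1092) (nat_lit 0) (XT.nd (nat_lit 282) (nat_lit 840) (nat_lit 0) (XT.nd (nat_lit 94) (nat_lit 420) (nat_lit 0) (XT.lf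 (nat_lit 0) (nat_lit 9045545543) (nat_lit 588) (nat_lit 9698901761) (nat_lit 84) (nat_lit 11953857284) (nat_lit 100) (nat_lit 5) (nat_lit 107) (nat_lit 5) (nat_lit 101) (nat_lit 5) (nat_lit 399) (nat_lit 362) (nat_lit 184)) (XT.nd (nat_lit 94) (nat_lit 0) (nat_lit 0) (XT.lf (nat_lit 0) (nat_lit 4407321293) (nat_lit 420) (nat_lit 8471039828) (nat_lit 504) (nat_lit 18400764083) (nat_lit 95) (nat_lit 5) (nat_lit 100) (nat_lit 5) (nat_lit 101) (nat_lit 5) (nat_lit 400) (nat_lit 362) (nat_lit 183)) (XT.lf (nat_lit 0) (nat_lit 16941938411) (nat_lit 504) (nat_lit 12764326798) (nat_lit 84) (nat_lit 2167636969) (nat_lit 95) (nat_lit 5) (nat_lit 101) (nat_lit 5) (nat_lit 96) (nat_lit 5) (nat_lit 401) (nat_lit 362) (nat_lit 182)))) (XT.nd (nat_lit 188) (nat_lit 420) (nat_lit 0) (XT.nd (nat_lit 94) (nat_lit 0) (nat_lit 0) (XT.lf (nat_lit 0) (nat_lit 1711843312) (nat_lit 420) (nat_lit 19512585862)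 (nat_lit 504) (nat_lit 11259188010) (nat_lit 90) (nat_lit 5) (nat_lit 95) (nat_lit 5) (nat_lit 96) (nat_lit 5) (nat_lit 402) (nat_lit 362) (nat_lit 181)) (XT.lf (nat_lit 0) (nat_lit 16879930690) (nat_lit 420) (nat_lit 8881095872) (nat_lit 504) (nat_lit 7346832887) (nat_lit 90) (nat_lit 5) (nat_lit 95) (nat_lit 5) (nat_lit 96) (nat_lit 5) (nat_lit 403) (nat_lit 362) (nat_lit 180))) (XT.nd (nat_lit 94) (nat_lit 420) (nat_lit 0) (XT.lf (nat_lit 0) (nat_lit 30450438779) (nat_lit 504) (nat_lit 1271659416) (nat_lit 84) (nat_lit 2028233907) (nat_lit 90) (nat_lit 5) (nat_lit 96) (nat_lit 5) (nat_lit 91) (nat_lit 5) (nat_lit 404) (nat_lit 362) (nat_lit 179)) (XT.lf (nat_lit 0) (nat_lit 1076217301) (nat_lit 420) (nat_lit 20095022715) (nat_lit 84) (nat_lit 13233851548) (nat_lit 85) (nat_lit 5) (nat_lit 90) (nat_lit 5) (nat_lit 86) (nat_lit 5) (nat_lit 405) (nat_lit 362) (nat_lit 178))))) (XT.nd (nat_lit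 282) (nat_lit 672) (nat_lit 0) (XT.nd (nat_lit 94) (nat_lit 420) (nat_lit 0) (XT.lf (nat_lit 0) (nat_lit 5527191239) (nat_lit 420) (nat_lit 4730501218) (nat_lit 84) (nat_lit 24820528283) (nat_lit 85) (nat_lit 5) (nat_lit 90) (nat_lit 5) (nat_lit 86) (nat_lit 5) (nat_lit 406) (nat_lit 362) (nat_lit 177)) (XT.nd (nat_lit 94) (nat_lit 0) (nat_lit 0) (XT.lf (nat_lit 0) (nat_lit 10227977085) (nat_lit 504) (nat_lit 24466999846) (nat_lit 84) (nat_lit 1073082491) (nat_lit 80) (nat_lit 5) (nat_lit 86) (nat_lit 5) (nat_lit 81) (nat_lit 5) (nat_lit 407) (nat_lit 362) (nat_lit 176)) (XT.lf (nat_lit 0) (nat_lit 15216657457) (nat_lit 504) (nat_lit 8672499251) (nat_lit 84) (nat_lit 12585034418) (nat_lit 80) (nat_lit 5) (nat_lit 86) (nat_lit 5) (nat_lit 81) (nat_lit 5) (nat_lit 408) (nat_lit 362) (nat_lit 175)))) (XT.nd (nat_lit 188) (nat_lit 336) (nat_lit 0) (XT.nd (nat_lit 94) (nat_lit 0) (nat_lit 0)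 (XT.lf (nat_lit 0) (nat_lit 7743203456) (nat_lit 336) (nat_lit 12683380488) (nat_lit 420) (nat_lit 16772779142) (nat_lit 76) (nat_lit 5) (nat_lit 80) (nat_lit 5) (nat_lit 81) (nat_lit 5) (nat_lit 409) (nat_lit 362) (nat_lit 174)) (XT.lf (nat_lit 0) (nat_lit 24825460859) (nat_lit 336) (nat_lit 1052123302) (nat_lit 420) (nat_lit 12066166527) (nat_lit 76) (nat_lit 5) (nat_lit 80) (nat_lit 5) (nat_lit 81) (nat_lit 5) (nat_lit 410) (nat_lit 362) (nat_lit 173))) (XT.nd (nat_lit 94) (nat_lit 0) (nat_lit 0) (XT.lf (nat_lit 0) (nat_lit 3672672467) (nat_lit 336) (nat_lit 27957067081) (nat_lit 420) (nat_lit 7076605266) (nat_lit 72) (nat_lit 5) (nat_lit 76) (nat_lit 5) (nat_lit 77) (nat_lit 5) (nat_lit 411) (nat_lit 362) (nat_lit 172)) (XT.lf (nat_lit 0) (nat_lit 21222023890) (nat_lit 336) (nat_lit 16472538059) (nat_lit 420) (nat_lit 1793055291) (nat_lit 72) (nat_lit 5) (nat_lit 76) (nat_lit 5) (nat_lit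 77) (nat_lit 5) (nat_lit 412) (nat_lit 362) (nat_lit 171))))))))
noncomputable def xc181 : XT := (XT.nd (nat_lit 2538) (nat_lit 1008) (nat_lit 0) (XT.nd (nat_lit 1222) (nat_lit 1260) (nat_lit 0) (XT.nd (nat_lit 564) (nat_lit 924) (nat_lit 0) (XT.nd (nat_lit 282) (nat_lit 588) (nat_lit 0) (XT.nd (nat_lit 94) (nat_lit 336) (nat_lit 0) (XT.lf (nat_lit 0) (nat_lit 3575163391) (nat_lit 420) (nat_lit 1033125940) (nat_lit 84) (nat_lit 35683068536) (nat_lit 71) (nat_lit 5) (nat_lit 76) (nat_lit 5) (nat_lit 72) (nat_lit 5) (nat_lit 413) (nat_lit 362) (nat_lit 170)) (XT.nd (nat_lit 94) (nat_lit 0) (nat_lit 0) (XT.lf (nat_lit 0) (nat_lit 9304469022) (nat_lit 420) (nat_lit 24161451208) (nat_lit 84) (nat_lit 7645678767) (nat_lit 67) (nat_lit 5) (nat_lit 72) (nat_lit 5) (nat_lit 68) (nat_lit 5) (nat_lit 414) (nat_lit 362) (nat_lit 169)) (XT.lf (nat_lit 0) (nat_lit 15259292828) (nat_lit 420) (nat_lit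 6511275475) (nat_lit 84) (nat_lit 20184273038) (nat_lit 67) (nat_lit 5) (nat_lit 72) (nat_lit 5) (nat_lit 68) (nat_lit 5) (nat_lit 415) (nat_lit 362) (nat_lit 168)))) (XT.nd (nat_lit 94) (nat_lit 252) (nat_lit 0) (XT.lf (nat_lit 0) (nat_lit 11897155109) (nat_lit 336) (nat_lit 9607519009) (nat_lit 420) (nat_lit 21315352512) (nat_lit 63) (nat_lit 5) (nat_lit 67) (nat_lit 5) (nat_lit 68) (nat_lit 5) (nat_lit 416) (nat_lit 362) (nat_lit 167)) (XT.nd (nat_lit 94) (nat_lit 252) (nat_lit 0) (XT.lf (nat_lit 0) (nat_lit 28029471564) (nat_lit 420) (nat_lit 12750044871) (nat_lit 84) (nat_lit 2928892371) (nat_lit 63) (nat_lit 5) (nat_lit 68) (nat_lit 5) (nat_lit 64) (nat_lit 5) (nat_lit 417) (nat_lit 362) (nat_lit 166)) (XT.lf (nat_lit 0) (nat_lit 5986318012) (nat_lit 252) (nat_lit 28914013234) (nat_lit 336) (nat_lit 9718604535) (nat_lit 60) (nat_lit 5) (nat_lit 63) (nat_lit 5) (nat_lit 64) (nat_lit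 5) (nat_lit 418) (nat_lit 362) (nat_lit 165))))) (XT.nd (nat_lit 282) (nat_lit 504) (nat_lit 0) (XT.nd (nat_lit 94) (nat_lit 420) (nat_lit 0) (XT.lf (nat_lit 0) (nat_lit 25542828699) (nat_lit 252) (nat_lit 16560925343) (nat_lit 336) (nat_lit 3449234204) (nat_lit 60) (nat_lit 5) (nat_lit 63) (nat_lit 5) (nat_lit 64) (nat_lit 5) (nat_lit 419) (nat_lit 362) (nat_lit 164)) (XT.nd (nat_lit 94) (nat_lit 336) (nat_lit 0) (XT.lf (nat_lit 0) (nat_lit 2947245426) (nat_lit 336) (nat_lit 861202429) (nat_lit 84) (nat_lit 42705817682) (nat_lit 59) (nat_lit 5) (nat_lit 63) (nat_lit 5) (nat_lit 60) (nat_lit 5) (nat_lit 420) (nat_lit 362) (nat_lit 163)) (XT.lf (nat_lit 0) (nat_lit 9740455907) (nat_lit 420) (nat_lit 28390135777) (nat_lit 84) (nat_lit 9364542619) (nat_lit 55) (nat_lit 5) (nat_lit 60) (nat_lit 5) (nat_lit 56) (nat_lit 5) (nat_lit 421) (nat_lit 362) (nat_lit 162)))) (XT.nd (nat_lit 188) (nat_lit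 252) (nat_lit 0) (XT.nd (nat_lit 94) (nat_lit 252) (nat_lit 0) (XT.lf (nat_lit 0) (nat_lit 16781773002) (nat_lit 420) (nat_lit 8858312908) (nat_lit 84) (nat_lit 22864016402) (nat_lit 55) (nat_lit 5) (nat_lit 60) (nat_lit 5) (nat_lit 56) (nat_lit 5) (nat_lit 422) (nat_lit 362) (nat_lit 161)) (XT.lf (nat_lit 0) (nat_lit 11480390873) (nat_lit 252) (nat_lit 12662179096) (nat_lit 336) (nat_lit 25397524595) (nat_lit 52) (nat_lit 5) (nat_lit 55) (nat_lit 5) (nat_lit 56) (nat_lit 5) (nat_lit 423) (nat_lit 362) (nat_lit 160))) (XT.nd (nat_lit 94) (nat_lit 252) (nat_lit 0) (XT.lf (nat_lit 0) (nat_lit 31819212134) (nat_lit 336) (nat_lit 18004426309) (nat_lit 84) (nat_lit 780679846) (nat_lit 52) (nat_lit 5) (nat_lit 56) (nat_lit 5) (nat_lit 53) (nat_lit 5) (nat_lit 424) (nat_lit 362) (nat_lit 159)) (XT.lf (nat_lit 0) (nat_lit 2574344368) (nat_lit 252) (nat_lit 37299890975) (nat_lit 336) (nat_lit 11821793205)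 (nat_lit 49) (nat_lit 5) (nat_lit 52) (nat_lit 5) (nat_lit 53) (nat_lit 5) (nat_lit 425) (nat_lit 362) (nat_lit 158)))))) (XT.nd (nat_lit 658) (nat_lit 672) (nat_lit 0) (XT.nd (nat_lit 282) (nat_lit 252) (nat_lit 0) (XT.nd (nat_lit 94) (nat_lit 336) (nat_lit 0) (XT.lf (nat_lit 0) (nat_lit 24136549328) (nat_lit 252) (nat_lit 24214167163) (nat_lit 336) (nat_lit 4464381616) (nat_lit 49) (nat_lit 5) (nat_lit 52) (nat_lit 5) (nat_lit 53) (nat_lit 5) (nat_lit 426) (nat_lit 362) (nat_lit 157)) (XT.nd (nat_lit 94) (nat_lit 252) (nat_lit 0) (XT.lf (nat_lit 0) (nat_lit 3051026603) (nat_lit 336) (nat_lit 7655006292) (nat_lit 84) (nat_lit 43260869958) (nat_lit 48) (nat_lit 5) (nat_lit 52) (nat_lit 5) (nat_lit 49) (nat_lit 5) (nat_lit 427) (nat_lit 362) (nat_lit 156)) (XT.lf (nat_lit 0) (nat_lit 10869659135) (nat_lit 336) (nat_lit 40950658413) (nat_lit 84) (nat_lit 3326595409) (nat_lit 45) (nat_lit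 5) (nat_lit 49) (nat_lit 5) (nat_lit 46) (nat_lit 5) (nat_lit 428) (nat_lit 362) (nat_lit 155)))) (XT.nd (nat_lit 188) (nat_lit 0) (nat_lit 0) (XT.nd (nat_lit 94) (nat_lit 252) (nat_lit 0) (XT.lf (nat_lit 0) (nat_lit 19105027931) (nat_lit 336) (nat_lit 19609687268) (nat_lit 84) (nat_lit 17642144811) (nat_lit 45) (nat_lit 5) (nat_lit 49) (nat_lit 5) (nat_lit 46) (nat_lit 5) (nat_lit 429) (nat_lit 362) (nat_lit 154)) (XT.lf (nat_lit 0) (nat_lit 2415848536) (nat_lit 252) (nat_lit 25192997944) (nat_lit 336) (nat_lit 29993619240) (nat_lit 42) (nat_lit 5) (nat_lit 45) (nat_lit 5) (nat_lit 46) (nat_lit 5) (nat_lit 430) (nat_lit 362) (nat_lit 153))) (XT.nd (nat_lit 94) (nat_lit 0) (nat_lit 0) (XT.lf (nat_lit 0) (nat_lit 25501350912) (nat_lit 252) (nat_lit 11062640843) (nat_lit 336) (nat_lit 22315563332) (nat_lit 42) (nat_lit 5) (nat_lit 45) (nat_lit 5) (nat_lit 46) (nat_lit 5) (nat_lit 431) (nat_lit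 362) (nat_lit 152)) (XT.lf (nat_lit 0) (nat_lit 45819591391) (nat_lit 336) (nat_lit 10951845726) (nat_lit 84) (nat_lit 3422567814) (nat_lit 42) (nat_lit 5) (nat_lit 46) (nat_lit 5) (nat_lit 43) (nat_lit 5) (nat_lit 432) (nat_lit 362) (nat_lit 151))))) (XT.nd (nat_lit 282) (nat_lit 420) (nat_lit 0) (XT.nd (nat_lit 94) (nat_lit 84) (nat_lit 0) (XT.lf (nat_lit 0) (nat_lit 12274631252) (nat_lit 168) (nat_lit 43304037840) (nat_lit 252) (nat_lit 5962446620) (nat_lit 40) (nat_lit 5) (nat_lit 42) (nat_lit 5) (nat_lit 43) (nat_lit 5) (nat_lit 433) (nat_lit 362) (nat_lit 150)) (XT.nd (nat_lit 94) (nat_lit 0) (nat_lit 0) (XT.lf (nat_lit 0) (nat_lit 2759136916) (nat_lit 252) (nat_lit 26532657383) (nat_lit 84) (nat_lit 33632768569) (nat_lit 39) (nat_lit 5) (nat_lit 42) (nat_lit 5) (nat_lit 40) (nat_lit 5) (nat_lit 434) (nat_lit 362) (nat_lit 149)) (XT.lf (nat_lit 0) (nat_lit 11620872245) (nat_lit 252)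 (nat_lit 3178444648) (nat_lit 84) (nat_lit 49548476810) (nat_lit 39) (nat_lit 5) (nat_lit 42) (nat_lit 5) (nat_lit 40) (nat_lit 5) (nat_lit 435) (nat_lit 362) (nat_lit 148)))) (XT.nd (nat_lit 188) (nat_lit 168) (nat_lit 0) (XT.nd (nat_lit 94) (nat_lit 0) (nat_lit 0) (XT.lf (nat_lit 0) (nat_lit 20954744498) (nat_lit 336) (nat_lit 44521573047) (nat_lit 84) (nat_lit 331216923) (nat_lit 36) (nat_lit 5) (nat_lit 40) (nat_lit 5) (nat_lit 37) (nat_lit 5) (nat_lit 436) (nat_lit 362) (nat_lit 147)) (XT.lf (nat_lit 0) (nat_lit 30745980572) (nat_lit 336) (nat_lit 20910030644) (nat_lit 84) (nat_lit 15649737314) (nat_lit 36) (nat_lit 5) (nat_lit 40) (nat_lit 5) (nat_lit 37) (nat_lit 5) (nat_lit 437) (nat_lit 362) (nat_lit 146))) (XT.nd (nat_lit 94) (nat_lit 0) (nat_lit 0) (XT.lf (nat_lit 0) (nat_lit 3475210675) (nat_lit 168) (nat_lit 37387601257) (nat_lit 252) (nat_lit 27985142797) (nat_lit 34) (nat_lit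 5) (nat_lit 36) (nat_lit 5) (nat_lit 37) (nat_lit 5) (nat_lit 438) (nat_lit 362) (nat_lit 145)) (XT.lf (nat_lit 0) (nat_lit 29018207260) (nat_lit 168) (nat_lit 22474565285) (nat_lit 252) (nat_lit 18937367258) (nat_lit 34) (nat_lit 5) (nat_lit 36) (nat_lit 5) (nat_lit 37) (nat_lit 5) (nat_lit 439) (nat_lit 362) (nat_lit 144))))))) (XT.nd (nat_lit 1316) (nat_lit 0) (nat_lit 0) (XT.nd (nat_lit 658) (nat_lit 588) (nat_lit 0) (XT.nd (nat_lit 282) (nat_lit 168) (nat_lit 0) (XT.nd (nat_lit 94) (nat_lit 252) (nat_lit 0) (XT.lf (nat_lit 0) (nat_lit 55325127623) (nat_lit 168) (nat_lit 7115022804) (nat_lit 252) (nat_lit 9619685827) (nat_lit 34) (nat_lit 5) (nat_lit 36) (nat_lit 5) (nat_lit 37) (nat_lit 5) (nat_lit 440) (nat_lit 362) (nat_lit 143)) (XT.nd (nat_lit 94) (nat_lit 0) (nat_lit 0) (XT.lf (nat_lit 0) (nat_lit 146128562) (nat_lit 252) (nat_lit 64966950703) (nat_lit 84) (nat_lit 8620307192)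 (nat_lit 31) (nat_lit 5) (nat_lit 34) (nat_lit 5) (nat_lit 32) (nat_lit 5) (nat_lit 441) (nat_lit 362) (nat_lit 142)) (XT.lf (nat_lit 0) (nat_lit 10251235755) (nat_lit 252) (nat_lit 40246117793) (nat_lit 84) (nat_lit 24949743609) (nat_lit 31) (nat_lit 5) (nat_lit 34) (nat_lit 5) (nat_lit 32) (nat_lit 5) (nat_lit 442) (nat_lit 362) (nat_lit 141)))) (XT.nd (nat_lit 188) (nat_lit 0) (nat_lit 0) (XT.nd (nat_lit 94) (nat_lit 168) (nat_lit 0) (XT.lf (nat_lit 0) (nat_lit 20658096041) (nat_lit 252) (nat_lit 14785932246) (nat_lit 84) (nat_lit 41768234120) (nat_lit 31) (nat_lit 5) (nat_lit 34) (nat_lit 5) (nat_lit 32) (nat_lit 5) (nat_lit 443) (nat_lit 362) (nat_lit 140)) (XT.lf (nat_lit 0) (nat_lit 11663448592) (nat_lit 168) (nat_lit 19824470402) (nat_lit 252) (nat_lit 47539142102) (nat_lit 29) (nat_lit 5) (nat_lit 31) (nat_lit 5) (nat_lit 32) (nat_lit 5) (nat_lit 444) (nat_lit 362) (nat_lit 139)))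 (XT.nd (nat_lit 94) (nat_lit 0) (nat_lit 0) (XT.lf (nat_lit 0) (nat_lit 39207223434) (nat_lit 168) (nat_lit 3583381374) (nat_lit 252) (nat_lit 38101261045) (nat_lit 29) (nat_lit 5) (nat_lit 31) (nat_lit 5) (nat_lit 32) (nat_lit 5) (nat_lit 445) (nat_lit 362) (nat_lit 138)) (XT.lf (nat_lit 0) (nat_lit 54557418832) (nat_lit 252) (nat_lit 15363813645) (nat_lit 84) (nat_lit 12887631967) (nat_lit 29) (nat_lit 5) (nat_lit 32) (nat_lit 5) (nat_lit 30) (nat_lit 5) (nat_lit 446) (nat_lit 362) (nat_lit 137))))) (XT.nd (nat_lit 282) (nat_lit 336) (nat_lit 0) (XT.nd (nat_lit 94) (nat_lit 84) (nat_lit 0) (XT.lf (nat_lit 0) (nat_lit 11942103940) (nat_lit 168) (nat_lit 54884135736) (nat_lit 252) (nat_lit 17952664331) (nat_lit 27) (nat_lit 5) (nat_lit 29) (nat_lit 5) (nat_lit 30) (nat_lit 5) (nat_lit 447) (nat_lit 362) (nat_lit 136)) (XT.nd (nat_lit 94) (nat_lit 84) (nat_lit 0) (XT.lf (nat_lit 0) (nat_lit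 40380072174) (nat_lit 168) (nat_lit 39236943067) (nat_lit 252) (nat_lit 7186413868) (nat_lit 27) (nat_lit 5) (nat_lit 29) (nat_lit 5) (nat_lit 30) (nat_lit 5) (nat_lit 448) (nat_lit 362) (nat_lit 135)) (XT.lf (nat_lit 0) (nat_lit 3825435126) (nat_lit 252) (nat_lit 19257062038) (nat_lit 84) (nat_lit 65805105231) (nat_lit 26) (nat_lit 5) (nat_lit 29) (nat_lit 5) (nat_lit 27) (nat_lit 5) (nat_lit 449) (nat_lit 362) (nat_lit 134)))) (XT.nd (nat_lit 188) (nat_lit 168) (nat_lit 0) (XT.nd (nat_lit 94) (nat_lit 0) (nat_lit 0) (XT.lf (nat_lit 0) (nat_lit 8823266893) (nat_lit 168) (nat_lit 6283552556) (nat_lit 252) (nat_lit 75922839226) (nat_lit 24) (nat_lit 5) (nat_lit 26) (nat_lit 5) (nat_lit 27) (nat_lit 5) (nat_lit 450) (nat_lit 362) (nat_lit 133)) (XT.lf (nat_lit 0) (nat_lit 27027767583) (nat_lit 252) (nat_lit 55199221848) (nat_lit 84) (nat_lit 10999954484) (nat_lit 24) (nat_lit 5) (nat_lit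 27) (nat_lit 5) (nat_lit 25) (nat_lit 5) (nat_lit 451) (nat_lit 362) (nat_lit 132))) (XT.nd (nat_lit 94) (nat_lit 168) (nat_lit 0) (XT.lf (nat_lit 0) (nat_lit 39367405655) (nat_lit 252) (nat_lit 27445977757) (nat_lit 84) (nat_lit 28674933364) (nat_lit 24) (nat_lit 5) (nat_lit 27) (nat_lit 5) (nat_lit 25) (nat_lit 5) (nat_lit 452) (nat_lit 362) (nat_lit 131)) (XT.lf (nat_lit 0) (nat_lit 1160640522) (nat_lit 168) (nat_lit 50926630788) (nat_lit 252) (nat_lit 45729959245) (nat_lit 22) (nat_lit 5) (nat_lit 24) (nat_lit 5) (nat_lit 25) (nat_lit 5) (nat_lit 453) (nat_lit 362) (nat_lit 130)))))) (XT.nd (nat_lit 51230) (nat_lit 0) (nat_lit 11928) (XT.nd (nat_lit 50854) (nat_lit 0) (nat_lit 12936) (XT.nd (nat_lit 94) (nat_lit 0) (nat_lit 0) (XT.lf (nat_lit 0) (nat_lit 31186219925) (nat_lit 168) (nat_lit 34278559983) (nat_lit 252) (nat_lit 34742951288) (nat_lit 22) (nat_lit 5) (nat_lit 24) (nat_lit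 5) (nat_lit 25) (nat_lit 5) (nat_lit 454) (nat_lit 362) (nat_lit 129)) (XT.nd (nat_lit 50666) (nat_lit 0) (nat_lit 12936) (XT.lf (nat_lit 0) (nat_lit 62110767620) (nat_lit 168) (nat_lit 17131774702) (nat_lit 252) (nat_lit 23427437510) (nat_lit 22) (nat_lit 5) (nat_lit 24) (nat_lit 5) (nat_lit 25) (nat_lit 5) (nat_lit 455) (nat_lit 362) (nat_lit 128)) (XT.lf (nat_lit 0) (nat_lit 6524023082) (nat_lit 1260) (nat_lit 1015201643) (nat_lit 1260) (nat_lit 1015201643) (nat_lit 176) (nat_lit 3) (nat_lit 191) (nat_lit 3) (nat_lit 191) (nat_lit 5) (nat_lit 363) (nat_lit 363) (nat_lit 219)))) (XT.nd (nat_lit 188) (nat_lit 0) (nat_lit 84) (XT.nd (nat_lit 94) (nat_lit 0) (nat_lit 0) (XT.lf (nat_lit 84) (nat_lit 5476183630) (nat_lit 0) (nat_lit 8028668008) (nat_lit 1260) (nat_lit 3852403047) (nat_lit 177) (nat_lit 5) (nat_lit 176) (nat_lit 3) (nat_lit 191) (nat_lit 5) (nat_lit 364) (nat_lit 363) (nat_lit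 218)) (XT.lf (nat_lit 84) (nat_lit 13245308601) (nat_lit 0) (nat_lit 742379619) (nat_lit 1260) (nat_lit 3625066209) (nat_lit 177) (nat_lit 5) (nat_lit 176) (nat_lit 3) (nat_lit 191) (nat_lit 5) (nat_lit 365) (nat_lit 363) (nat_lit 217))) (XT.nd (nat_lit 94) (nat_lit 0) (nat_lit 0) (XT.lf (nat_lit 84) (nat_lit 3367856164) (nat_lit 0) (nat_lit 11206631233) (nat_lit 1260) (nat_lit 3298762534) (nat_lit 178) (nat_lit 5) (nat_lit 177) (nat_lit 5) (nat_lit 192) (nat_lit 5) (nat_lit 366) (nat_lit 363) (nat_lit 216)) (XT.lf (nat_lit 84) (nat_lit 11412846849) (nat_lit 0) (nat_lit 3809710745) (nat_lit 1260) (nat_lit 2917707345) (nat_lit 178) (nat_lit 5) (nat_lit 177) (nat_lit 5) (nat_lit 192) (nat_lit 5) (nat_lit 367) (nat_lit 363) (nat_lit 215))))) (XT.nd (nat_lit 282) (nat_lit 1176) (nat_lit 0) (XT.nd (nat_lit 94) (nat_lit 0) (nat_lit 0) (XT.lf (nat_lit 84) (nat_lit 1267470467) (nat_lit 0) (nat_lit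 14663940450) (nat_lit 1260) (nat_lit 2482653474) (nat_lit 179) (nat_lit 5) (nat_lit 178) (nat_lit 5) (nat_lit 193) (nat_lit 5) (nat_lit 368) (nat_lit 363) (nat_lit 214)) (XT.nd (nat_lit 94) (nat_lit 0) (nat_lit 84) (XT.lf (nat_lit 84) (nat_lit 9597141360) (nat_lit 0) (nat_lit 7162388055) (nat_lit 1260) (nat_lit 1933622238) (nat_lit 179) (nat_lit 5) (nat_lit 178) (nat_lit 5) (nat_lit 193) (nat_lit 5) (nat_lit 369) (nat_lit 363) (nat_lit 213)) (XT.lf (nat_lit 0) (nat_lit 17610868897) (nat_lit 1176) (nat_lit 813952402) (nat_lit 1260) (nat_lit 555852317) (nat_lit 179) (nat_lit 5) (nat_lit 193) (nat_lit 5) (nat_lit 194) (nat_lit 5) (nat_lit 370) (nat_lit 363) (nat_lit 212)))) (XT.nd (nat_lit 188) (nat_lit 0) (nat_lit 84) (XT.nd (nat_lit 94) (nat_lit 1260) (nat_lit 0) (XT.lf (nat_lit 84) (nat_lit 7793241550) (nat_lit 0) (nat_lit 10833494270) (nat_lit 1260) (nat_lit 645928820) (nat_lit 180) (nat_lit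 5) (nat_lit 179) (nat_lit 5) (nat_lit 194) (nat_lit 5) (nat_lit 371) (nat_lit 363) (nat_lit 211)) (XT.lf (nat_lit 0) (nat_lit 99256367) (nat_lit 1260) (nat_lit 2903459721) (nat_lit 1344) (nat_lit 16570636702) (nat_lit 164) (nat_lit 5) (nat_lit 179) (nat_lit 5) (nat_lit 180) (nat_lit 5) (nat_lit 372) (nat_lit 363) (nat_lit 210))) (XT.nd (nat_lit 94) (nat_lit 0) (nat_lit 0) (XT.lf (nat_lit 0) (nat_lit 954604086) (nat_lit 1260) (nat_lit 13893933261) (nat_lit 1344) (nat_lit 5031320607) (nat_lit 165) (nat_lit 5) (nat_lit 180) (nat_lit 5) (nat_lit 181) (nat_lit 5) (nat_lit 373) (nat_lit 363) (nat_lit 209)) (XT.lf (nat_lit 0) (nat_lit 1888553844) (nat_lit 1260) (nat_lit 5027824239) (nat_lit 1344) (nat_lit 13277603507) (nat_lit 165) (nat_lit 5) (nat_lit 180) (nat_lit 5) (nat_lit 181) (nat_lit 5) (nat_lit 374) (nat_lit 363) (nat_lit 208))))))))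
noncomputable def xc182 : XT := (XT.nd (nat_lit 2538) (nat_lit 4200) (nat_lit 0) (XT.nd (nat_lit 1222) (nat_lit 3696) (nat_lit 0) (XT.nd (nat_lit 564) (nat_lit 2268) (nat_lit 0) (XT.nd (nat_lit 282) (nat_lit 0) (nat_lit 84) (XT.nd (nat_lit 94) (nat_lit 0) (nat_lit 0) (XT.lf (nat_lit 0) (nat_lit 2896970650) (nat_lit 1260) (nat_lit 16347624530) (nat_lit 1344) (nat_lit 1271551529) (nat_lit 166) (nat_lit 5) (nat_lit 181) (nat_lit 5) (nat_lit 182) (nat_lit 5) (nat_lit 375) (nat_lit 363) (nat_lit 207)) (XT.nd (nat_lit 94) (nat_lit 0) (nat_lit 0) (XT.lf (nat_lit 0) (nat_lit 4049334999) (nat_lit 1260) (nat_lit 7176274551) (nat_lit 1344) (nat_lit 9618967283) (nat_lit 166) (nat_lit 5) (nat_lit 181) (nat_lit 5) (nat_lit 182) (nat_lit 5) (nat_lit 376) (nat_lit 363) (nat_lit 206)) (XT.lf (nat_lit 84) (nat_lit 2310779711) (nat_lit 0) (nat_lit 2941821834) (nat_lit 1344) (nat_lit 15929778962) (nat_lit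 167) (nat_lit 5) (nat_lit 166) (nat_lit 5) (nat_lit 182) (nat_lit 5) (nat_lit 377) (nat_lit 363) (nat_lit 205)))) (XT.nd (nat_lit 94) (nat_lit 0) (nat_lit 0) (XT.lf (nat_lit 0) (nat_lit 6613148036) (nat_lit 1260) (nat_lit 9357727244) (nat_lit 1344) (nat_lit 5555817831) (nat_lit 167) (nat_lit 5) (nat_lit 182) (nat_lit 5) (nat_lit 183) (nat_lit 5) (nat_lit 378) (nat_lit 363) (nat_lit 204)) (XT.nd (nat_lit 94) (nat_lit 0) (nat_lit 84) (XT.lf (nat_lit 84) (nat_lit 416011173) (nat_lit 0) (nat_lit 7626051909) (nat_lit 1344) (nat_lit 13838455422) (nat_lit 168) (nat_lit 5) (nat_lit 167) (nat_lit 5) (nat_lit 183) (nat_lit 5) (nat_lit 379) (nat_lit 363) (nat_lit 203)) (XT.lf (nat_lit 0) (nat_lit 9613146172) (nat_lit 1260) (nat_lit 11582269431) (nat_lit 84) (nat_lit 1046573726) (nat_lit 168) (nat_lit 5) (nat_lit 183) (nat_lit 5) (nat_lit 169) (nat_lit 5) (nat_lit 380) (nat_lit 363) (nat_lit 202)))))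 (XT.nd (nat_lit 282) (nat_lit 1176) (nat_lit 0) (XT.nd (nat_lit 94) (nat_lit 1260) (nat_lit 0) (XT.lf (nat_lit 0) (nat_lit 11301580388) (nat_lit 1260) (nat_lit 1483613801) (nat_lit 84) (nat_lit 9827012935) (nat_lit 168) (nat_lit 5) (nat_lit 183) (nat_lit 5) (nat_lit 169) (nat_lit 5) (nat_lit 381) (nat_lit 363) (nat_lit 201)) (XT.nd (nat_lit 94) (nat_lit 0) (nat_lit 0) (XT.lf (nat_lit 0) (nat_lit 9090987819) (nat_lit 1260) (nat_lit 4031935104) (nat_lit 1344) (nat_lit 9868150004) (nat_lit 153) (nat_lit 5) (nat_lit 168) (nat_lit 5) (nat_lit 169) (nat_lit 5) (nat_lit 382) (nat_lit 363) (nat_lit 200)) (XT.lf (nat_lit 0) (nat_lit 15056925141) (nat_lit 1344) (nat_lit 3420206259) (nat_lit 84) (nat_lit 4902441583) (nat_lit 153) (nat_lit 5) (nat_lit 169) (nat_lit 5) (nat_lit 154) (nat_lit 5) (nat_lit 383) (nat_lit 363) (nat_lit 199)))) (XT.nd (nat_lit 188) (nat_lit 588) (nat_lit 0) (XT.nd (nat_lit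 94) (nat_lit 0) (nat_lit 0) (XT.lf (nat_lit 0) (nat_lit 7475622916) (nat_lit 588) (nat_lit 9680232084) (nat_lit 672) (nat_lit 6620674422) (nat_lit 146) (nat_lit 5) (nat_lit 153) (nat_lit 5) (nat_lit 154) (nat_lit 5) (nat_lit 384) (nat_lit 363) (nat_lit 198)) (XT.lf (nat_lit 0) (nat_lit 18764078783) (nat_lit 588) (nat_lit 583438540) (nat_lit 672) (nat_lit 4836992650) (nat_lit 146) (nat_lit 5) (nat_lit 153) (nat_lit 5) (nat_lit 154) (nat_lit 5) (nat_lit 385) (nat_lit 363) (nat_lit 197))) (XT.nd (nat_lit 94) (nat_lit 0) (nat_lit 0) (XT.lf (nat_lit 0) (nat_lit 5811010144) (nat_lit 588) (nat_lit 15929607316) (nat_lit 672) (nat_lit 2860049955) (nat_lit 139) (nat_lit 5) (nat_lit 146) (nat_lit 5) (nat_lit 147) (nat_lit 5) (nat_lit 386) (nat_lit 363) (nat_lit 196)) (XT.lf (nat_lit 0) (nat_lit 17480276547) (nat_lit 588) (nat_lit 6781152964) (nat_lit 672) (nat_lit 766210377) (nat_lit 139) (nat_lit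 5) (nat_lit 146) (nat_lit 5) (nat_lit 147) (nat_lit 5) (nat_lit 387) (nat_lit 363) (nat_lit 195)))))) (XT.nd (nat_lit 658) (nat_lit 1932) (nat_lit 0) (XT.nd (nat_lit 282) (nat_lit 504) (nat_lit 0) (XT.nd (nat_lit 94) (nat_lit 588) (nat_lit 0) (XT.lf (nat_lit 0) (nat_lit 1424131703) (nat_lit 672) (nat_lit 21397477811) (nat_lit 84) (nat_lit 2643593876) (nat_lit 131) (nat_lit 5) (nat_lit 139) (nat_lit 5) (nat_lit 132) (nat_lit 5) (nat_lit 388) (nat_lit 363) (nat_lit 194)) (XT.nd (nat_lit 94) (nat_lit 588) (nat_lit 0) (XT.lf (nat_lit 0) (nat_lit 3804526208) (nat_lit 672) (nat_lit 9807514356) (nat_lit 84) (nat_lit 12299440585) (nat_lit 131) (nat_lit 5) (nat_lit 139) (nat_lit 5) (nat_lit 132) (nat_lit 5) (nat_lit 389) (nat_lit 363) (nat_lit 193)) (XT.lf (nat_lit 0) (nat_lit 2168178600) (nat_lit 588) (nat_lit 4104756917) (nat_lit 672) (nat_lit 20097720634) (nat_lit 124) (nat_lit 5) (nat_lit 131)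 (nat_lit 5) (nat_lit 132) (nat_lit 5) (nat_lit 390) (nat_lit 363) (nat_lit 192)))) (XT.nd (nat_lit 188) (nat_lit 0) (nat_lit 0) (XT.nd (nat_lit 94) (nat_lit 504) (nat_lit 0) (XT.lf (nat_lit 0) (nat_lit 8965931498) (nat_lit 672) (nat_lit 12196470312) (nat_lit 84) (nat_lit 5676695356) (nat_lit 124) (nat_lit 5) (nat_lit 132) (nat_lit 5) (nat_lit 125) (nat_lit 5) (nat_lit 391) (nat_lit 363) (nat_lit 191)) (XT.lf (nat_lit 0) (nat_lit 127320530) (nat_lit 504) (nat_lit 11650226019) (nat_lit 588) (nat_lit 15542916581) (nat_lit 118) (nat_lit 5) (nat_lit 124) (nat_lit 5) (nat_lit 125) (nat_lit 5) (nat_lit 392) (nat_lit 363) (nat_lit 190))) (XT.nd (nat_lit 94) (nat_lit 0) (nat_lit 0) (XT.lf (nat_lit 0) (nat_lit 13066642412) (nat_lit 504) (nat_lit 1726069422) (nat_lit 588) (nat_lit 13019988591) (nat_lit 118) (nat_lit 5) (nat_lit 124) (nat_lit 5) (nat_lit 125) (nat_lit 5) (nat_lit 393) (nat_lit 363)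 (nat_lit 189)) (XT.lf (nat_lit 0) (nat_lit 17976153428) (nat_lit 588) (nat_lit 2011423198) (nat_lit 84) (nat_lit 8329799790) (nat_lit 118) (nat_lit 5) (nat_lit 125) (nat_lit 5) (nat_lit 119) (nat_lit 5) (nat_lit 394) (nat_lit 363) (nat_lit 188))))) (XT.nd (nat_lit 282) (nat_lit 1008) (nat_lit 0) (XT.nd (nat_lit 94) (nat_lit 420) (nat_lit 0) (XT.lf (nat_lit 0) (nat_lit 11304682770) (nat_lit 504) (nat_lit 10072439237) (nat_lit 588) (nat_lit 7456416004) (nat_lit 112) (nat_lit 5) (nat_lit 118) (nat_lit 5) (nat_lit 119) (nat_lit 5) (nat_lit 395) (nat_lit 363) (nat_lit 187)) (XT.nd (nat_lit 94) (nat_lit 420) (nat_lit 0) (XT.lf (nat_lit 0) (nat_lit 24898312245) (nat_lit 588) (nat_lit 4308764778) (nat_lit 84) (nat_lit 157567513) (nat_lit 112) (nat_lit 5) (nat_lit 119) (nat_lit 5) (nat_lit 113) (nat_lit 5) (nat_lit 396) (nat_lit 363) (nat_lit 186)) (XT.lf (nat_lit 0) (nat_lit 9387357723) (nat_lit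 420) (nat_lit 19324184262) (nat_lit 504) (nat_lit 1194555849) (nat_lit 107) (nat_lit 5) (nat_lit 112) (nat_lit 5) (nat_lit 113) (nat_lit 5) (nat_lit 397) (nat_lit 363) (nat_lit 185)))) (XT.nd (nat_lit 188) (nat_lit 420) (nat_lit 0) (XT.nd (nat_lit 94) (nat_lit 504) (nat_lit 0) (XT.lf (nat_lit 0) (nat_lit 2173330394) (nat_lit 504) (nat_lit 6905202865) (nat_lit 84) (nat_lit 21383427326) (nat_lit 106) (nat_lit 5) (nat_lit 112) (nat_lit 5) (nat_lit 107) (nat_lit 5) (nat_lit 398) (nat_lit 363) (nat_lit 184)) (XT.lf (nat_lit 0) (nat_lit 5699404321) (nat_lit 588) (nat_lit 23804845439) (nat_lit 84) (nat_lit 1527465033) (nat_lit 100) (nat_lit 5) (nat_lit 107) (nat_lit 5) (nat_lit 101) (nat_lit 5) (nat_lit 399) (nat_lit 363) (nat_lit 183))) (XT.nd (nat_lit 94) (nat_lit 420) (nat_lit 0) (XT.lf (nat_lit 0) (nat_lit 9488191606) (nat_lit 588) (nat_lit 9786598026) (nat_lit 84) (nat_lit 12339069118) (nat_lit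 100) (nat_lit 5) (nat_lit 107) (nat_lit 5) (nat_lit 101) (nat_lit 5) (nat_lit 400) (nat_lit 363) (nat_lit 182)) (XT.lf (nat_lit 0) (nat_lit 4740818868) (nat_lit 420) (nat_lit 8692118861) (nat_lit 504) (nat_lit 18779265347) (nat_lit 95) (nat_lit 5) (nat_lit 100) (nat_lit 5) (nat_lit 101) (nat_lit 5) (nat_lit 401) (nat_lit 363) (nat_lit 181))))))) (XT.nd (nat_lit 1316) (nat_lit 1848) (nat_lit 0) (XT.nd (nat_lit 658) (nat_lit 1092) (nat_lit 0) (XT.nd (nat_lit 282) (nat_lit 840) (nat_lit 0) (XT.nd (nat_lit 94) (nat_lit 420) (nat_lit 0) (XT.lf (nat_lit 0) (nat_lit 17613831022) (nat_lit 504) (nat_lit 12947007958) (nat_lit 84) (nat_lit 2264129374) (nat_lit 95) (nat_lit 5) (nat_lit 101) (nat_lit 5) (nat_lit 96) (nat_lit 5) (nat_lit 402) (nat_lit 363) (nat_lit 180)) (XT.nd (nat_lit 94) (nat_lit 0) (nat_lit 0) (XT.lf (nat_lit 0) (nat_lit 1961484034) (nat_lit 420) (nat_lit 20060452463) (nat_lit 504)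 (nat_lit 11431131159) (nat_lit 90) (nat_lit 5) (nat_lit 95) (nat_lit 5) (nat_lit 96) (nat_lit 5) (nat_lit 403) (nat_lit 363) (nat_lit 179)) (XT.lf (nat_lit 0) (nat_lit 17578838729) (nat_lit 420) (nat_lit 9111110326) (nat_lit 504) (nat_lit 7406235455) (nat_lit 90) (nat_lit 5) (nat_lit 95) (nat_lit 5) (nat_lit 96) (nat_lit 5) (nat_lit 404) (nat_lit 363) (nat_lit 178)))) (XT.nd (nat_lit 188) (nat_lit 420) (nat_lit 0) (XT.nd (nat_lit 94) (nat_lit 420) (nat_lit 0) (XT.lf (nat_lit 0) (nat_lit 31515837158) (nat_lit 504) (nat_lit 1118478358) (nat_lit 84) (nat_lit 2123748659) (nat_lit 90) (nat_lit 5) (nat_lit 96) (nat_lit 5) (nat_lit 91) (nat_lit 5) (nat_lit 405) (nat_lit 363) (nat_lit 177)) (XT.lf (nat_lit 0) (nat_lit 1259475089) (nat_lit 420) (nat_lit 20505205098) (nat_lit 84) (nat_lit 13667826359) (nat_lit 85) (nat_lit 5) (nat_lit 90) (nat_lit 5) (nat_lit 86) (nat_lit 5) (nat_lit 406) (nat_lit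 363) (nat_lit 176))) (XT.nd (nat_lit 94) (nat_lit 420) (nat_lit 0) (XT.lf (nat_lit 0) (nat_lit 5839581024) (nat_lit 420) (nat_lit 4685359655) (nat_lit 84) (nat_lit 25601026912) (nat_lit 85) (nat_lit 5) (nat_lit 90) (nat_lit 5) (nat_lit 86) (nat_lit 5) (nat_lit 407) (nat_lit 363) (nat_lit 175)) (XT.lf (nat_lit 0) (nat_lit 10679297210) (nat_lit 504) (nat_lit 25011663355) (nat_lit 84) (nat_lit 1145609565) (nat_lit 80) (nat_lit 5) (nat_lit 86) (nat_lit 5) (nat_lit 81) (nat_lit 5) (nat_lit 408) (nat_lit 363) (nat_lit 174))))) (XT.nd (nat_lit 282) (nat_lit 756) (nat_lit 0) (XT.nd (nat_lit 94) (nat_lit 336) (nat_lit 0) (XT.lf (nat_lit 0) (nat_lit 15813429814) (nat_lit 504) (nat_lit 8748842689) (nat_lit 84) (nat_lit 13001745256) (nat_lit 80) (nat_lit 5) (nat_lit 86) (nat_lit 5) (nat_lit 81) (nat_lit 5) (nat_lit 409) (nat_lit 363) (nat_lit 173)) (XT.nd (nat_lit 94) (nat_lit 0) (nat_lit 0) (XT.lf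 (nat_lit 0) (nat_lit 8157528829) (nat_lit 336) (nat_lit 13019789431) (nat_lit 420) (nat_lit 17133702252) (nat_lit 76) (nat_lit 5) (nat_lit 80) (nat_lit 5) (nat_lit 81) (nat_lit 5) (nat_lit 410) (nat_lit 363) (nat_lit 172)) (XT.lf (nat_lit 0) (nat_lit 25746952131) (nat_lit 336) (nat_lit 1040878776) (nat_lit 420) (nat_lit 12290034761) (nat_lit 76) (nat_lit 5) (nat_lit 80) (nat_lit 5) (nat_lit 81) (nat_lit 5) (nat_lit 411) (nat_lit 363) (nat_lit 171)))) (XT.nd (nat_lit 188) (nat_lit 420) (nat_lit 0) (XT.nd (nat_lit 94) (nat_lit 0) (nat_lit 0) (XT.lf (nat_lit 0) (nat_lit 3961596389) (nat_lit 336) (nat_lit 28749171716) (nat_lit 420) (nat_lit 7152628242) (nat_lit 72) (nat_lit 5) (nat_lit 76) (nat_lit 5) (nat_lit 77) (nat_lit 5) (nat_lit 412) (nat_lit 363) (nat_lit 170)) (XT.lf (nat_lit 0) (nat_lit 22032222226) (nat_lit 336) (nat_lit 16921464320) (nat_lit 420) (nat_lit 1714540947) (nat_lit 72)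 (nat_lit 5) (nat_lit 76) (nat_lit 5) (nat_lit 77) (nat_lit 5) (nat_lit 413) (nat_lit 363) (nat_lit 169))) (XT.nd (nat_lit 94) (nat_lit 336) (nat_lit 0) (XT.lf (nat_lit 0) (nat_lit 3808364154) (nat_lit 420) (nat_lit 892970128) (nat_lit 84) (nat_lit 36794826051) (nat_lit 71) (nat_lit 5) (nat_lit 76) (nat_lit 5) (nat_lit 72) (nat_lit 5) (nat_lit 414) (nat_lit 363) (nat_lit 168)) (XT.lf (nat_lit 0) (nat_lit 9707947692) (nat_lit 420) (nat_lit 24713388655) (nat_lit 84) (nat_lit 7919725045) (nat_lit 67) (nat_lit 5) (nat_lit 72) (nat_lit 5) (nat_lit 68) (nat_lit 5) (nat_lit 415) (nat_lit 363) (nat_lit 167)))))) (XT.nd (nat_lit 658) (nat_lit 840) (nat_lit 0) (XT.nd (nat_lit 282) (nat_lit 672) (nat_lit 0) (XT.nd (nat_lit 94) (nat_lit 336) (nat_lit 0) (XT.lf (nat_lit 0) (nat_lit 15837794524) (nat_lit 420) (nat_lit 6538743750) (nat_lit 84) (nat_lit 20833175904) (nat_lit 67) (nat_lit 5) (nat_lit 72)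 (nat_lit 5) (nat_lit 68) (nat_lit 5) (nat_lit 416) (nat_lit 363) (nat_lit 166)) (XT.nd (nat_lit 94) (nat_lit 0) (nat_lit 0) (XT.lf (nat_lit 0) (nat_lit 12420293967) (nat_lit 336) (nat_lit 9848324933) (nat_lit 420) (nat_lit 21832298066) (nat_lit 63) (nat_lit 5) (nat_lit 67) (nat_lit 5) (nat_lit 68) (nat_lit 5) (nat_lit 417) (nat_lit 363) (nat_lit 165)) (XT.lf (nat_lit 0) (nat_lit 28986142493) (nat_lit 420) (nat_lit 12968003652) (nat_lit 84) (nat_lit 3061899257) (nat_lit 63) (nat_lit 5) (nat_lit 68) (nat_lit 5) (nat_lit 64) (nat_lit 5) (nat_lit 418) (nat_lit 363) (nat_lit 164)))) (XT.nd (nat_lit 188) (nat_lit 420) (nat_lit 0) (XT.nd (nat_lit 94) (nat_lit 0) (nat_lit 0) (XT.lf (nat_lit 0) (nat_lit 6328836955) (nat_lit 252) (nat_lit 29732484757) (nat_lit 336) (nat_lit 9892624800) (nat_lit 60) (nat_lit 5) (nat_lit 63) (nat_lit 5) (nat_lit 64) (nat_lit 5) (nat_lit 419) (nat_lit 363) (nat_lit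 163)) (XT.lf (nat_lit 0) (nat_lit 26467297446) (nat_lit 252) (nat_lit 17010229925) (nat_lit 336) (nat_lit 3438596792) (nat_lit 60) (nat_lit 5) (nat_lit 63) (nat_lit 5) (nat_lit 64) (nat_lit 5) (nat_lit 420) (nat_lit 363) (nat_lit 162))) (XT.nd (nat_lit 94) (nat_lit 336) (nat_lit 0) (XT.lf (nat_lit 0) (nat_lit 3144291579) (nat_lit 336) (nat_lit 731173765) (nat_lit 84) (nat_lit 44030843073) (nat_lit 59) (nat_lit 5) (nat_lit 63) (nat_lit 5) (nat_lit 60) (nat_lit 5) (nat_lit 421) (nat_lit 363) (nat_lit 161)) (XT.lf (nat_lit 0) (nat_lit 10140073532) (nat_lit 420) (nat_lit 29084627725) (nat_lit 84) (nat_lit 9691942410) (nat_lit 55) (nat_lit 5) (nat_lit 60) (nat_lit 5) (nat_lit 56) (nat_lit 5) (nat_lit 422) (nat_lit 363) (nat_lit 160))))) (XT.nd (nat_lit 282) (nat_lit 588) (nat_lit 0) (XT.nd (nat_lit 94) (nat_lit 252) (nat_lit 0) (XT.lf (nat_lit 0) (nat_lit 17389501869) (nat_lit 420) (nat_lit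 8971429164) (nat_lit 84) (nat_lit 23595047100) (nat_lit 55) (nat_lit 5) (nat_lit 60) (nat_lit 5) (nat_lit 56) (nat_lit 5) (nat_lit 423) (nat_lit 363) (nat_lit 159)) (XT.nd (nat_lit 94) (nat_lit 0) (nat_lit 0) (XT.lf (nat_lit 0) (nat_lit 11975939327) (nat_lit 252) (nat_lit 12993599082) (nat_lit 336) (nat_lit 26053562740) (nat_lit 52) (nat_lit 5) (nat_lit 55) (nat_lit 5) (nat_lit 56) (nat_lit 5) (nat_lit 424) (nat_lit 363) (nat_lit 158)) (XT.lf (nat_lit 0) (nat_lit 32873940952) (nat_lit 336) (nat_lit 18395173377) (nat_lit 84) (nat_lit 850216788) (nat_lit 52) (nat_lit 5) (nat_lit 56) (nat_lit 5) (nat_lit 53) (nat_lit 5) (nat_lit 425) (nat_lit 363) (nat_lit 157)))) (XT.nd (nat_lit 188) (nat_lit 336) (nat_lit 0) (XT.nd (nat_lit 94) (nat_lit 0) (nat_lit 0) (XT.lf (nat_lit 0) (nat_lit 2799495854) (nat_lit 252) (nat_lit 38369623849) (nat_lit 336) (nat_lit 12074721101) (nat_lit 49) (nat_lit 5)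 (nat_lit 52) (nat_lit 5) (nat_lit 53) (nat_lit 5) (nat_lit 426) (nat_lit 363) (nat_lit 156)) (XT.lf (nat_lit 0) (nat_lit 25004258581) (nat_lit 252) (nat_lit 24892763192) (nat_lit 336) (nat_lit 4499550054) (nat_lit 49) (nat_lit 5) (nat_lit 52) (nat_lit 5) (nat_lit 53) (nat_lit 5) (nat_lit 427) (nat_lit 363) (nat_lit 155))) (XT.nd (nat_lit 94) (nat_lit 252) (nat_lit 0) (XT.lf (nat_lit 0) (nat_lit 3236572729) (nat_lit 336) (nat_lit 7743255874) (nat_lit 84) (nat_lit 44603161234) (nat_lit 48) (nat_lit 5) (nat_lit 52) (nat_lit 5) (nat_lit 49) (nat_lit 5) (nat_lit 428) (nat_lit 363) (nat_lit 154)) (XT.lf (nat_lit 0) (nat_lit 11288827385) (nat_lit 336) (nat_lit 42036743968) (nat_lit 84) (nat_lit 3472859900) (nat_lit 45) (nat_lit 5) (nat_lit 49) (nat_lit 5) (nat_lit 46) (nat_lit 5) (nat_lit 429) (nat_lit 363) (nat_lit 153))))))))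
noncomputable def xc183 : XT := (XT.nd (nat_lit 53204) (nat_lit 0) (nat_lit 8568) (XT.nd (nat_lit 1316) (nat_lit 756) (nat_lit 0) (XT.nd (nat_lit 658) (nat_lit 672) (nat_lit 0) (XT.nd (nat_lit 282) (nat_lit 252) (nat_lit 0) (XT.nd (nat_lit 94) (nat_lit 252) (nat_lit 0) (XT.lf (nat_lit 0) (nat_lit 19768546222) (nat_lit 336) (nat_lit 20059692257) (nat_lit 84) (nat_lit 18216522386) (nat_lit 45) (nat_lit 5) (nat_lit 49) (nat_lit 5) (nat_lit 46) (nat_lit 5) (nat_lit 430) (nat_lit 363) (nat_lit 152)) (XT.nd (nat_lit 94) (nat_lit 0) (nat_lit 0) (XT.lf (nat_lit 0) (nat_lit 2625253879) (nat_lit 252) (nat_lit 25900909640) (nat_lit 336) (nat_lit 30801613437) (nat_lit 42) (nat_lit 5) (nat_lit 45) (nat_lit 5) (nat_lit 46) (nat_lit 5) (nat_lit 431) (nat_lit 363) (nat_lit 151)) (XT.lf (nat_lit 0) (nat_lit 26399333077) (nat_lit 252) (nat_lit 11348036338) (nat_lit 336) (nat_lit 22895890057) (nat_lit 42)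 (nat_lit 5) (nat_lit 45) (nat_lit 5) (nat_lit 46) (nat_lit 5) (nat_lit 432) (nat_lit 363) (nat_lit 150)))) (XT.nd (nat_lit 188) (nat_lit 84) (nat_lit 0) (XT.nd (nat_lit 94) (nat_lit 168) (nat_lit 0) (XT.lf (nat_lit 0) (nat_lit 47278552664) (nat_lit 336) (nat_lit 11149161219) (nat_lit 84) (nat_lit 3569494039) (nat_lit 42) (nat_lit 5) (nat_lit 46) (nat_lit 5) (nat_lit 43) (nat_lit 5) (nat_lit 433) (nat_lit 363) (nat_lit 149)) (XT.lf (nat_lit 0) (nat_lit 12772823403) (nat_lit 168) (nat_lit 44556371002) (nat_lit 252) (nat_lit 6055576373) (nat_lit 40) (nat_lit 5) (nat_lit 42) (nat_lit 5) (nat_lit 43) (nat_lit 5) (nat_lit 434) (nat_lit 363) (nat_lit 148))) (XT.nd (nat_lit 94) (nat_lit 0) (nat_lit 0) (XT.lf (nat_lit 0) (nat_lit 2923532847) (nat_lit 252) (nat_lit 27200765844) (nat_lit 84) (nat_lit 34685473751) (nat_lit 39) (nat_lit 5) (nat_lit 42) (nat_lit 5) (nat_lit 40) (nat_lit 5) (nat_lit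 435) (nat_lit 363) (nat_lit 147)) (XT.lf (nat_lit 0) (nat_lit 12048742901) (nat_lit 252) (nat_lit 3149651132) (nat_lit 84) (nat_lit 51077379780) (nat_lit 39) (nat_lit 5) (nat_lit 42) (nat_lit 5) (nat_lit 40) (nat_lit 5) (nat_lit 436) (nat_lit 363) (nat_lit 146))))) (XT.nd (nat_lit 282) (nat_lit 252) (nat_lit 0) (XT.nd (nat_lit 94) (nat_lit 168) (nat_lit 0) (XT.lf (nat_lit 0) (nat_lit 21661935662) (nat_lit 336) (nat_lit 45732303582) (nat_lit 84) (nat_lit 385090651) (nat_lit 36) (nat_lit 5) (nat_lit 40) (nat_lit 5) (nat_lit 37) (nat_lit 5) (nat_lit 437) (nat_lit 363) (nat_lit 145)) (XT.nd (nat_lit 94) (nat_lit 168) (nat_lit 0) (XT.lf (nat_lit 0) (nat_lit 31744620989) (nat_lit 336) (nat_lit 21416053256) (nat_lit 84) (nat_lit 16161886929) (nat_lit 36) (nat_lit 5) (nat_lit 40) (nat_lit 5) (nat_lit 37) (nat_lit 5) (nat_lit 438) (nat_lit 363) (nat_lit 144)) (XT.lf (nat_lit 0) (nat_lit 3699556300)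 (nat_lit 168) (nat_lit 38464334167) (nat_lit 252) (nat_lit 28747177193) (nat_lit 34) (nat_lit 5) (nat_lit 36) (nat_lit 5) (nat_lit 37) (nat_lit 5) (nat_lit 439) (nat_lit 363) (nat_lit 143)))) (XT.nd (nat_lit 188) (nat_lit 252) (nat_lit 0) (XT.nd (nat_lit 94) (nat_lit 0) (nat_lit 0) (XT.lf (nat_lit 0) (nat_lit 30005345035) (nat_lit 168) (nat_lit 23105214742) (nat_lit 252) (nat_lit 19430226248) (nat_lit 34) (nat_lit 5) (nat_lit 36) (nat_lit 5) (nat_lit 37) (nat_lit 5) (nat_lit 440) (nat_lit 363) (nat_lit 142)) (XT.lf (nat_lit 0) (nat_lit 57098077138) (nat_lit 168) (nat_lit 7286155525) (nat_lit 252) (nat_lit 9835206472) (nat_lit 34) (nat_lit 5) (nat_lit 36) (nat_lit 5) (nat_lit 37) (nat_lit 5) (nat_lit 441) (nat_lit 363) (nat_lit 141))) (XT.nd (nat_lit 94) (nat_lit 0) (nat_lit 0) (XT.lf (nat_lit 0) (nat_lit 221573887) (nat_lit 252) (nat_lit 66800629027) (nat_lit 84) (nat_lit 8920991199) (nat_lit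 31) (nat_lit 5) (nat_lit 34) (nat_lit 5) (nat_lit 32) (nat_lit 5) (nat_lit 442) (nat_lit 363) (nat_lit 140)) (XT.lf (nat_lit 0) (nat_lit 10627764545) (nat_lit 252) (nat_lit 41341530262) (nat_lit 84) (nat_lit 25739085229) (nat_lit 31) (nat_lit 5) (nat_lit 34) (nat_lit 5) (nat_lit 32) (nat_lit 5) (nat_lit 443) (nat_lit 363) (nat_lit 139)))))) (XT.nd (nat_lit 658) (nat_lit 336) (nat_lit 0) (XT.nd (nat_lit 282) (nat_lit 252) (nat_lit 0) (XT.nd (nat_lit 94) (nat_lit 168) (nat_lit 0) (XT.lf (nat_lit 0) (nat_lit 21344821172) (nat_lit 252) (nat_lit 15120800442) (nat_lit 84) (nat_lit 43060940669) (nat_lit 31) (nat_lit 5) (nat_lit 34) (nat_lit 5) (nat_lit 32) (nat_lit 5) (nat_lit 444) (nat_lit 363) (nat_lit 138)) (XT.nd (nat_lit 94) (nat_lit 0) (nat_lit 0) (XT.lf (nat_lit 0) (nat_lit 12120996039) (nat_lit 168) (nat_lit 20377626574) (nat_lit 252) (nat_lit 48897211509) (nat_lit 29) (nat_lit 5) (nat_lit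 31) (nat_lit 5) (nat_lit 32) (nat_lit 5) (nat_lit 445) (nat_lit 363) (nat_lit 137)) (XT.lf (nat_lit 0) (nat_lit 40487948865) (nat_lit 168) (nat_lit 3650515884) (nat_lit 252) (nat_lit 39178177657) (nat_lit 29) (nat_lit 5) (nat_lit 31) (nat_lit 5) (nat_lit 32) (nat_lit 5) (nat_lit 446) (nat_lit 363) (nat_lit 136)))) (XT.nd (nat_lit 188) (nat_lit 84) (nat_lit 0) (XT.nd (nat_lit 94) (nat_lit 168) (nat_lit 0) (XT.lf (nat_lit 0) (nat_lit 56256791715) (nat_lit 252) (nat_lit 15721718230) (nat_lit 84) (nat_lit 13312687360) (nat_lit 29) (nat_lit 5) (nat_lit 32) (nat_lit 5) (nat_lit 30) (nat_lit 5) (nat_lit 447) (nat_lit 363) (nat_lit 135)) (XT.lf (nat_lit 0) (nat_lit 12402366982) (nat_lit 168) (nat_lit 56490465922) (nat_lit 252) (nat_lit 18427532040) (nat_lit 27) (nat_lit 5) (nat_lit 29) (nat_lit 5) (nat_lit 30) (nat_lit 5) (nat_lit 448) (nat_lit 363) (nat_lit 134))) (XT.nd (nat_lit 94) (nat_lit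 84) (nat_lit 0) (XT.lf (nat_lit 0) (nat_lit 41690503392) (nat_lit 168) (nat_lit 40375028169) (nat_lit 252) (nat_lit 7340149759) (nat_lit 27) (nat_lit 5) (nat_lit 29) (nat_lit 5) (nat_lit 30) (nat_lit 5) (nat_lit 449) (nat_lit 363) (nat_lit 133)) (XT.lf (nat_lit 0) (nat_lit 3999081172) (nat_lit 252) (nat_lit 19737409711) (nat_lit 84) (nat_lit 67815925504) (nat_lit 26) (nat_lit 5) (nat_lit 29) (nat_lit 5) (nat_lit 27) (nat_lit 5) (nat_lit 450) (nat_lit 363) (nat_lit 132))))) (XT.nd (nat_lit 282) (nat_lit 168) (nat_lit 0) (XT.nd (nat_lit 94) (nat_lit 0) (nat_lit 0) (XT.lf (nat_lit 0) (nat_lit 9184374537) (nat_lit 168) (nat_lit 6433744198) (nat_lit 252) (nat_lit 78140640658) (nat_lit 24) (nat_lit 5) (nat_lit 26) (nat_lit 5) (nat_lit 27) (nat_lit 5) (nat_lit 451) (nat_lit 363) (nat_lit 131)) (XT.nd (nat_lit 94) (nat_lit 0) (nat_lit 0) (XT.lf (nat_lit 0) (nat_lit 27895360813) (nat_lit 252) (nat_lit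 56760217557) (nat_lit 84) (nat_lit 11366426199) (nat_lit 24) (nat_lit 5) (nat_lit 27) (nat_lit 5) (nat_lit 25) (nat_lit 5) (nat_lit 452) (nat_lit 363) (nat_lit 130)) (XT.lf (nat_lit 0) (nat_lit 40603534817) (nat_lit 252) (nat_lit 28177142580) (nat_lit 84) (nat_lit 29570592122) (nat_lit 24) (nat_lit 5) (nat_lit 27) (nat_lit 5) (nat_lit 25) (nat_lit 5) (nat_lit 453) (nat_lit 363) (nat_lit 129)))) (XT.nd (nat_lit 188) (nat_lit 0) (nat_lit 0) (XT.nd (nat_lit 94) (nat_lit 0) (nat_lit 0) (XT.lf (nat_lit 0) (nat_lit 1286770184) (nat_lit 168) (nat_lit 52417498931) (nat_lit 252) (nat_lit 47045804684) (nat_lit 22) (nat_lit 5) (nat_lit 24) (nat_lit 5) (nat_lit 25) (nat_lit 5) (nat_lit 454) (nat_lit 363) (nat_lit 128)) (XT.lf (nat_lit 0) (nat_lit 32210457442) (nat_lit 168) (nat_lit 35271061656) (nat_lit 252) (nat_lit 35730819109) (nat_lit 22) (nat_lit 5) (nat_lit 24) (nat_lit 5) (nat_lit 25) (nat_lit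 5) (nat_lit 455) (nat_lit 363) (nat_lit 127))) (XT.nd (nat_lit 50666) (nat_lit 0) (nat_lit 12936) (XT.lf (nat_lit 0) (nat_lit 64060159502) (nat_lit 168) (nat_lit 17610917140) (nat_lit 252) (nat_lit 24077424987) (nat_lit 22) (nat_lit 5) (nat_lit 24) (nat_lit 5) (nat_lit 25) (nat_lit 5) (nat_lit 456) (nat_lit 363) (nat_lit 126)) (XT.lf (nat_lit 0) (nat_lit 6926184435) (nat_lit 1260) (nat_lit 939143517) (nat_lit 1260) (nat_lit 939143517) (nat_lit 176) (nat_lit 3) (nat_lit 191) (nat_lit 3) (nat_lit 191) (nat_lit 5) (nat_lit 364) (nat_lit 364) (nat_lit 217))))))) (XT.nd (nat_lit 1316) (nat_lit 3360) (nat_lit 0) (XT.nd (nat_lit 658) (nat_lit 1008) (nat_lit 0) (XT.nd (nat_lit 282) (nat_lit 0) (nat_lit 84) (XT.nd (nat_lit 94) (nat_lit 0) (nat_lit 0) (XT.lf (nat_lit 84) (nat_lit 5851408977) (nat_lit 0) (nat_lit 8461471545) (nat_lit 1260) (nat_lit 3552239342) (nat_lit 177) (nat_lit 5) (nat_lit 176)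 (nat_lit 3) (nat_lit 191) (nat_lit 5) (nat_lit 365) (nat_lit 364) (nat_lit 216)) (XT.nd (nat_lit 94) (nat_lit 0) (nat_lit 84) (XT.lf (nat_lit 84) (nat_lit 13847463818) (nat_lit 0) (nat_lit 951003916) (nat_lit 1260) (nat_lit 3330191208) (nat_lit 177) (nat_lit 5) (nat_lit 176) (nat_lit 3) (nat_lit 191) (nat_lit 5) (nat_lit 366) (nat_lit 364) (nat_lit 215)) (XT.lf (nat_lit 84) (nat_lit 3685809565) (nat_lit 0) (nat_lit 11706014619) (nat_lit 1260) (nat_lit 3005498186) (nat_lit 178) (nat_lit 5) (nat_lit 177) (nat_lit 5) (nat_lit 192) (nat_lit 5) (nat_lit 367) (nat_lit 364) (nat_lit 214)))) (XT.nd (nat_lit 188) (nat_lit 0) (nat_lit 84) (XT.nd (nat_lit 94) (nat_lit 0) (nat_lit 84) (XT.lf (nat_lit 84) (nat_lit 11965831978) (nat_lit 0) (nat_lit 4082433571) (nat_lit 1260) (nat_lit 2624435436) (nat_lit 178) (nat_lit 5) (nat_lit 177) (nat_lit 5) (nat_lit 192) (nat_lit 5) (nat_lit 368) (nat_lit 364)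 (nat_lit 213)) (XT.lf (nat_lit 84) (nat_lit 1527194102) (nat_lit 0) (nat_lit 15241094417) (nat_lit 1260) (nat_lit 2186749198) (nat_lit 179) (nat_lit 5) (nat_lit 178) (nat_lit 5) (nat_lit 193) (nat_lit 5) (nat_lit 369) (nat_lit 364) (nat_lit 212))) (XT.nd (nat_lit 94) (nat_lit 0) (nat_lit 84) (XT.lf (nat_lit 84) (nat_lit 10100297854) (nat_lit 0) (nat_lit 7510498292) (nat_lit 1260) (nat_lit 1632034904) (nat_lit 179) (nat_lit 5) (nat_lit 178) (nat_lit 5) (nat_lit 193) (nat_lit 5) (nat_lit 370) (nat_lit 364) (nat_lit 211)) (XT.lf (nat_lit 0) (nat_lit 18476282419) (nat_lit 1176) (nat_lit 617363036) (nat_lit 1260) (nat_lit 445694265) (nat_lit 179) (nat_lit 5) (nat_lit 193) (nat_lit 5) (nat_lit 194) (nat_lit 5) (nat_lit 371) (nat_lit 364) (nat_lit 210))))) (XT.nd (nat_lit 282) (nat_lit 0) (nat_lit 84) (XT.nd (nat_lit 94) (nat_lit 1260) (nat_lit 0) (XT.lf (nat_lit 84) (nat_lit 8245879990) (nat_lit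 0) (nat_lit 11269030913) (nat_lit 1260) (nat_lit 325429688) (nat_lit 180) (nat_lit 5) (nat_lit 179) (nat_lit 5) (nat_lit 194) (nat_lit 5) (nat_lit 372) (nat_lit 364) (nat_lit 209)) (XT.nd (nat_lit 94) (nat_lit 0) (nat_lit 84) (XT.lf (nat_lit 0) (nat_lit 425772672) (nat_lit 1260) (nat_lit 2771070235) (nat_lit 1344) (nat_lit 16953417262) (nat_lit 164) (nat_lit 5) (nat_lit 179) (nat_lit 5) (nat_lit 180) (nat_lit 5) (nat_lit 373) (nat_lit 364) (nat_lit 208)) (XT.lf (nat_lit 0) (nat_lit 1298496254) (nat_lit 1260) (nat_lit 14082403466) (nat_lit 1344) (nat_lit 5085326403) (nat_lit 165) (nat_lit 5) (nat_lit 180) (nat_lit 5) (nat_lit 181) (nat_lit 5) (nat_lit 374) (nat_lit 364) (nat_lit 207)))) (XT.nd (nat_lit 188) (nat_lit 0) (nat_lit 84) (XT.nd (nat_lit 94) (nat_lit 0) (nat_lit 84) (XT.lf (nat_lit 0) (nat_lit 2251282349) (nat_lit 1260) (nat_lit 4956962079) (nat_lit 1344) (nat_lit 13581821106)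 (nat_lit 165) (nat_lit 5) (nat_lit 180) (nat_lit 5) (nat_lit 181) (nat_lit 5) (nat_lit 375) (nat_lit 364) (nat_lit 206)) (XT.lf (nat_lit 0) (nat_lit 3282380588) (nat_lit 1260) (nat_lit 16608248079) (nat_lit 1344) (nat_lit 1231510188) (nat_lit 166) (nat_lit 5) (nat_lit 181) (nat_lit 5) (nat_lit 182) (nat_lit 5) (nat_lit 376) (nat_lit 364) (nat_lit 205))) (XT.nd (nat_lit 94) (nat_lit 0) (nat_lit 0) (XT.lf (nat_lit 0) (nat_lit 4460621670) (nat_lit 1260) (nat_lit 7168450955) (nat_lit 1344) (nat_lit 9831625732) (nat_lit 166) (nat_lit 5) (nat_lit 181) (nat_lit 5) (nat_lit 182) (nat_lit 5) (nat_lit 377) (nat_lit 364) (nat_lit 204)) (XT.lf (nat_lit 84) (nat_lit 2601027564) (nat_lit 0) (nat_lit 3092641340) (nat_lit 1344) (nat_lit 16115171949) (nat_lit 167) (nat_lit 5) (nat_lit 166) (nat_lit 5) (nat_lit 182) (nat_lit 5) (nat_lit 378) (nat_lit 364) (nat_lit 203)))))) (XT.nd (nat_lit 658) (nat_lit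 1848) (nat_lit 0) (XT.nd (nat_lit 282) (nat_lit 1764) (nat_lit 0) (XT.nd (nat_lit 94) (nat_lit 0) (nat_lit 0) (XT.lf (nat_lit 0) (nat_lit 7086190924) (nat_lit 1260) (nat_lit 9414636785) (nat_lit 1344) (nat_lit 5662935100) (nat_lit 167) (nat_lit 5) (nat_lit 182) (nat_lit 5) (nat_lit 183) (nat_lit 5) (nat_lit 379) (nat_lit 364) (nat_lit 202)) (XT.nd (nat_lit 94) (nat_lit 0) (nat_lit 84) (XT.lf (nat_lit 84) (nat_lit 650119448) (nat_lit 0) (nat_lit 7901984928) (nat_lit 1344) (nat_lit 13976288979) (nat_lit 168) (nat_lit 5) (nat_lit 167) (nat_lit 5) (nat_lit 183) (nat_lit 5) (nat_lit 380) (nat_lit 364) (nat_lit 201)) (XT.lf (nat_lit 0) (nat_lit 10162051385) (nat_lit 1260) (nat_lit 11705832764) (nat_lit 84) (nat_lit 1033086116) (nat_lit 168) (nat_lit 5) (nat_lit 183) (nat_lit 5) (nat_lit 169) (nat_lit 5) (nat_lit 381) (nat_lit 364) (nat_lit 200)))) (XT.nd (nat_lit 188) (nat_lit 588) (nat_lit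 0) (XT.nd (nat_lit 94) (nat_lit 1260) (nat_lit 0) (XT.lf (nat_lit 0) (nat_lit 11893550933) (nat_lit 1260) (nat_lit 1310738962) (nat_lit 84) (nat_lit 10078245826) (nat_lit 168) (nat_lit 5) (nat_lit 183) (nat_lit 5) (nat_lit 169) (nat_lit 5) (nat_lit 382) (nat_lit 364) (nat_lit 199)) (XT.lf (nat_lit 0) (nat_lit 9578969498) (nat_lit 1260) (nat_lit 4185266687) (nat_lit 1344) (nat_lit 9908703344) (nat_lit 153) (nat_lit 5) (nat_lit 168) (nat_lit 5) (nat_lit 169) (nat_lit 5) (nat_lit 383) (nat_lit 364) (nat_lit 198))) (XT.nd (nat_lit 94) (nat_lit 588) (nat_lit 0) (XT.lf (nat_lit 0) (nat_lit 15748743944) (nat_lit 1344) (nat_lit 3305891259) (nat_lit 84) (nat_lit 5018697544) (nat_lit 153) (nat_lit 5) (nat_lit 169) (nat_lit 5) (nat_lit 154) (nat_lit 5) (nat_lit 384) (nat_lit 364) (nat_lit 197)) (XT.lf (nat_lit 0) (nat_lit 7914686113) (nat_lit 588) (nat_lit 9991026797) (nat_lit 672) (nat_lit 6576645185)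 (nat_lit 146) (nat_lit 5) (nat_lit 153) (nat_lit 5) (nat_lit 154) (nat_lit 5) (nat_lit 385) (nat_lit 364) (nat_lit 196))))) (XT.nd (nat_lit 282) (nat_lit 1260) (nat_lit 0) (XT.nd (nat_lit 94) (nat_lit 588) (nat_lit 0) (XT.lf (nat_lit 0) (nat_lit 19535539505) (nat_lit 588) (nat_lit 620735628) (nat_lit 672) (nat_lit 4746520420) (nat_lit 146) (nat_lit 5) (nat_lit 153) (nat_lit 5) (nat_lit 154) (nat_lit 5) (nat_lit 386) (nat_lit 364) (nat_lit 195)) (XT.nd (nat_lit 94) (nat_lit 0) (nat_lit 0) (XT.lf (nat_lit 0) (nat_lit 6199201362) (nat_lit 588) (nat_lit 16417187489) (nat_lit 672) (nat_lit 2715203892) (nat_lit 139) (nat_lit 5) (nat_lit 146) (nat_lit 5) (nat_lit 147) (nat_lit 5) (nat_lit 387) (nat_lit 364) (nat_lit 194)) (XT.lf (nat_lit 0) (nat_lit 18212316799) (nat_lit 588) (nat_lit 6993997217) (nat_lit 672) (nat_lit 565267017) (nat_lit 139) (nat_lit 5) (nat_lit 146) (nat_lit 5) (nat_lit 147)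 (nat_lit 5) (nat_lit 388) (nat_lit 364) (nat_lit 193)))) (XT.nd (nat_lit 188) (nat_lit 588) (nat_lit 0) (XT.nd (nat_lit 94) (nat_lit 0) (nat_lit 0) (XT.lf (nat_lit 0) (nat_lit 1681994980) (nat_lit 672) (nat_lit 21822258844) (nat_lit 84) (nat_lit 2718096316) (nat_lit 131) (nat_lit 5) (nat_lit 139) (nat_lit 5) (nat_lit 132) (nat_lit 5) (nat_lit 389) (nat_lit 364) (nat_lit 192)) (XT.lf (nat_lit 0) (nat_lit 4127535126) (nat_lit 672) (nat_lit 9890921048) (nat_lit 84) (nat_lit 12663758388) (nat_lit 131) (nat_lit 5) (nat_lit 139) (nat_lit 5) (nat_lit 132) (nat_lit 5) (nat_lit 390) (nat_lit 364) (nat_lit 191))) (XT.nd (nat_lit 94) (nat_lit 0) (nat_lit 0) (XT.lf (nat_lit 0) (nat_lit 2441975847) (nat_lit 588) (nat_lit 4223943835) (nat_lit 672) (nat_lit 20489377486) (nat_lit 124) (nat_lit 5) (nat_lit 131) (nat_lit 5) (nat_lit 132) (nat_lit 5) (nat_lit 391) (nat_lit 364) (nat_lit 190)) (XT.lf (nat_lit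 0) (nat_lit 9433777525) (nat_lit 672) (nat_lit 12353439634) (nat_lit 84) (nat_lit 5850761846) (nat_lit 124) (nat_lit 5) (nat_lit 132) (nat_lit 5) (nat_lit 125) (nat_lit 5) (nat_lit 392) (nat_lit 364) (nat_lit 189))))))))
noncomputable def xc184 : XT := (XT.nd (nat_lit 2538) (nat_lit 2856) (nat_lit 0) (XT.nd (nat_lit 1222) (nat_lit 2268) (nat_lit 0) (XT.nd (nat_lit 564) (nat_lit 1428) (nat_lit 0) (XT.nd (nat_lit 282) (nat_lit 924) (nat_lit 0) (XT.nd (nat_lit 94) (nat_lit 0) (nat_lit 0) (XT.lf (nat_lit 0) (nat_lit 338016651) (nat_lit 504) (nat_lit 11987920726) (nat_lit 588) (nat_lit 15807972147) (nat_lit 118) (nat_lit 5) (nat_lit 124) (nat_lit 5) (nat_lit 125) (nat_lit 5) (nat_lit 393) (nat_lit 364) (nat_lit 188)) (XT.nd (nat_lit 94) (nat_lit 0) (nat_lit 0) (XT.lf (nat_lit 0) (nat_lit 13659492660) (nat_lit 504) (nat_lit 1766383472) (nat_lit 588) (nat_lit 13215217442) (nat_lit 118) (nat_lit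 5) (nat_lit 124) (nat_lit 5) (nat_lit 125) (nat_lit 5) (nat_lit 394) (nat_lit 364) (nat_lit 187)) (XT.lf (nat_lit 0) (nat_lit 18699411993) (nat_lit 588) (nat_lit 1871058514) (nat_lit 84) (nat_lit 8590610531) (nat_lit 118) (nat_lit 5) (nat_lit 125) (nat_lit 5) (nat_lit 119) (nat_lit 5) (nat_lit 395) (nat_lit 364) (nat_lit 186)))) (XT.nd (nat_lit 94) (nat_lit 420) (nat_lit 0) (XT.lf (nat_lit 0) (nat_lit 11842562914) (nat_lit 504) (nat_lit 10356398657) (nat_lit 588) (nat_lit 7493878015) (nat_lit 112) (nat_lit 5) (nat_lit 118) (nat_lit 5) (nat_lit 119) (nat_lit 5) (nat_lit 396) (nat_lit 364) (nat_lit 185)) (XT.nd (nat_lit 94) (nat_lit 420) (nat_lit 0) (XT.lf (nat_lit 0) (nat_lit 25820699463) (nat_lit 588) (nat_lit 4239708164) (nat_lit 84) (nat_lit 179632732) (nat_lit 112) (nat_lit 5) (nat_lit 119) (nat_lit 5) (nat_lit 113) (nat_lit 5) (nat_lit 397) (nat_lit 364) (nat_lit 184)) (XT.lf (nat_lit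 0) (nat_lit 9865353702) (nat_lit 420) (nat_lit 19879750231) (nat_lit 504) (nat_lit 1052738154) (nat_lit 107) (nat_lit 5) (nat_lit 112) (nat_lit 5) (nat_lit 113) (nat_lit 5) (nat_lit 398) (nat_lit 364) (nat_lit 183))))) (XT.nd (nat_lit 282) (nat_lit 840) (nat_lit 0) (XT.nd (nat_lit 94) (nat_lit 504) (nat_lit 0) (XT.lf (nat_lit 0) (nat_lit 2407644572) (nat_lit 504) (nat_lit 6918081080) (nat_lit 84) (nat_lit 22044763738) (nat_lit 106) (nat_lit 5) (nat_lit 112) (nat_lit 5) (nat_lit 107) (nat_lit 5) (nat_lit 399) (nat_lit 364) (nat_lit 182)) (XT.nd (nat_lit 94) (nat_lit 0) (nat_lit 0) (XT.lf (nat_lit 0) (nat_lit 6036677419) (nat_lit 588) (nat_lit 24321640523) (nat_lit 84) (nat_lit 1599110455) (nat_lit 100) (nat_lit 5) (nat_lit 107) (nat_lit 5) (nat_lit 101) (nat_lit 5) (nat_lit 400) (nat_lit 364) (nat_lit 181)) (XT.lf (nat_lit 0) (nat_lit 9934284896) (nat_lit 588) (nat_lit 9888593754) (nat_lit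 84) (nat_lit 12734310581) (nat_lit 100) (nat_lit 5) (nat_lit 107) (nat_lit 5) (nat_lit 101) (nat_lit 5) (nat_lit 401) (nat_lit 364) (nat_lit 180)))) (XT.nd (nat_lit 188) (nat_lit 420) (nat_lit 0) (XT.nd (nat_lit 94) (nat_lit 0) (nat_lit 0) (XT.lf (nat_lit 0) (nat_lit 5072767194) (nat_lit 420) (nat_lit 8921727594) (nat_lit 504) (nat_lit 19179082502) (nat_lit 95) (nat_lit 5) (nat_lit 100) (nat_lit 5) (nat_lit 101) (nat_lit 5) (nat_lit 402) (nat_lit 364) (nat_lit 179)) (XT.lf (nat_lit 0) (nat_lit 18296487124) (nat_lit 504) (nat_lit 13146664644) (nat_lit 84) (nat_lit 2361710430) (nat_lit 95) (nat_lit 5) (nat_lit 101) (nat_lit 5) (nat_lit 96) (nat_lit 5) (nat_lit 403) (nat_lit 364) (nat_lit 178))) (XT.nd (nat_lit 94) (nat_lit 0) (nat_lit 0) (XT.lf (nat_lit 0) (nat_lit 2207231582) (nat_lit 420) (nat_lit 20626908345) (nat_lit 504) (nat_lit 11617752066) (nat_lit 90) (nat_lit 5) (nat_lit 95) (nat_lit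 5) (nat_lit 96) (nat_lit 5) (nat_lit 404) (nat_lit 364) (nat_lit 177)) (XT.lf (nat_lit 0) (nat_lit 18287663141) (nat_lit 420) (nat_lit 9350115779) (nat_lit 504) (nat_lit 7476662298) (nat_lit 90) (nat_lit 5) (nat_lit 95) (nat_lit 5) (nat_lit 96) (nat_lit 5) (nat_lit 405) (nat_lit 364) (nat_lit 176)))))) (XT.nd (nat_lit 658) (nat_lit 1092) (nat_lit 0) (XT.nd (nat_lit 282) (nat_lit 756) (nat_lit 0) (XT.nd (nat_lit 94) (nat_lit 420) (nat_lit 0) (XT.lf (nat_lit 0) (nat_lit 32604478656) (nat_lit 504) (nat_lit 971685042) (nat_lit 84) (nat_lit 2220138785) (nat_lit 90) (nat_lit 5) (nat_lit 96) (nat_lit 5) (nat_lit 91) (nat_lit 5) (nat_lit 406) (nat_lit 364) (nat_lit 175)) (XT.nd (nat_lit 94) (nat_lit 0) (nat_lit 0) (XT.lf (nat_lit 0) (nat_lit 1439564243) (nat_lit 420) (nat_lit 20938752902) (nat_lit 84) (nat_lit 14112698801) (nat_lit 85) (nat_lit 5) (nat_lit 90) (nat_lit 5) (nat_lit 86) (nat_lit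 5) (nat_lit 407) (nat_lit 364) (nat_lit 174)) (XT.lf (nat_lit 0) (nat_lit 6152928553) (nat_lit 420) (nat_lit 4649601658) (nat_lit 84) (nat_lit 26402880682) (nat_lit 85) (nat_lit 5) (nat_lit 90) (nat_lit 5) (nat_lit 86) (nat_lit 5) (nat_lit 408) (nat_lit 364) (nat_lit 173)))) (XT.nd (nat_lit 188) (nat_lit 336) (nat_lit 0) (XT.nd (nat_lit 94) (nat_lit 0) (nat_lit 0) (XT.lf (nat_lit 0) (nat_lit 11135863149) (nat_lit 504) (nat_lit 25583536032) (nat_lit 84) (nat_lit 1217997080) (nat_lit 80) (nat_lit 5) (nat_lit 86) (nat_lit 5) (nat_lit 81) (nat_lit 5) (nat_lit 409) (nat_lit 364) (nat_lit 172)) (XT.lf (nat_lit 0) (nat_lit 16420053119) (nat_lit 504) (nat_lit 8838029112) (nat_lit 84) (nat_lit 13428709486) (nat_lit 80) (nat_lit 5) (nat_lit 86) (nat_lit 5) (nat_lit 81) (nat_lit 5) (nat_lit 410) (nat_lit 364) (nat_lit 171))) (XT.nd (nat_lit 94) (nat_lit 0) (nat_lit 0) (XT.lf (nat_lit 0) (nat_lit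 8573834740) (nat_lit 336) (nat_lit 13368821732) (nat_lit 420) (nat_lit 17513619375) (nat_lit 76) (nat_lit 5) (nat_lit 80) (nat_lit 5) (nat_lit 81) (nat_lit 5) (nat_lit 411) (nat_lit 364) (nat_lit 170)) (XT.lf (nat_lit 0) (nat_lit 26685943264) (nat_lit 336) (nat_lit 1031754282) (nat_lit 420) (nat_lit 12528547508) (nat_lit 76) (nat_lit 5) (nat_lit 80) (nat_lit 5) (nat_lit 81) (nat_lit 5) (nat_lit 412) (nat_lit 364) (nat_lit 169))))) (XT.nd (nat_lit 282) (nat_lit 672) (nat_lit 0) (XT.nd (nat_lit 94) (nat_lit 84) (nat_lit 0) (XT.lf (nat_lit 0) (nat_lit 4248927406) (nat_lit 336) (nat_lit 29567714944) (nat_lit 420) (nat_lit 7238754659) (nat_lit 72) (nat_lit 5) (nat_lit 76) (nat_lit 5) (nat_lit 77) (nat_lit 5) (nat_lit 413) (nat_lit 364) (nat_lit 168)) (XT.nd (nat_lit 94) (nat_lit 84) (nat_lit 0) (XT.lf (nat_lit 0) (nat_lit 22856764743) (nat_lit 336) (nat_lit 17386455897) (nat_lit 420) (nat_lit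 1641266078) (nat_lit 72) (nat_lit 5) (nat_lit 76) (nat_lit 5) (nat_lit 77) (nat_lit 5) (nat_lit 414) (nat_lit 364) (nat_lit 167)) (XT.lf (nat_lit 0) (nat_lit 4041331131) (nat_lit 420) (nat_lit 758434329) (nat_lit 84) (nat_lit 37937567485) (nat_lit 71) (nat_lit 5) (nat_lit 76) (nat_lit 5) (nat_lit 72) (nat_lit 5) (nat_lit 415) (nat_lit 364) (nat_lit 166)))) (XT.nd (nat_lit 188) (nat_lit 336) (nat_lit 0) (XT.nd (nat_lit 94) (nat_lit 0) (nat_lit 0) (XT.lf (nat_lit 0) (nat_lit 10116392833) (nat_lit 420) (nat_lit 25291809742) (nat_lit 84) (nat_lit 8199428131) (nat_lit 67) (nat_lit 5) (nat_lit 72) (nat_lit 5) (nat_lit 68) (nat_lit 5) (nat_lit 416) (nat_lit 364) (nat_lit 165)) (XT.lf (nat_lit 0) (nat_lit 16426721282) (nat_lit 420) (nat_lit 6576672497) (nat_lit 84) (nat_lit 21499055972) (nat_lit 67) (nat_lit 5) (nat_lit 72) (nat_lit 5) (nat_lit 68) (nat_lit 5) (nat_lit 417) (nat_lit 364) (nat_lit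 164))) (XT.nd (nat_lit 94) (nat_lit 0) (nat_lit 0) (XT.lf (nat_lit 0) (nat_lit 12949585042) (nat_lit 336) (nat_lit 10099077116) (nat_lit 420) (nat_lit 22371784849) (nat_lit 63) (nat_lit 5) (nat_lit 67) (nat_lit 5) (nat_lit 68) (nat_lit 5) (nat_lit 418) (nat_lit 364) (nat_lit 163)) (XT.lf (nat_lit 0) (nat_lit 29964866915) (nat_lit 420) (nat_lit 13201946613) (nat_lit 84) (nat_lit 3196305123) (nat_lit 63) (nat_lit 5) (nat_lit 68) (nat_lit 5) (nat_lit 64) (nat_lit 5) (nat_lit 419) (nat_lit 364) (nat_lit 162))))))) (XT.nd (nat_lit 1316) (nat_lit 1092) (nat_lit 0) (XT.nd (nat_lit 658) (nat_lit 840) (nat_lit 0) (XT.nd (nat_lit 282) (nat_lit 588) (nat_lit 0) (XT.nd (nat_lit 94) (nat_lit 84) (nat_lit 0) (XT.lf (nat_lit 0) (nat_lit 6672278652) (nat_lit 252) (nat_lit 30578320292) (nat_lit 336) (nat_lit 10078612828) (nat_lit 60) (nat_lit 5) (nat_lit 63) (nat_lit 5) (nat_lit 64) (nat_lit 5) (nat_lit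 420) (nat_lit 364) (nat_lit 161)) (XT.nd (nat_lit 94) (nat_lit 84) (nat_lit 0) (XT.lf (nat_lit 0) (nat_lit 27410419853) (nat_lit 252) (nat_lit 17475741669) (nat_lit 336) (nat_lit 3434190893) (nat_lit 60) (nat_lit 5) (nat_lit 63) (nat_lit 5) (nat_lit 64) (nat_lit 5) (nat_lit 421) (nat_lit 364) (nat_lit 160)) (XT.lf (nat_lit 0) (nat_lit 3341013380) (nat_lit 336) (nat_lit 606191514) (nat_lit 84) (nat_lit 45393102006) (nat_lit 59) (nat_lit 5) (nat_lit 63) (nat_lit 5) (nat_lit 60) (nat_lit 5) (nat_lit 422) (nat_lit 364) (nat_lit 159)))) (XT.nd (nat_lit 188) (nat_lit 252) (nat_lit 0) (XT.nd (nat_lit 94) (nat_lit 0) (nat_lit 0) (XT.lf (nat_lit 0) (nat_lit 10545514261) (nat_lit 420) (nat_lit 29808979051) (nat_lit 84) (nat_lit 10026497000) (nat_lit 55) (nat_lit 5) (nat_lit 60) (nat_lit 5) (nat_lit 56) (nat_lit 5) (nat_lit 423) (nat_lit 364) (nat_lit 158)) (XT.lf (nat_lit 0) (nat_lit 18009476753)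 (nat_lit 420) (nat_lit 9096700673) (nat_lit 84) (nat_lit 24345419209) (nat_lit 55) (nat_lit 5) (nat_lit 60) (nat_lit 5) (nat_lit 56) (nat_lit 5) (nat_lit 424) (nat_lit 364) (nat_lit 157))) (XT.nd (nat_lit 94) (nat_lit 0) (nat_lit 0) (XT.lf (nat_lit 0) (nat_lit 12477678368) (nat_lit 252) (nat_lit 13337742630) (nat_lit 336) (nat_lit 26735360411) (nat_lit 52) (nat_lit 5) (nat_lit 55) (nat_lit 5) (nat_lit 56) (nat_lit 5) (nat_lit 425) (nat_lit 364) (nat_lit 156)) (XT.lf (nat_lit 0) (nat_lit 33954562473) (nat_lit 336) (nat_lit 18806218208) (nat_lit 84) (nat_lit 919192560) (nat_lit 52) (nat_lit 5) (nat_lit 56) (nat_lit 5) (nat_lit 53) (nat_lit 5) (nat_lit 426) (nat_lit 364) (nat_lit 155))))) (XT.nd (nat_lit 282) (nat_lit 504) (nat_lit 0) (XT.nd (nat_lit 94) (nat_lit 84) (nat_lit 0) (XT.lf (nat_lit 0) (nat_lit 3022910606) (nat_lit 252) (nat_lit 39474276657) (nat_lit 336) (nat_lit 12341076316)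 (nat_lit 49) (nat_lit 5) (nat_lit 52) (nat_lit 5) (nat_lit 53) (nat_lit 5) (nat_lit 427) (nat_lit 364) (nat_lit 154)) (XT.nd (nat_lit 94) (nat_lit 84) (nat_lit 0) (XT.lf (nat_lit 0) (nat_lit 25889755150) (nat_lit 252) (nat_lit 25594462682) (nat_lit 336) (nat_lit 4541442946) (nat_lit 49) (nat_lit 5) (nat_lit 52) (nat_lit 5) (nat_lit 53) (nat_lit 5) (nat_lit 428) (nat_lit 364) (nat_lit 153)) (XT.lf (nat_lit 0) (nat_lit 3422288375) (nat_lit 336) (nat_lit 7842269916) (nat_lit 84) (nat_lit 45983168765) (nat_lit 48) (nat_lit 5) (nat_lit 52) (nat_lit 5) (nat_lit 49) (nat_lit 5) (nat_lit 429) (nat_lit 364) (nat_lit 152)))) (XT.nd (nat_lit 188) (nat_lit 252) (nat_lit 0) (XT.nd (nat_lit 94) (nat_lit 0) (nat_lit 0) (XT.lf (nat_lit 0) (nat_lit 11715227598) (nat_lit 336) (nat_lit 43163588395) (nat_lit 84) (nat_lit 3620844950) (nat_lit 45) (nat_lit 5) (nat_lit 49) (nat_lit 5) (nat_lit 46) (nat_lit 5)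 (nat_lit 430) (nat_lit 364) (nat_lit 151)) (XT.lf (nat_lit 0) (nat_lit 20446782600) (nat_lit 336) (nat_lit 20531135557) (nat_lit 84) (nat_lit 18805541605) (nat_lit 45) (nat_lit 5) (nat_lit 49) (nat_lit 5) (nat_lit 46) (nat_lit 5) (nat_lit 431) (nat_lit 364) (nat_lit 150))) (XT.nd (nat_lit 94) (nat_lit 0) (nat_lit 0) (XT.lf (nat_lit 0) (nat_lit 2833081048) (nat_lit 252) (nat_lit 26632807094) (nat_lit 336) (nat_lit 31639117981) (nat_lit 42) (nat_lit 5) (nat_lit 45) (nat_lit 5) (nat_lit 46) (nat_lit 5) (nat_lit 432) (nat_lit 364) (nat_lit 149)) (XT.lf (nat_lit 0) (nat_lit 27316623314) (nat_lit 252) (nat_lit 11644662054) (nat_lit 336) (nat_lit 23498743595) (nat_lit 42) (nat_lit 5) (nat_lit 45) (nat_lit 5) (nat_lit 46) (nat_lit 5) (nat_lit 433) (nat_lit 364) (nat_lit 148)))))) (XT.nd (nat_lit 658) (nat_lit 420) (nat_lit 0) (XT.nd (nat_lit 282) (nat_lit 420) (nat_lit 0) (XT.nd (nat_lit 94) (nat_lit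 252) (nat_lit 0) (XT.lf (nat_lit 0) (nat_lit 48776439390) (nat_lit 336) (nat_lit 11359929882) (nat_lit 84) (nat_lit 3718287965) (nat_lit 42) (nat_lit 5) (nat_lit 46) (nat_lit 5) (nat_lit 43) (nat_lit 5) (nat_lit 434) (nat_lit 364) (nat_lit 147)) (XT.nd (nat_lit 94) (nat_lit 84) (nat_lit 0) (XT.lf (nat_lit 0) (nat_lit 13278501472) (nat_lit 168) (nat_lit 45848959980) (nat_lit 252) (nat_lit 6156422056) (nat_lit 40) (nat_lit 5) (nat_lit 42) (nat_lit 5) (nat_lit 43) (nat_lit 5) (nat_lit 435) (nat_lit 364) (nat_lit 146)) (XT.lf (nat_lit 0) (nat_lit 3088175229) (nat_lit 252) (nat_lit 27896257892) (nat_lit 84) (nat_lit 35767250260) (nat_lit 39) (nat_lit 5) (nat_lit 42) (nat_lit 5) (nat_lit 40) (nat_lit 5) (nat_lit 436) (nat_lit 364) (nat_lit 145)))) (XT.nd (nat_lit 188) (nat_lit 168) (nat_lit 0) (XT.nd (nat_lit 94) (nat_lit 252) (nat_lit 0) (XT.lf (nat_lit 0) (nat_lit 12484900719) (nat_lit 252)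 (nat_lit 3127120349) (nat_lit 84) (nat_lit 52649713111) (nat_lit 39) (nat_lit 5) (nat_lit 42) (nat_lit 5) (nat_lit 40) (nat_lit 5) (nat_lit 437) (nat_lit 364) (nat_lit 144)) (XT.lf (nat_lit 0) (nat_lit 22385833537) (nat_lit 336) (nat_lit 46986526760) (nat_lit 84) (nat_lit 438058414) (nat_lit 36) (nat_lit 5) (nat_lit 40) (nat_lit 5) (nat_lit 37) (nat_lit 5) (nat_lit 438) (nat_lit 364) (nat_lit 143))) (XT.nd (nat_lit 94) (nat_lit 168) (nat_lit 0) (XT.lf (nat_lit 0) (nat_lit 32768842925) (nat_lit 336) (nat_lit 21944218417) (nat_lit 84) (nat_lit 16686952317) (nat_lit 36) (nat_lit 5) (nat_lit 40) (nat_lit 5) (nat_lit 37) (nat_lit 5) (nat_lit 439) (nat_lit 364) (nat_lit 142)) (XT.lf (nat_lit 0) (nat_lit 3923738676) (nat_lit 168) (nat_lit 39575946229) (nat_lit 252) (nat_lit 29536522578) (nat_lit 34) (nat_lit 5) (nat_lit 36) (nat_lit 5) (nat_lit 37) (nat_lit 5) (nat_lit 440) (nat_lit 364) (nat_lit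 141))))) (XT.nd (nat_lit 282) (nat_lit 168) (nat_lit 0) (XT.nd (nat_lit 94) (nat_lit 252) (nat_lit 0) (XT.lf (nat_lit 0) (nat_lit 31015404111) (nat_lit 168) (nat_lit 23757285783) (nat_lit 252) (nat_lit 19942191356) (nat_lit 34) (nat_lit 5) (nat_lit 36) (nat_lit 5) (nat_lit 37) (nat_lit 5) (nat_lit 441) (nat_lit 364) (nat_lit 140)) (XT.nd (nat_lit 94) (nat_lit 252) (nat_lit 0) (XT.lf (nat_lit 0) (nat_lit 58917717244) (nat_lit 168) (nat_lit 7464851451) (nat_lit 252) (nat_lit 10061387249) (nat_lit 34) (nat_lit 5) (nat_lit 36) (nat_lit 5) (nat_lit 37) (nat_lit 5) (nat_lit 442) (nat_lit 364) (nat_lit 139)) (XT.lf (nat_lit 0) (nat_lit 295203354) (nat_lit 252) (nat_lit 68695938126) (nat_lit 84) (nat_lit 9228280460) (nat_lit 31) (nat_lit 5) (nat_lit 34) (nat_lit 5) (nat_lit 32) (nat_lit 5) (nat_lit 443) (nat_lit 364) (nat_lit 138)))) (XT.nd (nat_lit 188) (nat_lit 168) (nat_lit 0) (XT.nd (nat_lit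 94) (nat_lit 0) (nat_lit 0) (XT.lf (nat_lit 0) (nat_lit 11011628792) (nat_lit 252) (nat_lit 42476232702) (nat_lit 84) (nat_lit 26549762180) (nat_lit 31) (nat_lit 5) (nat_lit 34) (nat_lit 5) (nat_lit 32) (nat_lit 5) (nat_lit 444) (nat_lit 364) (nat_lit 137)) (XT.lf (nat_lit 0) (nat_lit 22048303002) (nat_lit 252) (nat_lit 15471955069) (nat_lit 84) (nat_lit 44390151796) (nat_lit 31) (nat_lit 5) (nat_lit 34) (nat_lit 5) (nat_lit 32) (nat_lit 5) (nat_lit 445) (nat_lit 364) (nat_lit 136))) (XT.nd (nat_lit 94) (nat_lit 0) (nat_lit 0) (XT.lf (nat_lit 0) (nat_lit 12586090705) (nat_lit 168) (nat_lit 20949764176) (nat_lit 252) (nat_lit 50299932496) (nat_lit 29) (nat_lit 5) (nat_lit 31) (nat_lit 5) (nat_lit 32) (nat_lit 5) (nat_lit 446) (nat_lit 364) (nat_lit 135)) (XT.lf (nat_lit 0) (nat_lit 41801096830) (nat_lit 168) (nat_lit 3721981656) (nat_lit 252) (nat_lit 40291197395) (nat_lit 29) (nat_lit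 5) (nat_lit 31) (nat_lit 5) (nat_lit 32) (nat_lit 5) (nat_lit 447) (nat_lit 364) (nat_lit 134))))))))
noncomputable def xc185 : XT := (XT.nd (nat_lit 53110) (nat_lit 0) (nat_lit 5292) (XT.nd (nat_lit 51794) (nat_lit 0) (nat_lit 11928) (XT.nd (nat_lit 564) (nat_lit 168) (nat_lit 0) (XT.nd (nat_lit 282) (nat_lit 252) (nat_lit 0) (XT.nd (nat_lit 94) (nat_lit 168) (nat_lit 0) (XT.lf (nat_lit 0) (nat_lit 58003549401) (nat_lit 252) (nat_lit 16096273137) (nat_lit 84) (nat_lit 13748288581) (nat_lit 29) (nat_lit 5) (nat_lit 32) (nat_lit 5) (nat_lit 30) (nat_lit 5) (nat_lit 448) (nat_lit 364) (nat_lit 133)) (XT.nd (nat_lit 94) (nat_lit 0) (nat_lit 0) (XT.lf (nat_lit 0) (nat_lit 12870582703) (nat_lit 168) (nat_lit 58147293307) (nat_lit 252) (nat_lit 18920303122) (nat_lit 27) (nat_lit 5) (nat_lit 29) (nat_lit 5) (nat_lit 30) (nat_lit 5) (nat_lit 449) (nat_lit 364) (nat_lit 132)) (XT.lf (nat_lit 0)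 (nat_lit 43034562874) (nat_lit 168) (nat_lit 41549495914) (nat_lit 252) (nat_lit 7502048544) (nat_lit 27) (nat_lit 5) (nat_lit 29) (nat_lit 5) (nat_lit 30) (nat_lit 5) (nat_lit 450) (nat_lit 364) (nat_lit 131)))) (XT.nd (nat_lit 94) (nat_lit 168) (nat_lit 0) (XT.lf (nat_lit 0) (nat_lit 4174556474) (nat_lit 252) (nat_lit 20237756918) (nat_lit 84) (nat_lit 69884965544) (nat_lit 26) (nat_lit 5) (nat_lit 29) (nat_lit 5) (nat_lit 27) (nat_lit 5) (nat_lit 451) (nat_lit 364) (nat_lit 130)) (XT.nd (nat_lit 94) (nat_lit 0) (nat_lit 0) (XT.lf (nat_lit 0) (nat_lit 9550781102) (nat_lit 168) (nat_lit 6590641023) (nat_lit 252) (nat_lit 80428413704) (nat_lit 24) (nat_lit 5) (nat_lit 26) (nat_lit 5) (nat_lit 27) (nat_lit 5) (nat_lit 452) (nat_lit 364) (nat_lit 129)) (XT.lf (nat_lit 0) (nat_lit 28785723572) (nat_lit 252) (nat_lit 58373495433) (nat_lit 84) (nat_lit 11741798361) (nat_lit 24) (nat_lit 5)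 (nat_lit 27) (nat_lit 5) (nat_lit 25) (nat_lit 5) (nat_lit 453) (nat_lit 364) (nat_lit 128))))) (XT.nd (nat_lit 282) (nat_lit 0) (nat_lit 0) (XT.nd (nat_lit 94) (nat_lit 168) (nat_lit 0) (XT.lf (nat_lit 0) (nat_lit 41873584488) (nat_lit 252) (nat_lit 28935535837) (nat_lit 84) (nat_lit 30491087921) (nat_lit 24) (nat_lit 5) (nat_lit 27) (nat_lit 5) (nat_lit 25) (nat_lit 5) (nat_lit 454) (nat_lit 364) (nat_lit 127)) (XT.nd (nat_lit 94) (nat_lit 0) (nat_lit 0) (XT.lf (nat_lit 0) (nat_lit 1411442143) (nat_lit 168) (nat_lit 53955213096) (nat_lit 252) (nat_lit 48404343177) (nat_lit 22) (nat_lit 5) (nat_lit 24) (nat_lit 5) (nat_lit 25) (nat_lit 5) (nat_lit 455) (nat_lit 364) (nat_lit 126)) (XT.lf (nat_lit 0) (nat_lit 33260333158) (nat_lit 168) (nat_lit 36295396610) (nat_lit 252) (nat_lit 36751446937) (nat_lit 22) (nat_lit 5) (nat_lit 24) (nat_lit 5) (nat_lit 25) (nat_lit 5) (nat_lit 456) (nat_lit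 364) (nat_lit 125)))) (XT.nd (nat_lit 50760) (nat_lit 0) (nat_lit 12936) (XT.nd (nat_lit 50666) (nat_lit 0) (nat_lit 12936) (XT.lf (nat_lit 0) (nat_lit 66063092436) (nat_lit 168) (nat_lit 18106432135) (nat_lit 252) (nat_lit 24749945072) (nat_lit 22) (nat_lit 5) (nat_lit 24) (nat_lit 5) (nat_lit 25) (nat_lit 5) (nat_lit 457) (nat_lit 364) (nat_lit 124)) (XT.lf (nat_lit 0) (nat_lit 7328560090) (nat_lit 1260) (nat_lit 866917996) (nat_lit 1260) (nat_lit 866917996) (nat_lit 176) (nat_lit 3) (nat_lit 191) (nat_lit 3) (nat_lit 191) (nat_lit 5) (nat_lit 365) (nat_lit 365) (nat_lit 215))) (XT.nd (nat_lit 94) (nat_lit 0) (nat_lit 0) (XT.lf (nat_lit 84) (nat_lit 6225782275) (nat_lit 0) (nat_lit 8896240846) (nat_lit 1260) (nat_lit 3266935661) (nat_lit 177) (nat_lit 5) (nat_lit 176) (nat_lit 3) (nat_lit 191) (nat_lit 5) (nat_lit 366) (nat_lit 365) (nat_lit 214)) (XT.lf (nat_lit 84) (nat_lit 14455927565)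 (nat_lit 0) (nat_lit 1155189524) (nat_lit 1260) (nat_lit 3049639798) (nat_lit 177) (nat_lit 5) (nat_lit 176) (nat_lit 3) (nat_lit 191) (nat_lit 5) (nat_lit 367) (nat_lit 365) (nat_lit 213)))))) (XT.nd (nat_lit 658) (nat_lit 0) (nat_lit 84) (XT.nd (nat_lit 282) (nat_lit 1092) (nat_lit 0) (XT.nd (nat_lit 94) (nat_lit 0) (nat_lit 0) (XT.lf (nat_lit 84) (nat_lit 4000849603) (nat_lit 0) (nat_lit 12211012052) (nat_lit 1260) (nat_lit 2725951356) (nat_lit 178) (nat_lit 5) (nat_lit 177) (nat_lit 5) (nat_lit 192) (nat_lit 5) (nat_lit 368) (nat_lit 365) (nat_lit 212)) (XT.nd (nat_lit 94) (nat_lit 0) (nat_lit 84) (XT.lf (nat_lit 84) (nat_lit 12523317376) (nat_lit 0) (nat_lit 4354243466) (nat_lit 1260) (nat_lit 2344225027) (nat_lit 178) (nat_lit 5) (nat_lit 177) (nat_lit 5) (nat_lit 192) (nat_lit 5) (nat_lit 369) (nat_lit 365) (nat_lit 211)) (XT.lf (nat_lit 84) (nat_lit 1781982987) (nat_lit 0) (nat_lit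 15827685109) (nat_lit 1260) (nat_lit 1903229343) (nat_lit 179) (nat_lit 5) (nat_lit 178) (nat_lit 5) (nat_lit 193) (nat_lit 5) (nat_lit 370) (nat_lit 365) (nat_lit 210)))) (XT.nd (nat_lit 188) (nat_lit 1176) (nat_lit 0) (XT.nd (nat_lit 94) (nat_lit 0) (nat_lit 84) (XT.lf (nat_lit 84) (nat_lit 10606193257) (nat_lit 0) (nat_lit 7861403395) (nat_lit 1260) (nat_lit 1342042233) (nat_lit 179) (nat_lit 5) (nat_lit 178) (nat_lit 5) (nat_lit 193) (nat_lit 5) (nat_lit 371) (nat_lit 365) (nat_lit 209)) (XT.lf (nat_lit 0) (nat_lit 19348308147) (nat_lit 1176) (nat_lit 427562749) (nat_lit 1260) (nat_lit 339512240) (nat_lit 179) (nat_lit 5) (nat_lit 193) (nat_lit 5) (nat_lit 194) (nat_lit 5) (nat_lit 372) (nat_lit 365) (nat_lit 208))) (XT.nd (nat_lit 94) (nat_lit 1260) (nat_lit 0) (XT.lf (nat_lit 84) (nat_lit 8699535203) (nat_lit 0) (nat_lit 11711288678) (nat_lit 1260) (nat_lit 14825913) (nat_lit 180)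 (nat_lit 5) (nat_lit 179) (nat_lit 5) (nat_lit 194) (nat_lit 5) (nat_lit 373) (nat_lit 365) (nat_lit 207)) (XT.lf (nat_lit 0) (nat_lit 743512026) (nat_lit 1260) (nat_lit 2647308877) (nat_lit 1344) (nat_lit 17354244738) (nat_lit 164) (nat_lit 5) (nat_lit 179) (nat_lit 5) (nat_lit 180) (nat_lit 5) (nat_lit 374) (nat_lit 365) (nat_lit 206))))) (XT.nd (nat_lit 282) (nat_lit 0) (nat_lit 84) (XT.nd (nat_lit 94) (nat_lit 0) (nat_lit 0) (XT.lf (nat_lit 0) (nat_lit 1634608316) (nat_lit 1260) (nat_lit 14289635874) (nat_lit 1344) (nat_lit 5146516771) (nat_lit 165) (nat_lit 5) (nat_lit 180) (nat_lit 5) (nat_lit 181) (nat_lit 5) (nat_lit 375) (nat_lit 365) (nat_lit 205)) (XT.nd (nat_lit 94) (nat_lit 0) (nat_lit 84) (XT.lf (nat_lit 0) (nat_lit 2607322930) (nat_lit 1260) (nat_lit 4896700363) (nat_lit 1344) (nat_lit 13900567560) (nat_lit 165) (nat_lit 5) (nat_lit 180) (nat_lit 5) (nat_lit 181) (nat_lit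 5) (nat_lit 376) (nat_lit 365) (nat_lit 204)) (XT.lf (nat_lit 0) (nat_lit 3662217657) (nat_lit 1260) (nat_lit 16889882092) (nat_lit 1344) (nat_lit 1194755912) (nat_lit 166) (nat_lit 5) (nat_lit 181) (nat_lit 5) (nat_lit 182) (nat_lit 5) (nat_lit 377) (nat_lit 365) (nat_lit 203)))) (XT.nd (nat_lit 188) (nat_lit 0) (nat_lit 84) (XT.nd (nat_lit 94) (nat_lit 0) (nat_lit 0) (XT.lf (nat_lit 0) (nat_lit 4867610854) (nat_lit 1260) (nat_lit 7173200183) (nat_lit 1344) (nat_lit 10055021512) (nat_lit 166) (nat_lit 5) (nat_lit 181) (nat_lit 5) (nat_lit 182) (nat_lit 5) (nat_lit 378) (nat_lit 365) (nat_lit 202)) (XT.lf (nat_lit 84) (nat_lit 2887300885) (nat_lit 0) (nat_lit 3244393952) (nat_lit 1344) (nat_lit 16322917443) (nat_lit 167) (nat_lit 5) (nat_lit 166) (nat_lit 5) (nat_lit 182) (nat_lit 5) (nat_lit 379) (nat_lit 365) (nat_lit 201))) (XT.nd (nat_lit 94) (nat_lit 0) (nat_lit 0) (XT.lf (nat_lit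 0) (nat_lit 7557659154) (nat_lit 1260) (nat_lit 9486101928) (nat_lit 1344) (nat_lit 5776684716) (nat_lit 167) (nat_lit 5) (nat_lit 182) (nat_lit 5) (nat_lit 183) (nat_lit 5) (nat_lit 380) (nat_lit 365) (nat_lit 200)) (XT.lf (nat_lit 84) (nat_lit 878528621) (nat_lit 0) (nat_lit 8183489250) (nat_lit 1344) (nat_lit 14134176852) (nat_lit 168) (nat_lit 5) (nat_lit 167) (nat_lit 5) (nat_lit 183) (nat_lit 5) (nat_lit 381) (nat_lit 365) (nat_lit 199))))))) (XT.nd (nat_lit 1316) (nat_lit 2772) (nat_lit 0) (XT.nd (nat_lit 658) (nat_lit 1764) (nat_lit 0) (XT.nd (nat_lit 282) (nat_lit 1176) (nat_lit 0) (XT.nd (nat_lit 94) (nat_lit 1260) (nat_lit 0) (XT.lf (nat_lit 0) (nat_lit 10712469366) (nat_lit 1260) (nat_lit 11845956045) (nat_lit 84) (nat_lit 1021770450) (nat_lit 168) (nat_lit 5) (nat_lit 183) (nat_lit 5) (nat_lit 169) (nat_lit 5) (nat_lit 382) (nat_lit 365) (nat_lit 198)) (XT.nd (nat_lit 94)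 (nat_lit 1260) (nat_lit 0) (XT.lf (nat_lit 0) (nat_lit 12488761772) (nat_lit 1260) (nat_lit 1145156567) (nat_lit 84) (nat_lit 10339517231) (nat_lit 168) (nat_lit 5) (nat_lit 183) (nat_lit 5) (nat_lit 169) (nat_lit 5) (nat_lit 383) (nat_lit 365) (nat_lit 197)) (XT.lf (nat_lit 0) (nat_lit 10069234279) (nat_lit 1260) (nat_lit 4341339844) (nat_lit 1344) (nat_lit 9965139523) (nat_lit 153) (nat_lit 5) (nat_lit 168) (nat_lit 5) (nat_lit 169) (nat_lit 5) (nat_lit 384) (nat_lit 365) (nat_lit 196)))) (XT.nd (nat_lit 188) (nat_lit 588) (nat_lit 0) (XT.nd (nat_lit 94) (nat_lit 588) (nat_lit 0) (XT.lf (nat_lit 0) (nat_lit 16447533954) (nat_lit 1344) (nat_lit 3200598973) (nat_lit 84) (nat_lit 5140210221) (nat_lit 153) (nat_lit 5) (nat_lit 169) (nat_lit 5) (nat_lit 154) (nat_lit 5) (nat_lit 385) (nat_lit 365) (nat_lit 195)) (XT.lf (nat_lit 0) (nat_lit 8354591122) (nat_lit 588) (nat_lit 10309975010) (nat_lit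 672) (nat_lit 6545224143) (nat_lit 146) (nat_lit 5) (nat_lit 153) (nat_lit 5) (nat_lit 154) (nat_lit 5) (nat_lit 386) (nat_lit 365) (nat_lit 194))) (XT.nd (nat_lit 94) (nat_lit 588) (nat_lit 0) (XT.lf (nat_lit 0) (nat_lit 20318173094) (nat_lit 588) (nat_lit 658015376) (nat_lit 672) (nat_lit 4666857394) (nat_lit 146) (nat_lit 5) (nat_lit 153) (nat_lit 5) (nat_lit 154) (nat_lit 5) (nat_lit 387) (nat_lit 365) (nat_lit 193)) (XT.lf (nat_lit 0) (nat_lit 6586761826) (nat_lit 588) (nat_lit 16918838710) (nat_lit 672) (nat_lit 2579252562) (nat_lit 139) (nat_lit 5) (nat_lit 146) (nat_lit 5) (nat_lit 147) (nat_lit 5) (nat_lit 388) (nat_lit 365) (nat_lit 192))))) (XT.nd (nat_lit 282) (nat_lit 1092) (nat_lit 0) (XT.nd (nat_lit 94) (nat_lit 672) (nat_lit 0) (XT.lf (nat_lit 0) (nat_lit 18954399335) (nat_lit 588) (nat_lit 7212686644) (nat_lit 672) (nat_lit 371149836) (nat_lit 139) (nat_lit 5) (nat_lit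 146) (nat_lit 5) (nat_lit 147) (nat_lit 5) (nat_lit 389) (nat_lit 365) (nat_lit 191)) (XT.nd (nat_lit 94) (nat_lit 0) (nat_lit 0) (XT.lf (nat_lit 0) (nat_lit 1935244277) (nat_lit 672) (nat_lit 22272248221) (nat_lit 84) (nat_lit 2795109677) (nat_lit 131) (nat_lit 5) (nat_lit 139) (nat_lit 5) (nat_lit 132) (nat_lit 5) (nat_lit 390) (nat_lit 365) (nat_lit 190)) (XT.lf (nat_lit 0) (nat_lit 4448244140) (nat_lit 672) (nat_lit 9988931798) (nat_lit 84) (nat_lit 13039273539) (nat_lit 131) (nat_lit 5) (nat_lit 139) (nat_lit 5) (nat_lit 132) (nat_lit 5) (nat_lit 391) (nat_lit 365) (nat_lit 189)))) (XT.nd (nat_lit 188) (nat_lit 504) (nat_lit 0) (XT.nd (nat_lit 94) (nat_lit 0) (nat_lit 0) (XT.lf (nat_lit 0) (nat_lit 2712003799) (nat_lit 588) (nat_lit 4346933439) (nat_lit 672) (nat_lit 20904912080) (nat_lit 124) (nat_lit 5) (nat_lit 131) (nat_lit 5) (nat_lit 132) (nat_lit 5) (nat_lit 392) (nat_lit 365)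 (nat_lit 188)) (XT.lf (nat_lit 0) (nat_lit 9904243091) (nat_lit 672) (nat_lit 12527111173) (nat_lit 84) (nat_lit 6029834168) (nat_lit 124) (nat_lit 5) (nat_lit 132) (nat_lit 5) (nat_lit 125) (nat_lit 5) (nat_lit 393) (nat_lit 365) (nat_lit 187))) (XT.nd (nat_lit 94) (nat_lit 0) (nat_lit 0) (XT.lf (nat_lit 0) (nat_lit 543158098) (nat_lit 504) (nat_lit 12336424336) (nat_lit 588) (nat_lit 16092530917) (nat_lit 118) (nat_lit 5) (nat_lit 124) (nat_lit 5) (nat_lit 125) (nat_lit 5) (nat_lit 394) (nat_lit 365) (nat_lit 186)) (XT.lf (nat_lit 0) (nat_lit 14258598748) (nat_lit 504) (nat_lit 1808565256) (nat_lit 588) (nat_lit 13427518242) (nat_lit 118) (nat_lit 5) (nat_lit 124) (nat_lit 5) (nat_lit 125) (nat_lit 5) (nat_lit 395) (nat_lit 365) (nat_lit 185)))))) (XT.nd (nat_lit 658) (nat_lit 1260) (nat_lit 0) (XT.nd (nat_lit 282) (nat_lit 1008) (nat_lit 0) (XT.nd (nat_lit 94) (nat_lit 504) (nat_lit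 0) (XT.lf (nat_lit 0) (nat_lit 19433807456) (nat_lit 588) (nat_lit 1738004314) (nat_lit 84) (nat_lit 8858618929) (nat_lit 118) (nat_lit 5) (nat_lit 125) (nat_lit 5) (nat_lit 119) (nat_lit 5) (nat_lit 396) (nat_lit 365) (nat_lit 184)) (XT.nd (nat_lit 94) (nat_lit 0) (nat_lit 0) (XT.lf (nat_lit 0) (nat_lit 12385170992) (nat_lit 504) (nat_lit 10649922405) (nat_lit 588) (nat_lit 7543154276) (nat_lit 112) (nat_lit 5) (nat_lit 118) (nat_lit 5) (nat_lit 119) (nat_lit 5) (nat_lit 397) (nat_lit 365) (nat_lit 183)) (XT.lf (nat_lit 0) (nat_lit 26760687447) (nat_lit 588) (nat_lit 4179964206) (nat_lit 84) (nat_lit 201364626) (nat_lit 112) (nat_lit 5) (nat_lit 119) (nat_lit 5) (nat_lit 113) (nat_lit 5) (nat_lit 398) (nat_lit 365) (nat_lit 182)))) (XT.nd (nat_lit 188) (nat_lit 504) (nat_lit 0) (XT.nd (nat_lit 94) (nat_lit 84) (nat_lit 0) (XT.lf (nat_lit 0) (nat_lit 10346416818) (nat_lit 420) (nat_lit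 20453370037) (nat_lit 504) (nat_lit 916864016) (nat_lit 107) (nat_lit 5) (nat_lit 112) (nat_lit 5) (nat_lit 113) (nat_lit 5) (nat_lit 399) (nat_lit 365) (nat_lit 181)) (XT.lf (nat_lit 0) (nat_lit 2639280324) (nat_lit 504) (nat_lit 6942497987) (nat_lit 84) (nat_lit 22724801713) (nat_lit 106) (nat_lit 5) (nat_lit 112) (nat_lit 5) (nat_lit 107) (nat_lit 5) (nat_lit 400) (nat_lit 365) (nat_lit 180))) (XT.nd (nat_lit 94) (nat_lit 0) (nat_lit 0) (XT.lf (nat_lit 0) (nat_lit 6374522928) (nat_lit 588) (nat_lit 24865268173) (nat_lit 84) (nat_lit 1671422982) (nat_lit 100) (nat_lit 5) (nat_lit 107) (nat_lit 5) (nat_lit 101) (nat_lit 5) (nat_lit 401) (nat_lit 365) (nat_lit 179)) (XT.lf (nat_lit 0) (nat_lit 10384493235) (nat_lit 588) (nat_lit 10004648105) (nat_lit 84) (nat_lit 13139970202) (nat_lit 100) (nat_lit 5) (nat_lit 107) (nat_lit 5) (nat_lit 101) (nat_lit 5) (nat_lit 402) (nat_lit 365) (nat_lit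 178))))) (XT.nd (nat_lit 282) (nat_lit 420) (nat_lit 0) (XT.nd (nat_lit 94) (nat_lit 420) (nat_lit 0) (XT.lf (nat_lit 0) (nat_lit 5403783049) (nat_lit 420) (nat_lit 9160013004) (nat_lit 504) (nat_lit 19600283231) (nat_lit 95) (nat_lit 5) (nat_lit 100) (nat_lit 5) (nat_lit 101) (nat_lit 5) (nat_lit 403) (nat_lit 365) (nat_lit 177)) (XT.nd (nat_lit 94) (nat_lit 420) (nat_lit 0) (XT.lf (nat_lit 0) (nat_lit 18990768834) (nat_lit 504) (nat_lit 13363146257) (nat_lit 84) (nat_lit 2460516474) (nat_lit 95) (nat_lit 5) (nat_lit 101) (nat_lit 5) (nat_lit 96) (nat_lit 5) (nat_lit 404) (nat_lit 365) (nat_lit 176)) (XT.lf (nat_lit 0) (nat_lit 2449622559) (nat_lit 420) (nat_lit 21212387580) (nat_lit 504) (nat_lit 11818944607) (nat_lit 90) (nat_lit 5) (nat_lit 95) (nat_lit 5) (nat_lit 96) (nat_lit 5) (nat_lit 405) (nat_lit 365) (nat_lit 175)))) (XT.nd (nat_lit 188) (nat_lit 420) (nat_lit 0) (XT.nd (nat_lit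 94) (nat_lit 0) (nat_lit 0) (XT.lf (nat_lit 0) (nat_lit 19007335782) (nat_lit 420) (nat_lit 9598261956) (nat_lit 504) (nat_lit 7557913603) (nat_lit 90) (nat_lit 5) (nat_lit 95) (nat_lit 5) (nat_lit 96) (nat_lit 5) (nat_lit 406) (nat_lit 365) (nat_lit 174)) (XT.lf (nat_lit 0) (nat_lit 33717561062) (nat_lit 504) (nat_lit 830840620) (nat_lit 84) (nat_lit 2317544783) (nat_lit 90) (nat_lit 5) (nat_lit 96) (nat_lit 5) (nat_lit 91) (nat_lit 5) (nat_lit 407) (nat_lit 365) (nat_lit 173))) (XT.nd (nat_lit 94) (nat_lit 0) (nat_lit 0) (XT.lf (nat_lit 0) (nat_lit 1616887187) (nat_lit 420) (nat_lit 21395732201) (nat_lit 84) (nat_lit 14568917592) (nat_lit 85) (nat_lit 5) (nat_lit 90) (nat_lit 5) (nat_lit 86) (nat_lit 5) (nat_lit 408) (nat_lit 365) (nat_lit 172)) (XT.lf (nat_lit 0) (nat_lit 6467745552) (nat_lit 420) (nat_lit 4622892342) (nat_lit 84) (nat_lit 27226848489) (nat_lit 85) (nat_lit 5) (nat_lit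 90) (nat_lit 5) (nat_lit 86) (nat_lit 5) (nat_lit 409) (nat_lit 365) (nat_lit 171))))))))
noncomputable def xc186 : XT := (XT.nd (nat_lit 2538) (nat_lit 1512) (nat_lit 0) (XT.nd (nat_lit 1222) (nat_lit 1680) (nat_lit 0) (XT.nd (nat_lit 564) (nat_lit 1008) (nat_lit 0) (XT.nd (nat_lit 282) (nat_lit 336) (nat_lit 0) (XT.nd (nat_lit 94) (nat_lit 336) (nat_lit 0) (XT.lf (nat_lit 0) (nat_lit 11598308374) (nat_lit 504) (nat_lit 26182810212) (nat_lit 84) (nat_lit 1290373762) (nat_lit 80) (nat_lit 5) (nat_lit 86) (nat_lit 5) (nat_lit 81) (nat_lit 5) (nat_lit 410) (nat_lit 365) (nat_lit 170)) (XT.nd (nat_lit 94) (nat_lit 336) (nat_lit 0) (XT.lf (nat_lit 0) (nat_lit 17037285130) (nat_lit 504) (nat_lit 8939838042) (nat_lit 84) (nat_lit 13866363750) (nat_lit 80) (nat_lit 5) (nat_lit 86) (nat_lit 5) (nat_lit 81) (nat_lit 5) (nat_lit 411) (nat_lit 365) (nat_lit 169)) (XT.lf (nat_lit 0) (nat_lit 8992780431)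 (nat_lit 336) (nat_lit 13730710794) (nat_lit 420) (nat_lit 17912631553) (nat_lit 76) (nat_lit 5) (nat_lit 80) (nat_lit 5) (nat_lit 81) (nat_lit 5) (nat_lit 412) (nat_lit 365) (nat_lit 168)))) (XT.nd (nat_lit 94) (nat_lit 336) (nat_lit 0) (XT.lf (nat_lit 0) (nat_lit 27643541609) (nat_lit 336) (nat_lit 1024672358) (nat_lit 420) (nat_lit 12781688979) (nat_lit 76) (nat_lit 5) (nat_lit 80) (nat_lit 5) (nat_lit 81) (nat_lit 5) (nat_lit 413) (nat_lit 365) (nat_lit 167)) (XT.nd (nat_lit 94) (nat_lit 0) (nat_lit 0) (XT.lf (nat_lit 0) (nat_lit 4535206733) (nat_lit 336) (nat_lit 30413336341) (nat_lit 420) (nat_lit 7334838564) (nat_lit 72) (nat_lit 5) (nat_lit 76) (nat_lit 5) (nat_lit 77) (nat_lit 5) (nat_lit 414) (nat_lit 365) (nat_lit 166)) (XT.lf (nat_lit 0) (nat_lit 23696653612) (nat_lit 336) (nat_lit 17867845641) (nat_lit 420) (nat_lit 1572951891) (nat_lit 72) (nat_lit 5) (nat_lit 76) (nat_lit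 5) (nat_lit 77) (nat_lit 5) (nat_lit 415) (nat_lit 365) (nat_lit 165))))) (XT.nd (nat_lit 282) (nat_lit 588) (nat_lit 0) (XT.nd (nat_lit 94) (nat_lit 336) (nat_lit 0) (XT.lf (nat_lit 0) (nat_lit 4274472331) (nat_lit 420) (nat_lit 629123165) (nat_lit 84) (nat_lit 39112358335) (nat_lit 71) (nat_lit 5) (nat_lit 76) (nat_lit 5) (nat_lit 72) (nat_lit 5) (nat_lit 416) (nat_lit 365) (nat_lit 164)) (XT.nd (nat_lit 94) (nat_lit 0) (nat_lit 0) (XT.lf (nat_lit 0) (nat_lit 10530363183) (nat_lit 420) (nat_lit 25896939214) (nat_lit 84) (nat_lit 8485104946) (nat_lit 67) (nat_lit 5) (nat_lit 72) (nat_lit 5) (nat_lit 68) (nat_lit 5) (nat_lit 417) (nat_lit 365) (nat_lit 163)) (XT.lf (nat_lit 0) (nat_lit 17026783663) (nat_lit 420) (nat_lit 6624822360) (nat_lit 84) (nat_lit 22182565488) (nat_lit 67) (nat_lit 5) (nat_lit 72) (nat_lit 5) (nat_lit 68) (nat_lit 5) (nat_lit 418) (nat_lit 365) (nat_lit 162))))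 (XT.nd (nat_lit 188) (nat_lit 252) (nat_lit 0) (XT.nd (nat_lit 94) (nat_lit 0) (nat_lit 0) (XT.lf (nat_lit 0) (nat_lit 13485760647) (nat_lit 336) (nat_lit 10359917688) (nat_lit 420) (nat_lit 22934085384) (nat_lit 63) (nat_lit 5) (nat_lit 67) (nat_lit 5) (nat_lit 68) (nat_lit 5) (nat_lit 419) (nat_lit 365) (nat_lit 161)) (XT.lf (nat_lit 0) (nat_lit 30966687978) (nat_lit 420) (nat_lit 13451811074) (nat_lit 84) (nat_lit 3332300684) (nat_lit 63) (nat_lit 5) (nat_lit 68) (nat_lit 5) (nat_lit 64) (nat_lit 5) (nat_lit 420) (nat_lit 365) (nat_lit 160))) (XT.nd (nat_lit 94) (nat_lit 0) (nat_lit 0) (XT.lf (nat_lit 0) (nat_lit 7017207676) (nat_lit 252) (nat_lit 31452179460) (nat_lit 336) (nat_lit 10276540336) (nat_lit 60) (nat_lit 5) (nat_lit 63) (nat_lit 5) (nat_lit 64) (nat_lit 5) (nat_lit 421) (nat_lit 365) (nat_lit 159)) (XT.lf (nat_lit 0) (nat_lit 28373276783) (nat_lit 252) (nat_lit 17957790190)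 (nat_lit 336) (nat_lit 3435827420) (nat_lit 60) (nat_lit 5) (nat_lit 63) (nat_lit 5) (nat_lit 64) (nat_lit 5) (nat_lit 422) (nat_lit 365) (nat_lit 158)))))) (XT.nd (nat_lit 658) (nat_lit 756) (nat_lit 0) (XT.nd (nat_lit 282) (nat_lit 504) (nat_lit 0) (XT.nd (nat_lit 94) (nat_lit 336) (nat_lit 0) (XT.lf (nat_lit 0) (nat_lit 3537759055) (nat_lit 336) (nat_lit 485893460) (nat_lit 84) (nat_lit 46793855988) (nat_lit 59) (nat_lit 5) (nat_lit 63) (nat_lit 5) (nat_lit 60) (nat_lit 5) (nat_lit 423) (nat_lit 365) (nat_lit 157)) (XT.nd (nat_lit 94) (nat_lit 0) (nat_lit 0) (XT.lf (nat_lit 0) (nat_lit 10957306705) (nat_lit 420) (nat_lit 30563567485) (nat_lit 84) (nat_lit 10368574139) (nat_lit 55) (nat_lit 5) (nat_lit 60) (nat_lit 5) (nat_lit 56) (nat_lit 5) (nat_lit 424) (nat_lit 365) (nat_lit 156)) (XT.lf (nat_lit 0) (nat_lit 18642408645) (nat_lit 420) (nat_lit 9233989133) (nat_lit 84) (nat_lit 25115861620)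 (nat_lit 55) (nat_lit 5) (nat_lit 60) (nat_lit 5) (nat_lit 56) (nat_lit 5) (nat_lit 425) (nat_lit 365) (nat_lit 155)))) (XT.nd (nat_lit 188) (nat_lit 252) (nat_lit 0) (XT.nd (nat_lit 94) (nat_lit 0) (nat_lit 0) (XT.lf (nat_lit 0) (nat_lit 12986291745) (nat_lit 252) (nat_lit 13694831810) (nat_lit 336) (nat_lit 27443341468) (nat_lit 52) (nat_lit 5) (nat_lit 55) (nat_lit 5) (nat_lit 56) (nat_lit 5) (nat_lit 426) (nat_lit 365) (nat_lit 154)) (XT.lf (nat_lit 0) (nat_lit 35062183506) (nat_lit 336) (nat_lit 19237677476) (nat_lit 84) (nat_lit 987742291) (nat_lit 52) (nat_lit 5) (nat_lit 56) (nat_lit 5) (nat_lit 53) (nat_lit 5) (nat_lit 427) (nat_lit 365) (nat_lit 153))) (XT.nd (nat_lit 94) (nat_lit 0) (nat_lit 0) (XT.lf (nat_lit 0) (nat_lit 3245023955) (nat_lit 252) (nat_lit 40614734659) (nat_lit 336) (nat_lit 12620926460) (nat_lit 49) (nat_lit 5) (nat_lit 52) (nat_lit 5) (nat_lit 53) (nat_lit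 5) (nat_lit 428) (nat_lit 365) (nat_lit 152)) (XT.lf (nat_lit 0) (nat_lit 26794045893) (nat_lit 252) (nat_lit 26319801129) (nat_lit 336) (nat_lit 4589936579) (nat_lit 49) (nat_lit 5) (nat_lit 52) (nat_lit 5) (nat_lit 53) (nat_lit 5) (nat_lit 429) (nat_lit 365) (nat_lit 151))))) (XT.nd (nat_lit 282) (nat_lit 420) (nat_lit 0) (XT.nd (nat_lit 94) (nat_lit 252) (nat_lit 0) (XT.lf (nat_lit 0) (nat_lit 3608488428) (nat_lit 336) (nat_lit 7951905406) (nat_lit 84) (nat_lit 47402170563) (nat_lit 48) (nat_lit 5) (nat_lit 52) (nat_lit 5) (nat_lit 49) (nat_lit 5) (nat_lit 430) (nat_lit 365) (nat_lit 150)) (XT.nd (nat_lit 94) (nat_lit 0) (nat_lit 0) (XT.lf (nat_lit 0) (nat_lit 12149383446) (nat_lit 336) (nat_lit 44331945107) (nat_lit 84) (nat_lit 3770755296) (nat_lit 45) (nat_lit 5) (nat_lit 49) (nat_lit 5) (nat_lit 46) (nat_lit 5) (nat_lit 431) (nat_lit 365) (nat_lit 149)) (XT.lf (nat_lit 0) (nat_lit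 21140476389) (nat_lit 336) (nat_lit 21024204633) (nat_lit 84) (nat_lit 19409790375) (nat_lit 45) (nat_lit 5) (nat_lit 49) (nat_lit 5) (nat_lit 46) (nat_lit 5) (nat_lit 432) (nat_lit 365) (nat_lit 148)))) (XT.nd (nat_lit 188) (nat_lit 168) (nat_lit 0) (XT.nd (nat_lit 94) (nat_lit 0) (nat_lit 0) (XT.lf (nat_lit 0) (nat_lit 3039733911) (nat_lit 252) (nat_lit 27389252108) (nat_lit 336) (nat_lit 32506715633) (nat_lit 42) (nat_lit 5) (nat_lit 45) (nat_lit 5) (nat_lit 46) (nat_lit 5) (nat_lit 433) (nat_lit 365) (nat_lit 147)) (XT.lf (nat_lit 0) (nat_lit 28254238937) (nat_lit 252) (nat_lit 11952701723) (nat_lit 336) (nat_lit 24124506012) (nat_lit 42) (nat_lit 5) (nat_lit 45) (nat_lit 5) (nat_lit 46) (nat_lit 5) (nat_lit 434) (nat_lit 365) (nat_lit 146))) (XT.nd (nat_lit 94) (nat_lit 168) (nat_lit 0) (XT.lf (nat_lit 0) (nat_lit 50314697361) (nat_lit 336) (nat_lit 11584122846) (nat_lit 84) (nat_lit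 3869151437) (nat_lit 42) (nat_lit 5) (nat_lit 46) (nat_lit 5) (nat_lit 43) (nat_lit 5) (nat_lit 435) (nat_lit 365) (nat_lit 145)) (XT.lf (nat_lit 0) (nat_lit 13792318264) (nat_lit 168) (nat_lit 47182858270) (nat_lit 252) (nat_lit 6264932599) (nat_lit 40) (nat_lit 5) (nat_lit 42) (nat_lit 5) (nat_lit 43) (nat_lit 5) (nat_lit 436) (nat_lit 365) (nat_lit 144))))))) (XT.nd (nat_lit 1316) (nat_lit 420) (nat_lit 0) (XT.nd (nat_lit 658) (nat_lit 588) (nat_lit 0) (XT.nd (nat_lit 282) (nat_lit 168) (nat_lit 0) (XT.nd (nat_lit 94) (nat_lit 252) (nat_lit 0) (XT.lf (nat_lit 0) (nat_lit 3253340418) (nat_lit 252) (nat_lit 28619533670) (nat_lit 84) (nat_lit 36879114309) (nat_lit 39) (nat_lit 5) (nat_lit 42) (nat_lit 5) (nat_lit 40) (nat_lit 5) (nat_lit 437) (nat_lit 365) (nat_lit 143)) (XT.nd (nat_lit 94) (nat_lit 252) (nat_lit 0) (XT.lf (nat_lit 0) (nat_lit 12929855442) (nat_lit 252) (nat_lit 3110631087)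 (nat_lit 84) (nat_lit 54266919594) (nat_lit 39) (nat_lit 5) (nat_lit 42) (nat_lit 5) (nat_lit 40) (nat_lit 5) (nat_lit 438) (nat_lit 365) (nat_lit 142)) (XT.lf (nat_lit 0) (nat_lit 23127198161) (nat_lit 336) (nat_lit 48285135731) (nat_lit 84) (nat_lit 490237817) (nat_lit 36) (nat_lit 5) (nat_lit 40) (nat_lit 5) (nat_lit 37) (nat_lit 5) (nat_lit 439) (nat_lit 365) (nat_lit 141)))) (XT.nd (nat_lit 188) (nat_lit 0) (nat_lit 0) (XT.nd (nat_lit 94) (nat_lit 168) (nat_lit 0) (XT.lf (nat_lit 0) (nat_lit 33819665122) (nat_lit 336) (nat_lit 22494790765) (nat_lit 84) (nat_lit 17225461518) (nat_lit 36) (nat_lit 5) (nat_lit 40) (nat_lit 5) (nat_lit 37) (nat_lit 5) (nat_lit 440) (nat_lit 365) (nat_lit 140)) (XT.lf (nat_lit 0) (nat_lit 4148148627) (nat_lit 168) (nat_lit 40723335877) (nat_lit 252) (nat_lit 30353742839) (nat_lit 34) (nat_lit 5) (nat_lit 36) (nat_lit 5) (nat_lit 37) (nat_lit 5) (nat_lit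 441) (nat_lit 365) (nat_lit 139))) (XT.nd (nat_lit 94) (nat_lit 0) (nat_lit 0) (XT.lf (nat_lit 0) (nat_lit 32049456323) (nat_lit 168) (nat_lit 24431277426) (nat_lit 252) (nat_lit 20473587760) (nat_lit 34) (nat_lit 5) (nat_lit 36) (nat_lit 5) (nat_lit 37) (nat_lit 5) (nat_lit 442) (nat_lit 365) (nat_lit 138)) (XT.lf (nat_lit 0) (nat_lit 60785821663) (nat_lit 168) (nat_lit 7651198033) (nat_lit 252) (nat_lit 10298307180) (nat_lit 34) (nat_lit 5) (nat_lit 36) (nat_lit 5) (nat_lit 37) (nat_lit 5) (nat_lit 443) (nat_lit 365) (nat_lit 137))))) (XT.nd (nat_lit 282) (nat_lit 336) (nat_lit 0) (XT.nd (nat_lit 94) (nat_lit 0) (nat_lit 0) (XT.lf (nat_lit 0) (nat_lit 367196649) (nat_lit 252) (nat_lit 70654346884) (nat_lit 84) (nat_lit 9542511781) (nat_lit 31) (nat_lit 5) (nat_lit 34) (nat_lit 5) (nat_lit 32) (nat_lit 5) (nat_lit 444) (nat_lit 365) (nat_lit 136)) (XT.nd (nat_lit 94) (nat_lit 0) (nat_lit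 0) (XT.lf (nat_lit 0) (nat_lit 11403275903) (nat_lit 252) (nat_lit 43651034842) (nat_lit 84) (nat_lit 27382549130) (nat_lit 31) (nat_lit 5) (nat_lit 34) (nat_lit 5) (nat_lit 32) (nat_lit 5) (nat_lit 445) (nat_lit 365) (nat_lit 135)) (XT.lf (nat_lit 0) (nat_lit 22769264953) (nat_lit 252) (nat_lit 15839526497) (nat_lit 84) (nat_lit 45757093325) (nat_lit 31) (nat_lit 5) (nat_lit 34) (nat_lit 5) (nat_lit 32) (nat_lit 5) (nat_lit 446) (nat_lit 365) (nat_lit 134)))) (XT.nd (nat_lit 188) (nat_lit 168) (nat_lit 0) (XT.nd (nat_lit 94) (nat_lit 0) (nat_lit 0) (XT.lf (nat_lit 0) (nat_lit 13059313716) (nat_lit 168) (nat_lit 21541315641) (nat_lit 252) (nat_lit 51748420189) (nat_lit 29) (nat_lit 5) (nat_lit 31) (nat_lit 5) (nat_lit 32) (nat_lit 5) (nat_lit 447) (nat_lit 365) (nat_lit 133)) (XT.lf (nat_lit 0) (nat_lit 43147984386) (nat_lit 168) (nat_lit 3797775610) (nat_lit 252) (nat_lit 41441185470)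 (nat_lit 29) (nat_lit 5) (nat_lit 31) (nat_lit 5) (nat_lit 32) (nat_lit 5) (nat_lit 448) (nat_lit 365) (nat_lit 132))) (XT.nd (nat_lit 94) (nat_lit 168) (nat_lit 0) (XT.lf (nat_lit 0) (nat_lit 59799319880) (nat_lit 252) (nat_lit 16487638437) (nat_lit 84) (nat_lit 14194878627) (nat_lit 29) (nat_lit 5) (nat_lit 32) (nat_lit 5) (nat_lit 30) (nat_lit 5) (nat_lit 449) (nat_lit 365) (nat_lit 131)) (XT.lf (nat_lit 0) (nat_lit 13347325795) (nat_lit 168) (nat_lit 59856000359) (nat_lit 252) (nat_lit 19431304733) (nat_lit 27) (nat_lit 5) (nat_lit 29) (nat_lit 5) (nat_lit 30) (nat_lit 5) (nat_lit 450) (nat_lit 365) (nat_lit 130)))))) (XT.nd (nat_lit 51324) (nat_lit 0) (nat_lit 12936) (XT.nd (nat_lit 282) (nat_lit 168) (nat_lit 0) (XT.nd (nat_lit 94) (nat_lit 252) (nat_lit 0) (XT.lf (nat_lit 0) (nat_lit 44413585791) (nat_lit 168) (nat_lit 42761309192) (nat_lit 252) (nat_lit 7672151279) (nat_lit 27)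 (nat_lit 5) (nat_lit 29) (nat_lit 5) (nat_lit 30) (nat_lit 5) (nat_lit 451) (nat_lit 365) (nat_lit 129)) (XT.nd (nat_lit 94) (nat_lit 168) (nat_lit 0) (XT.lf (nat_lit 0) (nat_lit 4352109944) (nat_lit 252) (nat_lit 20758382806) (nat_lit 84) (nat_lit 72014092768) (nat_lit 26) (nat_lit 5) (nat_lit 29) (nat_lit 5) (nat_lit 27) (nat_lit 5) (nat_lit 452) (nat_lit 365) (nat_lit 128)) (XT.lf (nat_lit 0) (nat_lit 9922963248) (nat_lit 168) (nat_lit 6754317930) (nat_lit 252) (nat_lit 82788060182) (nat_lit 24) (nat_lit 5) (nat_lit 26) (nat_lit 5) (nat_lit 27) (nat_lit 5) (nat_lit 453) (nat_lit 365) (nat_lit 127)))) (XT.nd (nat_lit 188) (nat_lit 168) (nat_lit 0) (XT.nd (nat_lit 94) (nat_lit 0) (nat_lit 0) (XT.lf (nat_lit 0) (nat_lit 29699725983) (nat_lit 252) (nat_lit 60040310956) (nat_lit 84) (nat_lit 12126458171) (nat_lit 24) (nat_lit 5) (nat_lit 27) (nat_lit 5) (nat_lit 25) (nat_lit 5) (nat_lit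 454) (nat_lit 365) (nat_lit 126)) (XT.lf (nat_lit 0) (nat_lit 43178753871) (nat_lit 252) (nat_lit 29721670514) (nat_lit 84) (nat_lit 31437282558) (nat_lit 24) (nat_lit 5) (nat_lit 27) (nat_lit 5) (nat_lit 25) (nat_lit 5) (nat_lit 455) (nat_lit 365) (nat_lit 125))) (XT.nd (nat_lit 94) (nat_lit 0) (nat_lit 0) (XT.lf (nat_lit 0) (nat_lit 1534913557) (nat_lit 168) (nat_lit 55541056969) (nat_lit 252) (nat_lit 49806670807) (nat_lit 22) (nat_lit 5) (nat_lit 24) (nat_lit 5) (nat_lit 25) (nat_lit 5) (nat_lit 456) (nat_lit 365) (nat_lit 124)) (XT.lf (nat_lit 0) (nat_lit 34336908347) (nat_lit 168) (nat_lit 37352401693) (nat_lit 252) (nat_lit 37805638243) (nat_lit 22) (nat_lit 5) (nat_lit 24) (nat_lit 5) (nat_lit 25) (nat_lit 5) (nat_lit 457) (nat_lit 365) (nat_lit 123))))) (XT.nd (nat_lit 282) (nat_lit 0) (nat_lit 84) (XT.nd (nat_lit 94) (nat_lit 0) (nat_lit 0) (XT.lf (nat_lit 0) (nat_lit 7731836746)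 (nat_lit 1260) (nat_lit 798289071) (nat_lit 1260) (nat_lit 798289071) (nat_lit 176) (nat_lit 3) (nat_lit 191) (nat_lit 3) (nat_lit 191) (nat_lit 5) (nat_lit 366) (nat_lit 366) (nat_lit 213)) (XT.nd (nat_lit 94) (nat_lit 0) (nat_lit 0) (XT.lf (nat_lit 84) (nat_lit 6599973057) (nat_lit 0) (nat_lit 9333667382) (nat_lit 1260) (nat_lit 2995567860) (nat_lit 177) (nat_lit 5) (nat_lit 176) (nat_lit 3) (nat_lit 191) (nat_lit 5) (nat_lit 367) (nat_lit 366) (nat_lit 212)) (XT.lf (nat_lit 84) (nat_lit 15071563949) (nat_lit 0) (nat_lit 1355417356) (nat_lit 1260) (nat_lit 2782511641) (nat_lit 177) (nat_lit 5) (nat_lit 176) (nat_lit 3) (nat_lit 191) (nat_lit 5) (nat_lit 368) (nat_lit 366) (nat_lit 211)))) (XT.nd (nat_lit 188) (nat_lit 0) (nat_lit 84) (XT.nd (nat_lit 94) (nat_lit 0) (nat_lit 0) (XT.lf (nat_lit 84) (nat_lit 4313603673) (nat_lit 0) (nat_lit 12722329683) (nat_lit 1260) (nat_lit 2459241089)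 (nat_lit 178) (nat_lit 5) (nat_lit 177) (nat_lit 5) (nat_lit 192) (nat_lit 5) (nat_lit 369) (nat_lit 366) (nat_lit 210)) (XT.lf (nat_lit 84) (nat_lit 13086132025) (nat_lit 0) (nat_lit 4625635109) (nat_lit 1260) (nat_lit 2076213130) (nat_lit 178) (nat_lit 5) (nat_lit 177) (nat_lit 5) (nat_lit 192) (nat_lit 5) (nat_lit 370) (nat_lit 366) (nat_lit 209))) (XT.nd (nat_lit 94) (nat_lit 0) (nat_lit 0) (XT.lf (nat_lit 84) (nat_lit 2032419630) (nat_lit 0) (nat_lit 16424447852) (nat_lit 1260) (nat_lit 1631244943) (nat_lit 179) (nat_lit 5) (nat_lit 178) (nat_lit 5) (nat_lit 193) (nat_lit 5) (nat_lit 371) (nat_lit 366) (nat_lit 208)) (XT.lf (nat_lit 84) (nat_lit 11115619009) (nat_lit 0) (nat_lit 8215626263) (nat_lit 1260) (nat_lit 1062807111) (nat_lit 179) (nat_lit 5) (nat_lit 178) (nat_lit 5) (nat_lit 193) (nat_lit 5) (nat_lit 372) (nat_lit 366) (nat_lit 207))))))))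
noncomputable def xc187 : XT := (XT.nd (nat_lit 2632) (nat_lit 4620) (nat_lit 0) (XT.nd (nat_lit 1316) (nat_lit 3864) (nat_lit 0) (XT.nd (nat_lit 658) (nat_lit 924) (nat_lit 0) (XT.nd (nat_lit 282) (nat_lit 0) (nat_lit 84) (XT.nd (nat_lit 94) (nat_lit 1260) (nat_lit 0) (XT.lf (nat_lit 0) (nat_lit 20228255228) (nat_lit 1176) (nat_lit 244026941) (nat_lit 1260) (nat_lit 237007577) (nat_lit 179) (nat_lit 5) (nat_lit 193) (nat_lit 5) (nat_lit 194) (nat_lit 5) (nat_lit 373) (nat_lit 366) (nat_lit 206)) (XT.nd (nat_lit 94) (nat_lit 0) (nat_lit 0) (XT.lf (nat_lit 0) (nat_lit 281110959) (nat_lit 1260) (nat_lit 11876883795) (nat_lit 1344) (nat_lit 8871009196) (nat_lit 164) (nat_lit 5) (nat_lit 179) (nat_lit 5) (nat_lit 180) (nat_lit 5) (nat_lit 374) (nat_lit 366) (nat_lit 205)) (XT.lf (nat_lit 0) (nat_lit 1053277254) (nat_lit 1260) (nat_lit 2531711210) (nat_lit 1344) (nat_lit 17773283767) (nat_lit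 164) (nat_lit 5) (nat_lit 179) (nat_lit 5) (nat_lit 180) (nat_lit 5) (nat_lit 375) (nat_lit 366) (nat_lit 204)))) (XT.nd (nat_lit 188) (nat_lit 0) (nat_lit 84) (XT.nd (nat_lit 94) (nat_lit 0) (nat_lit 0) (XT.lf (nat_lit 0) (nat_lit 1963745701) (nat_lit 1260) (nat_lit 14515440893) (nat_lit 1344) (nat_lit 5214787829) (nat_lit 165) (nat_lit 5) (nat_lit 180) (nat_lit 5) (nat_lit 181) (nat_lit 5) (nat_lit 376) (nat_lit 366) (nat_lit 203)) (XT.lf (nat_lit 0) (nat_lit 2957483527) (nat_lit 1260) (nat_lit 4846626562) (nat_lit 1344) (nat_lit 14233968621) (nat_lit 165) (nat_lit 5) (nat_lit 180) (nat_lit 5) (nat_lit 181) (nat_lit 5) (nat_lit 377) (nat_lit 366) (nat_lit 202))) (XT.nd (nat_lit 94) (nat_lit 0) (nat_lit 0) (XT.lf (nat_lit 0) (nat_lit 4037298298) (nat_lit 1260) (nat_lit 17192399622) (nat_lit 1344) (nat_lit 1161129664) (nat_lit 166) (nat_lit 5) (nat_lit 181) (nat_lit 5) (nat_lit 182) (nat_lit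 5) (nat_lit 378) (nat_lit 366) (nat_lit 201)) (XT.lf (nat_lit 0) (nat_lit 5271128609) (nat_lit 1260) (nat_lit 7190164215) (nat_lit 1344) (nat_lit 10289226599) (nat_lit 166) (nat_lit 5) (nat_lit 181) (nat_lit 5) (nat_lit 182) (nat_lit 5) (nat_lit 379) (nat_lit 366) (nat_lit 200))))) (XT.nd (nat_lit 282) (nat_lit 1092) (nat_lit 0) (XT.nd (nat_lit 94) (nat_lit 0) (nat_lit 84) (XT.lf (nat_lit 84) (nat_lit 3170208434) (nat_lit 0) (nat_lit 3397313830) (nat_lit 1344) (nat_lit 16552722165) (nat_lit 167) (nat_lit 5) (nat_lit 166) (nat_lit 5) (nat_lit 182) (nat_lit 5) (nat_lit 380) (nat_lit 366) (nat_lit 199)) (XT.nd (nat_lit 94) (nat_lit 0) (nat_lit 0) (XT.lf (nat_lit 0) (nat_lit 8028410516) (nat_lit 1260) (nat_lit 9571821793) (nat_lit 1344) (nat_lit 5897069398) (nat_lit 167) (nat_lit 5) (nat_lit 182) (nat_lit 5) (nat_lit 183) (nat_lit 5) (nat_lit 381) (nat_lit 366) (nat_lit 198)) (XT.lf (nat_lit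 84) (nat_lit 1101798033) (nat_lit 0) (nat_lit 8470887390) (nat_lit 1344) (nat_lit 14311806836) (nat_lit 168) (nat_lit 5) (nat_lit 167) (nat_lit 5) (nat_lit 183) (nat_lit 5) (nat_lit 382) (nat_lit 366) (nat_lit 197)))) (XT.nd (nat_lit 188) (nat_lit 1260) (nat_lit 0) (XT.nd (nat_lit 94) (nat_lit 0) (nat_lit 0) (XT.lf (nat_lit 0) (nat_lit 11265303943) (nat_lit 1260) (nat_lit 12002398256) (nat_lit 84) (nat_lit 1012543981) (nat_lit 168) (nat_lit 5) (nat_lit 183) (nat_lit 5) (nat_lit 169) (nat_lit 5) (nat_lit 383) (nat_lit 366) (nat_lit 196)) (XT.lf (nat_lit 0) (nat_lit 13088143553) (nat_lit 1260) (nat_lit 986369059) (nat_lit 84) (nat_lit 10610984706) (nat_lit 168) (nat_lit 5) (nat_lit 183) (nat_lit 5) (nat_lit 169) (nat_lit 5) (nat_lit 384) (nat_lit 366) (nat_lit 195))) (XT.nd (nat_lit 94) (nat_lit 0) (nat_lit 0) (XT.lf (nat_lit 0) (nat_lit 10562559961) (nat_lit 1260) (nat_lit 4500343502) (nat_lit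 1344) (nat_lit 10037093123) (nat_lit 153) (nat_lit 5) (nat_lit 168) (nat_lit 5) (nat_lit 169) (nat_lit 5) (nat_lit 385) (nat_lit 366) (nat_lit 194)) (XT.lf (nat_lit 0) (nat_lit 17154295530) (nat_lit 1344) (nat_lit 3103885276) (nat_lit 84) (nat_lit 5267035767) (nat_lit 153) (nat_lit 5) (nat_lit 169) (nat_lit 5) (nat_lit 154) (nat_lit 5) (nat_lit 386) (nat_lit 366) (nat_lit 193)))))) (XT.nd (nat_lit 658) (nat_lit 1428) (nat_lit 0) (XT.nd (nat_lit 282) (nat_lit 1260) (nat_lit 0) (XT.nd (nat_lit 94) (nat_lit 588) (nat_lit 0) (XT.lf (nat_lit 0) (nat_lit 8796070995) (nat_lit 588) (nat_lit 10637388512) (nat_lit 672) (nat_lit 6525989956) (nat_lit 146) (nat_lit 5) (nat_lit 153) (nat_lit 5) (nat_lit 154) (nat_lit 5) (nat_lit 387) (nat_lit 366) (nat_lit 192)) (XT.nd (nat_lit 94) (nat_lit 588) (nat_lit 0) (XT.lf (nat_lit 0) (nat_lit 21113001918) (nat_lit 588) (nat_lit 695342490) (nat_lit 672) (nat_lit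 4597551552) (nat_lit 146) (nat_lit 5) (nat_lit 153) (nat_lit 5) (nat_lit 154) (nat_lit 5) (nat_lit 388) (nat_lit 366) (nat_lit 191)) (XT.lf (nat_lit 0) (nat_lit 6974377333) (nat_lit 588) (nat_lit 17435015047) (nat_lit 672) (nat_lit 2451702768) (nat_lit 139) (nat_lit 5) (nat_lit 146) (nat_lit 5) (nat_lit 147) (nat_lit 5) (nat_lit 389) (nat_lit 366) (nat_lit 190)))) (XT.nd (nat_lit 188) (nat_lit 588) (nat_lit 0) (XT.nd (nat_lit 94) (nat_lit 672) (nat_lit 0) (XT.lf (nat_lit 0) (nat_lit 19707509618) (nat_lit 588) (nat_lit 7437427608) (nat_lit 672) (nat_lit 183325719) (nat_lit 139) (nat_lit 5) (nat_lit 146) (nat_lit 5) (nat_lit 147) (nat_lit 5) (nat_lit 390) (nat_lit 366) (nat_lit 189)) (XT.lf (nat_lit 0) (nat_lit 2184450110) (nat_lit 672) (nat_lit 22747486657) (nat_lit 84) (nat_lit 2874693452) (nat_lit 131) (nat_lit 5) (nat_lit 139) (nat_lit 5) (nat_lit 132) (nat_lit 5) (nat_lit 391) (nat_lit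 366) (nat_lit 188))) (XT.nd (nat_lit 94) (nat_lit 588) (nat_lit 0) (XT.lf (nat_lit 0) (nat_lit 4767272536) (nat_lit 672) (nat_lit 10101290033) (nat_lit 84) (nat_lit 13426306585) (nat_lit 131) (nat_lit 5) (nat_lit 139) (nat_lit 5) (nat_lit 132) (nat_lit 5) (nat_lit 392) (nat_lit 366) (nat_lit 187)) (XT.lf (nat_lit 0) (nat_lit 2978837263) (nat_lit 588) (nat_lit 4473826774) (nat_lit 672) (nat_lit 21344344549) (nat_lit 124) (nat_lit 5) (nat_lit 131) (nat_lit 5) (nat_lit 132) (nat_lit 5) (nat_lit 393) (nat_lit 366) (nat_lit 186))))) (XT.nd (nat_lit 282) (nat_lit 924) (nat_lit 0) (XT.nd (nat_lit 94) (nat_lit 504) (nat_lit 0) (XT.lf (nat_lit 0) (nat_lit 10378062099) (nat_lit 672) (nat_lit 12717297541) (nat_lit 84) (nat_lit 6214074906) (nat_lit 124) (nat_lit 5) (nat_lit 132) (nat_lit 5) (nat_lit 125) (nat_lit 5) (nat_lit 394) (nat_lit 366) (nat_lit 185)) (XT.nd (nat_lit 94) (nat_lit 0) (nat_lit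 0) (XT.lf (nat_lit 0) (nat_lit 743259936) (nat_lit 504) (nat_lit 12696022192) (nat_lit 588) (nat_lit 16396514881) (nat_lit 118) (nat_lit 5) (nat_lit 124) (nat_lit 5) (nat_lit 125) (nat_lit 5) (nat_lit 395) (nat_lit 366) (nat_lit 184)) (XT.lf (nat_lit 0) (nat_lit 14864810201) (nat_lit 504) (nat_lit 1852633015) (nat_lit 588) (nat_lit 13656759358) (nat_lit 118) (nat_lit 5) (nat_lit 124) (nat_lit 5) (nat_lit 125) (nat_lit 5) (nat_lit 396) (nat_lit 366) (nat_lit 183)))) (XT.nd (nat_lit 188) (nat_lit 420) (nat_lit 0) (XT.nd (nat_lit 94) (nat_lit 504) (nat_lit 0) (XT.lf (nat_lit 0) (nat_lit 20180280162) (nat_lit 588) (nat_lit 1611818536) (nat_lit 84) (nat_lit 9134076886) (nat_lit 118) (nat_lit 5) (nat_lit 125) (nat_lit 5) (nat_lit 119) (nat_lit 5) (nat_lit 397) (nat_lit 366) (nat_lit 182)) (XT.lf (nat_lit 0) (nat_lit 12933303736) (nat_lit 504) (nat_lit 10953237391) (nat_lit 588) (nat_lit 7603985545)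 (nat_lit 112) (nat_lit 5) (nat_lit 118) (nat_lit 5) (nat_lit 119) (nat_lit 5) (nat_lit 398) (nat_lit 366) (nat_lit 181))) (XT.nd (nat_lit 94) (nat_lit 420) (nat_lit 0) (XT.lf (nat_lit 0) (nat_lit 27719382328) (nat_lit 588) (nat_lit 4129158774) (nat_lit 84) (nat_lit 222810326) (nat_lit 112) (nat_lit 5) (nat_lit 119) (nat_lit 5) (nat_lit 113) (nat_lit 5) (nat_lit 399) (nat_lit 366) (nat_lit 180)) (XT.lf (nat_lit 0) (nat_lit 10831286187) (nat_lit 420) (nat_lit 21045505683) (nat_lit 504) (nat_lit 786526329) (nat_lit 107) (nat_lit 5) (nat_lit 112) (nat_lit 5) (nat_lit 113) (nat_lit 5) (nat_lit 400) (nat_lit 366) (nat_lit 179))))))) (XT.nd (nat_lit 1316) (nat_lit 2016) (nat_lit 0) (XT.nd (nat_lit 658) (nat_lit 1176) (nat_lit 0) (XT.nd (nat_lit 282) (nat_lit 840) (nat_lit 0) (XT.nd (nat_lit 94) (nat_lit 504) (nat_lit 0) (XT.lf (nat_lit 0) (nat_lit 2868714568) (nat_lit 504) (nat_lit 6978159555)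 (nat_lit 84) (nat_lit 23424167654) (nat_lit 106) (nat_lit 5) (nat_lit 112) (nat_lit 5) (nat_lit 107) (nat_lit 5) (nat_lit 401) (nat_lit 366) (nat_lit 178)) (XT.nd (nat_lit 94) (nat_lit 0) (nat_lit 0) (XT.lf (nat_lit 0) (nat_lit 6713505986) (nat_lit 588) (nat_lit 25435883051) (nat_lit 84) (nat_lit 1744507714) (nat_lit 100) (nat_lit 5) (nat_lit 107) (nat_lit 5) (nat_lit 101) (nat_lit 5) (nat_lit 402) (nat_lit 366) (nat_lit 177)) (XT.lf (nat_lit 0) (nat_lit 10839472082) (nat_lit 588) (nat_lit 10134551463) (nat_lit 84) (nat_lit 13556443136) (nat_lit 100) (nat_lit 5) (nat_lit 107) (nat_lit 5) (nat_lit 101) (nat_lit 5) (nat_lit 403) (nat_lit 366) (nat_lit 176)))) (XT.nd (nat_lit 188) (nat_lit 420) (nat_lit 0) (XT.nd (nat_lit 94) (nat_lit 0) (nat_lit 0) (XT.lf (nat_lit 0) (nat_lit 5734463644) (nat_lit 420) (nat_lit 9407132728) (nat_lit 504) (nat_lit 20042970070) (nat_lit 95) (nat_lit 5) (nat_lit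 100) (nat_lit 5) (nat_lit 101) (nat_lit 5) (nat_lit 404) (nat_lit 366) (nat_lit 175)) (XT.lf (nat_lit 0) (nat_lit 19697533182) (nat_lit 504) (nat_lit 13596335558) (nat_lit 84) (nat_lit 2560681984) (nat_lit 95) (nat_lit 5) (nat_lit 101) (nat_lit 5) (nat_lit 96) (nat_lit 5) (nat_lit 405) (nat_lit 366) (nat_lit 174))) (XT.nd (nat_lit 94) (nat_lit 0) (nat_lit 0) (XT.lf (nat_lit 0) (nat_lit 2689172155) (nat_lit 420) (nat_lit 21817344356) (nat_lit 504) (nat_lit 12034630845) (nat_lit 90) (nat_lit 5) (nat_lit 95) (nat_lit 5) (nat_lit 96) (nat_lit 5) (nat_lit 406) (nat_lit 366) (nat_lit 173)) (XT.lf (nat_lit 0) (nat_lit 19738780049) (nat_lit 420) (nat_lit 9855709960) (nat_lit 504) (nat_lit 7649814020) (nat_lit 90) (nat_lit 5) (nat_lit 95) (nat_lit 5) (nat_lit 96) (nat_lit 5) (nat_lit 407) (nat_lit 366) (nat_lit 172))))) (XT.nd (nat_lit 282) (nat_lit 756) (nat_lit 0) (XT.nd (nat_lit 94) (nat_lit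 420) (nat_lit 0) (XT.lf (nat_lit 0) (nat_lit 34856289371) (nat_lit 504) (nat_lit 695529273) (nat_lit 84) (nat_lit 2416104809) (nat_lit 90) (nat_lit 5) (nat_lit 96) (nat_lit 5) (nat_lit 91) (nat_lit 5) (nat_lit 408) (nat_lit 366) (nat_lit 171)) (XT.nd (nat_lit 94) (nat_lit 0) (nat_lit 0) (XT.lf (nat_lit 0) (nat_lit 1791829864) (nat_lit 420) (nat_lit 21876247501) (nat_lit 84) (nat_lit 15036937922) (nat_lit 85) (nat_lit 5) (nat_lit 90) (nat_lit 5) (nat_lit 86) (nat_lit 5) (nat_lit 409) (nat_lit 366) (nat_lit 170)) (XT.lf (nat_lit 0) (nat_lit 6784531376) (nat_lit 420) (nat_lit 4604922154) (nat_lit 84) (nat_lit 28073705207) (nat_lit 85) (nat_lit 5) (nat_lit 90) (nat_lit 5) (nat_lit 86) (nat_lit 5) (nat_lit 410) (nat_lit 366) (nat_lit 169)))) (XT.nd (nat_lit 188) (nat_lit 336) (nat_lit 0) (XT.nd (nat_lit 94) (nat_lit 0) (nat_lit 0) (XT.lf (nat_lit 0) (nat_lit 12067258030) (nat_lit 504) (nat_lit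 26809719817) (nat_lit 84) (nat_lit 1362864567) (nat_lit 80) (nat_lit 5) (nat_lit 86) (nat_lit 5) (nat_lit 81) (nat_lit 5) (nat_lit 411) (nat_lit 366) (nat_lit 168)) (XT.lf (nat_lit 0) (nat_lit 17665879806) (nat_lit 504) (nat_lit 9054077163) (nat_lit 84) (nat_lit 14315150383) (nat_lit 80) (nat_lit 5) (nat_lit 86) (nat_lit 5) (nat_lit 81) (nat_lit 5) (nat_lit 412) (nat_lit 366) (nat_lit 167))) (XT.nd (nat_lit 94) (nat_lit 0) (nat_lit 0) (XT.lf (nat_lit 0) (nat_lit 9415010492) (nat_lit 336) (nat_lit 14105705368) (nat_lit 420) (nat_lit 18330869768) (nat_lit 76) (nat_lit 5) (nat_lit 80) (nat_lit 5) (nat_lit 81) (nat_lit 5) (nat_lit 413) (nat_lit 366) (nat_lit 166)) (XT.lf (nat_lit 0) (nat_lit 28620854312) (nat_lit 336) (nat_lit 1019561315) (nat_lit 420) (nat_lit 13049469035) (nat_lit 76) (nat_lit 5) (nat_lit 80) (nat_lit 5) (nat_lit 81) (nat_lit 5) (nat_lit 414) (nat_lit 366) (nat_lit 165))))))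 (XT.nd (nat_lit 658) (nat_lit 924) (nat_lit 0) (XT.nd (nat_lit 282) (nat_lit 672) (nat_lit 0) (XT.nd (nat_lit 94) (nat_lit 84) (nat_lit 0) (XT.lf (nat_lit 0) (nat_lit 4820958010) (nat_lit 336) (nat_lit 31286703487) (nat_lit 420) (nat_lit 7440755400) (nat_lit 72) (nat_lit 5) (nat_lit 76) (nat_lit 5) (nat_lit 77) (nat_lit 5) (nat_lit 415) (nat_lit 366) (nat_lit 164)) (XT.nd (nat_lit 94) (nat_lit 84) (nat_lit 0) (XT.lf (nat_lit 0) (nat_lit 24552888245) (nat_lit 336) (nat_lit 18365984947) (nat_lit 420) (nat_lit 1509336253) (nat_lit 72) (nat_lit 5) (nat_lit 76) (nat_lit 5) (nat_lit 77) (nat_lit 5) (nat_lit 416) (nat_lit 366) (nat_lit 163)) (XT.lf (nat_lit 0) (nat_lit 4508184176) (nat_lit 420) (nat_lit 504661773) (nat_lit 84) (nat_lit 40320288258) (nat_lit 71) (nat_lit 5) (nat_lit 76) (nat_lit 5) (nat_lit 72) (nat_lit 5) (nat_lit 417) (nat_lit 366) (nat_lit 162)))) (XT.nd (nat_lit 188) (nat_lit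 336) (nat_lit 0) (XT.nd (nat_lit 94) (nat_lit 0) (nat_lit 0) (XT.lf (nat_lit 0) (nat_lit 10950410722) (nat_lit 420) (nat_lit 26529041262) (nat_lit 84) (nat_lit 8777073470) (nat_lit 67) (nat_lit 5) (nat_lit 72) (nat_lit 5) (nat_lit 68) (nat_lit 5) (nat_lit 418) (nat_lit 366) (nat_lit 161)) (XT.lf (nat_lit 0) (nat_lit 17638690711) (nat_lit 420) (nat_lit 6682978557) (nat_lit 84) (nat_lit 22884368060) (nat_lit 67) (nat_lit 5) (nat_lit 72) (nat_lit 5) (nat_lit 68) (nat_lit 5) (nat_lit 419) (nat_lit 366) (nat_lit 160))) (XT.nd (nat_lit 94) (nat_lit 0) (nat_lit 0) (XT.lf (nat_lit 0) (nat_lit 14029543622) (nat_lit 336) (nat_lit 10631002011) (nat_lit 420) (nat_lit 23519503544) (nat_lit 63) (nat_lit 5) (nat_lit 67) (nat_lit 5) (nat_lit 68) (nat_lit 5) (nat_lit 420) (nat_lit 366) (nat_lit 159)) (XT.lf (nat_lit 0) (nat_lit 31992658225) (nat_lit 420) (nat_lit 13717563598) (nat_lit 84) (nat_lit 3470073840)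 (nat_lit 63) (nat_lit 5) (nat_lit 68) (nat_lit 5) (nat_lit 64) (nat_lit 5) (nat_lit 421) (nat_lit 366) (nat_lit 158))))) (XT.nd (nat_lit 282) (nat_lit 588) (nat_lit 0) (XT.nd (nat_lit 94) (nat_lit 84) (nat_lit 0) (XT.lf (nat_lit 0) (nat_lit 7364174716) (nat_lit 252) (nat_lit 32354750932) (nat_lit 336) (nat_lit 10486400430) (nat_lit 60) (nat_lit 5) (nat_lit 63) (nat_lit 5) (nat_lit 64) (nat_lit 5) (nat_lit 422) (nat_lit 366) (nat_lit 157)) (XT.nd (nat_lit 94) (nat_lit 84) (nat_lit 0) (XT.lf (nat_lit 0) (nat_lit 29356951600) (nat_lit 252) (nat_lit 18456723982) (nat_lit 336) (nat_lit 3443333197) (nat_lit 60) (nat_lit 5) (nat_lit 63) (nat_lit 5) (nat_lit 64) (nat_lit 5) (nat_lit 423) (nat_lit 366) (nat_lit 156)) (XT.lf (nat_lit 0) (nat_lit 3734866729) (nat_lit 336) (nat_lit 369936000) (nat_lit 84) (nat_lit 48234396072) (nat_lit 59) (nat_lit 5) (nat_lit 63) (nat_lit 5) (nat_lit 60) (nat_lit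 5) (nat_lit 424) (nat_lit 366) (nat_lit 155)))) (XT.nd (nat_lit 188) (nat_lit 252) (nat_lit 0) (XT.nd (nat_lit 94) (nat_lit 0) (nat_lit 0) (XT.lf (nat_lit 0) (nat_lit 11375975022) (nat_lit 420) (nat_lit 31348811830) (nat_lit 84) (nat_lit 10718543823) (nat_lit 55) (nat_lit 5) (nat_lit 60) (nat_lit 5) (nat_lit 56) (nat_lit 5) (nat_lit 425) (nat_lit 366) (nat_lit 154)) (XT.lf (nat_lit 0) (nat_lit 19289010143) (nat_lit 420) (nat_lit 9383180963) (nat_lit 84) (nat_lit 25907116556) (nat_lit 55) (nat_lit 5) (nat_lit 60) (nat_lit 5) (nat_lit 56) (nat_lit 5) (nat_lit 426) (nat_lit 366) (nat_lit 153))) (XT.nd (nat_lit 94) (nat_lit 0) (nat_lit 0) (XT.lf (nat_lit 0) (nat_lit 13502455128) (nat_lit 252) (nat_lit 14065104515) (nat_lit 336) (nat_lit 28177962521) (nat_lit 52) (nat_lit 5) (nat_lit 55) (nat_lit 5) (nat_lit 56) (nat_lit 5) (nat_lit 427) (nat_lit 366) (nat_lit 152)) (XT.lf (nat_lit 0) (nat_lit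 36197925114) (nat_lit 336) (nat_lit 19689699610) (nat_lit 84) (nat_lit 1055996442) (nat_lit 52) (nat_lit 5) (nat_lit 56) (nat_lit 5) (nat_lit 53) (nat_lit 5) (nat_lit 428) (nat_lit 366) (nat_lit 151))))))))
noncomputable def xc188 : XT := (XT.nd (nat_lit 2538) (nat_lit 168) (nat_lit 0) (XT.nd (nat_lit 1222) (nat_lit 1008) (nat_lit 0) (XT.nd (nat_lit 564) (nat_lit 504) (nat_lit 0) (XT.nd (nat_lit 282) (nat_lit 504) (nat_lit 0) (XT.nd (nat_lit 94) (nat_lit 84) (nat_lit 0) (XT.lf (nat_lit 0) (nat_lit 3466256313) (nat_lit 252) (nat_lit 41791918996) (nat_lit 336) (nat_lit 12914360414) (nat_lit 49) (nat_lit 5) (nat_lit 52) (nat_lit 5) (nat_lit 53) (nat_lit 5) (nat_lit 429) (nat_lit 366) (nat_lit 150)) (XT.nd (nat_lit 94) (nat_lit 84) (nat_lit 0) (XT.lf (nat_lit 0) (nat_lit 27718140706) (nat_lit 252) (nat_lit 27069339140) (nat_lit 336) (nat_lit 4644922211) (nat_lit 49) (nat_lit 5) (nat_lit 52)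 (nat_lit 5) (nat_lit 53) (nat_lit 5) (nat_lit 430) (nat_lit 366) (nat_lit 149)) (XT.lf (nat_lit 0) (nat_lit 3795479438) (nat_lit 336) (nat_lit 8072041786) (nat_lit 84) (nat_lit 48861474566) (nat_lit 48) (nat_lit 5) (nat_lit 52) (nat_lit 5) (nat_lit 49) (nat_lit 5) (nat_lit 431) (nat_lit 366) (nat_lit 148)))) (XT.nd (nat_lit 94) (nat_lit 252) (nat_lit 0) (XT.lf (nat_lit 0) (nat_lit 12591816708) (nat_lit 336) (nat_lit 45542617062) (nat_lit 84) (nat_lit 3922793025) (nat_lit 45) (nat_lit 5) (nat_lit 49) (nat_lit 5) (nat_lit 46) (nat_lit 5) (nat_lit 432) (nat_lit 366) (nat_lit 147)) (XT.nd (nat_lit 94) (nat_lit 252) (nat_lit 0) (XT.lf (nat_lit 0) (nat_lit 21850372000) (nat_lit 336) (nat_lit 21539118735) (nat_lit 84) (nat_lit 20029865707) (nat_lit 45) (nat_lit 5) (nat_lit 49) (nat_lit 5) (nat_lit 46) (nat_lit 5) (nat_lit 433) (nat_lit 366) (nat_lit 146)) (XT.lf (nat_lit 0) (nat_lit 3245602553)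 (nat_lit 252) (nat_lit 28170832397) (nat_lit 336) (nat_lit 33405024005) (nat_lit 42) (nat_lit 5) (nat_lit 45) (nat_lit 5) (nat_lit 46) (nat_lit 5) (nat_lit 434) (nat_lit 366) (nat_lit 145))))) (XT.nd (nat_lit 282) (nat_lit 336) (nat_lit 0) (XT.nd (nat_lit 94) (nat_lit 168) (nat_lit 0) (XT.lf (nat_lit 0) (nat_lit 29213202635) (nat_lit 252) (nat_lit 12272353382) (nat_lit 336) (nat_lit 24773587699) (nat_lit 42) (nat_lit 5) (nat_lit 45) (nat_lit 5) (nat_lit 46) (nat_lit 5) (nat_lit 435) (nat_lit 366) (nat_lit 144)) (XT.nd (nat_lit 94) (nat_lit 168) (nat_lit 0) (XT.lf (nat_lit 0) (nat_lit 51894799787) (nat_lit 336) (nat_lit 11821735199) (nat_lit 84) (nat_lit 4022283980) (nat_lit 42) (nat_lit 5) (nat_lit 46) (nat_lit 5) (nat_lit 43) (nat_lit 5) (nat_lit 436) (nat_lit 366) (nat_lit 143)) (XT.lf (nat_lit 0) (nat_lit 14314921582) (nat_lit 168) (nat_lit 48559159827) (nat_lit 252) (nat_lit 6381071624)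 (nat_lit 40) (nat_lit 5) (nat_lit 42) (nat_lit 5) (nat_lit 43) (nat_lit 5) (nat_lit 437) (nat_lit 366) (nat_lit 142)))) (XT.nd (nat_lit 188) (nat_lit 252) (nat_lit 0) (XT.nd (nat_lit 94) (nat_lit 0) (nat_lit 0) (XT.lf (nat_lit 0) (nat_lit 3419297623) (nat_lit 252) (nat_lit 29371029512) (nat_lit 84) (nat_lit 38022104330) (nat_lit 39) (nat_lit 5) (nat_lit 42) (nat_lit 5) (nat_lit 40) (nat_lit 5) (nat_lit 438) (nat_lit 366) (nat_lit 141)) (XT.lf (nat_lit 0) (nat_lit 13384117117) (nat_lit 252) (nat_lit 3099978983) (nat_lit 84) (nat_lit 55930477270) (nat_lit 39) (nat_lit 5) (nat_lit 42) (nat_lit 5) (nat_lit 40) (nat_lit 5) (nat_lit 439) (nat_lit 366) (nat_lit 140))) (XT.nd (nat_lit 94) (nat_lit 0) (nat_lit 0) (XT.lf (nat_lit 0) (nat_lit 23886797513) (nat_lit 336) (nat_lit 49629074070) (nat_lit 84) (nat_lit 541741681) (nat_lit 36) (nat_lit 5) (nat_lit 40) (nat_lit 5) (nat_lit 37) (nat_lit 5)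 (nat_lit 440) (nat_lit 366) (nat_lit 139)) (XT.lf (nat_lit 0) (nat_lit 34898122463) (nat_lit 336) (nat_lit 23068065815) (nat_lit 84) (nat_lit 17777950344) (nat_lit 36) (nat_lit 5) (nat_lit 40) (nat_lit 5) (nat_lit 37) (nat_lit 5) (nat_lit 441) (nat_lit 366) (nat_lit 138)))))) (XT.nd (nat_lit 658) (nat_lit 420) (nat_lit 0) (XT.nd (nat_lit 282) (nat_lit 420) (nat_lit 0) (XT.nd (nat_lit 94) (nat_lit 0) (nat_lit 0) (XT.lf (nat_lit 0) (nat_lit 4373165988) (nat_lit 168) (nat_lit 41907436991) (nat_lit 252) (nat_lit 31199433438) (nat_lit 34) (nat_lit 5) (nat_lit 36) (nat_lit 5) (nat_lit 37) (nat_lit 5) (nat_lit 442) (nat_lit 366) (nat_lit 137)) (XT.nd (nat_lit 94) (nat_lit 0) (nat_lit 0) (XT.lf (nat_lit 0) (nat_lit 33108583607) (nat_lit 168) (nat_lit 25127711902) (nat_lit 252) (nat_lit 21024764629) (nat_lit 34) (nat_lit 5) (nat_lit 36) (nat_lit 5) (nat_lit 37) (nat_lit 5) (nat_lit 443) (nat_lit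 366) (nat_lit 136)) (XT.lf (nat_lit 0) (nat_lit 62704195918) (nat_lit 168) (nat_lit 7845293346) (nat_lit 252) (nat_lit 10546061480) (nat_lit 34) (nat_lit 5) (nat_lit 36) (nat_lit 5) (nat_lit 37) (nat_lit 5) (nat_lit 444) (nat_lit 366) (nat_lit 135)))) (XT.nd (nat_lit 188) (nat_lit 168) (nat_lit 0) (XT.nd (nat_lit 94) (nat_lit 0) (nat_lit 0) (XT.lf (nat_lit 0) (nat_lit 437725410) (nat_lit 252) (nat_lit 72677390066) (nat_lit 84) (nat_lit 9864024109) (nat_lit 31) (nat_lit 5) (nat_lit 34) (nat_lit 5) (nat_lit 32) (nat_lit 5) (nat_lit 445) (nat_lit 366) (nat_lit 134)) (XT.lf (nat_lit 0) (nat_lit 11803153658) (nat_lit 252) (nat_lit 44866791883) (nat_lit 84) (nat_lit 28238236259) (nat_lit 31) (nat_lit 5) (nat_lit 34) (nat_lit 5) (nat_lit 32) (nat_lit 5) (nat_lit 446) (nat_lit 366) (nat_lit 133))) (XT.nd (nat_lit 94) (nat_lit 168) (nat_lit 0) (XT.lf (nat_lit 0) (nat_lit 23508439482) (nat_lit 252)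 (nat_lit 16223669569) (nat_lit 84) (nat_lit 47163020353) (nat_lit 31) (nat_lit 5) (nat_lit 34) (nat_lit 5) (nat_lit 32) (nat_lit 5) (nat_lit 447) (nat_lit 366) (nat_lit 132)) (XT.lf (nat_lit 0) (nat_lit 13541243275) (nat_lit 168) (nat_lit 22152734241) (nat_lit 252) (nat_lit 53243836050) (nat_lit 29) (nat_lit 5) (nat_lit 31) (nat_lit 5) (nat_lit 32) (nat_lit 5) (nat_lit 448) (nat_lit 366) (nat_lit 131))))) (XT.nd (nat_lit 282) (nat_lit 252) (nat_lit 0) (XT.nd (nat_lit 94) (nat_lit 168) (nat_lit 0) (XT.lf (nat_lit 0) (nat_lit 44529948332) (nat_lit 168) (nat_lit 3877902209) (nat_lit 252) (nat_lit 42629045554) (nat_lit 29) (nat_lit 5) (nat_lit 31) (nat_lit 5) (nat_lit 32) (nat_lit 5) (nat_lit 449) (nat_lit 366) (nat_lit 130)) (XT.nd (nat_lit 94) (nat_lit 168) (nat_lit 0) (XT.lf (nat_lit 0) (nat_lit 61645768132) (nat_lit 252) (nat_lit 16895998484) (nat_lit 84) (nat_lit 14652906519) (nat_lit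 29) (nat_lit 5) (nat_lit 32) (nat_lit 5) (nat_lit 30) (nat_lit 5) (nat_lit 450) (nat_lit 366) (nat_lit 129)) (XT.lf (nat_lit 0) (nat_lit 13833168900) (nat_lit 168) (nat_lit 61618018622) (nat_lit 252) (nat_lit 19960885893) (nat_lit 27) (nat_lit 5) (nat_lit 29) (nat_lit 5) (nat_lit 30) (nat_lit 5) (nat_lit 451) (nat_lit 366) (nat_lit 128)))) (XT.nd (nat_lit 188) (nat_lit 168) (nat_lit 0) (XT.nd (nat_lit 94) (nat_lit 84) (nat_lit 0) (XT.lf (nat_lit 0) (nat_lit 45828928637) (nat_lit 168) (nat_lit 44011467160) (nat_lit 252) (nat_lit 7850511951) (nat_lit 27) (nat_lit 5) (nat_lit 29) (nat_lit 5) (nat_lit 30) (nat_lit 5) (nat_lit 452) (nat_lit 366) (nat_lit 127)) (XT.lf (nat_lit 0) (nat_lit 4531986821) (nat_lit 252) (nat_lit 21299593316) (nat_lit 84) (nat_lit 74205223684) (nat_lit 26) (nat_lit 5) (nat_lit 29) (nat_lit 5) (nat_lit 27) (nat_lit 5) (nat_lit 453) (nat_lit 366) (nat_lit 126))) (XT.nd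 (nat_lit 94) (nat_lit 0) (nat_lit 0) (XT.lf (nat_lit 0) (nat_lit 10301393698) (nat_lit 168) (nat_lit 6924859314) (nat_lit 252) (nat_lit 85221550293) (nat_lit 24) (nat_lit 5) (nat_lit 26) (nat_lit 5) (nat_lit 27) (nat_lit 5) (nat_lit 454) (nat_lit 366) (nat_lit 125)) (XT.lf (nat_lit 0) (nat_lit 30638253538) (nat_lit 252) (nat_lit 61761975238) (nat_lit 84) (nat_lit 12520797547) (nat_lit 24) (nat_lit 5) (nat_lit 27) (nat_lit 5) (nat_lit 25) (nat_lit 5) (nat_lit 455) (nat_lit 366) (nat_lit 124))))))) (XT.nd (nat_lit 51982) (nat_lit 0) (nat_lit 9828) (XT.nd (nat_lit 51324) (nat_lit 0) (nat_lit 11928) (XT.nd (nat_lit 50948) (nat_lit 0) (nat_lit 12936) (XT.nd (nat_lit 94) (nat_lit 168) (nat_lit 0) (XT.lf (nat_lit 0) (nat_lit 44520267726) (nat_lit 252) (nat_lit 30536092429) (nat_lit 84) (nat_lit 32410056987) (nat_lit 24) (nat_lit 5) (nat_lit 27) (nat_lit 5) (nat_lit 25) (nat_lit 5) (nat_lit 456)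 (nat_lit 366) (nat_lit 123)) (XT.nd (nat_lit 94) (nat_lit 0) (nat_lit 0) (XT.lf (nat_lit 0) (nat_lit 1657432025) (nat_lit 168) (nat_lit 57176359731) (nat_lit 252) (nat_lit 51253927143) (nat_lit 22) (nat_lit 5) (nat_lit 24) (nat_lit 5) (nat_lit 25) (nat_lit 5) (nat_lit 457) (nat_lit 366) (nat_lit 122)) (XT.lf (nat_lit 0) (nat_lit 35441259346) (nat_lit 168) (nat_lit 38442945640) (nat_lit 252) (nat_lit 38894230897) (nat_lit 22) (nat_lit 5) (nat_lit 24) (nat_lit 5) (nat_lit 25) (nat_lit 5) (nat_lit 458) (nat_lit 366) (nat_lit 121)))) (XT.nd (nat_lit 188) (nat_lit 0) (nat_lit 0) (XT.nd (nat_lit 94) (nat_lit 0) (nat_lit 0) (XT.lf (nat_lit 0) (nat_lit 8136682651) (nat_lit 1260) (nat_lit 733033798) (nat_lit 1260) (nat_lit 733033798) (nat_lit 176) (nat_lit 3) (nat_lit 191) (nat_lit 3) (nat_lit 191) (nat_lit 5) (nat_lit 367) (nat_lit 367) (nat_lit 211)) (XT.lf (nat_lit 84) (nat_lit 6974631041) (nat_lit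 0) (nat_lit 9774427060) (nat_lit 1260) (nat_lit 2737262711) (nat_lit 177) (nat_lit 5) (nat_lit 176) (nat_lit 3) (nat_lit 191) (nat_lit 5) (nat_lit 368) (nat_lit 367) (nat_lit 210))) (XT.nd (nat_lit 94) (nat_lit 0) (nat_lit 84) (XT.lf (nat_lit 84) (nat_lit 15695224259) (nat_lit 0) (nat_lit 1552147504) (nat_lit 1260) (nat_lit 2527955743) (nat_lit 177) (nat_lit 5) (nat_lit 176) (nat_lit 3) (nat_lit 191) (nat_lit 5) (nat_lit 369) (nat_lit 367) (nat_lit 209)) (XT.lf (nat_lit 84) (nat_lit 4624676955) (nat_lit 0) (nat_lit 13240663981) (nat_lit 1260) (nat_lit 2204534197) (nat_lit 178) (nat_lit 5) (nat_lit 177) (nat_lit 5) (nat_lit 192) (nat_lit 5) (nat_lit 370) (nat_lit 367) (nat_lit 208))))) (XT.nd (nat_lit 282) (nat_lit 1092) (nat_lit 0) (XT.nd (nat_lit 94) (nat_lit 0) (nat_lit 84) (XT.lf (nat_lit 84) (nat_lit 13655089939) (nat_lit 0) (nat_lit 4897088053) (nat_lit 1260) (nat_lit 1819582898)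 (nat_lit 178) (nat_lit 5) (nat_lit 177) (nat_lit 5) (nat_lit 192) (nat_lit 5) (nat_lit 371) (nat_lit 367) (nat_lit 207)) (XT.nd (nat_lit 94) (nat_lit 0) (nat_lit 0) (XT.lf (nat_lit 84) (nat_lit 2279062077) (nat_lit 0) (nat_lit 17032114070) (nat_lit 1260) (nat_lit 1369991623) (nat_lit 179) (nat_lit 5) (nat_lit 178) (nat_lit 5) (nat_lit 193) (nat_lit 5) (nat_lit 372) (nat_lit 367) (nat_lit 206)) (XT.lf (nat_lit 84) (nat_lit 11629349578) (nat_lit 0) (nat_lit 8573680277) (nat_lit 1260) (nat_lit 793535335) (nat_lit 179) (nat_lit 5) (nat_lit 178) (nat_lit 5) (nat_lit 193) (nat_lit 5) (nat_lit 373) (nat_lit 367) (nat_lit 205)))) (XT.nd (nat_lit 188) (nat_lit 0) (nat_lit 0) (XT.nd (nat_lit 94) (nat_lit 1260) (nat_lit 0) (XT.lf (nat_lit 0) (nat_lit 21117408321) (nat_lit 1176) (nat_lit 66257081) (nat_lit 1260) (nat_lit 137896642) (nat_lit 179) (nat_lit 5) (nat_lit 193) (nat_lit 5) (nat_lit 194)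 (nat_lit 5) (nat_lit 374) (nat_lit 367) (nat_lit 204)) (XT.lf (nat_lit 0) (nat_lit 568631538) (nat_lit 1260) (nat_lit 12043853480) (nat_lit 1344) (nat_lit 9038510041) (nat_lit 164) (nat_lit 5) (nat_lit 179) (nat_lit 5) (nat_lit 180) (nat_lit 5) (nat_lit 375) (nat_lit 367) (nat_lit 203))) (XT.nd (nat_lit 94) (nat_lit 0) (nat_lit 84) (XT.lf (nat_lit 0) (nat_lit 1355834067) (nat_lit 1260) (nat_lit 2423840382) (nat_lit 1344) (nat_lit 18210725552) (nat_lit 164) (nat_lit 5) (nat_lit 179) (nat_lit 5) (nat_lit 180) (nat_lit 5) (nat_lit 376) (nat_lit 367) (nat_lit 202)) (XT.lf (nat_lit 0) (nat_lit 2286678372) (nat_lit 1260) (nat_lit 14759666438) (nat_lit 1344) (nat_lit 5290050915) (nat_lit 165) (nat_lit 5) (nat_lit 180) (nat_lit 5) (nat_lit 181) (nat_lit 5) (nat_lit 377) (nat_lit 367) (nat_lit 201)))))) (XT.nd (nat_lit 658) (nat_lit 2184) (nat_lit 0) (XT.nd (nat_lit 282) (nat_lit 0) (nat_lit 84)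 (XT.nd (nat_lit 94) (nat_lit 0) (nat_lit 84) (XT.lf (nat_lit 0) (nat_lit 3302538421) (nat_lit 1260) (nat_lit 4806357707) (nat_lit 1344) (nat_lit 14582171612) (nat_lit 165) (nat_lit 5) (nat_lit 180) (nat_lit 5) (nat_lit 181) (nat_lit 5) (nat_lit 378) (nat_lit 367) (nat_lit 200)) (XT.nd (nat_lit 94) (nat_lit 0) (nat_lit 0) (XT.lf (nat_lit 0) (nat_lit 4408406983) (nat_lit 1260) (nat_lit 17515713384) (nat_lit 1344) (nat_lit 1130482430) (nat_lit 166) (nat_lit 5) (nat_lit 181) (nat_lit 5) (nat_lit 182) (nat_lit 5) (nat_lit 379) (nat_lit 367) (nat_lit 199)) (XT.lf (nat_lit 0) (nat_lit 5671970949) (nat_lit 1260) (nat_lit 7219016494) (nat_lit 1344) (nat_lit 10534329490) (nat_lit 166) (nat_lit 5) (nat_lit 181) (nat_lit 5) (nat_lit 182) (nat_lit 5) (nat_lit 380) (nat_lit 367) (nat_lit 198)))) (XT.nd (nat_lit 188) (nat_lit 0) (nat_lit 84) (XT.nd (nat_lit 94) (nat_lit 0) (nat_lit 84) (XT.lf (nat_lit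 84) (nat_lit 3450335445) (nat_lit 0) (nat_lit 3551630322) (nat_lit 1344) (nat_lit 16804339364) (nat_lit 167) (nat_lit 5) (nat_lit 166) (nat_lit 5) (nat_lit 182) (nat_lit 5) (nat_lit 381) (nat_lit 367) (nat_lit 197)) (XT.lf (nat_lit 0) (nat_lit 8499276582) (nat_lit 1260) (nat_lit 9671528814) (nat_lit 1344) (nat_lit 6024103206) (nat_lit 167) (nat_lit 5) (nat_lit 182) (nat_lit 5) (nat_lit 183) (nat_lit 5) (nat_lit 382) (nat_lit 367) (nat_lit 196))) (XT.nd (nat_lit 94) (nat_lit 0) (nat_lit 84) (XT.lf (nat_lit 84) (nat_lit 1320461885) (nat_lit 0) (nat_lit 8764502618) (nat_lit 1344) (nat_lit 14508909819) (nat_lit 168) (nat_lit 5) (nat_lit 167) (nat_lit 5) (nat_lit 183) (nat_lit 5) (nat_lit 383) (nat_lit 367) (nat_lit 195)) (XT.lf (nat_lit 0) (nat_lit 11821436778) (nat_lit 1260) (nat_lit 12174953500) (nat_lit 84) (nat_lit 1005329969) (nat_lit 168) (nat_lit 5) (nat_lit 183) (nat_lit 5) (nat_lit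 169) (nat_lit 5) (nat_lit 384) (nat_lit 367) (nat_lit 194))))) (XT.nd (nat_lit 282) (nat_lit 1176) (nat_lit 0) (XT.nd (nat_lit 94) (nat_lit 1260) (nat_lit 0) (XT.lf (nat_lit 0) (nat_lit 13692607002) (nat_lit 1260) (nat_lit 833905079) (nat_lit 84) (nat_lit 10892818780) (nat_lit 168) (nat_lit 5) (nat_lit 183) (nat_lit 5) (nat_lit 169) (nat_lit 5) (nat_lit 385) (nat_lit 367) (nat_lit 193)) (XT.nd (nat_lit 94) (nat_lit 0) (nat_lit 0) (XT.lf (nat_lit 0) (nat_lit 11059706958) (nat_lit 1260) (nat_lit 4662466129) (nat_lit 1344) (nat_lit 10124236093) (nat_lit 153) (nat_lit 5) (nat_lit 168) (nat_lit 5) (nat_lit 169) (nat_lit 5) (nat_lit 386) (nat_lit 367) (nat_lit 192)) (XT.lf (nat_lit 0) (nat_lit 17870013619) (nat_lit 1344) (nat_lit 3015333754) (nat_lit 84) (nat_lit 5399237847) (nat_lit 153) (nat_lit 5) (nat_lit 169) (nat_lit 5) (nat_lit 154) (nat_lit 5) (nat_lit 387) (nat_lit 367) (nat_lit 191))))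 (XT.nd (nat_lit 188) (nat_lit 588) (nat_lit 0) (XT.nd (nat_lit 94) (nat_lit 0) (nat_lit 0) (XT.lf (nat_lit 0) (nat_lit 9239840145) (nat_lit 588) (nat_lit 10973584587) (nat_lit 672) (nat_lit 6518554544) (nat_lit 146) (nat_lit 5) (nat_lit 153) (nat_lit 5) (nat_lit 154) (nat_lit 5) (nat_lit 388) (nat_lit 367) (nat_lit 190)) (XT.lf (nat_lit 0) (nat_lit 21921039568) (nat_lit 588) (nat_lit 732779871) (nat_lit 672) (nat_lit 4538181875) (nat_lit 146) (nat_lit 5) (nat_lit 153) (nat_lit 5) (nat_lit 154) (nat_lit 5) (nat_lit 389) (nat_lit 367) (nat_lit 189))) (XT.nd (nat_lit 94) (nat_lit 0) (nat_lit 0) (XT.lf (nat_lit 0) (nat_lit 7362713802) (nat_lit 588) (nat_lit 17966182357) (nat_lit 672) (nat_lit 2332090150) (nat_lit 139) (nat_lit 5) (nat_lit 146) (nat_lit 5) (nat_lit 147) (nat_lit 5) (nat_lit 390) (nat_lit 367) (nat_lit 188)) (XT.lf (nat_lit 0) (nat_lit 20472623401) (nat_lit 588) (nat_lit 7668430882)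 (nat_lit 672) (nat_lit 1287917) (nat_lit 139) (nat_lit 5) (nat_lit 146) (nat_lit 5) (nat_lit 147) (nat_lit 5) (nat_lit 391) (nat_lit 367) (nat_lit 187))))))))
noncomputable def xc189 : XT := (XT.nd (nat_lit 2632) (nat_lit 3024) (nat_lit 0) (XT.nd (nat_lit 1316) (nat_lit 2352) (nat_lit 0) (XT.nd (nat_lit 658) (nat_lit 1932) (nat_lit 0) (XT.nd (nat_lit 282) (nat_lit 504) (nat_lit 0) (XT.nd (nat_lit 94) (nat_lit 588) (nat_lit 0) (XT.lf (nat_lit 0) (nat_lit 2430159411) (nat_lit 672) (nat_lit 23248057160) (nat_lit 84) (nat_lit 2956909828) (nat_lit 131) (nat_lit 5) (nat_lit 139) (nat_lit 5) (nat_lit 132) (nat_lit 5) (nat_lit 392) (nat_lit 367) (nat_lit 186)) (XT.nd (nat_lit 94) (nat_lit 588) (nat_lit 0) (XT.lf (nat_lit 0) (nat_lit 5085218671) (nat_lit 672) (nat_lit 10227771358) (nat_lit 84) (nat_lit 13825188572) (nat_lit 131) (nat_lit 5) (nat_lit 139) (nat_lit 5) (nat_lit 132) (nat_lit 5) (nat_lit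 393) (nat_lit 367) (nat_lit 185)) (XT.lf (nat_lit 0) (nat_lit 3243028801) (nat_lit 588) (nat_lit 4604728666) (nat_lit 672) (nat_lit 21807735595) (nat_lit 124) (nat_lit 5) (nat_lit 131) (nat_lit 5) (nat_lit 132) (nat_lit 5) (nat_lit 394) (nat_lit 367) (nat_lit 184)))) (XT.nd (nat_lit 188) (nat_lit 0) (nat_lit 0) (XT.nd (nat_lit 94) (nat_lit 504) (nat_lit 0) (XT.lf (nat_lit 0) (nat_lit 10855952850) (nat_lit 672) (nat_lit 12923845247) (nat_lit 84) (nat_lit 6403650808) (nat_lit 124) (nat_lit 5) (nat_lit 132) (nat_lit 5) (nat_lit 125) (nat_lit 5) (nat_lit 395) (nat_lit 367) (nat_lit 183)) (XT.lf (nat_lit 0) (nat_lit 938813550) (nat_lit 504) (nat_lit 13067010432) (nat_lit 588) (nat_lit 16719881753) (nat_lit 118) (nat_lit 5) (nat_lit 124) (nat_lit 5) (nat_lit 125) (nat_lit 5) (nat_lit 396) (nat_lit 367) (nat_lit 182))) (XT.nd (nat_lit 94) (nat_lit 0) (nat_lit 0) (XT.lf (nat_lit 0) (nat_lit 15478964037)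 (nat_lit 504) (nat_lit 1898607709) (nat_lit 588) (nat_lit 13902842164) (nat_lit 118) (nat_lit 5) (nat_lit 124) (nat_lit 5) (nat_lit 125) (nat_lit 5) (nat_lit 397) (nat_lit 367) (nat_lit 181)) (XT.lf (nat_lit 0) (nat_lit 20939763864) (nat_lit 588) (nat_lit 1492083821) (nat_lit 84) (nat_lit 9417241796) (nat_lit 118) (nat_lit 5) (nat_lit 125) (nat_lit 5) (nat_lit 119) (nat_lit 5) (nat_lit 398) (nat_lit 367) (nat_lit 180))))) (XT.nd (nat_lit 282) (nat_lit 1008) (nat_lit 0) (XT.nd (nat_lit 94) (nat_lit 420) (nat_lit 0) (XT.lf (nat_lit 0) (nat_lit 13487744185) (nat_lit 504) (nat_lit 11266580778) (nat_lit 588) (nat_lit 7676140025) (nat_lit 112) (nat_lit 5) (nat_lit 118) (nat_lit 5) (nat_lit 119) (nat_lit 5) (nat_lit 399) (nat_lit 367) (nat_lit 179)) (XT.nd (nat_lit 94) (nat_lit 420) (nat_lit 0) (XT.lf (nat_lit 0) (nat_lit 28697890236) (nat_lit 588) (nat_lit 4086944030) (nat_lit 84) (nat_lit 244015100)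 (nat_lit 112) (nat_lit 5) (nat_lit 119) (nat_lit 5) (nat_lit 113) (nat_lit 5) (nat_lit 400) (nat_lit 367) (nat_lit 178)) (XT.lf (nat_lit 0) (nat_lit 11320685951) (nat_lit 420) (nat_lit 21656637603) (nat_lit 504) (nat_lit 661339381) (nat_lit 107) (nat_lit 5) (nat_lit 112) (nat_lit 5) (nat_lit 113) (nat_lit 5) (nat_lit 401) (nat_lit 367) (nat_lit 177)))) (XT.nd (nat_lit 188) (nat_lit 420) (nat_lit 0) (XT.nd (nat_lit 94) (nat_lit 504) (nat_lit 0) (XT.lf (nat_lit 0) (nat_lit 3096406541) (nat_lit 504) (nat_lit 7024799684) (nat_lit 84) (nat_lit 24143503005) (nat_lit 106) (nat_lit 5) (nat_lit 112) (nat_lit 5) (nat_lit 107) (nat_lit 5) (nat_lit 402) (nat_lit 367) (nat_lit 176)) (XT.lf (nat_lit 0) (nat_lit 7054177234) (nat_lit 588) (nat_lit 26033681791) (nat_lit 84) (nat_lit 1818468021) (nat_lit 100) (nat_lit 5) (nat_lit 107) (nat_lit 5) (nat_lit 101) (nat_lit 5) (nat_lit 403) (nat_lit 367) (nat_lit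 175))) (XT.nd (nat_lit 94) (nat_lit 420) (nat_lit 0) (XT.lf (nat_lit 0) (nat_lit 11299866018) (nat_lit 588) (nat_lit 10278124171) (nat_lit 84) (nat_lit 13984131649) (nat_lit 100) (nat_lit 5) (nat_lit 107) (nat_lit 5) (nat_lit 101) (nat_lit 5) (nat_lit 404) (nat_lit 367) (nat_lit 174)) (XT.lf (nat_lit 0) (nat_lit 6065388215) (nat_lit 420) (nat_lit 9663255028) (nat_lit 504) (nat_lit 20507279572) (nat_lit 95) (nat_lit 5) (nat_lit 100) (nat_lit 5) (nat_lit 101) (nat_lit 5) (nat_lit 405) (nat_lit 367) (nat_lit 173)))))) (XT.nd (nat_lit 658) (nat_lit 1092) (nat_lit 0) (XT.nd (nat_lit 282) (nat_lit 840) (nat_lit 0) (XT.nd (nat_lit 94) (nat_lit 420) (nat_lit 0) (XT.lf (nat_lit 0) (nat_lit 20417633730) (nat_lit 504) (nat_lit 13846147496) (nat_lit 84) (nat_lit 2662339860) (nat_lit 95) (nat_lit 5) (nat_lit 101) (nat_lit 5) (nat_lit 96) (nat_lit 5) (nat_lit 406) (nat_lit 367) (nat_lit 172)) (XT.nd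 (nat_lit 94) (nat_lit 0) (nat_lit 0) (XT.lf (nat_lit 0) (nat_lit 2926375663) (nat_lit 420) (nat_lit 22442253177) (nat_lit 504) (nat_lit 12264760070) (nat_lit 90) (nat_lit 5) (nat_lit 95) (nat_lit 5) (nat_lit 96) (nat_lit 5) (nat_lit 407) (nat_lit 367) (nat_lit 171)) (XT.lf (nat_lit 0) (nat_lit 20482912716) (nat_lit 420) (nat_lit 10122632219) (nat_lit 504) (nat_lit 7752211644) (nat_lit 90) (nat_lit 5) (nat_lit 95) (nat_lit 5) (nat_lit 96) (nat_lit 5) (nat_lit 408) (nat_lit 367) (nat_lit 170)))) (XT.nd (nat_lit 188) (nat_lit 420) (nat_lit 0) (XT.nd (nat_lit 94) (nat_lit 420) (nat_lit 0) (XT.lf (nat_lit 0) (nat_lit 36021877644) (nat_lit 504) (nat_lit 565356819) (nat_lit 84) (nat_lit 2515954984) (nat_lit 90) (nat_lit 5) (nat_lit 96) (nat_lit 5) (nat_lit 91) (nat_lit 5) (nat_lit 409) (nat_lit 367) (nat_lit 169)) (XT.lf (nat_lit 0) (nat_lit 1964762874) (nat_lit 420) (nat_lit 22380440792) (nat_lit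 84) (nat_lit 15517222044) (nat_lit 85) (nat_lit 5) (nat_lit 90) (nat_lit 5) (nat_lit 86) (nat_lit 5) (nat_lit 410) (nat_lit 367) (nat_lit 168))) (XT.nd (nat_lit 94) (nat_lit 420) (nat_lit 0) (XT.lf (nat_lit 0) (nat_lit 7103774225) (nat_lit 420) (nat_lit 4595405611) (nat_lit 84) (nat_lit 28944242562) (nat_lit 85) (nat_lit 5) (nat_lit 90) (nat_lit 5) (nat_lit 86) (nat_lit 5) (nat_lit 411) (nat_lit 367) (nat_lit 167)) (XT.lf (nat_lit 0) (nat_lit 12543330259) (nat_lit 504) (nat_lit 27464539547) (nat_lit 84) (nat_lit 1435591009) (nat_lit 80) (nat_lit 5) (nat_lit 86) (nat_lit 5) (nat_lit 81) (nat_lit 5) (nat_lit 412) (nat_lit 367) (nat_lit 166))))) (XT.nd (nat_lit 282) (nat_lit 756) (nat_lit 0) (XT.nd (nat_lit 94) (nat_lit 336) (nat_lit 0) (XT.lf (nat_lit 0) (nat_lit 18306588712) (nat_lit 504) (nat_lit 9180581162) (nat_lit 84) (nat_lit 14775518006) (nat_lit 80) (nat_lit 5) (nat_lit 86) (nat_lit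 5) (nat_lit 81) (nat_lit 5) (nat_lit 413) (nat_lit 367) (nat_lit 165)) (XT.nd (nat_lit 94) (nat_lit 0) (nat_lit 0) (XT.lf (nat_lit 0) (nat_lit 9841156394) (nat_lit 336) (nat_lit 14494069525) (nat_lit 420) (nat_lit 18768494294) (nat_lit 76) (nat_lit 5) (nat_lit 80) (nat_lit 5) (nat_lit 81) (nat_lit 5) (nat_lit 414) (nat_lit 367) (nat_lit 164)) (XT.lf (nat_lit 0) (nat_lit 29618990220) (nat_lit 336) (nat_lit 1016354947) (nat_lit 420) (nat_lit 13331922458) (nat_lit 76) (nat_lit 5) (nat_lit 80) (nat_lit 5) (nat_lit 81) (nat_lit 5) (nat_lit 415) (nat_lit 367) (nat_lit 163)))) (XT.nd (nat_lit 188) (nat_lit 420) (nat_lit 0) (XT.nd (nat_lit 94) (nat_lit 0) (nat_lit 0) (XT.lf (nat_lit 0) (nat_lit 5106688715) (nat_lit 336) (nat_lit 32188512297) (nat_lit 420) (nat_lit 7556401175) (nat_lit 72) (nat_lit 5) (nat_lit 76) (nat_lit 5) (nat_lit 77) (nat_lit 5) (nat_lit 416) (nat_lit 367) (nat_lit 162)) (XT.lf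 (nat_lit 0) (nat_lit 25426467091) (nat_lit 336) (nat_lit 18881243821) (nat_lit 420) (nat_lit 1450172760) (nat_lit 72) (nat_lit 5) (nat_lit 76) (nat_lit 5) (nat_lit 77) (nat_lit 5) (nat_lit 417) (nat_lit 367) (nat_lit 161))) (XT.nd (nat_lit 94) (nat_lit 336) (nat_lit 0) (XT.lf (nat_lit 0) (nat_lit 4742852526) (nat_lit 420) (nat_lit 384694559) (nat_lit 84) (nat_lit 41562472240) (nat_lit 71) (nat_lit 5) (nat_lit 76) (nat_lit 5) (nat_lit 72) (nat_lit 5) (nat_lit 418) (nat_lit 367) (nat_lit 160)) (XT.lf (nat_lit 0) (nat_lit 11377081818) (nat_lit 420) (nat_lit 27188418837) (nat_lit 84) (nat_lit 9075653254) (nat_lit 67) (nat_lit 5) (nat_lit 72) (nat_lit 5) (nat_lit 68) (nat_lit 5) (nat_lit 419) (nat_lit 367) (nat_lit 159))))))) (XT.nd (nat_lit 1316) (nat_lit 1176) (nat_lit 0) (XT.nd (nat_lit 658) (nat_lit 840) (nat_lit 0) (XT.nd (nat_lit 282) (nat_lit 672) (nat_lit 0) (XT.nd (nat_lit 94) (nat_lit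 336) (nat_lit 0) (XT.lf (nat_lit 0) (nat_lit 18263151213) (nat_lit 420) (nat_lit 6750949794) (nat_lit 84) (nat_lit 23605139470) (nat_lit 67) (nat_lit 5) (nat_lit 72) (nat_lit 5) (nat_lit 68) (nat_lit 5) (nat_lit 420) (nat_lit 367) (nat_lit 158)) (XT.nd (nat_lit 94) (nat_lit 0) (nat_lit 0) (XT.lf (nat_lit 0) (nat_lit 14581648853) (nat_lit 336) (nat_lit 10912498564) (nat_lit 420) (nat_lit 24128374160) (nat_lit 63) (nat_lit 5) (nat_lit 67) (nat_lit 5) (nat_lit 68) (nat_lit 5) (nat_lit 421) (nat_lit 367) (nat_lit 157)) (XT.lf (nat_lit 0) (nat_lit 33043841126) (nat_lit 420) (nat_lit 13999199086) (nat_lit 84) (nat_lit 3609810079) (nat_lit 63) (nat_lit 5) (nat_lit 68) (nat_lit 5) (nat_lit 64) (nat_lit 5) (nat_lit 422) (nat_lit 367) (nat_lit 156)))) (XT.nd (nat_lit 188) (nat_lit 420) (nat_lit 0) (XT.nd (nat_lit 94) (nat_lit 0) (nat_lit 0) (XT.lf (nat_lit 0) (nat_lit 7713717932) (nat_lit 252) (nat_lit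 33286752767) (nat_lit 336) (nat_lit 10708206962) (nat_lit 60) (nat_lit 5) (nat_lit 63) (nat_lit 5) (nat_lit 64) (nat_lit 5) (nat_lit 423) (nat_lit 367) (nat_lit 155)) (XT.lf (nat_lit 0) (nat_lit 30362531969) (nat_lit 252) (nat_lit 18972910465) (nat_lit 336) (nat_lit 3456550202) (nat_lit 60) (nat_lit 5) (nat_lit 63) (nat_lit 5) (nat_lit 64) (nat_lit 5) (nat_lit 424) (nat_lit 367) (nat_lit 154))) (XT.nd (nat_lit 94) (nat_lit 336) (nat_lit 0) (XT.lf (nat_lit 0) (nat_lit 3932665301) (nat_lit 336) (nat_lit 257993018) (nat_lit 84) (nat_lit 49716044228) (nat_lit 59) (nat_lit 5) (nat_lit 63) (nat_lit 5) (nat_lit 60) (nat_lit 5) (nat_lit 425) (nat_lit 367) (nat_lit 153)) (XT.lf (nat_lit 0) (nat_lit 11802039941) (nat_lit 420) (nat_lit 32165171481) (nat_lit 84) (nat_lit 11076778864) (nat_lit 55) (nat_lit 5) (nat_lit 60) (nat_lit 5) (nat_lit 56) (nat_lit 5) (nat_lit 426) (nat_lit 367) (nat_lit 152)))))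 (XT.nd (nat_lit 282) (nat_lit 588) (nat_lit 0) (XT.nd (nat_lit 94) (nat_lit 252) (nat_lit 0) (XT.lf (nat_lit 0) (nat_lit 19949996630) (nat_lit 420) (nat_lit 9544186388) (nat_lit 84) (nat_lit 26719940467) (nat_lit 55) (nat_lit 5) (nat_lit 60) (nat_lit 5) (nat_lit 56) (nat_lit 5) (nat_lit 427) (nat_lit 367) (nat_lit 151)) (XT.nd (nat_lit 94) (nat_lit 0) (nat_lit 0) (XT.lf (nat_lit 0) (nat_lit 14026837511) (nat_lit 252) (nat_lit 14448814414) (nat_lit 336) (nat_lit 28939712753) (nat_lit 52) (nat_lit 5) (nat_lit 55) (nat_lit 5) (nat_lit 56) (nat_lit 5) (nat_lit 428) (nat_lit 367) (nat_lit 150)) (XT.lf (nat_lit 0) (nat_lit 37362924140) (nat_lit 336) (nat_lit 20162464130) (nat_lit 84) (nat_lit 1124081164) (nat_lit 52) (nat_lit 5) (nat_lit 56) (nat_lit 5) (nat_lit 53) (nat_lit 5) (nat_lit 429) (nat_lit 367) (nat_lit 149)))) (XT.nd (nat_lit 188) (nat_lit 336) (nat_lit 0) (XT.nd (nat_lit 94) (nat_lit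 0) (nat_lit 0) (XT.lf (nat_lit 0) (nat_lit 3687014329) (nat_lit 252) (nat_lit 43006787224) (nat_lit 336) (nat_lit 13221487861) (nat_lit 49) (nat_lit 5) (nat_lit 52) (nat_lit 5) (nat_lit 53) (nat_lit 5) (nat_lit 430) (nat_lit 367) (nat_lit 148)) (XT.lf (nat_lit 0) (nat_lit 28663054176) (nat_lit 252) (nat_lit 27843662672) (nat_lit 336) (nat_lit 4706305445) (nat_lit 49) (nat_lit 5) (nat_lit 52) (nat_lit 5) (nat_lit 53) (nat_lit 5) (nat_lit 431) (nat_lit 367) (nat_lit 147))) (XT.nd (nat_lit 94) (nat_lit 252) (nat_lit 0) (XT.lf (nat_lit 0) (nat_lit 3983560389) (nat_lit 336) (nat_lit 8202580095) (nat_lit 84) (nat_lit 50362420024) (nat_lit 48) (nat_lit 5) (nat_lit 52) (nat_lit 5) (nat_lit 49) (nat_lit 5) (nat_lit 432) (nat_lit 367) (nat_lit 146)) (XT.lf (nat_lit 0) (nat_lit 13043048218) (nat_lit 336) (nat_lit 46796456702) (nat_lit 84) (nat_lit 4077158001) (nat_lit 45) (nat_lit 5) (nat_lit 49)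 (nat_lit 5) (nat_lit 46) (nat_lit 5) (nat_lit 433) (nat_lit 367) (nat_lit 145)))))) (XT.nd (nat_lit 658) (nat_lit 672) (nat_lit 0) (XT.nd (nat_lit 282) (nat_lit 252) (nat_lit 0) (XT.nd (nat_lit 94) (nat_lit 252) (nat_lit 0) (XT.lf (nat_lit 0) (nat_lit 22577220062) (nat_lit 336) (nat_lit 22076128345) (nat_lit 84) (nat_lit 20666374480) (nat_lit 45) (nat_lit 5) (nat_lit 49) (nat_lit 5) (nat_lit 46) (nat_lit 5) (nat_lit 434) (nat_lit 367) (nat_lit 144)) (XT.nd (nat_lit 94) (nat_lit 0) (nat_lit 0) (XT.lf (nat_lit 0) (nat_lit 3451064347) (nat_lit 252) (nat_lit 28978161842) (nat_lit 336) (nat_lit 34334695605) (nat_lit 42) (nat_lit 5) (nat_lit 45) (nat_lit 5) (nat_lit 46) (nat_lit 5) (nat_lit 435) (nat_lit 367) (nat_lit 143)) (XT.lf (nat_lit 0) (nat_lit 30194544071) (nat_lit 252) (nat_lit 12603829297) (nat_lit 336) (nat_lit 25446427253) (nat_lit 42) (nat_lit 5) (nat_lit 45) (nat_lit 5) (nat_lit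 46) (nat_lit 5) (nat_lit 436) (nat_lit 367) (nat_lit 142)))) (XT.nd (nat_lit 188) (nat_lit 84) (nat_lit 0) (XT.nd (nat_lit 94) (nat_lit 168) (nat_lit 0) (XT.lf (nat_lit 0) (nat_lit 53518249025) (nat_lit 336) (nat_lit 12072785282) (nat_lit 84) (nat_lit 4177883218) (nat_lit 42) (nat_lit 5) (nat_lit 46) (nat_lit 5) (nat_lit 43) (nat_lit 5) (nat_lit 437) (nat_lit 367) (nat_lit 141)) (XT.lf (nat_lit 0) (nat_lit 14846955497) (nat_lit 168) (nat_lit 49978999764) (nat_lit 252) (nat_lit 6504816948) (nat_lit 40) (nat_lit 5) (nat_lit 42) (nat_lit 5) (nat_lit 43) (nat_lit 5) (nat_lit 438) (nat_lit 367) (nat_lit 140))) (XT.nd (nat_lit 94) (nat_lit 0) (nat_lit 0) (XT.lf (nat_lit 0) (nat_lit 3586309572) (nat_lit 252) (nat_lit 30151217644) (nat_lit 84) (nat_lit 39197282109) (nat_lit 39) (nat_lit 5) (nat_lit 42) (nat_lit 5) (nat_lit 40) (nat_lit 5) (nat_lit 439) (nat_lit 367) (nat_lit 139)) (XT.lf (nat_lit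 0) (nat_lit 13848196961) (nat_lit 252) (nat_lit 3094975678) (nat_lit 84) (nat_lit 57641900957) (nat_lit 39) (nat_lit 5) (nat_lit 42) (nat_lit 5) (nat_lit 40) (nat_lit 5) (nat_lit 440) (nat_lit 367) (nat_lit 138))))) (XT.nd (nat_lit 282) (nat_lit 252) (nat_lit 0) (XT.nd (nat_lit 94) (nat_lit 168) (nat_lit 0) (XT.lf (nat_lit 0) (nat_lit 24665408610) (nat_lit 336) (nat_lit 51019335930) (nat_lit 84) (nat_lit 592678379) (nat_lit 36) (nat_lit 5) (nat_lit 40) (nat_lit 5) (nat_lit 37) (nat_lit 5) (nat_lit 441) (nat_lit 367) (nat_lit 137)) (XT.nd (nat_lit 94) (nat_lit 168) (nat_lit 0) (XT.lf (nat_lit 0) (nat_lit 36005267274) (nat_lit 336) (nat_lit 23664369573) (nat_lit 84) (nat_lit 18344963075) (nat_lit 36) (nat_lit 5) (nat_lit 40) (nat_lit 5) (nat_lit 37) (nat_lit 5) (nat_lit 442) (nat_lit 367) (nat_lit 136)) (XT.lf (nat_lit 0) (nat_lit 4599160573) (nat_lit 168) (nat_lit 43129219473) (nat_lit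 252) (nat_lit 32074221525) (nat_lit 34) (nat_lit 5) (nat_lit 36) (nat_lit 5) (nat_lit 37) (nat_lit 5) (nat_lit 443) (nat_lit 367) (nat_lit 135)))) (XT.nd (nat_lit 188) (nat_lit 252) (nat_lit 0) (XT.nd (nat_lit 94) (nat_lit 0) (nat_lit 0) (XT.lf (nat_lit 0) (nat_lit 34193879567) (nat_lit 168) (nat_lit 25847134882) (nat_lit 252) (nat_lit 21596095028) (nat_lit 34) (nat_lit 5) (nat_lit 36) (nat_lit 5) (nat_lit 37) (nat_lit 5) (nat_lit 444) (nat_lit 367) (nat_lit 134)) (XT.lf (nat_lit 0) (nat_lit 64674679516) (nat_lit 168) (nat_lit 8047245955) (nat_lit 252) (nat_lit 10804761247) (nat_lit 34) (nat_lit 5) (nat_lit 36) (nat_lit 5) (nat_lit 37) (nat_lit 5) (nat_lit 445) (nat_lit 367) (nat_lit 133))) (XT.nd (nat_lit 94) (nat_lit 0) (nat_lit 0) (XT.lf (nat_lit 0) (nat_lit 506953753) (nat_lit 252) (nat_lit 74766669045) (nat_lit 84) (nat_lit 10193159061) (nat_lit 31) (nat_lit 5) (nat_lit 34) (nat_lit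 5) (nat_lit 32) (nat_lit 5) (nat_lit 446) (nat_lit 367) (nat_lit 132)) (XT.lf (nat_lit 0) (nat_lit 12211710966) (nat_lit 252) (nat_lit 46124404647) (nat_lit 84) (nat_lit 29117630170) (nat_lit 31) (nat_lit 5) (nat_lit 34) (nat_lit 5) (nat_lit 32) (nat_lit 5) (nat_lit 447) (nat_lit 367) (nat_lit 131))))))))
noncomputable def xc190 : XT := (XT.nd (nat_lit 53204) (nat_lit 0) (nat_lit 5712) (XT.nd (nat_lit 51888) (nat_lit 0) (nat_lit 11928) (XT.nd (nat_lit 564) (nat_lit 420) (nat_lit 0) (XT.nd (nat_lit 282) (nat_lit 168) (nat_lit 0) (XT.nd (nat_lit 94) (nat_lit 168) (nat_lit 0) (XT.lf (nat_lit 0) (nat_lit 24266569073) (nat_lit 252) (nat_lit 16624563159) (nat_lit 84) (nat_lit 48609218559) (nat_lit 31) (nat_lit 5) (nat_lit 34) (nat_lit 5) (nat_lit 32) (nat_lit 5) (nat_lit 448) (nat_lit 367) (nat_lit 130)) (XT.nd (nat_lit 94) (nat_lit 0) (nat_lit 0) (XT.lf (nat_lit 0) (nat_lit 14032455732) (nat_lit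 168) (nat_lit 22784494259) (nat_lit 252) (nat_lit 54787388529) (nat_lit 29) (nat_lit 5) (nat_lit 31) (nat_lit 5) (nat_lit 32) (nat_lit 5) (nat_lit 449) (nat_lit 367) (nat_lit 129)) (XT.lf (nat_lit 0) (nat_lit 45948346937) (nat_lit 168) (nat_lit 3962373247) (nat_lit 252) (nat_lit 43855720220) (nat_lit 29) (nat_lit 5) (nat_lit 31) (nat_lit 5) (nat_lit 32) (nat_lit 5) (nat_lit 450) (nat_lit 367) (nat_lit 128)))) (XT.nd (nat_lit 94) (nat_lit 168) (nat_lit 0) (XT.lf (nat_lit 0) (nat_lit 63544597916) (nat_lit 252) (nat_lit 17321561532) (nat_lit 84) (nat_lit 15122827897) (nat_lit 29) (nat_lit 5) (nat_lit 32) (nat_lit 5) (nat_lit 30) (nat_lit 5) (nat_lit 451) (nat_lit 367) (nat_lit 127)) (XT.nd (nat_lit 94) (nat_lit 0) (nat_lit 0) (XT.lf (nat_lit 0) (nat_lit 14328683649) (nat_lit 168) (nat_lit 63434829756) (nat_lit 252) (nat_lit 20509417454) (nat_lit 27) (nat_lit 5) (nat_lit 29) (nat_lit 5) (nat_lit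 30) (nat_lit 5) (nat_lit 452) (nat_lit 367) (nat_lit 126)) (XT.lf (nat_lit 0) (nat_lit 47281970944) (nat_lit 168) (nat_lit 45301005908) (nat_lit 252) (nat_lit 8037197198) (nat_lit 27) (nat_lit 5) (nat_lit 29) (nat_lit 5) (nat_lit 30) (nat_lit 5) (nat_lit 453) (nat_lit 367) (nat_lit 125))))) (XT.nd (nat_lit 282) (nat_lit 168) (nat_lit 0) (XT.nd (nat_lit 94) (nat_lit 168) (nat_lit 0) (XT.lf (nat_lit 0) (nat_lit 4714429203) (nat_lit 252) (nat_lit 21861720927) (nat_lit 84) (nat_lit 76460325755) (nat_lit 26) (nat_lit 5) (nat_lit 29) (nat_lit 5) (nat_lit 27) (nat_lit 5) (nat_lit 454) (nat_lit 367) (nat_lit 124)) (XT.nd (nat_lit 94) (nat_lit 0) (nat_lit 0) (XT.lf (nat_lit 0) (nat_lit 10686542167) (nat_lit 168) (nat_lit 7102358929) (nat_lit 252) (nat_lit 87730924020) (nat_lit 24) (nat_lit 5) (nat_lit 26) (nat_lit 5) (nat_lit 27) (nat_lit 5) (nat_lit 455) (nat_lit 367) (nat_lit 123)) (XT.lf (nat_lit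 0) (nat_lit 31602208172) (nat_lit 252) (nat_lit 63539855660) (nat_lit 84) (nat_lit 12925213660) (nat_lit 24) (nat_lit 5) (nat_lit 27) (nat_lit 5) (nat_lit 25) (nat_lit 5) (nat_lit 456) (nat_lit 367) (nat_lit 122)))) (XT.nd (nat_lit 188) (nat_lit 0) (nat_lit 0) (XT.nd (nat_lit 94) (nat_lit 168) (nat_lit 0) (XT.lf (nat_lit 0) (nat_lit 45899377726) (nat_lit 252) (nat_lit 31379380215) (nat_lit 84) (nat_lit 33410312275) (nat_lit 24) (nat_lit 5) (nat_lit 27) (nat_lit 5) (nat_lit 25) (nat_lit 5) (nat_lit 457) (nat_lit 367) (nat_lit 121)) (XT.lf (nat_lit 0) (nat_lit 1779236295) (nat_lit 168) (nat_lit 58862497024) (nat_lit 252) (nat_lit 52747295934) (nat_lit 22) (nat_lit 5) (nat_lit 24) (nat_lit 5) (nat_lit 25) (nat_lit 5) (nat_lit 458) (nat_lit 367) (nat_lit 120))) (XT.nd (nat_lit 50760) (nat_lit 0) (nat_lit 12936) (XT.lf (nat_lit 0) (nat_lit 36574478981) (nat_lit 168) (nat_lit 39567929641) (nat_lit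 252) (nat_lit 40018097607) (nat_lit 22) (nat_lit 5) (nat_lit 24) (nat_lit 5) (nat_lit 25) (nat_lit 5) (nat_lit 459) (nat_lit 367) (nat_lit 119)) (XT.lf (nat_lit 0) (nat_lit 8543749295) (nat_lit 1260) (nat_lit 670941538) (nat_lit 1260) (nat_lit 670941538) (nat_lit 176) (nat_lit 3) (nat_lit 191) (nat_lit 3) (nat_lit 191) (nat_lit 5) (nat_lit 368) (nat_lit 368) (nat_lit 209)))))) (XT.nd (nat_lit 658) (nat_lit 0) (nat_lit 0) (XT.nd (nat_lit 282) (nat_lit 1008) (nat_lit 0) (XT.nd (nat_lit 94) (nat_lit 0) (nat_lit 0) (XT.lf (nat_lit 84) (nat_lit 7350387828) (nat_lit 0) (nat_lit 10219181840) (nat_lit 1260) (nat_lit 2491194915) (nat_lit 177) (nat_lit 5) (nat_lit 176) (nat_lit 3) (nat_lit 191) (nat_lit 5) (nat_lit 369) (nat_lit 368) (nat_lit 208)) (XT.nd (nat_lit 94) (nat_lit 0) (nat_lit 84) (XT.lf (nat_lit 84) (nat_lit 16327748808) (nat_lit 0) (nat_lit 1745820636) (nat_lit 1260) (nat_lit 2285167545)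 (nat_lit 177) (nat_lit 5) (nat_lit 176) (nat_lit 3) (nat_lit 191) (nat_lit 5) (nat_lit 370) (nat_lit 368) (nat_lit 207)) (XT.lf (nat_lit 84) (nat_lit 4934654112) (nat_lit 0) (nat_lit 13766703212) (nat_lit 1260) (nat_lit 1961042431) (nat_lit 178) (nat_lit 5) (nat_lit 177) (nat_lit 5) (nat_lit 192) (nat_lit 5) (nat_lit 371) (nat_lit 368) (nat_lit 206)))) (XT.nd (nat_lit 188) (nat_lit 1092) (nat_lit 0) (XT.nd (nat_lit 94) (nat_lit 0) (nat_lit 84) (XT.lf (nat_lit 84) (nat_lit 14230992004) (nat_lit 0) (nat_lit 5169067987) (nat_lit 1260) (nat_lit 1573560878) (nat_lit 178) (nat_lit 5) (nat_lit 177) (nat_lit 5) (nat_lit 192) (nat_lit 5) (nat_lit 372) (nat_lit 368) (nat_lit 205)) (XT.lf (nat_lit 84) (nat_lit 2522445589) (nat_lit 0) (nat_lit 17651412663) (nat_lit 1260) (nat_lit 1118706916) (nat_lit 179) (nat_lit 5) (nat_lit 178) (nat_lit 5) (nat_lit 193) (nat_lit 5) (nat_lit 373) (nat_lit 368) (nat_lit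 204))) (XT.nd (nat_lit 94) (nat_lit 1176) (nat_lit 0) (XT.lf (nat_lit 84) (nat_lit 12148144288) (nat_lit 0) (nat_lit 8936070463) (nat_lit 1260) (nat_lit 533472992) (nat_lit 179) (nat_lit 5) (nat_lit 178) (nat_lit 5) (nat_lit 193) (nat_lit 5) (nat_lit 374) (nat_lit 368) (nat_lit 203)) (XT.lf (nat_lit 0) (nat_lit 64107755) (nat_lit 1260) (nat_lit 21844981867) (nat_lit 1344) (nat_lit 43579798) (nat_lit 164) (nat_lit 5) (nat_lit 179) (nat_lit 5) (nat_lit 180) (nat_lit 5) (nat_lit 375) (nat_lit 368) (nat_lit 202))))) (XT.nd (nat_lit 282) (nat_lit 0) (nat_lit 84) (XT.nd (nat_lit 94) (nat_lit 0) (nat_lit 0) (XT.lf (nat_lit 0) (nat_lit 848756984) (nat_lit 1260) (nat_lit 12226700964) (nat_lit 1344) (nat_lit 9216697645) (nat_lit 164) (nat_lit 5) (nat_lit 179) (nat_lit 5) (nat_lit 180) (nat_lit 5) (nat_lit 376) (nat_lit 368) (nat_lit 201)) (XT.nd (nat_lit 94) (nat_lit 0) (nat_lit 84) (XT.lf (nat_lit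 0) (nat_lit 1651913459) (nat_lit 1260) (nat_lit 2323285574) (nat_lit 1344) (nat_lit 18666787418) (nat_lit 164) (nat_lit 5) (nat_lit 179) (nat_lit 5) (nat_lit 180) (nat_lit 5) (nat_lit 377) (nat_lit 368) (nat_lit 200)) (XT.lf (nat_lit 0) (nat_lit 2604143178) (nat_lit 1260) (nat_lit 15022196575) (nat_lit 1344) (nat_lit 5372231988) (nat_lit 165) (nat_lit 5) (nat_lit 180) (nat_lit 5) (nat_lit 181) (nat_lit 5) (nat_lit 378) (nat_lit 368) (nat_lit 199)))) (XT.nd (nat_lit 188) (nat_lit 0) (nat_lit 84) (XT.nd (nat_lit 94) (nat_lit 0) (nat_lit 84) (XT.lf (nat_lit 0) (nat_lit 3643230549) (nat_lit 1260) (nat_lit 4775538868) (nat_lit 1344) (nat_lit 14945345058) (nat_lit 165) (nat_lit 5) (nat_lit 180) (nat_lit 5) (nat_lit 181) (nat_lit 5) (nat_lit 379) (nat_lit 368) (nat_lit 198)) (XT.lf (nat_lit 0) (nat_lit 4776298496) (nat_lit 1260) (nat_lit 17859774449) (nat_lit 1344) (nat_lit 1102674663) (nat_lit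 166) (nat_lit 5) (nat_lit 181) (nat_lit 5) (nat_lit 182) (nat_lit 5) (nat_lit 380) (nat_lit 368) (nat_lit 197))) (XT.nd (nat_lit 94) (nat_lit 0) (nat_lit 0) (XT.lf (nat_lit 0) (nat_lit 6070906099) (nat_lit 1260) (nat_lit 7259460449) (nat_lit 1344) (nat_lit 10790434870) (nat_lit 166) (nat_lit 5) (nat_lit 181) (nat_lit 5) (nat_lit 182) (nat_lit 5) (nat_lit 381) (nat_lit 368) (nat_lit 196)) (XT.lf (nat_lit 84) (nat_lit 3728245319) (nat_lit 0) (nat_lit 3707568502) (nat_lit 1344) (nat_lit 17077567042) (nat_lit 167) (nat_lit 5) (nat_lit 166) (nat_lit 5) (nat_lit 182) (nat_lit 5) (nat_lit 382) (nat_lit 368) (nat_lit 195))))))) (XT.nd (nat_lit 1316) (nat_lit 2856) (nat_lit 0) (XT.nd (nat_lit 658) (nat_lit 1848) (nat_lit 0) (XT.nd (nat_lit 282) (nat_lit 1764) (nat_lit 0) (XT.nd (nat_lit 94) (nat_lit 0) (nat_lit 0) (XT.lf (nat_lit 0) (nat_lit 8971064900) (nat_lit 1260) (nat_lit 9784987307) (nat_lit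 1344) (nat_lit 6157811246) (nat_lit 167) (nat_lit 5) (nat_lit 182) (nat_lit 5) (nat_lit 183) (nat_lit 5) (nat_lit 383) (nat_lit 368) (nat_lit 194)) (XT.nd (nat_lit 94) (nat_lit 0) (nat_lit 84) (XT.lf (nat_lit 84) (nat_lit 1535030883) (nat_lit 0) (nat_lit 9064659496) (nat_lit 1344) (nat_lit 14725258061) (nat_lit 168) (nat_lit 5) (nat_lit 167) (nat_lit 5) (nat_lit 183) (nat_lit 5) (nat_lit 384) (nat_lit 368) (nat_lit 193)) (XT.lf (nat_lit 0) (nat_lit 12381729534) (nat_lit 1260) (nat_lit 12363449628) (nat_lit 84) (nat_lit 1000057375) (nat_lit 168) (nat_lit 5) (nat_lit 183) (nat_lit 5) (nat_lit 169) (nat_lit 5) (nat_lit 385) (nat_lit 368) (nat_lit 192)))) (XT.nd (nat_lit 188) (nat_lit 588) (nat_lit 0) (XT.nd (nat_lit 94) (nat_lit 1260) (nat_lit 0) (XT.lf (nat_lit 0) (nat_lit 14303045069) (nat_lit 1260) (nat_lit 687317884) (nat_lit 84) (nat_lit 11185202865) (nat_lit 168) (nat_lit 5) (nat_lit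 183) (nat_lit 5) (nat_lit 169) (nat_lit 5) (nat_lit 386) (nat_lit 368) (nat_lit 191)) (XT.lf (nat_lit 0) (nat_lit 11561420118) (nat_lit 1260) (nat_lit 4827896076) (nat_lit 1344) (nat_lit 10226276095) (nat_lit 153) (nat_lit 5) (nat_lit 168) (nat_lit 5) (nat_lit 169) (nat_lit 5) (nat_lit 387) (nat_lit 368) (nat_lit 190))) (XT.nd (nat_lit 94) (nat_lit 588) (nat_lit 0) (XT.lf (nat_lit 0) (nat_lit 18595659907) (nat_lit 1344) (nat_lit 2934554178) (nat_lit 84) (nat_lit 5536887532) (nat_lit 153) (nat_lit 5) (nat_lit 169) (nat_lit 5) (nat_lit 154) (nat_lit 5) (nat_lit 388) (nat_lit 368) (nat_lit 189)) (XT.lf (nat_lit 0) (nat_lit 9686596119) (nat_lit 588) (nat_lit 11318886403) (nat_lit 672) (nat_lit 6522561448) (nat_lit 146) (nat_lit 5) (nat_lit 153) (nat_lit 5) (nat_lit 154) (nat_lit 5) (nat_lit 389) (nat_lit 368) (nat_lit 188))))) (XT.nd (nat_lit 282) (nat_lit 1176) (nat_lit 0) (XT.nd (nat_lit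 94) (nat_lit 672) (nat_lit 0) (XT.lf (nat_lit 0) (nat_lit 22743292861) (nat_lit 588) (nat_lit 770388779) (nat_lit 672) (nat_lit 4488356717) (nat_lit 146) (nat_lit 5) (nat_lit 153) (nat_lit 5) (nat_lit 154) (nat_lit 5) (nat_lit 390) (nat_lit 368) (nat_lit 187)) (XT.nd (nat_lit 94) (nat_lit 84) (nat_lit 0) (XT.lf (nat_lit 0) (nat_lit 7752418997) (nat_lit 588) (nat_lit 18512818745) (nat_lit 672) (nat_lit 2219977540) (nat_lit 139) (nat_lit 5) (nat_lit 146) (nat_lit 5) (nat_lit 147) (nat_lit 5) (nat_lit 391) (nat_lit 368) (nat_lit 186)) (XT.lf (nat_lit 0) (nat_lit 172022019) (nat_lit 672) (nat_lit 7732152779) (nat_lit 84) (nat_lit 21076949581) (nat_lit 138) (nat_lit 5) (nat_lit 146) (nat_lit 5) (nat_lit 139) (nat_lit 5) (nat_lit 392) (nat_lit 368) (nat_lit 185)))) (XT.nd (nat_lit 188) (nat_lit 588) (nat_lit 0) (XT.nd (nat_lit 94) (nat_lit 0) (nat_lit 0) (XT.lf (nat_lit 0) (nat_lit 2672897164)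 (nat_lit 672) (nat_lit 23774083948) (nat_lit 84) (nat_lit 3041823714) (nat_lit 131) (nat_lit 5) (nat_lit 139) (nat_lit 5) (nat_lit 132) (nat_lit 5) (nat_lit 393) (nat_lit 368) (nat_lit 184)) (XT.lf (nat_lit 0) (nat_lit 5402661610) (nat_lit 672) (nat_lit 10368182240) (nat_lit 84) (nat_lit 14236261308) (nat_lit 131) (nat_lit 5) (nat_lit 139) (nat_lit 5) (nat_lit 132) (nat_lit 5) (nat_lit 394) (nat_lit 368) (nat_lit 183))) (XT.nd (nat_lit 94) (nat_lit 0) (nat_lit 0) (XT.lf (nat_lit 0) (nat_lit 3505110334) (nat_lit 588) (nat_lit 4739747788) (nat_lit 672) (nat_lit 22295185411) (nat_lit 124) (nat_lit 5) (nat_lit 131) (nat_lit 5) (nat_lit 132) (nat_lit 5) (nat_lit 395) (nat_lit 368) (nat_lit 182)) (XT.lf (nat_lit 0) (nat_lit 11338619736) (nat_lit 672) (nat_lit 13146633448) (nat_lit 84) (nat_lit 6598732955) (nat_lit 124) (nat_lit 5) (nat_lit 132) (nat_lit 5) (nat_lit 125) (nat_lit 5) (nat_lit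 396) (nat_lit 368) (nat_lit 181)))))) (XT.nd (nat_lit 658) (nat_lit 1344) (nat_lit 0) (XT.nd (nat_lit 282) (nat_lit 1008) (nat_lit 0) (XT.nd (nat_lit 94) (nat_lit 0) (nat_lit 0) (XT.lf (nat_lit 0) (nat_lit 1130288180) (nat_lit 504) (nat_lit 13449696185) (nat_lit 588) (nat_lit 17062623861) (nat_lit 118) (nat_lit 5) (nat_lit 124) (nat_lit 5) (nat_lit 125) (nat_lit 5) (nat_lit 397) (nat_lit 368) (nat_lit 180)) (XT.nd (nat_lit 94) (nat_lit 0) (nat_lit 0) (XT.lf (nat_lit 0) (nat_lit 16101886573) (nat_lit 504) (nat_lit 1946512969) (nat_lit 588) (nat_lit 14165699910) (nat_lit 118) (nat_lit 5) (nat_lit 124) (nat_lit 5) (nat_lit 125) (nat_lit 5) (nat_lit 398) (nat_lit 368) (nat_lit 179)) (XT.lf (nat_lit 0) (nat_lit 21713187525) (nat_lit 588) (nat_lit 1378406076) (nat_lit 84) (nat_lit 9708376832) (nat_lit 118) (nat_lit 5) (nat_lit 125) (nat_lit 5) (nat_lit 119) (nat_lit 5) (nat_lit 399) (nat_lit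 368) (nat_lit 178)))) (XT.nd (nat_lit 188) (nat_lit 504) (nat_lit 0) (XT.nd (nat_lit 94) (nat_lit 0) (nat_lit 0) (XT.lf (nat_lit 0) (nat_lit 14049263434) (nat_lit 504) (nat_lit 11590200094) (nat_lit 588) (nat_lit 7759412174) (nat_lit 112) (nat_lit 5) (nat_lit 118) (nat_lit 5) (nat_lit 119) (nat_lit 5) (nat_lit 400) (nat_lit 368) (nat_lit 177)) (XT.lf (nat_lit 0) (nat_lit 29697319202) (nat_lit 588) (nat_lit 4052997062) (nat_lit 84) (nat_lit 265022484) (nat_lit 112) (nat_lit 5) (nat_lit 119) (nat_lit 5) (nat_lit 113) (nat_lit 5) (nat_lit 401) (nat_lit 368) (nat_lit 176))) (XT.nd (nat_lit 94) (nat_lit 84) (nat_lit 0) (XT.lf (nat_lit 0) (nat_lit 11815326964) (nat_lit 420) (nat_lit 22287264953) (nat_lit 504) (nat_lit 540937562) (nat_lit 107) (nat_lit 5) (nat_lit 112) (nat_lit 5) (nat_lit 113) (nat_lit 5) (nat_lit 402) (nat_lit 368) (nat_lit 175)) (XT.lf (nat_lit 0) (nat_lit 3322799100) (nat_lit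 504) (nat_lit 7082178930) (nat_lit 84) (nat_lit 24883464916) (nat_lit 106) (nat_lit 5) (nat_lit 112) (nat_lit 5) (nat_lit 107) (nat_lit 5) (nat_lit 403) (nat_lit 368) (nat_lit 174))))) (XT.nd (nat_lit 282) (nat_lit 420) (nat_lit 0) (XT.nd (nat_lit 94) (nat_lit 420) (nat_lit 0) (XT.lf (nat_lit 0) (nat_lit 7397074176) (nat_lit 588) (nat_lit 26658902112) (nat_lit 84) (nat_lit 1893405770) (nat_lit 100) (nat_lit 5) (nat_lit 107) (nat_lit 5) (nat_lit 101) (nat_lit 5) (nat_lit 404) (nat_lit 368) (nat_lit 173)) (XT.nd (nat_lit 94) (nat_lit 420) (nat_lit 0) (XT.lf (nat_lit 0) (nat_lit 11766310179) (nat_lit 588) (nat_lit 10435215340) (nat_lit 84) (nat_lit 14423445606) (nat_lit 100) (nat_lit 5) (nat_lit 107) (nat_lit 5) (nat_lit 101) (nat_lit 5) (nat_lit 405) (nat_lit 368) (nat_lit 172)) (XT.lf (nat_lit 0) (nat_lit 6397119550) (nat_lit 420) (nat_lit 9928558766) (nat_lit 504) (nat_lit 20993381549)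 (nat_lit 95) (nat_lit 5) (nat_lit 100) (nat_lit 5) (nat_lit 101) (nat_lit 5) (nat_lit 406) (nat_lit 368) (nat_lit 171)))) (XT.nd (nat_lit 188) (nat_lit 0) (nat_lit 0) (XT.nd (nat_lit 94) (nat_lit 420) (nat_lit 0) (XT.lf (nat_lit 0) (nat_lit 21151922147) (nat_lit 504) (nat_lit 14112528123) (nat_lit 84) (nat_lit 2765621704) (nat_lit 95) (nat_lit 5) (nat_lit 101) (nat_lit 5) (nat_lit 96) (nat_lit 5) (nat_lit 407) (nat_lit 368) (nat_lit 170)) (XT.lf (nat_lit 0) (nat_lit 3161709909) (nat_lit 420) (nat_lit 23087609084) (nat_lit 504) (nat_lit 12509307924) (nat_lit 90) (nat_lit 5) (nat_lit 95) (nat_lit 5) (nat_lit 96) (nat_lit 5) (nat_lit 408) (nat_lit 368) (nat_lit 169))) (XT.nd (nat_lit 94) (nat_lit 0) (nat_lit 0) (XT.lf (nat_lit 0) (nat_lit 21240645705) (nat_lit 420) (nat_lit 10399212460) (nat_lit 504) (nat_lit 7864977073) (nat_lit 90) (nat_lit 5) (nat_lit 95) (nat_lit 5) (nat_lit 96) (nat_lit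 5) (nat_lit 409) (nat_lit 368) (nat_lit 168)) (XT.lf (nat_lit 0) (nat_lit 37215550838) (nat_lit 504) (nat_lit 439949410) (nat_lit 84) (nat_lit 2617229685) (nat_lit 90) (nat_lit 5) (nat_lit 96) (nat_lit 5) (nat_lit 91) (nat_lit 5) (nat_lit 410) (nat_lit 368) (nat_lit 167))))))))
noncomputable def xc191 : XT := (XT.nd (nat_lit 2632) (nat_lit 1680) (nat_lit 0) (XT.nd (nat_lit 1316) (nat_lit 1512) (nat_lit 0) (XT.nd (nat_lit 658) (nat_lit 1008) (nat_lit 0) (XT.nd (nat_lit 282) (nat_lit 672) (nat_lit 0) (XT.nd (nat_lit 94) (nat_lit 420) (nat_lit 0) (XT.lf (nat_lit 0) (nat_lit 2136042564) (nat_lit 420) (nat_lit 22908490708) (nat_lit 84) (nat_lit 16010239869) (nat_lit 85) (nat_lit 5) (nat_lit 90) (nat_lit 5) (nat_lit 86) (nat_lit 5) (nat_lit 411) (nat_lit 368) (nat_lit 166)) (XT.nd (nat_lit 94) (nat_lit 420) (nat_lit 0) (XT.lf (nat_lit 0) (nat_lit 7425952309) (nat_lit 420) (nat_lit 4594080102)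 (nat_lit 84) (nat_lit 29839269997) (nat_lit 85) (nat_lit 5) (nat_lit 90) (nat_lit 5) (nat_lit 86) (nat_lit 5) (nat_lit 412) (nat_lit 368) (nat_lit 165)) (XT.lf (nat_lit 0) (nat_lit 13027137460) (nat_lit 504) (nat_lit 28147584165) (nat_lit 84) (nat_lit 1508671469) (nat_lit 80) (nat_lit 5) (nat_lit 86) (nat_lit 5) (nat_lit 81) (nat_lit 5) (nat_lit 413) (nat_lit 368) (nat_lit 164)))) (XT.nd (nat_lit 188) (nat_lit 336) (nat_lit 0) (XT.nd (nat_lit 94) (nat_lit 336) (nat_lit 0) (XT.lf (nat_lit 0) (nat_lit 18960162387) (nat_lit 504) (nat_lit 9319210667) (nat_lit 84) (nat_lit 15247922119) (nat_lit 80) (nat_lit 5) (nat_lit 86) (nat_lit 5) (nat_lit 81) (nat_lit 5) (nat_lit 414) (nat_lit 368) (nat_lit 163)) (XT.lf (nat_lit 0) (nat_lit 10271837958) (nat_lit 336) (nat_lit 14896082671) (nat_lit 420) (nat_lit 19225694125) (nat_lit 76) (nat_lit 5) (nat_lit 80) (nat_lit 5) (nat_lit 81) (nat_lit 5) (nat_lit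 415) (nat_lit 368) (nat_lit 162))) (XT.nd (nat_lit 94) (nat_lit 336) (nat_lit 0) (XT.lf (nat_lit 0) (nat_lit 30639061744) (nat_lit 336) (nat_lit 1014992256) (nat_lit 420) (nat_lit 13629108289) (nat_lit 76) (nat_lit 5) (nat_lit 80) (nat_lit 5) (nat_lit 81) (nat_lit 5) (nat_lit 416) (nat_lit 368) (nat_lit 161)) (XT.lf (nat_lit 0) (nat_lit 5392891512) (nat_lit 336) (nat_lit 33119487400) (nat_lit 420) (nat_lit 7681691675) (nat_lit 72) (nat_lit 5) (nat_lit 76) (nat_lit 5) (nat_lit 77) (nat_lit 5) (nat_lit 417) (nat_lit 368) (nat_lit 160))))) (XT.nd (nat_lit 282) (nat_lit 588) (nat_lit 0) (XT.nd (nat_lit 94) (nat_lit 420) (nat_lit 0) (XT.lf (nat_lit 0) (nat_lit 26318389390) (nat_lit 336) (nat_lit 19414010975) (nat_lit 420) (nat_lit 1395229851) (nat_lit 72) (nat_lit 5) (nat_lit 76) (nat_lit 5) (nat_lit 77) (nat_lit 5) (nat_lit 418) (nat_lit 368) (nat_lit 159)) (XT.nd (nat_lit 94) (nat_lit 336)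 (nat_lit 0) (XT.lf (nat_lit 0) (nat_lit 4978853650) (nat_lit 420) (nat_lit 268884028) (nat_lit 84) (nat_lit 42840051784) (nat_lit 71) (nat_lit 5) (nat_lit 76) (nat_lit 5) (nat_lit 72) (nat_lit 5) (nat_lit 419) (nat_lit 368) (nat_lit 158)) (XT.lf (nat_lit 0) (nat_lit 11810918332) (nat_lit 420) (nat_lit 27875413033) (nat_lit 84) (nat_lit 9381165928) (nat_lit 67) (nat_lit 5) (nat_lit 72) (nat_lit 5) (nat_lit 68) (nat_lit 5) (nat_lit 420) (nat_lit 368) (nat_lit 157)))) (XT.nd (nat_lit 188) (nat_lit 252) (nat_lit 0) (XT.nd (nat_lit 94) (nat_lit 336) (nat_lit 0) (XT.lf (nat_lit 0) (nat_lit 18900874934) (nat_lit 420) (nat_lit 6828567250) (nat_lit 84) (nat_lit 24345568486) (nat_lit 67) (nat_lit 5) (nat_lit 72) (nat_lit 5) (nat_lit 68) (nat_lit 5) (nat_lit 421) (nat_lit 368) (nat_lit 156)) (XT.lf (nat_lit 0) (nat_lit 15142784739) (nat_lit 336) (nat_lit 11204588851) (nat_lit 420) (nat_lit 24761062703)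 (nat_lit 63) (nat_lit 5) (nat_lit 67) (nat_lit 5) (nat_lit 68) (nat_lit 5) (nat_lit 422) (nat_lit 368) (nat_lit 155))) (XT.nd (nat_lit 94) (nat_lit 252) (nat_lit 0) (XT.lf (nat_lit 0) (nat_lit 34121312600) (nat_lit 420) (nat_lit 14296739937) (nat_lit 84) (nat_lit 3751692867) (nat_lit 63) (nat_lit 5) (nat_lit 68) (nat_lit 5) (nat_lit 64) (nat_lit 5) (nat_lit 423) (nat_lit 368) (nat_lit 154)) (XT.lf (nat_lit 0) (nat_lit 8066364247) (nat_lit 252) (nat_lit 34248932790) (nat_lit 336) (nat_lit 10941993956) (nat_lit 60) (nat_lit 5) (nat_lit 63) (nat_lit 5) (nat_lit 64) (nat_lit 5) (nat_lit 424) (nat_lit 368) (nat_lit 153)))))) (XT.nd (nat_lit 658) (nat_lit 588) (nat_lit 0) (XT.nd (nat_lit 282) (nat_lit 504) (nat_lit 0) (XT.nd (nat_lit 94) (nat_lit 420) (nat_lit 0) (XT.lf (nat_lit 0) (nat_lit 31391111595) (nat_lit 252) (nat_lit 19506736071) (nat_lit 336) (nat_lit 3475334849) (nat_lit 60) (nat_lit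 5) (nat_lit 63) (nat_lit 5) (nat_lit 64) (nat_lit 5) (nat_lit 425) (nat_lit 368) (nat_lit 152)) (XT.nd (nat_lit 94) (nat_lit 336) (nat_lit 0) (XT.lf (nat_lit 0) (nat_lit 4131475282) (nat_lit 336) (nat_lit 149754806) (nat_lit 84) (nat_lit 51240154713) (nat_lit 59) (nat_lit 5) (nat_lit 63) (nat_lit 5) (nat_lit 60) (nat_lit 5) (nat_lit 426) (nat_lit 368) (nat_lit 151)) (XT.lf (nat_lit 0) (nat_lit 12236019764) (nat_lit 420) (nat_lit 33013146040) (nat_lit 84) (nat_lit 11443655447) (nat_lit 55) (nat_lit 5) (nat_lit 60) (nat_lit 5) (nat_lit 56) (nat_lit 5) (nat_lit 427) (nat_lit 368) (nat_lit 150)))) (XT.nd (nat_lit 188) (nat_lit 252) (nat_lit 0) (XT.nd (nat_lit 94) (nat_lit 252) (nat_lit 0) (XT.lf (nat_lit 0) (nat_lit 20626087426) (nat_lit 420) (nat_lit 9716938595) (nat_lit 84) (nat_lit 27555104911) (nat_lit 55) (nat_lit 5) (nat_lit 60) (nat_lit 5) (nat_lit 56) (nat_lit 5) (nat_lit 428) (nat_lit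 368) (nat_lit 149)) (XT.lf (nat_lit 0) (nat_lit 14560102556) (nat_lit 252) (nat_lit 14846230929) (nat_lit 336) (nat_lit 29729113822) (nat_lit 52) (nat_lit 5) (nat_lit 55) (nat_lit 5) (nat_lit 56) (nat_lit 5) (nat_lit 429) (nat_lit 368) (nat_lit 148))) (XT.nd (nat_lit 94) (nat_lit 252) (nat_lit 0) (XT.lf (nat_lit 0) (nat_lit 38558334696) (nat_lit 336) (nat_lit 20656181048) (nat_lit 84) (nat_lit 1192118640) (nat_lit 52) (nat_lit 5) (nat_lit 56) (nat_lit 5) (nat_lit 53) (nat_lit 5) (nat_lit 430) (nat_lit 368) (nat_lit 147)) (XT.lf (nat_lit 0) (nat_lit 3907691990) (nat_lit 252) (nat_lit 44260333906) (nat_lit 336) (nat_lit 13542438874) (nat_lit 49) (nat_lit 5) (nat_lit 52) (nat_lit 5) (nat_lit 53) (nat_lit 5) (nat_lit 431) (nat_lit 368) (nat_lit 146))))) (XT.nd (nat_lit 282) (nat_lit 252) (nat_lit 0) (XT.nd (nat_lit 94) (nat_lit 336) (nat_lit 0) (XT.lf (nat_lit 0) (nat_lit 29629807191) (nat_lit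 252) (nat_lit 28643383295) (nat_lit 336) (nat_lit 4774005653) (nat_lit 49) (nat_lit 5) (nat_lit 52) (nat_lit 5) (nat_lit 53) (nat_lit 5) (nat_lit 432) (nat_lit 368) (nat_lit 145)) (XT.nd (nat_lit 94) (nat_lit 252) (nat_lit 0) (XT.lf (nat_lit 0) (nat_lit 4173023435) (nat_lit 336) (nat_lit 8343442167) (nat_lit 84) (nat_lit 51906378893) (nat_lit 48) (nat_lit 5) (nat_lit 52) (nat_lit 5) (nat_lit 49) (nat_lit 5) (nat_lit 433) (nat_lit 368) (nat_lit 144)) (XT.lf (nat_lit 0) (nat_lit 13503598793) (nat_lit 336) (nat_lit 48094365984) (nat_lit 84) (nat_lit 4234048276) (nat_lit 45) (nat_lit 5) (nat_lit 49) (nat_lit 5) (nat_lit 46) (nat_lit 5) (nat_lit 434) (nat_lit 368) (nat_lit 143)))) (XT.nd (nat_lit 188) (nat_lit 0) (nat_lit 0) (XT.nd (nat_lit 94) (nat_lit 252) (nat_lit 0) (XT.lf (nat_lit 0) (nat_lit 23321778535) (nat_lit 336) (nat_lit 22635514700) (nat_lit 84) (nat_lit 21319934195) (nat_lit 45)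 (nat_lit 5) (nat_lit 49) (nat_lit 5) (nat_lit 46) (nat_lit 5) (nat_lit 435) (nat_lit 368) (nat_lit 142)) (XT.lf (nat_lit 0) (nat_lit 3656484974) (nat_lit 252) (nat_lit 29811880788) (nat_lit 336) (nat_lit 35296417952) (nat_lit 42) (nat_lit 5) (nat_lit 45) (nat_lit 5) (nat_lit 46) (nat_lit 5) (nat_lit 436) (nat_lit 368) (nat_lit 141))) (XT.nd (nat_lit 94) (nat_lit 0) (nat_lit 0) (XT.lf (nat_lit 0) (nat_lit 31199301457) (nat_lit 252) (nat_lit 12947355914) (nat_lit 336) (nat_lit 26143491409) (nat_lit 42) (nat_lit 5) (nat_lit 45) (nat_lit 5) (nat_lit 46) (nat_lit 5) (nat_lit 437) (nat_lit 368) (nat_lit 140)) (XT.lf (nat_lit 0) (nat_lit 55186578328) (nat_lit 336) (nat_lit 12337314045) (nat_lit 84) (nat_lit 4336145268) (nat_lit 42) (nat_lit 5) (nat_lit 46) (nat_lit 5) (nat_lit 43) (nat_lit 5) (nat_lit 438) (nat_lit 368) (nat_lit 139))))))) (XT.nd (nat_lit 1316) (nat_lit 588) (nat_lit 0) (XT.nd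 (nat_lit 658) (nat_lit 420) (nat_lit 0) (XT.nd (nat_lit 282) (nat_lit 420) (nat_lit 0) (XT.nd (nat_lit 94) (nat_lit 84) (nat_lit 0) (XT.lf (nat_lit 0) (nat_lit 15389061557) (nat_lit 168) (nat_lit 51443555110) (nat_lit 252) (nat_lit 6636160132) (nat_lit 40) (nat_lit 5) (nat_lit 42) (nat_lit 5) (nat_lit 43) (nat_lit 5) (nat_lit 439) (nat_lit 368) (nat_lit 138)) (XT.nd (nat_lit 94) (nat_lit 0) (nat_lit 0) (XT.lf (nat_lit 0) (nat_lit 3754633161) (nat_lit 252) (nat_lit 30960605946) (nat_lit 84) (nat_lit 40405733940) (nat_lit 39) (nat_lit 5) (nat_lit 42) (nat_lit 5) (nat_lit 40) (nat_lit 5) (nat_lit 440) (nat_lit 368) (nat_lit 137)) (XT.lf (nat_lit 0) (nat_lit 14322608211) (nat_lit 252) (nat_lit 3095448030) (nat_lit 84) (nat_lit 59402743779) (nat_lit 39) (nat_lit 5) (nat_lit 42) (nat_lit 5) (nat_lit 40) (nat_lit 5) (nat_lit 441) (nat_lit 368) (nat_lit 136)))) (XT.nd (nat_lit 188) (nat_lit 168)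 (nat_lit 0) (XT.nd (nat_lit 94) (nat_lit 0) (nat_lit 0) (XT.lf (nat_lit 0) (nat_lit 25463818574) (nat_lit 336) (nat_lit 52456966284) (nat_lit 84) (nat_lit 643152148) (nat_lit 36) (nat_lit 5) (nat_lit 40) (nat_lit 5) (nat_lit 37) (nat_lit 5) (nat_lit 442) (nat_lit 368) (nat_lit 135)) (XT.lf (nat_lit 0) (nat_lit 37142170637) (nat_lit 336) (nat_lit 24284058210) (nat_lit 84) (nat_lit 18927053150) (nat_lit 36) (nat_lit 5) (nat_lit 40) (nat_lit 5) (nat_lit 37) (nat_lit 5) (nat_lit 443) (nat_lit 368) (nat_lit 134))) (XT.nd (nat_lit 94) (nat_lit 0) (nat_lit 0) (XT.lf (nat_lit 0) (nat_lit 4826493111) (nat_lit 168) (nat_lit 44389689866) (nat_lit 252) (nat_lit 32978766093) (nat_lit 34) (nat_lit 5) (nat_lit 36) (nat_lit 5) (nat_lit 37) (nat_lit 5) (nat_lit 444) (nat_lit 368) (nat_lit 133)) (XT.lf (nat_lit 0) (nat_lit 35306451023) (nat_lit 168) (nat_lit 26590115733) (nat_lit 252) (nat_lit 22187975862)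 (nat_lit 34) (nat_lit 5) (nat_lit 36) (nat_lit 5) (nat_lit 37) (nat_lit 5) (nat_lit 445) (nat_lit 368) (nat_lit 132))))) (XT.nd (nat_lit 282) (nat_lit 168) (nat_lit 0) (XT.nd (nat_lit 94) (nat_lit 252) (nat_lit 0) (XT.lf (nat_lit 0) (nat_lit 66699148124) (nat_lit 168) (nat_lit 8257174795) (nat_lit 252) (nat_lit 11074533194) (nat_lit 34) (nat_lit 5) (nat_lit 36) (nat_lit 5) (nat_lit 37) (nat_lit 5) (nat_lit 446) (nat_lit 368) (nat_lit 131)) (XT.nd (nat_lit 94) (nat_lit 0) (nat_lit 0) (XT.lf (nat_lit 0) (nat_lit 575038772) (nat_lit 252) (nat_lit 76923852619) (nat_lit 84) (nat_lit 10530261429) (nat_lit 31) (nat_lit 5) (nat_lit 34) (nat_lit 5) (nat_lit 32) (nat_lit 5) (nat_lit 447) (nat_lit 368) (nat_lit 130)) (XT.lf (nat_lit 0) (nat_lit 12629398612) (nat_lit 252) (nat_lit 47424819798) (nat_lit 84) (nat_lit 30021554799) (nat_lit 31) (nat_lit 5) (nat_lit 34) (nat_lit 5) (nat_lit 32) (nat_lit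 5) (nat_lit 448) (nat_lit 368) (nat_lit 129)))) (XT.nd (nat_lit 188) (nat_lit 0) (nat_lit 0) (XT.nd (nat_lit 94) (nat_lit 168) (nat_lit 0) (XT.lf (nat_lit 0) (nat_lit 25044407229) (nat_lit 252) (nat_lit 17042409774) (nat_lit 84) (nat_lit 50097005528) (nat_lit 31) (nat_lit 5) (nat_lit 34) (nat_lit 5) (nat_lit 32) (nat_lit 5) (nat_lit 449) (nat_lit 368) (nat_lit 128)) (XT.lf (nat_lit 0) (nat_lit 14533526642) (nat_lit 168) (nat_lit 23437091195) (nat_lit 252) (nat_lit 56380333776) (nat_lit 29) (nat_lit 5) (nat_lit 31) (nat_lit 5) (nat_lit 32) (nat_lit 5) (nat_lit 450) (nat_lit 368) (nat_lit 127))) (XT.nd (nat_lit 94) (nat_lit 0) (nat_lit 0) (XT.lf (nat_lit 0) (nat_lit 47404561654) (nat_lit 168) (nat_lit 4051207656) (nat_lit 252) (nat_lit 45122191429) (nat_lit 29) (nat_lit 5) (nat_lit 31) (nat_lit 5) (nat_lit 32) (nat_lit 5) (nat_lit 451) (nat_lit 368) (nat_lit 126)) (XT.lf (nat_lit 0) (nat_lit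 65497553574) (nat_lit 252) (nat_lit 17764559394) (nat_lit 84) (nat_lit 15605105610) (nat_lit 29) (nat_lit 5) (nat_lit 32) (nat_lit 5) (nat_lit 30) (nat_lit 5) (nat_lit 452) (nat_lit 368) (nat_lit 125)))))) (XT.nd (nat_lit 658) (nat_lit 0) (nat_lit 0) (XT.nd (nat_lit 282) (nat_lit 336) (nat_lit 0) (XT.nd (nat_lit 94) (nat_lit 84) (nat_lit 0) (XT.lf (nat_lit 0) (nat_lit 14834441681) (nat_lit 168) (nat_lit 65307966622) (nat_lit 252) (nat_lit 21077292102) (nat_lit 27) (nat_lit 5) (nat_lit 29) (nat_lit 5) (nat_lit 30) (nat_lit 5) (nat_lit 453) (nat_lit 368) (nat_lit 124)) (XT.nd (nat_lit 94) (nat_lit 84) (nat_lit 0) (XT.lf (nat_lit 0) (nat_lit 48774116988) (nat_lit 168) (nat_lit 46630999166) (nat_lit 252) (nat_lit 8232286050) (nat_lit 27) (nat_lit 5) (nat_lit 29) (nat_lit 5) (nat_lit 30) (nat_lit 5) (nat_lit 454) (nat_lit 368) (nat_lit 123)) (XT.lf (nat_lit 0) (nat_lit 4899676555) (nat_lit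 252) (nat_lit 22445124456) (nat_lit 84) (nat_lit 78781419306) (nat_lit 26) (nat_lit 5) (nat_lit 29) (nat_lit 5) (nat_lit 27) (nat_lit 5) (nat_lit 455) (nat_lit 368) (nat_lit 122)))) (XT.nd (nat_lit 188) (nat_lit 168) (nat_lit 0) (XT.nd (nat_lit 94) (nat_lit 0) (nat_lit 0) (XT.lf (nat_lit 0) (nat_lit 11078876256) (nat_lit 168) (nat_lit 7286919787) (nat_lit 252) (nat_lit 90318292610) (nat_lit 24) (nat_lit 5) (nat_lit 26) (nat_lit 5) (nat_lit 27) (nat_lit 5) (nat_lit 456) (nat_lit 368) (nat_lit 121)) (XT.lf (nat_lit 0) (nat_lit 32592509339) (nat_lit 252) (nat_lit 65375376586) (nat_lit 84) (nat_lit 13340109466) (nat_lit 24) (nat_lit 5) (nat_lit 27) (nat_lit 5) (nat_lit 25) (nat_lit 5) (nat_lit 457) (nat_lit 368) (nat_lit 120))) (XT.nd (nat_lit 94) (nat_lit 168) (nat_lit 0) (XT.lf (nat_lit 0) (nat_lit 47317363836) (nat_lit 252) (nat_lit 32252145366) (nat_lit 84) (nat_lit 34438970573) (nat_lit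 24) (nat_lit 5) (nat_lit 27) (nat_lit 5) (nat_lit 25) (nat_lit 5) (nat_lit 458) (nat_lit 368) (nat_lit 119)) (XT.lf (nat_lit 0) (nat_lit 1900556932) (nat_lit 168) (nat_lit 60600891966) (nat_lit 252) (nat_lit 54288005864) (nat_lit 22) (nat_lit 5) (nat_lit 24) (nat_lit 5) (nat_lit 25) (nat_lit 5) (nat_lit 459) (nat_lit 368) (nat_lit 118))))) (XT.nd (nat_lit 50948) (nat_lit 0) (nat_lit 12936) (XT.nd (nat_lit 50760) (nat_lit 0) (nat_lit 12936) (XT.lf (nat_lit 0) (nat_lit 37737677959) (nat_lit 168) (nat_lit 40728287949) (nat_lit 252) (nat_lit 41178146411) (nat_lit 22) (nat_lit 5) (nat_lit 24) (nat_lit 5) (nat_lit 25) (nat_lit 5) (nat_lit 460) (nat_lit 368) (nat_lit 117)) (XT.nd (nat_lit 94) (nat_lit 0) (nat_lit 0) (XT.lf (nat_lit 0) (nat_lit 8953673013) (nat_lit 1260) (nat_lit 611813234) (nat_lit 1260) (nat_lit 611813234) (nat_lit 176) (nat_lit 3) (nat_lit 191) (nat_lit 3) (nat_lit 191) (nat_lit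 5) (nat_lit 369) (nat_lit 369) (nat_lit 207)) (XT.lf (nat_lit 84) (nat_lit 7727858513) (nat_lit 0) (nat_lit 10668581283) (nat_lit 1260) (nat_lit 2256584286) (nat_lit 177) (nat_lit 5) (nat_lit 176) (nat_lit 3) (nat_lit 191) (nat_lit 5) (nat_lit 370) (nat_lit 369) (nat_lit 206)))) (XT.nd (nat_lit 188) (nat_lit 0) (nat_lit 84) (XT.nd (nat_lit 94) (nat_lit 0) (nat_lit 84) (XT.lf (nat_lit 84) (nat_lit 16969968699) (nat_lit 0) (nat_lit 1936859321) (nat_lit 1260) (nat_lit 2053386186) (nat_lit 177) (nat_lit 5) (nat_lit 176) (nat_lit 3) (nat_lit 191) (nat_lit 5) (nat_lit 371) (nat_lit 369) (nat_lit 205)) (XT.lf (nat_lit 84) (nat_lit 5244100887) (nat_lit 0) (nat_lit 14301128864) (nat_lit 1260) (nat_lit 1728019814) (nat_lit 178) (nat_lit 5) (nat_lit 177) (nat_lit 5) (nat_lit 192) (nat_lit 5) (nat_lit 372) (nat_lit 369) (nat_lit 204))) (XT.nd (nat_lit 94) (nat_lit 0) (nat_lit 84) (XT.lf (nat_lit 84)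 (nat_lit 14814627738) (nat_lit 0) (nat_lit 5442027945) (nat_lit 1260) (nat_lit 1337414413) (nat_lit 178) (nat_lit 5) (nat_lit 177) (nat_lit 5) (nat_lit 192) (nat_lit 5) (nat_lit 373) (nat_lit 369) (nat_lit 203)) (XT.lf (nat_lit 84) (nat_lit 2763084221) (nat_lit 0) (nat_lit 18283071332) (nat_lit 1260) (nat_lit 876667732) (nat_lit 179) (nat_lit 5) (nat_lit 178) (nat_lit 5) (nat_lit 193) (nat_lit 5) (nat_lit 374) (nat_lit 369) (nat_lit 202))))))))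
noncomputable def xc192 : XT := (XT.nd (nat_lit 2538) (nat_lit 4788) (nat_lit 0) (XT.nd (nat_lit 1222) (nat_lit 4284) (nat_lit 0) (XT.nd (nat_lit 564) (nat_lit 0) (nat_lit 252) (XT.nd (nat_lit 282) (nat_lit 0) (nat_lit 84) (XT.nd (nat_lit 94) (nat_lit 1260) (nat_lit 0) (XT.lf (nat_lit 84) (nat_lit 12672749068) (nat_lit 0) (nat_lit 9303294605) (nat_lit 1260) (nat_lit 281903986) (nat_lit 179) (nat_lit 5) (nat_lit 178) (nat_lit 5) (nat_lit 193) (nat_lit 5) (nat_lit 375) (nat_lit 369) (nat_lit 201)) (XT.nd (nat_lit 94) (nat_lit 0) (nat_lit 84) (XT.lf (nat_lit 84) (nat_lit 275604474) (nat_lit 0) (nat_lit 46275713) (nat_lit 1344) (nat_lit 22281230420) (nat_lit 164) (nat_lit 5) (nat_lit 163) (nat_lit 5) (nat_lit 179) (nat_lit 5) (nat_lit 376) (nat_lit 369) (nat_lit 200)) (XT.lf (nat_lit 0) (nat_lit 1122185101) (nat_lit 1260) (nat_lit 12425278673) (nat_lit 1344) (nat_lit 9405567603) (nat_lit 164)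 (nat_lit 5) (nat_lit 179) (nat_lit 5) (nat_lit 180) (nat_lit 5) (nat_lit 377) (nat_lit 369) (nat_lit 199)))) (XT.nd (nat_lit 94) (nat_lit 0) (nat_lit 84) (XT.lf (nat_lit 0) (nat_lit 1942213976) (nat_lit 1260) (nat_lit 2229660529) (nat_lit 1344) (nat_lit 19141712428) (nat_lit 164) (nat_lit 5) (nat_lit 179) (nat_lit 5) (nat_lit 180) (nat_lit 5) (nat_lit 378) (nat_lit 369) (nat_lit 198)) (XT.nd (nat_lit 94) (nat_lit 0) (nat_lit 0) (XT.lf (nat_lit 0) (nat_lit 2916846091) (nat_lit 1260) (nat_lit 15302950269) (nat_lit 1344) (nat_lit 5461271081) (nat_lit 165) (nat_lit 5) (nat_lit 180) (nat_lit 5) (nat_lit 181) (nat_lit 5) (nat_lit 379) (nat_lit 369) (nat_lit 197)) (XT.lf (nat_lit 0) (nat_lit 3980273695) (nat_lit 1260) (nat_lit 4753841730) (nat_lit 1344) (nat_lit 15323678354) (nat_lit 165) (nat_lit 5) (nat_lit 180) (nat_lit 5) (nat_lit 181) (nat_lit 5) (nat_lit 380) (nat_lit 369) (nat_lit 196)))))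 (XT.nd (nat_lit 282) (nat_lit 0) (nat_lit 84) (XT.nd (nat_lit 94) (nat_lit 0) (nat_lit 0) (XT.lf (nat_lit 0) (nat_lit 5141700093) (nat_lit 1260) (nat_lit 18224571041) (nat_lit 1344) (nat_lit 1077575772) (nat_lit 166) (nat_lit 5) (nat_lit 181) (nat_lit 5) (nat_lit 182) (nat_lit 5) (nat_lit 381) (nat_lit 369) (nat_lit 195)) (XT.nd (nat_lit 94) (nat_lit 0) (nat_lit 0) (XT.lf (nat_lit 0) (nat_lit 6468676625) (nat_lit 1260) (nat_lit 7311228105) (nat_lit 1344) (nat_lit 11057663323) (nat_lit 166) (nat_lit 5) (nat_lit 181) (nat_lit 5) (nat_lit 182) (nat_lit 5) (nat_lit 382) (nat_lit 369) (nat_lit 194)) (XT.lf (nat_lit 84) (nat_lit 4004481226) (nat_lit 0) (nat_lit 3865349682) (nat_lit 1344) (nat_lit 17372246298) (nat_lit 167) (nat_lit 5) (nat_lit 166) (nat_lit 5) (nat_lit 182) (nat_lit 5) (nat_lit 383) (nat_lit 369) (nat_lit 193)))) (XT.nd (nat_lit 188) (nat_lit 0) (nat_lit 84) (XT.nd (nat_lit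 94) (nat_lit 0) (nat_lit 0) (XT.lf (nat_lit 0) (nat_lit 9444561085) (nat_lit 1260) (nat_lit 9911992133) (nat_lit 1344) (nat_lit 6298229384) (nat_lit 167) (nat_lit 5) (nat_lit 182) (nat_lit 5) (nat_lit 183) (nat_lit 5) (nat_lit 384) (nat_lit 369) (nat_lit 192)) (XT.lf (nat_lit 84) (nat_lit 1745993811) (nat_lit 0) (nat_lit 9371684396) (nat_lit 1344) (nat_lit 14960663600) (nat_lit 168) (nat_lit 5) (nat_lit 167) (nat_lit 5) (nat_lit 183) (nat_lit 5) (nat_lit 385) (nat_lit 369) (nat_lit 191))) (XT.nd (nat_lit 94) (nat_lit 0) (nat_lit 0) (XT.lf (nat_lit 0) (nat_lit 12947025942) (nat_lit 1260) (nat_lit 12567746954) (nat_lit 84) (nat_lit 996660574) (nat_lit 168) (nat_lit 5) (nat_lit 183) (nat_lit 5) (nat_lit 169) (nat_lit 5) (nat_lit 386) (nat_lit 369) (nat_lit 190)) (XT.lf (nat_lit 0) (nat_lit 14920334986) (nat_lit 1260) (nat_lit 546183865) (nat_lit 84) (nat_lit 11488333201) (nat_lit 168) (nat_lit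 5) (nat_lit 183) (nat_lit 5) (nat_lit 169) (nat_lit 5) (nat_lit 387) (nat_lit 369) (nat_lit 189)))))) (XT.nd (nat_lit 658) (nat_lit 1596) (nat_lit 0) (XT.nd (nat_lit 282) (nat_lit 1260) (nat_lit 0) (XT.nd (nat_lit 94) (nat_lit 588) (nat_lit 0) (XT.lf (nat_lit 0) (nat_lit 12068430458) (nat_lit 1260) (nat_lit 4996821905) (nat_lit 1344) (nat_lit 10342954961) (nat_lit 153) (nat_lit 5) (nat_lit 168) (nat_lit 5) (nat_lit 169) (nat_lit 5) (nat_lit 388) (nat_lit 369) (nat_lit 188)) (XT.nd (nat_lit 94) (nat_lit 588) (nat_lit 0) (XT.lf (nat_lit 0) (nat_lit 19332194875) (nat_lit 1344) (nat_lit 2861181068) (nat_lit 84) (nat_lit 5680063202) (nat_lit 153) (nat_lit 5) (nat_lit 169) (nat_lit 5) (nat_lit 154) (nat_lit 5) (nat_lit 389) (nat_lit 369) (nat_lit 187)) (XT.lf (nat_lit 0) (nat_lit 10137021290) (nat_lit 588) (nat_lit 11673623395) (nat_lit 672) (nat_lit 6537684298) (nat_lit 146) (nat_lit 5) (nat_lit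 153) (nat_lit 5) (nat_lit 154) (nat_lit 5) (nat_lit 390) (nat_lit 369) (nat_lit 186)))) (XT.nd (nat_lit 188) (nat_lit 672) (nat_lit 0) (XT.nd (nat_lit 94) (nat_lit 588) (nat_lit 0) (XT.lf (nat_lit 0) (nat_lit 23580763770) (nat_lit 588) (nat_lit 808228987) (nat_lit 672) (nat_lit 4447712279) (nat_lit 146) (nat_lit 5) (nat_lit 153) (nat_lit 5) (nat_lit 154) (nat_lit 5) (nat_lit 391) (nat_lit 369) (nat_lit 185)) (XT.lf (nat_lit 0) (nat_lit 8144124172) (nat_lit 588) (nat_lit 19075415032) (nat_lit 672) (nat_lit 2114953420) (nat_lit 139) (nat_lit 5) (nat_lit 146) (nat_lit 5) (nat_lit 147) (nat_lit 5) (nat_lit 392) (nat_lit 369) (nat_lit 184))) (XT.nd (nat_lit 94) (nat_lit 588) (nat_lit 0) (XT.lf (nat_lit 0) (nat_lit 340555937) (nat_lit 672) (nat_lit 7806096029) (nat_lit 84) (nat_lit 21698732736) (nat_lit 138) (nat_lit 5) (nat_lit 146) (nat_lit 5) (nat_lit 139) (nat_lit 5) (nat_lit 393) (nat_lit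 369) (nat_lit 183)) (XT.lf (nat_lit 0) (nat_lit 2913167942) (nat_lit 672) (nat_lit 24325731457) (nat_lit 84) (nat_lit 3129502774) (nat_lit 131) (nat_lit 5) (nat_lit 139) (nat_lit 5) (nat_lit 132) (nat_lit 5) (nat_lit 394) (nat_lit 369) (nat_lit 182))))) (XT.nd (nat_lit 282) (nat_lit 1008) (nat_lit 0) (XT.nd (nat_lit 94) (nat_lit 588) (nat_lit 0) (XT.lf (nat_lit 0) (nat_lit 5720162685) (nat_lit 672) (nat_lit 10522358766) (nat_lit 84) (nat_lit 14659877641) (nat_lit 131) (nat_lit 5) (nat_lit 139) (nat_lit 5) (nat_lit 132) (nat_lit 5) (nat_lit 395) (nat_lit 369) (nat_lit 181)) (XT.nd (nat_lit 94) (nat_lit 0) (nat_lit 0) (XT.lf (nat_lit 0) (nat_lit 3765594654) (nat_lit 588) (nat_lit 4878996743) (nat_lit 672) (nat_lit 22806832705) (nat_lit 124) (nat_lit 5) (nat_lit 131) (nat_lit 5) (nat_lit 132) (nat_lit 5) (nat_lit 396) (nat_lit 369) (nat_lit 180)) (XT.lf (nat_lit 0) (nat_lit 11826754858) (nat_lit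 672) (nat_lit 13385572789) (nat_lit 84) (nat_lit 6799496925) (nat_lit 124) (nat_lit 5) (nat_lit 132) (nat_lit 5) (nat_lit 125) (nat_lit 5) (nat_lit 397) (nat_lit 369) (nat_lit 179)))) (XT.nd (nat_lit 188) (nat_lit 504) (nat_lit 0) (XT.nd (nat_lit 94) (nat_lit 0) (nat_lit 0) (XT.lf (nat_lit 0) (nat_lit 1318132374) (nat_lit 504) (nat_lit 13844397778) (nat_lit 588) (nat_lit 17424767122) (nat_lit 118) (nat_lit 5) (nat_lit 124) (nat_lit 5) (nat_lit 125) (nat_lit 5) (nat_lit 398) (nat_lit 369) (nat_lit 178)) (XT.lf (nat_lit 0) (nat_lit 16734395160) (nat_lit 504) (nat_lit 1996375065) (nat_lit 588) (nat_lit 14445296679) (nat_lit 118) (nat_lit 5) (nat_lit 124) (nat_lit 5) (nat_lit 125) (nat_lit 5) (nat_lit 399) (nat_lit 369) (nat_lit 177))) (XT.nd (nat_lit 94) (nat_lit 504) (nat_lit 0) (XT.lf (nat_lit 0) (nat_lit 22501477056) (nat_lit 588) (nat_lit 1270413118) (nat_lit 84) (nat_lit 10007751222)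 (nat_lit 118) (nat_lit 5) (nat_lit 125) (nat_lit 5) (nat_lit 119) (nat_lit 5) (nat_lit 400) (nat_lit 369) (nat_lit 176)) (XT.lf (nat_lit 0) (nat_lit 14618622309) (nat_lit 504) (nat_lit 11924353352) (nat_lit 588) (nat_lit 7853621580) (nat_lit 112) (nat_lit 5) (nat_lit 118) (nat_lit 5) (nat_lit 119) (nat_lit 5) (nat_lit 401) (nat_lit 369) (nat_lit 175))))))) (XT.nd (nat_lit 1316) (nat_lit 2100) (nat_lit 0) (XT.nd (nat_lit 658) (nat_lit 1260) (nat_lit 0) (XT.nd (nat_lit 282) (nat_lit 924) (nat_lit 0) (XT.nd (nat_lit 94) (nat_lit 504) (nat_lit 0) (XT.lf (nat_lit 0) (nat_lit 30718781015) (nat_lit 588) (nat_lit 4027018598) (nat_lit 84) (nat_lit 285874404) (nat_lit 112) (nat_lit 5) (nat_lit 119) (nat_lit 5) (nat_lit 113) (nat_lit 5) (nat_lit 402) (nat_lit 369) (nat_lit 174)) (XT.nd (nat_lit 94) (nat_lit 84) (nat_lit 0) (XT.lf (nat_lit 0) (nat_lit 12315908400) (nat_lit 420) (nat_lit 22937905921)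 (nat_lit 504) (nat_lit 424974153) (nat_lit 107) (nat_lit 5) (nat_lit 112) (nat_lit 5) (nat_lit 113) (nat_lit 5) (nat_lit 403) (nat_lit 369) (nat_lit 173)) (XT.lf (nat_lit 0) (nat_lit 3548319969) (nat_lit 504) (nat_lit 7150083317) (nat_lit 84) (nat_lit 25644726919) (nat_lit 106) (nat_lit 5) (nat_lit 112) (nat_lit 5) (nat_lit 107) (nat_lit 5) (nat_lit 404) (nat_lit 369) (nat_lit 172)))) (XT.nd (nat_lit 188) (nat_lit 420) (nat_lit 0) (XT.nd (nat_lit 94) (nat_lit 0) (nat_lit 0) (XT.lf (nat_lit 0) (nat_lit 7742722499) (nat_lit 588) (nat_lit 27311822034) (nat_lit 84) (nat_lit 1969421542) (nat_lit 100) (nat_lit 5) (nat_lit 107) (nat_lit 5) (nat_lit 101) (nat_lit 5) (nat_lit 405) (nat_lit 369) (nat_lit 171)) (XT.lf (nat_lit 0) (nat_lit 12239431618) (nat_lit 588) (nat_lit 10605701759) (nat_lit 84) (nat_lit 14874802955) (nat_lit 100) (nat_lit 5) (nat_lit 107) (nat_lit 5) (nat_lit 101) (nat_lit 5)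 (nat_lit 406) (nat_lit 369) (nat_lit 170))) (XT.nd (nat_lit 94) (nat_lit 0) (nat_lit 0) (XT.lf (nat_lit 0) (nat_lit 6730205431) (nat_lit 420) (nat_lit 10203233408) (nat_lit 504) (nat_lit 21501478396) (nat_lit 95) (nat_lit 5) (nat_lit 100) (nat_lit 5) (nat_lit 101) (nat_lit 5) (nat_lit 407) (nat_lit 369) (nat_lit 169)) (XT.lf (nat_lit 0) (nat_lit 21901249728) (nat_lit 504) (nat_lit 14395453597) (nat_lit 84) (nat_lit 2870658078) (nat_lit 95) (nat_lit 5) (nat_lit 101) (nat_lit 5) (nat_lit 96) (nat_lit 5) (nat_lit 408) (nat_lit 369) (nat_lit 168))))) (XT.nd (nat_lit 282) (nat_lit 840) (nat_lit 0) (XT.nd (nat_lit 94) (nat_lit 0) (nat_lit 0) (XT.lf (nat_lit 0) (nat_lit 3395634611) (nat_lit 420) (nat_lit 23753927913) (nat_lit 504) (nat_lit 12768275589) (nat_lit 90) (nat_lit 5) (nat_lit 95) (nat_lit 5) (nat_lit 96) (nat_lit 5) (nat_lit 409) (nat_lit 369) (nat_lit 167)) (XT.nd (nat_lit 94) (nat_lit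 0) (nat_lit 0) (XT.lf (nat_lit 0) (nat_lit 22012887800) (nat_lit 420) (nat_lit 10685645685) (nat_lit 504) (nat_lit 7988002528) (nat_lit 90) (nat_lit 5) (nat_lit 95) (nat_lit 5) (nat_lit 96) (nat_lit 5) (nat_lit 410) (nat_lit 369) (nat_lit 166)) (XT.lf (nat_lit 0) (nat_lit 38438546598) (nat_lit 504) (nat_lit 318952291) (nat_lit 84) (nat_lit 2720061828) (nat_lit 90) (nat_lit 5) (nat_lit 96) (nat_lit 5) (nat_lit 91) (nat_lit 5) (nat_lit 411) (nat_lit 369) (nat_lit 165)))) (XT.nd (nat_lit 188) (nat_lit 420) (nat_lit 0) (XT.nd (nat_lit 94) (nat_lit 0) (nat_lit 0) (XT.lf (nat_lit 0) (nat_lit 2306012051) (nat_lit 420) (nat_lit 23460611761) (nat_lit 84) (nat_lit 16516469549) (nat_lit 85) (nat_lit 5) (nat_lit 90) (nat_lit 5) (nat_lit 86) (nat_lit 5) (nat_lit 412) (nat_lit 369) (nat_lit 164)) (XT.lf (nat_lit 0) (nat_lit 7751534966) (nat_lit 420) (nat_lit 4600704769) (nat_lit 84) (nat_lit 30759615558)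 (nat_lit 85) (nat_lit 5) (nat_lit 90) (nat_lit 5) (nat_lit 86) (nat_lit 5) (nat_lit 413) (nat_lit 369) (nat_lit 163))) (XT.nd (nat_lit 94) (nat_lit 0) (nat_lit 0) (XT.lf (nat_lit 0) (nat_lit 13519287518) (nat_lit 504) (nat_lit 28859207873) (nat_lit 84) (nat_lit 1582221490) (nat_lit 80) (nat_lit 5) (nat_lit 86) (nat_lit 5) (nat_lit 81) (nat_lit 5) (nat_lit 414) (nat_lit 369) (nat_lit 162)) (XT.lf (nat_lit 0) (nat_lit 19627351661) (nat_lit 504) (nat_lit 9469851243) (nat_lit 84) (nat_lit 15732825682) (nat_lit 80) (nat_lit 5) (nat_lit 86) (nat_lit 5) (nat_lit 81) (nat_lit 5) (nat_lit 415) (nat_lit 369) (nat_lit 161)))))) (XT.nd (nat_lit 658) (nat_lit 1008) (nat_lit 0) (XT.nd (nat_lit 282) (nat_lit 420) (nat_lit 0) (XT.nd (nat_lit 94) (nat_lit 336) (nat_lit 0) (XT.lf (nat_lit 0) (nat_lit 10707664765) (nat_lit 336) (nat_lit 15312039579) (nat_lit 420) (nat_lit 19702686461) (nat_lit 76) (nat_lit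 5) (nat_lit 80) (nat_lit 5) (nat_lit 81) (nat_lit 5) (nat_lit 416) (nat_lit 369) (nat_lit 160)) (XT.nd (nat_lit 94) (nat_lit 336) (nat_lit 0) (XT.lf (nat_lit 0) (nat_lit 31682186672) (nat_lit 336) (nat_lit 1015417196) (nat_lit 420) (nat_lit 13941109220) (nat_lit 76) (nat_lit 5) (nat_lit 80) (nat_lit 5) (nat_lit 81) (nat_lit 5) (nat_lit 417) (nat_lit 369) (nat_lit 159)) (XT.lf (nat_lit 0) (nat_lit 5680045525) (nat_lit 336) (nat_lit 34080382545) (nat_lit 420) (nat_lit 7816561754) (nat_lit 72) (nat_lit 5) (nat_lit 76) (nat_lit 5) (nat_lit 77) (nat_lit 5) (nat_lit 418) (nat_lit 369) (nat_lit 158)))) (XT.nd (nat_lit 188) (nat_lit 336) (nat_lit 0) (XT.nd (nat_lit 94) (nat_lit 84) (nat_lit 0) (XT.lf (nat_lit 0) (nat_lit 27229656866) (nat_lit 336) (nat_lit 19964693948) (nat_lit 420) (nat_lit 1344289979) (nat_lit 72) (nat_lit 5) (nat_lit 76) (nat_lit 5) (nat_lit 77) (nat_lit 5) (nat_lit 419) (nat_lit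 369) (nat_lit 157)) (XT.lf (nat_lit 0) (nat_lit 5216555152) (nat_lit 420) (nat_lit 156909670) (nat_lit 84) (nat_lit 44154196100) (nat_lit 71) (nat_lit 5) (nat_lit 76) (nat_lit 5) (nat_lit 72) (nat_lit 5) (nat_lit 420) (nat_lit 369) (nat_lit 156))) (XT.nd (nat_lit 94) (nat_lit 0) (nat_lit 0) (XT.lf (nat_lit 0) (nat_lit 12252458682) (nat_lit 420) (nat_lit 28590402572) (nat_lit 84) (nat_lit 9693935694) (nat_lit 67) (nat_lit 5) (nat_lit 72) (nat_lit 5) (nat_lit 68) (nat_lit 5) (nat_lit 421) (nat_lit 369) (nat_lit 155)) (XT.lf (nat_lit 0) (nat_lit 19552573803) (nat_lit 420) (nat_lit 6915683634) (nat_lit 84) (nat_lit 25106357665) (nat_lit 67) (nat_lit 5) (nat_lit 72) (nat_lit 5) (nat_lit 68) (nat_lit 5) (nat_lit 422) (nat_lit 369) (nat_lit 154))))) (XT.nd (nat_lit 282) (nat_lit 420) (nat_lit 0) (XT.nd (nat_lit 94) (nat_lit 252) (nat_lit 0) (XT.lf (nat_lit 0) (nat_lit 15713654594) (nat_lit 336)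 (nat_lit 11507467330) (nat_lit 420) (nat_lit 25417965012) (nat_lit 63) (nat_lit 5) (nat_lit 67) (nat_lit 5) (nat_lit 68) (nat_lit 5) (nat_lit 423) (nat_lit 369) (nat_lit 153)) (XT.nd (nat_lit 94) (nat_lit 252) (nat_lit 0) (XT.lf (nat_lit 0) (nat_lit 35226162497) (nat_lit 420) (nat_lit 14610235291) (nat_lit 84) (nat_lit 3895904021) (nat_lit 63) (nat_lit 5) (nat_lit 68) (nat_lit 5) (nat_lit 64) (nat_lit 5) (nat_lit 424) (nat_lit 369) (nat_lit 152)) (XT.lf (nat_lit 0) (nat_lit 8422630579) (nat_lit 252) (nat_lit 35242069019) (nat_lit 336) (nat_lit 11187815077) (nat_lit 60) (nat_lit 5) (nat_lit 63) (nat_lit 5) (nat_lit 64) (nat_lit 5) (nat_lit 425) (nat_lit 369) (nat_lit 151)))) (XT.nd (nat_lit 188) (nat_lit 336) (nat_lit 0) (XT.nd (nat_lit 94) (nat_lit 84) (nat_lit 0) (XT.lf (nat_lit 0) (nat_lit 32443791938) (nat_lit 252) (nat_lit 20058606351) (nat_lit 336) (nat_lit 3499557324) (nat_lit 60)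 (nat_lit 5) (nat_lit 63) (nat_lit 5) (nat_lit 64) (nat_lit 5) (nat_lit 426) (nat_lit 369) (nat_lit 150)) (XT.lf (nat_lit 0) (nat_lit 4331609588) (nat_lit 336) (nat_lit 44927060) (nat_lit 84) (nat_lit 52808115466) (nat_lit 59) (nat_lit 5) (nat_lit 63) (nat_lit 5) (nat_lit 60) (nat_lit 5) (nat_lit 427) (nat_lit 369) (nat_lit 149))) (XT.nd (nat_lit 94) (nat_lit 0) (nat_lit 0) (XT.lf (nat_lit 0) (nat_lit 12678431325) (nat_lit 420) (nat_lit 33893274999) (nat_lit 84) (nat_lit 11819553683) (nat_lit 55) (nat_lit 5) (nat_lit 60) (nat_lit 5) (nat_lit 56) (nat_lit 5) (nat_lit 428) (nat_lit 369) (nat_lit 148)) (XT.lf (nat_lit 0) (nat_lit 21318006911) (nat_lit 420) (nat_lit 9901392946) (nat_lit 84) (nat_lit 28413397449) (nat_lit 55) (nat_lit 5) (nat_lit 60) (nat_lit 5) (nat_lit 56) (nat_lit 5) (nat_lit 429) (nat_lit 369) (nat_lit 147))))))))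
noncomputable def xc193 : XT := (XT.nd (nat_lit 2538) (nat_lit 336) (nat_lit 0) (XT.nd (nat_lit 1222) (nat_lit 1092) (nat_lit 0) (XT.nd (nat_lit 564) (nat_lit 504) (nat_lit 0) (XT.nd (nat_lit 282) (nat_lit 336) (nat_lit 0) (XT.nd (nat_lit 94) (nat_lit 252) (nat_lit 0) (XT.lf (nat_lit 0) (nat_lit 15102909893) (nat_lit 252) (nat_lit 15257639237) (nat_lit 336) (nat_lit 30546719810) (nat_lit 52) (nat_lit 5) (nat_lit 55) (nat_lit 5) (nat_lit 56) (nat_lit 5) (nat_lit 430) (nat_lit 369) (nat_lit 146)) (XT.nd (nat_lit 94) (nat_lit 252) (nat_lit 0) (XT.lf (nat_lit 0) (nat_lit 39785329653) (nat_lit 336) (nat_lit 21171090340) (nat_lit 84) (nat_lit 1260227418) (nat_lit 52) (nat_lit 5) (nat_lit 56) (nat_lit 5) (nat_lit 53) (nat_lit 5) (nat_lit 431) (nat_lit 369) (nat_lit 145)) (XT.lf (nat_lit 0) (nat_lit 4128671673) (nat_lit 252) (nat_lit 45553591247) (nat_lit 336) (nat_lit 13877363540) (nat_lit 49)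 (nat_lit 5) (nat_lit 52) (nat_lit 5) (nat_lit 53) (nat_lit 5) (nat_lit 432) (nat_lit 369) (nat_lit 144)))) (XT.nd (nat_lit 94) (nat_lit 336) (nat_lit 0) (XT.lf (nat_lit 0) (nat_lit 30619428516) (nat_lit 252) (nat_lit 29469138506) (nat_lit 336) (nat_lit 4847955435) (nat_lit 49) (nat_lit 5) (nat_lit 52) (nat_lit 5) (nat_lit 53) (nat_lit 5) (nat_lit 433) (nat_lit 369) (nat_lit 143)) (XT.nd (nat_lit 94) (nat_lit 252) (nat_lit 0) (XT.lf (nat_lit 0) (nat_lit 4364154598) (nat_lit 336) (nat_lit 8494569891) (nat_lit 84) (nat_lit 53494757241) (nat_lit 48) (nat_lit 5) (nat_lit 52) (nat_lit 5) (nat_lit 49) (nat_lit 5) (nat_lit 434) (nat_lit 369) (nat_lit 142)) (XT.lf (nat_lit 0) (nat_lit 13973990127) (nat_lit 336) (nat_lit 49437296483) (nat_lit 84) (nat_lit 4393660483) (nat_lit 45) (nat_lit 5) (nat_lit 49) (nat_lit 5) (nat_lit 46) (nat_lit 5) (nat_lit 435) (nat_lit 369) (nat_lit 141))))) (XT.nd (nat_lit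 282) (nat_lit 252) (nat_lit 0) (XT.nd (nat_lit 94) (nat_lit 252) (nat_lit 0) (XT.lf (nat_lit 0) (nat_lit 24084813804) (nat_lit 336) (nat_lit 23217589383) (nat_lit 84) (nat_lit 21991173734) (nat_lit 45) (nat_lit 5) (nat_lit 49) (nat_lit 5) (nat_lit 46) (nat_lit 5) (nat_lit 436) (nat_lit 369) (nat_lit 140)) (XT.nd (nat_lit 94) (nat_lit 0) (nat_lit 0) (XT.lf (nat_lit 0) (nat_lit 3862219391) (nat_lit 252) (nat_lit 30672656375) (nat_lit 336) (nat_lit 36290913732) (nat_lit 42) (nat_lit 5) (nat_lit 45) (nat_lit 5) (nat_lit 46) (nat_lit 5) (nat_lit 437) (nat_lit 369) (nat_lit 139)) (XT.lf (nat_lit 0) (nat_lit 32228523091) (nat_lit 252) (nat_lit 13303173838) (nat_lit 336) (nat_lit 26865275026) (nat_lit 42) (nat_lit 5) (nat_lit 45) (nat_lit 5) (nat_lit 46) (nat_lit 5) (nat_lit 438) (nat_lit 369) (nat_lit 138)))) (XT.nd (nat_lit 188) (nat_lit 84) (nat_lit 0) (XT.nd (nat_lit 94) (nat_lit 168) (nat_lit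 0) (XT.lf (nat_lit 0) (nat_lit 56901353575) (nat_lit 336) (nat_lit 12615384456) (nat_lit 84) (nat_lit 4497265118) (nat_lit 42) (nat_lit 5) (nat_lit 46) (nat_lit 5) (nat_lit 43) (nat_lit 5) (nat_lit 439) (nat_lit 369) (nat_lit 137)) (XT.lf (nat_lit 0) (nat_lit 15941879973) (nat_lit 168) (nat_lit 52954045620) (nat_lit 252) (nat_lit 6775106068) (nat_lit 40) (nat_lit 5) (nat_lit 42) (nat_lit 5) (nat_lit 43) (nat_lit 5) (nat_lit 440) (nat_lit 369) (nat_lit 136))) (XT.nd (nat_lit 94) (nat_lit 0) (nat_lit 0) (XT.lf (nat_lit 0) (nat_lit 3924520061) (nat_lit 252) (nat_lit 31799737795) (nat_lit 84) (nat_lit 41648571777) (nat_lit 39) (nat_lit 5) (nat_lit 42) (nat_lit 5) (nat_lit 40) (nat_lit 5) (nat_lit 441) (nat_lit 369) (nat_lit 135)) (XT.lf (nat_lit 0) (nat_lit 14807866948) (nat_lit 252) (nat_lit 3101237364) (nat_lit 84) (nat_lit 61214598732) (nat_lit 39) (nat_lit 5) (nat_lit 42) (nat_lit 5) (nat_lit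 40) (nat_lit 5) (nat_lit 442) (nat_lit 369) (nat_lit 134)))))) (XT.nd (nat_lit 658) (nat_lit 420) (nat_lit 0) (XT.nd (nat_lit 282) (nat_lit 252) (nat_lit 0) (XT.nd (nat_lit 94) (nat_lit 168) (nat_lit 0) (XT.lf (nat_lit 0) (nat_lit 26282825700) (nat_lit 336) (nat_lit 53943061243) (nat_lit 84) (nat_lit 693263395) (nat_lit 36) (nat_lit 5) (nat_lit 40) (nat_lit 5) (nat_lit 37) (nat_lit 5) (nat_lit 443) (nat_lit 369) (nat_lit 133)) (XT.nd (nat_lit 94) (nat_lit 168) (nat_lit 0) (XT.lf (nat_lit 0) (nat_lit 38309923687) (nat_lit 336) (nat_lit 24927517792) (nat_lit 84) (nat_lit 19524783853) (nat_lit 36) (nat_lit 5) (nat_lit 40) (nat_lit 5) (nat_lit 37) (nat_lit 5) (nat_lit 444) (nat_lit 369) (nat_lit 132)) (XT.lf (nat_lit 0) (nat_lit 5055516126) (nat_lit 168) (nat_lit 45689892024) (nat_lit 252) (nat_lit 33913758186) (nat_lit 34) (nat_lit 5) (nat_lit 36) (nat_lit 5) (nat_lit 37) (nat_lit 5) (nat_lit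 445) (nat_lit 369) (nat_lit 131)))) (XT.nd (nat_lit 188) (nat_lit 252) (nat_lit 0) (XT.nd (nat_lit 94) (nat_lit 0) (nat_lit 0) (XT.lf (nat_lit 0) (nat_lit 36447419526) (nat_lit 168) (nat_lit 27357247808) (nat_lit 252) (nat_lit 22800827866) (nat_lit 34) (nat_lit 5) (nat_lit 36) (nat_lit 5) (nat_lit 37) (nat_lit 5) (nat_lit 446) (nat_lit 369) (nat_lit 130)) (XT.lf (nat_lit 0) (nat_lit 68779515745) (nat_lit 168) (nat_lit 8475209071) (nat_lit 252) (nat_lit 11355519411) (nat_lit 34) (nat_lit 5) (nat_lit 36) (nat_lit 5) (nat_lit 37) (nat_lit 5) (nat_lit 447) (nat_lit 369) (nat_lit 129))) (XT.nd (nat_lit 94) (nat_lit 0) (nat_lit 0) (XT.lf (nat_lit 0) (nat_lit 642131019) (nat_lit 252) (nat_lit 79150677918) (nat_lit 84) (nat_lit 10875679683) (nat_lit 31) (nat_lit 5) (nat_lit 34) (nat_lit 5) (nat_lit 32) (nat_lit 5) (nat_lit 448) (nat_lit 369) (nat_lit 128)) (XT.lf (nat_lit 0) (nat_lit 13056669973)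 (nat_lit 252) (nat_lit 48769030140) (nat_lit 84) (nat_lit 30950852329) (nat_lit 31) (nat_lit 5) (nat_lit 34) (nat_lit 5) (nat_lit 32) (nat_lit 5) (nat_lit 449) (nat_lit 369) (nat_lit 127))))) (XT.nd (nat_lit 282) (nat_lit 252) (nat_lit 0) (XT.nd (nat_lit 94) (nat_lit 168) (nat_lit 0) (XT.lf (nat_lit 0) (nat_lit 25842719449) (nat_lit 252) (nat_lit 17477435220) (nat_lit 84) (nat_lit 51627732087) (nat_lit 31) (nat_lit 5) (nat_lit 34) (nat_lit 5) (nat_lit 32) (nat_lit 5) (nat_lit 450) (nat_lit 369) (nat_lit 126)) (XT.nd (nat_lit 94) (nat_lit 0) (nat_lit 0) (XT.lf (nat_lit 0) (nat_lit 15045031770) (nat_lit 168) (nat_lit 24111042001) (nat_lit 252) (nat_lit 58023976413) (nat_lit 29) (nat_lit 5) (nat_lit 31) (nat_lit 5) (nat_lit 32) (nat_lit 5) (nat_lit 451) (nat_lit 369) (nat_lit 125)) (XT.lf (nat_lit 0) (nat_lit 48899998823) (nat_lit 168) (nat_lit 4144431333) (nat_lit 252) (nat_lit 46429481079)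 (nat_lit 29) (nat_lit 5) (nat_lit 31) (nat_lit 5) (nat_lit 32) (nat_lit 5) (nat_lit 452) (nat_lit 369) (nat_lit 124)))) (XT.nd (nat_lit 188) (nat_lit 84) (nat_lit 0) (XT.nd (nat_lit 94) (nat_lit 168) (nat_lit 0) (XT.lf (nat_lit 0) (nat_lit 67506421854) (nat_lit 252) (nat_lit 18225247158) (nat_lit 84) (nat_lit 16100210306) (nat_lit 29) (nat_lit 5) (nat_lit 32) (nat_lit 5) (nat_lit 30) (nat_lit 5) (nat_lit 453) (nat_lit 369) (nat_lit 123)) (XT.lf (nat_lit 0) (nat_lit 15351015626) (nat_lit 168) (nat_lit 67239014438) (nat_lit 252) (nat_lit 21664924395) (nat_lit 27) (nat_lit 5) (nat_lit 29) (nat_lit 5) (nat_lit 30) (nat_lit 5) (nat_lit 454) (nat_lit 369) (nat_lit 122))) (XT.nd (nat_lit 94) (nat_lit 84) (nat_lit 0) (XT.lf (nat_lit 0) (nat_lit 50306797483) (nat_lit 168) (nat_lit 48002559060) (nat_lit 252) (nat_lit 8435869709) (nat_lit 27) (nat_lit 5) (nat_lit 29) (nat_lit 5) (nat_lit 30) (nat_lit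 5) (nat_lit 455) (nat_lit 369) (nat_lit 121)) (XT.lf (nat_lit 0) (nat_lit 5087966198) (nat_lit 252) (nat_lit 23050188907) (nat_lit 84) (nat_lit 81170579463) (nat_lit 26) (nat_lit 5) (nat_lit 29) (nat_lit 5) (nat_lit 27) (nat_lit 5) (nat_lit 456) (nat_lit 369) (nat_lit 120))))))) (XT.nd (nat_lit 52076) (nat_lit 0) (nat_lit 9828) (XT.nd (nat_lit 51418) (nat_lit 0) (nat_lit 11844) (XT.nd (nat_lit 282) (nat_lit 168) (nat_lit 0) (XT.nd (nat_lit 94) (nat_lit 0) (nat_lit 0) (XT.lf (nat_lit 0) (nat_lit 11478862323) (nat_lit 168) (nat_lit 7478654057) (nat_lit 252) (nat_lit 92985840134) (nat_lit 24) (nat_lit 5) (nat_lit 26) (nat_lit 5) (nat_lit 27) (nat_lit 5) (nat_lit 457) (nat_lit 369) (nat_lit 119)) (XT.nd (nat_lit 94) (nat_lit 0) (nat_lit 0) (XT.lf (nat_lit 0) (nat_lit 33610095082) (nat_lit 252) (nat_lit 67270020159) (nat_lit 84) (nat_lit 13765894235) (nat_lit 24) (nat_lit 5) (nat_lit 27) (nat_lit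 5) (nat_lit 25) (nat_lit 5) (nat_lit 458) (nat_lit 369) (nat_lit 118)) (XT.lf (nat_lit 0) (nat_lit 48775535687) (nat_lit 252) (nat_lit 33155032325) (nat_lit 84) (nat_lit 35496976083) (nat_lit 24) (nat_lit 5) (nat_lit 27) (nat_lit 5) (nat_lit 25) (nat_lit 5) (nat_lit 459) (nat_lit 369) (nat_lit 117)))) (XT.nd (nat_lit 50948) (nat_lit 0) (nat_lit 12936) (XT.nd (nat_lit 50854) (nat_lit 0) (nat_lit 12936) (XT.lf (nat_lit 0) (nat_lit 2021616950) (nat_lit 168) (nat_lit 62393016218) (nat_lit 252) (nat_lit 55877331356) (nat_lit 22) (nat_lit 5) (nat_lit 24) (nat_lit 5) (nat_lit 25) (nat_lit 5) (nat_lit 460) (nat_lit 369) (nat_lit 116)) (XT.lf (nat_lit 0) (nat_lit 9367076529) (nat_lit 1260) (nat_lit 555460732) (nat_lit 1260) (nat_lit 555460732) (nat_lit 176) (nat_lit 3) (nat_lit 191) (nat_lit 3) (nat_lit 191) (nat_lit 5) (nat_lit 370) (nat_lit 370) (nat_lit 205))) (XT.nd (nat_lit 94) (nat_lit 0)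 (nat_lit 0) (XT.lf (nat_lit 84) (nat_lit 8107643227) (nat_lit 0) (nat_lit 11123264028) (nat_lit 1260) (nat_lit 2032693091) (nat_lit 177) (nat_lit 5) (nat_lit 176) (nat_lit 3) (nat_lit 191) (nat_lit 5) (nat_lit 371) (nat_lit 370) (nat_lit 204)) (XT.lf (nat_lit 84) (nat_lit 17622707526) (nat_lit 0) (nat_lit 2125669282) (nat_lit 1260) (nat_lit 1831891924) (nat_lit 177) (nat_lit 5) (nat_lit 176) (nat_lit 3) (nat_lit 191) (nat_lit 5) (nat_lit 372) (nat_lit 370) (nat_lit 203))))) (XT.nd (nat_lit 282) (nat_lit 1176) (nat_lit 0) (XT.nd (nat_lit 94) (nat_lit 0) (nat_lit 0) (XT.lf (nat_lit 84) (nat_lit 5553565636) (nat_lit 0) (nat_lit 14844617019) (nat_lit 1260) (nat_lit 1504760125) (nat_lit 178) (nat_lit 5) (nat_lit 177) (nat_lit 5) (nat_lit 192) (nat_lit 5) (nat_lit 373) (nat_lit 370) (nat_lit 202)) (XT.nd (nat_lit 94) (nat_lit 0) (nat_lit 84) (XT.lf (nat_lit 84) (nat_lit 15406776979) (nat_lit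 0) (nat_lit 5716409453) (nat_lit 1260) (nat_lit 1110449192) (nat_lit 178) (nat_lit 5) (nat_lit 177) (nat_lit 5) (nat_lit 192) (nat_lit 5) (nat_lit 374) (nat_lit 370) (nat_lit 201)) (XT.lf (nat_lit 84) (nat_lit 3001472331) (nat_lit 0) (nat_lit 18927817868) (nat_lit 1260) (nat_lit 643187962) (nat_lit 179) (nat_lit 5) (nat_lit 178) (nat_lit 5) (nat_lit 193) (nat_lit 5) (nat_lit 375) (nat_lit 370) (nat_lit 200)))) (XT.nd (nat_lit 188) (nat_lit 0) (nat_lit 84) (XT.nd (nat_lit 94) (nat_lit 1260) (nat_lit 0) (XT.lf (nat_lit 84) (nat_lit 13203898126) (nat_lit 0) (nat_lit 9675844313) (nat_lit 1260) (nat_lit 38147706) (nat_lit 179) (nat_lit 5) (nat_lit 178) (nat_lit 5) (nat_lit 193) (nat_lit 5) (nat_lit 376) (nat_lit 370) (nat_lit 199)) (XT.lf (nat_lit 84) (nat_lit 438677982) (nat_lit 0) (nat_lit 134435828) (nat_lit 1344) (nat_lit 22700405980) (nat_lit 164) (nat_lit 5) (nat_lit 163) (nat_lit 5)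 (nat_lit 179) (nat_lit 5) (nat_lit 377) (nat_lit 370) (nat_lit 198))) (XT.nd (nat_lit 94) (nat_lit 0) (nat_lit 0) (XT.lf (nat_lit 0) (nat_lit 1389581832) (nat_lit 1260) (nat_lit 12639470420) (nat_lit 1344) (nat_lit 9605134036) (nat_lit 164) (nat_lit 5) (nat_lit 179) (nat_lit 5) (nat_lit 180) (nat_lit 5) (nat_lit 378) (nat_lit 370) (nat_lit 197)) (XT.lf (nat_lit 0) (nat_lit 2227403870) (nat_lit 1260) (nat_lit 2142602177) (nat_lit 1344) (nat_lit 19635769048) (nat_lit 164) (nat_lit 5) (nat_lit 179) (nat_lit 5) (nat_lit 180) (nat_lit 5) (nat_lit 379) (nat_lit 370) (nat_lit 196)))))) (XT.nd (nat_lit 658) (nat_lit 2184) (nat_lit 0) (XT.nd (nat_lit 282) (nat_lit 0) (nat_lit 84) (XT.nd (nat_lit 94) (nat_lit 0) (nat_lit 0) (XT.lf (nat_lit 0) (nat_lit 3225464318) (nat_lit 1260) (nat_lit 15601880229) (nat_lit 1344) (nat_lit 5557121781) (nat_lit 165) (nat_lit 5) (nat_lit 180) (nat_lit 5) (nat_lit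 181) (nat_lit 5) (nat_lit 380) (nat_lit 370) (nat_lit 195)) (XT.nd (nat_lit 94) (nat_lit 0) (nat_lit 84) (XT.lf (nat_lit 0) (nat_lit 4314354571) (nat_lit 1260) (nat_lit 4740963246) (nat_lit 1344) (nat_lit 15717381489) (nat_lit 165) (nat_lit 5) (nat_lit 180) (nat_lit 5) (nat_lit 181) (nat_lit 5) (nat_lit 381) (nat_lit 370) (nat_lit 194)) (XT.lf (nat_lit 0) (nat_lit 5505313565) (nat_lit 1260) (nat_lit 18610127437) (nat_lit 1344) (nat_lit 1055063635) (nat_lit 166) (nat_lit 5) (nat_lit 181) (nat_lit 5) (nat_lit 182) (nat_lit 5) (nat_lit 382) (nat_lit 370) (nat_lit 193)))) (XT.nd (nat_lit 188) (nat_lit 0) (nat_lit 84) (XT.nd (nat_lit 94) (nat_lit 0) (nat_lit 0) (XT.lf (nat_lit 0) (nat_lit 6866001457) (nat_lit 1260) (nat_lit 7374078798) (nat_lit 1344) (nat_lit 11336151076) (nat_lit 166) (nat_lit 5) (nat_lit 181) (nat_lit 5) (nat_lit 182) (nat_lit 5) (nat_lit 383) (nat_lit 370) (nat_lit 192))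 (XT.lf (nat_lit 84) (nat_lit 4279567635) (nat_lit 0) (nat_lit 4025191899) (nat_lit 1344) (nat_lit 17688259804) (nat_lit 167) (nat_lit 5) (nat_lit 166) (nat_lit 5) (nat_lit 182) (nat_lit 5) (nat_lit 384) (nat_lit 370) (nat_lit 191))) (XT.nd (nat_lit 94) (nat_lit 0) (nat_lit 0) (XT.lf (nat_lit 0) (nat_lit 9920530812) (nat_lit 1260) (nat_lit 10052367456) (nat_lit 1344) (nat_lit 6445403997) (nat_lit 167) (nat_lit 5) (nat_lit 182) (nat_lit 5) (nat_lit 183) (nat_lit 5) (nat_lit 385) (nat_lit 370) (nat_lit 190)) (XT.lf (nat_lit 84) (nat_lit 1953819003) (nat_lit 0) (nat_lit 9685906014) (nat_lit 1344) (nat_lit 15214976766) (nat_lit 168) (nat_lit 5) (nat_lit 167) (nat_lit 5) (nat_lit 183) (nat_lit 5) (nat_lit 386) (nat_lit 370) (nat_lit 189))))) (XT.nd (nat_lit 282) (nat_lit 1176) (nat_lit 0) (XT.nd (nat_lit 94) (nat_lit 1260) (nat_lit 0) (XT.lf (nat_lit 0) (nat_lit 13518153773) (nat_lit 1260) (nat_lit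 12787737076) (nat_lit 84) (nat_lit 995079080) (nat_lit 168) (nat_lit 5) (nat_lit 183) (nat_lit 5) (nat_lit 169) (nat_lit 5) (nat_lit 387) (nat_lit 370) (nat_lit 188)) (XT.nd (nat_lit 94) (nat_lit 1260) (nat_lit 0) (XT.lf (nat_lit 0) (nat_lit 15545340232) (nat_lit 1260) (nat_lit 410101141) (nat_lit 84) (nat_lit 11802418817) (nat_lit 168) (nat_lit 5) (nat_lit 183) (nat_lit 5) (nat_lit 169) (nat_lit 5) (nat_lit 388) (nat_lit 370) (nat_lit 187)) (XT.lf (nat_lit 0) (nat_lit 12581456825) (nat_lit 1260) (nat_lit 5169432705) (nat_lit 1344) (nat_lit 10474047251) (nat_lit 153) (nat_lit 5) (nat_lit 168) (nat_lit 5) (nat_lit 169) (nat_lit 5) (nat_lit 389) (nat_lit 370) (nat_lit 186)))) (XT.nd (nat_lit 188) (nat_lit 588) (nat_lit 0) (XT.nd (nat_lit 94) (nat_lit 588) (nat_lit 0) (XT.lf (nat_lit 0) (nat_lit 20080569779) (nat_lit 1344) (nat_lit 2794872343) (nat_lit 84) (nat_lit 5828850472) (nat_lit 153)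 (nat_lit 5) (nat_lit 169) (nat_lit 5) (nat_lit 154) (nat_lit 5) (nat_lit 390) (nat_lit 370) (nat_lit 185)) (XT.lf (nat_lit 0) (nat_lit 10591784476) (nat_lit 588) (nat_lit 12038131655) (nat_lit 672) (nat_lit 6563625371) (nat_lit 146) (nat_lit 5) (nat_lit 153) (nat_lit 5) (nat_lit 154) (nat_lit 5) (nat_lit 391) (nat_lit 370) (nat_lit 184))) (XT.nd (nat_lit 94) (nat_lit 588) (nat_lit 0) (XT.lf (nat_lit 0) (nat_lit 24434451293) (nat_lit 588) (nat_lit 846358922) (nat_lit 672) (nat_lit 4415911166) (nat_lit 146) (nat_lit 5) (nat_lit 153) (nat_lit 5) (nat_lit 154) (nat_lit 5) (nat_lit 392) (nat_lit 370) (nat_lit 183)) (XT.lf (nat_lit 0) (nat_lit 8538445639) (nat_lit 588) (nat_lit 19654475224) (nat_lit 672) (nat_lit 2016630464) (nat_lit 139) (nat_lit 5) (nat_lit 146) (nat_lit 5) (nat_lit 147) (nat_lit 5) (nat_lit 393) (nat_lit 370) (nat_lit 182))))))))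
noncomputable def xc194 : XT := (XT.nd (nat_lit 2538) (nat_lit 3192) (nat_lit 0) (XT.nd (nat_lit 1222) (nat_lit 2352) (nat_lit 0) (XT.nd (nat_lit 564) (nat_lit 1512) (nat_lit 0) (XT.nd (nat_lit 282) (nat_lit 1092) (nat_lit 0) (XT.nd (nat_lit 94) (nat_lit 588) (nat_lit 0) (XT.lf (nat_lit 0) (nat_lit 504767579) (nat_lit 672) (nat_lit 7891328648) (nat_lit 84) (nat_lit 22339773583) (nat_lit 138) (nat_lit 5) (nat_lit 146) (nat_lit 5) (nat_lit 139) (nat_lit 5) (nat_lit 394) (nat_lit 370) (nat_lit 181)) (XT.nd (nat_lit 94) (nat_lit 0) (nat_lit 0) (XT.lf (nat_lit 0) (nat_lit 3151457375) (nat_lit 672) (nat_lit 24903203458) (nat_lit 84) (nat_lit 3220017463) (nat_lit 131) (nat_lit 5) (nat_lit 139) (nat_lit 5) (nat_lit 132) (nat_lit 5) (nat_lit 395) (nat_lit 370) (nat_lit 180)) (XT.lf (nat_lit 0) (nat_lit 6038266978) (nat_lit 672) (nat_lit 10690165507) (nat_lit 84) (nat_lit 15096401742) (nat_lit 131)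 (nat_lit 5) (nat_lit 139) (nat_lit 5) (nat_lit 132) (nat_lit 5) (nat_lit 396) (nat_lit 370) (nat_lit 179)))) (XT.nd (nat_lit 94) (nat_lit 504) (nat_lit 0) (XT.lf (nat_lit 0) (nat_lit 4024976869) (nat_lit 588) (nat_lit 5022592134) (nat_lit 672) (nat_lit 23342853816) (nat_lit 124) (nat_lit 5) (nat_lit 131) (nat_lit 5) (nat_lit 132) (nat_lit 5) (nat_lit 397) (nat_lit 370) (nat_lit 178)) (XT.nd (nat_lit 94) (nat_lit 504) (nat_lit 0) (XT.lf (nat_lit 0) (nat_lit 12321039575) (nat_lit 672) (nat_lit 13640604330) (nat_lit 84) (nat_lit 7006122970) (nat_lit 124) (nat_lit 5) (nat_lit 132) (nat_lit 5) (nat_lit 125) (nat_lit 5) (nat_lit 398) (nat_lit 370) (nat_lit 177)) (XT.lf (nat_lit 0) (nat_lit 1502775363) (nat_lit 504) (nat_lit 14251444961) (nat_lit 588) (nat_lit 17806370108) (nat_lit 118) (nat_lit 5) (nat_lit 124) (nat_lit 5) (nat_lit 125) (nat_lit 5) (nat_lit 399) (nat_lit 370) (nat_lit 176)))))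 (XT.nd (nat_lit 282) (nat_lit 1008) (nat_lit 0) (XT.nd (nat_lit 94) (nat_lit 504) (nat_lit 0) (XT.lf (nat_lit 0) (nat_lit 17377299848) (nat_lit 504) (nat_lit 2048222870) (nat_lit 588) (nat_lit 14741626427) (nat_lit 118) (nat_lit 5) (nat_lit 124) (nat_lit 5) (nat_lit 125) (nat_lit 5) (nat_lit 400) (nat_lit 370) (nat_lit 175)) (XT.nd (nat_lit 94) (nat_lit 504) (nat_lit 0) (XT.lf (nat_lit 0) (nat_lit 23305557003) (nat_lit 588) (nat_lit 1167753394) (nat_lit 84) (nat_lit 10315640546) (nat_lit 118) (nat_lit 5) (nat_lit 125) (nat_lit 5) (nat_lit 119) (nat_lit 5) (nat_lit 401) (nat_lit 370) (nat_lit 174)) (XT.lf (nat_lit 0) (nat_lit 15196572978) (nat_lit 504) (nat_lit 12269309190) (nat_lit 588) (nat_lit 7958611923) (nat_lit 112) (nat_lit 5) (nat_lit 118) (nat_lit 5) (nat_lit 119) (nat_lit 5) (nat_lit 402) (nat_lit 370) (nat_lit 173)))) (XT.nd (nat_lit 188) (nat_lit 588) (nat_lit 0) (XT.nd (nat_lit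 94) (nat_lit 420) (nat_lit 0) (XT.lf (nat_lit 0) (nat_lit 31763393024) (nat_lit 588) (nat_lit 4008731808) (nat_lit 84) (nat_lit 306611297) (nat_lit 112) (nat_lit 5) (nat_lit 119) (nat_lit 5) (nat_lit 113) (nat_lit 5) (nat_lit 403) (nat_lit 370) (nat_lit 172)) (XT.lf (nat_lit 0) (nat_lit 12823119300) (nat_lit 420) (nat_lit 23609098070) (nat_lit 504) (nat_lit 313120177) (nat_lit 107) (nat_lit 5) (nat_lit 112) (nat_lit 5) (nat_lit 113) (nat_lit 5) (nat_lit 404) (nat_lit 370) (nat_lit 171))) (XT.nd (nat_lit 94) (nat_lit 504) (nat_lit 0) (XT.lf (nat_lit 0) (nat_lit 3773382911) (nat_lit 504) (nat_lit 7228323227) (nat_lit 84) (nat_lit 26427979609) (nat_lit 106) (nat_lit 5) (nat_lit 112) (nat_lit 5) (nat_lit 107) (nat_lit 5) (nat_lit 405) (nat_lit 370) (nat_lit 170)) (XT.lf (nat_lit 0) (nat_lit 8091637313) (nat_lit 588) (nat_lit 27992759180) (nat_lit 84) (nat_lit 2046614849) (nat_lit 100) (nat_lit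 5) (nat_lit 107) (nat_lit 5) (nat_lit 101) (nat_lit 5) (nat_lit 406) (nat_lit 370) (nat_lit 169)))))) (XT.nd (nat_lit 658) (nat_lit 1092) (nat_lit 0) (XT.nd (nat_lit 282) (nat_lit 840) (nat_lit 0) (XT.nd (nat_lit 94) (nat_lit 420) (nat_lit 0) (XT.lf (nat_lit 0) (nat_lit 12719850624) (nat_lit 588) (nat_lit 10789486875) (nat_lit 84) (nat_lit 15338630209) (nat_lit 100) (nat_lit 5) (nat_lit 107) (nat_lit 5) (nat_lit 101) (nat_lit 5) (nat_lit 407) (nat_lit 370) (nat_lit 168)) (XT.nd (nat_lit 94) (nat_lit 0) (nat_lit 0) (XT.lf (nat_lit 0) (nat_lit 7065180022) (nat_lit 420) (nat_lit 10487479037) (nat_lit 504) (nat_lit 22031804489) (nat_lit 95) (nat_lit 5) (nat_lit 100) (nat_lit 5) (nat_lit 101) (nat_lit 5) (nat_lit 408) (nat_lit 370) (nat_lit 167)) (XT.lf (nat_lit 0) (nat_lit 22666468874) (nat_lit 504) (nat_lit 14694929261) (nat_lit 84) (nat_lit 2977578766) (nat_lit 95) (nat_lit 5) (nat_lit 101)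 (nat_lit 5) (nat_lit 96) (nat_lit 5) (nat_lit 409) (nat_lit 370) (nat_lit 166)))) (XT.nd (nat_lit 188) (nat_lit 420) (nat_lit 0) (XT.nd (nat_lit 94) (nat_lit 0) (nat_lit 0) (XT.lf (nat_lit 0) (nat_lit 3628593673) (nat_lit 420) (nat_lit 24441746577) (nat_lit 504) (nat_lit 13041689044) (nat_lit 90) (nat_lit 5) (nat_lit 95) (nat_lit 5) (nat_lit 96) (nat_lit 5) (nat_lit 410) (nat_lit 370) (nat_lit 165)) (XT.lf (nat_lit 0) (nat_lit 22800546301) (nat_lit 420) (nat_lit 10982138188) (nat_lit 504) (nat_lit 8121201038) (nat_lit 90) (nat_lit 5) (nat_lit 95) (nat_lit 5) (nat_lit 96) (nat_lit 5) (nat_lit 411) (nat_lit 370) (nat_lit 164))) (XT.nd (nat_lit 94) (nat_lit 420) (nat_lit 0) (XT.lf (nat_lit 0) (nat_lit 39692117017) (nat_lit 504) (nat_lit 202028635) (nat_lit 84) (nat_lit 2824583140) (nat_lit 90) (nat_lit 5) (nat_lit 96) (nat_lit 5) (nat_lit 91) (nat_lit 5) (nat_lit 412) (nat_lit 370) (nat_lit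 163)) (XT.lf (nat_lit 0) (nat_lit 2475002207) (nat_lit 420) (nat_lit 24037053671) (nat_lit 84) (nat_lit 17036398063) (nat_lit 85) (nat_lit 5) (nat_lit 90) (nat_lit 5) (nat_lit 86) (nat_lit 5) (nat_lit 413) (nat_lit 370) (nat_lit 162))))) (XT.nd (nat_lit 282) (nat_lit 672) (nat_lit 0) (XT.nd (nat_lit 94) (nat_lit 420) (nat_lit 0) (XT.lf (nat_lit 0) (nat_lit 8080983728) (nat_lit 420) (nat_lit 4615059463) (nat_lit 84) (nat_lit 31706126770) (nat_lit 85) (nat_lit 5) (nat_lit 90) (nat_lit 5) (nat_lit 86) (nat_lit 5) (nat_lit 414) (nat_lit 370) (nat_lit 161)) (XT.nd (nat_lit 94) (nat_lit 0) (nat_lit 0) (XT.lf (nat_lit 0) (nat_lit 14020384981) (nat_lit 504) (nat_lit 29599803776) (nat_lit 84) (nat_lit 1656354056) (nat_lit 80) (nat_lit 5) (nat_lit 86) (nat_lit 5) (nat_lit 81) (nat_lit 5) (nat_lit 415) (nat_lit 370) (nat_lit 160)) (XT.lf (nat_lit 0) (nat_lit 20308908946) (nat_lit 504) (nat_lit 9632412476)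 (nat_lit 84) (nat_lit 16230699697) (nat_lit 80) (nat_lit 5) (nat_lit 86) (nat_lit 5) (nat_lit 81) (nat_lit 5) (nat_lit 416) (nat_lit 370) (nat_lit 159)))) (XT.nd (nat_lit 188) (nat_lit 336) (nat_lit 0) (XT.nd (nat_lit 94) (nat_lit 0) (nat_lit 0) (XT.lf (nat_lit 0) (nat_lit 11149237499) (nat_lit 336) (nat_lit 15742250449) (nat_lit 420) (nat_lit 20199716260) (nat_lit 76) (nat_lit 5) (nat_lit 80) (nat_lit 5) (nat_lit 81) (nat_lit 5) (nat_lit 417) (nat_lit 370) (nat_lit 158)) (XT.lf (nat_lit 0) (nat_lit 32749489934) (nat_lit 336) (nat_lit 1017578433) (nat_lit 420) (nat_lit 14268031046) (nat_lit 76) (nat_lit 5) (nat_lit 80) (nat_lit 5) (nat_lit 81) (nat_lit 5) (nat_lit 418) (nat_lit 370) (nat_lit 157))) (XT.nd (nat_lit 94) (nat_lit 0) (nat_lit 0) (XT.lf (nat_lit 0) (nat_lit 5968617566) (nat_lit 336) (nat_lit 35071981055) (nat_lit 420) (nat_lit 7960964657) (nat_lit 72) (nat_lit 5) (nat_lit 76)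 (nat_lit 5) (nat_lit 77) (nat_lit 5) (nat_lit 419) (nat_lit 370) (nat_lit 156)) (XT.lf (nat_lit 0) (nat_lit 28161275382) (nat_lit 336) (nat_lit 20533719265) (nat_lit 420) (nat_lit 1297148824) (nat_lit 72) (nat_lit 5) (nat_lit 76) (nat_lit 5) (nat_lit 77) (nat_lit 5) (nat_lit 420) (nat_lit 370) (nat_lit 155))))))) (XT.nd (nat_lit 1316) (nat_lit 1260) (nat_lit 0) (XT.nd (nat_lit 658) (nat_lit 924) (nat_lit 0) (XT.nd (nat_lit 282) (nat_lit 588) (nat_lit 0) (XT.nd (nat_lit 94) (nat_lit 336) (nat_lit 0) (XT.lf (nat_lit 0) (nat_lit 5456316858) (nat_lit 420) (nat_lit 48466919) (nat_lit 84) (nat_lit 45506103312) (nat_lit 71) (nat_lit 5) (nat_lit 76) (nat_lit 5) (nat_lit 72) (nat_lit 5) (nat_lit 421) (nat_lit 370) (nat_lit 154)) (XT.nd (nat_lit 94) (nat_lit 0) (nat_lit 0) (XT.lf (nat_lit 0) (nat_lit 12702238871) (nat_lit 420) (nat_lit 29333803355) (nat_lit 84) (nat_lit 10014289807) (nat_lit 67)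 (nat_lit 5) (nat_lit 72) (nat_lit 5) (nat_lit 68) (nat_lit 5) (nat_lit 422) (nat_lit 370) (nat_lit 153)) (XT.lf (nat_lit 0) (nat_lit 20218963083) (nat_lit 420) (nat_lit 7012172304) (nat_lit 84) (nat_lit 25888224164) (nat_lit 67) (nat_lit 5) (nat_lit 72) (nat_lit 5) (nat_lit 68) (nat_lit 5) (nat_lit 423) (nat_lit 370) (nat_lit 152)))) (XT.nd (nat_lit 188) (nat_lit 252) (nat_lit 0) (XT.nd (nat_lit 94) (nat_lit 0) (nat_lit 0) (XT.lf (nat_lit 0) (nat_lit 16294958014) (nat_lit 336) (nat_lit 11821341377) (nat_lit 420) (nat_lit 26099507100) (nat_lit 63) (nat_lit 5) (nat_lit 67) (nat_lit 5) (nat_lit 68) (nat_lit 5) (nat_lit 424) (nat_lit 370) (nat_lit 151)) (XT.lf (nat_lit 0) (nat_lit 36359496076) (nat_lit 420) (nat_lit 14939760330) (nat_lit 84) (nat_lit 4042624076) (nat_lit 63) (nat_lit 5) (nat_lit 68) (nat_lit 5) (nat_lit 64) (nat_lit 5) (nat_lit 425) (nat_lit 370) (nat_lit 150))) (XT.nd (nat_lit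 94) (nat_lit 0) (nat_lit 0) (XT.lf (nat_lit 0) (nat_lit 8783025026) (nat_lit 252) (nat_lit 36266970117) (nat_lit 336) (nat_lit 11445743150) (nat_lit 60) (nat_lit 5) (nat_lit 63) (nat_lit 5) (nat_lit 64) (nat_lit 5) (nat_lit 426) (nat_lit 370) (nat_lit 149)) (XT.lf (nat_lit 0) (nat_lit 33521683880) (nat_lit 252) (nat_lit 20628946122) (nat_lit 336) (nat_lit 3529100956) (nat_lit 60) (nat_lit 5) (nat_lit 63) (nat_lit 5) (nat_lit 64) (nat_lit 5) (nat_lit 427) (nat_lit 370) (nat_lit 148))))) (XT.nd (nat_lit 282) (nat_lit 504) (nat_lit 0) (XT.nd (nat_lit 94) (nat_lit 0) (nat_lit 0) (XT.lf (nat_lit 0) (nat_lit 57899916) (nat_lit 336) (nat_lit 4476030957) (nat_lit 420) (nat_lit 54364006167) (nat_lit 55) (nat_lit 5) (nat_lit 59) (nat_lit 5) (nat_lit 60) (nat_lit 5) (nat_lit 428) (nat_lit 370) (nat_lit 147)) (XT.nd (nat_lit 94) (nat_lit 0) (nat_lit 0) (XT.lf (nat_lit 0) (nat_lit 13129790927) (nat_lit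 420) (nat_lit 34806137514) (nat_lit 84) (nat_lit 12204858149) (nat_lit 55) (nat_lit 5) (nat_lit 60) (nat_lit 5) (nat_lit 56) (nat_lit 5) (nat_lit 429) (nat_lit 370) (nat_lit 146)) (XT.lf (nat_lit 0) (nat_lit 22026485626) (nat_lit 420) (nat_lit 10097526253) (nat_lit 84) (nat_lit 29295622533) (nat_lit 55) (nat_lit 5) (nat_lit 60) (nat_lit 5) (nat_lit 56) (nat_lit 5) (nat_lit 430) (nat_lit 370) (nat_lit 145)))) (XT.nd (nat_lit 188) (nat_lit 252) (nat_lit 0) (XT.nd (nat_lit 94) (nat_lit 0) (nat_lit 0) (XT.lf (nat_lit 0) (nat_lit 15655916372) (nat_lit 252) (nat_lit 15683340306) (nat_lit 336) (nat_lit 31393117231) (nat_lit 52) (nat_lit 5) (nat_lit 55) (nat_lit 5) (nat_lit 56) (nat_lit 5) (nat_lit 431) (nat_lit 370) (nat_lit 144)) (XT.lf (nat_lit 0) (nat_lit 41045102113) (nat_lit 336) (nat_lit 21707461489) (nat_lit 84) (nat_lit 1328522711) (nat_lit 52) (nat_lit 5) (nat_lit 56) (nat_lit 5) (nat_lit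 53) (nat_lit 5) (nat_lit 432) (nat_lit 370) (nat_lit 143))) (XT.nd (nat_lit 94) (nat_lit 0) (nat_lit 0) (XT.lf (nat_lit 0) (nat_lit 4350325133) (nat_lit 252) (nat_lit 46887629773) (nat_lit 336) (nat_lit 14226431642) (nat_lit 49) (nat_lit 5) (nat_lit 52) (nat_lit 5) (nat_lit 53) (nat_lit 5) (nat_lit 433) (nat_lit 370) (nat_lit 142)) (XT.lf (nat_lit 0) (nat_lit 31632956332) (nat_lit 252) (nat_lit 30321592067) (nat_lit 336) (nat_lit 4928100113) (nat_lit 49) (nat_lit 5) (nat_lit 52) (nat_lit 5) (nat_lit 53) (nat_lit 5) (nat_lit 434) (nat_lit 370) (nat_lit 141)))))) (XT.nd (nat_lit 658) (nat_lit 504) (nat_lit 0) (XT.nd (nat_lit 282) (nat_lit 420) (nat_lit 0) (XT.nd (nat_lit 94) (nat_lit 252) (nat_lit 0) (XT.lf (nat_lit 0) (nat_lit 4557234443) (nat_lit 336) (nat_lit 8655924529) (nat_lit 84) (nat_lit 55128996679) (nat_lit 48) (nat_lit 5) (nat_lit 52) (nat_lit 5) (nat_lit 49) (nat_lit 5) (nat_lit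 435) (nat_lit 370) (nat_lit 140)) (XT.nd (nat_lit 94) (nat_lit 0) (nat_lit 0) (XT.lf (nat_lit 0) (nat_lit 14454745669) (nat_lit 336) (nat_lit 50826249593) (nat_lit 84) (nat_lit 4556190213) (nat_lit 45) (nat_lit 5) (nat_lit 49) (nat_lit 5) (nat_lit 46) (nat_lit 5) (nat_lit 436) (nat_lit 370) (nat_lit 139)) (XT.lf (nat_lit 0) (nat_lit 24867101751) (nat_lit 336) (nat_lit 23822693973) (nat_lit 84) (nat_lit 22680734106) (nat_lit 45) (nat_lit 5) (nat_lit 49) (nat_lit 5) (nat_lit 46) (nat_lit 5) (nat_lit 437) (nat_lit 370) (nat_lit 138)))) (XT.nd (nat_lit 188) (nat_lit 168) (nat_lit 0) (XT.nd (nat_lit 94) (nat_lit 0) (nat_lit 0) (XT.lf (nat_lit 0) (nat_lit 4068612760) (nat_lit 252) (nat_lit 31561182908) (nat_lit 336) (nat_lit 37318941022) (nat_lit 42) (nat_lit 5) (nat_lit 45) (nat_lit 5) (nat_lit 46) (nat_lit 5) (nat_lit 438) (nat_lit 370) (nat_lit 137)) (XT.lf (nat_lit 0) (nat_lit 33283268868)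 (nat_lit 252) (nat_lit 13671537831) (nat_lit 336) (nat_lit 27612301120) (nat_lit 42) (nat_lit 5) (nat_lit 45) (nat_lit 5) (nat_lit 46) (nat_lit 5) (nat_lit 439) (nat_lit 370) (nat_lit 136))) (XT.nd (nat_lit 94) (nat_lit 168) (nat_lit 0) (XT.lf (nat_lit 0) (nat_lit 58664175027) (nat_lit 336) (nat_lit 12907080969) (nat_lit 84) (nat_lit 4661436999) (nat_lit 42) (nat_lit 5) (nat_lit 46) (nat_lit 5) (nat_lit 43) (nat_lit 5) (nat_lit 440) (nat_lit 370) (nat_lit 135)) (XT.lf (nat_lit 0) (nat_lit 16506050756) (nat_lit 168) (nat_lit 54511734626) (nat_lit 252) (nat_lit 6921672600) (nat_lit 40) (nat_lit 5) (nat_lit 42) (nat_lit 5) (nat_lit 43) (nat_lit 5) (nat_lit 441) (nat_lit 370) (nat_lit 134))))) (XT.nd (nat_lit 282) (nat_lit 168) (nat_lit 0) (XT.nd (nat_lit 94) (nat_lit 252) (nat_lit 0) (XT.lf (nat_lit 0) (nat_lit 4096217303) (nat_lit 252) (nat_lit 32669191962) (nat_lit 84) (nat_lit 42926934405)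 (nat_lit 39) (nat_lit 5) (nat_lit 42) (nat_lit 5) (nat_lit 40) (nat_lit 5) (nat_lit 442) (nat_lit 370) (nat_lit 133)) (XT.nd (nat_lit 94) (nat_lit 252) (nat_lit 0) (XT.lf (nat_lit 0) (nat_lit 15304492898) (nat_lit 252) (nat_lit 3112198789) (nat_lit 84) (nat_lit 63079100262) (nat_lit 39) (nat_lit 5) (nat_lit 42) (nat_lit 5) (nat_lit 40) (nat_lit 5) (nat_lit 443) (nat_lit 370) (nat_lit 132)) (XT.lf (nat_lit 0) (nat_lit 27123240501) (nat_lit 336) (nat_lit 55478768455) (nat_lit 84) (nat_lit 743108975) (nat_lit 36) (nat_lit 5) (nat_lit 40) (nat_lit 5) (nat_lit 37) (nat_lit 5) (nat_lit 444) (nat_lit 370) (nat_lit 131)))) (XT.nd (nat_lit 188) (nat_lit 0) (nat_lit 0) (XT.nd (nat_lit 94) (nat_lit 168) (nat_lit 0) (XT.lf (nat_lit 0) (nat_lit 39509638902) (nat_lit 336) (nat_lit 25595164077) (nat_lit 84) (nat_lit 20138728998) (nat_lit 36) (nat_lit 5) (nat_lit 40) (nat_lit 5) (nat_lit 37) (nat_lit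 5) (nat_lit 445) (nat_lit 370) (nat_lit 130)) (XT.lf (nat_lit 0) (nat_lit 5286574787) (nat_lit 168) (nat_lit 47030907816) (nat_lit 252) (nat_lit 34879921152) (nat_lit 34) (nat_lit 5) (nat_lit 36) (nat_lit 5) (nat_lit 37) (nat_lit 5) (nat_lit 446) (nat_lit 370) (nat_lit 129))) (XT.nd (nat_lit 94) (nat_lit 0) (nat_lit 0) (XT.lf (nat_lit 0) (nat_lit 37617922867) (nat_lit 168) (nat_lit 28149148769) (nat_lit 252) (nat_lit 23435095635) (nat_lit 34) (nat_lit 5) (nat_lit 36) (nat_lit 5) (nat_lit 37) (nat_lit 5) (nat_lit 447) (nat_lit 370) (nat_lit 128)) (XT.lf (nat_lit 0) (nat_lit 70917736901) (nat_lit 168) (nat_lit 8701488184) (nat_lit 252) (nat_lit 11647877162) (nat_lit 34) (nat_lit 5) (nat_lit 36) (nat_lit 5) (nat_lit 37) (nat_lit 5) (nat_lit 448) (nat_lit 370) (nat_lit 127))))))))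
noncomputable def xc195 : XT := (XT.nd (nat_lit 53486) (nat_lit 0) (nat_lit 5124) (XT.nd (nat_lit 52170) (nat_lit 0) (nat_lit 11676) (XT.nd (nat_lit 658) (nat_lit 252) (nat_lit 0) (XT.nd (nat_lit 282) (nat_lit 336) (nat_lit 0) (XT.nd (nat_lit 94) (nat_lit 0) (nat_lit 0) (XT.lf (nat_lit 0) (nat_lit 708374952) (nat_lit 252) (nat_lit 81448951409) (nat_lit 84) (nat_lit 11229766467) (nat_lit 31) (nat_lit 5) (nat_lit 34) (nat_lit 5) (nat_lit 32) (nat_lit 5) (nat_lit 449) (nat_lit 370) (nat_lit 126)) (XT.nd (nat_lit 94) (nat_lit 0) (nat_lit 0) (XT.lf (nat_lit 0) (nat_lit 13493981725) (nat_lit 252) (nat_lit 50158074979) (nat_lit 84) (nat_lit 31906384106) (nat_lit 31) (nat_lit 5) (nat_lit 34) (nat_lit 5) (nat_lit 32) (nat_lit 5) (nat_lit 450) (nat_lit 370) (nat_lit 125)) (XT.lf (nat_lit 0) (nat_lit 26662284190) (nat_lit 252) (nat_lit 17929888311) (nat_lit 84) (nat_lit 53202783668) (nat_lit 31)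 (nat_lit 5) (nat_lit 34) (nat_lit 5) (nat_lit 32) (nat_lit 5) (nat_lit 451) (nat_lit 370) (nat_lit 124)))) (XT.nd (nat_lit 188) (nat_lit 168) (nat_lit 0) (XT.nd (nat_lit 94) (nat_lit 0) (nat_lit 0) (XT.lf (nat_lit 0) (nat_lit 15567548082) (nat_lit 168) (nat_lit 24806885345) (nat_lit 252) (nat_lit 59719670373) (nat_lit 29) (nat_lit 5) (nat_lit 31) (nat_lit 5) (nat_lit 32) (nat_lit 5) (nat_lit 452) (nat_lit 370) (nat_lit 123)) (XT.lf (nat_lit 0) (nat_lit 50436091368) (nat_lit 168) (nat_lit 4242076976) (nat_lit 252) (nat_lit 47778651596) (nat_lit 29) (nat_lit 5) (nat_lit 31) (nat_lit 5) (nat_lit 32) (nat_lit 5) (nat_lit 453) (nat_lit 370) (nat_lit 122))) (XT.nd (nat_lit 94) (nat_lit 168) (nat_lit 0) (XT.lf (nat_lit 0) (nat_lit 69573033751) (nat_lit 252) (nat_lit 18703902943) (nat_lit 84) (nat_lit 16608621015) (nat_lit 29) (nat_lit 5) (nat_lit 32) (nat_lit 5) (nat_lit 30) (nat_lit 5) (nat_lit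 454) (nat_lit 370) (nat_lit 121)) (XT.lf (nat_lit 0) (nat_lit 15878980061) (nat_lit 168) (nat_lit 69229611977) (nat_lit 252) (nat_lit 22272750843) (nat_lit 27) (nat_lit 5) (nat_lit 29) (nat_lit 5) (nat_lit 30) (nat_lit 5) (nat_lit 455) (nat_lit 370) (nat_lit 120))))) (XT.nd (nat_lit 282) (nat_lit 0) (nat_lit 0) (XT.nd (nat_lit 94) (nat_lit 252) (nat_lit 0) (XT.lf (nat_lit 0) (nat_lit 51881471277) (nat_lit 168) (nat_lit 49416836906) (nat_lit 252) (nat_lit 8648051350) (nat_lit 27) (nat_lit 5) (nat_lit 29) (nat_lit 5) (nat_lit 30) (nat_lit 5) (nat_lit 456) (nat_lit 370) (nat_lit 119)) (XT.nd (nat_lit 94) (nat_lit 168) (nat_lit 0) (XT.lf (nat_lit 0) (nat_lit 5279533778) (nat_lit 252) (nat_lit 23677325376) (nat_lit 84) (nat_lit 83629938131) (nat_lit 26) (nat_lit 5) (nat_lit 29) (nat_lit 5) (nat_lit 27) (nat_lit 5) (nat_lit 457) (nat_lit 370) (nat_lit 118)) (XT.lf (nat_lit 0) (nat_lit 11886966320)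 (nat_lit 168) (nat_lit 7677682993) (nat_lit 252) (nat_lit 95735825127) (nat_lit 24) (nat_lit 5) (nat_lit 26) (nat_lit 5) (nat_lit 27) (nat_lit 5) (nat_lit 458) (nat_lit 370) (nat_lit 117)))) (XT.nd (nat_lit 51042) (nat_lit 0) (nat_lit 12768) (XT.nd (nat_lit 94) (nat_lit 0) (nat_lit 0) (XT.lf (nat_lit 0) (nat_lit 34655923115) (nat_lit 252) (nat_lit 69225327169) (nat_lit 84) (nat_lit 14202984065) (nat_lit 24) (nat_lit 5) (nat_lit 27) (nat_lit 5) (nat_lit 25) (nat_lit 5) (nat_lit 459) (nat_lit 370) (nat_lit 116)) (XT.lf (nat_lit 0) (nat_lit 50275233971) (nat_lit 252) (nat_lit 34088718640) (nat_lit 84) (nat_lit 36585296048) (nat_lit 24) (nat_lit 5) (nat_lit 27) (nat_lit 5) (nat_lit 25) (nat_lit 5) (nat_lit 460) (nat_lit 370) (nat_lit 115))) (XT.nd (nat_lit 94) (nat_lit 0) (nat_lit 0) (XT.lf (nat_lit 0) (nat_lit 9784570421) (nat_lit 1260) (nat_lit 501706136) (nat_lit 1260) (nat_lit 501706136)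 (nat_lit 176) (nat_lit 3) (nat_lit 191) (nat_lit 3) (nat_lit 191) (nat_lit 5) (nat_lit 371) (nat_lit 371) (nat_lit 203)) (XT.lf (nat_lit 84) (nat_lit 8490328606) (nat_lit 0) (nat_lit 11583859212) (nat_lit 1260) (nat_lit 1818823547) (nat_lit 177) (nat_lit 5) (nat_lit 176) (nat_lit 3) (nat_lit 191) (nat_lit 5) (nat_lit 372) (nat_lit 371) (nat_lit 202)))))) (XT.nd (nat_lit 658) (nat_lit 0) (nat_lit 84) (XT.nd (nat_lit 282) (nat_lit 1092) (nat_lit 0) (XT.nd (nat_lit 94) (nat_lit 0) (nat_lit 84) (XT.lf (nat_lit 84) (nat_lit 18286783006) (nat_lit 0) (nat_lit 2312640587) (nat_lit 1260) (nat_lit 1620003694) (nat_lit 177) (nat_lit 5) (nat_lit 176) (nat_lit 3) (nat_lit 191) (nat_lit 5) (nat_lit 373) (nat_lit 371) (nat_lit 201)) (XT.nd (nat_lit 94) (nat_lit 0) (nat_lit 0) (XT.lf (nat_lit 84) (nat_lit 5863580769) (nat_lit 0) (nat_lit 15397839674) (nat_lit 1260) (nat_lit 1290594528) (nat_lit 178) (nat_lit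 5) (nat_lit 177) (nat_lit 5) (nat_lit 192) (nat_lit 5) (nat_lit 374) (nat_lit 371) (nat_lit 200)) (XT.lf (nat_lit 84) (nat_lit 16008211516) (nat_lit 0) (nat_lit 5992643625) (nat_lit 1260) (nat_lit 892006939) (nat_lit 178) (nat_lit 5) (nat_lit 177) (nat_lit 5) (nat_lit 192) (nat_lit 5) (nat_lit 375) (nat_lit 371) (nat_lit 199)))) (XT.nd (nat_lit 188) (nat_lit 0) (nat_lit 0) (XT.nd (nat_lit 94) (nat_lit 1260) (nat_lit 0) (XT.lf (nat_lit 84) (nat_lit 3238086002) (nat_lit 0) (nat_lit 19586381404) (nat_lit 1260) (nat_lit 417616223) (nat_lit 179) (nat_lit 5) (nat_lit 178) (nat_lit 5) (nat_lit 193) (nat_lit 5) (nat_lit 376) (nat_lit 371) (nat_lit 198)) (XT.lf (nat_lit 0) (nat_lit 194570839) (nat_lit 1260) (nat_lit 9857670427) (nat_lit 1344) (nat_lit 13545779932) (nat_lit 163) (nat_lit 5) (nat_lit 178) (nat_lit 5) (nat_lit 179) (nat_lit 5) (nat_lit 377) (nat_lit 371) (nat_lit 197))) (XT.nd (nat_lit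 94) (nat_lit 0) (nat_lit 84) (XT.lf (nat_lit 84) (nat_lit 597757233) (nat_lit 0) (nat_lit 220259689) (nat_lit 1344) (nat_lit 23146465429) (nat_lit 164) (nat_lit 5) (nat_lit 163) (nat_lit 5) (nat_lit 179) (nat_lit 5) (nat_lit 378) (nat_lit 371) (nat_lit 196)) (XT.lf (nat_lit 0) (nat_lit 1651583340) (nat_lit 1260) (nat_lit 12869190291) (nat_lit 1344) (nat_lit 9815429074) (nat_lit 164) (nat_lit 5) (nat_lit 179) (nat_lit 5) (nat_lit 180) (nat_lit 5) (nat_lit 379) (nat_lit 371) (nat_lit 195))))) (XT.nd (nat_lit 282) (nat_lit 0) (nat_lit 168) (XT.nd (nat_lit 94) (nat_lit 0) (nat_lit 84) (XT.lf (nat_lit 0) (nat_lit 2508123124) (nat_lit 1260) (nat_lit 2061769328) (nat_lit 1344) (nat_lit 20149250874) (nat_lit 164) (nat_lit 5) (nat_lit 179) (nat_lit 5) (nat_lit 180) (nat_lit 5) (nat_lit 380) (nat_lit 371) (nat_lit 194)) (XT.nd (nat_lit 94) (nat_lit 0) (nat_lit 0) (XT.lf (nat_lit 0) (nat_lit 3530648311)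 (nat_lit 1260) (nat_lit 15918971844) (nat_lit 1344) (nat_lit 5659750759) (nat_lit 165) (nat_lit 5) (nat_lit 180) (nat_lit 5) (nat_lit 181) (nat_lit 5) (nat_lit 381) (nat_lit 371) (nat_lit 193)) (XT.lf (nat_lit 0) (nat_lit 4646134784) (nat_lit 1260) (nat_lit 4736624384) (nat_lit 1344) (nat_lit 16126684802) (nat_lit 165) (nat_lit 5) (nat_lit 180) (nat_lit 5) (nat_lit 181) (nat_lit 5) (nat_lit 382) (nat_lit 371) (nat_lit 192)))) (XT.nd (nat_lit 188) (nat_lit 0) (nat_lit 0) (XT.nd (nat_lit 94) (nat_lit 0) (nat_lit 0) (XT.lf (nat_lit 0) (nat_lit 5867817178) (nat_lit 1260) (nat_lit 19016502959) (nat_lit 1344) (nat_lit 1035024140) (nat_lit 166) (nat_lit 5) (nat_lit 181) (nat_lit 5) (nat_lit 182) (nat_lit 5) (nat_lit 383) (nat_lit 371) (nat_lit 191)) (XT.lf (nat_lit 0) (nat_lit 7263577817) (nat_lit 1260) (nat_lit 7447797957) (nat_lit 1344) (nat_lit 11626049779) (nat_lit 166) (nat_lit 5) (nat_lit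 181) (nat_lit 5) (nat_lit 182) (nat_lit 5) (nat_lit 384) (nat_lit 371) (nat_lit 190))) (XT.nd (nat_lit 94) (nat_lit 0) (nat_lit 84) (XT.lf (nat_lit 84) (nat_lit 4554011759) (nat_lit 0) (nat_lit 4187310393) (nat_lit 1344) (nat_lit 18025530387) (nat_lit 167) (nat_lit 5) (nat_lit 166) (nat_lit 5) (nat_lit 182) (nat_lit 5) (nat_lit 385) (nat_lit 371) (nat_lit 189)) (XT.lf (nat_lit 0) (nat_lit 10399721715) (nat_lit 1260) (nat_lit 10205965588) (nat_lit 1344) (nat_lit 6599391747) (nat_lit 167) (nat_lit 5) (nat_lit 182) (nat_lit 5) (nat_lit 183) (nat_lit 5) (nat_lit 386) (nat_lit 371) (nat_lit 188))))))) (XT.nd (nat_lit 1316) (nat_lit 2772) (nat_lit 0) (XT.nd (nat_lit 658) (nat_lit 2352) (nat_lit 0) (XT.nd (nat_lit 282) (nat_lit 1764) (nat_lit 0) (XT.nd (nat_lit 94) (nat_lit 0) (nat_lit 84) (XT.lf (nat_lit 84) (nat_lit 2158955750) (nat_lit 0) (nat_lit 10007655865) (nat_lit 1344) (nat_lit 15488084809)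 (nat_lit 168) (nat_lit 5) (nat_lit 167) (nat_lit 5) (nat_lit 183) (nat_lit 5) (nat_lit 387) (nat_lit 371) (nat_lit 187)) (XT.nd (nat_lit 94) (nat_lit 0) (nat_lit 0) (XT.lf (nat_lit 0) (nat_lit 14095926733) (nat_lit 1260) (nat_lit 13023341771) (nat_lit 84) (nat_lit 995257298) (nat_lit 168) (nat_lit 5) (nat_lit 183) (nat_lit 5) (nat_lit 169) (nat_lit 5) (nat_lit 388) (nat_lit 371) (nat_lit 186)) (XT.lf (nat_lit 0) (nat_lit 16178912426) (nat_lit 1260) (nat_lit 278688237) (nat_lit 84) (nat_lit 12127681523) (nat_lit 168) (nat_lit 5) (nat_lit 183) (nat_lit 5) (nat_lit 169) (nat_lit 5) (nat_lit 389) (nat_lit 371) (nat_lit 185)))) (XT.nd (nat_lit 188) (nat_lit 588) (nat_lit 0) (XT.nd (nat_lit 94) (nat_lit 0) (nat_lit 0) (XT.lf (nat_lit 0) (nat_lit 13101207489) (nat_lit 1260) (nat_lit 5345918403) (nat_lit 1344) (nat_lit 10619358913) (nat_lit 153) (nat_lit 5) (nat_lit 168) (nat_lit 5) (nat_lit 169)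 (nat_lit 5) (nat_lit 390) (nat_lit 371) (nat_lit 184)) (XT.lf (nat_lit 0) (nat_lit 20841728563) (nat_lit 1344) (nat_lit 2735308053) (nat_lit 84) (nat_lit 5983342129) (nat_lit 153) (nat_lit 5) (nat_lit 169) (nat_lit 5) (nat_lit 154) (nat_lit 5) (nat_lit 391) (nat_lit 371) (nat_lit 183))) (XT.nd (nat_lit 94) (nat_lit 0) (nat_lit 0) (XT.lf (nat_lit 0) (nat_lit 11051542485) (nat_lit 588) (nat_lit 12412754309) (nat_lit 672) (nat_lit 6600114247) (nat_lit 146) (nat_lit 5) (nat_lit 153) (nat_lit 5) (nat_lit 154) (nat_lit 5) (nat_lit 392) (nat_lit 371) (nat_lit 182)) (XT.lf (nat_lit 0) (nat_lit 25305353254) (nat_lit 588) (nat_lit 884835810) (nat_lit 672) (nat_lit 4392641040) (nat_lit 146) (nat_lit 5) (nat_lit 153) (nat_lit 5) (nat_lit 154) (nat_lit 5) (nat_lit 393) (nat_lit 371) (nat_lit 181))))) (XT.nd (nat_lit 282) (nat_lit 1092) (nat_lit 0) (XT.nd (nat_lit 94) (nat_lit 672) (nat_lit 0) (XT.lf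 (nat_lit 0) (nat_lit 8935986267) (nat_lit 588) (nat_lit 20250517004) (nat_lit 672) (nat_lit 1924644168) (nat_lit 139) (nat_lit 5) (nat_lit 146) (nat_lit 5) (nat_lit 147) (nat_lit 5) (nat_lit 394) (nat_lit 371) (nat_lit 180)) (XT.nd (nat_lit 94) (nat_lit 588) (nat_lit 0) (XT.lf (nat_lit 0) (nat_lit 665065630) (nat_lit 672) (nat_lit 7987668600) (nat_lit 84) (nat_lit 23000615170) (nat_lit 138) (nat_lit 5) (nat_lit 146) (nat_lit 5) (nat_lit 139) (nat_lit 5) (nat_lit 395) (nat_lit 371) (nat_lit 179)) (XT.lf (nat_lit 0) (nat_lit 3388233535) (nat_lit 672) (nat_lit 25506742259) (nat_lit 84) (nat_lit 3313441067) (nat_lit 131) (nat_lit 5) (nat_lit 139) (nat_lit 5) (nat_lit 132) (nat_lit 5) (nat_lit 396) (nat_lit 371) (nat_lit 178)))) (XT.nd (nat_lit 188) (nat_lit 504) (nat_lit 0) (XT.nd (nat_lit 94) (nat_lit 588) (nat_lit 0) (XT.lf (nat_lit 0) (nat_lit 6357504734) (nat_lit 672) (nat_lit 10871494450)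 (nat_lit 84) (nat_lit 15546209406) (nat_lit 131) (nat_lit 5) (nat_lit 139) (nat_lit 5) (nat_lit 132) (nat_lit 5) (nat_lit 397) (nat_lit 371) (nat_lit 177)) (XT.lf (nat_lit 0) (nat_lit 4283735765) (nat_lit 588) (nat_lit 5170654655) (nat_lit 672) (nat_lit 23903461920) (nat_lit 124) (nat_lit 5) (nat_lit 131) (nat_lit 5) (nat_lit 132) (nat_lit 5) (nat_lit 398) (nat_lit 371) (nat_lit 176))) (XT.nd (nat_lit 94) (nat_lit 504) (nat_lit 0) (XT.lf (nat_lit 0) (nat_lit 12822145992) (nat_lit 672) (nat_lit 13911698563) (nat_lit 84) (nat_lit 7218796183) (nat_lit 124) (nat_lit 5) (nat_lit 132) (nat_lit 5) (nat_lit 125) (nat_lit 5) (nat_lit 399) (nat_lit 371) (nat_lit 175)) (XT.lf (nat_lit 0) (nat_lit 1684628365) (nat_lit 504) (nat_lit 14671179138) (nat_lit 588) (nat_lit 18207523199) (nat_lit 118) (nat_lit 5) (nat_lit 124) (nat_lit 5) (nat_lit 125) (nat_lit 5) (nat_lit 400) (nat_lit 371) (nat_lit 174))))))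 (XT.nd (nat_lit 658) (nat_lit 1260) (nat_lit 0) (XT.nd (nat_lit 282) (nat_lit 1008) (nat_lit 0) (XT.nd (nat_lit 94) (nat_lit 504) (nat_lit 0) (XT.lf (nat_lit 0) (nat_lit 18031404999) (nat_lit 504) (nat_lit 2102087835) (nat_lit 588) (nat_lit 15054712101) (nat_lit 118) (nat_lit 5) (nat_lit 124) (nat_lit 5) (nat_lit 125) (nat_lit 5) (nat_lit 401) (nat_lit 371) (nat_lit 173)) (XT.nd (nat_lit 94) (nat_lit 504) (nat_lit 0) (XT.lf (nat_lit 0) (nat_lit 24126352175) (nat_lit 588) (nat_lit 1070094773) (nat_lit 84) (nat_lit 10632327018) (nat_lit 118) (nat_lit 5) (nat_lit 125) (nat_lit 5) (nat_lit 119) (nat_lit 5) (nat_lit 402) (nat_lit 371) (nat_lit 172)) (XT.lf (nat_lit 0) (nat_lit 15783860496) (nat_lit 504) (nat_lit 12625347027) (nat_lit 588) (nat_lit 8074250001) (nat_lit 112) (nat_lit 5) (nat_lit 118) (nat_lit 5) (nat_lit 119) (nat_lit 5) (nat_lit 403) (nat_lit 371) (nat_lit 171)))) (XT.nd (nat_lit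 188) (nat_lit 588) (nat_lit 0) (XT.nd (nat_lit 94) (nat_lit 420) (nat_lit 0) (XT.lf (nat_lit 0) (nat_lit 32832279902) (nat_lit 588) (nat_lit 3997881172) (nat_lit 84) (nat_lit 327272225) (nat_lit 112) (nat_lit 5) (nat_lit 119) (nat_lit 5) (nat_lit 113) (nat_lit 5) (nat_lit 404) (nat_lit 371) (nat_lit 170)) (XT.lf (nat_lit 0) (nat_lit 13337640052) (nat_lit 420) (nat_lit 24301398698) (nat_lit 504) (nat_lit 205063315) (nat_lit 107) (nat_lit 5) (nat_lit 112) (nat_lit 5) (nat_lit 113) (nat_lit 5) (nat_lit 405) (nat_lit 371) (nat_lit 169))) (XT.nd (nat_lit 94) (nat_lit 504) (nat_lit 0) (XT.lf (nat_lit 0) (nat_lit 3998388851) (nat_lit 504) (nat_lit 7316732364) (nat_lit 84) (nat_lit 27233931339) (nat_lit 106) (nat_lit 5) (nat_lit 112) (nat_lit 5) (nat_lit 107) (nat_lit 5) (nat_lit 406) (nat_lit 371) (nat_lit 168)) (XT.lf (nat_lit 0) (nat_lit 8444324352) (nat_lit 588) (nat_lit 28702070172) (nat_lit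 84) (nat_lit 2125084329) (nat_lit 100) (nat_lit 5) (nat_lit 107) (nat_lit 5) (nat_lit 101) (nat_lit 5) (nat_lit 407) (nat_lit 371) (nat_lit 167))))) (XT.nd (nat_lit 282) (nat_lit 840) (nat_lit 0) (XT.nd (nat_lit 94) (nat_lit 420) (nat_lit 0) (XT.lf (nat_lit 0) (nat_lit 13208181987) (nat_lit 588) (nat_lit 10986499847) (nat_lit 84) (nat_lit 15815362935) (nat_lit 100) (nat_lit 5) (nat_lit 107) (nat_lit 5) (nat_lit 101) (nat_lit 5) (nat_lit 408) (nat_lit 371) (nat_lit 166)) (XT.nd (nat_lit 94) (nat_lit 0) (nat_lit 0) (XT.lf (nat_lit 0) (nat_lit 7402565178) (nat_lit 420) (nat_lit 10781506394) (nat_lit 504) (nat_lit 22584625663) (nat_lit 95) (nat_lit 5) (nat_lit 100) (nat_lit 5) (nat_lit 101) (nat_lit 5) (nat_lit 409) (nat_lit 371) (nat_lit 165)) (XT.lf (nat_lit 0) (nat_lit 23448434525) (nat_lit 504) (nat_lit 15010988804) (nat_lit 84) (nat_lit 3086513015) (nat_lit 95) (nat_lit 5) (nat_lit 101)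 (nat_lit 5) (nat_lit 96) (nat_lit 5) (nat_lit 410) (nat_lit 371) (nat_lit 164)))) (XT.nd (nat_lit 188) (nat_lit 420) (nat_lit 0) (XT.nd (nat_lit 94) (nat_lit 0) (nat_lit 0) (XT.lf (nat_lit 0) (nat_lit 3861016403) (nat_lit 420) (nat_lit 25151623375) (nat_lit 504) (nat_lit 13329598389) (nat_lit 90) (nat_lit 5) (nat_lit 95) (nat_lit 5) (nat_lit 96) (nat_lit 5) (nat_lit 411) (nat_lit 371) (nat_lit 163)) (XT.lf (nat_lit 0) (nat_lit 23604528631) (nat_lit 420) (nat_lit 11288907576) (nat_lit 504) (nat_lit 8264505685) (nat_lit 90) (nat_lit 5) (nat_lit 95) (nat_lit 5) (nat_lit 96) (nat_lit 5) (nat_lit 412) (nat_lit 371) (nat_lit 162))) (XT.nd (nat_lit 94) (nat_lit 420) (nat_lit 0) (XT.lf (nat_lit 0) (nat_lit 40977530372) (nat_lit 504) (nat_lit 88858440) (nat_lit 84) (nat_lit 2930924421) (nat_lit 90) (nat_lit 5) (nat_lit 96) (nat_lit 5) (nat_lit 91) (nat_lit 5) (nat_lit 413) (nat_lit 371) (nat_lit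 161)) (XT.lf (nat_lit 0) (nat_lit 2643332577) (nat_lit 420) (nat_lit 24638100768) (nat_lit 84) (nat_lit 17570521797) (nat_lit 85) (nat_lit 5) (nat_lit 90) (nat_lit 5) (nat_lit 86) (nat_lit 5) (nat_lit 414) (nat_lit 371) (nat_lit 160))))))))
noncomputable def xc196 : XT := (XT.nd (nat_lit 2538) (nat_lit 1680) (nat_lit 0) (XT.nd (nat_lit 1222) (nat_lit 1512) (nat_lit 0) (XT.nd (nat_lit 564) (nat_lit 1008) (nat_lit 0) (XT.nd (nat_lit 282) (nat_lit 672) (nat_lit 0) (XT.nd (nat_lit 94) (nat_lit 420) (nat_lit 0) (XT.lf (nat_lit 0) (nat_lit 8414753341) (nat_lit 420) (nat_lit 4636943758) (nat_lit 84) (nat_lit 32679671536) (nat_lit 85) (nat_lit 5) (nat_lit 90) (nat_lit 5) (nat_lit 86) (nat_lit 5) (nat_lit 415) (nat_lit 371) (nat_lit 159)) (XT.nd (nat_lit 94) (nat_lit 0) (nat_lit 0) (XT.lf (nat_lit 0) (nat_lit 14531032196) (nat_lit 504) (nat_lit 30369803419) (nat_lit 84) (nat_lit 1731179867) (nat_lit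 80) (nat_lit 5) (nat_lit 86) (nat_lit 5) (nat_lit 81) (nat_lit 5) (nat_lit 416) (nat_lit 371) (nat_lit 158)) (XT.lf (nat_lit 0) (nat_lit 21005589482) (nat_lit 504) (nat_lit 9806827112) (nat_lit 84) (nat_lit 16742023784) (nat_lit 80) (nat_lit 5) (nat_lit 86) (nat_lit 5) (nat_lit 81) (nat_lit 5) (nat_lit 417) (nat_lit 371) (nat_lit 157)))) (XT.nd (nat_lit 94) (nat_lit 336) (nat_lit 0) (XT.lf (nat_lit 0) (nat_lit 11597149247) (nat_lit 336) (nat_lit 16187040992) (nat_lit 420) (nat_lit 20717055854) (nat_lit 76) (nat_lit 5) (nat_lit 80) (nat_lit 5) (nat_lit 81) (nat_lit 5) (nat_lit 418) (nat_lit 371) (nat_lit 156)) (XT.nd (nat_lit 94) (nat_lit 336) (nat_lit 0) (XT.lf (nat_lit 0) (nat_lit 33842105334) (nat_lit 336) (nat_lit 1021429116) (nat_lit 420) (nat_lit 14610002177) (nat_lit 76) (nat_lit 5) (nat_lit 80) (nat_lit 5) (nat_lit 81) (nat_lit 5) (nat_lit 419) (nat_lit 371) (nat_lit 155)) (XT.lf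 (nat_lit 0) (nat_lit 6259063287) (nat_lit 336) (nat_lit 36095096309) (nat_lit 420) (nat_lit 8114871408) (nat_lit 72) (nat_lit 5) (nat_lit 76) (nat_lit 5) (nat_lit 77) (nat_lit 5) (nat_lit 420) (nat_lit 371) (nat_lit 154))))) (XT.nd (nat_lit 282) (nat_lit 588) (nat_lit 0) (XT.nd (nat_lit 94) (nat_lit 420) (nat_lit 0) (XT.lf (nat_lit 0) (nat_lit 29114256551) (nat_lit 336) (nat_lit 21121532613) (nat_lit 420) (nat_lit 1253614562) (nat_lit 72) (nat_lit 5) (nat_lit 76) (nat_lit 5) (nat_lit 77) (nat_lit 5) (nat_lit 421) (nat_lit 371) (nat_lit 153)) (XT.nd (nat_lit 94) (nat_lit 0) (nat_lit 0) (XT.lf (nat_lit 0) (nat_lit 57862954) (nat_lit 336) (nat_lit 5641184920) (nat_lit 420) (nat_lit 46839694941) (nat_lit 67) (nat_lit 5) (nat_lit 71) (nat_lit 5) (nat_lit 72) (nat_lit 5) (nat_lit 422) (nat_lit 371) (nat_lit 152)) (XT.lf (nat_lit 0) (nat_lit 13160793480) (nat_lit 420) (nat_lit 30106068097) (nat_lit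 84) (nat_lit 10342559055) (nat_lit 67) (nat_lit 5) (nat_lit 72) (nat_lit 5) (nat_lit 68) (nat_lit 5) (nat_lit 423) (nat_lit 371) (nat_lit 151)))) (XT.nd (nat_lit 188) (nat_lit 252) (nat_lit 0) (XT.nd (nat_lit 94) (nat_lit 336) (nat_lit 0) (XT.lf (nat_lit 0) (nat_lit 20900762503) (nat_lit 420) (nat_lit 7117926446) (nat_lit 84) (nat_lit 26691900552) (nat_lit 67) (nat_lit 5) (nat_lit 72) (nat_lit 5) (nat_lit 68) (nat_lit 5) (nat_lit 424) (nat_lit 371) (nat_lit 150)) (XT.lf (nat_lit 0) (nat_lit 16887392184) (nat_lit 336) (nat_lit 12146431263) (nat_lit 420) (nat_lit 26806145002) (nat_lit 63) (nat_lit 5) (nat_lit 67) (nat_lit 5) (nat_lit 68) (nat_lit 5) (nat_lit 425) (nat_lit 371) (nat_lit 149))) (XT.nd (nat_lit 94) (nat_lit 252) (nat_lit 0) (XT.lf (nat_lit 0) (nat_lit 37522435452) (nat_lit 420) (nat_lit 15285415653) (nat_lit 84) (nat_lit 4192032625) (nat_lit 63) (nat_lit 5) (nat_lit 68) (nat_lit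 5) (nat_lit 64) (nat_lit 5) (nat_lit 426) (nat_lit 371) (nat_lit 148)) (XT.lf (nat_lit 0) (nat_lit 9148047994) (nat_lit 252) (nat_lit 37324475900) (nat_lit 336) (nat_lit 11715869729) (nat_lit 60) (nat_lit 5) (nat_lit 63) (nat_lit 5) (nat_lit 64) (nat_lit 5) (nat_lit 427) (nat_lit 371) (nat_lit 147)))))) (XT.nd (nat_lit 658) (nat_lit 588) (nat_lit 0) (XT.nd (nat_lit 282) (nat_lit 504) (nat_lit 0) (XT.nd (nat_lit 94) (nat_lit 420) (nat_lit 0) (XT.lf (nat_lit 0) (nat_lit 34625909364) (nat_lit 252) (nat_lit 21218199632) (nat_lit 336) (nat_lit 3563861640) (nat_lit 60) (nat_lit 5) (nat_lit 63) (nat_lit 5) (nat_lit 64) (nat_lit 5) (nat_lit 428) (nat_lit 371) (nat_lit 146)) (XT.nd (nat_lit 94) (nat_lit 0) (nat_lit 0) (XT.lf (nat_lit 0) (nat_lit 158699737) (nat_lit 336) (nat_lit 4579895185) (nat_lit 420) (nat_lit 55924142187) (nat_lit 55) (nat_lit 5) (nat_lit 59) (nat_lit 5) (nat_lit 60) (nat_lit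 5) (nat_lit 429) (nat_lit 371) (nat_lit 145)) (XT.lf (nat_lit 0) (nat_lit 13590615245) (nat_lit 420) (nat_lit 35752352240) (nat_lit 84) (nat_lit 12599958419) (nat_lit 55) (nat_lit 5) (nat_lit 60) (nat_lit 5) (nat_lit 56) (nat_lit 5) (nat_lit 430) (nat_lit 371) (nat_lit 144)))) (XT.nd (nat_lit 188) (nat_lit 252) (nat_lit 0) (XT.nd (nat_lit 94) (nat_lit 252) (nat_lit 0) (XT.lf (nat_lit 0) (nat_lit 22752261350) (nat_lit 420) (nat_lit 10305336120) (nat_lit 84) (nat_lit 30202602399) (nat_lit 55) (nat_lit 5) (nat_lit 60) (nat_lit 5) (nat_lit 56) (nat_lit 5) (nat_lit 431) (nat_lit 371) (nat_lit 143)) (XT.lf (nat_lit 0) (nat_lit 16219777275) (nat_lit 252) (nat_lit 16123650951) (nat_lit 336) (nat_lit 32268925101) (nat_lit 52) (nat_lit 5) (nat_lit 55) (nat_lit 5) (nat_lit 56) (nat_lit 5) (nat_lit 432) (nat_lit 371) (nat_lit 142))) (XT.nd (nat_lit 94) (nat_lit 252) (nat_lit 0) (XT.lf (nat_lit 0)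 (nat_lit 42338866874) (nat_lit 336) (nat_lit 22265593091) (nat_lit 84) (nat_lit 1397116700) (nat_lit 52) (nat_lit 5) (nat_lit 56) (nat_lit 5) (nat_lit 53) (nat_lit 5) (nat_lit 433) (nat_lit 371) (nat_lit 141)) (XT.lf (nat_lit 0) (nat_lit 4573014460) (nat_lit 252) (nat_lit 48263559060) (nat_lit 336) (nat_lit 14589832373) (nat_lit 49) (nat_lit 5) (nat_lit 52) (nat_lit 5) (nat_lit 53) (nat_lit 5) (nat_lit 434) (nat_lit 371) (nat_lit 140))))) (XT.nd (nat_lit 282) (nat_lit 252) (nat_lit 0) (XT.nd (nat_lit 94) (nat_lit 336) (nat_lit 0) (XT.lf (nat_lit 0) (nat_lit 32671439754) (nat_lit 252) (nat_lit 31201434387) (nat_lit 336) (nat_lit 5014397274) (nat_lit 49) (nat_lit 5) (nat_lit 52) (nat_lit 5) (nat_lit 53) (nat_lit 5) (nat_lit 435) (nat_lit 371) (nat_lit 139)) (XT.nd (nat_lit 94) (nat_lit 252) (nat_lit 0) (XT.lf (nat_lit 0) (nat_lit 4752538721) (nat_lit 336) (nat_lit 8827486082) (nat_lit 84)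 (nat_lit 56810575807) (nat_lit 48) (nat_lit 5) (nat_lit 52) (nat_lit 5) (nat_lit 49) (nat_lit 5) (nat_lit 436) (nat_lit 371) (nat_lit 138)) (XT.lf (nat_lit 0) (nat_lit 14946391468) (nat_lit 336) (nat_lit 52262276797) (nat_lit 84) (nat_lit 4721832386) (nat_lit 45) (nat_lit 5) (nat_lit 49) (nat_lit 5) (nat_lit 46) (nat_lit 5) (nat_lit 437) (nat_lit 371) (nat_lit 137)))) (XT.nd (nat_lit 188) (nat_lit 0) (nat_lit 0) (XT.nd (nat_lit 94) (nat_lit 252) (nat_lit 0) (XT.lf (nat_lit 0) (nat_lit 25669428812) (nat_lit 336) (nat_lit 24451199760) (nat_lit 84) (nat_lit 23389269204) (nat_lit 45) (nat_lit 5) (nat_lit 49) (nat_lit 5) (nat_lit 46) (nat_lit 5) (nat_lit 438) (nat_lit 371) (nat_lit 136)) (XT.lf (nat_lit 0) (nat_lit 4276001321) (nat_lit 252) (nat_lit 32478182257) (nat_lit 336) (nat_lit 38381293567) (nat_lit 42) (nat_lit 5) (nat_lit 45) (nat_lit 5) (nat_lit 46) (nat_lit 5) (nat_lit 439) (nat_lit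 371) (nat_lit 135))) (XT.nd (nat_lit 94) (nat_lit 0) (nat_lit 0) (XT.lf (nat_lit 0) (nat_lit 34364611768) (nat_lit 252) (nat_lit 14052716842) (nat_lit 336) (nat_lit 28385120944) (nat_lit 42) (nat_lit 5) (nat_lit 45) (nat_lit 5) (nat_lit 46) (nat_lit 5) (nat_lit 440) (nat_lit 371) (nat_lit 134)) (XT.lf (nat_lit 0) (nat_lit 60476679073) (nat_lit 336) (nat_lit 13212509044) (nat_lit 84) (nat_lit 4828854741) (nat_lit 42) (nat_lit 5) (nat_lit 46) (nat_lit 5) (nat_lit 43) (nat_lit 5) (nat_lit 441) (nat_lit 371) (nat_lit 133))))))) (XT.nd (nat_lit 1316) (nat_lit 588) (nat_lit 0) (XT.nd (nat_lit 658) (nat_lit 420) (nat_lit 0) (XT.nd (nat_lit 282) (nat_lit 420) (nat_lit 0) (XT.nd (nat_lit 94) (nat_lit 84) (nat_lit 0) (XT.lf (nat_lit 0) (nat_lit 17082214825) (nat_lit 168) (nat_lit 56117929947) (nat_lit 252) (nat_lit 7075890173) (nat_lit 40) (nat_lit 5) (nat_lit 42) (nat_lit 5) (nat_lit 43) (nat_lit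 5) (nat_lit 442) (nat_lit 371) (nat_lit 132)) (XT.nd (nat_lit 94) (nat_lit 0) (nat_lit 0) (XT.lf (nat_lit 0) (nat_lit 4269967844) (nat_lit 252) (nat_lit 33569582579) (nat_lit 84) (nat_lit 44241988620) (nat_lit 39) (nat_lit 5) (nat_lit 42) (nat_lit 5) (nat_lit 40) (nat_lit 5) (nat_lit 443) (nat_lit 371) (nat_lit 131)) (XT.lf (nat_lit 0) (nat_lit 15813010231) (nat_lit 252) (nat_lit 3128200537) (nat_lit 84) (nat_lit 64997925875) (nat_lit 39) (nat_lit 5) (nat_lit 42) (nat_lit 5) (nat_lit 40) (nat_lit 5) (nat_lit 444) (nat_lit 371) (nat_lit 130)))) (XT.nd (nat_lit 188) (nat_lit 168) (nat_lit 0) (XT.nd (nat_lit 94) (nat_lit 0) (nat_lit 0) (XT.lf (nat_lit 0) (nat_lit 27985886749) (nat_lit 336) (nat_lit 57065287578) (nat_lit 84) (nat_lit 792782467) (nat_lit 36) (nat_lit 5) (nat_lit 40) (nat_lit 5) (nat_lit 37) (nat_lit 5) (nat_lit 445) (nat_lit 371) (nat_lit 129)) (XT.lf (nat_lit 0) (nat_lit 40742451403)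 (nat_lit 336) (nat_lit 26287442368) (nat_lit 84) (nat_lit 20769473608) (nat_lit 36) (nat_lit 5) (nat_lit 40) (nat_lit 5) (nat_lit 37) (nat_lit 5) (nat_lit 446) (nat_lit 371) (nat_lit 128))) (XT.nd (nat_lit 94) (nat_lit 0) (nat_lit 0) (XT.lf (nat_lit 0) (nat_lit 5520007715) (nat_lit 168) (nat_lit 48413857892) (nat_lit 252) (nat_lit 35878010955) (nat_lit 34) (nat_lit 5) (nat_lit 36) (nat_lit 5) (nat_lit 37) (nat_lit 5) (nat_lit 447) (nat_lit 371) (nat_lit 127)) (XT.lf (nat_lit 0) (nat_lit 38819116557) (nat_lit 168) (nat_lit 28966460942) (nat_lit 252) (nat_lit 24091247697) (nat_lit 34) (nat_lit 5) (nat_lit 36) (nat_lit 5) (nat_lit 37) (nat_lit 5) (nat_lit 448) (nat_lit 371) (nat_lit 126))))) (XT.nd (nat_lit 282) (nat_lit 168) (nat_lit 0) (XT.nd (nat_lit 94) (nat_lit 252) (nat_lit 0) (XT.lf (nat_lit 0) (nat_lit 73115808818) (nat_lit 168) (nat_lit 8936161674) (nat_lit 252) (nat_lit 11951778712)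 (nat_lit 34) (nat_lit 5) (nat_lit 36) (nat_lit 5) (nat_lit 37) (nat_lit 5) (nat_lit 449) (nat_lit 371) (nat_lit 125)) (XT.nd (nat_lit 94) (nat_lit 0) (nat_lit 0) (XT.lf (nat_lit 0) (nat_lit 773909359) (nat_lit 252) (nat_lit 83820549985) (nat_lit 84) (nat_lit 11592879080) (nat_lit 31) (nat_lit 5) (nat_lit 34) (nat_lit 5) (nat_lit 32) (nat_lit 5) (nat_lit 450) (nat_lit 371) (nat_lit 124)) (XT.lf (nat_lit 0) (nat_lit 13941794534) (nat_lit 252) (nat_lit 51593040563) (nat_lit 84) (nat_lit 32889031569) (nat_lit 31) (nat_lit 5) (nat_lit 34) (nat_lit 5) (nat_lit 32) (nat_lit 5) (nat_lit 451) (nat_lit 371) (nat_lit 123)))) (XT.nd (nat_lit 188) (nat_lit 0) (nat_lit 0) (XT.nd (nat_lit 94) (nat_lit 168) (nat_lit 0) (XT.lf (nat_lit 0) (nat_lit 27503893840) (nat_lit 252) (nat_lit 18400040625) (nat_lit 84) (nat_lit 54823581684) (nat_lit 31) (nat_lit 5) (nat_lit 34) (nat_lit 5) (nat_lit 32) (nat_lit 5)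 (nat_lit 452) (nat_lit 371) (nat_lit 122)) (XT.lf (nat_lit 0) (nat_lit 16101654700) (nat_lit 168) (nat_lit 25525181908) (nat_lit 252) (nat_lit 61468819789) (nat_lit 29) (nat_lit 5) (nat_lit 31) (nat_lit 5) (nat_lit 32) (nat_lit 5) (nat_lit 453) (nat_lit 371) (nat_lit 121))) (XT.nd (nat_lit 94) (nat_lit 0) (nat_lit 0) (XT.lf (nat_lit 0) (nat_lit 52014300493) (nat_lit 168) (nat_lit 4344183948) (nat_lit 252) (nat_lit 49170806586) (nat_lit 29) (nat_lit 5) (nat_lit 31) (nat_lit 5) (nat_lit 32) (nat_lit 5) (nat_lit 454) (nat_lit 371) (nat_lit 120)) (XT.lf (nat_lit 0) (nat_lit 71699266371) (nat_lit 252) (nat_lit 19200827715) (nat_lit 84) (nat_lit 17130825728) (nat_lit 29) (nat_lit 5) (nat_lit 32) (nat_lit 5) (nat_lit 30) (nat_lit 5) (nat_lit 455) (nat_lit 371) (nat_lit 119)))))) (XT.nd (nat_lit 51512) (nat_lit 0) (nat_lit 11844) (XT.nd (nat_lit 282) (nat_lit 336) (nat_lit 0) (XT.nd (nat_lit 94)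 (nat_lit 84) (nat_lit 0) (XT.lf (nat_lit 0) (nat_lit 16418912444) (nat_lit 168) (nat_lit 71281452835) (nat_lit 252) (nat_lit 22901230019) (nat_lit 27) (nat_lit 5) (nat_lit 29) (nat_lit 5) (nat_lit 30) (nat_lit 5) (nat_lit 456) (nat_lit 371) (nat_lit 118)) (XT.nd (nat_lit 94) (nat_lit 84) (nat_lit 0) (XT.lf (nat_lit 0) (nat_lit 53499627047) (nat_lit 168) (nat_lit 50875024051) (nat_lit 252) (nat_lit 8868945949) (nat_lit 27) (nat_lit 5) (nat_lit 29) (nat_lit 5) (nat_lit 30) (nat_lit 5) (nat_lit 457) (nat_lit 371) (nat_lit 117)) (XT.lf (nat_lit 0) (nat_lit 5474613725) (nat_lit 252) (nat_lit 24326970995) (nat_lit 84) (nat_lit 86161686010) (nat_lit 26) (nat_lit 5) (nat_lit 29) (nat_lit 5) (nat_lit 27) (nat_lit 5) (nat_lit 458) (nat_lit 371) (nat_lit 116)))) (XT.nd (nat_lit 564) (nat_lit 168) (nat_lit 0) (XT.nd (nat_lit 94) (nat_lit 0) (nat_lit 0) (XT.lf (nat_lit 0) (nat_lit 12303654608) (nat_lit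 168) (nat_lit 7884136882) (nat_lit 252) (nat_lit 98570582311) (nat_lit 24) (nat_lit 5) (nat_lit 26) (nat_lit 5) (nat_lit 27) (nat_lit 5) (nat_lit 459) (nat_lit 371) (nat_lit 115)) (XT.lf (nat_lit 0) (nat_lit 35730971890) (nat_lit 252) (nat_lit 71242897999) (nat_lit 84) (nat_lit 14651802404) (nat_lit 24) (nat_lit 5) (nat_lit 27) (nat_lit 5) (nat_lit 25) (nat_lit 5) (nat_lit 460) (nat_lit 371) (nat_lit 114))) (XT.nd (nat_lit 50572) (nat_lit 0) (nat_lit 12936) (XT.lf (nat_lit 0) (nat_lit 122326097656) (nat_lit 252) (nat_lit 13982825709) (nat_lit 84) (nat_lit 948361058) (nat_lit 22) (nat_lit 5) (nat_lit 25) (nat_lit 5) (nat_lit 23) (nat_lit 4) (nat_lit 465) (nat_lit 371) (nat_lit 109)) (XT.lf (nat_lit 0) (nat_lit 10206754528) (nat_lit 1260) (nat_lit 450381207) (nat_lit 1260) (nat_lit 450381207) (nat_lit 176) (nat_lit 3) (nat_lit 191) (nat_lit 3) (nat_lit 191) (nat_lit 5) (nat_lit 372) (nat_lit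 372) (nat_lit 201))))) (XT.nd (nat_lit 282) (nat_lit 1092) (nat_lit 0) (XT.nd (nat_lit 94) (nat_lit 0) (nat_lit 0) (XT.lf (nat_lit 84) (nat_lit 8876489197) (nat_lit 0) (nat_lit 12050987830) (nat_lit 1260) (nat_lit 1614315449) (nat_lit 177) (nat_lit 5) (nat_lit 176) (nat_lit 3) (nat_lit 191) (nat_lit 5) (nat_lit 373) (nat_lit 372) (nat_lit 200)) (XT.nd (nat_lit 94) (nat_lit 0) (nat_lit 84) (XT.lf (nat_lit 84) (nat_lit 18963008568) (nat_lit 0) (nat_lit 2498148776) (nat_lit 1260) (nat_lit 1417076810) (nat_lit 177) (nat_lit 5) (nat_lit 176) (nat_lit 3) (nat_lit 191) (nat_lit 5) (nat_lit 374) (nat_lit 372) (nat_lit 199)) (XT.lf (nat_lit 84) (nat_lit 6174664141) (nat_lit 0) (nat_lit 15961466018) (nat_lit 1260) (nat_lit 1084889326) (nat_lit 178) (nat_lit 5) (nat_lit 177) (nat_lit 5) (nat_lit 192) (nat_lit 5) (nat_lit 375) (nat_lit 372) (nat_lit 198)))) (XT.nd (nat_lit 188) (nat_lit 1176) (nat_lit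 0) (XT.nd (nat_lit 94) (nat_lit 0) (nat_lit 84) (XT.lf (nat_lit 84) (nat_lit 16619696647) (nat_lit 0) (nat_lit 6271152209) (nat_lit 1260) (nat_lit 681463226) (nat_lit 178) (nat_lit 5) (nat_lit 177) (nat_lit 5) (nat_lit 192) (nat_lit 5) (nat_lit 376) (nat_lit 372) (nat_lit 197)) (XT.lf (nat_lit 84) (nat_lit 3473384394) (nat_lit 0) (nat_lit 20259493631) (nat_lit 1260) (nat_lit 199333721) (nat_lit 179) (nat_lit 5) (nat_lit 178) (nat_lit 5) (nat_lit 193) (nat_lit 5) (nat_lit 377) (nat_lit 372) (nat_lit 196))) (XT.nd (nat_lit 94) (nat_lit 0) (nat_lit 0) (XT.lf (nat_lit 0) (nat_lit 420123532) (nat_lit 1260) (nat_lit 10014496163) (nat_lit 1344) (nat_lit 13864350922) (nat_lit 163) (nat_lit 5) (nat_lit 178) (nat_lit 5) (nat_lit 179) (nat_lit 5) (nat_lit 378) (nat_lit 372) (nat_lit 195)) (XT.lf (nat_lit 84) (nat_lit 753232519) (nat_lit 0) (nat_lit 303963139) (nat_lit 1344) (nat_lit 23619393909)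 (nat_lit 164) (nat_lit 5) (nat_lit 163) (nat_lit 5) (nat_lit 179) (nat_lit 5) (nat_lit 379) (nat_lit 372) (nat_lit 194))))))))
noncomputable def xc197 : XT := (XT.nd (nat_lit 2538) (nat_lit 4620) (nat_lit 0) (XT.nd (nat_lit 1222) (nat_lit 3864) (nat_lit 0) (XT.nd (nat_lit 564) (nat_lit 924) (nat_lit 0) (XT.nd (nat_lit 282) (nat_lit 0) (nat_lit 84) (XT.nd (nat_lit 94) (nat_lit 0) (nat_lit 0) (XT.lf (nat_lit 0) (nat_lit 1908797965) (nat_lit 1260) (nat_lit 13114381617) (nat_lit 1344) (nat_lit 10036502388) (nat_lit 164) (nat_lit 5) (nat_lit 179) (nat_lit 5) (nat_lit 180) (nat_lit 5) (nat_lit 380) (nat_lit 372) (nat_lit 193)) (XT.nd (nat_lit 94) (nat_lit 0) (nat_lit 84) (XT.lf (nat_lit 0) (nat_lit 2784985385) (nat_lit 1260) (nat_lit 1986841454) (nat_lit 1344) (nat_lit 20682476401) (nat_lit 164) (nat_lit 5) (nat_lit 179) (nat_lit 5) (nat_lit 180) (nat_lit 5) (nat_lit 381) (nat_lit 372) (nat_lit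 192)) (XT.lf (nat_lit 0) (nat_lit 3833023659) (nat_lit 1260) (nat_lit 16254242204) (nat_lit 1344) (nat_lit 5769137328) (nat_lit 165) (nat_lit 5) (nat_lit 180) (nat_lit 5) (nat_lit 181) (nat_lit 5) (nat_lit 382) (nat_lit 372) (nat_lit 191)))) (XT.nd (nat_lit 94) (nat_lit 0) (nat_lit 84) (XT.lf (nat_lit 0) (nat_lit 4976252710) (nat_lit 1260) (nat_lit 4740568946) (nat_lit 1344) (nat_lit 16551838789) (nat_lit 165) (nat_lit 5) (nat_lit 180) (nat_lit 5) (nat_lit 181) (nat_lit 5) (nat_lit 383) (nat_lit 372) (nat_lit 190)) (XT.nd (nat_lit 94) (nat_lit 0) (nat_lit 0) (XT.lf (nat_lit 0) (nat_lit 6229867535) (nat_lit 1260) (nat_lit 19443791052) (nat_lit 1344) (nat_lit 1017350758) (nat_lit 166) (nat_lit 5) (nat_lit 181) (nat_lit 5) (nat_lit 182) (nat_lit 5) (nat_lit 384) (nat_lit 372) (nat_lit 189)) (XT.lf (nat_lit 0) (nat_lit 7662083056) (nat_lit 1260) (nat_lit 7532195978) (nat_lit 1344) (nat_lit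 11927526315) (nat_lit 166) (nat_lit 5) (nat_lit 181) (nat_lit 5) (nat_lit 182) (nat_lit 5) (nat_lit 385) (nat_lit 372) (nat_lit 188))))) (XT.nd (nat_lit 282) (nat_lit 1092) (nat_lit 0) (XT.nd (nat_lit 94) (nat_lit 0) (nat_lit 84) (XT.lf (nat_lit 84) (nat_lit 4828304932) (nat_lit 0) (nat_lit 4351918051) (nat_lit 1344) (nat_lit 18384019730) (nat_lit 167) (nat_lit 5) (nat_lit 166) (nat_lit 5) (nat_lit 182) (nat_lit 5) (nat_lit 386) (nat_lit 372) (nat_lit 187)) (XT.nd (nat_lit 94) (nat_lit 0) (nat_lit 0) (XT.lf (nat_lit 0) (nat_lit 10882865198) (nat_lit 1260) (nat_lit 10372665914) (nat_lit 1344) (nat_lit 6760259380) (nat_lit 167) (nat_lit 5) (nat_lit 182) (nat_lit 5) (nat_lit 183) (nat_lit 5) (nat_lit 387) (nat_lit 372) (nat_lit 186)) (XT.lf (nat_lit 84) (nat_lit 2361835628) (nat_lit 0) (nat_lit 10337268773) (nat_lit 1344) (nat_lit 15779910632) (nat_lit 168) (nat_lit 5) (nat_lit 167) (nat_lit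 5) (nat_lit 183) (nat_lit 5) (nat_lit 388) (nat_lit 372) (nat_lit 185)))) (XT.nd (nat_lit 188) (nat_lit 1260) (nat_lit 0) (XT.nd (nat_lit 94) (nat_lit 0) (nat_lit 0) (XT.lf (nat_lit 0) (nat_lit 14681146269) (nat_lit 1260) (nat_lit 13274511986) (nat_lit 84) (nat_lit 997144280) (nat_lit 168) (nat_lit 5) (nat_lit 183) (nat_lit 5) (nat_lit 169) (nat_lit 5) (nat_lit 389) (nat_lit 372) (nat_lit 184)) (XT.lf (nat_lit 0) (nat_lit 16821893134) (nat_lit 1260) (nat_lit 151582828) (nat_lit 84) (nat_lit 12464355913) (nat_lit 168) (nat_lit 5) (nat_lit 183) (nat_lit 5) (nat_lit 169) (nat_lit 5) (nat_lit 390) (nat_lit 372) (nat_lit 183))) (XT.nd (nat_lit 94) (nat_lit 0) (nat_lit 0) (XT.lf (nat_lit 0) (nat_lit 13628381671) (nat_lit 1260) (nat_lit 5526470069) (nat_lit 1344) (nat_lit 10778726037) (nat_lit 153) (nat_lit 5) (nat_lit 168) (nat_lit 5) (nat_lit 169) (nat_lit 5) (nat_lit 391) (nat_lit 372) (nat_lit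 182)) (XT.lf (nat_lit 0) (nat_lit 21616609687) (nat_lit 1344) (nat_lit 2682189182) (nat_lit 84) (nat_lit 6143638078) (nat_lit 153) (nat_lit 5) (nat_lit 169) (nat_lit 5) (nat_lit 154) (nat_lit 5) (nat_lit 392) (nat_lit 372) (nat_lit 181)))))) (XT.nd (nat_lit 658) (nat_lit 1428) (nat_lit 0) (XT.nd (nat_lit 282) (nat_lit 1260) (nat_lit 0) (XT.nd (nat_lit 94) (nat_lit 588) (nat_lit 0) (XT.lf (nat_lit 0) (nat_lit 11516941597) (nat_lit 588) (nat_lit 12797841910) (nat_lit 672) (nat_lit 6646906547) (nat_lit 146) (nat_lit 5) (nat_lit 153) (nat_lit 5) (nat_lit 154) (nat_lit 5) (nat_lit 393) (nat_lit 372) (nat_lit 180)) (XT.nd (nat_lit 94) (nat_lit 588) (nat_lit 0) (XT.lf (nat_lit 0) (nat_lit 26194468062) (nat_lit 588) (nat_lit 923715809) (nat_lit 672) (nat_lit 4377613351) (nat_lit 146) (nat_lit 5) (nat_lit 153) (nat_lit 5) (nat_lit 154) (nat_lit 5) (nat_lit 394) (nat_lit 372) (nat_lit 179)) (XT.lf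 (nat_lit 0) (nat_lit 9337336906) (nat_lit 588) (nat_lit 20864072219) (nat_lit 672) (nat_lit 1838651559) (nat_lit 139) (nat_lit 5) (nat_lit 146) (nat_lit 5) (nat_lit 147) (nat_lit 5) (nat_lit 395) (nat_lit 372) (nat_lit 178)))) (XT.nd (nat_lit 188) (nat_lit 588) (nat_lit 0) (XT.nd (nat_lit 94) (nat_lit 588) (nat_lit 0) (XT.lf (nat_lit 0) (nat_lit 821840130) (nat_lit 672) (nat_lit 8094958279) (nat_lit 84) (nat_lit 23681818825) (nat_lit 138) (nat_lit 5) (nat_lit 146) (nat_lit 5) (nat_lit 139) (nat_lit 5) (nat_lit 396) (nat_lit 372) (nat_lit 177)) (XT.lf (nat_lit 0) (nat_lit 3623948256) (nat_lit 672) (nat_lit 26136628000) (nat_lit 84) (nat_lit 3409849747) (nat_lit 131) (nat_lit 5) (nat_lit 139) (nat_lit 5) (nat_lit 132) (nat_lit 5) (nat_lit 397) (nat_lit 372) (nat_lit 176))) (XT.nd (nat_lit 94) (nat_lit 588) (nat_lit 0) (XT.lf (nat_lit 0) (nat_lit 6678392706) (nat_lit 672) (nat_lit 11066264015)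 (nat_lit 84) (nat_lit 16009688356) (nat_lit 131) (nat_lit 5) (nat_lit 139) (nat_lit 5) (nat_lit 132) (nat_lit 5) (nat_lit 398) (nat_lit 372) (nat_lit 175)) (XT.lf (nat_lit 0) (nat_lit 4542335114) (nat_lit 588) (nat_lit 5323309177) (nat_lit 672) (nat_lit 24488906328) (nat_lit 124) (nat_lit 5) (nat_lit 131) (nat_lit 5) (nat_lit 132) (nat_lit 5) (nat_lit 399) (nat_lit 372) (nat_lit 174))))) (XT.nd (nat_lit 282) (nat_lit 924) (nat_lit 0) (XT.nd (nat_lit 94) (nat_lit 504) (nat_lit 0) (XT.lf (nat_lit 0) (nat_lit 13330738386) (nat_lit 672) (nat_lit 14198854500) (nat_lit 84) (nat_lit 7437706685) (nat_lit 124) (nat_lit 5) (nat_lit 132) (nat_lit 5) (nat_lit 125) (nat_lit 5) (nat_lit 400) (nat_lit 372) (nat_lit 173)) (XT.nd (nat_lit 94) (nat_lit 0) (nat_lit 0) (XT.lf (nat_lit 0) (nat_lit 1864085815) (nat_lit 504) (nat_lit 15103953618) (nat_lit 588) (nat_lit 18628347809) (nat_lit 118) (nat_lit 5)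 (nat_lit 124) (nat_lit 5) (nat_lit 125) (nat_lit 5) (nat_lit 401) (nat_lit 372) (nat_lit 172)) (XT.lf (nat_lit 0) (nat_lit 18697510837) (nat_lit 504) (nat_lit 2158003971) (nat_lit 588) (nat_lit 15384604836) (nat_lit 118) (nat_lit 5) (nat_lit 124) (nat_lit 5) (nat_lit 125) (nat_lit 5) (nat_lit 402) (nat_lit 372) (nat_lit 171)))) (XT.nd (nat_lit 188) (nat_lit 420) (nat_lit 0) (XT.nd (nat_lit 94) (nat_lit 504) (nat_lit 0) (XT.lf (nat_lit 0) (nat_lit 24964789231) (nat_lit 588) (nat_lit 977123413) (nat_lit 84) (nat_lit 10958099785) (nat_lit 118) (nat_lit 5) (nat_lit 125) (nat_lit 5) (nat_lit 119) (nat_lit 5) (nat_lit 403) (nat_lit 372) (nat_lit 170)) (XT.lf (nat_lit 0) (nat_lit 16381224297) (nat_lit 504) (nat_lit 12992757227) (nat_lit 588) (nat_lit 8200424830) (nat_lit 112) (nat_lit 5) (nat_lit 118) (nat_lit 5) (nat_lit 119) (nat_lit 5) (nat_lit 404) (nat_lit 372) (nat_lit 169))) (XT.nd (nat_lit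 94) (nat_lit 420) (nat_lit 0) (XT.lf (nat_lit 0) (nat_lit 33926575367) (nat_lit 588) (nat_lit 3994231416) (nat_lit 84) (nat_lit 347894981) (nat_lit 112) (nat_lit 5) (nat_lit 119) (nat_lit 5) (nat_lit 113) (nat_lit 5) (nat_lit 405) (nat_lit 372) (nat_lit 168)) (XT.lf (nat_lit 0) (nat_lit 13860143815) (nat_lit 420) (nat_lit 25015385221) (nat_lit 504) (nat_lit 100506884) (nat_lit 107) (nat_lit 5) (nat_lit 112) (nat_lit 5) (nat_lit 113) (nat_lit 5) (nat_lit 406) (nat_lit 372) (nat_lit 167))))))) (XT.nd (nat_lit 1316) (nat_lit 2016) (nat_lit 0) (XT.nd (nat_lit 658) (nat_lit 1176) (nat_lit 0) (XT.nd (nat_lit 282) (nat_lit 840) (nat_lit 0) (XT.nd (nat_lit 94) (nat_lit 504) (nat_lit 0) (XT.lf (nat_lit 0) (nat_lit 4223726936) (nat_lit 504) (nat_lit 7415166789) (nat_lit 84) (nat_lit 28063308918) (nat_lit 106) (nat_lit 5) (nat_lit 112) (nat_lit 5) (nat_lit 107) (nat_lit 5) (nat_lit 407) (nat_lit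 372) (nat_lit 166)) (XT.nd (nat_lit 94) (nat_lit 0) (nat_lit 0) (XT.lf (nat_lit 0) (nat_lit 8801281116) (nat_lit 588) (nat_lit 29440150107) (nat_lit 84) (nat_lit 2204927946) (nat_lit 100) (nat_lit 5) (nat_lit 107) (nat_lit 5) (nat_lit 101) (nat_lit 5) (nat_lit 408) (nat_lit 372) (nat_lit 165)) (XT.lf (nat_lit 0) (nat_lit 13705036217) (nat_lit 588) (nat_lit 11196694678) (nat_lit 84) (nat_lit 16305446238) (nat_lit 100) (nat_lit 5) (nat_lit 107) (nat_lit 5) (nat_lit 101) (nat_lit 5) (nat_lit 409) (nat_lit 372) (nat_lit 164)))) (XT.nd (nat_lit 188) (nat_lit 420) (nat_lit 0) (XT.nd (nat_lit 94) (nat_lit 0) (nat_lit 0) (XT.lf (nat_lit 0) (nat_lit 7742871708) (nat_lit 420) (nat_lit 11085536924) (nat_lit 504) (nat_lit 23160238746) (nat_lit 95) (nat_lit 5) (nat_lit 100) (nat_lit 5) (nat_lit 101) (nat_lit 5) (nat_lit 410) (nat_lit 372) (nat_lit 163)) (XT.lf (nat_lit 0) (nat_lit 24248005559) (nat_lit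 504) (nat_lit 15343693494) (nat_lit 84) (nat_lit 3197589776) (nat_lit 95) (nat_lit 5) (nat_lit 101) (nat_lit 5) (nat_lit 96) (nat_lit 5) (nat_lit 411) (nat_lit 372) (nat_lit 162))) (XT.nd (nat_lit 94) (nat_lit 0) (nat_lit 0) (XT.lf (nat_lit 0) (nat_lit 4093318682) (nat_lit 420) (nat_lit 25884138332) (nat_lit 504) (nat_lit 13632077230) (nat_lit 90) (nat_lit 5) (nat_lit 95) (nat_lit 5) (nat_lit 96) (nat_lit 5) (nat_lit 412) (nat_lit 372) (nat_lit 161)) (XT.lf (nat_lit 0) (nat_lit 24425743896) (nat_lit 420) (nat_lit 11606182819) (nat_lit 504) (nat_lit 8417868903) (nat_lit 90) (nat_lit 5) (nat_lit 95) (nat_lit 5) (nat_lit 96) (nat_lit 5) (nat_lit 413) (nat_lit 372) (nat_lit 160))))) (XT.nd (nat_lit 282) (nat_lit 756) (nat_lit 0) (XT.nd (nat_lit 94) (nat_lit 84) (nat_lit 0) (XT.lf (nat_lit 0) (nat_lit 21277714) (nat_lit 336) (nat_lit 42274999659) (nat_lit 420) (nat_lit 3018142614) (nat_lit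 86) (nat_lit 5) (nat_lit 90) (nat_lit 5) (nat_lit 91) (nat_lit 5) (nat_lit 414) (nat_lit 372) (nat_lit 159)) (XT.nd (nat_lit 94) (nat_lit 0) (nat_lit 0) (XT.lf (nat_lit 0) (nat_lit 2811312264) (nat_lit 420) (nat_lit 25264071472) (nat_lit 84) (nat_lit 18119347123) (nat_lit 85) (nat_lit 5) (nat_lit 90) (nat_lit 5) (nat_lit 86) (nat_lit 5) (nat_lit 415) (nat_lit 372) (nat_lit 158)) (XT.lf (nat_lit 0) (nat_lit 8753292746) (nat_lit 420) (nat_lit 4666176032) (nat_lit 84) (nat_lit 33681139034) (nat_lit 85) (nat_lit 5) (nat_lit 90) (nat_lit 5) (nat_lit 86) (nat_lit 5) (nat_lit 416) (nat_lit 372) (nat_lit 157)))) (XT.nd (nat_lit 188) (nat_lit 336) (nat_lit 0) (XT.nd (nat_lit 94) (nat_lit 0) (nat_lit 0) (XT.lf (nat_lit 0) (nat_lit 15051830412) (nat_lit 504) (nat_lit 31169676416) (nat_lit 84) (nat_lit 1806807589) (nat_lit 80) (nat_lit 5) (nat_lit 86) (nat_lit 5) (nat_lit 81) (nat_lit 5) (nat_lit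 417) (nat_lit 372) (nat_lit 156)) (XT.lf (nat_lit 0) (nat_lit 21718152555) (nat_lit 504) (nat_lit 9993050270) (nat_lit 84) (nat_lit 17267286756) (nat_lit 80) (nat_lit 5) (nat_lit 86) (nat_lit 5) (nat_lit 81) (nat_lit 5) (nat_lit 418) (nat_lit 372) (nat_lit 155))) (XT.nd (nat_lit 94) (nat_lit 0) (nat_lit 0) (XT.lf (nat_lit 0) (nat_lit 12051986737) (nat_lit 336) (nat_lit 16646752542) (nat_lit 420) (nat_lit 21255004617) (nat_lit 76) (nat_lit 5) (nat_lit 80) (nat_lit 5) (nat_lit 81) (nat_lit 5) (nat_lit 419) (nat_lit 372) (nat_lit 154)) (XT.lf (nat_lit 0) (nat_lit 34961177244) (nat_lit 336) (nat_lit 1026926669) (nat_lit 420) (nat_lit 14967173201) (nat_lit 76) (nat_lit 5) (nat_lit 80) (nat_lit 5) (nat_lit 81) (nat_lit 5) (nat_lit 420) (nat_lit 372) (nat_lit 153)))))) (XT.nd (nat_lit 658) (nat_lit 924) (nat_lit 0) (XT.nd (nat_lit 282) (nat_lit 336) (nat_lit 0) (XT.nd (nat_lit 94) (nat_lit 420)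 (nat_lit 0) (XT.lf (nat_lit 0) (nat_lit 6551828299) (nat_lit 336) (nat_lit 37150572277) (nat_lit 420) (nat_lit 8278270243) (nat_lit 72) (nat_lit 5) (nat_lit 76) (nat_lit 5) (nat_lit 77) (nat_lit 5) (nat_lit 421) (nat_lit 372) (nat_lit 152)) (XT.nd (nat_lit 94) (nat_lit 420) (nat_lit 0) (XT.lf (nat_lit 0) (nat_lit 30089619309) (nat_lit 336) (nat_lit 21728599055) (nat_lit 420) (nat_lit 1213507166) (nat_lit 72) (nat_lit 5) (nat_lit 76) (nat_lit 5) (nat_lit 77) (nat_lit 5) (nat_lit 422) (nat_lit 372) (nat_lit 151)) (XT.lf (nat_lit 0) (nat_lit 162131979) (nat_lit 336) (nat_lit 5782852861) (nat_lit 420) (nat_lit 48167577372) (nat_lit 67) (nat_lit 5) (nat_lit 71) (nat_lit 5) (nat_lit 72) (nat_lit 5) (nat_lit 423) (nat_lit 372) (nat_lit 150)))) (XT.nd (nat_lit 188) (nat_lit 336) (nat_lit 0) (XT.nd (nat_lit 94) (nat_lit 0) (nat_lit 0) (XT.lf (nat_lit 0) (nat_lit 13628656631) (nat_lit 420) (nat_lit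 30907686035) (nat_lit 84) (nat_lit 10679078218) (nat_lit 67) (nat_lit 5) (nat_lit 72) (nat_lit 5) (nat_lit 68) (nat_lit 5) (nat_lit 424) (nat_lit 372) (nat_lit 149)) (XT.lf (nat_lit 0) (nat_lit 21598697365) (nat_lit 420) (nat_lit 7232858312) (nat_lit 84) (nat_lit 27518135619) (nat_lit 67) (nat_lit 5) (nat_lit 72) (nat_lit 5) (nat_lit 68) (nat_lit 5) (nat_lit 425) (nat_lit 372) (nat_lit 148))) (XT.nd (nat_lit 94) (nat_lit 0) (nat_lit 0) (XT.lf (nat_lit 0) (nat_lit 17491653151) (nat_lit 336) (nat_lit 12482970156) (nat_lit 420) (nat_lit 27538364689) (nat_lit 63) (nat_lit 5) (nat_lit 67) (nat_lit 5) (nat_lit 68) (nat_lit 5) (nat_lit 426) (nat_lit 372) (nat_lit 147)) (XT.lf (nat_lit 0) (nat_lit 38716121047) (nat_lit 420) (nat_lit 15647326707) (nat_lit 84) (nat_lit 4344308664) (nat_lit 63) (nat_lit 5) (nat_lit 68) (nat_lit 5) (nat_lit 64) (nat_lit 5) (nat_lit 427) (nat_lit 372) (nat_lit 146)))))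 (XT.nd (nat_lit 282) (nat_lit 252) (nat_lit 0) (XT.nd (nat_lit 94) (nat_lit 420) (nat_lit 0) (XT.lf (nat_lit 0) (nat_lit 9518193286) (nat_lit 252) (nat_lit 38415457873) (nat_lit 336) (nat_lit 11998304709) (nat_lit 60) (nat_lit 5) (nat_lit 63) (nat_lit 5) (nat_lit 64) (nat_lit 5) (nat_lit 428) (nat_lit 372) (nat_lit 145)) (XT.nd (nat_lit 94) (nat_lit 420) (nat_lit 0) (XT.lf (nat_lit 0) (nat_lit 35757603007) (nat_lit 252) (nat_lit 21826830762) (nat_lit 336) (nat_lit 3603747284) (nat_lit 60) (nat_lit 5) (nat_lit 63) (nat_lit 5) (nat_lit 64) (nat_lit 5) (nat_lit 429) (nat_lit 372) (nat_lit 144)) (XT.lf (nat_lit 0) (nat_lit 256836941) (nat_lit 336) (nat_lit 4688621384) (nat_lit 420) (nat_lit 57535145589) (nat_lit 55) (nat_lit 5) (nat_lit 59) (nat_lit 5) (nat_lit 60) (nat_lit 5) (nat_lit 430) (nat_lit 372) (nat_lit 143)))) (XT.nd (nat_lit 188) (nat_lit 252) (nat_lit 0) (XT.nd (nat_lit 94) (nat_lit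 0) (nat_lit 0) (XT.lf (nat_lit 0) (nat_lit 14061422202) (nat_lit 420) (nat_lit 36732577253) (nat_lit 84) (nat_lit 13005249588) (nat_lit 55) (nat_lit 5) (nat_lit 60) (nat_lit 5) (nat_lit 56) (nat_lit 5) (nat_lit 431) (nat_lit 372) (nat_lit 142)) (XT.lf (nat_lit 0) (nat_lit 23496080161) (nat_lit 420) (nat_lit 10524840325) (nat_lit 84) (nat_lit 31135177963) (nat_lit 55) (nat_lit 5) (nat_lit 60) (nat_lit 5) (nat_lit 56) (nat_lit 5) (nat_lit 432) (nat_lit 372) (nat_lit 141))) (XT.nd (nat_lit 94) (nat_lit 0) (nat_lit 0) (XT.lf (nat_lit 0) (nat_lit 16795147493) (nat_lit 252) (nat_lit 16578903920) (nat_lit 336) (nat_lit 33174795054) (nat_lit 52) (nat_lit 5) (nat_lit 55) (nat_lit 5) (nat_lit 56) (nat_lit 5) (nat_lit 433) (nat_lit 372) (nat_lit 140)) (XT.lf (nat_lit 0) (nat_lit 43667861892) (nat_lit 336) (nat_lit 22845812517) (nat_lit 84) (nat_lit 1466118812) (nat_lit 52) (nat_lit 5) (nat_lit 56)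 (nat_lit 5) (nat_lit 53) (nat_lit 5) (nat_lit 434) (nat_lit 372) (nat_lit 139))))))))
noncomputable def xc198 : XT := (XT.nd (nat_lit 2820) (nat_lit 0) (nat_lit 0) (XT.nd (nat_lit 1222) (nat_lit 1176) (nat_lit 0) (XT.nd (nat_lit 564) (nat_lit 504) (nat_lit 0) (XT.nd (nat_lit 282) (nat_lit 504) (nat_lit 0) (XT.nd (nat_lit 94) (nat_lit 84) (nat_lit 0) (XT.lf (nat_lit 0) (nat_lit 4797092983) (nat_lit 252) (nat_lit 49682528509) (nat_lit 336) (nat_lit 14967774099) (nat_lit 49) (nat_lit 5) (nat_lit 52) (nat_lit 5) (nat_lit 53) (nat_lit 5) (nat_lit 435) (nat_lit 372) (nat_lit 138)) (XT.nd (nat_lit 94) (nat_lit 84) (nat_lit 0) (XT.lf (nat_lit 0) (nat_lit 33735940315) (nat_lit 252) (nat_lit 32109382931) (nat_lit 336) (nat_lit 5106816332) (nat_lit 49) (nat_lit 5) (nat_lit 52) (nat_lit 5) (nat_lit 53) (nat_lit 5) (nat_lit 436) (nat_lit 372) (nat_lit 137)) (XT.lf (nat_lit 0) (nat_lit 4950338979) (nat_lit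 336) (nat_lit 9009252710) (nat_lit 84) (nat_lit 58541011687) (nat_lit 48) (nat_lit 5) (nat_lit 52) (nat_lit 5) (nat_lit 49) (nat_lit 5) (nat_lit 437) (nat_lit 372) (nat_lit 136)))) (XT.nd (nat_lit 94) (nat_lit 252) (nat_lit 0) (XT.lf (nat_lit 0) (nat_lit 15449457007) (nat_lit 336) (nat_lit 53746480022) (nat_lit 84) (nat_lit 4890781604) (nat_lit 45) (nat_lit 5) (nat_lit 49) (nat_lit 5) (nat_lit 46) (nat_lit 5) (nat_lit 438) (nat_lit 372) (nat_lit 135)) (XT.nd (nat_lit 94) (nat_lit 252) (nat_lit 0) (XT.lf (nat_lit 0) (nat_lit 26492593031) (nat_lit 336) (nat_lit 25103507520) (nat_lit 84) (nat_lit 24117446549) (nat_lit 45) (nat_lit 5) (nat_lit 49) (nat_lit 5) (nat_lit 46) (nat_lit 5) (nat_lit 439) (nat_lit 372) (nat_lit 134)) (XT.lf (nat_lit 0) (nat_lit 4484713238) (nat_lit 252) (nat_lit 33424404303) (nat_lit 336) (nat_lit 39478801102) (nat_lit 42) (nat_lit 5) (nat_lit 45) (nat_lit 5) (nat_lit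 46) (nat_lit 5) (nat_lit 440) (nat_lit 372) (nat_lit 133))))) (XT.nd (nat_lit 282) (nat_lit 336) (nat_lit 0) (XT.nd (nat_lit 94) (nat_lit 168) (nat_lit 0) (XT.lf (nat_lit 0) (nat_lit 35473639323) (nat_lit 252) (nat_lit 14446994055) (nat_lit 336) (nat_lit 29184314114) (nat_lit 42) (nat_lit 5) (nat_lit 45) (nat_lit 5) (nat_lit 46) (nat_lit 5) (nat_lit 441) (nat_lit 372) (nat_lit 132)) (XT.nd (nat_lit 94) (nat_lit 168) (nat_lit 0) (XT.lf (nat_lit 0) (nat_lit 62340540003) (nat_lit 336) (nat_lit 13531794718) (nat_lit 84) (nat_lit 4999712119) (nat_lit 42) (nat_lit 5) (nat_lit 46) (nat_lit 5) (nat_lit 43) (nat_lit 5) (nat_lit 442) (nat_lit 372) (nat_lit 131)) (XT.lf (nat_lit 0) (nat_lit 17671015086) (nat_lit 168) (nat_lit 57773984842) (nat_lit 252) (nat_lit 7237801523) (nat_lit 40) (nat_lit 5) (nat_lit 42) (nat_lit 5) (nat_lit 43) (nat_lit 5) (nat_lit 443) (nat_lit 372) (nat_lit 130)))) (XT.nd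 (nat_lit 188) (nat_lit 252) (nat_lit 0) (XT.nd (nat_lit 94) (nat_lit 0) (nat_lit 0) (XT.lf (nat_lit 0) (nat_lit 4446011098) (nat_lit 252) (nat_lit 34501559167) (nat_lit 84) (nat_lit 45594930420) (nat_lit 39) (nat_lit 5) (nat_lit 42) (nat_lit 5) (nat_lit 40) (nat_lit 5) (nat_lit 444) (nat_lit 372) (nat_lit 129)) (XT.lf (nat_lit 0) (nat_lit 16333948323) (nat_lit 252) (nat_lit 3149123360) (nat_lit 84) (nat_lit 66972797768) (nat_lit 39) (nat_lit 5) (nat_lit 42) (nat_lit 5) (nat_lit 40) (nat_lit 5) (nat_lit 445) (nat_lit 372) (nat_lit 128))) (XT.nd (nat_lit 94) (nat_lit 0) (nat_lit 0) (XT.lf (nat_lit 0) (nat_lit 28871602511) (nat_lit 336) (nat_lit 58703870835) (nat_lit 84) (nat_lit 842374427) (nat_lit 36) (nat_lit 5) (nat_lit 40) (nat_lit 5) (nat_lit 37) (nat_lit 5) (nat_lit 446) (nat_lit 372) (nat_lit 127)) (XT.lf (nat_lit 0) (nat_lit 42009520245) (nat_lit 336) (nat_lit 27004827416) (nat_lit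 84) (nat_lit 21417614599) (nat_lit 36) (nat_lit 5) (nat_lit 40) (nat_lit 5) (nat_lit 37) (nat_lit 5) (nat_lit 447) (nat_lit 372) (nat_lit 126)))))) (XT.nd (nat_lit 658) (nat_lit 588) (nat_lit 0) (XT.nd (nat_lit 282) (nat_lit 420) (nat_lit 0) (XT.nd (nat_lit 94) (nat_lit 0) (nat_lit 0) (XT.lf (nat_lit 0) (nat_lit 5756147756) (nat_lit 168) (nat_lit 49839902473) (nat_lit 252) (nat_lit 36908816519) (nat_lit 34) (nat_lit 5) (nat_lit 36) (nat_lit 5) (nat_lit 37) (nat_lit 5) (nat_lit 448) (nat_lit 372) (nat_lit 125)) (XT.nd (nat_lit 94) (nat_lit 0) (nat_lit 0) (XT.lf (nat_lit 0) (nat_lit 40052175305) (nat_lit 168) (nat_lit 29809851706) (nat_lit 252) (nat_lit 24769776618) (nat_lit 34) (nat_lit 5) (nat_lit 36) (nat_lit 5) (nat_lit 37) (nat_lit 5) (nat_lit 449) (nat_lit 372) (nat_lit 124)) (XT.lf (nat_lit 0) (nat_lit 75375773618) (nat_lit 168) (nat_lit 9179389181) (nat_lit 252) (nat_lit 12267411190)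 (nat_lit 34) (nat_lit 5) (nat_lit 36) (nat_lit 5) (nat_lit 37) (nat_lit 5) (nat_lit 450) (nat_lit 372) (nat_lit 123)))) (XT.nd (nat_lit 188) (nat_lit 168) (nat_lit 0) (XT.nd (nat_lit 94) (nat_lit 0) (nat_lit 0) (XT.lf (nat_lit 0) (nat_lit 838867764) (nat_lit 252) (nat_lit 86267422149) (nat_lit 84) (nat_lit 11965379957) (nat_lit 31) (nat_lit 5) (nat_lit 34) (nat_lit 5) (nat_lit 32) (nat_lit 5) (nat_lit 451) (nat_lit 372) (nat_lit 122)) (XT.lf (nat_lit 0) (nat_lit 14400573733) (nat_lit 252) (nat_lit 53075060580) (nat_lit 84) (nat_lit 33899697182) (nat_lit 31) (nat_lit 5) (nat_lit 34) (nat_lit 5) (nat_lit 32) (nat_lit 5) (nat_lit 452) (nat_lit 372) (nat_lit 121))) (XT.nd (nat_lit 94) (nat_lit 168) (nat_lit 0) (XT.lf (nat_lit 0) (nat_lit 28368355667) (nat_lit 252) (nat_lit 18888186310) (nat_lit 84) (nat_lit 56491584926) (nat_lit 31) (nat_lit 5) (nat_lit 34) (nat_lit 5) (nat_lit 32) (nat_lit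 5) (nat_lit 453) (nat_lit 372) (nat_lit 120)) (XT.lf (nat_lit 0) (nat_lit 16647933840) (nat_lit 168) (nat_lit 26266514708) (nat_lit 252) (nat_lit 63272879958) (nat_lit 29) (nat_lit 5) (nat_lit 31) (nat_lit 5) (nat_lit 32) (nat_lit 5) (nat_lit 454) (nat_lit 372) (nat_lit 119))))) (XT.nd (nat_lit 282) (nat_lit 420) (nat_lit 0) (XT.nd (nat_lit 94) (nat_lit 168) (nat_lit 0) (XT.lf (nat_lit 0) (nat_lit 53636117371) (nat_lit 168) (nat_lit 4450798149) (nat_lit 252) (nat_lit 50607091536) (nat_lit 29) (nat_lit 5) (nat_lit 31) (nat_lit 5) (nat_lit 32) (nat_lit 5) (nat_lit 455) (nat_lit 372) (nat_lit 118)) (XT.nd (nat_lit 94) (nat_lit 168) (nat_lit 0) (XT.lf (nat_lit 0) (nat_lit 73887044821) (nat_lit 252) (nat_lit 19716345131) (nat_lit 84) (nat_lit 17667321980) (nat_lit 29) (nat_lit 5) (nat_lit 32) (nat_lit 5) (nat_lit 30) (nat_lit 5) (nat_lit 456) (nat_lit 372) (nat_lit 117)) (XT.lf (nat_lit 0)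 (nat_lit 16971394022) (nat_lit 168) (nat_lit 73396286748) (nat_lit 252) (nat_lit 23550842704) (nat_lit 27) (nat_lit 5) (nat_lit 29) (nat_lit 5) (nat_lit 30) (nat_lit 5) (nat_lit 457) (nat_lit 372) (nat_lit 116)))) (XT.nd (nat_lit 188) (nat_lit 336) (nat_lit 0) (XT.nd (nat_lit 94) (nat_lit 84) (nat_lit 0) (XT.lf (nat_lit 0) (nat_lit 55162784990) (nat_lit 168) (nat_lit 52378352761) (nat_lit 252) (nat_lit 9098680138) (nat_lit 27) (nat_lit 5) (nat_lit 29) (nat_lit 5) (nat_lit 30) (nat_lit 5) (nat_lit 458) (nat_lit 372) (nat_lit 115)) (XT.lf (nat_lit 0) (nat_lit 5673439689) (nat_lit 252) (nat_lit 24999588926) (nat_lit 84) (nat_lit 88768074657) (nat_lit 26) (nat_lit 5) (nat_lit 29) (nat_lit 5) (nat_lit 27) (nat_lit 5) (nat_lit 459) (nat_lit 372) (nat_lit 114))) (XT.nd (nat_lit 376) (nat_lit 168) (nat_lit 0) (XT.lf (nat_lit 0) (nat_lit 12729394746) (nat_lit 168) (nat_lit 8098155002) (nat_lit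 252) (nat_lit 101492524391) (nat_lit 24) (nat_lit 5) (nat_lit 26) (nat_lit 5) (nat_lit 27) (nat_lit 5) (nat_lit 460) (nat_lit 372) (nat_lit 113)) (XT.lf (nat_lit 0) (nat_lit 42713185254) (nat_lit 168) (nat_lit 45743343720) (nat_lit 252) (nat_lit 46199590998) (nat_lit 22) (nat_lit 5) (nat_lit 24) (nat_lit 5) (nat_lit 25) (nat_lit 5) (nat_lit 464) (nat_lit 372) (nat_lit 109))))))) (XT.nd (nat_lit 51888) (nat_lit 0) (nat_lit 9156) (XT.nd (nat_lit 51230) (nat_lit 0) (nat_lit 11844) (XT.nd (nat_lit 50854) (nat_lit 0) (nat_lit 11844) (XT.nd (nat_lit 50666) (nat_lit 0) (nat_lit 12936) (XT.lf (nat_lit 0) (nat_lit 84249846373) (nat_lit 168) (nat_lit 22708940103) (nat_lit 252) (nat_lit 31006817671) (nat_lit 22) (nat_lit 5) (nat_lit 24) (nat_lit 5) (nat_lit 25) (nat_lit 5) (nat_lit 465) (nat_lit 372) (nat_lit 108)) (XT.nd (nat_lit 94) (nat_lit 0) (nat_lit 0) (XT.lf (nat_lit 0) (nat_lit 10634219295)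 (nat_lit 1260) (nat_lit 401326791) (nat_lit 1260) (nat_lit 401326791) (nat_lit 176) (nat_lit 3) (nat_lit 191) (nat_lit 3) (nat_lit 191) (nat_lit 5) (nat_lit 373) (nat_lit 373) (nat_lit 199)) (XT.lf (nat_lit 84) (nat_lit 9266688796) (nat_lit 0) (nat_lit 12525264039) (nat_lit 1260) (nat_lit 1418543947) (nat_lit 177) (nat_lit 5) (nat_lit 176) (nat_lit 3) (nat_lit 191) (nat_lit 5) (nat_lit 374) (nat_lit 373) (nat_lit 198)))) (XT.nd (nat_lit 188) (nat_lit 1092) (nat_lit 0) (XT.nd (nat_lit 94) (nat_lit 0) (nat_lit 84) (XT.lf (nat_lit 84) (nat_lit 19652194867) (nat_lit 0) (nat_lit 2682555934) (nat_lit 1260) (nat_lit 1222500799) (nat_lit 177) (nat_lit 5) (nat_lit 176) (nat_lit 3) (nat_lit 191) (nat_lit 5) (nat_lit 375) (nat_lit 373) (nat_lit 197)) (XT.lf (nat_lit 84) (nat_lit 6487320362) (nat_lit 0) (nat_lit 16536163665) (nat_lit 1260) (nat_lit 887043850) (nat_lit 178) (nat_lit 5) (nat_lit 177)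 (nat_lit 5) (nat_lit 192) (nat_lit 5) (nat_lit 376) (nat_lit 373) (nat_lit 196))) (XT.nd (nat_lit 94) (nat_lit 1176) (nat_lit 0) (XT.lf (nat_lit 84) (nat_lit 17241992689) (nat_lit 0) (nat_lit 6552348586) (nat_lit 1260) (nat_lit 478225418) (nat_lit 178) (nat_lit 5) (nat_lit 177) (nat_lit 5) (nat_lit 192) (nat_lit 5) (nat_lit 377) (nat_lit 373) (nat_lit 195)) (XT.lf (nat_lit 0) (nat_lit 12008763) (nat_lit 1260) (nat_lit 20935759953) (nat_lit 1344) (nat_lit 3695681001) (nat_lit 163) (nat_lit 5) (nat_lit 178) (nat_lit 5) (nat_lit 179) (nat_lit 5) (nat_lit 378) (nat_lit 373) (nat_lit 194))))) (XT.nd (nat_lit 282) (nat_lit 0) (nat_lit 84) (XT.nd (nat_lit 94) (nat_lit 0) (nat_lit 0) (XT.lf (nat_lit 0) (nat_lit 639830234) (nat_lit 1260) (nat_lit 10184000351) (nat_lit 1344) (nat_lit 14197519259) (nat_lit 163) (nat_lit 5) (nat_lit 178) (nat_lit 5) (nat_lit 179) (nat_lit 5) (nat_lit 379) (nat_lit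 373) (nat_lit 193)) (XT.nd (nat_lit 94) (nat_lit 0) (nat_lit 84) (XT.lf (nat_lit 84) (nat_lit 905476558) (nat_lit 0) (nat_lit 385752086) (nat_lit 1344) (nat_lit 24119223269) (nat_lit 164) (nat_lit 5) (nat_lit 163) (nat_lit 5) (nat_lit 179) (nat_lit 5) (nat_lit 380) (nat_lit 373) (nat_lit 192)) (XT.lf (nat_lit 0) (nat_lit 2161808086) (nat_lit 1260) (nat_lit 13375016024) (nat_lit 1344) (nat_lit 10268420762) (nat_lit 164) (nat_lit 5) (nat_lit 179) (nat_lit 5) (nat_lit 180) (nat_lit 5) (nat_lit 381) (nat_lit 373) (nat_lit 191)))) (XT.nd (nat_lit 188) (nat_lit 0) (nat_lit 84) (XT.nd (nat_lit 94) (nat_lit 0) (nat_lit 84) (XT.lf (nat_lit 0) (nat_lit 3058579784) (nat_lit 1260) (nat_lit 1917517531) (nat_lit 1344) (nat_lit 21235788851) (nat_lit 164) (nat_lit 5) (nat_lit 179) (nat_lit 5) (nat_lit 180) (nat_lit 5) (nat_lit 382) (nat_lit 373) (nat_lit 190)) (XT.lf (nat_lit 0) (nat_lit 4133192895) (nat_lit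 1260) (nat_lit 16607739208) (nat_lit 1344) (nat_lit 5885273044) (nat_lit 165) (nat_lit 5) (nat_lit 180) (nat_lit 5) (nat_lit 181) (nat_lit 5) (nat_lit 383) (nat_lit 373) (nat_lit 189))) (XT.nd (nat_lit 94) (nat_lit 0) (nat_lit 84) (XT.lf (nat_lit 0) (nat_lit 5305325268) (nat_lit 1260) (nat_lit 4752562458) (nat_lit 1344) (nat_lit 16993113949) (nat_lit 165) (nat_lit 5) (nat_lit 180) (nat_lit 5) (nat_lit 181) (nat_lit 5) (nat_lit 384) (nat_lit 373) (nat_lit 188)) (XT.lf (nat_lit 0) (nat_lit 6592101333) (nat_lit 1260) (nat_lit 19892118456) (nat_lit 1344) (nat_lit 1001944137) (nat_lit 166) (nat_lit 5) (nat_lit 181) (nat_lit 5) (nat_lit 182) (nat_lit 5) (nat_lit 385) (nat_lit 373) (nat_lit 187)))))) (XT.nd (nat_lit 658) (nat_lit 1848) (nat_lit 0) (XT.nd (nat_lit 282) (nat_lit 1092) (nat_lit 0) (XT.nd (nat_lit 94) (nat_lit 0) (nat_lit 0) (XT.lf (nat_lit 0) (nat_lit 8062176394) (nat_lit 1260)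 (nat_lit 7627107170) (nat_lit 1344) (nat_lit 12240762645) (nat_lit 166) (nat_lit 5) (nat_lit 181) (nat_lit 5) (nat_lit 182) (nat_lit 5) (nat_lit 386) (nat_lit 373) (nat_lit 186)) (XT.nd (nat_lit 94) (nat_lit 0) (nat_lit 84) (XT.lf (nat_lit 84) (nat_lit 5102923918) (nat_lit 0) (nat_lit 4519225848) (nat_lit 1344) (nat_lit 18763727175) (nat_lit 167) (nat_lit 5) (nat_lit 166) (nat_lit 5) (nat_lit 182) (nat_lit 5) (nat_lit 387) (nat_lit 373) (nat_lit 185)) (XT.lf (nat_lit 0) (nat_lit 11370678171) (nat_lit 1260) (nat_lit 10552373893) (nat_lit 1344) (nat_lit 6928083544) (nat_lit 167) (nat_lit 5) (nat_lit 182) (nat_lit 5) (nat_lit 183) (nat_lit 5) (nat_lit 388) (nat_lit 373) (nat_lit 184)))) (XT.nd (nat_lit 188) (nat_lit 1176) (nat_lit 0) (XT.nd (nat_lit 94) (nat_lit 0) (nat_lit 84) (XT.lf (nat_lit 84) (nat_lit 2562873753) (nat_lit 0) (nat_lit 10675083350) (nat_lit 1344) (nat_lit 16090411617)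 (nat_lit 168) (nat_lit 5) (nat_lit 167) (nat_lit 5) (nat_lit 183) (nat_lit 5) (nat_lit 389) (nat_lit 373) (nat_lit 183)) (XT.lf (nat_lit 0) (nat_lit 15274603313) (nat_lit 1260) (nat_lit 13541226903) (nat_lit 84) (nat_lit 1000693506) (nat_lit 168) (nat_lit 5) (nat_lit 183) (nat_lit 5) (nat_lit 169) (nat_lit 5) (nat_lit 390) (nat_lit 373) (nat_lit 182))) (XT.nd (nat_lit 94) (nat_lit 1260) (nat_lit 0) (XT.lf (nat_lit 0) (nat_lit 17475115613) (nat_lit 1260) (nat_lit 28440562) (nat_lit 84) (nat_lit 12812689404) (nat_lit 168) (nat_lit 5) (nat_lit 183) (nat_lit 5) (nat_lit 169) (nat_lit 5) (nat_lit 391) (nat_lit 373) (nat_lit 181)) (XT.lf (nat_lit 0) (nat_lit 14163671012) (nat_lit 1260) (nat_lit 5711280208) (nat_lit 1344) (nat_lit 10952013689) (nat_lit 153) (nat_lit 5) (nat_lit 168) (nat_lit 5) (nat_lit 169) (nat_lit 5) (nat_lit 392) (nat_lit 373) (nat_lit 180))))) (XT.nd (nat_lit 282) (nat_lit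 1260) (nat_lit 0) (XT.nd (nat_lit 94) (nat_lit 588) (nat_lit 0) (XT.lf (nat_lit 0) (nat_lit 22406147913) (nat_lit 1344) (nat_lit 2635236522) (nat_lit 84) (nat_lit 6309845312) (nat_lit 153) (nat_lit 5) (nat_lit 169) (nat_lit 5) (nat_lit 154) (nat_lit 5) (nat_lit 393) (nat_lit 373) (nat_lit 179)) (XT.nd (nat_lit 94) (nat_lit 0) (nat_lit 0) (XT.lf (nat_lit 0) (nat_lit 11988618982) (nat_lit 588) (nat_lit 13193752821) (nat_lit 672) (nat_lit 6703782754) (nat_lit 146) (nat_lit 5) (nat_lit 153) (nat_lit 5) (nat_lit 154) (nat_lit 5) (nat_lit 394) (nat_lit 373) (nat_lit 178)) (XT.lf (nat_lit 0) (nat_lit 27102796411) (nat_lit 588) (nat_lit 963054132) (nat_lit 672) (nat_lit 4370562150) (nat_lit 146) (nat_lit 5) (nat_lit 153) (nat_lit 5) (nat_lit 154) (nat_lit 5) (nat_lit 395) (nat_lit 373) (nat_lit 177)))) (XT.nd (nat_lit 188) (nat_lit 588) (nat_lit 0) (XT.nd (nat_lit 94) (nat_lit 84) (nat_lit 0)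 (XT.lf (nat_lit 0) (nat_lit 9743077761) (nat_lit 588) (nat_lit 21495687387) (nat_lit 672) (nat_lit 1758329972) (nat_lit 139) (nat_lit 5) (nat_lit 146) (nat_lit 5) (nat_lit 147) (nat_lit 5) (nat_lit 396) (nat_lit 373) (nat_lit 176)) (XT.lf (nat_lit 0) (nat_lit 975463691) (nat_lit 672) (nat_lit 8213063528) (nat_lit 84) (nat_lit 24383964595) (nat_lit 138) (nat_lit 5) (nat_lit 146) (nat_lit 5) (nat_lit 139) (nat_lit 5) (nat_lit 397) (nat_lit 373) (nat_lit 175))) (XT.nd (nat_lit 94) (nat_lit 0) (nat_lit 0) (XT.lf (nat_lit 0) (nat_lit 3859038383) (nat_lit 672) (nat_lit 26793178035) (nat_lit 84) (nat_lit 3509322587) (nat_lit 131) (nat_lit 5) (nat_lit 139) (nat_lit 5) (nat_lit 132) (nat_lit 5) (nat_lit 398) (nat_lit 373) (nat_lit 174)) (XT.lf (nat_lit 0) (nat_lit 7001435438) (nat_lit 672) (nat_lit 11274418144) (nat_lit 84) (nat_lit 16487238568) (nat_lit 131) (nat_lit 5) (nat_lit 139) (nat_lit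 5) (nat_lit 132) (nat_lit 5) (nat_lit 399) (nat_lit 373) (nat_lit 173))))))))
noncomputable def xc199 : XT := (XT.nd (nat_lit 2632) (nat_lit 2856) (nat_lit 0) (XT.nd (nat_lit 1316) (nat_lit 2268) (nat_lit 0) (XT.nd (nat_lit 658) (nat_lit 1848) (nat_lit 0) (XT.nd (nat_lit 282) (nat_lit 504) (nat_lit 0) (XT.nd (nat_lit 94) (nat_lit 504) (nat_lit 0) (XT.lf (nat_lit 0) (nat_lit 4801224901) (nat_lit 588) (nat_lit 5480684843) (nat_lit 672) (nat_lit 25099471860) (nat_lit 124) (nat_lit 5) (nat_lit 131) (nat_lit 5) (nat_lit 132) (nat_lit 5) (nat_lit 400) (nat_lit 373) (nat_lit 172)) (XT.nd (nat_lit 94) (nat_lit 504) (nat_lit 0) (XT.lf (nat_lit 0) (nat_lit 13847474577) (nat_lit 672) (nat_lit 14502098842) (nat_lit 84) (nat_lit 7663049795) (nat_lit 124) (nat_lit 5) (nat_lit 132) (nat_lit 5) (nat_lit 125) (nat_lit 5) (nat_lit 401) (nat_lit 373) (nat_lit 171)) (XT.lf (nat_lit 0) (nat_lit 2041526533)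 (nat_lit 504) (nat_lit 15550133878) (nat_lit 588) (nat_lit 19068995692) (nat_lit 118) (nat_lit 5) (nat_lit 124) (nat_lit 5) (nat_lit 125) (nat_lit 5) (nat_lit 402) (nat_lit 373) (nat_lit 170)))) (XT.nd (nat_lit 188) (nat_lit 504) (nat_lit 0) (XT.nd (nat_lit 94) (nat_lit 0) (nat_lit 0) (XT.lf (nat_lit 0) (nat_lit 19376414942) (nat_lit 504) (nat_lit 2216007830) (nat_lit 588) (nat_lit 15731383223) (nat_lit 118) (nat_lit 5) (nat_lit 124) (nat_lit 5) (nat_lit 125) (nat_lit 5) (nat_lit 403) (nat_lit 373) (nat_lit 169)) (XT.lf (nat_lit 0) (nat_lit 25821798221) (nat_lit 588) (nat_lit 888542682) (nat_lit 84) (nat_lit 11293255217) (nat_lit 118) (nat_lit 5) (nat_lit 125) (nat_lit 5) (nat_lit 119) (nat_lit 5) (nat_lit 404) (nat_lit 373) (nat_lit 168))) (XT.nd (nat_lit 94) (nat_lit 0) (nat_lit 0) (XT.lf (nat_lit 0) (nat_lit 16989399630) (nat_lit 504) (nat_lit 13371841282) (nat_lit 588) (nat_lit 8337046801)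 (nat_lit 112) (nat_lit 5) (nat_lit 118) (nat_lit 5) (nat_lit 119) (nat_lit 5) (nat_lit 405) (nat_lit 373) (nat_lit 167)) (XT.lf (nat_lit 0) (nat_lit 35047423876) (nat_lit 588) (nat_lit 3997566520) (nat_lit 84) (nat_lit 368516193) (nat_lit 112) (nat_lit 5) (nat_lit 119) (nat_lit 5) (nat_lit 113) (nat_lit 5) (nat_lit 406) (nat_lit 373) (nat_lit 166))))) (XT.nd (nat_lit 282) (nat_lit 840) (nat_lit 0) (XT.nd (nat_lit 94) (nat_lit 504) (nat_lit 0) (XT.lf (nat_lit 0) (nat_lit 814909) (nat_lit 504) (nat_lit 25750832444) (nat_lit 84) (nat_lit 14390474752) (nat_lit 106) (nat_lit 5) (nat_lit 112) (nat_lit 5) (nat_lit 107) (nat_lit 5) (nat_lit 407) (nat_lit 373) (nat_lit 165)) (XT.nd (nat_lit 94) (nat_lit 504) (nat_lit 0) (XT.lf (nat_lit 0) (nat_lit 4449775551) (nat_lit 504) (nat_lit 7523504020) (nat_lit 84) (nat_lit 28916858330) (nat_lit 106) (nat_lit 5) (nat_lit 112) (nat_lit 5) (nat_lit 107) (nat_lit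 5) (nat_lit 408) (nat_lit 373) (nat_lit 164)) (XT.lf (nat_lit 0) (nat_lit 9162997967) (nat_lit 588) (nat_lit 30207432121) (nat_lit 84) (nat_lit 2286243177) (nat_lit 100) (nat_lit 5) (nat_lit 107) (nat_lit 5) (nat_lit 101) (nat_lit 5) (nat_lit 409) (nat_lit 373) (nat_lit 163)))) (XT.nd (nat_lit 188) (nat_lit 420) (nat_lit 0) (XT.nd (nat_lit 94) (nat_lit 420) (nat_lit 0) (XT.lf (nat_lit 0) (nat_lit 14211020719) (nat_lit 588) (nat_lit 11420049412) (nat_lit 84) (nat_lit 16809335249) (nat_lit 100) (nat_lit 5) (nat_lit 107) (nat_lit 5) (nat_lit 101) (nat_lit 5) (nat_lit 410) (nat_lit 373) (nat_lit 162)) (XT.lf (nat_lit 0) (nat_lit 8086600573) (nat_lit 420) (nat_lit 11399802851) (nat_lit 504) (nat_lit 23758971173) (nat_lit 95) (nat_lit 5) (nat_lit 100) (nat_lit 5) (nat_lit 101) (nat_lit 5) (nat_lit 411) (nat_lit 373) (nat_lit 161))) (XT.nd (nat_lit 94) (nat_lit 420) (nat_lit 0) (XT.lf (nat_lit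 0) (nat_lit 25066046158) (nat_lit 504) (nat_lit 15693131480) (nat_lit 84) (nat_lit 3310937934) (nat_lit 95) (nat_lit 5) (nat_lit 101) (nat_lit 5) (nat_lit 96) (nat_lit 5) (nat_lit 412) (nat_lit 373) (nat_lit 160)) (XT.lf (nat_lit 0) (nat_lit 4325904073) (nat_lit 420) (nat_lit 26639893564) (nat_lit 504) (nat_lit 13949222117) (nat_lit 90) (nat_lit 5) (nat_lit 95) (nat_lit 5) (nat_lit 96) (nat_lit 5) (nat_lit 413) (nat_lit 373) (nat_lit 159)))))) (XT.nd (nat_lit 658) (nat_lit 1092) (nat_lit 0) (XT.nd (nat_lit 282) (nat_lit 756) (nat_lit 0) (XT.nd (nat_lit 94) (nat_lit 420) (nat_lit 0) (XT.lf (nat_lit 0) (nat_lit 25265104398) (nat_lit 420) (nat_lit 11934204306) (nat_lit 504) (nat_lit 8581261834) (nat_lit 90) (nat_lit 5) (nat_lit 95) (nat_lit 5) (nat_lit 96) (nat_lit 5) (nat_lit 414) (nat_lit 373) (nat_lit 158)) (XT.nd (nat_lit 94) (nat_lit 84) (nat_lit 0) (XT.lf (nat_lit 0) (nat_lit 129959612)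 (nat_lit 336) (nat_lit 43520339825) (nat_lit 420) (nat_lit 3020876592) (nat_lit 86) (nat_lit 5) (nat_lit 90) (nat_lit 5) (nat_lit 91) (nat_lit 5) (nat_lit 415) (nat_lit 373) (nat_lit 157)) (XT.lf (nat_lit 0) (nat_lit 2979240764) (nat_lit 420) (nat_lit 25915317850) (nat_lit 84) (nat_lit 18683390985) (nat_lit 85) (nat_lit 5) (nat_lit 90) (nat_lit 5) (nat_lit 86) (nat_lit 5) (nat_lit 416) (nat_lit 373) (nat_lit 156)))) (XT.nd (nat_lit 188) (nat_lit 336) (nat_lit 0) (XT.nd (nat_lit 94) (nat_lit 420) (nat_lit 0) (XT.lf (nat_lit 0) (nat_lit 9097046025) (nat_lit 420) (nat_lit 4702592609) (nat_lit 84) (nat_lit 34711440630) (nat_lit 85) (nat_lit 5) (nat_lit 90) (nat_lit 5) (nat_lit 86) (nat_lit 5) (nat_lit 417) (nat_lit 373) (nat_lit 155)) (XT.lf (nat_lit 0) (nat_lit 15583380847) (nat_lit 504) (nat_lit 31999930150) (nat_lit 84) (nat_lit 1883344107) (nat_lit 80) (nat_lit 5) (nat_lit 86) (nat_lit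 5) (nat_lit 81) (nat_lit 5) (nat_lit 418) (nat_lit 373) (nat_lit 154))) (XT.nd (nat_lit 94) (nat_lit 336) (nat_lit 0) (XT.lf (nat_lit 0) (nat_lit 22447362687) (nat_lit 504) (nat_lit 10191058711) (nat_lit 84) (nat_lit 17806987193) (nat_lit 80) (nat_lit 5) (nat_lit 86) (nat_lit 5) (nat_lit 81) (nat_lit 5) (nat_lit 419) (nat_lit 373) (nat_lit 153)) (XT.lf (nat_lit 0) (nat_lit 12514331532) (nat_lit 336) (nat_lit 17121742186) (nat_lit 420) (nat_lit 21813888696) (nat_lit 76) (nat_lit 5) (nat_lit 80) (nat_lit 5) (nat_lit 81) (nat_lit 5) (nat_lit 420) (nat_lit 373) (nat_lit 152))))) (XT.nd (nat_lit 282) (nat_lit 756) (nat_lit 0) (XT.nd (nat_lit 94) (nat_lit 336) (nat_lit 0) (XT.lf (nat_lit 0) (nat_lit 36107862264) (nat_lit 336) (nat_lit 1034032593) (nat_lit 420) (nat_lit 15339716494) (nat_lit 76) (nat_lit 5) (nat_lit 80) (nat_lit 5) (nat_lit 81) (nat_lit 5) (nat_lit 421) (nat_lit 373) (nat_lit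 151)) (XT.nd (nat_lit 94) (nat_lit 0) (nat_lit 0) (XT.lf (nat_lit 0) (nat_lit 6847349227) (nat_lit 336) (nat_lit 38239284070) (nat_lit 420) (nat_lit 8451166085) (nat_lit 72) (nat_lit 5) (nat_lit 76) (nat_lit 5) (nat_lit 77) (nat_lit 5) (nat_lit 422) (nat_lit 373) (nat_lit 150)) (XT.lf (nat_lit 0) (nat_lit 31088391461) (nat_lit 336) (nat_lit 22355403265) (nat_lit 420) (nat_lit 1176657755) (nat_lit 72) (nat_lit 5) (nat_lit 76) (nat_lit 5) (nat_lit 77) (nat_lit 5) (nat_lit 423) (nat_lit 373) (nat_lit 149)))) (XT.nd (nat_lit 188) (nat_lit 336) (nat_lit 0) (XT.nd (nat_lit 94) (nat_lit 0) (nat_lit 0) (XT.lf (nat_lit 0) (nat_lit 263643254) (nat_lit 336) (nat_lit 5930353334) (nat_lit 420) (nat_lit 49539734095) (nat_lit 67) (nat_lit 5) (nat_lit 71) (nat_lit 5) (nat_lit 72) (nat_lit 5) (nat_lit 424) (nat_lit 373) (nat_lit 148)) (XT.lf (nat_lit 0) (nat_lit 14106362919) (nat_lit 420) (nat_lit 31739182707)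 (nat_lit 84) (nat_lit 11024186535) (nat_lit 67) (nat_lit 5) (nat_lit 72) (nat_lit 5) (nat_lit 68) (nat_lit 5) (nat_lit 425) (nat_lit 373) (nat_lit 147))) (XT.nd (nat_lit 94) (nat_lit 336) (nat_lit 0) (XT.lf (nat_lit 0) (nat_lit 22313499635) (nat_lit 420) (nat_lit 7356898519) (nat_lit 84) (nat_lit 28367695193) (nat_lit 67) (nat_lit 5) (nat_lit 72) (nat_lit 5) (nat_lit 68) (nat_lit 5) (nat_lit 426) (nat_lit 373) (nat_lit 146)) (XT.lf (nat_lit 0) (nat_lit 18108437058) (nat_lit 336) (nat_lit 12831204152) (nat_lit 420) (nat_lit 28296682032) (nat_lit 63) (nat_lit 5) (nat_lit 67) (nat_lit 5) (nat_lit 68) (nat_lit 5) (nat_lit 427) (nat_lit 373) (nat_lit 145))))))) (XT.nd (nat_lit 1316) (nat_lit 1092) (nat_lit 0) (XT.nd (nat_lit 658) (nat_lit 840) (nat_lit 0) (XT.nd (nat_lit 282) (nat_lit 672) (nat_lit 0) (XT.nd (nat_lit 94) (nat_lit 252) (nat_lit 0) (XT.lf (nat_lit 0) (nat_lit 39941713013) (nat_lit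 420) (nat_lit 16025643280) (nat_lit 84) (nat_lit 4499630911) (nat_lit 63) (nat_lit 5) (nat_lit 68) (nat_lit 5) (nat_lit 64) (nat_lit 5) (nat_lit 428) (nat_lit 373) (nat_lit 144)) (XT.nd (nat_lit 94) (nat_lit 0) (nat_lit 0) (XT.lf (nat_lit 0) (nat_lit 9893949145) (nat_lit 252) (nat_lit 39540819804) (nat_lit 336) (nat_lit 12293175981) (nat_lit 60) (nat_lit 5) (nat_lit 63) (nat_lit 5) (nat_lit 64) (nat_lit 5) (nat_lit 429) (nat_lit 373) (nat_lit 143)) (XT.lf (nat_lit 0) (nat_lit 36917913680) (nat_lit 252) (nat_lit 22455323253) (nat_lit 336) (nat_lit 3648677305) (nat_lit 60) (nat_lit 5) (nat_lit 63) (nat_lit 5) (nat_lit 64) (nat_lit 5) (nat_lit 430) (nat_lit 373) (nat_lit 142)))) (XT.nd (nat_lit 188) (nat_lit 252) (nat_lit 0) (XT.nd (nat_lit 94) (nat_lit 0) (nat_lit 0) (XT.lf (nat_lit 0) (nat_lit 352558085) (nat_lit 336) (nat_lit 4802255181) (nat_lit 420) (nat_lit 59198309143) (nat_lit 55)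 (nat_lit 5) (nat_lit 59) (nat_lit 5) (nat_lit 60) (nat_lit 5) (nat_lit 431) (nat_lit 373) (nat_lit 141)) (XT.lf (nat_lit 0) (nat_lit 14542731830) (nat_lit 420) (nat_lit 37747510028) (nat_lit 84) (nat_lit 13421132796) (nat_lit 55) (nat_lit 5) (nat_lit 60) (nat_lit 5) (nat_lit 56) (nat_lit 5) (nat_lit 432) (nat_lit 373) (nat_lit 140))) (XT.nd (nat_lit 94) (nat_lit 252) (nat_lit 0) (XT.lf (nat_lit 0) (nat_lit 24258697481) (nat_lit 420) (nat_lit 10756076270) (nat_lit 84) (nat_lit 32094209729) (nat_lit 55) (nat_lit 5) (nat_lit 60) (nat_lit 5) (nat_lit 56) (nat_lit 5) (nat_lit 433) (nat_lit 373) (nat_lit 139)) (XT.lf (nat_lit 0) (nat_lit 17382682659) (nat_lit 252) (nat_lit 17049448002) (nat_lit 336) (nat_lit 34111411513) (nat_lit 52) (nat_lit 5) (nat_lit 55) (nat_lit 5) (nat_lit 56) (nat_lit 5) (nat_lit 434) (nat_lit 373) (nat_lit 138))))) (XT.nd (nat_lit 282) (nat_lit 588) (nat_lit 0) (XT.nd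 (nat_lit 94) (nat_lit 252) (nat_lit 0) (XT.lf (nat_lit 0) (nat_lit 45033349734) (nat_lit 336) (nat_lit 23448475640) (nat_lit 84) (nat_lit 1535635990) (nat_lit 52) (nat_lit 5) (nat_lit 56) (nat_lit 5) (nat_lit 53) (nat_lit 5) (nat_lit 435) (nat_lit 373) (nat_lit 137)) (XT.nd (nat_lit 94) (nat_lit 0) (nat_lit 0) (XT.lf (nat_lit 0) (nat_lit 5022906130) (nat_lit 252) (nat_lit 51145728163) (nat_lit 336) (nat_lit 15360484158) (nat_lit 49) (nat_lit 5) (nat_lit 52) (nat_lit 5) (nat_lit 53) (nat_lit 5) (nat_lit 436) (nat_lit 373) (nat_lit 136)) (XT.lf (nat_lit 0) (nat_lit 34827533435) (nat_lit 252) (nat_lit 33046182669) (nat_lit 336) (nat_lit 5205338138) (nat_lit 49) (nat_lit 5) (nat_lit 52) (nat_lit 5) (nat_lit 53) (nat_lit 5) (nat_lit 437) (nat_lit 373) (nat_lit 135)))) (XT.nd (nat_lit 188) (nat_lit 252) (nat_lit 0) (XT.nd (nat_lit 94) (nat_lit 252) (nat_lit 0) (XT.lf (nat_lit 0) (nat_lit 5150903156)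 (nat_lit 336) (nat_lit 9201240204) (nat_lit 84) (nat_lit 60321861328) (nat_lit 48) (nat_lit 5) (nat_lit 52) (nat_lit 5) (nat_lit 49) (nat_lit 5) (nat_lit 438) (nat_lit 373) (nat_lit 134)) (XT.lf (nat_lit 0) (nat_lit 15964476013) (nat_lit 336) (nat_lit 55280012060) (nat_lit 84) (nat_lit 5063232498) (nat_lit 45) (nat_lit 5) (nat_lit 49) (nat_lit 5) (nat_lit 46) (nat_lit 5) (nat_lit 439) (nat_lit 373) (nat_lit 133))) (XT.nd (nat_lit 94) (nat_lit 252) (nat_lit 0) (XT.lf (nat_lit 0) (nat_lit 27337405089) (nat_lit 336) (nat_lit 25780047346) (nat_lit 84) (nat_lit 24865948048) (nat_lit 45) (nat_lit 5) (nat_lit 49) (nat_lit 5) (nat_lit 46) (nat_lit 5) (nat_lit 440) (nat_lit 373) (nat_lit 132)) (XT.lf (nat_lit 0) (nat_lit 4695069394) (nat_lit 252) (nat_lit 34400627410) (nat_lit 336) (nat_lit 40612329739) (nat_lit 42) (nat_lit 5) (nat_lit 45) (nat_lit 5) (nat_lit 46) (nat_lit 5) (nat_lit 441) (nat_lit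 373) (nat_lit 131)))))) (XT.nd (nat_lit 658) (nat_lit 588) (nat_lit 0) (XT.nd (nat_lit 282) (nat_lit 336) (nat_lit 0) (XT.nd (nat_lit 94) (nat_lit 168) (nat_lit 0) (XT.lf (nat_lit 0) (nat_lit 36611455064) (nat_lit 252) (nat_lit 14854666962) (nat_lit 336) (nat_lit 30010488784) (nat_lit 42) (nat_lit 5) (nat_lit 45) (nat_lit 5) (nat_lit 46) (nat_lit 5) (nat_lit 442) (nat_lit 373) (nat_lit 130)) (XT.nd (nat_lit 94) (nat_lit 168) (nat_lit 0) (XT.lf (nat_lit 0) (nat_lit 64257471781) (nat_lit 336) (nat_lit 13865084221) (nat_lit 84) (nat_lit 5174203186) (nat_lit 42) (nat_lit 5) (nat_lit 46) (nat_lit 5) (nat_lit 43) (nat_lit 5) (nat_lit 443) (nat_lit 373) (nat_lit 129)) (XT.lf (nat_lit 0) (nat_lit 18273097483) (nat_lit 168) (nat_lit 59481299020) (nat_lit 252) (nat_lit 7407461391) (nat_lit 40) (nat_lit 5) (nat_lit 42) (nat_lit 5) (nat_lit 43) (nat_lit 5) (nat_lit 444) (nat_lit 373) (nat_lit 128))))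 (XT.nd (nat_lit 188) (nat_lit 252) (nat_lit 0) (XT.nd (nat_lit 94) (nat_lit 0) (nat_lit 0) (XT.lf (nat_lit 0) (nat_lit 4624583455) (nat_lit 252) (nat_lit 35465806725) (nat_lit 84) (nat_lit 46986986213) (nat_lit 39) (nat_lit 5) (nat_lit 42) (nat_lit 5) (nat_lit 40) (nat_lit 5) (nat_lit 445) (nat_lit 373) (nat_lit 127)) (XT.lf (nat_lit 0) (nat_lit 16867842524) (nat_lit 252) (nat_lit 3174859957) (nat_lit 84) (nat_lit 69005484498) (nat_lit 39) (nat_lit 5) (nat_lit 42) (nat_lit 5) (nat_lit 40) (nat_lit 5) (nat_lit 446) (nat_lit 373) (nat_lit 126))) (XT.nd (nat_lit 94) (nat_lit 0) (nat_lit 0) (XT.lf (nat_lit 0) (nat_lit 29781241168) (nat_lit 336) (nat_lit 60395823636) (nat_lit 84) (nat_lit 891972633) (nat_lit 36) (nat_lit 5) (nat_lit 40) (nat_lit 5) (nat_lit 37) (nat_lit 5) (nat_lit 447) (nat_lit 373) (nat_lit 125)) (XT.lf (nat_lit 0) (nat_lit 43312029718) (nat_lit 336) (nat_lit 27747823380)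 (nat_lit 84) (nat_lit 22083761458) (nat_lit 36) (nat_lit 5) (nat_lit 40) (nat_lit 5) (nat_lit 37) (nat_lit 5) (nat_lit 448) (nat_lit 373) (nat_lit 124))))) (XT.nd (nat_lit 282) (nat_lit 420) (nat_lit 0) (XT.nd (nat_lit 94) (nat_lit 0) (nat_lit 0) (XT.lf (nat_lit 0) (nat_lit 5995322725) (nat_lit 168) (nat_lit 51310242204) (nat_lit 252) (nat_lit 37973160132) (nat_lit 34) (nat_lit 5) (nat_lit 36) (nat_lit 5) (nat_lit 37) (nat_lit 5) (nat_lit 449) (nat_lit 373) (nat_lit 123)) (XT.nd (nat_lit 94) (nat_lit 0) (nat_lit 0) (XT.lf (nat_lit 0) (nat_lit 41318294483) (nat_lit 168) (nat_lit 30680013914) (nat_lit 252) (nat_lit 25471199157) (nat_lit 34) (nat_lit 5) (nat_lit 36) (nat_lit 5) (nat_lit 37) (nat_lit 5) (nat_lit 450) (nat_lit 373) (nat_lit 122)) (XT.lf (nat_lit 0) (nat_lit 77699720534) (nat_lit 168) (nat_lit 9431340426) (nat_lit 252) (nat_lit 12594976477) (nat_lit 34) (nat_lit 5) (nat_lit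 36) (nat_lit 5) (nat_lit 37) (nat_lit 5) (nat_lit 451) (nat_lit 373) (nat_lit 121)))) (XT.nd (nat_lit 188) (nat_lit 168) (nat_lit 0) (XT.nd (nat_lit 94) (nat_lit 0) (nat_lit 0) (XT.lf (nat_lit 0) (nat_lit 903378809) (nat_lit 252) (nat_lit 88791589280) (nat_lit 84) (nat_lit 12347637148) (nat_lit 31) (nat_lit 5) (nat_lit 34) (nat_lit 5) (nat_lit 32) (nat_lit 5) (nat_lit 452) (nat_lit 373) (nat_lit 120)) (XT.lf (nat_lit 0) (nat_lit 14870789986) (nat_lit 252) (nat_lit 54605316734) (nat_lit 84) (nat_lit 34939305370) (nat_lit 31) (nat_lit 5) (nat_lit 34) (nat_lit 5) (nat_lit 32) (nat_lit 5) (nat_lit 453) (nat_lit 373) (nat_lit 119))) (XT.nd (nat_lit 94) (nat_lit 168) (nat_lit 0) (XT.lf (nat_lit 0) (nat_lit 29256492785) (nat_lit 252) (nat_lit 19394641934) (nat_lit 84) (nat_lit 58208290991) (nat_lit 31) (nat_lit 5) (nat_lit 34) (nat_lit 5) (nat_lit 32) (nat_lit 5) (nat_lit 454) (nat_lit 373) (nat_lit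 118)) (XT.lf (nat_lit 0) (nat_lit 17206971722) (nat_lit 168) (nat_lit 27031489452) (nat_lit 252) (nat_lit 65133358349) (nat_lit 29) (nat_lit 5) (nat_lit 31) (nat_lit 5) (nat_lit 32) (nat_lit 5) (nat_lit 455) (nat_lit 373) (nat_lit 117))))))))
noncomputable def xc200 : XT := (XT.nd (nat_lit 53392) (nat_lit 0) (nat_lit 4872) (XT.nd (nat_lit 52076) (nat_lit 0) (nat_lit 11004) (XT.nd (nat_lit 752) (nat_lit 168) (nat_lit 0) (XT.nd (nat_lit 282) (nat_lit 252) (nat_lit 0) (XT.nd (nat_lit 94) (nat_lit 168) (nat_lit 0) (XT.lf (nat_lit 0) (nat_lit 55303064841) (nat_lit 168) (nat_lit 4561971902) (nat_lit 252) (nat_lit 52088694566) (nat_lit 29) (nat_lit 5) (nat_lit 31) (nat_lit 5) (nat_lit 32) (nat_lit 5) (nat_lit 456) (nat_lit 373) (nat_lit 116)) (XT.nd (nat_lit 94) (nat_lit 168) (nat_lit 0) (XT.lf (nat_lit 0) (nat_lit 76138344129) (nat_lit 252) (nat_lit 20250801443) (nat_lit 84) (nat_lit 18218617425)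 (nat_lit 29) (nat_lit 5) (nat_lit 32) (nat_lit 5) (nat_lit 30) (nat_lit 5) (nat_lit 457) (nat_lit 373) (nat_lit 115)) (XT.lf (nat_lit 0) (nat_lit 17537010728) (nat_lit 168) (nat_lit 75575920970) (nat_lit 252) (nat_lit 24222092074) (nat_lit 27) (nat_lit 5) (nat_lit 29) (nat_lit 5) (nat_lit 30) (nat_lit 5) (nat_lit 458) (nat_lit 373) (nat_lit 114)))) (XT.nd (nat_lit 94) (nat_lit 252) (nat_lit 0) (XT.lf (nat_lit 0) (nat_lit 56872498525) (nat_lit 168) (nat_lit 53928097149) (nat_lit 252) (nat_lit 9337392084) (nat_lit 27) (nat_lit 5) (nat_lit 29) (nat_lit 5) (nat_lit 30) (nat_lit 5) (nat_lit 459) (nat_lit 373) (nat_lit 113)) (XT.nd (nat_lit 282) (nat_lit 168) (nat_lit 0) (XT.lf (nat_lit 0) (nat_lit 5876244964) (nat_lit 252) (nat_lit 25695668404) (nat_lit 84) (nat_lit 91451418590) (nat_lit 26) (nat_lit 5) (nat_lit 29) (nat_lit 5) (nat_lit 27) (nat_lit 5) (nat_lit 460) (nat_lit 373) (nat_lit 112))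 (XT.lf (nat_lit 0) (nat_lit 55037389848) (nat_lit 252) (nat_lit 37081850364) (nat_lit 84) (nat_lit 40042181645) (nat_lit 24) (nat_lit 5) (nat_lit 27) (nat_lit 5) (nat_lit 25) (nat_lit 5) (nat_lit 463) (nat_lit 373) (nat_lit 109))))) (XT.nd (nat_lit 50948) (nat_lit 0) (nat_lit 12936) (XT.nd (nat_lit 94) (nat_lit 0) (nat_lit 0) (XT.lf (nat_lit 0) (nat_lit 2507479962) (nat_lit 168) (nat_lit 70130002851) (nat_lit 252) (nat_lit 62747928170) (nat_lit 22) (nat_lit 5) (nat_lit 24) (nat_lit 5) (nat_lit 25) (nat_lit 5) (nat_lit 464) (nat_lit 373) (nat_lit 108)) (XT.nd (nat_lit 50760) (nat_lit 0) (nat_lit 12936) (XT.lf (nat_lit 0) (nat_lit 44043664676) (nat_lit 168) (nat_lit 47095791917) (nat_lit 252) (nat_lit 47555447296) (nat_lit 22) (nat_lit 5) (nat_lit 24) (nat_lit 5) (nat_lit 25) (nat_lit 5) (nat_lit 465) (nat_lit 373) (nat_lit 107)) (XT.lf (nat_lit 0) (nat_lit 11067547062) (nat_lit 1260) (nat_lit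 354392278) (nat_lit 1260) (nat_lit 354392278) (nat_lit 176) (nat_lit 3) (nat_lit 191) (nat_lit 3) (nat_lit 191) (nat_lit 5) (nat_lit 374) (nat_lit 374) (nat_lit 197)))) (XT.nd (nat_lit 188) (nat_lit 0) (nat_lit 84) (XT.nd (nat_lit 94) (nat_lit 0) (nat_lit 0) (XT.lf (nat_lit 84) (nat_lit 9661481734) (nat_lit 0) (nat_lit 13007296421) (nat_lit 1260) (nat_lit 1230917435) (nat_lit 177) (nat_lit 5) (nat_lit 176) (nat_lit 3) (nat_lit 191) (nat_lit 5) (nat_lit 375) (nat_lit 374) (nat_lit 196)) (XT.lf (nat_lit 84) (nat_lit 20355151270) (nat_lit 0) (nat_lit 2866211699) (nat_lit 1260) (nat_lit 1035697347) (nat_lit 177) (nat_lit 5) (nat_lit 176) (nat_lit 3) (nat_lit 191) (nat_lit 5) (nat_lit 376) (nat_lit 374) (nat_lit 195))) (XT.nd (nat_lit 94) (nat_lit 0) (nat_lit 0) (XT.lf (nat_lit 84) (nat_lit 6802042053) (nat_lit 0) (nat_lit 17122599847) (nat_lit 1260) (nat_lit 696488461) (nat_lit 178) (nat_lit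 5) (nat_lit 177) (nat_lit 5) (nat_lit 192) (nat_lit 5) (nat_lit 377) (nat_lit 374) (nat_lit 194)) (XT.lf (nat_lit 84) (nat_lit 17875856431) (nat_lit 0) (nat_lit 6836638726) (nat_lit 1260) (nat_lit 281730721) (nat_lit 178) (nat_lit 5) (nat_lit 177) (nat_lit 5) (nat_lit 192) (nat_lit 5) (nat_lit 378) (nat_lit 374) (nat_lit 193)))))) (XT.nd (nat_lit 658) (nat_lit 840) (nat_lit 0) (XT.nd (nat_lit 282) (nat_lit 0) (nat_lit 84) (XT.nd (nat_lit 94) (nat_lit 0) (nat_lit 0) (XT.lf (nat_lit 0) (nat_lit 213439895) (nat_lit 1260) (nat_lit 21436715569) (nat_lit 1344) (nat_lit 3726199789) (nat_lit 163) (nat_lit 5) (nat_lit 178) (nat_lit 5) (nat_lit 179) (nat_lit 5) (nat_lit 379) (nat_lit 374) (nat_lit 192)) (XT.nd (nat_lit 94) (nat_lit 0) (nat_lit 0) (XT.lf (nat_lit 0) (nat_lit 854239578) (nat_lit 1260) (nat_lit 10366105621) (nat_lit 1344) (nat_lit 14545433534) (nat_lit 163) (nat_lit 5) (nat_lit 178)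 (nat_lit 5) (nat_lit 179) (nat_lit 5) (nat_lit 380) (nat_lit 374) (nat_lit 191)) (XT.lf (nat_lit 84) (nat_lit 1054845646) (nat_lit 0) (nat_lit 465823144) (nat_lit 1344) (nat_lit 24646030754) (nat_lit 164) (nat_lit 5) (nat_lit 163) (nat_lit 5) (nat_lit 179) (nat_lit 5) (nat_lit 381) (nat_lit 374) (nat_lit 190)))) (XT.nd (nat_lit 188) (nat_lit 0) (nat_lit 84) (XT.nd (nat_lit 94) (nat_lit 0) (nat_lit 0) (XT.lf (nat_lit 0) (nat_lit 2411171879) (nat_lit 1260) (nat_lit 13651092555) (nat_lit 1344) (nat_lit 10511267712) (nat_lit 164) (nat_lit 5) (nat_lit 179) (nat_lit 5) (nat_lit 180) (nat_lit 5) (nat_lit 382) (nat_lit 374) (nat_lit 189)) (XT.lf (nat_lit 0) (nat_lit 3329472663) (nat_lit 1260) (nat_lit 1853514951) (nat_lit 1344) (nat_lit 21809556038) (nat_lit 164) (nat_lit 5) (nat_lit 179) (nat_lit 5) (nat_lit 180) (nat_lit 5) (nat_lit 383) (nat_lit 374) (nat_lit 188))) (XT.nd (nat_lit 94) (nat_lit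 0) (nat_lit 0) (XT.lf (nat_lit 0) (nat_lit 4431737203) (nat_lit 1260) (nat_lit 16979540747) (nat_lit 1344) (nat_lit 6008161328) (nat_lit 165) (nat_lit 5) (nat_lit 180) (nat_lit 5) (nat_lit 181) (nat_lit 5) (nat_lit 384) (nat_lit 374) (nat_lit 187)) (XT.lf (nat_lit 0) (nat_lit 5633949610) (nat_lit 1260) (nat_lit 4772391141) (nat_lit 1344) (nat_lit 17450800662) (nat_lit 165) (nat_lit 5) (nat_lit 180) (nat_lit 5) (nat_lit 181) (nat_lit 5) (nat_lit 385) (nat_lit 374) (nat_lit 186))))) (XT.nd (nat_lit 282) (nat_lit 1092) (nat_lit 0) (XT.nd (nat_lit 94) (nat_lit 0) (nat_lit 0) (XT.lf (nat_lit 0) (nat_lit 6955137039) (nat_lit 1260) (nat_lit 20361644450) (nat_lit 1344) (nat_lit 988711724) (nat_lit 166) (nat_lit 5) (nat_lit 181) (nat_lit 5) (nat_lit 182) (nat_lit 5) (nat_lit 386) (nat_lit 374) (nat_lit 185)) (XT.nd (nat_lit 94) (nat_lit 0) (nat_lit 0) (XT.lf (nat_lit 0) (nat_lit 8464500585) (nat_lit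 1260) (nat_lit 7732388773) (nat_lit 1344) (nat_lit 12565955683) (nat_lit 166) (nat_lit 5) (nat_lit 181) (nat_lit 5) (nat_lit 182) (nat_lit 5) (nat_lit 387) (nat_lit 374) (nat_lit 184)) (XT.lf (nat_lit 84) (nat_lit 5378332153) (nat_lit 0) (nat_lit 4689443264) (nat_lit 1344) (nat_lit 19164688620) (nat_lit 167) (nat_lit 5) (nat_lit 166) (nat_lit 5) (nat_lit 182) (nat_lit 5) (nat_lit 388) (nat_lit 374) (nat_lit 183)))) (XT.nd (nat_lit 188) (nat_lit 1176) (nat_lit 0) (XT.nd (nat_lit 94) (nat_lit 0) (nat_lit 0) (XT.lf (nat_lit 0) (nat_lit 11863864702) (nat_lit 1260) (nat_lit 10745020143) (nat_lit 1344) (nat_lit 7102950636) (nat_lit 167) (nat_lit 5) (nat_lit 182) (nat_lit 5) (nat_lit 183) (nat_lit 5) (nat_lit 389) (nat_lit 374) (nat_lit 182)) (XT.lf (nat_lit 84) (nat_lit 2762469982) (nat_lit 0) (nat_lit 11021442472) (nat_lit 1344) (nat_lit 16419578547) (nat_lit 168) (nat_lit 5) (nat_lit 167)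 (nat_lit 5) (nat_lit 183) (nat_lit 5) (nat_lit 390) (nat_lit 374) (nat_lit 181))) (XT.nd (nat_lit 94) (nat_lit 1260) (nat_lit 0) (XT.lf (nat_lit 0) (nat_lit 15877079941) (nat_lit 1260) (nat_lit 13823493078) (nat_lit 84) (nat_lit 1005862673) (nat_lit 168) (nat_lit 5) (nat_lit 183) (nat_lit 5) (nat_lit 169) (nat_lit 5) (nat_lit 391) (nat_lit 374) (nat_lit 180)) (XT.lf (nat_lit 0) (nat_lit 92878450) (nat_lit 1260) (nat_lit 18047420842) (nat_lit 1344) (nat_lit 13080956637) (nat_lit 153) (nat_lit 5) (nat_lit 168) (nat_lit 5) (nat_lit 169) (nat_lit 5) (nat_lit 392) (nat_lit 374) (nat_lit 179))))))) (XT.nd (nat_lit 1316) (nat_lit 2688) (nat_lit 0) (XT.nd (nat_lit 658) (nat_lit 1596) (nat_lit 0) (XT.nd (nat_lit 282) (nat_lit 1260) (nat_lit 0) (XT.nd (nat_lit 94) (nat_lit 588) (nat_lit 0) (XT.lf (nat_lit 0) (nat_lit 14707760980) (nat_lit 1260) (nat_lit 5900543053) (nat_lit 1344) (nat_lit 11139114839)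 (nat_lit 153) (nat_lit 5) (nat_lit 168) (nat_lit 5) (nat_lit 169) (nat_lit 5) (nat_lit 393) (nat_lit 374) (nat_lit 178)) (XT.nd (nat_lit 94) (nat_lit 588) (nat_lit 0) (XT.lf (nat_lit 0) (nat_lit 23211276016) (nat_lit 1344) (nat_lit 2594189615) (nat_lit 84) (nat_lit 6482077887) (nat_lit 153) (nat_lit 5) (nat_lit 169) (nat_lit 5) (nat_lit 154) (nat_lit 5) (nat_lit 394) (nat_lit 374) (nat_lit 177)) (XT.lf (nat_lit 0) (nat_lit 12467204063) (nat_lit 588) (nat_lit 13600853609) (nat_lit 672) (nat_lit 6770547108) (nat_lit 146) (nat_lit 5) (nat_lit 153) (nat_lit 5) (nat_lit 154) (nat_lit 5) (nat_lit 395) (nat_lit 374) (nat_lit 176)))) (XT.nd (nat_lit 188) (nat_lit 672) (nat_lit 0) (XT.nd (nat_lit 94) (nat_lit 588) (nat_lit 0) (XT.lf (nat_lit 0) (nat_lit 28031342937) (nat_lit 588) (nat_lit 1002905176) (nat_lit 672) (nat_lit 4371242967) (nat_lit 146) (nat_lit 5) (nat_lit 153) (nat_lit 5) (nat_lit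 154) (nat_lit 5) (nat_lit 396) (nat_lit 374) (nat_lit 175)) (XT.lf (nat_lit 0) (nat_lit 10153779697) (nat_lit 588) (nat_lit 22145924209) (nat_lit 672) (nat_lit 1683375909) (nat_lit 139) (nat_lit 5) (nat_lit 146) (nat_lit 5) (nat_lit 147) (nat_lit 5) (nat_lit 397) (nat_lit 374) (nat_lit 174))) (XT.nd (nat_lit 94) (nat_lit 588) (nat_lit 0) (XT.lf (nat_lit 0) (nat_lit 1126292649) (nat_lit 672) (nat_lit 8341872721) (nat_lit 84) (nat_lit 25107651697) (nat_lit 138) (nat_lit 5) (nat_lit 146) (nat_lit 5) (nat_lit 139) (nat_lit 5) (nat_lit 398) (nat_lit 374) (nat_lit 173)) (XT.lf (nat_lit 0) (nat_lit 4093926963) (nat_lit 672) (nat_lit 27476746395) (nat_lit 84) (nat_lit 3611941644) (nat_lit 131) (nat_lit 5) (nat_lit 139) (nat_lit 5) (nat_lit 132) (nat_lit 5) (nat_lit 399) (nat_lit 374) (nat_lit 172))))) (XT.nd (nat_lit 282) (nat_lit 1008) (nat_lit 0) (XT.nd (nat_lit 94) (nat_lit 588) (nat_lit 0)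 (XT.lf (nat_lit 0) (nat_lit 7327126490) (nat_lit 672) (nat_lit 11495925464) (nat_lit 84) (nat_lit 16979272598) (nat_lit 131) (nat_lit 5) (nat_lit 139) (nat_lit 5) (nat_lit 132) (nat_lit 5) (nat_lit 400) (nat_lit 374) (nat_lit 171)) (XT.nd (nat_lit 94) (nat_lit 0) (nat_lit 0) (XT.lf (nat_lit 0) (nat_lit 5060842508) (nat_lit 588) (nat_lit 5642915163) (nat_lit 672) (nat_lit 25735478300) (nat_lit 124) (nat_lit 5) (nat_lit 131) (nat_lit 5) (nat_lit 132) (nat_lit 5) (nat_lit 401) (nat_lit 374) (nat_lit 170)) (XT.lf (nat_lit 0) (nat_lit 14373007249) (nat_lit 672) (nat_lit 14821485218) (nat_lit 84) (nat_lit 7895026227) (nat_lit 124) (nat_lit 5) (nat_lit 132) (nat_lit 5) (nat_lit 125) (nat_lit 5) (nat_lit 402) (nat_lit 374) (nat_lit 169)))) (XT.nd (nat_lit 188) (nat_lit 504) (nat_lit 0) (XT.nd (nat_lit 94) (nat_lit 0) (nat_lit 0) (XT.lf (nat_lit 0) (nat_lit 2217314834) (nat_lit 504) (nat_lit 16010097836)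 (nat_lit 588) (nat_lit 19529648322) (nat_lit 118) (nat_lit 5) (nat_lit 124) (nat_lit 5) (nat_lit 125) (nat_lit 5) (nat_lit 403) (nat_lit 374) (nat_lit 168)) (XT.lf (nat_lit 0) (nat_lit 20068913706) (nat_lit 504) (nat_lit 2276138493) (nat_lit 588) (nat_lit 16095152641) (nat_lit 118) (nat_lit 5) (nat_lit 124) (nat_lit 5) (nat_lit 125) (nat_lit 5) (nat_lit 404) (nat_lit 374) (nat_lit 167))) (XT.nd (nat_lit 94) (nat_lit 504) (nat_lit 0) (XT.lf (nat_lit 0) (nat_lit 26698314090) (nat_lit 588) (nat_lit 804072153) (nat_lit 84) (nat_lit 11638097212) (nat_lit 118) (nat_lit 5) (nat_lit 125) (nat_lit 5) (nat_lit 119) (nat_lit 5) (nat_lit 405) (nat_lit 374) (nat_lit 166)) (XT.lf (nat_lit 0) (nat_lit 17609118951) (nat_lit 504) (nat_lit 13762912005) (nat_lit 588) (nat_lit 8484046910) (nat_lit 112) (nat_lit 5) (nat_lit 118) (nat_lit 5) (nat_lit 119) (nat_lit 5) (nat_lit 406) (nat_lit 374) (nat_lit 165))))))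 (XT.nd (nat_lit 658) (nat_lit 1260) (nat_lit 0) (XT.nd (nat_lit 282) (nat_lit 924) (nat_lit 0) (XT.nd (nat_lit 94) (nat_lit 504) (nat_lit 0) (XT.lf (nat_lit 0) (nat_lit 36195982276) (nat_lit 588) (nat_lit 4007688785) (nat_lit 84) (nat_lit 389171416) (nat_lit 112) (nat_lit 5) (nat_lit 119) (nat_lit 5) (nat_lit 113) (nat_lit 5) (nat_lit 407) (nat_lit 374) (nat_lit 164)) (XT.nd (nat_lit 94) (nat_lit 0) (nat_lit 0) (XT.lf (nat_lit 0) (nat_lit 97282859) (nat_lit 504) (nat_lit 26412563463) (nat_lit 84) (nat_lit 14833499816) (nat_lit 106) (nat_lit 5) (nat_lit 112) (nat_lit 5) (nat_lit 107) (nat_lit 5) (nat_lit 408) (nat_lit 374) (nat_lit 163)) (XT.lf (nat_lit 0) (nat_lit 4676903287) (nat_lit 504) (nat_lit 7641642194) (nat_lit 84) (nat_lit 29795345460) (nat_lit 106) (nat_lit 5) (nat_lit 112) (nat_lit 5) (nat_lit 107) (nat_lit 5) (nat_lit 409) (nat_lit 374) (nat_lit 162)))) (XT.nd (nat_lit 188)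 (nat_lit 420) (nat_lit 0) (XT.nd (nat_lit 94) (nat_lit 0) (nat_lit 0) (XT.lf (nat_lit 0) (nat_lit 9529959184) (nat_lit 588) (nat_lit 31004387020) (nat_lit 84) (nat_lit 2369127195) (nat_lit 100) (nat_lit 5) (nat_lit 107) (nat_lit 5) (nat_lit 101) (nat_lit 5) (nat_lit 410) (nat_lit 374) (nat_lit 161)) (XT.lf (nat_lit 0) (nat_lit 14726740930) (nat_lit 588) (nat_lit 11656565394) (nat_lit 84) (nat_lit 17327495620) (nat_lit 100) (nat_lit 5) (nat_lit 107) (nat_lit 5) (nat_lit 101) (nat_lit 5) (nat_lit 411) (nat_lit 374) (nat_lit 160))) (XT.nd (nat_lit 94) (nat_lit 0) (nat_lit 0) (XT.lf (nat_lit 0) (nat_lit 8434244036) (nat_lit 420) (nat_lit 11724547261) (nat_lit 504) (nat_lit 24381180656) (nat_lit 95) (nat_lit 5) (nat_lit 100) (nat_lit 5) (nat_lit 101) (nat_lit 5) (nat_lit 412) (nat_lit 374) (nat_lit 159)) (XT.lf (nat_lit 0) (nat_lit 25903427139) (nat_lit 504) (nat_lit 16059417159) (nat_lit 84)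 (nat_lit 3426686530) (nat_lit 95) (nat_lit 5) (nat_lit 101) (nat_lit 5) (nat_lit 96) (nat_lit 5) (nat_lit 413) (nat_lit 374) (nat_lit 158))))) (XT.nd (nat_lit 282) (nat_lit 504) (nat_lit 0) (XT.nd (nat_lit 94) (nat_lit 336) (nat_lit 0) (XT.lf (nat_lit 0) (nat_lit 4559164870) (nat_lit 420) (nat_lit 27419513675) (nat_lit 504) (nat_lit 14281152047) (nat_lit 90) (nat_lit 5) (nat_lit 95) (nat_lit 5) (nat_lit 96) (nat_lit 5) (nat_lit 414) (nat_lit 374) (nat_lit 157)) (XT.nd (nat_lit 94) (nat_lit 336) (nat_lit 0) (XT.lf (nat_lit 0) (nat_lit 26123527117) (nat_lit 420) (nat_lit 12273223934) (nat_lit 504) (nat_lit 8754673734) (nat_lit 90) (nat_lit 5) (nat_lit 95) (nat_lit 5) (nat_lit 96) (nat_lit 5) (nat_lit 415) (nat_lit 374) (nat_lit 156)) (XT.lf (nat_lit 0) (nat_lit 235699824) (nat_lit 336) (nat_lit 44804355314) (nat_lit 420) (nat_lit 3028733260) (nat_lit 86) (nat_lit 5) (nat_lit 90) (nat_lit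 5) (nat_lit 91) (nat_lit 5) (nat_lit 416) (nat_lit 374) (nat_lit 155)))) (XT.nd (nat_lit 188) (nat_lit 420) (nat_lit 0) (XT.nd (nat_lit 94) (nat_lit 0) (nat_lit 0) (XT.lf (nat_lit 0) (nat_lit 3147408760) (nat_lit 420) (nat_lit 26592225246) (nat_lit 84) (nat_lit 19263181477) (nat_lit 85) (nat_lit 5) (nat_lit 90) (nat_lit 5) (nat_lit 86) (nat_lit 5) (nat_lit 417) (nat_lit 374) (nat_lit 154)) (XT.lf (nat_lit 0) (nat_lit 9446453302) (nat_lit 420) (nat_lit 4746046951) (nat_lit 84) (nat_lit 35771510803) (nat_lit 85) (nat_lit 5) (nat_lit 90) (nat_lit 5) (nat_lit 86) (nat_lit 5) (nat_lit 418) (nat_lit 374) (nat_lit 153))) (XT.nd (nat_lit 94) (nat_lit 0) (nat_lit 0) (XT.lf (nat_lit 0) (nat_lit 16126285725) (nat_lit 504) (nat_lit 32861109543) (nat_lit 84) (nat_lit 1960894755) (nat_lit 80) (nat_lit 5) (nat_lit 86) (nat_lit 5) (nat_lit 81) (nat_lit 5) (nat_lit 419) (nat_lit 374) (nat_lit 152)) (XT.lf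 (nat_lit 0) (nat_lit 23193990803) (nat_lit 504) (nat_lit 10400850170) (nat_lit 84) (nat_lit 18361634018) (nat_lit 80) (nat_lit 5) (nat_lit 86) (nat_lit 5) (nat_lit 81) (nat_lit 5) (nat_lit 420) (nat_lit 374) (nat_lit 151))))))))
noncomputable def xc201 : XT := (XT.nd (nat_lit 2538) (nat_lit 1428) (nat_lit 0) (XT.nd (nat_lit 1222) (nat_lit 1344) (nat_lit 0) (XT.nd (nat_lit 564) (nat_lit 1008) (nat_lit 0) (XT.nd (nat_lit 282) (nat_lit 420) (nat_lit 0) (XT.nd (nat_lit 94) (nat_lit 336) (nat_lit 0) (XT.lf (nat_lit 0) (nat_lit 12984761189) (nat_lit 336) (nat_lit 17612382922) (nat_lit 420) (nat_lit 22394060791) (nat_lit 76) (nat_lit 5) (nat_lit 80) (nat_lit 5) (nat_lit 81) (nat_lit 5) (nat_lit 421) (nat_lit 374) (nat_lit 150)) (XT.nd (nat_lit 94) (nat_lit 336) (nat_lit 0) (XT.lf (nat_lit 0) (nat_lit 37283330861) (nat_lit 336) (nat_lit 1042712280) (nat_lit 420) (nat_lit 15727825887) (nat_lit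 76) (nat_lit 5) (nat_lit 80) (nat_lit 5) (nat_lit 81) (nat_lit 5) (nat_lit 422) (nat_lit 374) (nat_lit 149)) (XT.lf (nat_lit 0) (nat_lit 7146054726) (nat_lit 336) (nat_lit 39362138551) (nat_lit 420) (nat_lit 8633580072) (nat_lit 72) (nat_lit 5) (nat_lit 76) (nat_lit 5) (nat_lit 77) (nat_lit 5) (nat_lit 423) (nat_lit 374) (nat_lit 148)))) (XT.nd (nat_lit 94) (nat_lit 420) (nat_lit 0) (XT.lf (nat_lit 0) (nat_lit 32111611187) (nat_lit 336) (nat_lit 23002449789) (nat_lit 420) (nat_lit 1142907977) (nat_lit 72) (nat_lit 5) (nat_lit 76) (nat_lit 5) (nat_lit 77) (nat_lit 5) (nat_lit 424) (nat_lit 374) (nat_lit 147)) (XT.nd (nat_lit 94) (nat_lit 0) (nat_lit 0) (XT.lf (nat_lit 0) (nat_lit 362651916) (nat_lit 336) (nat_lit 6083770472) (nat_lit 420) (nat_lit 50957238590) (nat_lit 67) (nat_lit 5) (nat_lit 71) (nat_lit 5) (nat_lit 72) (nat_lit 5) (nat_lit 425) (nat_lit 374) (nat_lit 146)) (XT.lf (nat_lit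 0) (nat_lit 14594448321) (nat_lit 420) (nat_lit 32601119797) (nat_lit 84) (nat_lit 11378228156) (nat_lit 67) (nat_lit 5) (nat_lit 72) (nat_lit 5) (nat_lit 68) (nat_lit 5) (nat_lit 426) (nat_lit 374) (nat_lit 145))))) (XT.nd (nat_lit 282) (nat_lit 672) (nat_lit 0) (XT.nd (nat_lit 94) (nat_lit 336) (nat_lit 0) (XT.lf (nat_lit 0) (nat_lit 23045909006) (nat_lit 420) (nat_lit 7489995386) (nat_lit 84) (nat_lit 29241362967) (nat_lit 67) (nat_lit 5) (nat_lit 72) (nat_lit 5) (nat_lit 68) (nat_lit 5) (nat_lit 427) (nat_lit 374) (nat_lit 144)) (XT.nd (nat_lit 94) (nat_lit 0) (nat_lit 0) (XT.lf (nat_lit 0) (nat_lit 18738441336) (nat_lit 336) (nat_lit 13191392319) (nat_lit 420) (nat_lit 29081642822) (nat_lit 63) (nat_lit 5) (nat_lit 67) (nat_lit 5) (nat_lit 68) (nat_lit 5) (nat_lit 428) (nat_lit 374) (nat_lit 143)) (XT.lf (nat_lit 0) (nat_lit 41200392656) (nat_lit 420) (nat_lit 16420539047) (nat_lit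 84) (nat_lit 4658178126) (nat_lit 63) (nat_lit 5) (nat_lit 68) (nat_lit 5) (nat_lit 64) (nat_lit 5) (nat_lit 429) (nat_lit 374) (nat_lit 142)))) (XT.nd (nat_lit 188) (nat_lit 420) (nat_lit 0) (XT.nd (nat_lit 94) (nat_lit 0) (nat_lit 0) (XT.lf (nat_lit 0) (nat_lit 10275799253) (nat_lit 252) (nat_lit 40701498348) (nat_lit 336) (nat_lit 12600629127) (nat_lit 60) (nat_lit 5) (nat_lit 63) (nat_lit 5) (nat_lit 64) (nat_lit 5) (nat_lit 430) (nat_lit 374) (nat_lit 141)) (XT.lf (nat_lit 0) (nat_lit 38108006074) (nat_lit 252) (nat_lit 23104180960) (nat_lit 336) (nat_lit 3698582154) (nat_lit 60) (nat_lit 5) (nat_lit 63) (nat_lit 5) (nat_lit 64) (nat_lit 5) (nat_lit 431) (nat_lit 374) (nat_lit 140))) (XT.nd (nat_lit 94) (nat_lit 0) (nat_lit 0) (XT.lf (nat_lit 0) (nat_lit 446098383) (nat_lit 336) (nat_lit 4920849329) (nat_lit 420) (nat_lit 60914977793) (nat_lit 55) (nat_lit 5) (nat_lit 59) (nat_lit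 5) (nat_lit 60) (nat_lit 5) (nat_lit 432) (nat_lit 374) (nat_lit 139)) (XT.lf (nat_lit 0) (nat_lit 15035067100) (nat_lit 420) (nat_lit 38797887500) (nat_lit 84) (nat_lit 13848015739) (nat_lit 55) (nat_lit 5) (nat_lit 60) (nat_lit 5) (nat_lit 56) (nat_lit 5) (nat_lit 433) (nat_lit 374) (nat_lit 138)))))) (XT.nd (nat_lit 658) (nat_lit 504) (nat_lit 0) (XT.nd (nat_lit 282) (nat_lit 588) (nat_lit 0) (XT.nd (nat_lit 94) (nat_lit 252) (nat_lit 0) (XT.lf (nat_lit 0) (nat_lit 25040879099) (nat_lit 420) (nat_lit 10999100472) (nat_lit 84) (nat_lit 33080578700) (nat_lit 55) (nat_lit 5) (nat_lit 60) (nat_lit 5) (nat_lit 56) (nat_lit 5) (nat_lit 434) (nat_lit 374) (nat_lit 137)) (XT.nd (nat_lit 94) (nat_lit 0) (nat_lit 0) (XT.lf (nat_lit 0) (nat_lit 17983040264) (nat_lit 252) (nat_lit 17535648157) (nat_lit 336) (nat_lit 35079491917) (nat_lit 52) (nat_lit 5) (nat_lit 55) (nat_lit 5) (nat_lit 56) (nat_lit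 5) (nat_lit 435) (nat_lit 374) (nat_lit 136)) (XT.lf (nat_lit 0) (nat_lit 46436619041) (nat_lit 336) (nat_lit 24073966621) (nat_lit 84) (nat_lit 1605772950) (nat_lit 52) (nat_lit 5) (nat_lit 56) (nat_lit 5) (nat_lit 53) (nat_lit 5) (nat_lit 436) (nat_lit 374) (nat_lit 135)))) (XT.nd (nat_lit 188) (nat_lit 336) (nat_lit 0) (XT.nd (nat_lit 94) (nat_lit 0) (nat_lit 0) (XT.lf (nat_lit 0) (nat_lit 5250792256) (nat_lit 252) (nat_lit 52654389571) (nat_lit 336) (nat_lit 15768208698) (nat_lit 49) (nat_lit 5) (nat_lit 52) (nat_lit 5) (nat_lit 53) (nat_lit 5) (nat_lit 437) (nat_lit 374) (nat_lit 134)) (XT.lf (nat_lit 0) (nat_lit 35947309867) (nat_lit 252) (nat_lit 34012606560) (nat_lit 336) (nat_lit 5309954608) (nat_lit 49) (nat_lit 5) (nat_lit 52) (nat_lit 5) (nat_lit 53) (nat_lit 5) (nat_lit 438) (nat_lit 374) (nat_lit 133))) (XT.nd (nat_lit 94) (nat_lit 252) (nat_lit 0) (XT.lf (nat_lit 0) (nat_lit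 5354496146) (nat_lit 336) (nat_lit 9403481494) (nat_lit 84) (nat_lit 62154723211) (nat_lit 48) (nat_lit 5) (nat_lit 52) (nat_lit 5) (nat_lit 49) (nat_lit 5) (nat_lit 439) (nat_lit 374) (nat_lit 132)) (XT.lf (nat_lit 0) (nat_lit 16491987252) (nat_lit 336) (nat_lit 56864077082) (nat_lit 84) (nat_lit 5239380057) (nat_lit 45) (nat_lit 5) (nat_lit 49) (nat_lit 5) (nat_lit 46) (nat_lit 5) (nat_lit 440) (nat_lit 374) (nat_lit 131))))) (XT.nd (nat_lit 282) (nat_lit 252) (nat_lit 0) (XT.nd (nat_lit 94) (nat_lit 252) (nat_lit 0) (XT.lf (nat_lit 0) (nat_lit 28204689338) (nat_lit 336) (nat_lit 26481278534) (nat_lit 84) (nat_lit 25635470746) (nat_lit 45) (nat_lit 5) (nat_lit 49) (nat_lit 5) (nat_lit 46) (nat_lit 5) (nat_lit 441) (nat_lit 374) (nat_lit 130)) (XT.nd (nat_lit 94) (nat_lit 0) (nat_lit 0) (XT.lf (nat_lit 0) (nat_lit 4907384158) (nat_lit 252) (nat_lit 35407658937) (nat_lit 336) (nat_lit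 41782782395) (nat_lit 42) (nat_lit 5) (nat_lit 45) (nat_lit 5) (nat_lit 46) (nat_lit 5) (nat_lit 442) (nat_lit 374) (nat_lit 129)) (XT.lf (nat_lit 0) (nat_lit 37779179960) (nat_lit 252) (nat_lit 15276047460) (nat_lit 336) (nat_lit 30864281859) (nat_lit 42) (nat_lit 5) (nat_lit 45) (nat_lit 5) (nat_lit 46) (nat_lit 5) (nat_lit 443) (nat_lit 374) (nat_lit 128)))) (XT.nd (nat_lit 188) (nat_lit 84) (nat_lit 0) (XT.nd (nat_lit 94) (nat_lit 168) (nat_lit 0) (XT.lf (nat_lit 0) (nat_lit 66229229848) (nat_lit 336) (nat_lit 14212543639) (nat_lit 84) (nat_lit 5352522602) (nat_lit 42) (nat_lit 5) (nat_lit 46) (nat_lit 5) (nat_lit 43) (nat_lit 5) (nat_lit 444) (nat_lit 374) (nat_lit 127)) (XT.lf (nat_lit 0) (nat_lit 18889112015) (nat_lit 168) (nat_lit 61241319698) (nat_lit 252) (nat_lit 7584936268) (nat_lit 40) (nat_lit 5) (nat_lit 42) (nat_lit 5) (nat_lit 43) (nat_lit 5) (nat_lit 445) (nat_lit 374)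 (nat_lit 126))) (XT.nd (nat_lit 94) (nat_lit 0) (nat_lit 0) (XT.lf (nat_lit 0) (nat_lit 4805918776) (nat_lit 252) (nat_lit 36463045875) (nat_lit 84) (nat_lit 48419414048) (nat_lit 39) (nat_lit 5) (nat_lit 42) (nat_lit 5) (nat_lit 40) (nat_lit 5) (nat_lit 446) (nat_lit 374) (nat_lit 125)) (XT.lf (nat_lit 0) (nat_lit 17415234904) (nat_lit 252) (nat_lit 3205314443) (nat_lit 84) (nat_lit 71097802673) (nat_lit 39) (nat_lit 5) (nat_lit 42) (nat_lit 5) (nat_lit 40) (nat_lit 5) (nat_lit 447) (nat_lit 374) (nat_lit 124))))))) (XT.nd (nat_lit 1410) (nat_lit 168) (nat_lit 0) (XT.nd (nat_lit 658) (nat_lit 588) (nat_lit 0) (XT.nd (nat_lit 282) (nat_lit 252) (nat_lit 0) (XT.nd (nat_lit 94) (nat_lit 168) (nat_lit 0) (XT.lf (nat_lit 0) (nat_lit 30715672448) (nat_lit 336) (nat_lit 62142505279) (nat_lit 84) (nat_lit 941662317) (nat_lit 36) (nat_lit 5) (nat_lit 40) (nat_lit 5) (nat_lit 37) (nat_lit 5) (nat_lit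 448) (nat_lit 374) (nat_lit 123)) (XT.nd (nat_lit 94) (nat_lit 168) (nat_lit 0) (XT.lf (nat_lit 0) (nat_lit 44651190654) (nat_lit 336) (nat_lit 28516963842) (nat_lit 84) (nat_lit 22768536928) (nat_lit 36) (nat_lit 5) (nat_lit 40) (nat_lit 5) (nat_lit 37) (nat_lit 5) (nat_lit 449) (nat_lit 374) (nat_lit 122)) (XT.lf (nat_lit 0) (nat_lit 6237856114) (nat_lit 168) (nat_lit 52826119040) (nat_lit 252) (nat_lit 39071897887) (nat_lit 34) (nat_lit 5) (nat_lit 36) (nat_lit 5) (nat_lit 37) (nat_lit 5) (nat_lit 450) (nat_lit 374) (nat_lit 121)))) (XT.nd (nat_lit 188) (nat_lit 252) (nat_lit 0) (XT.nd (nat_lit 94) (nat_lit 0) (nat_lit 0) (XT.lf (nat_lit 0) (nat_lit 42618691577) (nat_lit 168) (nat_lit 31577666341) (nat_lit 252) (nat_lit 26196056444) (nat_lit 34) (nat_lit 5) (nat_lit 36) (nat_lit 5) (nat_lit 37) (nat_lit 5) (nat_lit 451) (nat_lit 374) (nat_lit 120)) (XT.lf (nat_lit 0) (nat_lit 80089788130)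 (nat_lit 168) (nat_lit 9692195211) (nat_lit 252) (nat_lit 12934691123) (nat_lit 34) (nat_lit 5) (nat_lit 36) (nat_lit 5) (nat_lit 37) (nat_lit 5) (nat_lit 452) (nat_lit 374) (nat_lit 119))) (XT.nd (nat_lit 94) (nat_lit 0) (nat_lit 0) (XT.lf (nat_lit 0) (nat_lit 967566621) (nat_lit 252) (nat_lit 91395146993) (nat_lit 84) (nat_lit 12740024780) (nat_lit 31) (nat_lit 5) (nat_lit 34) (nat_lit 5) (nat_lit 32) (nat_lit 5) (nat_lit 453) (nat_lit 374) (nat_lit 118)) (XT.lf (nat_lit 0) (nat_lit 15352919946) (nat_lit 252) (nat_lit 56185039377) (nat_lit 84) (nat_lit 36008803481) (nat_lit 31) (nat_lit 5) (nat_lit 34) (nat_lit 5) (nat_lit 32) (nat_lit 5) (nat_lit 454) (nat_lit 374) (nat_lit 117))))) (XT.nd (nat_lit 282) (nat_lit 420) (nat_lit 0) (XT.nd (nat_lit 94) (nat_lit 168) (nat_lit 0) (XT.lf (nat_lit 0) (nat_lit 30169145103) (nat_lit 252) (nat_lit 19919746378) (nat_lit 84) (nat_lit 59975237730)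 (nat_lit 31) (nat_lit 5) (nat_lit 34) (nat_lit 5) (nat_lit 32) (nat_lit 5) (nat_lit 455) (nat_lit 374) (nat_lit 116)) (XT.nd (nat_lit 94) (nat_lit 0) (nat_lit 0) (XT.lf (nat_lit 0) (nat_lit 17779359465) (nat_lit 168) (nat_lit 27820734921) (nat_lit 252) (nat_lit 67051815686) (nat_lit 29) (nat_lit 5) (nat_lit 31) (nat_lit 5) (nat_lit 32) (nat_lit 5) (nat_lit 456) (nat_lit 374) (nat_lit 115)) (XT.lf (nat_lit 0) (nat_lit 57016699108) (nat_lit 168) (nat_lit 4677763860) (nat_lit 252) (nat_lit 53616847234) (nat_lit 29) (nat_lit 5) (nat_lit 31) (nat_lit 5) (nat_lit 32) (nat_lit 5) (nat_lit 457) (nat_lit 374) (nat_lit 114)))) (XT.nd (nat_lit 188) (nat_lit 252) (nat_lit 0) (XT.nd (nat_lit 94) (nat_lit 168) (nat_lit 0) (XT.lf (nat_lit 0) (nat_lit 78455191184) (nat_lit 252) (nat_lit 20804565431) (nat_lit 84) (nat_lit 18785230415) (nat_lit 29) (nat_lit 5) (nat_lit 32) (nat_lit 5) (nat_lit 30) (nat_lit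 5) (nat_lit 458) (nat_lit 374) (nat_lit 113)) (XT.lf (nat_lit 0) (nat_lit 18116354045) (nat_lit 168) (nat_lit 77822221712) (nat_lit 252) (nat_lit 24915503906) (nat_lit 27) (nat_lit 5) (nat_lit 29) (nat_lit 5) (nat_lit 30) (nat_lit 5) (nat_lit 459) (nat_lit 374) (nat_lit 112))) (XT.nd (nat_lit 188) (nat_lit 252) (nat_lit 0) (XT.lf (nat_lit 0) (nat_lit 58630356001) (nat_lit 168) (nat_lit 55525574153) (nat_lit 252) (nat_lit 9585231390) (nat_lit 27) (nat_lit 5) (nat_lit 29) (nat_lit 5) (nat_lit 30) (nat_lit 5) (nat_lit 460) (nat_lit 374) (nat_lit 111)) (XT.lf (nat_lit 0) (nat_lit 13609911421) (nat_lit 168) (nat_lit 8549485892) (nat_lit 252) (nat_lit 107608015385) (nat_lit 24) (nat_lit 5) (nat_lit 26) (nat_lit 5) (nat_lit 27) (nat_lit 5) (nat_lit 462) (nat_lit 374) (nat_lit 109)))))) (XT.nd (nat_lit 51418) (nat_lit 0) (nat_lit 11844) (XT.nd (nat_lit 51042) (nat_lit 0) (nat_lit 12936) (XT.nd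 (nat_lit 94) (nat_lit 168) (nat_lit 0) (XT.lf (nat_lit 0) (nat_lit 39141561076) (nat_lit 252) (nat_lit 77686113067) (nat_lit 84) (nat_lit 16072984019) (nat_lit 24) (nat_lit 5) (nat_lit 27) (nat_lit 5) (nat_lit 25) (nat_lit 5) (nat_lit 463) (nat_lit 374) (nat_lit 108)) (XT.nd (nat_lit 94) (nat_lit 168) (nat_lit 0) (XT.lf (nat_lit 0) (nat_lit 56717271469) (nat_lit 252) (nat_lit 38146179814) (nat_lit 84) (nat_lit 41261927703) (nat_lit 24) (nat_lit 5) (nat_lit 27) (nat_lit 5) (nat_lit 25) (nat_lit 5) (nat_lit 464) (nat_lit 374) (nat_lit 107)) (XT.lf (nat_lit 0) (nat_lit 2630358598) (nat_lit 168) (nat_lit 72214629039) (nat_lit 252) (nat_lit 64601112198) (nat_lit 22) (nat_lit 5) (nat_lit 24) (nat_lit 5) (nat_lit 25) (nat_lit 5) (nat_lit 465) (nat_lit 374) (nat_lit 106)))) (XT.nd (nat_lit 188) (nat_lit 0) (nat_lit 0) (XT.nd (nat_lit 94) (nat_lit 0) (nat_lit 0) (XT.lf (nat_lit 0) (nat_lit 11507313307)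 (nat_lit 1260) (nat_lit 309435097) (nat_lit 1260) (nat_lit 309435097) (nat_lit 176) (nat_lit 3) (nat_lit 191) (nat_lit 3) (nat_lit 191) (nat_lit 5) (nat_lit 375) (nat_lit 375) (nat_lit 195)) (XT.lf (nat_lit 84) (nat_lit 10061414106) (nat_lit 0) (nat_lit 13497689185) (nat_lit 1260) (nat_lit 1050875563) (nat_lit 177) (nat_lit 5) (nat_lit 176) (nat_lit 3) (nat_lit 191) (nat_lit 5) (nat_lit 376) (nat_lit 375) (nat_lit 194))) (XT.nd (nat_lit 94) (nat_lit 0) (nat_lit 84) (XT.lf (nat_lit 84) (nat_lit 21072687283) (nat_lit 0) (nat_lit 3049454236) (nat_lit 1260) (nat_lit 856118369) (nat_lit 177) (nat_lit 5) (nat_lit 176) (nat_lit 3) (nat_lit 191) (nat_lit 5) (nat_lit 377) (nat_lit 375) (nat_lit 193)) (XT.lf (nat_lit 84) (nat_lit 7119311044) (nat_lit 0) (nat_lit 17721442583) (nat_lit 1260) (nat_lit 512682669) (nat_lit 178) (nat_lit 5) (nat_lit 177) (nat_lit 5) (nat_lit 192) (nat_lit 5) (nat_lit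 378) (nat_lit 375) (nat_lit 192))))) (XT.nd (nat_lit 282) (nat_lit 0) (nat_lit 0) (XT.nd (nat_lit 94) (nat_lit 1176) (nat_lit 0) (XT.lf (nat_lit 84) (nat_lit 18522042541) (nat_lit 0) (nat_lit 7124422102) (nat_lit 1260) (nat_lit 91444345) (nat_lit 178) (nat_lit 5) (nat_lit 177) (nat_lit 5) (nat_lit 192) (nat_lit 5) (nat_lit 379) (nat_lit 375) (nat_lit 191)) (XT.nd (nat_lit 94) (nat_lit 0) (nat_lit 0) (XT.lf (nat_lit 0) (nat_lit 409371671) (nat_lit 1260) (nat_lit 21959996901) (nat_lit 1344) (nat_lit 3762246654) (nat_lit 163) (nat_lit 5) (nat_lit 178) (nat_lit 5) (nat_lit 179) (nat_lit 5) (nat_lit 380) (nat_lit 375) (nat_lit 190)) (XT.lf (nat_lit 0) (nat_lit 1063875095) (nat_lit 1260) (nat_lit 10560758561) (nat_lit 1344) (nat_lit 14908263405) (nat_lit 163) (nat_lit 5) (nat_lit 178) (nat_lit 5) (nat_lit 179) (nat_lit 5) (nat_lit 381) (nat_lit 375) (nat_lit 189)))) (XT.nd (nat_lit 188) (nat_lit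 0) (nat_lit 84) (XT.nd (nat_lit 94) (nat_lit 0) (nat_lit 84) (XT.lf (nat_lit 84) (nat_lit 1201680752) (nat_lit 0) (nat_lit 544364240) (nat_lit 1344) (nat_lit 25199937821) (nat_lit 164) (nat_lit 5) (nat_lit 163) (nat_lit 5) (nat_lit 179) (nat_lit 5) (nat_lit 382) (nat_lit 375) (nat_lit 188)) (XT.lf (nat_lit 0) (nat_lit 2657424983) (nat_lit 1260) (nat_lit 13942636880) (nat_lit 1344) (nat_lit 10765143143) (nat_lit 164) (nat_lit 5) (nat_lit 179) (nat_lit 5) (nat_lit 180) (nat_lit 5) (nat_lit 383) (nat_lit 375) (nat_lit 187))) (XT.nd (nat_lit 94) (nat_lit 0) (nat_lit 84) (XT.lf (nat_lit 0) (nat_lit 3598209219) (nat_lit 1260) (nat_lit 1794568504) (nat_lit 1344) (nat_lit 22404170292) (nat_lit 164) (nat_lit 5) (nat_lit 179) (nat_lit 5) (nat_lit 180) (nat_lit 5) (nat_lit 384) (nat_lit 375) (nat_lit 186)) (XT.lf (nat_lit 0) (nat_lit 4729218042) (nat_lit 1260) (nat_lit 17369753969) (nat_lit 1344)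 (nat_lit 6137817134) (nat_lit 165) (nat_lit 5) (nat_lit 180) (nat_lit 5) (nat_lit 181) (nat_lit 5) (nat_lit 385) (nat_lit 375) (nat_lit 185))))))))
noncomputable def xc202 : XT := (XT.nd (nat_lit 2538) (nat_lit 4368) (nat_lit 0) (XT.nd (nat_lit 1222) (nat_lit 3276) (nat_lit 0) (XT.nd (nat_lit 564) (nat_lit 2184) (nat_lit 0) (XT.nd (nat_lit 282) (nat_lit 0) (nat_lit 84) (XT.nd (nat_lit 94) (nat_lit 0) (nat_lit 84) (XT.lf (nat_lit 0) (nat_lit 5962704722) (nat_lit 1260) (nat_lit 4799860933) (nat_lit 1344) (nat_lit 17925209114) (nat_lit 165) (nat_lit 5) (nat_lit 180) (nat_lit 5) (nat_lit 181) (nat_lit 5) (nat_lit 386) (nat_lit 375) (nat_lit 184)) (XT.nd (nat_lit 94) (nat_lit 0) (nat_lit 0) (XT.lf (nat_lit 0) (nat_lit 7319576489) (nat_lit 1260) (nat_lit 20852560179) (nat_lit 1344) (nat_lit 977567404) (nat_lit 166) (nat_lit 5) (nat_lit 181) (nat_lit 5) (nat_lit 182) (nat_lit 5) (nat_lit 387)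 (nat_lit 375) (nat_lit 183)) (XT.lf (nat_lit 0) (nat_lit 8869683504) (nat_lit 1260) (nat_lit 7847920044) (nat_lit 1344) (nat_lit 12903317196) (nat_lit 166) (nat_lit 5) (nat_lit 181) (nat_lit 5) (nat_lit 182) (nat_lit 5) (nat_lit 388) (nat_lit 375) (nat_lit 182)))) (XT.nd (nat_lit 94) (nat_lit 0) (nat_lit 84) (XT.lf (nat_lit 84) (nat_lit 5654980937) (nat_lit 0) (nat_lit 4862778689) (nat_lit 1344) (nat_lit 19586975522) (nat_lit 167) (nat_lit 5) (nat_lit 166) (nat_lit 5) (nat_lit 182) (nat_lit 5) (nat_lit 389) (nat_lit 375) (nat_lit 181)) (XT.nd (nat_lit 94) (nat_lit 0) (nat_lit 0) (XT.lf (nat_lit 0) (nat_lit 12363117608) (nat_lit 1260) (nat_lit 10950559580) (nat_lit 1344) (nat_lit 7284956664) (nat_lit 167) (nat_lit 5) (nat_lit 182) (nat_lit 5) (nat_lit 183) (nat_lit 5) (nat_lit 390) (nat_lit 375) (nat_lit 180)) (XT.lf (nat_lit 84) (nat_lit 2961010041) (nat_lit 0) (nat_lit 11376693740) (nat_lit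 1344) (nat_lit 16767434620) (nat_lit 168) (nat_lit 5) (nat_lit 167) (nat_lit 5) (nat_lit 183) (nat_lit 5) (nat_lit 391) (nat_lit 375) (nat_lit 179))))) (XT.nd (nat_lit 282) (nat_lit 1176) (nat_lit 0) (XT.nd (nat_lit 94) (nat_lit 1260) (nat_lit 0) (XT.lf (nat_lit 0) (nat_lit 16489350986) (nat_lit 1260) (nat_lit 14121343661) (nat_lit 84) (nat_lit 1012613502) (nat_lit 168) (nat_lit 5) (nat_lit 183) (nat_lit 5) (nat_lit 169) (nat_lit 5) (nat_lit 392) (nat_lit 375) (nat_lit 178)) (XT.nd (nat_lit 94) (nat_lit 0) (nat_lit 0) (XT.lf (nat_lit 0) (nat_lit 211373384) (nat_lit 1260) (nat_lit 18606245835) (nat_lit 1344) (nat_lit 13336046248) (nat_lit 153) (nat_lit 5) (nat_lit 168) (nat_lit 5) (nat_lit 169) (nat_lit 5) (nat_lit 393) (nat_lit 375) (nat_lit 177)) (XT.lf (nat_lit 0) (nat_lit 15261332237) (nat_lit 1260) (nat_lit 6094454847) (nat_lit 1344) (nat_lit 11339949364) (nat_lit 153) (nat_lit 5)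 (nat_lit 168) (nat_lit 5) (nat_lit 169) (nat_lit 5) (nat_lit 394) (nat_lit 375) (nat_lit 176)))) (XT.nd (nat_lit 188) (nat_lit 588) (nat_lit 0) (XT.nd (nat_lit 94) (nat_lit 588) (nat_lit 0) (XT.lf (nat_lit 0) (nat_lit 24032926452) (nat_lit 1344) (nat_lit 2558805762) (nat_lit 84) (nat_lit 6660456913) (nat_lit 153) (nat_lit 5) (nat_lit 169) (nat_lit 5) (nat_lit 154) (nat_lit 5) (nat_lit 395) (nat_lit 375) (nat_lit 175)) (XT.lf (nat_lit 0) (nat_lit 12953319829) (nat_lit 588) (nat_lit 14019519431) (nat_lit 672) (nat_lit 6847026583) (nat_lit 146) (nat_lit 5) (nat_lit 153) (nat_lit 5) (nat_lit 154) (nat_lit 5) (nat_lit 396) (nat_lit 375) (nat_lit 174))) (XT.nd (nat_lit 94) (nat_lit 588) (nat_lit 0) (XT.lf (nat_lit 0) (nat_lit 28981117831) (nat_lit 588) (nat_lit 1043322636) (nat_lit 672) (nat_lit 4379431772) (nat_lit 146) (nat_lit 5) (nat_lit 153) (nat_lit 5) (nat_lit 154) (nat_lit 5) (nat_lit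 397) (nat_lit 375) (nat_lit 173)) (XT.lf (nat_lit 0) (nat_lit 10570005495) (nat_lit 588) (nat_lit 22815360093) (nat_lit 672) (nat_lit 1613503954) (nat_lit 139) (nat_lit 5) (nat_lit 146) (nat_lit 5) (nat_lit 147) (nat_lit 5) (nat_lit 398) (nat_lit 375) (nat_lit 172)))))) (XT.nd (nat_lit 658) (nat_lit 1512) (nat_lit 0) (XT.nd (nat_lit 282) (nat_lit 1092) (nat_lit 0) (XT.nd (nat_lit 94) (nat_lit 588) (nat_lit 0) (XT.lf (nat_lit 0) (nat_lit 1274668144) (nat_lit 672) (nat_lit 8481295919) (nat_lit 84) (nat_lit 25853498992) (nat_lit 138) (nat_lit 5) (nat_lit 146) (nat_lit 5) (nat_lit 139) (nat_lit 5) (nat_lit 399) (nat_lit 375) (nat_lit 171)) (XT.nd (nat_lit 94) (nat_lit 0) (nat_lit 0) (XT.lf (nat_lit 0) (nat_lit 4329024373) (nat_lit 672) (nat_lit 28187723327) (nat_lit 84) (nat_lit 3717792003) (nat_lit 131) (nat_lit 5) (nat_lit 139) (nat_lit 5) (nat_lit 132) (nat_lit 5) (nat_lit 400) (nat_lit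 375) (nat_lit 170)) (XT.lf (nat_lit 0) (nat_lit 7655949606) (nat_lit 672) (nat_lit 11730778509) (nat_lit 84) (nat_lit 17486215932) (nat_lit 131) (nat_lit 5) (nat_lit 139) (nat_lit 5) (nat_lit 132) (nat_lit 5) (nat_lit 401) (nat_lit 375) (nat_lit 169)))) (XT.nd (nat_lit 188) (nat_lit 504) (nat_lit 0) (XT.nd (nat_lit 94) (nat_lit 0) (nat_lit 0) (XT.lf (nat_lit 0) (nat_lit 5321613829) (nat_lit 588) (nat_lit 5810138121) (nat_lit 672) (nat_lit 26397279933) (nat_lit 124) (nat_lit 5) (nat_lit 131) (nat_lit 5) (nat_lit 132) (nat_lit 5) (nat_lit 402) (nat_lit 375) (nat_lit 168)) (XT.lf (nat_lit 0) (nat_lit 14907985228) (nat_lit 672) (nat_lit 15157093495) (nat_lit 84) (nat_lit 8133842267) (nat_lit 124) (nat_lit 5) (nat_lit 132) (nat_lit 5) (nat_lit 125) (nat_lit 5) (nat_lit 403) (nat_lit 375) (nat_lit 167))) (XT.nd (nat_lit 94) (nat_lit 0) (nat_lit 0) (XT.lf (nat_lit 0) (nat_lit 2391801575) (nat_lit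 504) (nat_lit 16484236138) (nat_lit 588) (nat_lit 20010516336) (nat_lit 118) (nat_lit 5) (nat_lit 124) (nat_lit 5) (nat_lit 125) (nat_lit 5) (nat_lit 404) (nat_lit 375) (nat_lit 166)) (XT.lf (nat_lit 0) (nat_lit 20775803735) (nat_lit 504) (nat_lit 2338437568) (nat_lit 588) (nat_lit 16476044662) (nat_lit 118) (nat_lit 5) (nat_lit 124) (nat_lit 5) (nat_lit 125) (nat_lit 5) (nat_lit 405) (nat_lit 375) (nat_lit 165))))) (XT.nd (nat_lit 282) (nat_lit 1008) (nat_lit 0) (XT.nd (nat_lit 94) (nat_lit 504) (nat_lit 0) (XT.lf (nat_lit 0) (nat_lit 27595278144) (nat_lit 588) (nat_lit 723446641) (nat_lit 84) (nat_lit 11992937497) (nat_lit 118) (nat_lit 5) (nat_lit 125) (nat_lit 5) (nat_lit 119) (nat_lit 5) (nat_lit 406) (nat_lit 375) (nat_lit 164)) (XT.nd (nat_lit 94) (nat_lit 0) (nat_lit 0) (XT.lf (nat_lit 0) (nat_lit 18241113258) (nat_lit 504) (nat_lit 14166293742) (nat_lit 588) (nat_lit 8641376032)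 (nat_lit 112) (nat_lit 5) (nat_lit 118) (nat_lit 5) (nat_lit 119) (nat_lit 5) (nat_lit 407) (nat_lit 375) (nat_lit 163)) (XT.lf (nat_lit 0) (nat_lit 37373421443) (nat_lit 588) (nat_lit 4024417959) (nat_lit 84) (nat_lit 409895233) (nat_lit 112) (nat_lit 5) (nat_lit 119) (nat_lit 5) (nat_lit 113) (nat_lit 5) (nat_lit 408) (nat_lit 375) (nat_lit 162)))) (XT.nd (nat_lit 188) (nat_lit 504) (nat_lit 0) (XT.nd (nat_lit 94) (nat_lit 0) (nat_lit 0) (XT.lf (nat_lit 0) (nat_lit 191108596) (nat_lit 504) (nat_lit 27100506438) (nat_lit 84) (nat_lit 15289166343) (nat_lit 106) (nat_lit 5) (nat_lit 112) (nat_lit 5) (nat_lit 107) (nat_lit 5) (nat_lit 409) (nat_lit 375) (nat_lit 161)) (XT.lf (nat_lit 0) (nat_lit 4905469852) (nat_lit 504) (nat_lit 7769499296) (nat_lit 84) (nat_lit 30699556826) (nat_lit 106) (nat_lit 5) (nat_lit 112) (nat_lit 5) (nat_lit 107) (nat_lit 5) (nat_lit 410) (nat_lit 375) (nat_lit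 160))) (XT.nd (nat_lit 94) (nat_lit 0) (nat_lit 0) (XT.lf (nat_lit 0) (nat_lit 9902643968) (nat_lit 588) (nat_lit 31831523000) (nat_lit 84) (nat_lit 2453677043) (nat_lit 100) (nat_lit 5) (nat_lit 107) (nat_lit 5) (nat_lit 101) (nat_lit 5) (nat_lit 411) (nat_lit 375) (nat_lit 159)) (XT.lf (nat_lit 0) (nat_lit 15252801419) (nat_lit 588) (nat_lit 11906266598) (nat_lit 84) (nat_lit 17860404015) (nat_lit 100) (nat_lit 5) (nat_lit 107) (nat_lit 5) (nat_lit 101) (nat_lit 5) (nat_lit 412) (nat_lit 375) (nat_lit 158))))))) (XT.nd (nat_lit 1316) (nat_lit 1596) (nat_lit 0) (XT.nd (nat_lit 658) (nat_lit 1512) (nat_lit 0) (XT.nd (nat_lit 282) (nat_lit 420) (nat_lit 0) (XT.nd (nat_lit 94) (nat_lit 420) (nat_lit 0) (XT.lf (nat_lit 0) (nat_lit 8786286764) (nat_lit 420) (nat_lit 12060024205) (nat_lit 504) (nat_lit 25027254918) (nat_lit 95) (nat_lit 5) (nat_lit 100) (nat_lit 5) (nat_lit 101) (nat_lit 5)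 (nat_lit 413) (nat_lit 375) (nat_lit 157)) (XT.nd (nat_lit 94) (nat_lit 420) (nat_lit 0) (XT.lf (nat_lit 0) (nat_lit 26761027264) (nat_lit 504) (nat_lit 16442690610) (nat_lit 84) (nat_lit 3544964983) (nat_lit 95) (nat_lit 5) (nat_lit 101) (nat_lit 5) (nat_lit 96) (nat_lit 5) (nat_lit 414) (nat_lit 375) (nat_lit 156)) (XT.lf (nat_lit 0) (nat_lit 4793483105) (nat_lit 420) (nat_lit 28223646171) (nat_lit 504) (nat_lit 14628008011) (nat_lit 90) (nat_lit 5) (nat_lit 95) (nat_lit 5) (nat_lit 96) (nat_lit 5) (nat_lit 415) (nat_lit 375) (nat_lit 155)))) (XT.nd (nat_lit 188) (nat_lit 84) (nat_lit 0) (XT.nd (nat_lit 94) (nat_lit 336) (nat_lit 0) (XT.lf (nat_lit 0) (nat_lit 27001935152) (nat_lit 420) (nat_lit 12623505201) (nat_lit 504) (nat_lit 8938111425) (nat_lit 90) (nat_lit 5) (nat_lit 95) (nat_lit 5) (nat_lit 96) (nat_lit 5) (nat_lit 416) (nat_lit 375) (nat_lit 154)) (XT.lf (nat_lit 0) (nat_lit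 338766128) (nat_lit 336) (nat_lit 46128130891) (nat_lit 420) (nat_lit 3041576943) (nat_lit 86) (nat_lit 5) (nat_lit 90) (nat_lit 5) (nat_lit 91) (nat_lit 5) (nat_lit 417) (nat_lit 375) (nat_lit 153))) (XT.nd (nat_lit 94) (nat_lit 0) (nat_lit 0) (XT.lf (nat_lit 0) (nat_lit 3316098883) (nat_lit 420) (nat_lit 27295211968) (nat_lit 84) (nat_lit 19859258431) (nat_lit 85) (nat_lit 5) (nat_lit 90) (nat_lit 5) (nat_lit 86) (nat_lit 5) (nat_lit 418) (nat_lit 375) (nat_lit 152)) (XT.lf (nat_lit 0) (nat_lit 9801951621) (nat_lit 420) (nat_lit 4796408907) (nat_lit 84) (nat_lit 36862308078) (nat_lit 85) (nat_lit 5) (nat_lit 90) (nat_lit 5) (nat_lit 86) (nat_lit 5) (nat_lit 419) (nat_lit 375) (nat_lit 151))))) (XT.nd (nat_lit 282) (nat_lit 756) (nat_lit 0) (XT.nd (nat_lit 94) (nat_lit 336) (nat_lit 0) (XT.lf (nat_lit 0) (nat_lit 16681149283) (nat_lit 504) (nat_lit 33753796905) (nat_lit 84) (nat_lit 2039563548)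 (nat_lit 80) (nat_lit 5) (nat_lit 86) (nat_lit 5) (nat_lit 81) (nat_lit 5) (nat_lit 420) (nat_lit 375) (nat_lit 150)) (XT.nd (nat_lit 94) (nat_lit 336) (nat_lit 0) (XT.lf (nat_lit 0) (nat_lit 23958815368) (nat_lit 504) (nat_lit 10622442739) (nat_lit 84) (nat_lit 18931747068) (nat_lit 80) (nat_lit 5) (nat_lit 86) (nat_lit 5) (nat_lit 81) (nat_lit 5) (nat_lit 421) (nat_lit 375) (nat_lit 149)) (XT.lf (nat_lit 0) (nat_lit 13463850364) (nat_lit 336) (nat_lit 18119063835) (nat_lit 420) (nat_lit 22995899991) (nat_lit 76) (nat_lit 5) (nat_lit 80) (nat_lit 5) (nat_lit 81) (nat_lit 5) (nat_lit 422) (nat_lit 375) (nat_lit 148)))) (XT.nd (nat_lit 188) (nat_lit 420) (nat_lit 0) (XT.nd (nat_lit 94) (nat_lit 336) (nat_lit 0) (XT.lf (nat_lit 0) (nat_lit 38488768980) (nat_lit 336) (nat_lit 1052934839) (nat_lit 420) (nat_lit 16131716368) (nat_lit 76) (nat_lit 5) (nat_lit 80) (nat_lit 5) (nat_lit 81) (nat_lit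 5) (nat_lit 423) (nat_lit 375) (nat_lit 147)) (XT.lf (nat_lit 0) (nat_lit 7448366447) (nat_lit 336) (nat_lit 40520074967) (nat_lit 420) (nat_lit 8825549114) (nat_lit 72) (nat_lit 5) (nat_lit 76) (nat_lit 5) (nat_lit 77) (nat_lit 5) (nat_lit 424) (nat_lit 375) (nat_lit 146))) (XT.nd (nat_lit 94) (nat_lit 420) (nat_lit 0) (XT.lf (nat_lit 0) (nat_lit 33160328532) (nat_lit 336) (nat_lit 23670263340) (nat_lit 420) (nat_lit 1112109430) (nat_lit 72) (nat_lit 5) (nat_lit 76) (nat_lit 5) (nat_lit 77) (nat_lit 5) (nat_lit 425) (nat_lit 375) (nat_lit 145)) (XT.lf (nat_lit 0) (nat_lit 459401361) (nat_lit 336) (nat_lit 6243196150) (nat_lit 420) (nat_lit 52421211165) (nat_lit 67) (nat_lit 5) (nat_lit 71) (nat_lit 5) (nat_lit 72) (nat_lit 5) (nat_lit 426) (nat_lit 375) (nat_lit 144)))))) (XT.nd (nat_lit 658) (nat_lit 588) (nat_lit 0) (XT.nd (nat_lit 282) (nat_lit 672) (nat_lit 0) (XT.nd (nat_lit 94)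 (nat_lit 336) (nat_lit 0) (XT.lf (nat_lit 0) (nat_lit 15093451073) (nat_lit 420) (nat_lit 33494095052) (nat_lit 84) (nat_lit 11741552591) (nat_lit 67) (nat_lit 5) (nat_lit 72) (nat_lit 5) (nat_lit 68) (nat_lit 5) (nat_lit 427) (nat_lit 375) (nat_lit 143)) (XT.nd (nat_lit 94) (nat_lit 336) (nat_lit 0) (XT.lf (nat_lit 0) (nat_lit 23796673949) (nat_lit 420) (nat_lit 7632114336) (nat_lit 84) (nat_lit 30139941321) (nat_lit 67) (nat_lit 5) (nat_lit 72) (nat_lit 5) (nat_lit 68) (nat_lit 5) (nat_lit 428) (nat_lit 375) (nat_lit 142)) (XT.lf (nat_lit 0) (nat_lit 19382365870) (nat_lit 336) (nat_lit 13563806764) (nat_lit 420) (nat_lit 29893822834) (nat_lit 63) (nat_lit 5) (nat_lit 67) (nat_lit 5) (nat_lit 68) (nat_lit 5) (nat_lit 429) (nat_lit 375) (nat_lit 141)))) (XT.nd (nat_lit 188) (nat_lit 420) (nat_lit 0) (XT.nd (nat_lit 94) (nat_lit 252) (nat_lit 0) (XT.lf (nat_lit 0) (nat_lit 42493363860)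 (nat_lit 420) (nat_lit 16832211180) (nat_lit 84) (nat_lit 4820129416) (nat_lit 63) (nat_lit 5) (nat_lit 68) (nat_lit 5) (nat_lit 64) (nat_lit 5) (nat_lit 430) (nat_lit 375) (nat_lit 140)) (XT.lf (nat_lit 0) (nat_lit 10664223700) (nat_lit 252) (nat_lit 41898463696) (nat_lit 336) (nat_lit 12920827156) (nat_lit 60) (nat_lit 5) (nat_lit 63) (nat_lit 5) (nat_lit 64) (nat_lit 5) (nat_lit 431) (nat_lit 375) (nat_lit 139))) (XT.nd (nat_lit 94) (nat_lit 420) (nat_lit 0) (XT.lf (nat_lit 0) (nat_lit 39329062246) (nat_lit 252) (nat_lit 23773928134) (nat_lit 336) (nat_lit 3753402877) (nat_lit 60) (nat_lit 5) (nat_lit 63) (nat_lit 5) (nat_lit 64) (nat_lit 5) (nat_lit 432) (nat_lit 375) (nat_lit 138)) (XT.lf (nat_lit 0) (nat_lit 537682442) (nat_lit 336) (nat_lit 5044463585) (nat_lit 420) (nat_lit 62686549454) (nat_lit 55) (nat_lit 5) (nat_lit 59) (nat_lit 5) (nat_lit 60) (nat_lit 5) (nat_lit 433) (nat_lit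 375) (nat_lit 137))))) (XT.nd (nat_lit 282) (nat_lit 336) (nat_lit 0) (XT.nd (nat_lit 94) (nat_lit 252) (nat_lit 0) (XT.lf (nat_lit 0) (nat_lit 15538954739) (nat_lit 420) (nat_lit 39884486177) (nat_lit 84) (nat_lit 14286313181) (nat_lit 55) (nat_lit 5) (nat_lit 60) (nat_lit 5) (nat_lit 56) (nat_lit 5) (nat_lit 434) (nat_lit 375) (nat_lit 136)) (XT.nd (nat_lit 94) (nat_lit 252) (nat_lit 0) (XT.lf (nat_lit 0) (nat_lit 25843402196) (nat_lit 420) (nat_lit 11253988099) (nat_lit 84) (nat_lit 34095187293) (nat_lit 55) (nat_lit 5) (nat_lit 60) (nat_lit 5) (nat_lit 56) (nat_lit 5) (nat_lit 435) (nat_lit 375) (nat_lit 135)) (XT.lf (nat_lit 0) (nat_lit 18596880728) (nat_lit 252) (nat_lit 18037885682) (nat_lit 336) (nat_lit 36079786996) (nat_lit 52) (nat_lit 5) (nat_lit 55) (nat_lit 5) (nat_lit 56) (nat_lit 5) (nat_lit 436) (nat_lit 375) (nat_lit 134)))) (XT.nd (nat_lit 188) (nat_lit 84) (nat_lit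 0) (XT.nd (nat_lit 94) (nat_lit 252) (nat_lit 0) (XT.lf (nat_lit 0) (nat_lit 47878985983) (nat_lit 336) (nat_lit 24722697744) (nat_lit 84) (nat_lit 1676632423) (nat_lit 52) (nat_lit 5) (nat_lit 56) (nat_lit 5) (nat_lit 53) (nat_lit 5) (nat_lit 437) (nat_lit 375) (nat_lit 133)) (XT.lf (nat_lit 0) (nat_lit 5481083431) (nat_lit 252) (nat_lit 54209786706) (nat_lit 336) (nat_lit 16191212556) (nat_lit 49) (nat_lit 5) (nat_lit 52) (nat_lit 5) (nat_lit 53) (nat_lit 5) (nat_lit 438) (nat_lit 375) (nat_lit 132))) (XT.nd (nat_lit 94) (nat_lit 84) (nat_lit 0) (XT.lf (nat_lit 0) (nat_lit 37096377131) (nat_lit 252) (nat_lit 35009456066) (nat_lit 336) (nat_lit 5420668390) (nat_lit 49) (nat_lit 5) (nat_lit 52) (nat_lit 5) (nat_lit 53) (nat_lit 5) (nat_lit 439) (nat_lit 375) (nat_lit 131)) (XT.lf (nat_lit 0) (nat_lit 5561380342) (nat_lit 336) (nat_lit 9616026210) (nat_lit 84) (nat_lit 64041238828) (nat_lit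 48) (nat_lit 5) (nat_lit 52) (nat_lit 5) (nat_lit 49) (nat_lit 5) (nat_lit 440) (nat_lit 375) (nat_lit 130))))))))
noncomputable def xc203 : XT := (XT.nd (nat_lit 53580) (nat_lit 0) (nat_lit 7896) (XT.nd (nat_lit 1316) (nat_lit 588) (nat_lit 0) (XT.nd (nat_lit 658) (nat_lit 672) (nat_lit 0) (XT.nd (nat_lit 282) (nat_lit 252) (nat_lit 0) (XT.nd (nat_lit 94) (nat_lit 252) (nat_lit 0) (XT.lf (nat_lit 0) (nat_lit 17032535312) (nat_lit 336) (nat_lit 58499931208) (nat_lit 84) (nat_lit 5419419961) (nat_lit 45) (nat_lit 5) (nat_lit 49) (nat_lit 5) (nat_lit 46) (nat_lit 5) (nat_lit 441) (nat_lit 375) (nat_lit 129)) (XT.nd (nat_lit 94) (nat_lit 252) (nat_lit 0) (XT.lf (nat_lit 0) (nat_lit 29095284817) (nat_lit 336) (nat_lit 27207689524) (nat_lit 84) (nat_lit 26426727589) (nat_lit 45) (nat_lit 5) (nat_lit 49) (nat_lit 5) (nat_lit 46) (nat_lit 5) (nat_lit 442) (nat_lit 375) (nat_lit 128)) (XT.lf (nat_lit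 0) (nat_lit 5121966114) (nat_lit 252) (nat_lit 36446335782) (nat_lit 336) (nat_lit 42991099276) (nat_lit 42) (nat_lit 5) (nat_lit 45) (nat_lit 5) (nat_lit 46) (nat_lit 5) (nat_lit 443) (nat_lit 375) (nat_lit 127)))) (XT.nd (nat_lit 188) (nat_lit 252) (nat_lit 0) (XT.nd (nat_lit 94) (nat_lit 0) (nat_lit 0) (XT.lf (nat_lit 0) (nat_lit 38977953836) (nat_lit 252) (nat_lit 15711461968) (nat_lit 336) (nat_lit 31746359256) (nat_lit 42) (nat_lit 5) (nat_lit 45) (nat_lit 5) (nat_lit 46) (nat_lit 5) (nat_lit 444) (nat_lit 375) (nat_lit 126)) (XT.lf (nat_lit 0) (nat_lit 68257612931) (nat_lit 336) (nat_lit 14574358624) (nat_lit 84) (nat_lit 5534865950) (nat_lit 42) (nat_lit 5) (nat_lit 46) (nat_lit 5) (nat_lit 43) (nat_lit 5) (nat_lit 445) (nat_lit 375) (nat_lit 125))) (XT.nd (nat_lit 94) (nat_lit 84) (nat_lit 0) (XT.lf (nat_lit 0) (nat_lit 19519713745) (nat_lit 168) (nat_lit 63055542707) (nat_lit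 252) (nat_lit 7770304164) (nat_lit 40) (nat_lit 5) (nat_lit 42) (nat_lit 5) (nat_lit 43) (nat_lit 5) (nat_lit 446) (nat_lit 375) (nat_lit 124)) (XT.lf (nat_lit 0) (nat_lit 4990248868) (nat_lit 252) (nat_lit 37494033065) (nat_lit 84) (nat_lit 49893504858) (nat_lit 39) (nat_lit 5) (nat_lit 42) (nat_lit 5) (nat_lit 40) (nat_lit 5) (nat_lit 447) (nat_lit 375) (nat_lit 123))))) (XT.nd (nat_lit 282) (nat_lit 420) (nat_lit 0) (XT.nd (nat_lit 94) (nat_lit 252) (nat_lit 0) (XT.lf (nat_lit 0) (nat_lit 17976674989) (nat_lit 252) (nat_lit 3240401850) (nat_lit 84) (nat_lit 73251618683) (nat_lit 39) (nat_lit 5) (nat_lit 42) (nat_lit 5) (nat_lit 40) (nat_lit 5) (nat_lit 448) (nat_lit 375) (nat_lit 122)) (XT.nd (nat_lit 94) (nat_lit 0) (nat_lit 0) (XT.lf (nat_lit 0) (nat_lit 31675783441) (nat_lit 336) (nat_lit 63945329720) (nat_lit 84) (nat_lit 991526388) (nat_lit 36) (nat_lit 5) (nat_lit 40) (nat_lit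 5) (nat_lit 37) (nat_lit 5) (nat_lit 449) (nat_lit 375) (nat_lit 121)) (XT.lf (nat_lit 0) (nat_lit 46028241732) (nat_lit 336) (nat_lit 29312811867) (nat_lit 84) (nat_lit 23472577697) (nat_lit 36) (nat_lit 5) (nat_lit 40) (nat_lit 5) (nat_lit 37) (nat_lit 5) (nat_lit 450) (nat_lit 375) (nat_lit 120)))) (XT.nd (nat_lit 188) (nat_lit 252) (nat_lit 0) (XT.nd (nat_lit 94) (nat_lit 0) (nat_lit 0) (XT.lf (nat_lit 0) (nat_lit 6484067777) (nat_lit 168) (nat_lit 54388817183) (nat_lit 252) (nat_lit 40205920176) (nat_lit 34) (nat_lit 5) (nat_lit 36) (nat_lit 5) (nat_lit 37) (nat_lit 5) (nat_lit 451) (nat_lit 375) (nat_lit 119)) (XT.lf (nat_lit 0) (nat_lit 43954607645) (nat_lit 168) (nat_lit 32503554169) (nat_lit 252) (nat_lit 26944914206) (nat_lit 34) (nat_lit 5) (nat_lit 36) (nat_lit 5) (nat_lit 37) (nat_lit 5) (nat_lit 452) (nat_lit 375) (nat_lit 118))) (XT.nd (nat_lit 94) (nat_lit 252) (nat_lit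 0) (XT.lf (nat_lit 0) (nat_lit 82548166552) (nat_lit 168) (nat_lit 9962143434) (nat_lit 252) (nat_lit 13286786293) (nat_lit 34) (nat_lit 5) (nat_lit 36) (nat_lit 5) (nat_lit 37) (nat_lit 5) (nat_lit 453) (nat_lit 375) (nat_lit 117)) (XT.lf (nat_lit 0) (nat_lit 1031551153) (nat_lit 252) (nat_lit 94080266588) (nat_lit 84) (nat_lit 13142923532) (nat_lit 31) (nat_lit 5) (nat_lit 34) (nat_lit 5) (nat_lit 32) (nat_lit 5) (nat_lit 454) (nat_lit 375) (nat_lit 116)))))) (XT.nd (nat_lit 752) (nat_lit 168) (nat_lit 0) (XT.nd (nat_lit 282) (nat_lit 252) (nat_lit 0) (XT.nd (nat_lit 94) (nat_lit 168) (nat_lit 0) (XT.lf (nat_lit 0) (nat_lit 15847446898) (nat_lit 252) (nat_lit 57815508214) (nat_lit 84) (nat_lit 37109162740) (nat_lit 31) (nat_lit 5) (nat_lit 34) (nat_lit 5) (nat_lit 32) (nat_lit 5) (nat_lit 455) (nat_lit 375) (nat_lit 115)) (XT.nd (nat_lit 94) (nat_lit 168) (nat_lit 0) (XT.lf (nat_lit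 0) (nat_lit 31107170284) (nat_lit 252) (nat_lit 20463860765) (nat_lit 84) (nat_lit 61794004721) (nat_lit 31) (nat_lit 5) (nat_lit 34) (nat_lit 5) (nat_lit 32) (nat_lit 5) (nat_lit 456) (nat_lit 375) (nat_lit 114)) (XT.lf (nat_lit 0) (nat_lit 18365693959) (nat_lit 168) (nat_lit 28634903378) (nat_lit 252) (nat_lit 69029867080) (nat_lit 29) (nat_lit 5) (nat_lit 31) (nat_lit 5) (nat_lit 32) (nat_lit 5) (nat_lit 457) (nat_lit 375) (nat_lit 113)))) (XT.nd (nat_lit 282) (nat_lit 252) (nat_lit 0) (XT.nd (nat_lit 94) (nat_lit 0) (nat_lit 0) (XT.lf (nat_lit 0) (nat_lit 58778611450) (nat_lit 168) (nat_lit 4798238921) (nat_lit 252) (nat_lit 55192825393) (nat_lit 29) (nat_lit 5) (nat_lit 31) (nat_lit 5) (nat_lit 32) (nat_lit 5) (nat_lit 458) (nat_lit 375) (nat_lit 112)) (XT.lf (nat_lit 0) (nat_lit 80839666725) (nat_lit 252) (nat_lit 21378028386) (nat_lit 84) (nat_lit 19367690587) (nat_lit 29) (nat_lit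 5) (nat_lit 32) (nat_lit 5) (nat_lit 30) (nat_lit 5) (nat_lit 459) (nat_lit 375) (nat_lit 111))) (XT.nd (nat_lit 94) (nat_lit 84) (nat_lit 0) (XT.lf (nat_lit 0) (nat_lit 60437982413) (nat_lit 168) (nat_lit 57172144554) (nat_lit 252) (nat_lit 9842359020) (nat_lit 27) (nat_lit 5) (nat_lit 29) (nat_lit 5) (nat_lit 30) (nat_lit 5) (nat_lit 461) (nat_lit 375) (nat_lit 109)) (XT.lf (nat_lit 0) (nat_lit 6294727322) (nat_lit 252) (nat_lit 27160299833) (nat_lit 84) (nat_lit 97058558156) (nat_lit 26) (nat_lit 5) (nat_lit 29) (nat_lit 5) (nat_lit 27) (nat_lit 5) (nat_lit 462) (nat_lit 375) (nat_lit 108))))) (XT.nd (nat_lit 51136) (nat_lit 0) (nat_lit 12768) (XT.nd (nat_lit 94) (nat_lit 0) (nat_lit 0) (XT.lf (nat_lit 0) (nat_lit 14065635917) (nat_lit 168) (nat_lit 8787122060) (nat_lit 252) (nat_lit 110806797012) (nat_lit 24) (nat_lit 5) (nat_lit 26) (nat_lit 5) (nat_lit 27) (nat_lit 5) (nat_lit 463)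 (nat_lit 375) (nat_lit 107)) (XT.nd (nat_lit 94) (nat_lit 0) (nat_lit 0) (XT.lf (nat_lit 0) (nat_lit 40343730167) (nat_lit 252) (nat_lit 79969972128) (nat_lit 84) (nat_lit 16573115878) (nat_lit 24) (nat_lit 5) (nat_lit 27) (nat_lit 5) (nat_lit 25) (nat_lit 5) (nat_lit 464) (nat_lit 375) (nat_lit 106)) (XT.lf (nat_lit 0) (nat_lit 58445898602) (nat_lit 252) (nat_lit 39245201779) (nat_lit 84) (nat_lit 42517205280) (nat_lit 24) (nat_lit 5) (nat_lit 27) (nat_lit 5) (nat_lit 25) (nat_lit 5) (nat_lit 465) (nat_lit 375) (nat_lit 105)))) (XT.nd (nat_lit 188) (nat_lit 0) (nat_lit 0) (XT.nd (nat_lit 94) (nat_lit 0) (nat_lit 0) (XT.lf (nat_lit 0) (nat_lit 11954087831) (nat_lit 1260) (nat_lit 266320234) (nat_lit 1260) (nat_lit 266320234) (nat_lit 176) (nat_lit 3) (nat_lit 191) (nat_lit 3) (nat_lit 191) (nat_lit 5) (nat_lit 376) (nat_lit 376) (nat_lit 193)) (XT.lf (nat_lit 84) (nat_lit 10467024951)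 (nat_lit 0) (nat_lit 13997043342) (nat_lit 1260) (nat_lit 877887366) (nat_lit 177) (nat_lit 5) (nat_lit 176) (nat_lit 3) (nat_lit 191) (nat_lit 5) (nat_lit 377) (nat_lit 376) (nat_lit 192))) (XT.nd (nat_lit 94) (nat_lit 0) (nat_lit 84) (XT.lf (nat_lit 84) (nat_lit 21805613943) (nat_lit 0) (nat_lit 3232611146) (nat_lit 1260) (nat_lit 683244189) (nat_lit 177) (nat_lit 5) (nat_lit 176) (nat_lit 3) (nat_lit 191) (nat_lit 5) (nat_lit 378) (nat_lit 376) (nat_lit 191)) (XT.lf (nat_lit 84) (nat_lit 7439599518) (nat_lit 0) (nat_lit 18333361797) (nat_lit 1260) (nat_lit 335113345) (nat_lit 178) (nat_lit 5) (nat_lit 177) (nat_lit 5) (nat_lit 192) (nat_lit 5) (nat_lit 379) (nat_lit 376) (nat_lit 190))))))) (XT.nd (nat_lit 1316) (nat_lit 3696) (nat_lit 0) (XT.nd (nat_lit 658) (nat_lit 0) (nat_lit 252) (XT.nd (nat_lit 282) (nat_lit 0) (nat_lit 84) (XT.nd (nat_lit 94) (nat_lit 0) (nat_lit 84) (XT.lf (nat_lit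 0) (nat_lit 91324689) (nat_lit 1260) (nat_lit 7323845677) (nat_lit 1344) (nat_lit 19089058036) (nat_lit 162) (nat_lit 5) (nat_lit 177) (nat_lit 5) (nat_lit 178) (nat_lit 5) (nat_lit 380) (nat_lit 376) (nat_lit 189)) (XT.nd (nat_lit 94) (nat_lit 0) (nat_lit 0) (XT.lf (nat_lit 0) (nat_lit 600301685) (nat_lit 1260) (nat_lit 22505854838) (nat_lit 1344) (nat_lit 3803722661) (nat_lit 163) (nat_lit 5) (nat_lit 178) (nat_lit 5) (nat_lit 179) (nat_lit 5) (nat_lit 381) (nat_lit 376) (nat_lit 188)) (XT.lf (nat_lit 0) (nat_lit 1269236846) (nat_lit 1260) (nat_lit 10767928920) (nat_lit 1344) (nat_lit 15286199275) (nat_lit 163) (nat_lit 5) (nat_lit 178) (nat_lit 5) (nat_lit 179) (nat_lit 5) (nat_lit 382) (nat_lit 376) (nat_lit 187)))) (XT.nd (nat_lit 188) (nat_lit 0) (nat_lit 84) (XT.nd (nat_lit 94) (nat_lit 0) (nat_lit 84) (XT.lf (nat_lit 84) (nat_lit 1346308549) (nat_lit 0) (nat_lit 621555192) (nat_lit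 1344) (nat_lit 25781109059) (nat_lit 164) (nat_lit 5) (nat_lit 163) (nat_lit 5) (nat_lit 179) (nat_lit 5) (nat_lit 383) (nat_lit 376) (nat_lit 186)) (XT.lf (nat_lit 0) (nat_lit 2901082078) (nat_lit 1260) (nat_lit 14249700554) (nat_lit 1344) (nat_lit 11030163042) (nat_lit 164) (nat_lit 5) (nat_lit 179) (nat_lit 5) (nat_lit 180) (nat_lit 5) (nat_lit 384) (nat_lit 376) (nat_lit 185))) (XT.nd (nat_lit 94) (nat_lit 0) (nat_lit 84) (XT.lf (nat_lit 0) (nat_lit 3865315055) (nat_lit 1260) (nat_lit 1740429411) (nat_lit 1344) (nat_lit 23020048415) (nat_lit 164) (nat_lit 5) (nat_lit 179) (nat_lit 5) (nat_lit 180) (nat_lit 5) (nat_lit 385) (nat_lit 376) (nat_lit 184)) (XT.lf (nat_lit 0) (nat_lit 5026178683) (nat_lit 1260) (nat_lit 17778514605) (nat_lit 1344) (nat_lit 6274266631) (nat_lit 165) (nat_lit 5) (nat_lit 180) (nat_lit 5) (nat_lit 181) (nat_lit 5) (nat_lit 386) (nat_lit 376) (nat_lit 183)))))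 (XT.nd (nat_lit 282) (nat_lit 0) (nat_lit 84) (XT.nd (nat_lit 94) (nat_lit 0) (nat_lit 84) (XT.lf (nat_lit 0) (nat_lit 6292152952) (nat_lit 1260) (nat_lit 4834796583) (nat_lit 1344) (nat_lit 18416669254) (nat_lit 165) (nat_lit 5) (nat_lit 180) (nat_lit 5) (nat_lit 181) (nat_lit 5) (nat_lit 387) (nat_lit 376) (nat_lit 182)) (XT.nd (nat_lit 94) (nat_lit 0) (nat_lit 0) (XT.lf (nat_lit 0) (nat_lit 7686006407) (nat_lit 1260) (nat_lit 21365088060) (nat_lit 1344) (nat_lit 968431167) (nat_lit 166) (nat_lit 5) (nat_lit 181) (nat_lit 5) (nat_lit 182) (nat_lit 5) (nat_lit 388) (nat_lit 376) (nat_lit 181)) (XT.lf (nat_lit 0) (nat_lit 9278339663) (nat_lit 1260) (nat_lit 7973601408) (nat_lit 1344) (nat_lit 13253073742) (nat_lit 166) (nat_lit 5) (nat_lit 181) (nat_lit 5) (nat_lit 182) (nat_lit 5) (nat_lit 389) (nat_lit 376) (nat_lit 180)))) (XT.nd (nat_lit 188) (nat_lit 0) (nat_lit 84) (XT.nd (nat_lit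 94) (nat_lit 0) (nat_lit 84) (XT.lf (nat_lit 84) (nat_lit 5933310561) (nat_lit 0) (nat_lit 5039439810) (nat_lit 1344) (nat_lit 20030693982) (nat_lit 167) (nat_lit 5) (nat_lit 166) (nat_lit 5) (nat_lit 182) (nat_lit 5) (nat_lit 390) (nat_lit 376) (nat_lit 179)) (XT.lf (nat_lit 0) (nat_lit 12869119973) (nat_lit 1260) (nat_lit 11168970639) (nat_lit 1344) (nat_lit 7474207135) (nat_lit 167) (nat_lit 5) (nat_lit 182) (nat_lit 5) (nat_lit 183) (nat_lit 5) (nat_lit 391) (nat_lit 376) (nat_lit 178))) (XT.nd (nat_lit 94) (nat_lit 0) (nat_lit 84) (XT.lf (nat_lit 84) (nat_lit 3158866603) (nat_lit 0) (nat_lit 11741189947) (nat_lit 1344) (nat_lit 17134034543) (nat_lit 168) (nat_lit 5) (nat_lit 167) (nat_lit 5) (nat_lit 183) (nat_lit 5) (nat_lit 392) (nat_lit 376) (nat_lit 177)) (XT.lf (nat_lit 0) (nat_lit 17112185581) (nat_lit 1260) (nat_lit 14434837670) (nat_lit 84) (nat_lit 1020911549) (nat_lit 168)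 (nat_lit 5) (nat_lit 183) (nat_lit 5) (nat_lit 169) (nat_lit 5) (nat_lit 393) (nat_lit 376) (nat_lit 176)))))) (XT.nd (nat_lit 658) (nat_lit 1680) (nat_lit 0) (XT.nd (nat_lit 282) (nat_lit 1260) (nat_lit 0) (XT.nd (nat_lit 94) (nat_lit 0) (nat_lit 0) (XT.lf (nat_lit 0) (nat_lit 326781020) (nat_lit 1260) (nat_lit 19180836611) (nat_lit 1344) (nat_lit 13606672373) (nat_lit 153) (nat_lit 5) (nat_lit 168) (nat_lit 5) (nat_lit 169) (nat_lit 5) (nat_lit 394) (nat_lit 376) (nat_lit 175)) (XT.nd (nat_lit 94) (nat_lit 0) (nat_lit 0) (XT.lf (nat_lit 0) (nat_lit 15825061947) (nat_lit 1260) (nat_lit 6293214125) (nat_lit 1344) (nat_lit 11554463125) (nat_lit 153) (nat_lit 5) (nat_lit 168) (nat_lit 5) (nat_lit 169) (nat_lit 5) (nat_lit 395) (nat_lit 376) (nat_lit 174)) (XT.lf (nat_lit 0) (nat_lit 24872032971) (nat_lit 1344) (nat_lit 2528859085) (nat_lit 84) (nat_lit 6845110557) (nat_lit 153) (nat_lit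 5) (nat_lit 169) (nat_lit 5) (nat_lit 154) (nat_lit 5) (nat_lit 396) (nat_lit 376) (nat_lit 173)))) (XT.nd (nat_lit 188) (nat_lit 672) (nat_lit 0) (XT.nd (nat_lit 94) (nat_lit 0) (nat_lit 0) (XT.lf (nat_lit 0) (nat_lit 13447584089) (nat_lit 588) (nat_lit 14450134436) (nat_lit 672) (nat_lit 6933069920) (nat_lit 146) (nat_lit 5) (nat_lit 153) (nat_lit 5) (nat_lit 154) (nat_lit 5) (nat_lit 397) (nat_lit 376) (nat_lit 172)) (XT.lf (nat_lit 0) (nat_lit 29953138419) (nat_lit 588) (nat_lit 1084359618) (nat_lit 672) (nat_lit 4394923987) (nat_lit 146) (nat_lit 5) (nat_lit 153) (nat_lit 5) (nat_lit 154) (nat_lit 5) (nat_lit 398) (nat_lit 376) (nat_lit 171))) (XT.nd (nat_lit 94) (nat_lit 84) (nat_lit 0) (XT.lf (nat_lit 0) (nat_lit 10992311058) (nat_lit 588) (nat_lit 23504588695) (nat_lit 672) (nat_lit 1548445756) (nat_lit 139) (nat_lit 5) (nat_lit 146) (nat_lit 5) (nat_lit 147) (nat_lit 5) (nat_lit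 399) (nat_lit 376) (nat_lit 170)) (XT.lf (nat_lit 0) (nat_lit 1420917157) (nat_lit 672) (nat_lit 8631264079) (nat_lit 84) (nat_lit 26622145477) (nat_lit 138) (nat_lit 5) (nat_lit 146) (nat_lit 5) (nat_lit 139) (nat_lit 5) (nat_lit 400) (nat_lit 376) (nat_lit 169))))) (XT.nd (nat_lit 282) (nat_lit 504) (nat_lit 0) (XT.nd (nat_lit 94) (nat_lit 588) (nat_lit 0) (XT.lf (nat_lit 0) (nat_lit 4564729396) (nat_lit 672) (nat_lit 28926534911) (nat_lit 84) (nat_lit 3826961836) (nat_lit 131) (nat_lit 5) (nat_lit 139) (nat_lit 5) (nat_lit 132) (nat_lit 5) (nat_lit 401) (nat_lit 376) (nat_lit 168)) (XT.nd (nat_lit 94) (nat_lit 588) (nat_lit 0) (XT.lf (nat_lit 0) (nat_lit 7988379834) (nat_lit 672) (nat_lit 11978993014) (nat_lit 84) (nat_lit 18008507335) (nat_lit 131) (nat_lit 5) (nat_lit 139) (nat_lit 5) (nat_lit 132) (nat_lit 5) (nat_lit 402) (nat_lit 376) (nat_lit 167)) (XT.lf (nat_lit 0) (nat_lit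 5583954340) (nat_lit 588) (nat_lit 5982496278) (nat_lit 672) (nat_lit 27085265145) (nat_lit 124) (nat_lit 5) (nat_lit 131) (nat_lit 5) (nat_lit 132) (nat_lit 5) (nat_lit 403) (nat_lit 376) (nat_lit 166)))) (XT.nd (nat_lit 188) (nat_lit 0) (nat_lit 0) (XT.nd (nat_lit 94) (nat_lit 504) (nat_lit 0) (XT.lf (nat_lit 0) (nat_lit 15453054703) (nat_lit 672) (nat_lit 15509029149) (nat_lit 84) (nat_lit 8379709976) (nat_lit 124) (nat_lit 5) (nat_lit 132) (nat_lit 5) (nat_lit 125) (nat_lit 5) (nat_lit 404) (nat_lit 376) (nat_lit 165)) (XT.lf (nat_lit 0) (nat_lit 2565325155) (nat_lit 504) (nat_lit 16972952465) (nat_lit 588) (nat_lit 20511839050) (nat_lit 118) (nat_lit 5) (nat_lit 124) (nat_lit 5) (nat_lit 125) (nat_lit 5) (nat_lit 405) (nat_lit 376) (nat_lit 164))) (XT.nd (nat_lit 94) (nat_lit 0) (nat_lit 0) (XT.lf (nat_lit 0) (nat_lit 21497883218) (nat_lit 504) (nat_lit 2402949183) (nat_lit 588) (nat_lit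 16874216511) (nat_lit 118) (nat_lit 5) (nat_lit 124) (nat_lit 5) (nat_lit 125) (nat_lit 5) (nat_lit 406) (nat_lit 376) (nat_lit 163)) (XT.lf (nat_lit 0) (nat_lit 28513639487) (nat_lit 588) (nat_lit 646415309) (nat_lit 84) (nat_lit 12358095939) (nat_lit 118) (nat_lit 5) (nat_lit 125) (nat_lit 5) (nat_lit 119) (nat_lit 5) (nat_lit 407) (nat_lit 376) (nat_lit 162))))))))
noncomputable def xc204 : XT := (XT.nd (nat_lit 2538) (nat_lit 2436) (nat_lit 0) (XT.nd (nat_lit 1222) (nat_lit 2520) (nat_lit 0) (XT.nd (nat_lit 564) (nat_lit 1260) (nat_lit 0) (XT.nd (nat_lit 282) (nat_lit 504) (nat_lit 0) (XT.nd (nat_lit 94) (nat_lit 504) (nat_lit 0) (XT.lf (nat_lit 0) (nat_lit 18886113399) (nat_lit 504) (nat_lit 14582322593) (nat_lit 588) (nat_lit 8809004262) (nat_lit 112) (nat_lit 5) (nat_lit 118) (nat_lit 5) (nat_lit 119) (nat_lit 5) (nat_lit 408) (nat_lit 376) (nat_lit 161)) (XT.nd (nat_lit 94) (nat_lit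 504) (nat_lit 0) (XT.lf (nat_lit 0) (nat_lit 38580927884) (nat_lit 588) (nat_lit 4047590417) (nat_lit 84) (nat_lit 430721332) (nat_lit 112) (nat_lit 5) (nat_lit 119) (nat_lit 5) (nat_lit 113) (nat_lit 5) (nat_lit 409) (nat_lit 376) (nat_lit 160)) (XT.lf (nat_lit 0) (nat_lit 282530657) (nat_lit 504) (nat_lit 27815082637) (nat_lit 84) (nat_lit 15757890851) (nat_lit 106) (nat_lit 5) (nat_lit 112) (nat_lit 5) (nat_lit 107) (nat_lit 5) (nat_lit 410) (nat_lit 376) (nat_lit 159)))) (XT.nd (nat_lit 94) (nat_lit 504) (nat_lit 0) (XT.lf (nat_lit 0) (nat_lit 5135826960) (nat_lit 504) (nat_lit 7907012436) (nat_lit 84) (nat_lit 31630300344) (nat_lit 106) (nat_lit 5) (nat_lit 112) (nat_lit 5) (nat_lit 107) (nat_lit 5) (nat_lit 411) (nat_lit 376) (nat_lit 158)) (XT.nd (nat_lit 94) (nat_lit 0) (nat_lit 0) (XT.lf (nat_lit 0) (nat_lit 10281527424) (nat_lit 588) (nat_lit 32689385429) (nat_lit 84) (nat_lit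 2539989807) (nat_lit 100) (nat_lit 5) (nat_lit 107) (nat_lit 5) (nat_lit 101) (nat_lit 5) (nat_lit 412) (nat_lit 376) (nat_lit 157)) (XT.lf (nat_lit 0) (nat_lit 15789806954) (nat_lit 588) (nat_lit 12169199004) (nat_lit 84) (nat_lit 18408548614) (nat_lit 100) (nat_lit 5) (nat_lit 107) (nat_lit 5) (nat_lit 101) (nat_lit 5) (nat_lit 413) (nat_lit 376) (nat_lit 156))))) (XT.nd (nat_lit 282) (nat_lit 420) (nat_lit 0) (XT.nd (nat_lit 94) (nat_lit 420) (nat_lit 0) (XT.lf (nat_lit 0) (nat_lit 9143206885) (nat_lit 420) (nat_lit 12406498818) (nat_lit 504) (nat_lit 25697611487) (nat_lit 95) (nat_lit 5) (nat_lit 100) (nat_lit 5) (nat_lit 101) (nat_lit 5) (nat_lit 414) (nat_lit 376) (nat_lit 155)) (XT.nd (nat_lit 94) (nat_lit 420) (nat_lit 0) (XT.lf (nat_lit 0) (nat_lit 27639734517) (nat_lit 504) (nat_lit 16843117088) (nat_lit 84) (nat_lit 3665903298) (nat_lit 95) (nat_lit 5) (nat_lit 101) (nat_lit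 5) (nat_lit 96) (nat_lit 5) (nat_lit 415) (nat_lit 376) (nat_lit 154)) (XT.lf (nat_lit 0) (nat_lit 5029231503) (nat_lit 420) (nat_lit 29052961914) (nat_lit 504) (nat_lit 14989952599) (nat_lit 90) (nat_lit 5) (nat_lit 95) (nat_lit 5) (nat_lit 96) (nat_lit 5) (nat_lit 416) (nat_lit 376) (nat_lit 153)))) (XT.nd (nat_lit 188) (nat_lit 84) (nat_lit 0) (XT.nd (nat_lit 94) (nat_lit 336) (nat_lit 0) (XT.lf (nat_lit 0) (nat_lit 27901259134) (nat_lit 420) (nat_lit 12985323327) (nat_lit 504) (nat_lit 9131598795) (nat_lit 90) (nat_lit 5) (nat_lit 95) (nat_lit 5) (nat_lit 96) (nat_lit 5) (nat_lit 417) (nat_lit 376) (nat_lit 152)) (XT.lf (nat_lit 0) (nat_lit 439413897) (nat_lit 336) (nat_lit 47492788201) (nat_lit 420) (nat_lit 3059284507) (nat_lit 86) (nat_lit 5) (nat_lit 90) (nat_lit 5) (nat_lit 91) (nat_lit 5) (nat_lit 418) (nat_lit 376) (nat_lit 151))) (XT.nd (nat_lit 94) (nat_lit 0) (nat_lit 0)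 (XT.lf (nat_lit 0) (nat_lit 3485586431) (nat_lit 420) (nat_lit 28024729053) (nat_lit 84) (nat_lit 20472174000) (nat_lit 85) (nat_lit 5) (nat_lit 90) (nat_lit 5) (nat_lit 86) (nat_lit 5) (nat_lit 419) (nat_lit 376) (nat_lit 150)) (XT.lf (nat_lit 0) (nat_lit 10163975782) (nat_lit 420) (nat_lit 4853564015) (nat_lit 84) (nat_lit 37984815976) (nat_lit 85) (nat_lit 5) (nat_lit 90) (nat_lit 5) (nat_lit 86) (nat_lit 5) (nat_lit 420) (nat_lit 376) (nat_lit 149)))))) (XT.nd (nat_lit 658) (nat_lit 1008) (nat_lit 0) (XT.nd (nat_lit 282) (nat_lit 756) (nat_lit 0) (XT.nd (nat_lit 94) (nat_lit 336) (nat_lit 0) (XT.lf (nat_lit 0) (nat_lit 17248578752) (nat_lit 504) (nat_lit 34678611845) (nat_lit 84) (nat_lit 2119453395) (nat_lit 80) (nat_lit 5) (nat_lit 86) (nat_lit 5) (nat_lit 81) (nat_lit 5) (nat_lit 421) (nat_lit 376) (nat_lit 148)) (XT.nd (nat_lit 94) (nat_lit 336) (nat_lit 0) (XT.lf (nat_lit 0) (nat_lit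 24742623509) (nat_lit 504) (nat_lit 10855874305) (nat_lit 84) (nat_lit 19517857675) (nat_lit 80) (nat_lit 5) (nat_lit 86) (nat_lit 5) (nat_lit 81) (nat_lit 5) (nat_lit 422) (nat_lit 376) (nat_lit 147)) (XT.lf (nat_lit 0) (nat_lit 13952171888) (nat_lit 336) (nat_lit 18642190304) (nat_lit 420) (nat_lit 23619811656) (nat_lit 76) (nat_lit 5) (nat_lit 80) (nat_lit 5) (nat_lit 81) (nat_lit 5) (nat_lit 423) (nat_lit 376) (nat_lit 146)))) (XT.nd (nat_lit 188) (nat_lit 420) (nat_lit 0) (XT.nd (nat_lit 94) (nat_lit 336) (nat_lit 0) (XT.lf (nat_lit 0) (nat_lit 39725379635) (nat_lit 336) (nat_lit 1064672936) (nat_lit 420) (nat_lit 16551623845) (nat_lit 76) (nat_lit 5) (nat_lit 80) (nat_lit 5) (nat_lit 81) (nat_lit 5) (nat_lit 424) (nat_lit 376) (nat_lit 145)) (XT.lf (nat_lit 0) (nat_lit 7754699974) (nat_lit 336) (nat_lit 41714065621) (nat_lit 420) (nat_lit 9027125504) (nat_lit 72) (nat_lit 5) (nat_lit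 76) (nat_lit 5) (nat_lit 77) (nat_lit 5) (nat_lit 425) (nat_lit 376) (nat_lit 144))) (XT.nd (nat_lit 94) (nat_lit 420) (nat_lit 0) (XT.lf (nat_lit 0) (nat_lit 34235606867) (nat_lit 336) (nat_lit 24359389109) (nat_lit 420) (nat_lit 1084123117) (nat_lit 72) (nat_lit 5) (nat_lit 76) (nat_lit 5) (nat_lit 77) (nat_lit 5) (nat_lit 426) (nat_lit 376) (nat_lit 143)) (XT.lf (nat_lit 0) (nat_lit 554124007) (nat_lit 336) (nat_lit 6408729911) (nat_lit 420) (nat_lit 53932819521) (nat_lit 67) (nat_lit 5) (nat_lit 71) (nat_lit 5) (nat_lit 72) (nat_lit 5) (nat_lit 427) (nat_lit 376) (nat_lit 142))))) (XT.nd (nat_lit 282) (nat_lit 672) (nat_lit 0) (XT.nd (nat_lit 94) (nat_lit 336) (nat_lit 0) (XT.lf (nat_lit 0) (nat_lit 15603912540) (nat_lit 420) (nat_lit 34418742262) (nat_lit 84) (nat_lit 12114515155) (nat_lit 67) (nat_lit 5) (nat_lit 72) (nat_lit 5) (nat_lit 68) (nat_lit 5) (nat_lit 428) (nat_lit 376)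 (nat_lit 141)) (XT.nd (nat_lit 94) (nat_lit 336) (nat_lit 0) (XT.lf (nat_lit 0) (nat_lit 24566552745) (nat_lit 420) (nat_lit 7783237337) (nat_lit 84) (nat_lit 31064252169) (nat_lit 67) (nat_lit 5) (nat_lit 72) (nat_lit 5) (nat_lit 68) (nat_lit 5) (nat_lit 429) (nat_lit 376) (nat_lit 140)) (XT.lf (nat_lit 0) (nat_lit 20040914134) (nat_lit 336) (nat_lit 13948732727) (nat_lit 420) (nat_lit 30733827949) (nat_lit 63) (nat_lit 5) (nat_lit 67) (nat_lit 5) (nat_lit 68) (nat_lit 5) (nat_lit 430) (nat_lit 376) (nat_lit 139)))) (XT.nd (nat_lit 188) (nat_lit 420) (nat_lit 0) (XT.nd (nat_lit 94) (nat_lit 252) (nat_lit 0) (XT.lf (nat_lit 0) (nat_lit 43821854496) (nat_lit 420) (nat_lit 17260879996) (nat_lit 84) (nat_lit 4985664531) (nat_lit 63) (nat_lit 5) (nat_lit 68) (nat_lit 5) (nat_lit 64) (nat_lit 5) (nat_lit 431) (nat_lit 376) (nat_lit 138)) (XT.lf (nat_lit 0) (nat_lit 11059699916) (nat_lit 252)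 (nat_lit 43132720272) (nat_lit 336) (nat_lit 13253950280) (nat_lit 60) (nat_lit 5) (nat_lit 63) (nat_lit 5) (nat_lit 64) (nat_lit 5) (nat_lit 432) (nat_lit 376) (nat_lit 137))) (XT.nd (nat_lit 94) (nat_lit 420) (nat_lit 0) (XT.lf (nat_lit 0) (nat_lit 40582283148) (nat_lit 252) (nat_lit 24465109731) (nat_lit 336) (nat_lit 3813090700) (nat_lit 60) (nat_lit 5) (nat_lit 63) (nat_lit 5) (nat_lit 64) (nat_lit 5) (nat_lit 433) (nat_lit 376) (nat_lit 136)) (XT.lf (nat_lit 0) (nat_lit 627524960) (nat_lit 336) (nat_lit 5173164611) (nat_lit 420) (nat_lit 64514475871) (nat_lit 55) (nat_lit 5) (nat_lit 59) (nat_lit 5) (nat_lit 60) (nat_lit 5) (nat_lit 434) (nat_lit 376) (nat_lit 135))))))) (XT.nd (nat_lit 1316) (nat_lit 1092) (nat_lit 0) (XT.nd (nat_lit 658) (nat_lit 756) (nat_lit 0) (XT.nd (nat_lit 282) (nat_lit 336) (nat_lit 0) (XT.nd (nat_lit 94) (nat_lit 252) (nat_lit 0) (XT.lf (nat_lit 0) (nat_lit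 16054926026) (nat_lit 420) (nat_lit 41008122328) (nat_lit 84) (nat_lit 14736447462) (nat_lit 55) (nat_lit 5) (nat_lit 60) (nat_lit 5) (nat_lit 56) (nat_lit 5) (nat_lit 435) (nat_lit 376) (nat_lit 134)) (XT.nd (nat_lit 94) (nat_lit 252) (nat_lit 0) (XT.lf (nat_lit 0) (nat_lit 26667056344) (nat_lit 420) (nat_lit 11520832564) (nat_lit 84) (nat_lit 35138960277) (nat_lit 55) (nat_lit 5) (nat_lit 60) (nat_lit 5) (nat_lit 56) (nat_lit 5) (nat_lit 436) (nat_lit 376) (nat_lit 133)) (XT.lf (nat_lit 0) (nat_lit 19224868453) (nat_lit 252) (nat_lit 18556558381) (nat_lit 336) (nat_lit 37113081088) (nat_lit 52) (nat_lit 5) (nat_lit 55) (nat_lit 5) (nat_lit 56) (nat_lit 5) (nat_lit 437) (nat_lit 376) (nat_lit 132)))) (XT.nd (nat_lit 188) (nat_lit 84) (nat_lit 0) (XT.nd (nat_lit 94) (nat_lit 252) (nat_lit 0) (XT.lf (nat_lit 0) (nat_lit 49361795727) (nat_lit 336) (nat_lit 25395109305) (nat_lit 84) (nat_lit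 1748315396) (nat_lit 52) (nat_lit 5) (nat_lit 56) (nat_lit 5) (nat_lit 53) (nat_lit 5) (nat_lit 438) (nat_lit 376) (nat_lit 131)) (XT.lf (nat_lit 0) (nat_lit 5714106194) (nat_lit 252) (nat_lit 55813236918) (nat_lit 336) (nat_lit 16629779169) (nat_lit 49) (nat_lit 5) (nat_lit 52) (nat_lit 5) (nat_lit 53) (nat_lit 5) (nat_lit 439) (nat_lit 376) (nat_lit 130))) (XT.nd (nat_lit 94) (nat_lit 84) (nat_lit 0) (XT.lf (nat_lit 0) (nat_lit 38275860930) (nat_lit 252) (nat_lit 36037561699) (nat_lit 336) (nat_lit 5537492554) (nat_lit 49) (nat_lit 5) (nat_lit 52) (nat_lit 5) (nat_lit 53) (nat_lit 5) (nat_lit 440) (nat_lit 376) (nat_lit 129)) (XT.lf (nat_lit 0) (nat_lit 5771816164) (nat_lit 336) (nat_lit 9838940280) (nat_lit 84) (nat_lit 65983094261) (nat_lit 48) (nat_lit 5) (nat_lit 52) (nat_lit 5) (nat_lit 49) (nat_lit 5) (nat_lit 441) (nat_lit 376) (nat_lit 128))))) (XT.nd (nat_lit 282) (nat_lit 252)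 (nat_lit 0) (XT.nd (nat_lit 94) (nat_lit 252) (nat_lit 0) (XT.lf (nat_lit 0) (nat_lit 17586671370) (nat_lit 336) (nat_lit 60188883158) (nat_lit 84) (nat_lit 5603548890) (nat_lit 45) (nat_lit 5) (nat_lit 49) (nat_lit 5) (nat_lit 46) (nat_lit 5) (nat_lit 442) (nat_lit 376) (nat_lit 127)) (XT.nd (nat_lit 94) (nat_lit 252) (nat_lit 0) (XT.lf (nat_lit 0) (nat_lit 30010046272) (nat_lit 336) (nat_lit 27959797892) (nat_lit 84) (nat_lit 27240448184) (nat_lit 45) (nat_lit 5) (nat_lit 49) (nat_lit 5) (nat_lit 46) (nat_lit 5) (nat_lit 443) (nat_lit 376) (nat_lit 126)) (XT.lf (nat_lit 0) (nat_lit 5339118764) (nat_lit 252) (nat_lit 37517524967) (nat_lit 336) (nat_lit 44238258410) (nat_lit 42) (nat_lit 5) (nat_lit 45) (nat_lit 5) (nat_lit 46) (nat_lit 5) (nat_lit 444) (nat_lit 376) (nat_lit 125)))) (XT.nd (nat_lit 188) (nat_lit 252) (nat_lit 0) (XT.nd (nat_lit 94) (nat_lit 0) (nat_lit 0) (XT.lf (nat_lit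 0) (nat_lit 40208936788) (nat_lit 252) (nat_lit 16161251567) (nat_lit 336) (nat_lit 32657416204) (nat_lit 42) (nat_lit 5) (nat_lit 45) (nat_lit 5) (nat_lit 46) (nat_lit 5) (nat_lit 445) (nat_lit 376) (nat_lit 124)) (XT.lf (nat_lit 0) (nat_lit 70344464880) (nat_lit 336) (nat_lit 14950734143) (nat_lit 84) (nat_lit 5721430044) (nat_lit 42) (nat_lit 5) (nat_lit 46) (nat_lit 5) (nat_lit 43) (nat_lit 5) (nat_lit 446) (nat_lit 376) (nat_lit 123))) (XT.nd (nat_lit 94) (nat_lit 84) (nat_lit 0) (XT.lf (nat_lit 0) (nat_lit 20165563777) (nat_lit 168) (nat_lit 64925513651) (nat_lit 252) (nat_lit 7963654413) (nat_lit 40) (nat_lit 5) (nat_lit 42) (nat_lit 5) (nat_lit 43) (nat_lit 5) (nat_lit 447) (nat_lit 376) (nat_lit 122)) (XT.lf (nat_lit 0) (nat_lit 5177803943) (nat_lit 252) (nat_lit 38559560827) (nat_lit 84) (nat_lit 51410583723) (nat_lit 39) (nat_lit 5) (nat_lit 42) (nat_lit 5) (nat_lit 40) (nat_lit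 5) (nat_lit 448) (nat_lit 376) (nat_lit 121)))))) (XT.nd (nat_lit 658) (nat_lit 420) (nat_lit 0) (XT.nd (nat_lit 282) (nat_lit 420) (nat_lit 0) (XT.nd (nat_lit 94) (nat_lit 252) (nat_lit 0) (XT.lf (nat_lit 0) (nat_lit 18552720490) (nat_lit 252) (nat_lit 3280047664) (nat_lit 84) (nat_lit 75468850466) (nat_lit 39) (nat_lit 5) (nat_lit 42) (nat_lit 5) (nat_lit 40) (nat_lit 5) (nat_lit 449) (nat_lit 376) (nat_lit 120)) (XT.nd (nat_lit 94) (nat_lit 0) (nat_lit 0) (XT.lf (nat_lit 0) (nat_lit 32662479622) (nat_lit 336) (nat_lit 65805766416) (nat_lit 84) (nat_lit 1041645636) (nat_lit 36) (nat_lit 5) (nat_lit 40) (nat_lit 5) (nat_lit 37) (nat_lit 5) (nat_lit 450) (nat_lit 376) (nat_lit 119)) (XT.lf (nat_lit 0) (nat_lit 47444450807) (nat_lit 336) (nat_lit 30135960111) (nat_lit 84) (nat_lit 24196535083) (nat_lit 36) (nat_lit 5) (nat_lit 40) (nat_lit 5) (nat_lit 37) (nat_lit 5) (nat_lit 451) (nat_lit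 376) (nat_lit 118)))) (XT.nd (nat_lit 188) (nat_lit 252) (nat_lit 0) (XT.nd (nat_lit 94) (nat_lit 0) (nat_lit 0) (XT.lf (nat_lit 0) (nat_lit 6734274588) (nat_lit 168) (nat_lit 55999664065) (nat_lit 252) (nat_lit 41376152217) (nat_lit 34) (nat_lit 5) (nat_lit 36) (nat_lit 5) (nat_lit 37) (nat_lit 5) (nat_lit 452) (nat_lit 376) (nat_lit 117)) (XT.lf (nat_lit 0) (nat_lit 45327308765) (nat_lit 168) (nat_lit 33458449499) (nat_lit 252) (nat_lit 27718363027) (nat_lit 34) (nat_lit 5) (nat_lit 36) (nat_lit 5) (nat_lit 37) (nat_lit 5) (nat_lit 453) (nat_lit 376) (nat_lit 116))) (XT.nd (nat_lit 94) (nat_lit 252) (nat_lit 0) (XT.lf (nat_lit 0) (nat_lit 85077099791) (nat_lit 168) (nat_lit 10241385121) (nat_lit 252) (nat_lit 13651507741) (nat_lit 34) (nat_lit 5) (nat_lit 36) (nat_lit 5) (nat_lit 37) (nat_lit 5) (nat_lit 454) (nat_lit 376) (nat_lit 115)) (XT.lf (nat_lit 0) (nat_lit 1095448517) (nat_lit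 252) (nat_lit 96849196582) (nat_lit 84) (nat_lit 13556721097) (nat_lit 31) (nat_lit 5) (nat_lit 34) (nat_lit 5) (nat_lit 32) (nat_lit 5) (nat_lit 455) (nat_lit 376) (nat_lit 114))))) (XT.nd (nat_lit 376) (nat_lit 252) (nat_lit 0) (XT.nd (nat_lit 94) (nat_lit 168) (nat_lit 0) (XT.lf (nat_lit 0) (nat_lit 16354861400) (nat_lit 252) (nat_lit 59498053068) (nat_lit 84) (nat_lit 38241379232) (nat_lit 31) (nat_lit 5) (nat_lit 34) (nat_lit 5) (nat_lit 32) (nat_lit 5) (nat_lit 456) (nat_lit 376) (nat_lit 113)) (XT.nd (nat_lit 94) (nat_lit 168) (nat_lit 0) (XT.lf (nat_lit 0) (nat_lit 32071444709) (nat_lit 252) (nat_lit 21027368440) (nat_lit 84) (nat_lit 63666214775) (nat_lit 31) (nat_lit 5) (nat_lit 34) (nat_lit 5) (nat_lit 32) (nat_lit 5) (nat_lit 457) (nat_lit 376) (nat_lit 112)) (XT.lf (nat_lit 0) (nat_lit 18966578728) (nat_lit 168) (nat_lit 29474671008) (nat_lit 252) (nat_lit 71069183230) (nat_lit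 29) (nat_lit 5) (nat_lit 31) (nat_lit 5) (nat_lit 32) (nat_lit 5) (nat_lit 458) (nat_lit 376) (nat_lit 111)))) (XT.nd (nat_lit 188) (nat_lit 84) (nat_lit 0) (XT.nd (nat_lit 94) (nat_lit 168) (nat_lit 0) (XT.lf (nat_lit 0) (nat_lit 83293907349) (nat_lit 252) (nat_lit 21971604125) (nat_lit 84) (nat_lit 19966539440) (nat_lit 29) (nat_lit 5) (nat_lit 32) (nat_lit 5) (nat_lit 30) (nat_lit 5) (nat_lit 460) (nat_lit 376) (nat_lit 109)) (XT.lf (nat_lit 0) (nat_lit 19318619353) (nat_lit 168) (nat_lit 82522591410) (nat_lit 252) (nat_lit 26371032616) (nat_lit 27) (nat_lit 5) (nat_lit 29) (nat_lit 5) (nat_lit 30) (nat_lit 5) (nat_lit 461) (nat_lit 376) (nat_lit 108))) (XT.nd (nat_lit 94) (nat_lit 84) (nat_lit 0) (XT.lf (nat_lit 0) (nat_lit 62297041135) (nat_lit 168) (nat_lit 58869214043) (nat_lit 252) (nat_lit 10108947246) (nat_lit 27) (nat_lit 5) (nat_lit 29) (nat_lit 5) (nat_lit 30) (nat_lit 5)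 (nat_lit 462) (nat_lit 376) (nat_lit 107)) (XT.lf (nat_lit 0) (nat_lit 6510872875) (nat_lit 252) (nat_lit 27929961568) (nat_lit 84) (nat_lit 99987317249) (nat_lit 26) (nat_lit 5) (nat_lit 29) (nat_lit 5) (nat_lit 27) (nat_lit 5) (nat_lit 463) (nat_lit 376) (nat_lit 106))))))))
noncomputable def xc205 : XT := (XT.nd (nat_lit 53486) (nat_lit 0) (nat_lit 3612) (XT.nd (nat_lit 52170) (nat_lit 0) (nat_lit 9576) (XT.nd (nat_lit 51512) (nat_lit 0) (nat_lit 11592) (XT.nd (nat_lit 51230) (nat_lit 0) (nat_lit 12768) (XT.nd (nat_lit 94) (nat_lit 0) (nat_lit 0) (XT.lf (nat_lit 0) (nat_lit 14532309634) (nat_lit 168) (nat_lit 9032969288) (nat_lit 252) (nat_lit 114103233145) (nat_lit 24) (nat_lit 5) (nat_lit 26) (nat_lit 5) (nat_lit 27) (nat_lit 5) (nat_lit 464) (nat_lit 376) (nat_lit 105)) (XT.nd (nat_lit 51042) (nat_lit 0) (nat_lit 12768) (XT.lf (nat_lit 0) (nat_lit 41580361478) (nat_lit 252) (nat_lit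 82325029128) (nat_lit 84) (nat_lit 17087221729) (nat_lit 24) (nat_lit 5) (nat_lit 27) (nat_lit 5) (nat_lit 25) (nat_lit 5) (nat_lit 465) (nat_lit 376) (nat_lit 104)) (XT.lf (nat_lit 0) (nat_lit 12408435912) (nat_lit 1260) (nat_lit 224919779) (nat_lit 1260) (nat_lit 224919779) (nat_lit 176) (nat_lit 3) (nat_lit 191) (nat_lit 3) (nat_lit 191) (nat_lit 5) (nat_lit 377) (nat_lit 377) (nat_lit 191)))) (XT.nd (nat_lit 94) (nat_lit 0) (nat_lit 0) (XT.lf (nat_lit 84) (nat_lit 10878847390) (nat_lit 0) (nat_lit 14505957829) (nat_lit 1260) (nat_lit 711449491) (nat_lit 177) (nat_lit 5) (nat_lit 176) (nat_lit 3) (nat_lit 191) (nat_lit 5) (nat_lit 378) (nat_lit 377) (nat_lit 190)) (XT.nd (nat_lit 94) (nat_lit 0) (nat_lit 84) (XT.lf (nat_lit 84) (nat_lit 22554745167) (nat_lit 0) (nat_lit 3416000342) (nat_lit 1260) (nat_lit 516581808) (nat_lit 177) (nat_lit 5) (nat_lit 176) (nat_lit 3) (nat_lit 191) (nat_lit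 5) (nat_lit 379) (nat_lit 377) (nat_lit 189)) (XT.lf (nat_lit 84) (nat_lit 7763371105) (nat_lit 0) (nat_lit 18959030419) (nat_lit 1260) (nat_lit 163293050) (nat_lit 178) (nat_lit 5) (nat_lit 177) (nat_lit 5) (nat_lit 192) (nat_lit 5) (nat_lit 380) (nat_lit 377) (nat_lit 188))))) (XT.nd (nat_lit 282) (nat_lit 0) (nat_lit 84) (XT.nd (nat_lit 94) (nat_lit 0) (nat_lit 84) (XT.lf (nat_lit 0) (nat_lit 267195192) (nat_lit 1260) (nat_lit 7442145857) (nat_lit 1344) (nat_lit 19584504716) (nat_lit 162) (nat_lit 5) (nat_lit 177) (nat_lit 5) (nat_lit 178) (nat_lit 5) (nat_lit 381) (nat_lit 377) (nat_lit 187)) (XT.nd (nat_lit 94) (nat_lit 0) (nat_lit 0) (XT.lf (nat_lit 0) (nat_lit 786704424) (nat_lit 1260) (nat_lit 23074571844) (nat_lit 1344) (nat_lit 3850541106) (nat_lit 163) (nat_lit 5) (nat_lit 178) (nat_lit 5) (nat_lit 179) (nat_lit 5) (nat_lit 382) (nat_lit 377) (nat_lit 186)) (XT.lf (nat_lit 0)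 (nat_lit 1470802969) (nat_lit 1260) (nat_lit 10987608886) (nat_lit 1344) (nat_lit 15679452016) (nat_lit 163) (nat_lit 5) (nat_lit 178) (nat_lit 5) (nat_lit 179) (nat_lit 5) (nat_lit 383) (nat_lit 377) (nat_lit 185)))) (XT.nd (nat_lit 188) (nat_lit 0) (nat_lit 84) (XT.nd (nat_lit 94) (nat_lit 0) (nat_lit 84) (XT.lf (nat_lit 84) (nat_lit 1489042395) (nat_lit 0) (nat_lit 697568259) (nat_lit 1344) (nat_lit 26389751212) (nat_lit 164) (nat_lit 5) (nat_lit 163) (nat_lit 5) (nat_lit 179) (nat_lit 5) (nat_lit 384) (nat_lit 377) (nat_lit 184)) (XT.lf (nat_lit 0) (nat_lit 3142638384) (nat_lit 1260) (nat_lit 14572360359) (nat_lit 1344) (nat_lit 11306459209) (nat_lit 164) (nat_lit 5) (nat_lit 179) (nat_lit 5) (nat_lit 180) (nat_lit 5) (nat_lit 385) (nat_lit 377) (nat_lit 183))) (XT.nd (nat_lit 94) (nat_lit 0) (nat_lit 84) (XT.lf (nat_lit 0) (nat_lit 4131297656) (nat_lit 1260) (nat_lit 1690864418) (nat_lit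 1344) (nat_lit 23657631688) (nat_lit 164) (nat_lit 5) (nat_lit 179) (nat_lit 5) (nat_lit 180) (nat_lit 5) (nat_lit 386) (nat_lit 377) (nat_lit 182)) (XT.lf (nat_lit 0) (nat_lit 5323145683) (nat_lit 1260) (nat_lit 18205986375) (nat_lit 1344) (nat_lit 6417546927) (nat_lit 165) (nat_lit 5) (nat_lit 180) (nat_lit 5) (nat_lit 181) (nat_lit 5) (nat_lit 387) (nat_lit 377) (nat_lit 181)))))) (XT.nd (nat_lit 658) (nat_lit 2268) (nat_lit 0) (XT.nd (nat_lit 282) (nat_lit 0) (nat_lit 84) (XT.nd (nat_lit 94) (nat_lit 0) (nat_lit 84) (XT.lf (nat_lit 0) (nat_lit 6622841461) (nat_lit 1260) (nat_lit 4877040803) (nat_lit 1344) (nat_lit 18925530786) (nat_lit 165) (nat_lit 5) (nat_lit 180) (nat_lit 5) (nat_lit 181) (nat_lit 5) (nat_lit 388) (nat_lit 377) (nat_lit 180)) (XT.nd (nat_lit 94) (nat_lit 0) (nat_lit 0) (XT.lf (nat_lit 0) (nat_lit 8054999855) (nat_lit 1260) (nat_lit 21899481248) (nat_lit 1344) (nat_lit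 961228791) (nat_lit 166) (nat_lit 5) (nat_lit 181) (nat_lit 5) (nat_lit 182) (nat_lit 5) (nat_lit 389) (nat_lit 377) (nat_lit 179)) (XT.lf (nat_lit 0) (nat_lit 9691071655) (nat_lit 1260) (nat_lit 8109353670) (nat_lit 1344) (nat_lit 13615466623) (nat_lit 166) (nat_lit 5) (nat_lit 181) (nat_lit 5) (nat_lit 182) (nat_lit 5) (nat_lit 390) (nat_lit 377) (nat_lit 178)))) (XT.nd (nat_lit 188) (nat_lit 0) (nat_lit 84) (XT.nd (nat_lit 94) (nat_lit 0) (nat_lit 84) (XT.lf (nat_lit 84) (nat_lit 6213751386) (nat_lit 0) (nat_lit 5219633996) (nat_lit 1344) (nat_lit 20495983916) (nat_lit 167) (nat_lit 5) (nat_lit 166) (nat_lit 5) (nat_lit 182) (nat_lit 5) (nat_lit 391) (nat_lit 377) (nat_lit 177)) (XT.lf (nat_lit 0) (nat_lit 13382546609) (nat_lit 1260) (nat_lit 11400254549) (nat_lit 1344) (nat_lit 7670816958) (nat_lit 167) (nat_lit 5) (nat_lit 182) (nat_lit 5) (nat_lit 183) (nat_lit 5) (nat_lit 392) (nat_lit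 377) (nat_lit 176))) (XT.nd (nat_lit 94) (nat_lit 0) (nat_lit 84) (XT.lf (nat_lit 84) (nat_lit 3356400308) (nat_lit 0) (nat_lit 12115289529) (nat_lit 1344) (nat_lit 17519463708) (nat_lit 168) (nat_lit 5) (nat_lit 167) (nat_lit 5) (nat_lit 183) (nat_lit 5) (nat_lit 393) (nat_lit 377) (nat_lit 175)) (XT.lf (nat_lit 0) (nat_lit 17746348645) (nat_lit 1260) (nat_lit 14764059348) (nat_lit 84) (nat_lit 1030726040) (nat_lit 168) (nat_lit 5) (nat_lit 183) (nat_lit 5) (nat_lit 169) (nat_lit 5) (nat_lit 394) (nat_lit 377) (nat_lit 174))))) (XT.nd (nat_lit 282) (nat_lit 1260) (nat_lit 0) (XT.nd (nat_lit 94) (nat_lit 0) (nat_lit 0) (XT.lf (nat_lit 0) (nat_lit 439390026) (nat_lit 1260) (nat_lit 19771723487) (nat_lit 1344) (nat_lit 13892848544) (nat_lit 153) (nat_lit 5) (nat_lit 168) (nat_lit 5) (nat_lit 169) (nat_lit 5) (nat_lit 395) (nat_lit 377) (nat_lit 173)) (XT.nd (nat_lit 94) (nat_lit 0) (nat_lit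 0) (XT.lf (nat_lit 0) (nat_lit 16399625043) (nat_lit 1260) (nat_lit 6497021984) (nat_lit 1344) (nat_lit 11782627115) (nat_lit 153) (nat_lit 5) (nat_lit 168) (nat_lit 5) (nat_lit 169) (nat_lit 5) (nat_lit 396) (nat_lit 377) (nat_lit 172)) (XT.lf (nat_lit 0) (nat_lit 25729532188) (nat_lit 1344) (nat_lit 2504139646) (nat_lit 84) (nat_lit 7036174060) (nat_lit 153) (nat_lit 5) (nat_lit 169) (nat_lit 5) (nat_lit 154) (nat_lit 5) (nat_lit 397) (nat_lit 377) (nat_lit 171)))) (XT.nd (nat_lit 188) (nat_lit 672) (nat_lit 0) (XT.nd (nat_lit 94) (nat_lit 0) (nat_lit 0) (XT.lf (nat_lit 0) (nat_lit 13950610694) (nat_lit 588) (nat_lit 14893092161) (nat_lit 672) (nat_lit 7028546738) (nat_lit 146) (nat_lit 5) (nat_lit 153) (nat_lit 5) (nat_lit 154) (nat_lit 5) (nat_lit 398) (nat_lit 377) (nat_lit 170)) (XT.lf (nat_lit 0) (nat_lit 30948430709) (nat_lit 588) (nat_lit 1126068748) (nat_lit 672) (nat_lit 4417533571)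 (nat_lit 146) (nat_lit 5) (nat_lit 153) (nat_lit 5) (nat_lit 154) (nat_lit 5) (nat_lit 399) (nat_lit 377) (nat_lit 169))) (XT.nd (nat_lit 94) (nat_lit 84) (nat_lit 0) (XT.lf (nat_lit 0) (nat_lit 11421246568) (nat_lit 588) (nat_lit 24214220463) (nat_lit 672) (nat_lit 1487949071) (nat_lit 139) (nat_lit 5) (nat_lit 146) (nat_lit 5) (nat_lit 147) (nat_lit 5) (nat_lit 400) (nat_lit 377) (nat_lit 168)) (XT.lf (nat_lit 0) (nat_lit 1565353485) (nat_lit 672) (nat_lit 8791728331) (nat_lit 84) (nat_lit 27414250803) (nat_lit 138) (nat_lit 5) (nat_lit 146) (nat_lit 5) (nat_lit 139) (nat_lit 5) (nat_lit 401) (nat_lit 377) (nat_lit 167))))))) (XT.nd (nat_lit 1316) (nat_lit 2352) (nat_lit 0) (XT.nd (nat_lit 658) (nat_lit 1932) (nat_lit 0) (XT.nd (nat_lit 282) (nat_lit 504) (nat_lit 0) (XT.nd (nat_lit 94) (nat_lit 588) (nat_lit 0) (XT.lf (nat_lit 0) (nat_lit 4801430249) (nat_lit 672) (nat_lit 29693642754)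 (nat_lit 84) (nat_lit 3939542464) (nat_lit 131) (nat_lit 5) (nat_lit 139) (nat_lit 5) (nat_lit 132) (nat_lit 5) (nat_lit 402) (nat_lit 377) (nat_lit 166)) (XT.nd (nat_lit 94) (nat_lit 588) (nat_lit 0) (XT.lf (nat_lit 0) (nat_lit 8324884599) (nat_lit 672) (nat_lit 12240607267) (nat_lit 84) (nat_lit 18546599227) (nat_lit 131) (nat_lit 5) (nat_lit 139) (nat_lit 5) (nat_lit 132) (nat_lit 5) (nat_lit 403) (nat_lit 377) (nat_lit 165)) (XT.lf (nat_lit 0) (nat_lit 5848270121) (nat_lit 588) (nat_lit 6160136888) (nat_lit 672) (nat_lit 27799856105) (nat_lit 124) (nat_lit 5) (nat_lit 131) (nat_lit 5) (nat_lit 132) (nat_lit 5) (nat_lit 404) (nat_lit 377) (nat_lit 164)))) (XT.nd (nat_lit 188) (nat_lit 0) (nat_lit 0) (XT.nd (nat_lit 94) (nat_lit 504) (nat_lit 0) (XT.lf (nat_lit 0) (nat_lit 16008860425) (nat_lit 672) (nat_lit 15877422701) (nat_lit 84) (nat_lit 8632847377) (nat_lit 124) (nat_lit 5) (nat_lit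 132) (nat_lit 5) (nat_lit 125) (nat_lit 5) (nat_lit 405) (nat_lit 377) (nat_lit 163)) (XT.lf (nat_lit 0) (nat_lit 2738212454) (nat_lit 504) (nat_lit 17476663843) (nat_lit 588) (nat_lit 21033884036) (nat_lit 118) (nat_lit 5) (nat_lit 124) (nat_lit 5) (nat_lit 125) (nat_lit 5) (nat_lit 406) (nat_lit 377) (nat_lit 162))) (XT.nd (nat_lit 94) (nat_lit 0) (nat_lit 0) (XT.lf (nat_lit 0) (nat_lit 22235953253) (nat_lit 504) (nat_lit 2469719992) (nat_lit 588) (nat_lit 17289850593) (nat_lit 118) (nat_lit 5) (nat_lit 124) (nat_lit 5) (nat_lit 125) (nat_lit 5) (nat_lit 407) (nat_lit 377) (nat_lit 161)) (XT.lf (nat_lit 0) (nat_lit 29454356428) (nat_lit 588) (nat_lit 572740814) (nat_lit 84) (nat_lit 12733900855) (nat_lit 118) (nat_lit 5) (nat_lit 125) (nat_lit 5) (nat_lit 119) (nat_lit 5) (nat_lit 408) (nat_lit 377) (nat_lit 160))))) (XT.nd (nat_lit 282) (nat_lit 924) (nat_lit 0) (XT.nd (nat_lit 94)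 (nat_lit 504) (nat_lit 0) (XT.lf (nat_lit 0) (nat_lit 19544851334) (nat_lit 504) (nat_lit 15011346648) (nat_lit 588) (nat_lit 8986920303) (nat_lit 112) (nat_lit 5) (nat_lit 118) (nat_lit 5) (nat_lit 119) (nat_lit 5) (nat_lit 409) (nat_lit 377) (nat_lit 159)) (XT.nd (nat_lit 94) (nat_lit 504) (nat_lit 0) (XT.lf (nat_lit 0) (nat_lit 39819705326) (nat_lit 588) (nat_lit 4077058396) (nat_lit 84) (nat_lit 451682602) (nat_lit 112) (nat_lit 5) (nat_lit 119) (nat_lit 5) (nat_lit 113) (nat_lit 5) (nat_lit 410) (nat_lit 377) (nat_lit 158)) (XT.lf (nat_lit 0) (nat_lit 371776492) (nat_lit 504) (nat_lit 28556746924) (nat_lit 84) (nat_lit 16240100211) (nat_lit 106) (nat_lit 5) (nat_lit 112) (nat_lit 5) (nat_lit 107) (nat_lit 5) (nat_lit 411) (nat_lit 377) (nat_lit 157)))) (XT.nd (nat_lit 188) (nat_lit 420) (nat_lit 0) (XT.nd (nat_lit 94) (nat_lit 504) (nat_lit 0) (XT.lf (nat_lit 0) (nat_lit 5368319162)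 (nat_lit 504) (nat_lit 8054137185) (nat_lit 84) (nat_lit 32588406087) (nat_lit 106) (nat_lit 5) (nat_lit 112) (nat_lit 5) (nat_lit 107) (nat_lit 5) (nat_lit 412) (nat_lit 377) (nat_lit 156)) (XT.lf (nat_lit 0) (nat_lit 10667081492) (nat_lit 588) (nat_lit 33578556708) (nat_lit 84) (nat_lit 2628162782) (nat_lit 100) (nat_lit 5) (nat_lit 107) (nat_lit 5) (nat_lit 101) (nat_lit 5) (nat_lit 413) (nat_lit 377) (nat_lit 155))) (XT.nd (nat_lit 94) (nat_lit 420) (nat_lit 0) (XT.lf (nat_lit 0) (nat_lit 16338363536) (nat_lit 588) (nat_lit 12445430038) (nat_lit 84) (nat_lit 18972429616) (nat_lit 100) (nat_lit 5) (nat_lit 107) (nat_lit 5) (nat_lit 101) (nat_lit 5) (nat_lit 414) (nat_lit 377) (nat_lit 154)) (XT.lf (nat_lit 0) (nat_lit 9505476999) (nat_lit 420) (nat_lit 12764247450) (nat_lit 504) (nat_lit 26392697548) (nat_lit 95) (nat_lit 5) (nat_lit 100) (nat_lit 5) (nat_lit 101) (nat_lit 5) (nat_lit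 415) (nat_lit 377) (nat_lit 153)))))) (XT.nd (nat_lit 658) (nat_lit 1092) (nat_lit 0) (XT.nd (nat_lit 282) (nat_lit 840) (nat_lit 0) (XT.nd (nat_lit 94) (nat_lit 420) (nat_lit 0) (XT.lf (nat_lit 0) (nat_lit 28540447371) (nat_lit 504) (nat_lit 17260886574) (nat_lit 84) (nat_lit 3789632272) (nat_lit 95) (nat_lit 5) (nat_lit 101) (nat_lit 5) (nat_lit 96) (nat_lit 5) (nat_lit 416) (nat_lit 377) (nat_lit 152)) (XT.nd (nat_lit 94) (nat_lit 0) (nat_lit 0) (XT.lf (nat_lit 0) (nat_lit 5266774396) (nat_lit 420) (nat_lit 29908155597) (nat_lit 504) (nat_lit 15367169651) (nat_lit 90) (nat_lit 5) (nat_lit 95) (nat_lit 5) (nat_lit 96) (nat_lit 5) (nat_lit 417) (nat_lit 377) (nat_lit 151)) (XT.lf (nat_lit 0) (nat_lit 28822438605) (nat_lit 420) (nat_lit 13358965381) (nat_lit 504) (nat_lit 9335176344) (nat_lit 90) (nat_lit 5) (nat_lit 95) (nat_lit 5) (nat_lit 96) (nat_lit 5) (nat_lit 418) (nat_lit 377)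 (nat_lit 150)))) (XT.nd (nat_lit 188) (nat_lit 420) (nat_lit 0) (XT.nd (nat_lit 94) (nat_lit 84) (nat_lit 0) (XT.lf (nat_lit 0) (nat_lit 537886903) (nat_lit 336) (nat_lit 48899486621) (nat_lit 420) (nat_lit 3081744780) (nat_lit 86) (nat_lit 5) (nat_lit 90) (nat_lit 5) (nat_lit 91) (nat_lit 5) (nat_lit 419) (nat_lit 377) (nat_lit 149)) (XT.lf (nat_lit 0) (nat_lit 3656140057) (nat_lit 420) (nat_lit 28781260090) (nat_lit 84) (nat_lit 21102493255) (nat_lit 85) (nat_lit 5) (nat_lit 90) (nat_lit 5) (nat_lit 86) (nat_lit 5) (nat_lit 420) (nat_lit 377) (nat_lit 148))) (XT.nd (nat_lit 94) (nat_lit 420) (nat_lit 0) (XT.lf (nat_lit 0) (nat_lit 10532959165) (nat_lit 420) (nat_lit 4917412844) (nat_lit 84) (nat_lit 39140043985) (nat_lit 85) (nat_lit 5) (nat_lit 90) (nat_lit 5) (nat_lit 86) (nat_lit 5) (nat_lit 421) (nat_lit 377) (nat_lit 147)) (XT.lf (nat_lit 0) (nat_lit 17829185319) (nat_lit 504) (nat_lit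 35636211253) (nat_lit 84) (nat_lit 2200666313) (nat_lit 80) (nat_lit 5) (nat_lit 86) (nat_lit 5) (nat_lit 81) (nat_lit 5) (nat_lit 422) (nat_lit 377) (nat_lit 146))))) (XT.nd (nat_lit 282) (nat_lit 756) (nat_lit 0) (XT.nd (nat_lit 94) (nat_lit 336) (nat_lit 0) (XT.lf (nat_lit 0) (nat_lit 25546212122) (nat_lit 504) (nat_lit 11101202041) (nat_lit 84) (nat_lit 20120509246) (nat_lit 80) (nat_lit 5) (nat_lit 86) (nat_lit 5) (nat_lit 81) (nat_lit 5) (nat_lit 423) (nat_lit 377) (nat_lit 145)) (XT.nd (nat_lit 94) (nat_lit 0) (nat_lit 0) (XT.lf (nat_lit 0) (nat_lit 14450297807) (nat_lit 336) (nat_lit 19182184219) (nat_lit 420) (nat_lit 24266227351) (nat_lit 76) (nat_lit 5) (nat_lit 80) (nat_lit 5) (nat_lit 81) (nat_lit 5) (nat_lit 424) (nat_lit 377) (nat_lit 144)) (XT.lf (nat_lit 0) (nat_lit 40994384482) (nat_lit 336) (nat_lit 1077902644) (nat_lit 420) (nat_lit 16987804934) (nat_lit 76) (nat_lit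 5) (nat_lit 80) (nat_lit 5) (nat_lit 81) (nat_lit 5) (nat_lit 425) (nat_lit 377) (nat_lit 143)))) (XT.nd (nat_lit 188) (nat_lit 420) (nat_lit 0) (XT.nd (nat_lit 94) (nat_lit 0) (nat_lit 0) (XT.lf (nat_lit 0) (nat_lit 8065465710) (nat_lit 336) (nat_lit 42945116588) (nat_lit 420) (nat_lit 9238376554) (nat_lit 72) (nat_lit 5) (nat_lit 76) (nat_lit 5) (nat_lit 77) (nat_lit 5) (nat_lit 426) (nat_lit 377) (nat_lit 142)) (XT.lf (nat_lit 0) (nat_lit 35338524332) (nat_lit 336) (nat_lit 25070393111) (nat_lit 420) (nat_lit 1058818932) (nat_lit 72) (nat_lit 5) (nat_lit 76) (nat_lit 5) (nat_lit 77) (nat_lit 5) (nat_lit 427) (nat_lit 377) (nat_lit 141))) (XT.nd (nat_lit 94) (nat_lit 0) (nat_lit 0) (XT.lf (nat_lit 0) (nat_lit 647042011) (nat_lit 336) (nat_lit 6580478921) (nat_lit 420) (nat_lit 55493279383) (nat_lit 67) (nat_lit 5) (nat_lit 71) (nat_lit 5) (nat_lit 72) (nat_lit 5) (nat_lit 428) (nat_lit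 377) (nat_lit 140)) (XT.lf (nat_lit 0) (nat_lit 16126378050) (nat_lit 420) (nat_lit 35375731297) (nat_lit 84) (nat_lit 12497477413) (nat_lit 67) (nat_lit 5) (nat_lit 72) (nat_lit 5) (nat_lit 68) (nat_lit 5) (nat_lit 429) (nat_lit 377) (nat_lit 139))))))))
noncomputable def xc206 : XT := (XT.nd (nat_lit 2538) (nat_lit 0) (nat_lit 0) (XT.nd (nat_lit 1222) (nat_lit 1428) (nat_lit 0) (XT.nd (nat_lit 564) (nat_lit 588) (nat_lit 0) (XT.nd (nat_lit 282) (nat_lit 672) (nat_lit 0) (XT.nd (nat_lit 94) (nat_lit 336) (nat_lit 0) (XT.lf (nat_lit 0) (nat_lit 25356314506) (nat_lit 420) (nat_lit 7943362387) (nat_lit 84) (nat_lit 32015137796) (nat_lit 67) (nat_lit 5) (nat_lit 72) (nat_lit 5) (nat_lit 68) (nat_lit 5) (nat_lit 430) (nat_lit 377) (nat_lit 138)) (XT.nd (nat_lit 94) (nat_lit 0) (nat_lit 0) (XT.lf (nat_lit 0) (nat_lit 20714794294) (nat_lit 336) (nat_lit 14346468684) (nat_lit 420) (nat_lit 31602294319)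 (nat_lit 63) (nat_lit 5) (nat_lit 67) (nat_lit 5) (nat_lit 68) (nat_lit 5) (nat_lit 431) (nat_lit 377) (nat_lit 137)) (XT.lf (nat_lit 0) (nat_lit 45187117842) (nat_lit 420) (nat_lit 17706788665) (nat_lit 84) (nat_lit 5154964162) (nat_lit 63) (nat_lit 5) (nat_lit 68) (nat_lit 5) (nat_lit 64) (nat_lit 5) (nat_lit 432) (nat_lit 377) (nat_lit 136)))) (XT.nd (nat_lit 94) (nat_lit 420) (nat_lit 0) (XT.lf (nat_lit 0) (nat_lit 11462703568) (nat_lit 252) (nat_lit 44405307465) (nat_lit 336) (nat_lit 13600195717) (nat_lit 60) (nat_lit 5) (nat_lit 63) (nat_lit 5) (nat_lit 64) (nat_lit 5) (nat_lit 433) (nat_lit 377) (nat_lit 135)) (XT.nd (nat_lit 94) (nat_lit 420) (nat_lit 0) (XT.lf (nat_lit 0) (nat_lit 41868890141) (nat_lit 252) (nat_lit 25178291746) (nat_lit 336) (nat_lit 3877606653) (nat_lit 60) (nat_lit 5) (nat_lit 63) (nat_lit 5) (nat_lit 64) (nat_lit 5) (nat_lit 434) (nat_lit 377) (nat_lit 134))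 (XT.lf (nat_lit 0) (nat_lit 715831380) (nat_lit 336) (nat_lit 5307025888) (nat_lit 420) (nat_lit 66400263558) (nat_lit 55) (nat_lit 5) (nat_lit 59) (nat_lit 5) (nat_lit 60) (nat_lit 5) (nat_lit 435) (nat_lit 377) (nat_lit 133))))) (XT.nd (nat_lit 282) (nat_lit 336) (nat_lit 0) (XT.nd (nat_lit 94) (nat_lit 252) (nat_lit 0) (XT.lf (nat_lit 0) (nat_lit 16583517575) (nat_lit 420) (nat_lit 42169652233) (nat_lit 84) (nat_lit 15198849007) (nat_lit 55) (nat_lit 5) (nat_lit 60) (nat_lit 5) (nat_lit 56) (nat_lit 5) (nat_lit 436) (nat_lit 377) (nat_lit 132)) (XT.nd (nat_lit 94) (nat_lit 252) (nat_lit 0) (XT.lf (nat_lit 0) (nat_lit 27512644509) (nat_lit 420) (nat_lit 11799745147) (nat_lit 84) (nat_lit 36212845708) (nat_lit 55) (nat_lit 5) (nat_lit 60) (nat_lit 5) (nat_lit 56) (nat_lit 5) (nat_lit 437) (nat_lit 377) (nat_lit 131)) (XT.lf (nat_lit 0) (nat_lit 19867672857) (nat_lit 252) (nat_lit 19092080780)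 (nat_lit 336) (nat_lit 38180192515) (nat_lit 52) (nat_lit 5) (nat_lit 55) (nat_lit 5) (nat_lit 56) (nat_lit 5) (nat_lit 438) (nat_lit 377) (nat_lit 130)))) (XT.nd (nat_lit 188) (nat_lit 84) (nat_lit 0) (XT.nd (nat_lit 94) (nat_lit 252) (nat_lit 0) (XT.lf (nat_lit 0) (nat_lit 50886423909) (nat_lit 336) (nat_lit 26091669558) (nat_lit 84) (nat_lit 1820921328) (nat_lit 52) (nat_lit 5) (nat_lit 56) (nat_lit 5) (nat_lit 53) (nat_lit 5) (nat_lit 439) (nat_lit 377) (nat_lit 129)) (XT.lf (nat_lit 0) (nat_lit 5950182278) (nat_lit 252) (nat_lit 57466101939) (nat_lit 336) (nat_lit 17084210518) (nat_lit 49) (nat_lit 5) (nat_lit 52) (nat_lit 5) (nat_lit 53) (nat_lit 5) (nat_lit 440) (nat_lit 377) (nat_lit 128))) (XT.nd (nat_lit 94) (nat_lit 84) (nat_lit 0) (XT.lf (nat_lit 0) (nat_lit 39486906562) (nat_lit 252) (nat_lit 37097783613) (nat_lit 336) (nat_lit 5660450315) (nat_lit 49) (nat_lit 5) (nat_lit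 52) (nat_lit 5) (nat_lit 53) (nat_lit 5) (nat_lit 441) (nat_lit 377) (nat_lit 127)) (XT.lf (nat_lit 0) (nat_lit 5986062564) (nat_lit 336) (nat_lit 10072305571) (nat_lit 84) (nat_lit 67982021785) (nat_lit 48) (nat_lit 5) (nat_lit 52) (nat_lit 5) (nat_lit 49) (nat_lit 5) (nat_lit 442) (nat_lit 377) (nat_lit 126)))))) (XT.nd (nat_lit 658) (nat_lit 672) (nat_lit 0) (XT.nd (nat_lit 282) (nat_lit 252) (nat_lit 0) (XT.nd (nat_lit 94) (nat_lit 252) (nat_lit 0) (XT.lf (nat_lit 0) (nat_lit 18154953950) (nat_lit 336) (nat_lit 61932294976) (nat_lit 84) (nat_lit 5791964840) (nat_lit 45) (nat_lit 5) (nat_lit 49) (nat_lit 5) (nat_lit 46) (nat_lit 5) (nat_lit 443) (nat_lit 377) (nat_lit 125)) (XT.nd (nat_lit 94) (nat_lit 252) (nat_lit 0) (XT.lf (nat_lit 0) (nat_lit 30949845173) (nat_lit 336) (nat_lit 28738150395) (nat_lit 84) (nat_lit 28077379574) (nat_lit 45) (nat_lit 5) (nat_lit 49) (nat_lit 5) (nat_lit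 46) (nat_lit 5) (nat_lit 444) (nat_lit 377) (nat_lit 124)) (XT.lf (nat_lit 0) (nat_lit 5559141197) (nat_lit 252) (nat_lit 38622124249) (nat_lit 336) (nat_lit 45525276231) (nat_lit 42) (nat_lit 5) (nat_lit 45) (nat_lit 5) (nat_lit 46) (nat_lit 5) (nat_lit 445) (nat_lit 377) (nat_lit 123)))) (XT.nd (nat_lit 188) (nat_lit 252) (nat_lit 0) (XT.nd (nat_lit 94) (nat_lit 0) (nat_lit 0) (XT.lf (nat_lit 0) (nat_lit 41473310591) (nat_lit 252) (nat_lit 16625772155) (nat_lit 336) (nat_lit 33598177592) (nat_lit 42) (nat_lit 5) (nat_lit 45) (nat_lit 5) (nat_lit 46) (nat_lit 5) (nat_lit 446) (nat_lit 377) (nat_lit 122)) (XT.lf (nat_lit 0) (nat_lit 72491676536) (nat_lit 336) (nat_lit 15341894267) (nat_lit 84) (nat_lit 5912413238) (nat_lit 42) (nat_lit 5) (nat_lit 46) (nat_lit 5) (nat_lit 43) (nat_lit 5) (nat_lit 447) (nat_lit 377) (nat_lit 121))) (XT.nd (nat_lit 94) (nat_lit 84) (nat_lit 0) (XT.lf (nat_lit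 0) (nat_lit 20827330219) (nat_lit 168) (nat_lit 66852829125) (nat_lit 252) (nat_lit 8165087491) (nat_lit 40) (nat_lit 5) (nat_lit 42) (nat_lit 5) (nat_lit 43) (nat_lit 5) (nat_lit 448) (nat_lit 377) (nat_lit 120)) (XT.lf (nat_lit 0) (nat_lit 5368813063) (nat_lit 252) (nat_lit 39660458097) (nat_lit 84) (nat_lit 52972011159) (nat_lit 39) (nat_lit 5) (nat_lit 42) (nat_lit 5) (nat_lit 40) (nat_lit 5) (nat_lit 449) (nat_lit 377) (nat_lit 119))))) (XT.nd (nat_lit 282) (nat_lit 420) (nat_lit 0) (XT.nd (nat_lit 94) (nat_lit 252) (nat_lit 0) (XT.lf (nat_lit 0) (nat_lit 19143938028) (nat_lit 252) (nat_lit 3324187390) (nat_lit 84) (nat_lit 77751469305) (nat_lit 39) (nat_lit 5) (nat_lit 42) (nat_lit 5) (nat_lit 40) (nat_lit 5) (nat_lit 450) (nat_lit 377) (nat_lit 118)) (XT.nd (nat_lit 94) (nat_lit 0) (nat_lit 0) (XT.lf (nat_lit 0) (nat_lit 33676685878) (nat_lit 336) (nat_lit 67725341242) (nat_lit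 84) (nat_lit 1092098943) (nat_lit 36) (nat_lit 5) (nat_lit 40) (nat_lit 5) (nat_lit 37) (nat_lit 5) (nat_lit 451) (nat_lit 377) (nat_lit 117)) (XT.lf (nat_lit 0) (nat_lit 48901116241) (nat_lit 336) (nat_lit 30987030986) (nat_lit 84) (nat_lit 24941075735) (nat_lit 36) (nat_lit 5) (nat_lit 40) (nat_lit 5) (nat_lit 37) (nat_lit 5) (nat_lit 452) (nat_lit 377) (nat_lit 116)))) (XT.nd (nat_lit 188) (nat_lit 252) (nat_lit 0) (XT.nd (nat_lit 94) (nat_lit 0) (nat_lit 0) (XT.lf (nat_lit 0) (nat_lit 6988791069) (nat_lit 168) (nat_lit 57660031371) (nat_lit 252) (nat_lit 42583554642) (nat_lit 34) (nat_lit 5) (nat_lit 36) (nat_lit 5) (nat_lit 37) (nat_lit 5) (nat_lit 453) (nat_lit 377) (nat_lit 115)) (XT.lf (nat_lit 0) (nat_lit 46738087487) (nat_lit 168) (nat_lit 34443151900) (nat_lit 252) (nat_lit 28517018635) (nat_lit 34) (nat_lit 5) (nat_lit 36) (nat_lit 5) (nat_lit 37) (nat_lit 5) (nat_lit 454)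 (nat_lit 377) (nat_lit 114))) (XT.nd (nat_lit 94) (nat_lit 252) (nat_lit 0) (XT.lf (nat_lit 0) (nat_lit 87678887988) (nat_lit 168) (nat_lit 10530130476) (nat_lit 252) (nat_lit 14029115805) (nat_lit 34) (nat_lit 5) (nat_lit 36) (nat_lit 5) (nat_lit 37) (nat_lit 5) (nat_lit 455) (nat_lit 377) (nat_lit 113)) (XT.lf (nat_lit 0) (nat_lit 1159371288) (nat_lit 252) (nat_lit 99704264331) (nat_lit 84) (nat_lit 13981812643) (nat_lit 31) (nat_lit 5) (nat_lit 34) (nat_lit 5) (nat_lit 32) (nat_lit 5) (nat_lit 456) (nat_lit 377) (nat_lit 112))))))) (XT.nd (nat_lit 53110) (nat_lit 0) (nat_lit 8400) (XT.nd (nat_lit 52452) (nat_lit 0) (nat_lit 11088) (XT.nd (nat_lit 52076) (nat_lit 0) (nat_lit 11004) (XT.nd (nat_lit 51888) (nat_lit 0) (nat_lit 12180) (XT.lf (nat_lit 0) (nat_lit 16875661918) (nat_lit 252) (nat_lit 61234054710) (nat_lit 84) (nat_lit 39406474894) (nat_lit 31) (nat_lit 5) (nat_lit 34) (nat_lit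 5) (nat_lit 32) (nat_lit 5) (nat_lit 457) (nat_lit 377) (nat_lit 111)) (XT.nd (nat_lit 94) (nat_lit 0) (nat_lit 0) (XT.lf (nat_lit 0) (nat_lit 12870919403) (nat_lit 1260) (nat_lit 185112503) (nat_lit 1260) (nat_lit 185112503) (nat_lit 176) (nat_lit 3) (nat_lit 191) (nat_lit 3) (nat_lit 191) (nat_lit 5) (nat_lit 378) (nat_lit 378) (nat_lit 189)) (XT.lf (nat_lit 84) (nat_lit 11297409712) (nat_lit 0) (nat_lit 15025030604) (nat_lit 1260) (nat_lit 551084523) (nat_lit 177) (nat_lit 5) (nat_lit 176) (nat_lit 3) (nat_lit 191) (nat_lit 5) (nat_lit 379) (nat_lit 378) (nat_lit 188)))) (XT.nd (nat_lit 188) (nat_lit 0) (nat_lit 0) (XT.nd (nat_lit 94) (nat_lit 1176) (nat_lit 0) (XT.lf (nat_lit 84) (nat_lit 23320899075) (nat_lit 0) (nat_lit 3599930877) (nat_lit 1260) (nat_lit 355663290) (nat_lit 177) (nat_lit 5) (nat_lit 176) (nat_lit 3) (nat_lit 191) (nat_lit 5) (nat_lit 380) (nat_lit 378) (nat_lit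 187)) (XT.lf (nat_lit 0) (nat_lit 3178304) (nat_lit 1260) (nat_lit 19595915062) (nat_lit 1344) (nat_lit 8087871530) (nat_lit 162) (nat_lit 5) (nat_lit 177) (nat_lit 5) (nat_lit 178) (nat_lit 5) (nat_lit 381) (nat_lit 378) (nat_lit 186))) (XT.nd (nat_lit 94) (nat_lit 0) (nat_lit 84) (XT.lf (nat_lit 0) (nat_lit 438403395) (nat_lit 1260) (nat_lit 7569816690) (nat_lit 1344) (nat_lit 20099247831) (nat_lit 162) (nat_lit 5) (nat_lit 177) (nat_lit 5) (nat_lit 178) (nat_lit 5) (nat_lit 382) (nat_lit 378) (nat_lit 185)) (XT.lf (nat_lit 0) (nat_lit 969032758) (nat_lit 1260) (nat_lit 23666461522) (nat_lit 1344) (nat_lit 3902627011) (nat_lit 163) (nat_lit 5) (nat_lit 178) (nat_lit 5) (nat_lit 179) (nat_lit 5) (nat_lit 383) (nat_lit 378) (nat_lit 184))))) (XT.nd (nat_lit 282) (nat_lit 0) (nat_lit 84) (XT.nd (nat_lit 94) (nat_lit 0) (nat_lit 0) (XT.lf (nat_lit 0) (nat_lit 1669031137) (nat_lit 1260) (nat_lit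 11219812417) (nat_lit 1344) (nat_lit 16088252734) (nat_lit 163) (nat_lit 5) (nat_lit 178) (nat_lit 5) (nat_lit 179) (nat_lit 5) (nat_lit 384) (nat_lit 378) (nat_lit 183)) (XT.nd (nat_lit 94) (nat_lit 0) (nat_lit 84) (XT.lf (nat_lit 84) (nat_lit 1630183257) (nat_lit 0) (nat_lit 772568652) (nat_lit 1344) (nat_lit 27026112315) (nat_lit 164) (nat_lit 5) (nat_lit 163) (nat_lit 5) (nat_lit 179) (nat_lit 5) (nat_lit 385) (nat_lit 378) (nat_lit 182)) (XT.lf (nat_lit 0) (nat_lit 3382571079) (nat_lit 1260) (nat_lit 14910717699) (nat_lit 1344) (nat_lit 11594179025) (nat_lit 164) (nat_lit 5) (nat_lit 179) (nat_lit 5) (nat_lit 180) (nat_lit 5) (nat_lit 386) (nat_lit 378) (nat_lit 181)))) (XT.nd (nat_lit 188) (nat_lit 0) (nat_lit 84) (XT.nd (nat_lit 94) (nat_lit 0) (nat_lit 84) (XT.lf (nat_lit 0) (nat_lit 4396647792) (nat_lit 1260) (nat_lit 1645654942) (nat_lit 1344) (nat_lit 24317385921) (nat_lit 164)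 (nat_lit 5) (nat_lit 179) (nat_lit 5) (nat_lit 180) (nat_lit 5) (nat_lit 387) (nat_lit 378) (nat_lit 180)) (XT.lf (nat_lit 0) (nat_lit 5620630268) (nat_lit 1260) (nat_lit 18652360454) (nat_lit 1344) (nat_lit 6567705815) (nat_lit 165) (nat_lit 5) (nat_lit 180) (nat_lit 5) (nat_lit 181) (nat_lit 5) (nat_lit 388) (nat_lit 378) (nat_lit 179))) (XT.nd (nat_lit 94) (nat_lit 0) (nat_lit 84) (XT.lf (nat_lit 0) (nat_lit 6955303613) (nat_lit 1260) (nat_lit 4926453472) (nat_lit 1344) (nat_lit 19452163195) (nat_lit 165) (nat_lit 5) (nat_lit 180) (nat_lit 5) (nat_lit 181) (nat_lit 5) (nat_lit 389) (nat_lit 378) (nat_lit 178)) (XT.lf (nat_lit 0) (nat_lit 8427117619) (nat_lit 1260) (nat_lit 22456023180) (nat_lit 1344) (nat_lit 955891547) (nat_lit 166) (nat_lit 5) (nat_lit 181) (nat_lit 5) (nat_lit 182) (nat_lit 5) (nat_lit 390) (nat_lit 378) (nat_lit 177)))))) (XT.nd (nat_lit 658) (nat_lit 1848) (nat_lit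 0) (XT.nd (nat_lit 282) (nat_lit 1092) (nat_lit 0) (XT.nd (nat_lit 94) (nat_lit 0) (nat_lit 0) (XT.lf (nat_lit 0) (nat_lit 10108471541) (nat_lit 1260) (nat_lit 8255117285) (nat_lit 1344) (nat_lit 13990751877) (nat_lit 166) (nat_lit 5) (nat_lit 181) (nat_lit 5) (nat_lit 182) (nat_lit 5) (nat_lit 391) (nat_lit 378) (nat_lit 176)) (XT.nd (nat_lit 94) (nat_lit 0) (nat_lit 84) (XT.lf (nat_lit 84) (nat_lit 6496724874) (nat_lit 0) (nat_lit 5403568657) (nat_lit 1344) (nat_lit 20983018316) (nat_lit 167) (nat_lit 5) (nat_lit 166) (nat_lit 5) (nat_lit 182) (nat_lit 5) (nat_lit 392) (nat_lit 378) (nat_lit 175)) (XT.lf (nat_lit 0) (nat_lit 13904065458) (nat_lit 1260) (nat_lit 11644434672) (nat_lit 1344) (nat_lit 7874910370) (nat_lit 167) (nat_lit 5) (nat_lit 182) (nat_lit 5) (nat_lit 183) (nat_lit 5) (nat_lit 393) (nat_lit 378) (nat_lit 174)))) (XT.nd (nat_lit 188) (nat_lit 1176) (nat_lit 0) (XT.nd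 (nat_lit 94) (nat_lit 0) (nat_lit 84) (XT.lf (nat_lit 84) (nat_lit 3553960738) (nat_lit 0) (nat_lit 12499357022) (nat_lit 1344) (nat_lit 17923837448) (nat_lit 168) (nat_lit 5) (nat_lit 167) (nat_lit 5) (nat_lit 183) (nat_lit 5) (nat_lit 394) (nat_lit 378) (nat_lit 173)) (XT.lf (nat_lit 0) (nat_lit 18392602331) (nat_lit 1260) (nat_lit 15109117567) (nat_lit 84) (nat_lit 1042029709) (nat_lit 168) (nat_lit 5) (nat_lit 183) (nat_lit 5) (nat_lit 169) (nat_lit 5) (nat_lit 395) (nat_lit 378) (nat_lit 172))) (XT.nd (nat_lit 94) (nat_lit 0) (nat_lit 0) (XT.lf (nat_lit 0) (nat_lit 549475841) (nat_lit 1260) (nat_lit 20379449401) (nat_lit 1344) (nat_lit 14194614677) (nat_lit 153) (nat_lit 5) (nat_lit 168) (nat_lit 5) (nat_lit 169) (nat_lit 5) (nat_lit 396) (nat_lit 378) (nat_lit 171)) (XT.lf (nat_lit 0) (nat_lit 16985695459) (nat_lit 1260) (nat_lit 6706082360) (nat_lit 1344) (nat_lit 12024436682) (nat_lit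 153) (nat_lit 5) (nat_lit 168) (nat_lit 5) (nat_lit 169) (nat_lit 5) (nat_lit 397) (nat_lit 378) (nat_lit 170))))) (XT.nd (nat_lit 282) (nat_lit 1260) (nat_lit 0) (XT.nd (nat_lit 94) (nat_lit 588) (nat_lit 0) (XT.lf (nat_lit 0) (nat_lit 26606365111) (nat_lit 1344) (nat_lit 2484452627) (nat_lit 84) (nat_lit 7233789762) (nat_lit 153) (nat_lit 5) (nat_lit 169) (nat_lit 5) (nat_lit 154) (nat_lit 5) (nat_lit 398) (nat_lit 378) (nat_lit 169)) (XT.nd (nat_lit 94) (nat_lit 0) (nat_lit 0) (XT.lf (nat_lit 0) (nat_lit 14463010701) (nat_lit 588) (nat_lit 15348795937) (nat_lit 672) (nat_lit 7133346698) (nat_lit 146) (nat_lit 5) (nat_lit 153) (nat_lit 5) (nat_lit 154) (nat_lit 5) (nat_lit 399) (nat_lit 378) (nat_lit 168)) (XT.lf (nat_lit 0) (nat_lit 31968030900) (nat_lit 588) (nat_lit 1168502278) (nat_lit 672) (nat_lit 4447092159) (nat_lit 146) (nat_lit 5) (nat_lit 153) (nat_lit 5) (nat_lit 154) (nat_lit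 5) (nat_lit 400) (nat_lit 378) (nat_lit 167)))) (XT.nd (nat_lit 188) (nat_lit 588) (nat_lit 0) (XT.nd (nat_lit 94) (nat_lit 84) (nat_lit 0) (XT.lf (nat_lit 0) (nat_lit 11857357600) (nat_lit 588) (nat_lit 24944883205) (nat_lit 672) (nat_lit 1431776856) (nat_lit 139) (nat_lit 5) (nat_lit 146) (nat_lit 5) (nat_lit 147) (nat_lit 5) (nat_lit 401) (nat_lit 378) (nat_lit 166)) (XT.lf (nat_lit 0) (nat_lit 1708278660) (nat_lit 672) (nat_lit 8962659302) (nat_lit 84) (nat_lit 28230495803) (nat_lit 138) (nat_lit 5) (nat_lit 146) (nat_lit 5) (nat_lit 139) (nat_lit 5) (nat_lit 402) (nat_lit 378) (nat_lit 165))) (XT.nd (nat_lit 94) (nat_lit 0) (nat_lit 0) (XT.lf (nat_lit 0) (nat_lit 5039505555) (nat_lit 672) (nat_lit 30489543748) (nat_lit 84) (nat_lit 4055628419) (nat_lit 131) (nat_lit 5) (nat_lit 139) (nat_lit 5) (nat_lit 132) (nat_lit 5) (nat_lit 403) (nat_lit 378) (nat_lit 164)) (XT.lf (nat_lit 0)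 (nat_lit 8665924727) (nat_lit 672) (nat_lit 12515681515) (nat_lit 84) (nat_lit 19100958060) (nat_lit 131) (nat_lit 5) (nat_lit 139) (nat_lit 5) (nat_lit 132) (nat_lit 5) (nat_lit 404) (nat_lit 378) (nat_lit 163))))))))
noncomputable def xc207 : XT := (XT.nd (nat_lit 2632) (nat_lit 2688) (nat_lit 0) (XT.nd (nat_lit 1316) (nat_lit 2268) (nat_lit 0) (XT.nd (nat_lit 658) (nat_lit 1848) (nat_lit 0) (XT.nd (nat_lit 282) (nat_lit 504) (nat_lit 0) (XT.nd (nat_lit 94) (nat_lit 504) (nat_lit 0) (XT.lf (nat_lit 0) (nat_lit 6114958822) (nat_lit 588) (nat_lit 6343212011) (nat_lit 672) (nat_lit 28541508499) (nat_lit 124) (nat_lit 5) (nat_lit 131) (nat_lit 5) (nat_lit 132) (nat_lit 5) (nat_lit 405) (nat_lit 378) (nat_lit 162)) (XT.nd (nat_lit 94) (nat_lit 504) (nat_lit 0) (XT.lf (nat_lit 0) (nat_lit 16576046854) (nat_lit 672) (nat_lit 16262429214) (nat_lit 84) (nat_lit 8893478668) (nat_lit 124) (nat_lit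 5) (nat_lit 132) (nat_lit 5) (nat_lit 125) (nat_lit 5) (nat_lit 406) (nat_lit 378) (nat_lit 161)) (XT.lf (nat_lit 0) (nat_lit 2910779738) (nat_lit 504) (nat_lit 17995800975) (nat_lit 588) (nat_lit 21576946759) (nat_lit 118) (nat_lit 5) (nat_lit 124) (nat_lit 5) (nat_lit 125) (nat_lit 5) (nat_lit 407) (nat_lit 378) (nat_lit 160)))) (XT.nd (nat_lit 188) (nat_lit 504) (nat_lit 0) (XT.nd (nat_lit 94) (nat_lit 0) (nat_lit 0) (XT.lf (nat_lit 0) (nat_lit 22990819143) (nat_lit 504) (nat_lit 2538799181) (nat_lit 588) (nat_lit 17723154073) (nat_lit 118) (nat_lit 5) (nat_lit 124) (nat_lit 5) (nat_lit 125) (nat_lit 5) (nat_lit 408) (nat_lit 378) (nat_lit 159)) (XT.lf (nat_lit 0) (nat_lit 30418397862) (nat_lit 588) (nat_lit 502198509) (nat_lit 84) (nat_lit 13120689338) (nat_lit 118) (nat_lit 5) (nat_lit 125) (nat_lit 5) (nat_lit 119) (nat_lit 5) (nat_lit 409) (nat_lit 378) (nat_lit 158))) (XT.nd (nat_lit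 94) (nat_lit 0) (nat_lit 0) (XT.lf (nat_lit 0) (nat_lit 20218061360) (nat_lit 504) (nat_lit 15453726238) (nat_lit 588) (nat_lit 9175130903) (nat_lit 112) (nat_lit 5) (nat_lit 118) (nat_lit 5) (nat_lit 119) (nat_lit 5) (nat_lit 410) (nat_lit 378) (nat_lit 157)) (XT.lf (nat_lit 0) (nat_lit 41090976292) (nat_lit 588) (nat_lit 4112689280) (nat_lit 84) (nat_lit 472811202) (nat_lit 112) (nat_lit 5) (nat_lit 119) (nat_lit 5) (nat_lit 113) (nat_lit 5) (nat_lit 411) (nat_lit 378) (nat_lit 156))))) (XT.nd (nat_lit 282) (nat_lit 840) (nat_lit 0) (XT.nd (nat_lit 94) (nat_lit 504) (nat_lit 0) (XT.lf (nat_lit 0) (nat_lit 459063178) (nat_lit 504) (nat_lit 29325987561) (nat_lit 84) (nat_lit 16736232083) (nat_lit 106) (nat_lit 5) (nat_lit 112) (nat_lit 5) (nat_lit 107) (nat_lit 5) (nat_lit 412) (nat_lit 378) (nat_lit 155)) (XT.nd (nat_lit 94) (nat_lit 504) (nat_lit 0) (XT.lf (nat_lit 0) (nat_lit 5603284652)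 (nat_lit 504) (nat_lit 8210846960) (nat_lit 84) (nat_lit 33574727072) (nat_lit 106) (nat_lit 5) (nat_lit 112) (nat_lit 5) (nat_lit 107) (nat_lit 5) (nat_lit 413) (nat_lit 378) (nat_lit 154)) (XT.lf (nat_lit 0) (nat_lit 11059775853) (nat_lit 588) (nat_lit 34499656191) (nat_lit 84) (nat_lit 2718293630) (nat_lit 100) (nat_lit 5) (nat_lit 107) (nat_lit 5) (nat_lit 101) (nat_lit 5) (nat_lit 414) (nat_lit 378) (nat_lit 153)))) (XT.nd (nat_lit 188) (nat_lit 420) (nat_lit 0) (XT.nd (nat_lit 94) (nat_lit 420) (nat_lit 0) (XT.lf (nat_lit 0) (nat_lit 16899079410) (nat_lit 588) (nat_lit 12735048066) (nat_lit 84) (nat_lit 19552559752) (nat_lit 100) (nat_lit 5) (nat_lit 107) (nat_lit 5) (nat_lit 101) (nat_lit 5) (nat_lit 415) (nat_lit 378) (nat_lit 152)) (XT.lf (nat_lit 0) (nat_lit 9873565154) (nat_lit 420) (nat_lit 13133557821) (nat_lit 504) (nat_lit 27112989849) (nat_lit 95) (nat_lit 5) (nat_lit 100)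 (nat_lit 5) (nat_lit 101) (nat_lit 5) (nat_lit 416) (nat_lit 378) (nat_lit 151))) (XT.nd (nat_lit 94) (nat_lit 420) (nat_lit 0) (XT.lf (nat_lit 0) (nat_lit 29464076022) (nat_lit 504) (nat_lit 17696213381) (nat_lit 84) (nat_lit 3916283702) (nat_lit 95) (nat_lit 5) (nat_lit 101) (nat_lit 5) (nat_lit 96) (nat_lit 5) (nat_lit 417) (nat_lit 378) (nat_lit 150)) (XT.lf (nat_lit 0) (nat_lit 5506468597) (nat_lit 420) (nat_lit 30789946240) (nat_lit 504) (nat_lit 15759863949) (nat_lit 90) (nat_lit 5) (nat_lit 95) (nat_lit 5) (nat_lit 96) (nat_lit 5) (nat_lit 418) (nat_lit 378) (nat_lit 149)))))) (XT.nd (nat_lit 658) (nat_lit 1092) (nat_lit 0) (XT.nd (nat_lit 282) (nat_lit 756) (nat_lit 0) (XT.nd (nat_lit 94) (nat_lit 420) (nat_lit 0) (XT.lf (nat_lit 0) (nat_lit 29766423383) (nat_lit 420) (nat_lit 13744730434) (nat_lit 504) (nat_lit 9548900770) (nat_lit 90) (nat_lit 5) (nat_lit 95) (nat_lit 5) (nat_lit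 96) (nat_lit 5) (nat_lit 419) (nat_lit 378) (nat_lit 148)) (XT.nd (nat_lit 94) (nat_lit 84) (nat_lit 0) (XT.lf (nat_lit 0) (nat_lit 634418070) (nat_lit 336) (nat_lit 50349424159) (nat_lit 420) (nat_lit 3108858013) (nat_lit 86) (nat_lit 5) (nat_lit 90) (nat_lit 5) (nat_lit 91) (nat_lit 5) (nat_lit 420) (nat_lit 378) (nat_lit 147)) (XT.lf (nat_lit 0) (nat_lit 3828022422) (nat_lit 420) (nat_lit 29565321105) (nat_lit 84) (nat_lit 21750794780) (nat_lit 85) (nat_lit 5) (nat_lit 90) (nat_lit 5) (nat_lit 86) (nat_lit 5) (nat_lit 421) (nat_lit 378) (nat_lit 146)))) (XT.nd (nat_lit 188) (nat_lit 336) (nat_lit 0) (XT.nd (nat_lit 94) (nat_lit 420) (nat_lit 0) (XT.lf (nat_lit 0) (nat_lit 10909334507) (nat_lit 420) (nat_lit 4987870387) (nat_lit 84) (nat_lit 40329028535) (nat_lit 85) (nat_lit 5) (nat_lit 90) (nat_lit 5) (nat_lit 86) (nat_lit 5) (nat_lit 422) (nat_lit 378) (nat_lit 145)) (XT.lf (nat_lit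 0) (nat_lit 18423585060) (nat_lit 504) (nat_lit 36627289345) (nat_lit 84) (nat_lit 2283303623) (nat_lit 80) (nat_lit 5) (nat_lit 86) (nat_lit 5) (nat_lit 81) (nat_lit 5) (nat_lit 423) (nat_lit 378) (nat_lit 144))) (XT.nd (nat_lit 94) (nat_lit 336) (nat_lit 0) (XT.lf (nat_lit 0) (nat_lit 26370388953) (nat_lit 504) (nat_lit 11358501942) (nat_lit 84) (nat_lit 20740257844) (nat_lit 80) (nat_lit 5) (nat_lit 86) (nat_lit 5) (nat_lit 81) (nat_lit 5) (nat_lit 424) (nat_lit 378) (nat_lit 143)) (XT.lf (nat_lit 0) (nat_lit 14958800390) (nat_lit 336) (nat_lit 19739484231) (nat_lit 420) (nat_lit 24935604826) (nat_lit 76) (nat_lit 5) (nat_lit 80) (nat_lit 5) (nat_lit 81) (nat_lit 5) (nat_lit 425) (nat_lit 378) (nat_lit 142))))) (XT.nd (nat_lit 282) (nat_lit 756) (nat_lit 0) (XT.nd (nat_lit 94) (nat_lit 336) (nat_lit 0) (XT.lf (nat_lit 0) (nat_lit 42297025385) (nat_lit 336) (nat_lit 1092603302) (nat_lit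 420) (nat_lit 17440536805) (nat_lit 76) (nat_lit 5) (nat_lit 80) (nat_lit 5) (nat_lit 81) (nat_lit 5) (nat_lit 426) (nat_lit 378) (nat_lit 141)) (XT.nd (nat_lit 94) (nat_lit 0) (nat_lit 0) (XT.lf (nat_lit 0) (nat_lit 8381069739) (nat_lit 336) (nat_lit 44214268463) (nat_lit 420) (nat_lit 9459384280) (nat_lit 72) (nat_lit 5) (nat_lit 76) (nat_lit 5) (nat_lit 77) (nat_lit 5) (nat_lit 427) (nat_lit 378) (nat_lit 140)) (XT.lf (nat_lit 0) (nat_lit 36470175263) (nat_lit 336) (nat_lit 25803862553) (nat_lit 420) (nat_lit 1036075179) (nat_lit 72) (nat_lit 5) (nat_lit 76) (nat_lit 5) (nat_lit 77) (nat_lit 5) (nat_lit 428) (nat_lit 378) (nat_lit 139)))) (XT.nd (nat_lit 188) (nat_lit 336) (nat_lit 0) (XT.nd (nat_lit 94) (nat_lit 0) (nat_lit 0) (XT.lf (nat_lit 0) (nat_lit 738367951) (nat_lit 336) (nat_lit 6758557924) (nat_lit 420) (nat_lit 57103855196) (nat_lit 67) (nat_lit 5) (nat_lit 71) (nat_lit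 5) (nat_lit 72) (nat_lit 5) (nat_lit 429) (nat_lit 378) (nat_lit 138)) (XT.lf (nat_lit 0) (nat_lit 16661397720) (nat_lit 420) (nat_lit 36365768217) (nat_lit 84) (nat_lit 12890807621) (nat_lit 67) (nat_lit 5) (nat_lit 72) (nat_lit 5) (nat_lit 68) (nat_lit 5) (nat_lit 430) (nat_lit 378) (nat_lit 137))) (XT.nd (nat_lit 94) (nat_lit 336) (nat_lit 0) (XT.lf (nat_lit 0) (nat_lit 26166740182) (nat_lit 420) (nat_lit 8112503046) (nat_lit 84) (nat_lit 32993461721) (nat_lit 67) (nat_lit 5) (nat_lit 72) (nat_lit 5) (nat_lit 68) (nat_lit 5) (nat_lit 431) (nat_lit 378) (nat_lit 136)) (XT.lf (nat_lit 0) (nat_lit 21404720295) (nat_lit 336) (nat_lit 14757326478) (nat_lit 420) (nat_lit 32499888582) (nat_lit 63) (nat_lit 5) (nat_lit 67) (nat_lit 5) (nat_lit 68) (nat_lit 5) (nat_lit 432) (nat_lit 378) (nat_lit 135))))))) (XT.nd (nat_lit 1316) (nat_lit 924) (nat_lit 0) (XT.nd (nat_lit 658) (nat_lit 840) (nat_lit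 0) (XT.nd (nat_lit 282) (nat_lit 672) (nat_lit 0) (XT.nd (nat_lit 94) (nat_lit 252) (nat_lit 0) (XT.lf (nat_lit 0) (nat_lit 46590433998) (nat_lit 420) (nat_lit 18170202967) (nat_lit 84) (nat_lit 5328210217) (nat_lit 63) (nat_lit 5) (nat_lit 68) (nat_lit 5) (nat_lit 64) (nat_lit 5) (nat_lit 433) (nat_lit 378) (nat_lit 134)) (XT.nd (nat_lit 94) (nat_lit 0) (nat_lit 0) (XT.lf (nat_lit 0) (nat_lit 11873709432) (nat_lit 252) (nat_lit 45717300401) (nat_lit 336) (nat_lit 13959777542) (nat_lit 60) (nat_lit 5) (nat_lit 63) (nat_lit 5) (nat_lit 64) (nat_lit 5) (nat_lit 434) (nat_lit 378) (nat_lit 133)) (XT.lf (nat_lit 0) (nat_lit 43190126512) (nat_lit 252) (nat_lit 25914061578) (nat_lit 336) (nat_lit 3946921215) (nat_lit 60) (nat_lit 5) (nat_lit 63) (nat_lit 5) (nat_lit 64) (nat_lit 5) (nat_lit 435) (nat_lit 378) (nat_lit 132)))) (XT.nd (nat_lit 188) (nat_lit 252) (nat_lit 0) (XT.nd (nat_lit 94)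 (nat_lit 0) (nat_lit 0) (XT.lf (nat_lit 0) (nat_lit 802798518) (nat_lit 336) (nat_lit 5446127643) (nat_lit 420) (nat_lit 68345474793) (nat_lit 55) (nat_lit 5) (nat_lit 59) (nat_lit 5) (nat_lit 60) (nat_lit 5) (nat_lit 436) (nat_lit 378) (nat_lit 131)) (XT.lf (nat_lit 0) (nat_lit 17125272107) (nat_lit 420) (nat_lit 43369972486) (nat_lit 84) (nat_lit 15673956829) (nat_lit 55) (nat_lit 5) (nat_lit 60) (nat_lit 5) (nat_lit 56) (nat_lit 5) (nat_lit 437) (nat_lit 378) (nat_lit 130))) (XT.nd (nat_lit 94) (nat_lit 252) (nat_lit 0) (XT.lf (nat_lit 0) (nat_lit 28380984043) (nat_lit 420) (nat_lit 12090854673) (nat_lit 84) (nat_lit 37317815887) (nat_lit 55) (nat_lit 5) (nat_lit 60) (nat_lit 5) (nat_lit 56) (nat_lit 5) (nat_lit 438) (nat_lit 378) (nat_lit 129)) (XT.lf (nat_lit 0) (nat_lit 20525969374) (nat_lit 252) (nat_lit 19644884345) (nat_lit 336) (nat_lit 39281974004) (nat_lit 52) (nat_lit 5) (nat_lit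 55) (nat_lit 5) (nat_lit 56) (nat_lit 5) (nat_lit 439) (nat_lit 378) (nat_lit 128))))) (XT.nd (nat_lit 282) (nat_lit 588) (nat_lit 0) (XT.nd (nat_lit 94) (nat_lit 252) (nat_lit 0) (XT.lf (nat_lit 0) (nat_lit 52454278111) (nat_lit 336) (nat_lit 26812874705) (nat_lit 84) (nat_lit 1894548375) (nat_lit 52) (nat_lit 5) (nat_lit 56) (nat_lit 5) (nat_lit 53) (nat_lit 5) (nat_lit 440) (nat_lit 378) (nat_lit 127)) (XT.nd (nat_lit 94) (nat_lit 0) (nat_lit 0) (XT.lf (nat_lit 0) (nat_lit 6189629304) (nat_lit 252) (nat_lit 59169788942) (nat_lit 336) (nat_lit 17554827110) (nat_lit 49) (nat_lit 5) (nat_lit 52) (nat_lit 5) (nat_lit 53) (nat_lit 5) (nat_lit 441) (nat_lit 378) (nat_lit 126)) (XT.lf (nat_lit 0) (nat_lit 40730680320) (nat_lit 252) (nat_lit 38191012212) (nat_lit 336) (nat_lit 5789574772) (nat_lit 49) (nat_lit 5) (nat_lit 52) (nat_lit 5) (nat_lit 53) (nat_lit 5) (nat_lit 442) (nat_lit 378)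 (nat_lit 125)))) (XT.nd (nat_lit 188) (nat_lit 252) (nat_lit 0) (XT.nd (nat_lit 94) (nat_lit 252) (nat_lit 0) (XT.lf (nat_lit 0) (nat_lit 6204377511) (nat_lit 336) (nat_lit 10316219560) (nat_lit 84) (nat_lit 70039801503) (nat_lit 48) (nat_lit 5) (nat_lit 52) (nat_lit 5) (nat_lit 49) (nat_lit 5) (nat_lit 443) (nat_lit 378) (nat_lit 124)) (XT.lf (nat_lit 0) (nat_lit 18737949668) (nat_lit 336) (nat_lit 63731582821) (nat_lit 84) (nat_lit 5984867421) (nat_lit 45) (nat_lit 5) (nat_lit 49) (nat_lit 5) (nat_lit 46) (nat_lit 5) (nat_lit 444) (nat_lit 378) (nat_lit 123))) (XT.nd (nat_lit 94) (nat_lit 252) (nat_lit 0) (XT.lf (nat_lit 0) (nat_lit 31915570723) (nat_lit 336) (nat_lit 29543323059) (nat_lit 84) (nat_lit 28938287016) (nat_lit 45) (nat_lit 5) (nat_lit 49) (nat_lit 5) (nat_lit 46) (nat_lit 5) (nat_lit 445) (nat_lit 378) (nat_lit 122)) (XT.lf (nat_lit 0) (nat_lit 5782328734) (nat_lit 252)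 (nat_lit 39761062775) (nat_lit 336) (nat_lit 46853208210) (nat_lit 42) (nat_lit 5) (nat_lit 45) (nat_lit 5) (nat_lit 46) (nat_lit 5) (nat_lit 446) (nat_lit 378) (nat_lit 121)))))) (XT.nd (nat_lit 658) (nat_lit 420) (nat_lit 0) (XT.nd (nat_lit 282) (nat_lit 336) (nat_lit 0) (XT.nd (nat_lit 94) (nat_lit 168) (nat_lit 0) (XT.lf (nat_lit 0) (nat_lit 42772280104) (nat_lit 252) (nat_lit 17105394639) (nat_lit 336) (nat_lit 34569398348) (nat_lit 42) (nat_lit 5) (nat_lit 45) (nat_lit 5) (nat_lit 46) (nat_lit 5) (nat_lit 447) (nat_lit 378) (nat_lit 120)) (XT.nd (nat_lit 94) (nat_lit 168) (nat_lit 0) (XT.lf (nat_lit 0) (nat_lit 74701187610) (nat_lit 336) (nat_lit 15748082002) (nat_lit 84) (nat_lit 6108015715) (nat_lit 42) (nat_lit 5) (nat_lit 46) (nat_lit 5) (nat_lit 43) (nat_lit 5) (nat_lit 448) (nat_lit 378) (nat_lit 119)) (XT.lf (nat_lit 0) (nat_lit 21505689129) (nat_lit 168) (nat_lit 68839137973)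 (nat_lit 252) (nat_lit 8374714870) (nat_lit 40) (nat_lit 5) (nat_lit 42) (nat_lit 5) (nat_lit 43) (nat_lit 5) (nat_lit 449) (nat_lit 378) (nat_lit 118)))) (XT.nd (nat_lit 188) (nat_lit 252) (nat_lit 0) (XT.nd (nat_lit 94) (nat_lit 0) (nat_lit 0) (XT.lf (nat_lit 0) (nat_lit 5563504565) (nat_lit 252) (nat_lit 40797590573) (nat_lit 84) (nat_lit 54579184431) (nat_lit 39) (nat_lit 5) (nat_lit 42) (nat_lit 5) (nat_lit 40) (nat_lit 5) (nat_lit 450) (nat_lit 378) (nat_lit 117)) (XT.lf (nat_lit 0) (nat_lit 19750903849) (nat_lit 252) (nat_lit 3372766151) (nat_lit 84) (nat_lit 80101501672) (nat_lit 39) (nat_lit 5) (nat_lit 42) (nat_lit 5) (nat_lit 40) (nat_lit 5) (nat_lit 451) (nat_lit 378) (nat_lit 116))) (XT.nd (nat_lit 94) (nat_lit 0) (nat_lit 0) (XT.lf (nat_lit 0) (nat_lit 34719347532) (nat_lit 336) (nat_lit 69705637471) (nat_lit 84) (nat_lit 1142963464) (nat_lit 36) (nat_lit 5) (nat_lit 40)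 (nat_lit 5) (nat_lit 37) (nat_lit 5) (nat_lit 452) (nat_lit 378) (nat_lit 115)) (XT.lf (nat_lit 0) (nat_lit 50399568250) (nat_lit 336) (nat_lit 31866676859) (nat_lit 84) (nat_lit 25706882330) (nat_lit 36) (nat_lit 5) (nat_lit 40) (nat_lit 5) (nat_lit 37) (nat_lit 5) (nat_lit 453) (nat_lit 378) (nat_lit 114))))) (XT.nd (nat_lit 282) (nat_lit 252) (nat_lit 0) (XT.nd (nat_lit 94) (nat_lit 0) (nat_lit 0) (XT.lf (nat_lit 0) (nat_lit 7247930004) (nat_lit 168) (nat_lit 59371336114) (nat_lit 252) (nat_lit 43829124114) (nat_lit 34) (nat_lit 5) (nat_lit 36) (nat_lit 5) (nat_lit 37) (nat_lit 5) (nat_lit 454) (nat_lit 378) (nat_lit 113)) (XT.nd (nat_lit 94) (nat_lit 0) (nat_lit 0) (XT.lf (nat_lit 0) (nat_lit 48188264290) (nat_lit 168) (nat_lit 35458488984) (nat_lit 252) (nat_lit 29341522235) (nat_lit 34) (nat_lit 5) (nat_lit 36) (nat_lit 5) (nat_lit 37) (nat_lit 5) (nat_lit 455) (nat_lit 378) (nat_lit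 112)) (XT.lf (nat_lit 0) (nat_lit 90355889752) (nat_lit 168) (nat_lit 10828599950) (nat_lit 252) (nat_lit 14419885436) (nat_lit 34) (nat_lit 5) (nat_lit 36) (nat_lit 5) (nat_lit 37) (nat_lit 5) (nat_lit 456) (nat_lit 378) (nat_lit 111)))) (XT.nd (nat_lit 52076) (nat_lit 0) (nat_lit 12180) (XT.nd (nat_lit 51982) (nat_lit 0) (nat_lit 12180) (XT.lf (nat_lit 0) (nat_lit 1223428811) (nat_lit 252) (nat_lit 102647877747) (nat_lit 84) (nat_lit 14418601279) (nat_lit 31) (nat_lit 5) (nat_lit 34) (nat_lit 5) (nat_lit 32) (nat_lit 5) (nat_lit 457) (nat_lit 378) (nat_lit 110)) (XT.lf (nat_lit 0) (nat_lit 13342097804) (nat_lit 1260) (nat_lit 146783448) (nat_lit 1260) (nat_lit 146783448) (nat_lit 176) (nat_lit 3) (nat_lit 191) (nat_lit 3) (nat_lit 191) (nat_lit 5) (nat_lit 379) (nat_lit 379) (nat_lit 187))) (XT.nd (nat_lit 94) (nat_lit 0) (nat_lit 0) (XT.lf (nat_lit 84) (nat_lit 11723236423) (nat_lit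 0) (nat_lit 15554859701) (nat_lit 1260) (nat_lit 396339415) (nat_lit 177) (nat_lit 5) (nat_lit 176) (nat_lit 3) (nat_lit 191) (nat_lit 5) (nat_lit 380) (nat_lit 379) (nat_lit 186)) (XT.lf (nat_lit 84) (nat_lit 24104899271) (nat_lit 0) (nat_lit 3784703734) (nat_lit 1260) (nat_lit 200044214) (nat_lit 177) (nat_lit 5) (nat_lit 176) (nat_lit 3) (nat_lit 191) (nat_lit 5) (nat_lit 381) (nat_lit 379) (nat_lit 185))))))))
noncomputable def xc208 : XT := (XT.nd (nat_lit 2538) (nat_lit 4872) (nat_lit 0) (XT.nd (nat_lit 1222) (nat_lit 3696) (nat_lit 0) (XT.nd (nat_lit 564) (nat_lit 0) (nat_lit 168) (XT.nd (nat_lit 282) (nat_lit 0) (nat_lit 84) (XT.nd (nat_lit 94) (nat_lit 0) (nat_lit 0) (XT.lf (nat_lit 0) (nat_lit 161712825) (nat_lit 1260) (nat_lit 20090983249) (nat_lit 1344) (nat_lit 8259835805) (nat_lit 162) (nat_lit 5) (nat_lit 177) (nat_lit 5) (nat_lit 178) (nat_lit 5) (nat_lit 382) (nat_lit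 379) (nat_lit 184)) (XT.nd (nat_lit 94) (nat_lit 0) (nat_lit 84) (XT.lf (nat_lit 0) (nat_lit 605379936) (nat_lit 1260) (nat_lit 7706805108) (nat_lit 1344) (nat_lit 20633611799) (nat_lit 162) (nat_lit 5) (nat_lit 177) (nat_lit 5) (nat_lit 178) (nat_lit 5) (nat_lit 383) (nat_lit 379) (nat_lit 183)) (XT.lf (nat_lit 0) (nat_lit 1147719351) (nat_lit 1260) (nat_lit 24281868246) (nat_lit 1344) (nat_lit 3959916654) (nat_lit 163) (nat_lit 5) (nat_lit 178) (nat_lit 5) (nat_lit 179) (nat_lit 5) (nat_lit 384) (nat_lit 379) (nat_lit 182)))) (XT.nd (nat_lit 94) (nat_lit 0) (nat_lit 0) (XT.lf (nat_lit 0) (nat_lit 1864359945) (nat_lit 1260) (nat_lit 11464574633) (nat_lit 1344) (nat_lit 16512852580) (nat_lit 163) (nat_lit 5) (nat_lit 178) (nat_lit 5) (nat_lit 179) (nat_lit 5) (nat_lit 385) (nat_lit 379) (nat_lit 181)) (XT.nd (nat_lit 94) (nat_lit 0) (nat_lit 84) (XT.lf (nat_lit 84) (nat_lit 1770020597)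 (nat_lit 0) (nat_lit 846715025) (nat_lit 1344) (nat_lit 27690480910) (nat_lit 164) (nat_lit 5) (nat_lit 163) (nat_lit 5) (nat_lit 179) (nat_lit 5) (nat_lit 386) (nat_lit 379) (nat_lit 180)) (XT.lf (nat_lit 0) (nat_lit 3621340645) (nat_lit 1260) (nat_lit 15264898056) (nat_lit 1344) (nat_lit 11893485252) (nat_lit 164) (nat_lit 5) (nat_lit 179) (nat_lit 5) (nat_lit 180) (nat_lit 5) (nat_lit 387) (nat_lit 379) (nat_lit 179))))) (XT.nd (nat_lit 282) (nat_lit 0) (nat_lit 168) (XT.nd (nat_lit 94) (nat_lit 0) (nat_lit 84) (XT.lf (nat_lit 0) (nat_lit 4661840851) (nat_lit 1260) (nat_lit 1604596266) (nat_lit 1344) (nat_lit 24999801533) (nat_lit 164) (nat_lit 5) (nat_lit 179) (nat_lit 5) (nat_lit 180) (nat_lit 5) (nat_lit 388) (nat_lit 379) (nat_lit 178)) (XT.nd (nat_lit 94) (nat_lit 0) (nat_lit 0) (XT.lf (nat_lit 0) (nat_lit 5919129669) (nat_lit 1260) (nat_lit 19117855001) (nat_lit 1344) (nat_lit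 6724801538) (nat_lit 165) (nat_lit 5) (nat_lit 180) (nat_lit 5) (nat_lit 181) (nat_lit 5) (nat_lit 389) (nat_lit 379) (nat_lit 177)) (XT.lf (nat_lit 0) (nat_lit 7290060287) (nat_lit 1260) (nat_lit 4982910894) (nat_lit 1344) (nat_lit 19996955808) (nat_lit 165) (nat_lit 5) (nat_lit 180) (nat_lit 5) (nat_lit 181) (nat_lit 5) (nat_lit 390) (nat_lit 379) (nat_lit 176)))) (XT.nd (nat_lit 188) (nat_lit 0) (nat_lit 0) (XT.nd (nat_lit 94) (nat_lit 0) (nat_lit 0) (XT.lf (nat_lit 0) (nat_lit 8802909533) (nat_lit 1260) (nat_lit 23035027181) (nat_lit 1344) (nat_lit 952355919) (nat_lit 166) (nat_lit 5) (nat_lit 181) (nat_lit 5) (nat_lit 182) (nat_lit 5) (nat_lit 391) (nat_lit 379) (nat_lit 175)) (XT.lf (nat_lit 0) (nat_lit 10531122178) (nat_lit 1260) (nat_lit 8410851683) (nat_lit 1344) (nat_lit 14379200283) (nat_lit 166) (nat_lit 5) (nat_lit 181) (nat_lit 5) (nat_lit 182) (nat_lit 5) (nat_lit 392) (nat_lit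 379) (nat_lit 174))) (XT.nd (nat_lit 94) (nat_lit 0) (nat_lit 84) (XT.lf (nat_lit 84) (nat_lit 6782644573) (nat_lit 0) (nat_lit 5591451607) (nat_lit 1344) (nat_lit 21492002581) (nat_lit 167) (nat_lit 5) (nat_lit 166) (nat_lit 5) (nat_lit 182) (nat_lit 5) (nat_lit 393) (nat_lit 379) (nat_lit 173)) (XT.lf (nat_lit 0) (nat_lit 14434338946) (nat_lit 1260) (nat_lit 11901555898) (nat_lit 1344) (nat_lit 8086620876) (nat_lit 167) (nat_lit 5) (nat_lit 182) (nat_lit 5) (nat_lit 183) (nat_lit 5) (nat_lit 394) (nat_lit 379) (nat_lit 172)))))) (XT.nd (nat_lit 658) (nat_lit 2352) (nat_lit 0) (XT.nd (nat_lit 282) (nat_lit 588) (nat_lit 0) (XT.nd (nat_lit 94) (nat_lit 1176) (nat_lit 0) (XT.lf (nat_lit 84) (nat_lit 3751887337) (nat_lit 0) (nat_lit 12893763511) (nat_lit 1344) (nat_lit 18347300360) (nat_lit 168) (nat_lit 5) (nat_lit 167) (nat_lit 5) (nat_lit 183) (nat_lit 5) (nat_lit 395) (nat_lit 379) (nat_lit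 171)) (XT.nd (nat_lit 94) (nat_lit 1260) (nat_lit 0) (XT.lf (nat_lit 0) (nat_lit 19051707413) (nat_lit 1260) (nat_lit 15470145302) (nat_lit 84) (nat_lit 1054798648) (nat_lit 168) (nat_lit 5) (nat_lit 183) (nat_lit 5) (nat_lit 169) (nat_lit 5) (nat_lit 396) (nat_lit 379) (nat_lit 170)) (XT.lf (nat_lit 0) (nat_lit 657301538) (nat_lit 1260) (nat_lit 21004570473) (nat_lit 1344) (nat_lit 14512036373) (nat_lit 153) (nat_lit 5) (nat_lit 168) (nat_lit 5) (nat_lit 169) (nat_lit 5) (nat_lit 397) (nat_lit 379) (nat_lit 169)))) (XT.nd (nat_lit 188) (nat_lit 588) (nat_lit 0) (XT.nd (nat_lit 94) (nat_lit 0) (nat_lit 0) (XT.lf (nat_lit 0) (nat_lit 17583947315) (nat_lit 1260) (nat_lit 6920602297) (nat_lit 1344) (nat_lit 12279910807) (nat_lit 153) (nat_lit 5) (nat_lit 168) (nat_lit 5) (nat_lit 169) (nat_lit 5) (nat_lit 398) (nat_lit 379) (nat_lit 168)) (XT.lf (nat_lit 0) (nat_lit 27503478637) (nat_lit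 1344) (nat_lit 2469617549) (nat_lit 84) (nat_lit 7438107140) (nat_lit 153) (nat_lit 5) (nat_lit 169) (nat_lit 5) (nat_lit 154) (nat_lit 5) (nat_lit 399) (nat_lit 379) (nat_lit 167))) (XT.nd (nat_lit 94) (nat_lit 0) (nat_lit 0) (XT.lf (nat_lit 0) (nat_lit 14985393516) (nat_lit 588) (nat_lit 15817659298) (nat_lit 672) (nat_lit 7247378730) (nat_lit 146) (nat_lit 5) (nat_lit 153) (nat_lit 5) (nat_lit 154) (nat_lit 5) (nat_lit 400) (nat_lit 379) (nat_lit 166)) (XT.lf (nat_lit 0) (nat_lit 33012986869) (nat_lit 588) (nat_lit 1211712184) (nat_lit 672) (nat_lit 4483448255) (nat_lit 146) (nat_lit 5) (nat_lit 153) (nat_lit 5) (nat_lit 154) (nat_lit 5) (nat_lit 401) (nat_lit 379) (nat_lit 165))))) (XT.nd (nat_lit 282) (nat_lit 1092) (nat_lit 0) (XT.nd (nat_lit 94) (nat_lit 672) (nat_lit 0) (XT.lf (nat_lit 0) (nat_lit 12301186193) (nat_lit 588) (nat_lit 25697222658) (nat_lit 672) (nat_lit 1379706420)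 (nat_lit 139) (nat_lit 5) (nat_lit 146) (nat_lit 5) (nat_lit 147) (nat_lit 5) (nat_lit 402) (nat_lit 379) (nat_lit 164)) (XT.nd (nat_lit 94) (nat_lit 588) (nat_lit 0) (XT.lf (nat_lit 0) (nat_lit 1849982831) (nat_lit 672) (nat_lit 9144046500) (nat_lit 84) (nat_lit 29071583056) (nat_lit 138) (nat_lit 5) (nat_lit 146) (nat_lit 5) (nat_lit 139) (nat_lit 5) (nat_lit 403) (nat_lit 379) (nat_lit 163)) (XT.lf (nat_lit 0) (nat_lit 5279325275) (nat_lit 672) (nat_lit 31314769895) (nat_lit 84) (nat_lit 4175317520) (nat_lit 131) (nat_lit 5) (nat_lit 139) (nat_lit 5) (nat_lit 132) (nat_lit 5) (nat_lit 404) (nat_lit 379) (nat_lit 162)))) (XT.nd (nat_lit 188) (nat_lit 504) (nat_lit 0) (XT.nd (nat_lit 94) (nat_lit 588) (nat_lit 0) (XT.lf (nat_lit 0) (nat_lit 9011955434) (nat_lit 672) (nat_lit 12804297431) (nat_lit 84) (nat_lit 19672064712) (nat_lit 131) (nat_lit 5) (nat_lit 139) (nat_lit 5) (nat_lit 132)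 (nat_lit 5) (nat_lit 405) (nat_lit 379) (nat_lit 161)) (XT.lf (nat_lit 0) (nat_lit 6384410601) (nat_lit 588) (nat_lit 6531878638) (nat_lit 672) (nat_lit 29310711347) (nat_lit 124) (nat_lit 5) (nat_lit 131) (nat_lit 5) (nat_lit 132) (nat_lit 5) (nat_lit 406) (nat_lit 379) (nat_lit 160))) (XT.nd (nat_lit 94) (nat_lit 504) (nat_lit 0) (XT.lf (nat_lit 0) (nat_lit 17155259276) (nat_lit 672) (nat_lit 16664227845) (nat_lit 84) (nat_lit 9161834417) (nat_lit 124) (nat_lit 5) (nat_lit 132) (nat_lit 5) (nat_lit 125) (nat_lit 5) (nat_lit 407) (nat_lit 379) (nat_lit 159)) (XT.lf (nat_lit 0) (nat_lit 3083333512) (nat_lit 504) (nat_lit 18530808587) (nat_lit 588) (nat_lit 22141350270) (nat_lit 118) (nat_lit 5) (nat_lit 124) (nat_lit 5) (nat_lit 125) (nat_lit 5) (nat_lit 408) (nat_lit 379) (nat_lit 158))))))) (XT.nd (nat_lit 1316) (nat_lit 2100) (nat_lit 0) (XT.nd (nat_lit 658) (nat_lit 1260) (nat_lit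 0) (XT.nd (nat_lit 282) (nat_lit 1008) (nat_lit 0) (XT.nd (nat_lit 94) (nat_lit 504) (nat_lit 0) (XT.lf (nat_lit 0) (nat_lit 23763291660) (nat_lit 504) (nat_lit 2610238479) (nat_lit 588) (nat_lit 18174358510) (nat_lit 118) (nat_lit 5) (nat_lit 124) (nat_lit 5) (nat_lit 125) (nat_lit 5) (nat_lit 409) (nat_lit 379) (nat_lit 157)) (XT.nd (nat_lit 94) (nat_lit 504) (nat_lit 0) (XT.lf (nat_lit 0) (nat_lit 31406744635) (nat_lit 588) (nat_lit 434575681) (nat_lit 84) (nat_lit 13518807573) (nat_lit 118) (nat_lit 5) (nat_lit 125) (nat_lit 5) (nat_lit 119) (nat_lit 5) (nat_lit 410) (nat_lit 379) (nat_lit 156)) (XT.lf (nat_lit 0) (nat_lit 20906481309) (nat_lit 504) (nat_lit 15909834199) (nat_lit 588) (nat_lit 9373660343) (nat_lit 112) (nat_lit 5) (nat_lit 118) (nat_lit 5) (nat_lit 119) (nat_lit 5) (nat_lit 411) (nat_lit 379) (nat_lit 155)))) (XT.nd (nat_lit 188) (nat_lit 504) (nat_lit 0) (XT.nd (nat_lit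 94) (nat_lit 504) (nat_lit 0) (XT.lf (nat_lit 0) (nat_lit 42395983653) (nat_lit 588) (nat_lit 4154364927) (nat_lit 84) (nat_lit 494138644) (nat_lit 112) (nat_lit 5) (nat_lit 119) (nat_lit 5) (nat_lit 113) (nat_lit 5) (nat_lit 412) (nat_lit 379) (nat_lit 154)) (XT.lf (nat_lit 0) (nat_lit 544598097) (nat_lit 504) (nat_lit 30123326080) (nat_lit 84) (nat_lit 17246735359) (nat_lit 106) (nat_lit 5) (nat_lit 112) (nat_lit 5) (nat_lit 107) (nat_lit 5) (nat_lit 413) (nat_lit 379) (nat_lit 153))) (XT.nd (nat_lit 94) (nat_lit 504) (nat_lit 0) (XT.lf (nat_lit 0) (nat_lit 5841056029) (nat_lit 504) (nat_lit 8377132459) (nat_lit 84) (nat_lit 34590140061) (nat_lit 106) (nat_lit 5) (nat_lit 112) (nat_lit 5) (nat_lit 107) (nat_lit 5) (nat_lit 414) (nat_lit 379) (nat_lit 152)) (XT.lf (nat_lit 0) (nat_lit 11460078806) (nat_lit 588) (nat_lit 35453340174) (nat_lit 84) (nat_lit 2810480543) (nat_lit 100) (nat_lit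 5) (nat_lit 107) (nat_lit 5) (nat_lit 101) (nat_lit 5) (nat_lit 415) (nat_lit 379) (nat_lit 151))))) (XT.nd (nat_lit 282) (nat_lit 840) (nat_lit 0) (XT.nd (nat_lit 94) (nat_lit 420) (nat_lit 0) (XT.lf (nat_lit 0) (nat_lit 17472566041) (nat_lit 588) (nat_lit 13038161934) (nat_lit 84) (nat_lit 20149464801) (nat_lit 100) (nat_lit 5) (nat_lit 107) (nat_lit 5) (nat_lit 101) (nat_lit 5) (nat_lit 416) (nat_lit 379) (nat_lit 150)) (XT.nd (nat_lit 94) (nat_lit 0) (nat_lit 0) (XT.lf (nat_lit 0) (nat_lit 10247935785) (nat_lit 420) (nat_lit 13514729177) (nat_lit 504) (nat_lit 27858994658) (nat_lit 95) (nat_lit 5) (nat_lit 100) (nat_lit 5) (nat_lit 101) (nat_lit 5) (nat_lit 417) (nat_lit 379) (nat_lit 149)) (XT.lf (nat_lit 0) (nat_lit 30411543623) (nat_lit 504) (nat_lit 18149335818) (nat_lit 84) (nat_lit 4045990576) (nat_lit 95) (nat_lit 5) (nat_lit 101) (nat_lit 5) (nat_lit 96) (nat_lit 5) (nat_lit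 418) (nat_lit 379) (nat_lit 148)))) (XT.nd (nat_lit 188) (nat_lit 420) (nat_lit 0) (XT.nd (nat_lit 94) (nat_lit 0) (nat_lit 0) (XT.lf (nat_lit 0) (nat_lit 5748664227) (nat_lit 420) (nat_lit 31699077726) (nat_lit 504) (nat_lit 16168260970) (nat_lit 90) (nat_lit 5) (nat_lit 95) (nat_lit 5) (nat_lit 96) (nat_lit 5) (nat_lit 419) (nat_lit 379) (nat_lit 147)) (XT.lf (nat_lit 0) (nat_lit 30734174893) (nat_lit 420) (nat_lit 14142929725) (nat_lit 504) (nat_lit 9772844591) (nat_lit 90) (nat_lit 5) (nat_lit 95) (nat_lit 5) (nat_lit 96) (nat_lit 5) (nat_lit 420) (nat_lit 379) (nat_lit 146))) (XT.nd (nat_lit 94) (nat_lit 84) (nat_lit 0) (XT.lf (nat_lit 0) (nat_lit 729230196) (nat_lit 336) (nat_lit 51843838394) (nat_lit 420) (nat_lit 3140535375) (nat_lit 86) (nat_lit 5) (nat_lit 90) (nat_lit 5) (nat_lit 91) (nat_lit 5) (nat_lit 421) (nat_lit 379) (nat_lit 145)) (XT.lf (nat_lit 0) (nat_lit 4001490830)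 (nat_lit 420) (nat_lit 30377460503) (nat_lit 84) (nat_lit 22417671274) (nat_lit 85) (nat_lit 5) (nat_lit 90) (nat_lit 5) (nat_lit 86) (nat_lit 5) (nat_lit 422) (nat_lit 379) (nat_lit 144)))))) (XT.nd (nat_lit 658) (nat_lit 1008) (nat_lit 0) (XT.nd (nat_lit 282) (nat_lit 672) (nat_lit 0) (XT.nd (nat_lit 94) (nat_lit 420) (nat_lit 0) (XT.lf (nat_lit 0) (nat_lit 11293534673) (nat_lit 420) (nat_lit 5064865493) (nat_lit 84) (nat_lit 41552834004) (nat_lit 85) (nat_lit 5) (nat_lit 90) (nat_lit 5) (nat_lit 86) (nat_lit 5) (nat_lit 423) (nat_lit 379) (nat_lit 143)) (XT.nd (nat_lit 94) (nat_lit 0) (nat_lit 0) (XT.lf (nat_lit 0) (nat_lit 19032399862) (nat_lit 504) (nat_lit 37652577772) (nat_lit 84) (nat_lit 2367466150) (nat_lit 80) (nat_lit 5) (nat_lit 86) (nat_lit 5) (nat_lit 81) (nat_lit 5) (nat_lit 424) (nat_lit 379) (nat_lit 142)) (XT.lf (nat_lit 0) (nat_lit 27215973680) (nat_lit 504) (nat_lit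 11627868405) (nat_lit 84) (nat_lit 21377672782) (nat_lit 80) (nat_lit 5) (nat_lit 86) (nat_lit 5) (nat_lit 81) (nat_lit 5) (nat_lit 425) (nat_lit 379) (nat_lit 141)))) (XT.nd (nat_lit 188) (nat_lit 336) (nat_lit 0) (XT.nd (nat_lit 94) (nat_lit 0) (nat_lit 0) (XT.lf (nat_lit 0) (nat_lit 15478253109) (nat_lit 336) (nat_lit 20314546019) (nat_lit 420) (nat_lit 25628428041) (nat_lit 76) (nat_lit 5) (nat_lit 80) (nat_lit 5) (nat_lit 81) (nat_lit 5) (nat_lit 426) (nat_lit 379) (nat_lit 140)) (XT.lf (nat_lit 0) (nat_lit 43634565959) (nat_lit 336) (nat_lit 1108757382) (nat_lit 420) (nat_lit 17910117055) (nat_lit 76) (nat_lit 5) (nat_lit 80) (nat_lit 5) (nat_lit 81) (nat_lit 5) (nat_lit 427) (nat_lit 379) (nat_lit 139))) (XT.nd (nat_lit 94) (nat_lit 0) (nat_lit 0) (XT.lf (nat_lit 0) (nat_lit 8701914648) (nat_lit 336) (nat_lit 45522597146) (nat_lit 420) (nat_lit 9690245108) (nat_lit 72) (nat_lit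 5) (nat_lit 76) (nat_lit 5) (nat_lit 77) (nat_lit 5) (nat_lit 428) (nat_lit 379) (nat_lit 138)) (XT.lf (nat_lit 0) (nat_lit 37631671605) (nat_lit 336) (nat_lit 26560406225) (nat_lit 420) (nat_lit 1015778113) (nat_lit 72) (nat_lit 5) (nat_lit 76) (nat_lit 5) (nat_lit 77) (nat_lit 5) (nat_lit 429) (nat_lit 379) (nat_lit 137))))) (XT.nd (nat_lit 282) (nat_lit 588) (nat_lit 0) (XT.nd (nat_lit 94) (nat_lit 0) (nat_lit 0) (XT.lf (nat_lit 0) (nat_lit 828305472) (nat_lit 336) (nat_lit 6943089226) (nat_lit 420) (nat_lit 58765860880) (nat_lit 67) (nat_lit 5) (nat_lit 71) (nat_lit 5) (nat_lit 72) (nat_lit 5) (nat_lit 430) (nat_lit 379) (nat_lit 136)) (XT.nd (nat_lit 94) (nat_lit 0) (nat_lit 0) (XT.lf (nat_lit 0) (nat_lit 17209527264) (nat_lit 420) (nat_lit 37389595426) (nat_lit 84) (nat_lit 13294881162) (nat_lit 67) (nat_lit 5) (nat_lit 72) (nat_lit 5) (nat_lit 68) (nat_lit 5) (nat_lit 431) (nat_lit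 379) (nat_lit 135)) (XT.lf (nat_lit 0) (nat_lit 26998623565) (nat_lit 420) (nat_lit 8290688003) (nat_lit 84) (nat_lit 34000109566) (nat_lit 67) (nat_lit 5) (nat_lit 72) (nat_lit 5) (nat_lit 68) (nat_lit 5) (nat_lit 432) (nat_lit 379) (nat_lit 134)))) (XT.nd (nat_lit 188) (nat_lit 252) (nat_lit 0) (XT.nd (nat_lit 94) (nat_lit 0) (nat_lit 0) (XT.lf (nat_lit 0) (nat_lit 22111412919) (nat_lit 336) (nat_lit 15181631467) (nat_lit 420) (nat_lit 33427308119) (nat_lit 63) (nat_lit 5) (nat_lit 67) (nat_lit 5) (nat_lit 68) (nat_lit 5) (nat_lit 433) (nat_lit 379) (nat_lit 133)) (XT.lf (nat_lit 0) (nat_lit 48033111314) (nat_lit 420) (nat_lit 18651411085) (nat_lit 84) (nat_lit 5505586102) (nat_lit 63) (nat_lit 5) (nat_lit 68) (nat_lit 5) (nat_lit 64) (nat_lit 5) (nat_lit 434) (nat_lit 379) (nat_lit 132))) (XT.nd (nat_lit 94) (nat_lit 0) (nat_lit 0) (XT.lf (nat_lit 0) (nat_lit 12293192235) (nat_lit 252)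 (nat_lit 47069810753) (nat_lit 336) (nat_lit 14332926560) (nat_lit 60) (nat_lit 5) (nat_lit 63) (nat_lit 5) (nat_lit 64) (nat_lit 5) (nat_lit 435) (nat_lit 379) (nat_lit 131)) (XT.lf (nat_lit 0) (nat_lit 44547258969) (nat_lit 252) (nat_lit 26673028415) (nat_lit 336) (nat_lit 4021013989) (nat_lit 60) (nat_lit 5) (nat_lit 63) (nat_lit 5) (nat_lit 64) (nat_lit 5) (nat_lit 436) (nat_lit 379) (nat_lit 130))))))))
noncomputable def xc209 : XT := (XT.nd (nat_lit 54520) (nat_lit 0) (nat_lit 6552) (XT.nd (nat_lit 1222) (nat_lit 672) (nat_lit 0) (XT.nd (nat_lit 564) (nat_lit 588) (nat_lit 0) (XT.nd (nat_lit 282) (nat_lit 504) (nat_lit 0) (XT.nd (nat_lit 94) (nat_lit 0) (nat_lit 0) (XT.lf (nat_lit 0) (nat_lit 888615150) (nat_lit 336) (nat_lit 5590556790) (nat_lit 420) (nat_lit 70351728686) (nat_lit 55) (nat_lit 5) (nat_lit 59) (nat_lit 5) (nat_lit 60) (nat_lit 5) (nat_lit 437) (nat_lit 379) (nat_lit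 129)) (XT.nd (nat_lit 94) (nat_lit 0) (nat_lit 0) (XT.lf (nat_lit 0) (nat_lit 17680739201) (nat_lit 420) (nat_lit 44610020370) (nat_lit 84) (nat_lit 16162219037) (nat_lit 55) (nat_lit 5) (nat_lit 60) (nat_lit 5) (nat_lit 56) (nat_lit 5) (nat_lit 438) (nat_lit 379) (nat_lit 128)) (XT.lf (nat_lit 0) (nat_lit 29272907672) (nat_lit 420) (nat_lit 12394307215) (nat_lit 84) (nat_lit 38454868327) (nat_lit 55) (nat_lit 5) (nat_lit 60) (nat_lit 5) (nat_lit 56) (nat_lit 5) (nat_lit 439) (nat_lit 379) (nat_lit 127)))) (XT.nd (nat_lit 94) (nat_lit 252) (nat_lit 0) (XT.lf (nat_lit 0) (nat_lit 21200440444) (nat_lit 252) (nat_lit 20215417738) (nat_lit 336) (nat_lit 40419313151) (nat_lit 52) (nat_lit 5) (nat_lit 55) (nat_lit 5) (nat_lit 56) (nat_lit 5) (nat_lit 440) (nat_lit 379) (nat_lit 126)) (XT.nd (nat_lit 94) (nat_lit 252) (nat_lit 0) (XT.lf (nat_lit 0) (nat_lit 54066799361) (nat_lit 336) (nat_lit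 27559248938) (nat_lit 84) (nat_lit 1969293589) (nat_lit 52) (nat_lit 5) (nat_lit 56) (nat_lit 5) (nat_lit 53) (nat_lit 5) (nat_lit 441) (nat_lit 379) (nat_lit 125)) (XT.lf (nat_lit 0) (nat_lit 6432761446) (nat_lit 252) (nat_lit 60925751631) (nat_lit 336) (nat_lit 18041967988) (nat_lit 49) (nat_lit 5) (nat_lit 52) (nat_lit 5) (nat_lit 53) (nat_lit 5) (nat_lit 442) (nat_lit 379) (nat_lit 124))))) (XT.nd (nat_lit 282) (nat_lit 252) (nat_lit 0) (XT.nd (nat_lit 94) (nat_lit 336) (nat_lit 0) (XT.lf (nat_lit 0) (nat_lit 42008370887) (nat_lit 252) (nat_lit 39318168813) (nat_lit 336) (nat_lit 5924908681) (nat_lit 49) (nat_lit 5) (nat_lit 52) (nat_lit 5) (nat_lit 53) (nat_lit 5) (nat_lit 443) (nat_lit 379) (nat_lit 123)) (XT.nd (nat_lit 94) (nat_lit 252) (nat_lit 0) (XT.lf (nat_lit 0) (nat_lit 6427018470) (nat_lit 336) (nat_lit 10570795055) (nat_lit 84) (nat_lit 72158263023) (nat_lit 48) (nat_lit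 5) (nat_lit 52) (nat_lit 5) (nat_lit 49) (nat_lit 5) (nat_lit 444) (nat_lit 379) (nat_lit 122)) (XT.lf (nat_lit 0) (nat_lit 19336233977) (nat_lit 336) (nat_lit 65588217832) (nat_lit 84) (nat_lit 6182458156) (nat_lit 45) (nat_lit 5) (nat_lit 49) (nat_lit 5) (nat_lit 46) (nat_lit 5) (nat_lit 445) (nat_lit 379) (nat_lit 121)))) (XT.nd (nat_lit 188) (nat_lit 0) (nat_lit 0) (XT.nd (nat_lit 94) (nat_lit 252) (nat_lit 0) (XT.lf (nat_lit 0) (nat_lit 32908130873) (nat_lit 336) (nat_lit 30375921320) (nat_lit 84) (nat_lit 29823954764) (nat_lit 45) (nat_lit 5) (nat_lit 49) (nat_lit 5) (nat_lit 46) (nat_lit 5) (nat_lit 446) (nat_lit 379) (nat_lit 120)) (XT.lf (nat_lit 0) (nat_lit 6008973542) (nat_lit 252) (nat_lit 40935301763) (nat_lit 336) (nat_lit 48223149532) (nat_lit 42) (nat_lit 5) (nat_lit 45) (nat_lit 5) (nat_lit 46) (nat_lit 5) (nat_lit 447) (nat_lit 379) (nat_lit 119))) (XT.nd (nat_lit 94)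 (nat_lit 0) (nat_lit 0) (XT.lf (nat_lit 0) (nat_lit 44107074668) (nat_lit 252) (nat_lit 17600505124) (nat_lit 336) (nat_lit 35571863868) (nat_lit 42) (nat_lit 5) (nat_lit 45) (nat_lit 5) (nat_lit 46) (nat_lit 5) (nat_lit 448) (nat_lit 379) (nat_lit 118)) (XT.lf (nat_lit 0) (nat_lit 76974988605) (nat_lit 336) (nat_lit 16169559157) (nat_lit 84) (nat_lit 6308439786) (nat_lit 42) (nat_lit 5) (nat_lit 46) (nat_lit 5) (nat_lit 43) (nat_lit 5) (nat_lit 449) (nat_lit 379) (nat_lit 117)))))) (XT.nd (nat_lit 658) (nat_lit 0) (nat_lit 0) (XT.nd (nat_lit 282) (nat_lit 420) (nat_lit 0) (XT.nd (nat_lit 94) (nat_lit 84) (nat_lit 0) (XT.lf (nat_lit 0) (nat_lit 22201325449) (nat_lit 168) (nat_lit 70886142610) (nat_lit 252) (nat_lit 8592658883) (nat_lit 40) (nat_lit 5) (nat_lit 42) (nat_lit 5) (nat_lit 43) (nat_lit 5) (nat_lit 450) (nat_lit 379) (nat_lit 116)) (XT.nd (nat_lit 94) (nat_lit 0) (nat_lit 0)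 (XT.lf (nat_lit 0) (nat_lit 5762106479) (nat_lit 252) (nat_lit 41971861144) (nat_lit 84) (nat_lit 56233538884) (nat_lit 39) (nat_lit 5) (nat_lit 42) (nat_lit 5) (nat_lit 40) (nat_lit 5) (nat_lit 451) (nat_lit 379) (nat_lit 115)) (XT.lf (nat_lit 0) (nat_lit 20374204534) (nat_lit 252) (nat_lit 3425738314) (nat_lit 84) (nat_lit 82521031111) (nat_lit 39) (nat_lit 5) (nat_lit 42) (nat_lit 5) (nat_lit 40) (nat_lit 5) (nat_lit 452) (nat_lit 379) (nat_lit 114)))) (XT.nd (nat_lit 188) (nat_lit 168) (nat_lit 0) (XT.nd (nat_lit 94) (nat_lit 0) (nat_lit 0) (XT.lf (nat_lit 0) (nat_lit 35791431378) (nat_lit 336) (nat_lit 71748296831) (nat_lit 84) (nat_lit 1194314818) (nat_lit 36) (nat_lit 5) (nat_lit 40) (nat_lit 5) (nat_lit 37) (nat_lit 5) (nat_lit 453) (nat_lit 379) (nat_lit 113)) (XT.lf (nat_lit 0) (nat_lit 51941170268) (nat_lit 336) (nat_lit 32775580306) (nat_lit 84) (nat_lit 26494654285) (nat_lit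 36) (nat_lit 5) (nat_lit 40) (nat_lit 5) (nat_lit 37) (nat_lit 5) (nat_lit 454) (nat_lit 379) (nat_lit 112))) (XT.nd (nat_lit 94) (nat_lit 0) (nat_lit 0) (XT.lf (nat_lit 0) (nat_lit 7512003028) (nat_lit 168) (nat_lit 61135041757) (nat_lit 252) (nat_lit 45113893994) (nat_lit 34) (nat_lit 5) (nat_lit 36) (nat_lit 5) (nat_lit 37) (nat_lit 5) (nat_lit 455) (nat_lit 379) (nat_lit 111)) (XT.lf (nat_lit 0) (nat_lit 49679189038) (nat_lit 168) (nat_lit 36505317012) (nat_lit 252) (nat_lit 30192540869) (nat_lit 34) (nat_lit 5) (nat_lit 36) (nat_lit 5) (nat_lit 37) (nat_lit 5) (nat_lit 456) (nat_lit 379) (nat_lit 110))))) (XT.nd (nat_lit 52264) (nat_lit 0) (nat_lit 10752) (XT.nd (nat_lit 52076) (nat_lit 0) (nat_lit 11928) (XT.lf (nat_lit 0) (nat_lit 93110524522) (nat_lit 168) (nat_lit 11137024316) (nat_lit 252) (nat_lit 14824106239) (nat_lit 34) (nat_lit 5) (nat_lit 36) (nat_lit 5) (nat_lit 37) (nat_lit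 5) (nat_lit 457) (nat_lit 379) (nat_lit 109)) (XT.nd (nat_lit 94) (nat_lit 0) (nat_lit 0) (XT.lf (nat_lit 0) (nat_lit 13822529292) (nat_lit 1260) (nat_lit 109823552) (nat_lit 1260) (nat_lit 109823552) (nat_lit 176) (nat_lit 3) (nat_lit 191) (nat_lit 3) (nat_lit 191) (nat_lit 5) (nat_lit 380) (nat_lit 380) (nat_lit 185)) (XT.lf (nat_lit 84) (nat_lit 12156849267) (nat_lit 0) (nat_lit 16096044261) (nat_lit 1260) (nat_lit 246783991) (nat_lit 177) (nat_lit 5) (nat_lit 176) (nat_lit 3) (nat_lit 191) (nat_lit 5) (nat_lit 381) (nat_lit 380) (nat_lit 184)))) (XT.nd (nat_lit 188) (nat_lit 0) (nat_lit 0) (XT.nd (nat_lit 94) (nat_lit 1176) (nat_lit 0) (XT.lf (nat_lit 84) (nat_lit 24907576104) (nat_lit 0) (nat_lit 3970612582) (nat_lit 1260) (nat_lit 49302233) (nat_lit 177) (nat_lit 5) (nat_lit 176) (nat_lit 3) (nat_lit 191) (nat_lit 5) (nat_lit 382) (nat_lit 380) (nat_lit 183)) (XT.lf (nat_lit 0) (nat_lit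 315908326) (nat_lit 1260) (nat_lit 20606231113) (nat_lit 1344) (nat_lit 8441015863) (nat_lit 162) (nat_lit 5) (nat_lit 177) (nat_lit 5) (nat_lit 178) (nat_lit 5) (nat_lit 383) (nat_lit 380) (nat_lit 182))) (XT.nd (nat_lit 94) (nat_lit 0) (nat_lit 84) (XT.lf (nat_lit 0) (nat_lit 768535622) (nat_lit 1260) (nat_lit 7853075637) (nat_lit 1344) (nat_lit 21187945380) (nat_lit 162) (nat_lit 5) (nat_lit 177) (nat_lit 5) (nat_lit 178) (nat_lit 5) (nat_lit 384) (nat_lit 380) (nat_lit 181)) (XT.lf (nat_lit 0) (nat_lit 1323177994) (nat_lit 1260) (nat_lit 24921166860) (nat_lit 1344) (nat_lit 4022357128) (nat_lit 163) (nat_lit 5) (nat_lit 178) (nat_lit 5) (nat_lit 179) (nat_lit 5) (nat_lit 385) (nat_lit 380) (nat_lit 180))))))) (XT.nd (nat_lit 1316) (nat_lit 3444) (nat_lit 0) (XT.nd (nat_lit 658) (nat_lit 840) (nat_lit 0) (XT.nd (nat_lit 282) (nat_lit 0) (nat_lit 84) (XT.nd (nat_lit 94) (nat_lit 0) (nat_lit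 0) (XT.lf (nat_lit 0) (nat_lit 2057210222) (nat_lit 1260) (nat_lit 11721951256) (nat_lit 1344) (nat_lit 16953522599) (nat_lit 163) (nat_lit 5) (nat_lit 178) (nat_lit 5) (nat_lit 179) (nat_lit 5) (nat_lit 386) (nat_lit 380) (nat_lit 179)) (XT.nd (nat_lit 94) (nat_lit 0) (nat_lit 84) (XT.lf (nat_lit 84) (nat_lit 1908833197) (nat_lit 0) (nat_lit 920159942) (nat_lit 1344) (nat_lit 28383185371) (nat_lit 164) (nat_lit 5) (nat_lit 163) (nat_lit 5) (nat_lit 179) (nat_lit 5) (nat_lit 387) (nat_lit 380) (nat_lit 178)) (XT.lf (nat_lit 0) (nat_lit 3859392151) (nat_lit 1260) (nat_lit 15635050508) (nat_lit 1344) (nat_lit 12204555863) (nat_lit 164) (nat_lit 5) (nat_lit 179) (nat_lit 5) (nat_lit 180) (nat_lit 5) (nat_lit 388) (nat_lit 380) (nat_lit 177)))) (XT.nd (nat_lit 188) (nat_lit 0) (nat_lit 84) (XT.nd (nat_lit 94) (nat_lit 0) (nat_lit 84) (XT.lf (nat_lit 0) (nat_lit 4927338102) (nat_lit 1260) (nat_lit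 1567496786) (nat_lit 1344) (nat_lit 25705393689) (nat_lit 164) (nat_lit 5) (nat_lit 179) (nat_lit 5) (nat_lit 180) (nat_lit 5) (nat_lit 389) (nat_lit 380) (nat_lit 176)) (XT.lf (nat_lit 0) (nat_lit 6219128380) (nat_lit 1260) (nat_lit 19602714746) (nat_lit 1344) (nat_lit 6888902592) (nat_lit 165) (nat_lit 5) (nat_lit 180) (nat_lit 5) (nat_lit 181) (nat_lit 5) (nat_lit 390) (nat_lit 380) (nat_lit 175))) (XT.nd (nat_lit 94) (nat_lit 0) (nat_lit 84) (XT.lf (nat_lit 0) (nat_lit 7627621145) (nat_lit 1260) (nat_lit 5046305109) (nat_lit 1344) (nat_lit 20560317888) (nat_lit 165) (nat_lit 5) (nat_lit 180) (nat_lit 5) (nat_lit 181) (nat_lit 5) (nat_lit 391) (nat_lit 380) (nat_lit 174)) (XT.lf (nat_lit 0) (nat_lit 9182915742) (nat_lit 1260) (nat_lit 23636836132) (nat_lit 1344) (nat_lit 950563345) (nat_lit 166) (nat_lit 5) (nat_lit 181) (nat_lit 5) (nat_lit 182) (nat_lit 5) (nat_lit 392) (nat_lit 380)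 (nat_lit 173))))) (XT.nd (nat_lit 282) (nat_lit 1092) (nat_lit 0) (XT.nd (nat_lit 94) (nat_lit 0) (nat_lit 0) (XT.lf (nat_lit 0) (nat_lit 10959598486) (nat_lit 1260) (nat_lit 8576534646) (nat_lit 1344) (nat_lit 14781097406) (nat_lit 166) (nat_lit 5) (nat_lit 181) (nat_lit 5) (nat_lit 182) (nat_lit 5) (nat_lit 393) (nat_lit 380) (nat_lit 172)) (XT.nd (nat_lit 94) (nat_lit 0) (nat_lit 84) (XT.lf (nat_lit 84) (nat_lit 7071917060) (nat_lit 0) (nat_lit 5783491403) (nat_lit 1344) (nat_lit 22023173927) (nat_lit 167) (nat_lit 5) (nat_lit 166) (nat_lit 5) (nat_lit 182) (nat_lit 5) (nat_lit 394) (nat_lit 380) (nat_lit 171)) (XT.lf (nat_lit 0) (nat_lit 14974025277) (nat_lit 1260) (nat_lit 12171684097) (nat_lit 1344) (nat_lit 8306091210) (nat_lit 167) (nat_lit 5) (nat_lit 182) (nat_lit 5) (nat_lit 183) (nat_lit 5) (nat_lit 395) (nat_lit 380) (nat_lit 170)))) (XT.nd (nat_lit 188) (nat_lit 1176) (nat_lit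 0) (XT.nd (nat_lit 94) (nat_lit 0) (nat_lit 84) (XT.lf (nat_lit 84) (nat_lit 3950510293) (nat_lit 0) (nat_lit 13298887075) (nat_lit 1344) (nat_lit 18790025704) (nat_lit 168) (nat_lit 5) (nat_lit 167) (nat_lit 5) (nat_lit 183) (nat_lit 5) (nat_lit 396) (nat_lit 380) (nat_lit 169)) (XT.lf (nat_lit 0) (nat_lit 19724424637) (nat_lit 1260) (nat_lit 15847299154) (nat_lit 84) (nat_lit 1069012169) (nat_lit 168) (nat_lit 5) (nat_lit 183) (nat_lit 5) (nat_lit 169) (nat_lit 5) (nat_lit 397) (nat_lit 380) (nat_lit 168))) (XT.nd (nat_lit 94) (nat_lit 0) (nat_lit 0) (XT.lf (nat_lit 0) (nat_lit 763118635) (nat_lit 1260) (nat_lit 21647656583) (nat_lit 1344) (nat_lit 14845204285) (nat_lit 153) (nat_lit 5) (nat_lit 168) (nat_lit 5) (nat_lit 169) (nat_lit 5) (nat_lit 398) (nat_lit 380) (nat_lit 167)) (XT.lf (nat_lit 0) (nat_lit 18195056075) (nat_lit 1260) (nat_lit 7140792207) (nat_lit 1344) (nat_lit 12549091453)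 (nat_lit 153) (nat_lit 5) (nat_lit 168) (nat_lit 5) (nat_lit 169) (nat_lit 5) (nat_lit 399) (nat_lit 380) (nat_lit 166)))))) (XT.nd (nat_lit 658) (nat_lit 1596) (nat_lit 0) (XT.nd (nat_lit 282) (nat_lit 1260) (nat_lit 0) (XT.nd (nat_lit 94) (nat_lit 588) (nat_lit 0) (XT.lf (nat_lit 0) (nat_lit 28421827009) (nat_lit 1344) (nat_lit 2459467545) (nat_lit 84) (nat_lit 7649282861) (nat_lit 153) (nat_lit 5) (nat_lit 169) (nat_lit 5) (nat_lit 154) (nat_lit 5) (nat_lit 400) (nat_lit 380) (nat_lit 165)) (XT.nd (nat_lit 94) (nat_lit 0) (nat_lit 0) (XT.lf (nat_lit 0) (nat_lit 15518367985) (nat_lit 588) (nat_lit 16300106395) (nat_lit 672) (nat_lit 7370570316) (nat_lit 146) (nat_lit 5) (nat_lit 153) (nat_lit 5) (nat_lit 154) (nat_lit 5) (nat_lit 401) (nat_lit 380) (nat_lit 164)) (XT.lf (nat_lit 0) (nat_lit 34084359643) (nat_lit 588) (nat_lit 1255750267) (nat_lit 672) (nat_lit 4526466484) (nat_lit 146)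 (nat_lit 5) (nat_lit 153) (nat_lit 5) (nat_lit 154) (nat_lit 5) (nat_lit 402) (nat_lit 380) (nat_lit 163)))) (XT.nd (nat_lit 188) (nat_lit 588) (nat_lit 0) (XT.nd (nat_lit 94) (nat_lit 84) (nat_lit 0) (XT.lf (nat_lit 0) (nat_lit 12753271892) (nat_lit 588) (nat_lit 26471903082) (nat_lit 672) (nat_lit 1331528623) (nat_lit 139) (nat_lit 5) (nat_lit 146) (nat_lit 5) (nat_lit 147) (nat_lit 5) (nat_lit 403) (nat_lit 380) (nat_lit 162)) (XT.lf (nat_lit 0) (nat_lit 1990745594) (nat_lit 672) (nat_lit 9335897747) (nat_lit 84) (nat_lit 29938237456) (nat_lit 138) (nat_lit 5) (nat_lit 146) (nat_lit 5) (nat_lit 139) (nat_lit 5) (nat_lit 404) (nat_lit 380) (nat_lit 161))) (XT.nd (nat_lit 94) (nat_lit 0) (nat_lit 0) (XT.lf (nat_lit 0) (nat_lit 5521251601) (nat_lit 672) (nat_lit 32169888206) (nat_lit 84) (nat_lit 4298710940) (nat_lit 131) (nat_lit 5) (nat_lit 139) (nat_lit 5) (nat_lit 132) (nat_lit 5)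 (nat_lit 405) (nat_lit 380) (nat_lit 160)) (XT.lf (nat_lit 0) (nat_lit 9363427269) (nat_lit 672) (nat_lit 13106557630) (nat_lit 84) (nat_lit 20260414901) (nat_lit 131) (nat_lit 5) (nat_lit 139) (nat_lit 5) (nat_lit 132) (nat_lit 5) (nat_lit 406) (nat_lit 380) (nat_lit 159))))) (XT.nd (nat_lit 282) (nat_lit 504) (nat_lit 0) (XT.nd (nat_lit 94) (nat_lit 504) (nat_lit 0) (XT.lf (nat_lit 0) (nat_lit 6657009008) (nat_lit 588) (nat_lit 6726298817) (nat_lit 672) (nat_lit 30107986872) (nat_lit 124) (nat_lit 5) (nat_lit 131) (nat_lit 5) (nat_lit 132) (nat_lit 5) (nat_lit 407) (nat_lit 380) (nat_lit 158)) (XT.nd (nat_lit 94) (nat_lit 504) (nat_lit 0) (XT.lf (nat_lit 0) (nat_lit 17747144895) (nat_lit 672) (nat_lit 17083021448) (nat_lit 84) (nat_lit 9438151783) (nat_lit 124) (nat_lit 5) (nat_lit 132) (nat_lit 5) (nat_lit 125) (nat_lit 5) (nat_lit 408) (nat_lit 380) (nat_lit 157)) (XT.lf (nat_lit 0)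 (nat_lit 3256171325) (nat_lit 504) (nat_lit 19082145779) (nat_lit 588) (nat_lit 22727444967) (nat_lit 118) (nat_lit 5) (nat_lit 124) (nat_lit 5) (nat_lit 125) (nat_lit 5) (nat_lit 409) (nat_lit 380) (nat_lit 156)))) (XT.nd (nat_lit 188) (nat_lit 504) (nat_lit 0) (XT.nd (nat_lit 94) (nat_lit 0) (nat_lit 0) (XT.lf (nat_lit 0) (nat_lit 24554188282) (nat_lit 504) (nat_lit 2684092172) (nat_lit 588) (nat_lit 18643719546) (nat_lit 118) (nat_lit 5) (nat_lit 124) (nat_lit 5) (nat_lit 125) (nat_lit 5) (nat_lit 410) (nat_lit 380) (nat_lit 155)) (XT.lf (nat_lit 0) (nat_lit 32420390877) (nat_lit 588) (nat_lit 369670842) (nat_lit 84) (nat_lit 13928611178) (nat_lit 118) (nat_lit 5) (nat_lit 125) (nat_lit 5) (nat_lit 119) (nat_lit 5) (nat_lit 411) (nat_lit 380) (nat_lit 154))) (XT.nd (nat_lit 94) (nat_lit 0) (nat_lit 0) (XT.lf (nat_lit 0) (nat_lit 21610853719) (nat_lit 504) (nat_lit 16380056149) (nat_lit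 588) (nat_lit 9582549965) (nat_lit 112) (nat_lit 5) (nat_lit 118) (nat_lit 5) (nat_lit 119) (nat_lit 5) (nat_lit 412) (nat_lit 380) (nat_lit 153)) (XT.lf (nat_lit 0) (nat_lit 43735992177) (nat_lit 588) (nat_lit 4201981046) (nat_lit 84) (nat_lit 515695867) (nat_lit 112) (nat_lit 5) (nat_lit 119) (nat_lit 5) (nat_lit 113) (nat_lit 5) (nat_lit 413) (nat_lit 380) (nat_lit 152))))))))
noncomputable def xc210 : XT := (XT.nd (nat_lit 2538) (nat_lit 1764) (nat_lit 0) (XT.nd (nat_lit 1222) (nat_lit 2100) (nat_lit 0) (XT.nd (nat_lit 564) (nat_lit 1260) (nat_lit 0) (XT.nd (nat_lit 282) (nat_lit 420) (nat_lit 0) (XT.nd (nat_lit 94) (nat_lit 504) (nat_lit 0) (XT.lf (nat_lit 0) (nat_lit 628579572) (nat_lit 504) (nat_lit 30949317212) (nat_lit 84) (nat_lit 17772070601) (nat_lit 106) (nat_lit 5) (nat_lit 112) (nat_lit 5) (nat_lit 107) (nat_lit 5) (nat_lit 414) (nat_lit 380) (nat_lit 151)) (XT.nd (nat_lit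 94) (nat_lit 504) (nat_lit 0) (XT.lf (nat_lit 0) (nat_lit 6081961043) (nat_lit 504) (nat_lit 8553001141) (nat_lit 84) (nat_lit 35635546382) (nat_lit 106) (nat_lit 5) (nat_lit 112) (nat_lit 5) (nat_lit 107) (nat_lit 5) (nat_lit 415) (nat_lit 380) (nat_lit 150)) (XT.lf (nat_lit 0) (nat_lit 11868458111) (nat_lit 588) (nat_lit 36440301957) (nat_lit 84) (nat_lit 2904822393) (nat_lit 100) (nat_lit 5) (nat_lit 107) (nat_lit 5) (nat_lit 101) (nat_lit 5) (nat_lit 416) (nat_lit 380) (nat_lit 149)))) (XT.nd (nat_lit 94) (nat_lit 420) (nat_lit 0) (XT.lf (nat_lit 0) (nat_lit 18059439082) (nat_lit 588) (nat_lit 13354900557) (nat_lit 84) (nat_lit 20763684117) (nat_lit 100) (nat_lit 5) (nat_lit 107) (nat_lit 5) (nat_lit 101) (nat_lit 5) (nat_lit 417) (nat_lit 380) (nat_lit 148)) (XT.nd (nat_lit 94) (nat_lit 0) (nat_lit 0) (XT.lf (nat_lit 0) (nat_lit 10629050621) (nat_lit 420) (nat_lit 13908072477) (nat_lit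 504) (nat_lit 28631247780) (nat_lit 95) (nat_lit 5) (nat_lit 100) (nat_lit 5) (nat_lit 101) (nat_lit 5) (nat_lit 418) (nat_lit 380) (nat_lit 147)) (XT.lf (nat_lit 0) (nat_lit 31383787491) (nat_lit 504) (nat_lit 18620515898) (nat_lit 84) (nat_lit 4178887273) (nat_lit 95) (nat_lit 5) (nat_lit 101) (nat_lit 5) (nat_lit 96) (nat_lit 5) (nat_lit 419) (nat_lit 380) (nat_lit 146))))) (XT.nd (nat_lit 282) (nat_lit 504) (nat_lit 0) (XT.nd (nat_lit 94) (nat_lit 336) (nat_lit 0) (XT.lf (nat_lit 0) (nat_lit 5993705522) (nat_lit 420) (nat_lit 32636319357) (nat_lit 504) (nat_lit 16592606661) (nat_lit 90) (nat_lit 5) (nat_lit 95) (nat_lit 5) (nat_lit 96) (nat_lit 5) (nat_lit 420) (nat_lit 380) (nat_lit 145)) (XT.nd (nat_lit 94) (nat_lit 336) (nat_lit 0) (XT.lf (nat_lit 0) (nat_lit 31726667487) (nat_lit 420) (nat_lit 14553886839) (nat_lit 504) (nat_lit 10007095815) (nat_lit 90) (nat_lit 5) (nat_lit 95)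 (nat_lit 5) (nat_lit 96) (nat_lit 5) (nat_lit 421) (nat_lit 380) (nat_lit 144)) (XT.lf (nat_lit 0) (nat_lit 822536627) (nat_lit 336) (nat_lit 53384007453) (nat_lit 420) (nat_lit 3176698483) (nat_lit 86) (nat_lit 5) (nat_lit 90) (nat_lit 5) (nat_lit 91) (nat_lit 5) (nat_lit 422) (nat_lit 380) (nat_lit 143)))) (XT.nd (nat_lit 188) (nat_lit 420) (nat_lit 0) (XT.nd (nat_lit 94) (nat_lit 0) (nat_lit 0) (XT.lf (nat_lit 0) (nat_lit 4176797818) (nat_lit 420) (nat_lit 31218259070) (nat_lit 84) (nat_lit 23103730163) (nat_lit 85) (nat_lit 5) (nat_lit 90) (nat_lit 5) (nat_lit 86) (nat_lit 5) (nat_lit 423) (nat_lit 380) (nat_lit 142)) (XT.lf (nat_lit 0) (nat_lit 11685993396) (nat_lit 420) (nat_lit 5148340343) (nat_lit 84) (nat_lit 42812553733) (nat_lit 85) (nat_lit 5) (nat_lit 90) (nat_lit 5) (nat_lit 86) (nat_lit 5) (nat_lit 424) (nat_lit 380) (nat_lit 141))) (XT.nd (nat_lit 94) (nat_lit 0) (nat_lit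 0) (XT.lf (nat_lit 0) (nat_lit 19656258322) (nat_lit 504) (nat_lit 38712845790) (nat_lit 84) (nat_lit 2453254409) (nat_lit 80) (nat_lit 5) (nat_lit 86) (nat_lit 5) (nat_lit 81) (nat_lit 5) (nat_lit 425) (nat_lit 380) (nat_lit 140)) (XT.lf (nat_lit 0) (nat_lit 28083798972) (nat_lit 504) (nat_lit 11909413859) (nat_lit 84) (nat_lit 22033337213) (nat_lit 80) (nat_lit 5) (nat_lit 86) (nat_lit 5) (nat_lit 81) (nat_lit 5) (nat_lit 426) (nat_lit 380) (nat_lit 139)))))) (XT.nd (nat_lit 658) (nat_lit 1008) (nat_lit 0) (XT.nd (nat_lit 282) (nat_lit 420) (nat_lit 0) (XT.nd (nat_lit 94) (nat_lit 336) (nat_lit 0) (XT.lf (nat_lit 0) (nat_lit 16009231588) (nat_lit 336) (nat_lit 20907842575) (nat_lit 420) (nat_lit 26345207238) (nat_lit 76) (nat_lit 5) (nat_lit 80) (nat_lit 5) (nat_lit 81) (nat_lit 5) (nat_lit 427) (nat_lit 380) (nat_lit 138)) (XT.nd (nat_lit 94) (nat_lit 336) (nat_lit 0) (XT.lf (nat_lit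 0) (nat_lit 45008293118) (nat_lit 336) (nat_lit 1126350371) (nat_lit 420) (nat_lit 18396863631) (nat_lit 76) (nat_lit 5) (nat_lit 80) (nat_lit 5) (nat_lit 81) (nat_lit 5) (nat_lit 428) (nat_lit 380) (nat_lit 137)) (XT.lf (nat_lit 0) (nat_lit 9028400324) (nat_lit 336) (nat_lit 46871214668) (nat_lit 420) (nat_lit 9931069626) (nat_lit 72) (nat_lit 5) (nat_lit 76) (nat_lit 5) (nat_lit 77) (nat_lit 5) (nat_lit 429) (nat_lit 380) (nat_lit 136)))) (XT.nd (nat_lit 188) (nat_lit 0) (nat_lit 0) (XT.nd (nat_lit 94) (nat_lit 420) (nat_lit 0) (XT.lf (nat_lit 0) (nat_lit 38824144314) (nat_lit 336) (nat_lit 27340654923) (nat_lit 420) (nat_lit 997821519) (nat_lit 72) (nat_lit 5) (nat_lit 76) (nat_lit 5) (nat_lit 77) (nat_lit 5) (nat_lit 430) (nat_lit 380) (nat_lit 135)) (XT.lf (nat_lit 0) (nat_lit 917049897) (nat_lit 336) (nat_lit 7134202682) (nat_lit 420) (nat_lit 60480660656) (nat_lit 67) (nat_lit 5)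 (nat_lit 71) (nat_lit 5) (nat_lit 72) (nat_lit 5) (nat_lit 431) (nat_lit 380) (nat_lit 134))) (XT.nd (nat_lit 94) (nat_lit 0) (nat_lit 0) (XT.lf (nat_lit 0) (nat_lit 17771328788) (nat_lit 420) (nat_lit 38447991896) (nat_lit 84) (nat_lit 13710080987) (nat_lit 67) (nat_lit 5) (nat_lit 72) (nat_lit 5) (nat_lit 68) (nat_lit 5) (nat_lit 432) (nat_lit 380) (nat_lit 133)) (XT.lf (nat_lit 0) (nat_lit 27852772278) (nat_lit 420) (nat_lit 8477960690) (nat_lit 84) (nat_lit 35035989931) (nat_lit 67) (nat_lit 5) (nat_lit 72) (nat_lit 5) (nat_lit 68) (nat_lit 5) (nat_lit 433) (nat_lit 380) (nat_lit 132))))) (XT.nd (nat_lit 282) (nat_lit 420) (nat_lit 0) (XT.nd (nat_lit 94) (nat_lit 252) (nat_lit 0) (XT.lf (nat_lit 0) (nat_lit 22835600829) (nat_lit 336) (nat_lit 15619722691) (nat_lit 420) (nat_lit 34385281364) (nat_lit 63) (nat_lit 5) (nat_lit 67) (nat_lit 5) (nat_lit 68) (nat_lit 5) (nat_lit 434) (nat_lit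 380) (nat_lit 131)) (XT.nd (nat_lit 94) (nat_lit 252) (nat_lit 0) (XT.lf (nat_lit 0) (nat_lit 49516487814) (nat_lit 420) (nat_lit 19150723450) (nat_lit 84) (nat_lit 5687276994) (nat_lit 63) (nat_lit 5) (nat_lit 68) (nat_lit 5) (nat_lit 64) (nat_lit 5) (nat_lit 435) (nat_lit 380) (nat_lit 130)) (XT.lf (nat_lit 0) (nat_lit 12721627479) (nat_lit 252) (nat_lit 48463987590) (nat_lit 336) (nat_lit 14719890219) (nat_lit 60) (nat_lit 5) (nat_lit 63) (nat_lit 5) (nat_lit 64) (nat_lit 5) (nat_lit 436) (nat_lit 380) (nat_lit 129)))) (XT.nd (nat_lit 188) (nat_lit 0) (nat_lit 0) (XT.nd (nat_lit 94) (nat_lit 420) (nat_lit 0) (XT.lf (nat_lit 0) (nat_lit 45941579143) (nat_lit 252) (nat_lit 27455823650) (nat_lit 336) (nat_lit 4099873401) (nat_lit 60) (nat_lit 5) (nat_lit 63) (nat_lit 5) (nat_lit 64) (nat_lit 5) (nat_lit 437) (nat_lit 380) (nat_lit 128)) (XT.lf (nat_lit 0) (nat_lit 973462572) (nat_lit 336)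 (nat_lit 5740406888) (nat_lit 420) (nat_lit 72420702310) (nat_lit 55) (nat_lit 5) (nat_lit 59) (nat_lit 5) (nat_lit 60) (nat_lit 5) (nat_lit 438) (nat_lit 380) (nat_lit 127))) (XT.nd (nat_lit 94) (nat_lit 0) (nat_lit 0) (XT.lf (nat_lit 0) (nat_lit 18250476044) (nat_lit 420) (nat_lit 45890774284) (nat_lit 84) (nat_lit 16664093340) (nat_lit 55) (nat_lit 5) (nat_lit 60) (nat_lit 5) (nat_lit 56) (nat_lit 5) (nat_lit 439) (nat_lit 380) (nat_lit 126)) (XT.lf (nat_lit 0) (nat_lit 30189264482) (nat_lit 420) (nat_lit 12710265852) (nat_lit 84) (nat_lit 39625026738) (nat_lit 55) (nat_lit 5) (nat_lit 60) (nat_lit 5) (nat_lit 56) (nat_lit 5) (nat_lit 440) (nat_lit 380) (nat_lit 125))))))) (XT.nd (nat_lit 1316) (nat_lit 168) (nat_lit 0) (XT.nd (nat_lit 658) (nat_lit 756) (nat_lit 0) (XT.nd (nat_lit 282) (nat_lit 336) (nat_lit 0) (XT.nd (nat_lit 94) (nat_lit 252) (nat_lit 0) (XT.lf (nat_lit 0) (nat_lit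 21891776486) (nat_lit 252) (nat_lit 20804147083) (nat_lit 336) (nat_lit 41593132932) (nat_lit 52) (nat_lit 5) (nat_lit 55) (nat_lit 5) (nat_lit 56) (nat_lit 5) (nat_lit 441) (nat_lit 380) (nat_lit 124)) (XT.nd (nat_lit 94) (nat_lit 252) (nat_lit 0) (XT.lf (nat_lit 0) (nat_lit 55725463637) (nat_lit 336) (nat_lit 28331344525) (nat_lit 84) (nat_lit 2045253124) (nat_lit 52) (nat_lit 5) (nat_lit 56) (nat_lit 5) (nat_lit 53) (nat_lit 5) (nat_lit 442) (nat_lit 380) (nat_lit 123)) (XT.lf (nat_lit 0) (nat_lit 6679890074) (nat_lit 252) (nat_lit 62735491397) (nat_lit 336) (nat_lit 18545990781) (nat_lit 49) (nat_lit 5) (nat_lit 52) (nat_lit 5) (nat_lit 53) (nat_lit 5) (nat_lit 443) (nat_lit 380) (nat_lit 122)))) (XT.nd (nat_lit 188) (nat_lit 252) (nat_lit 0) (XT.nd (nat_lit 94) (nat_lit 84) (nat_lit 0) (XT.lf (nat_lit 0) (nat_lit 43321190737) (nat_lit 252) (nat_lit 40480206321) (nat_lit 336) (nat_lit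 6066504245) (nat_lit 49) (nat_lit 5) (nat_lit 52) (nat_lit 5) (nat_lit 53) (nat_lit 5) (nat_lit 444) (nat_lit 380) (nat_lit 121)) (XT.lf (nat_lit 0) (nat_lit 6654242856) (nat_lit 336) (nat_lit 10836159935) (nat_lit 84) (nat_lit 74339287165) (nat_lit 48) (nat_lit 5) (nat_lit 52) (nat_lit 5) (nat_lit 49) (nat_lit 5) (nat_lit 445) (nat_lit 380) (nat_lit 120))) (XT.nd (nat_lit 94) (nat_lit 0) (nat_lit 0) (XT.lf (nat_lit 0) (nat_lit 19950391898) (nat_lit 336) (nat_lit 67503727055) (nat_lit 84) (nat_lit 6384940773) (nat_lit 45) (nat_lit 5) (nat_lit 49) (nat_lit 5) (nat_lit 46) (nat_lit 5) (nat_lit 446) (nat_lit 380) (nat_lit 119)) (XT.lf (nat_lit 0) (nat_lit 33928453344) (nat_lit 336) (nat_lit 31236580210) (nat_lit 84) (nat_lit 30735186876) (nat_lit 45) (nat_lit 5) (nat_lit 49) (nat_lit 5) (nat_lit 46) (nat_lit 5) (nat_lit 447) (nat_lit 380) (nat_lit 118))))) (XT.nd (nat_lit 282) (nat_lit 504)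 (nat_lit 0) (XT.nd (nat_lit 94) (nat_lit 0) (nat_lit 0) (XT.lf (nat_lit 0) (nat_lit 6239365236) (nat_lit 252) (nat_lit 42145835229) (nat_lit 336) (nat_lit 49636235832) (nat_lit 42) (nat_lit 5) (nat_lit 45) (nat_lit 5) (nat_lit 46) (nat_lit 5) (nat_lit 448) (nat_lit 380) (nat_lit 117)) (XT.nd (nat_lit 94) (nat_lit 0) (nat_lit 0) (XT.lf (nat_lit 0) (nat_lit 45478949517) (nat_lit 252) (nat_lit 18111505145) (nat_lit 336) (nat_lit 36606390478) (nat_lit 42) (nat_lit 5) (nat_lit 45) (nat_lit 5) (nat_lit 46) (nat_lit 5) (nat_lit 449) (nat_lit 380) (nat_lit 116)) (XT.lf (nat_lit 0) (nat_lit 79315122764) (nat_lit 336) (nat_lit 16606606243) (nat_lit 84) (nat_lit 6513890170) (nat_lit 42) (nat_lit 5) (nat_lit 46) (nat_lit 5) (nat_lit 43) (nat_lit 5) (nat_lit 450) (nat_lit 380) (nat_lit 115)))) (XT.nd (nat_lit 188) (nat_lit 252) (nat_lit 0) (XT.nd (nat_lit 94) (nat_lit 84) (nat_lit 0) (XT.lf (nat_lit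 0) (nat_lit 22914933923) (nat_lit 168) (nat_lit 72995600389) (nat_lit 252) (nat_lit 8819052625) (nat_lit 40) (nat_lit 5) (nat_lit 42) (nat_lit 5) (nat_lit 43) (nat_lit 5) (nat_lit 451) (nat_lit 380) (nat_lit 114)) (XT.lf (nat_lit 0) (nat_lit 5964846925) (nat_lit 252) (nat_lit 43184210356) (nat_lit 84) (nat_lit 57936549311) (nat_lit 39) (nat_lit 5) (nat_lit 42) (nat_lit 5) (nat_lit 40) (nat_lit 5) (nat_lit 452) (nat_lit 380) (nat_lit 113))) (XT.nd (nat_lit 94) (nat_lit 252) (nat_lit 0) (XT.lf (nat_lit 0) (nat_lit 21014437711) (nat_lit 252) (nat_lit 3483067140) (nat_lit 84) (nat_lit 85012200162) (nat_lit 39) (nat_lit 5) (nat_lit 42) (nat_lit 5) (nat_lit 40) (nat_lit 5) (nat_lit 453) (nat_lit 380) (nat_lit 112)) (XT.lf (nat_lit 0) (nat_lit 36893926717) (nat_lit 336) (nat_lit 73855020631) (nat_lit 84) (nat_lit 1246227257) (nat_lit 36) (nat_lit 5) (nat_lit 40) (nat_lit 5) (nat_lit 37) (nat_lit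 5) (nat_lit 454) (nat_lit 380) (nat_lit 111)))))) (XT.nd (nat_lit 52828) (nat_lit 0) (nat_lit 10836) (XT.nd (nat_lit 52452) (nat_lit 0) (nat_lit 10668) (XT.nd (nat_lit 94) (nat_lit 168) (nat_lit 0) (XT.lf (nat_lit 0) (nat_lit 53527320326) (nat_lit 336) (nat_lit 33714454410) (nat_lit 84) (nat_lit 27305108472) (nat_lit 36) (nat_lit 5) (nat_lit 40) (nat_lit 5) (nat_lit 37) (nat_lit 5) (nat_lit 455) (nat_lit 380) (nat_lit 110)) (XT.nd (nat_lit 52264) (nat_lit 0) (nat_lit 11928) (XT.lf (nat_lit 0) (nat_lit 7781321196) (nat_lit 168) (nat_lit 62952659377) (nat_lit 252) (nat_lit 46438935054) (nat_lit 34) (nat_lit 5) (nat_lit 36) (nat_lit 5) (nat_lit 37) (nat_lit 5) (nat_lit 456) (nat_lit 380) (nat_lit 109)) (XT.lf (nat_lit 0) (nat_lit 14312771721) (nat_lit 1260) (nat_lit 74129288) (nat_lit 1260) (nat_lit 74129288) (nat_lit 176) (nat_lit 3) (nat_lit 191) (nat_lit 3) (nat_lit 191) (nat_lit 5) (nat_lit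 381) (nat_lit 381) (nat_lit 183)))) (XT.nd (nat_lit 188) (nat_lit 0) (nat_lit 84) (XT.nd (nat_lit 94) (nat_lit 1260) (nat_lit 0) (XT.lf (nat_lit 84) (nat_lit 12598768197) (nat_lit 0) (nat_lit 16649185526) (nat_lit 1260) (nat_lit 102009543) (nat_lit 177) (nat_lit 5) (nat_lit 176) (nat_lit 3) (nat_lit 191) (nat_lit 5) (nat_lit 382) (nat_lit 381) (nat_lit 182)) (XT.lf (nat_lit 0) (nat_lit 95072176) (nat_lit 1260) (nat_lit 4061912272) (nat_lit 1344) (nat_lit 25633735685) (nat_lit 161) (nat_lit 5) (nat_lit 176) (nat_lit 3) (nat_lit 177) (nat_lit 5) (nat_lit 383) (nat_lit 381) (nat_lit 181))) (XT.nd (nat_lit 94) (nat_lit 0) (nat_lit 0) (XT.lf (nat_lit 0) (nat_lit 466156729) (nat_lit 1260) (nat_lit 21141958216) (nat_lit 1344) (nat_lit 8631455297) (nat_lit 162) (nat_lit 5) (nat_lit 177) (nat_lit 5) (nat_lit 178) (nat_lit 5) (nat_lit 384) (nat_lit 381) (nat_lit 180)) (XT.lf (nat_lit 0) (nat_lit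 928262712) (nat_lit 1260) (nat_lit 8008609818) (nat_lit 1344) (nat_lit 21762621565) (nat_lit 162) (nat_lit 5) (nat_lit 177) (nat_lit 5) (nat_lit 178) (nat_lit 5) (nat_lit 385) (nat_lit 381) (nat_lit 179))))) (XT.nd (nat_lit 282) (nat_lit 0) (nat_lit 84) (XT.nd (nat_lit 94) (nat_lit 0) (nat_lit 0) (XT.lf (nat_lit 0) (nat_lit 1495804866) (nat_lit 1260) (nat_lit 25584762433) (nat_lit 1344) (nat_lit 4089905941) (nat_lit 163) (nat_lit 5) (nat_lit 178) (nat_lit 5) (nat_lit 179) (nat_lit 5) (nat_lit 386) (nat_lit 381) (nat_lit 178)) (XT.nd (nat_lit 94) (nat_lit 0) (nat_lit 0) (XT.lf (nat_lit 0) (nat_lit 2247986268) (nat_lit 1260) (nat_lit 11992018112) (nat_lit 1344) (nat_lit 17410553616) (nat_lit 163) (nat_lit 5) (nat_lit 178) (nat_lit 5) (nat_lit 179) (nat_lit 5) (nat_lit 387) (nat_lit 381) (nat_lit 177)) (XT.lf (nat_lit 84) (nat_lit 2046889956) (nat_lit 0) (nat_lit 993050315) (nat_lit 1344)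 (nat_lit 29104593301) (nat_lit 164) (nat_lit 5) (nat_lit 163) (nat_lit 5) (nat_lit 179) (nat_lit 5) (nat_lit 388) (nat_lit 381) (nat_lit 176)))) (XT.nd (nat_lit 188) (nat_lit 0) (nat_lit 84) (XT.nd (nat_lit 94) (nat_lit 0) (nat_lit 0) (XT.lf (nat_lit 0) (nat_lit 4097156464) (nat_lit 1260) (nat_lit 16021347297) (nat_lit 1344) (nat_lit 12527583908) (nat_lit 164) (nat_lit 5) (nat_lit 179) (nat_lit 5) (nat_lit 180) (nat_lit 5) (nat_lit 389) (nat_lit 381) (nat_lit 175)) (XT.lf (nat_lit 0) (nat_lit 5193587905) (nat_lit 1260) (nat_lit 1534177295) (nat_lit 1344) (nat_lit 26434702460) (nat_lit 164) (nat_lit 5) (nat_lit 179) (nat_lit 5) (nat_lit 180) (nat_lit 5) (nat_lit 390) (nat_lit 381) (nat_lit 174))) (XT.nd (nat_lit 94) (nat_lit 0) (nat_lit 0) (XT.lf (nat_lit 0) (nat_lit 6521099367) (nat_lit 1260) (nat_lit 20107210643) (nat_lit 1344) (nat_lit 7060087538) (nat_lit 165) (nat_lit 5) (nat_lit 180)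 (nat_lit 5) (nat_lit 181) (nat_lit 5) (nat_lit 391) (nat_lit 381) (nat_lit 173)) (XT.lf (nat_lit 0) (nat_lit 7968485833) (nat_lit 1260) (nat_lit 5116543248) (nat_lit 1344) (nat_lit 21142678753) (nat_lit 165) (nat_lit 5) (nat_lit 180) (nat_lit 5) (nat_lit 181) (nat_lit 5) (nat_lit 392) (nat_lit 381) (nat_lit 172))))))))
noncomputable def xc211 : XT := (XT.nd (nat_lit 2632) (nat_lit 4200) (nat_lit 0) (XT.nd (nat_lit 1316) (nat_lit 3024) (nat_lit 0) (XT.nd (nat_lit 658) (nat_lit 1848) (nat_lit 0) (XT.nd (nat_lit 282) (nat_lit 1092) (nat_lit 0) (XT.nd (nat_lit 94) (nat_lit 0) (nat_lit 0) (XT.lf (nat_lit 0) (nat_lit 9567667916) (nat_lit 1260) (nat_lit 24261822199) (nat_lit 1344) (nat_lit 950459968) (nat_lit 166) (nat_lit 5) (nat_lit 181) (nat_lit 5) (nat_lit 182) (nat_lit 5) (nat_lit 393) (nat_lit 381) (nat_lit 171)) (XT.nd (nat_lit 94) (nat_lit 0) (nat_lit 0) (XT.lf (nat_lit 0) (nat_lit 11394468676)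 (nat_lit 1260) (nat_lit 8752161737) (nat_lit 1344) (nat_lit 15196743652) (nat_lit 166) (nat_lit 5) (nat_lit 181) (nat_lit 5) (nat_lit 182) (nat_lit 5) (nat_lit 394) (nat_lit 381) (nat_lit 170)) (XT.lf (nat_lit 84) (nat_lit 7364942844) (nat_lit 0) (nat_lit 5979897690) (nat_lit 1344) (nat_lit 22576800872) (nat_lit 167) (nat_lit 5) (nat_lit 166) (nat_lit 5) (nat_lit 182) (nat_lit 5) (nat_lit 395) (nat_lit 381) (nat_lit 169)))) (XT.nd (nat_lit 188) (nat_lit 1176) (nat_lit 0) (XT.nd (nat_lit 94) (nat_lit 0) (nat_lit 0) (XT.lf (nat_lit 0) (nat_lit 15523779699) (nat_lit 1260) (nat_lit 12454905617) (nat_lit 1344) (nat_lit 8533473313) (nat_lit 167) (nat_lit 5) (nat_lit 182) (nat_lit 5) (nat_lit 183) (nat_lit 5) (nat_lit 396) (nat_lit 381) (nat_lit 168)) (XT.lf (nat_lit 84) (nat_lit 4150151379) (nat_lit 0) (nat_lit 13715113239) (nat_lit 1344) (nat_lit 19252214865) (nat_lit 168) (nat_lit 5) (nat_lit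 167) (nat_lit 5) (nat_lit 183) (nat_lit 5) (nat_lit 397) (nat_lit 381) (nat_lit 167))) (XT.nd (nat_lit 94) (nat_lit 1260) (nat_lit 0) (XT.lf (nat_lit 0) (nat_lit 20411516036) (nat_lit 1260) (nat_lit 16240758937) (nat_lit 84) (nat_lit 1084652674) (nat_lit 168) (nat_lit 5) (nat_lit 183) (nat_lit 5) (nat_lit 169) (nat_lit 5) (nat_lit 398) (nat_lit 381) (nat_lit 166)) (XT.lf (nat_lit 0) (nat_lit 867167865) (nat_lit 1260) (nat_lit 22309291951) (nat_lit 1344) (nat_lit 15194233540) (nat_lit 153) (nat_lit 5) (nat_lit 168) (nat_lit 5) (nat_lit 169) (nat_lit 5) (nat_lit 399) (nat_lit 381) (nat_lit 165))))) (XT.nd (nat_lit 282) (nat_lit 1260) (nat_lit 0) (XT.nd (nat_lit 94) (nat_lit 588) (nat_lit 0) (XT.lf (nat_lit 0) (nat_lit 18819699671) (nat_lit 1260) (nat_lit 7366866138) (nat_lit 1344) (nat_lit 12832042960) (nat_lit 153) (nat_lit 5) (nat_lit 168) (nat_lit 5) (nat_lit 169) (nat_lit 5) (nat_lit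 400) (nat_lit 381) (nat_lit 164)) (XT.nd (nat_lit 94) (nat_lit 588) (nat_lit 0) (XT.lf (nat_lit 0) (nat_lit 29362373244) (nat_lit 1344) (nat_lit 2453848676) (nat_lit 84) (nat_lit 7867480836) (nat_lit 153) (nat_lit 5) (nat_lit 169) (nat_lit 5) (nat_lit 154) (nat_lit 5) (nat_lit 401) (nat_lit 381) (nat_lit 163)) (XT.lf (nat_lit 0) (nat_lit 16062543459) (nat_lit 588) (nat_lit 16796572419) (nat_lit 672) (nat_lit 7502866825) (nat_lit 146) (nat_lit 5) (nat_lit 153) (nat_lit 5) (nat_lit 154) (nat_lit 5) (nat_lit 402) (nat_lit 381) (nat_lit 162)))) (XT.nd (nat_lit 188) (nat_lit 672) (nat_lit 0) (XT.nd (nat_lit 94) (nat_lit 588) (nat_lit 0) (XT.lf (nat_lit 0) (nat_lit 35183224835) (nat_lit 588) (nat_lit 1300668242) (nat_lit 672) (nat_lit 4576026885) (nat_lit 146) (nat_lit 5) (nat_lit 153) (nat_lit 5) (nat_lit 154) (nat_lit 5) (nat_lit 403) (nat_lit 381) (nat_lit 161)) (XT.lf (nat_lit 0) (nat_lit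 13214152745) (nat_lit 588) (nat_lit 27269607865) (nat_lit 672) (nat_lit 1287047118) (nat_lit 139) (nat_lit 5) (nat_lit 146) (nat_lit 5) (nat_lit 147) (nat_lit 5) (nat_lit 404) (nat_lit 381) (nat_lit 160))) (XT.nd (nat_lit 94) (nat_lit 588) (nat_lit 0) (XT.lf (nat_lit 0) (nat_lit 2130836778) (nat_lit 672) (nat_lit 9538238654) (nat_lit 84) (nat_lit 30831206814) (nat_lit 138) (nat_lit 5) (nat_lit 146) (nat_lit 5) (nat_lit 139) (nat_lit 5) (nat_lit 405) (nat_lit 381) (nat_lit 159)) (XT.lf (nat_lit 0) (nat_lit 5765639802) (nat_lit 672) (nat_lit 33055500654) (nat_lit 84) (nat_lit 4425913285) (nat_lit 131) (nat_lit 5) (nat_lit 139) (nat_lit 5) (nat_lit 132) (nat_lit 5) (nat_lit 406) (nat_lit 381) (nat_lit 158)))))) (XT.nd (nat_lit 658) (nat_lit 1428) (nat_lit 0) (XT.nd (nat_lit 282) (nat_lit 1008) (nat_lit 0) (XT.nd (nat_lit 94) (nat_lit 588) (nat_lit 0) (XT.lf (nat_lit 0) (nat_lit 9720787032)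 (nat_lit 672) (nat_lit 13422585235) (nat_lit 84) (nat_lit 20866519597) (nat_lit 131) (nat_lit 5) (nat_lit 139) (nat_lit 5) (nat_lit 132) (nat_lit 5) (nat_lit 407) (nat_lit 381) (nat_lit 157)) (XT.nd (nat_lit 94) (nat_lit 0) (nat_lit 0) (XT.lf (nat_lit 0) (nat_lit 6933131843) (nat_lit 588) (nat_lit 6926639785) (nat_lit 672) (nat_lit 30933890427) (nat_lit 124) (nat_lit 5) (nat_lit 131) (nat_lit 5) (nat_lit 132) (nat_lit 5) (nat_lit 408) (nat_lit 381) (nat_lit 156)) (XT.lf (nat_lit 0) (nat_lit 18352353890) (nat_lit 672) (nat_lit 17519036238) (nat_lit 84) (nat_lit 9722674726) (nat_lit 124) (nat_lit 5) (nat_lit 132) (nat_lit 5) (nat_lit 125) (nat_lit 5) (nat_lit 409) (nat_lit 381) (nat_lit 155)))) (XT.nd (nat_lit 188) (nat_lit 504) (nat_lit 0) (XT.nd (nat_lit 94) (nat_lit 0) (nat_lit 0) (XT.lf (nat_lit 0) (nat_lit 3429582555) (nat_lit 504) (nat_lit 19650286403) (nat_lit 588) (nat_lit 23335608394)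 (nat_lit 118) (nat_lit 5) (nat_lit 124) (nat_lit 5) (nat_lit 125) (nat_lit 5) (nat_lit 410) (nat_lit 381) (nat_lit 154)) (XT.lf (nat_lit 0) (nat_lit 25364334406) (nat_lit 504) (nat_lit 2760417122) (nat_lit 588) (nat_lit 19131516645) (nat_lit 118) (nat_lit 5) (nat_lit 124) (nat_lit 5) (nat_lit 125) (nat_lit 5) (nat_lit 411) (nat_lit 381) (nat_lit 153))) (XT.nd (nat_lit 94) (nat_lit 504) (nat_lit 0) (XT.lf (nat_lit 0) (nat_lit 33460345333) (nat_lit 588) (nat_lit 307293055) (nat_lit 84) (nat_lit 14350465533) (nat_lit 118) (nat_lit 5) (nat_lit 125) (nat_lit 5) (nat_lit 119) (nat_lit 5) (nat_lit 412) (nat_lit 381) (nat_lit 152)) (XT.lf (nat_lit 0) (nat_lit 22331926970) (nat_lit 504) (nat_lit 16864790781) (nat_lit 588) (nat_lit 9801857750) (nat_lit 112) (nat_lit 5) (nat_lit 118) (nat_lit 5) (nat_lit 119) (nat_lit 5) (nat_lit 413) (nat_lit 381) (nat_lit 151))))) (XT.nd (nat_lit 282) (nat_lit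 924) (nat_lit 0) (XT.nd (nat_lit 94) (nat_lit 504) (nat_lit 0) (XT.lf (nat_lit 0) (nat_lit 45112290072) (nat_lit 588) (nat_lit 4255446615) (nat_lit 84) (nat_lit 537513300) (nat_lit 112) (nat_lit 5) (nat_lit 119) (nat_lit 5) (nat_lit 113) (nat_lit 5) (nat_lit 414) (nat_lit 381) (nat_lit 150)) (XT.nd (nat_lit 94) (nat_lit 0) (nat_lit 0) (XT.lf (nat_lit 0) (nat_lit 711197476) (nat_lit 504) (nat_lit 31804548872) (nat_lit 84) (nat_lit 18312710504) (nat_lit 106) (nat_lit 5) (nat_lit 112) (nat_lit 5) (nat_lit 107) (nat_lit 5) (nat_lit 415) (nat_lit 381) (nat_lit 149)) (XT.lf (nat_lit 0) (nat_lit 6326323288) (nat_lit 504) (nat_lit 8738476751) (nat_lit 84) (nat_lit 36711872758) (nat_lit 106) (nat_lit 5) (nat_lit 112) (nat_lit 5) (nat_lit 107) (nat_lit 5) (nat_lit 416) (nat_lit 381) (nat_lit 148)))) (XT.nd (nat_lit 188) (nat_lit 420) (nat_lit 0) (XT.nd (nat_lit 94) (nat_lit 0) (nat_lit 0) (XT.lf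 (nat_lit 0) (nat_lit 12285381815) (nat_lit 588) (nat_lit 37461271953) (nat_lit 84) (nat_lit 3001418883) (nat_lit 100) (nat_lit 5) (nat_lit 107) (nat_lit 5) (nat_lit 101) (nat_lit 5) (nat_lit 417) (nat_lit 381) (nat_lit 147)) (XT.lf (nat_lit 0) (nat_lit 18660319304) (nat_lit 588) (nat_lit 13685412561) (nat_lit 84) (nat_lit 21395771163) (nat_lit 100) (nat_lit 5) (nat_lit 107) (nat_lit 5) (nat_lit 101) (nat_lit 5) (nat_lit 418) (nat_lit 381) (nat_lit 146))) (XT.nd (nat_lit 94) (nat_lit 0) (nat_lit 0) (XT.lf (nat_lit 0) (nat_lit 11017369554) (nat_lit 420) (nat_lit 14313910583) (nat_lit 504) (nat_lit 29430314614) (nat_lit 95) (nat_lit 5) (nat_lit 100) (nat_lit 5) (nat_lit 101) (nat_lit 5) (nat_lit 419) (nat_lit 381) (nat_lit 145)) (XT.lf (nat_lit 0) (nat_lit 32381760309) (nat_lit 504) (nat_lit 19110039099) (nat_lit 84) (nat_lit 4315109748) (nat_lit 95) (nat_lit 5) (nat_lit 101) (nat_lit 5)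 (nat_lit 96) (nat_lit 5) (nat_lit 420) (nat_lit 381) (nat_lit 144))))))) (XT.nd (nat_lit 1316) (nat_lit 1848) (nat_lit 0) (XT.nd (nat_lit 658) (nat_lit 1092) (nat_lit 0) (XT.nd (nat_lit 282) (nat_lit 504) (nat_lit 0) (XT.nd (nat_lit 94) (nat_lit 336) (nat_lit 0) (XT.lf (nat_lit 0) (nat_lit 6241931587) (nat_lit 420) (nat_lit 33602466435) (nat_lit 504) (nat_lit 17033167275) (nat_lit 90) (nat_lit 5) (nat_lit 95) (nat_lit 5) (nat_lit 96) (nat_lit 5) (nat_lit 421) (nat_lit 381) (nat_lit 143)) (XT.nd (nat_lit 94) (nat_lit 336) (nat_lit 0) (XT.lf (nat_lit 0) (nat_lit 32744889744) (nat_lit 420) (nat_lit 14977937908) (nat_lit 504) (nat_lit 10251757634) (nat_lit 90) (nat_lit 5) (nat_lit 95) (nat_lit 5) (nat_lit 96) (nat_lit 5) (nat_lit 422) (nat_lit 381) (nat_lit 142)) (XT.lf (nat_lit 0) (nat_lit 914541905) (nat_lit 336) (nat_lit 54971251032) (nat_lit 420) (nat_lit 3217278961) (nat_lit 86) (nat_lit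 5) (nat_lit 90) (nat_lit 5) (nat_lit 91) (nat_lit 5) (nat_lit 423) (nat_lit 381) (nat_lit 141)))) (XT.nd (nat_lit 188) (nat_lit 420) (nat_lit 0) (XT.nd (nat_lit 94) (nat_lit 0) (nat_lit 0) (XT.lf (nat_lit 0) (nat_lit 4354191736) (nat_lit 420) (nat_lit 32088330032) (nat_lit 84) (nat_lit 23809594212) (nat_lit 85) (nat_lit 5) (nat_lit 90) (nat_lit 5) (nat_lit 86) (nat_lit 5) (nat_lit 424) (nat_lit 381) (nat_lit 140)) (XT.lf (nat_lit 0) (nat_lit 12087145997) (nat_lit 420) (nat_lit 5238249961) (nat_lit 84) (nat_lit 44109311068) (nat_lit 85) (nat_lit 5) (nat_lit 90) (nat_lit 5) (nat_lit 86) (nat_lit 5) (nat_lit 425) (nat_lit 381) (nat_lit 139))) (XT.nd (nat_lit 94) (nat_lit 0) (nat_lit 0) (XT.lf (nat_lit 0) (nat_lit 20295796637) (nat_lit 504) (nat_lit 39808900486) (nat_lit 84) (nat_lit 2540768786) (nat_lit 80) (nat_lit 5) (nat_lit 86) (nat_lit 5) (nat_lit 81) (nat_lit 5) (nat_lit 426) (nat_lit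 381) (nat_lit 138)) (XT.lf (nat_lit 0) (nat_lit 28974711548) (nat_lit 504) (nat_lit 12203268433) (nat_lit 84) (nat_lit 22707848732) (nat_lit 80) (nat_lit 5) (nat_lit 86) (nat_lit 5) (nat_lit 81) (nat_lit 5) (nat_lit 427) (nat_lit 381) (nat_lit 137))))) (XT.nd (nat_lit 282) (nat_lit 420) (nat_lit 0) (XT.nd (nat_lit 94) (nat_lit 336) (nat_lit 0) (XT.lf (nat_lit 0) (nat_lit 16552314537) (nat_lit 336) (nat_lit 21519864520) (nat_lit 420) (nat_lit 27086479051) (nat_lit 76) (nat_lit 5) (nat_lit 80) (nat_lit 5) (nat_lit 81) (nat_lit 5) (nat_lit 428) (nat_lit 381) (nat_lit 136)) (XT.nd (nat_lit 94) (nat_lit 336) (nat_lit 0) (XT.lf (nat_lit 0) (nat_lit 46419518611) (nat_lit 336) (nat_lit 1145370657) (nat_lit 420) (nat_lit 18901114778) (nat_lit 76) (nat_lit 5) (nat_lit 80) (nat_lit 5) (nat_lit 81) (nat_lit 5) (nat_lit 429) (nat_lit 381) (nat_lit 135)) (XT.lf (nat_lit 0) (nat_lit 9360924723) (nat_lit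 336) (nat_lit 48261270052) (nat_lit 420) (nat_lit 10181982358) (nat_lit 72) (nat_lit 5) (nat_lit 76) (nat_lit 5) (nat_lit 77) (nat_lit 5) (nat_lit 430) (nat_lit 381) (nat_lit 134)))) (XT.nd (nat_lit 188) (nat_lit 0) (nat_lit 0) (XT.nd (nat_lit 94) (nat_lit 420) (nat_lit 0) (XT.lf (nat_lit 0) (nat_lit 40048744749) (nat_lit 336) (nat_lit 28145261895) (nat_lit 420) (nat_lit 982106304) (nat_lit 72) (nat_lit 5) (nat_lit 76) (nat_lit 5) (nat_lit 77) (nat_lit 5) (nat_lit 431) (nat_lit 381) (nat_lit 133)) (XT.lf (nat_lit 0) (nat_lit 1004788806) (nat_lit 336) (nat_lit 7332035699) (nat_lit 420) (nat_lit 62249669928) (nat_lit 67) (nat_lit 5) (nat_lit 71) (nat_lit 5) (nat_lit 72) (nat_lit 5) (nat_lit 432) (nat_lit 381) (nat_lit 132))) (XT.nd (nat_lit 94) (nat_lit 0) (nat_lit 0) (XT.lf (nat_lit 0) (nat_lit 18347371570) (nat_lit 420) (nat_lit 39541773446) (nat_lit 84) (nat_lit 14136798056) (nat_lit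 67) (nat_lit 5) (nat_lit 72) (nat_lit 5) (nat_lit 68) (nat_lit 5) (nat_lit 433) (nat_lit 381) (nat_lit 131)) (XT.lf (nat_lit 0) (nat_lit 28730008765) (nat_lit 420) (nat_lit 8674378921) (nat_lit 84) (nat_lit 36102035298) (nat_lit 67) (nat_lit 5) (nat_lit 72) (nat_lit 5) (nat_lit 68) (nat_lit 5) (nat_lit 434) (nat_lit 381) (nat_lit 130)))))) (XT.nd (nat_lit 658) (nat_lit 840) (nat_lit 0) (XT.nd (nat_lit 282) (nat_lit 420) (nat_lit 0) (XT.nd (nat_lit 94) (nat_lit 252) (nat_lit 0) (XT.lf (nat_lit 0) (nat_lit 23578021594) (nat_lit 336) (nat_lit 16071953056) (nat_lit 420) (nat_lit 35374568150) (nat_lit 63) (nat_lit 5) (nat_lit 67) (nat_lit 5) (nat_lit 68) (nat_lit 5) (nat_lit 435) (nat_lit 381) (nat_lit 129)) (XT.nd (nat_lit 94) (nat_lit 252) (nat_lit 0) (XT.lf (nat_lit 0) (nat_lit 51041932643) (nat_lit 420) (nat_lit 19668472634) (nat_lit 84) (nat_lit 5873470107) (nat_lit 63) (nat_lit 5) (nat_lit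 68) (nat_lit 5) (nat_lit 64) (nat_lit 5) (nat_lit 436) (nat_lit 381) (nat_lit 128)) (XT.lf (nat_lit 0) (nat_lit 13159492231) (nat_lit 252) (nat_lit 49901018268) (nat_lit 336) (nat_lit 15120932549) (nat_lit 60) (nat_lit 5) (nat_lit 63) (nat_lit 5) (nat_lit 64) (nat_lit 5) (nat_lit 437) (nat_lit 381) (nat_lit 127)))) (XT.nd (nat_lit 188) (nat_lit 0) (nat_lit 0) (XT.nd (nat_lit 94) (nat_lit 420) (nat_lit 0) (XT.lf (nat_lit 0) (nat_lit 47374405087) (nat_lit 252) (nat_lit 28263101322) (nat_lit 336) (nat_lit 4183496422) (nat_lit 60) (nat_lit 5) (nat_lit 63) (nat_lit 5) (nat_lit 64) (nat_lit 5) (nat_lit 438) (nat_lit 381) (nat_lit 126)) (XT.lf (nat_lit 0) (nat_lit 1057515133) (nat_lit 336) (nat_lit 5895778105) (nat_lit 420) (nat_lit 74554131903) (nat_lit 55) (nat_lit 5) (nat_lit 59) (nat_lit 5) (nat_lit 60) (nat_lit 5) (nat_lit 439) (nat_lit 381) (nat_lit 125))) (XT.nd (nat_lit 94) (nat_lit 0)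 (nat_lit 0) (XT.lf (nat_lit 0) (nat_lit 18835048170) (nat_lit 420) (nat_lit 47213254232) (nat_lit 84) (nat_lit 17180047559) (nat_lit 55) (nat_lit 5) (nat_lit 60) (nat_lit 5) (nat_lit 56) (nat_lit 5) (nat_lit 440) (nat_lit 381) (nat_lit 124)) (XT.lf (nat_lit 0) (nat_lit 31130920906) (nat_lit 420) (nat_lit 13038910449) (nat_lit 84) (nat_lit 40829342024) (nat_lit 55) (nat_lit 5) (nat_lit 60) (nat_lit 5) (nat_lit 56) (nat_lit 5) (nat_lit 441) (nat_lit 381) (nat_lit 123))))) (XT.nd (nat_lit 282) (nat_lit 336) (nat_lit 0) (XT.nd (nat_lit 94) (nat_lit 252) (nat_lit 0) (XT.lf (nat_lit 0) (nat_lit 22600676852) (nat_lit 252) (nat_lit 21411556266) (nat_lit 336) (nat_lit 42804392267) (nat_lit 52) (nat_lit 5) (nat_lit 55) (nat_lit 5) (nat_lit 56) (nat_lit 5) (nat_lit 442) (nat_lit 381) (nat_lit 122)) (XT.nd (nat_lit 94) (nat_lit 252) (nat_lit 0) (XT.lf (nat_lit 0) (nat_lit 57431783390) (nat_lit 336)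 (nat_lit 29129741943) (nat_lit 84) (nat_lit 2122522421) (nat_lit 52) (nat_lit 5) (nat_lit 56) (nat_lit 5) (nat_lit 53) (nat_lit 5) (nat_lit 443) (nat_lit 381) (nat_lit 121)) (XT.lf (nat_lit 0) (nat_lit 6931324371) (nat_lit 252) (nat_lit 64600558511) (nat_lit 336) (nat_lit 19067271770) (nat_lit 49) (nat_lit 5) (nat_lit 52) (nat_lit 5) (nat_lit 53) (nat_lit 5) (nat_lit 444) (nat_lit 381) (nat_lit 120)))) (XT.nd (nat_lit 188) (nat_lit 252) (nat_lit 0) (XT.nd (nat_lit 94) (nat_lit 84) (nat_lit 0) (XT.lf (nat_lit 0) (nat_lit 44670377522) (nat_lit 252) (nat_lit 41678109960) (nat_lit 336) (nat_lit 6214422931) (nat_lit 49) (nat_lit 5) (nat_lit 52) (nat_lit 5) (nat_lit 53) (nat_lit 5) (nat_lit 445) (nat_lit 381) (nat_lit 119)) (XT.lf (nat_lit 0) (nat_lit 6886308478) (nat_lit 336) (nat_lit 11112456939) (nat_lit 84) (nat_lit 76584807708) (nat_lit 48) (nat_lit 5) (nat_lit 52) (nat_lit 5) (nat_lit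 49) (nat_lit 5) (nat_lit 446) (nat_lit 381) (nat_lit 118))) (XT.nd (nat_lit 94) (nat_lit 0) (nat_lit 0) (XT.lf (nat_lit 0) (nat_lit 20581018748) (nat_lit 336) (nat_lit 69479694450) (nat_lit 84) (nat_lit 6592521490) (nat_lit 45) (nat_lit 5) (nat_lit 49) (nat_lit 5) (nat_lit 46) (nat_lit 5) (nat_lit 447) (nat_lit 381) (nat_lit 117)) (XT.lf (nat_lit 0) (nat_lit 34977486646) (nat_lit 336) (nat_lit 32125964591) (nat_lit 84) (nat_lit 31672808010) (nat_lit 45) (nat_lit 5) (nat_lit 49) (nat_lit 5) (nat_lit 46) (nat_lit 5) (nat_lit 448) (nat_lit 381) (nat_lit 116))))))))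
noncomputable def xc212 : XT := (XT.nd (nat_lit 54802) (nat_lit 0) (nat_lit 3696) (XT.nd (nat_lit 53486) (nat_lit 0) (nat_lit 9828) (XT.nd (nat_lit 564) (nat_lit 252) (nat_lit 0) (XT.nd (nat_lit 282) (nat_lit 252) (nat_lit 0) (XT.nd (nat_lit 94) (nat_lit 0) (nat_lit 0) (XT.lf (nat_lit 0) (nat_lit 6473791444) (nat_lit 252) (nat_lit 43393690740) (nat_lit 336) (nat_lit 51093643969) (nat_lit 42) (nat_lit 5) (nat_lit 45) (nat_lit 5) (nat_lit 46) (nat_lit 5) (nat_lit 449) (nat_lit 381) (nat_lit 115)) (XT.nd (nat_lit 94) (nat_lit 0) (nat_lit 0) (XT.lf (nat_lit 0) (nat_lit 46889187178) (nat_lit 252) (nat_lit 18638811905) (nat_lit 336) (nat_lit 37673825941) (nat_lit 42) (nat_lit 5) (nat_lit 45) (nat_lit 5) (nat_lit 46) (nat_lit 5) (nat_lit 450) (nat_lit 381) (nat_lit 114)) (XT.lf (nat_lit 0) (nat_lit 81723688052) (nat_lit 336) (nat_lit 17059522417) (nat_lit 84) (nat_lit 6724574281) (nat_lit 42)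 (nat_lit 5) (nat_lit 46) (nat_lit 5) (nat_lit 43) (nat_lit 5) (nat_lit 451) (nat_lit 381) (nat_lit 113)))) (XT.nd (nat_lit 94) (nat_lit 84) (nat_lit 0) (XT.lf (nat_lit 0) (nat_lit 23647220013) (nat_lit 168) (nat_lit 75169325032) (nat_lit 252) (nat_lit 9054039866) (nat_lit 40) (nat_lit 5) (nat_lit 42) (nat_lit 5) (nat_lit 43) (nat_lit 5) (nat_lit 452) (nat_lit 381) (nat_lit 112)) (XT.nd (nat_lit 94) (nat_lit 0) (nat_lit 0) (XT.lf (nat_lit 0) (nat_lit 6171954508) (nat_lit 252) (nat_lit 44435616936) (nat_lit 84) (nat_lit 59689731342) (nat_lit 39) (nat_lit 5) (nat_lit 42) (nat_lit 5) (nat_lit 40) (nat_lit 5) (nat_lit 453) (nat_lit 381) (nat_lit 111)) (XT.lf (nat_lit 0) (nat_lit 21672212760) (nat_lit 252) (nat_lit 3544724464) (nat_lit 84) (nat_lit 87577212332) (nat_lit 39) (nat_lit 5) (nat_lit 42) (nat_lit 5) (nat_lit 40) (nat_lit 5) (nat_lit 454) (nat_lit 381) (nat_lit 110))))) (XT.nd (nat_lit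 52546) (nat_lit 0) (nat_lit 10500) (XT.nd (nat_lit 94) (nat_lit 0) (nat_lit 0) (XT.lf (nat_lit 0) (nat_lit 38027846412) (nat_lit 336) (nat_lit 76027570953) (nat_lit 84) (nat_lit 1298773841) (nat_lit 36) (nat_lit 5) (nat_lit 40) (nat_lit 5) (nat_lit 37) (nat_lit 5) (nat_lit 455) (nat_lit 381) (nat_lit 109)) (XT.nd (nat_lit 52358) (nat_lit 0) (nat_lit 11760) (XT.lf (nat_lit 0) (nat_lit 55159452454) (nat_lit 336) (nat_lit 34684043093) (nat_lit 84) (nat_lit 28138979946) (nat_lit 36) (nat_lit 5) (nat_lit 40) (nat_lit 5) (nat_lit 37) (nat_lit 5) (nat_lit 456) (nat_lit 381) (nat_lit 108)) (XT.lf (nat_lit 0) (nat_lit 14813383595) (nat_lit 1260) (nat_lit 39602323) (nat_lit 1260) (nat_lit 39602323) (nat_lit 176) (nat_lit 3) (nat_lit 191) (nat_lit 3) (nat_lit 191) (nat_lit 5) (nat_lit 382) (nat_lit 382) (nat_lit 181)))) (XT.nd (nat_lit 188) (nat_lit 0) (nat_lit 84) (XT.nd (nat_lit 94) (nat_lit 0)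 (nat_lit 0) (XT.lf (nat_lit 0) (nat_lit 37623714) (nat_lit 1260) (nat_lit 17176884182) (nat_lit 1344) (nat_lit 13011508686) (nat_lit 161) (nat_lit 5) (nat_lit 176) (nat_lit 3) (nat_lit 177) (nat_lit 5) (nat_lit 383) (nat_lit 382) (nat_lit 180)) (XT.lf (nat_lit 0) (nat_lit 234471189) (nat_lit 1260) (nat_lit 4110141733) (nat_lit 1344) (nat_lit 26335483298) (nat_lit 161) (nat_lit 5) (nat_lit 176) (nat_lit 3) (nat_lit 177) (nat_lit 5) (nat_lit 384) (nat_lit 382) (nat_lit 179))) (XT.nd (nat_lit 94) (nat_lit 0) (nat_lit 0) (XT.lf (nat_lit 0) (nat_lit 612831743) (nat_lit 1260) (nat_lit 21698490664) (nat_lit 1344) (nat_lit 8831212377) (nat_lit 162) (nat_lit 5) (nat_lit 177) (nat_lit 5) (nat_lit 178) (nat_lit 5) (nat_lit 385) (nat_lit 382) (nat_lit 178)) (XT.lf (nat_lit 0) (nat_lit 1084936140) (nat_lit 1260) (nat_lit 8173405687) (nat_lit 1344) (nat_lit 22358037514) (nat_lit 162) (nat_lit 5) (nat_lit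 177) (nat_lit 5) (nat_lit 178) (nat_lit 5) (nat_lit 386) (nat_lit 382) (nat_lit 177)))))) (XT.nd (nat_lit 658) (nat_lit 840) (nat_lit 0) (XT.nd (nat_lit 282) (nat_lit 0) (nat_lit 84) (XT.nd (nat_lit 94) (nat_lit 0) (nat_lit 0) (XT.lf (nat_lit 0) (nat_lit 1665979730) (nat_lit 1260) (nat_lit 26273090081) (nat_lit 1344) (nat_lit 4162530633) (nat_lit 163) (nat_lit 5) (nat_lit 178) (nat_lit 5) (nat_lit 179) (nat_lit 5) (nat_lit 387) (nat_lit 382) (nat_lit 176)) (XT.nd (nat_lit 94) (nat_lit 0) (nat_lit 0) (XT.lf (nat_lit 0) (nat_lit 2437077039) (nat_lit 1260) (nat_lit 12274870670) (nat_lit 1344) (nat_lit 17884256160) (nat_lit 163) (nat_lit 5) (nat_lit 178) (nat_lit 5) (nat_lit 179) (nat_lit 5) (nat_lit 388) (nat_lit 382) (nat_lit 175)) (XT.lf (nat_lit 84) (nat_lit 2184450641) (nat_lit 0) (nat_lit 1065527821) (nat_lit 1344) (nat_lit 29855111032) (nat_lit 164) (nat_lit 5) (nat_lit 163) (nat_lit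 5) (nat_lit 179) (nat_lit 5) (nat_lit 389) (nat_lit 382) (nat_lit 174)))) (XT.nd (nat_lit 188) (nat_lit 0) (nat_lit 84) (XT.nd (nat_lit 94) (nat_lit 0) (nat_lit 0) (XT.lf (nat_lit 0) (nat_lit 4335051410) (nat_lit 1260) (nat_lit 16423983449) (nat_lit 1344) (nat_lit 12862777406) (nat_lit 164) (nat_lit 5) (nat_lit 179) (nat_lit 5) (nat_lit 180) (nat_lit 5) (nat_lit 390) (nat_lit 382) (nat_lit 173)) (XT.lf (nat_lit 0) (nat_lit 5461026855) (nat_lit 1260) (nat_lit 1504470316) (nat_lit 1344) (nat_lit 27188293030) (nat_lit 164) (nat_lit 5) (nat_lit 179) (nat_lit 5) (nat_lit 180) (nat_lit 5) (nat_lit 391) (nat_lit 382) (nat_lit 172))) (XT.nd (nat_lit 94) (nat_lit 0) (nat_lit 0) (XT.lf (nat_lit 0) (nat_lit 6825505216) (nat_lit 1260) (nat_lit 20631639570) (nat_lit 1344) (nat_lit 7238444853) (nat_lit 165) (nat_lit 5) (nat_lit 180) (nat_lit 5) (nat_lit 181) (nat_lit 5) (nat_lit 392) (nat_lit 382) (nat_lit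 171)) (XT.lf (nat_lit 0) (nat_lit 8313145134) (nat_lit 1260) (nat_lit 5193546931) (nat_lit 1344) (nat_lit 21744487940) (nat_lit 165) (nat_lit 5) (nat_lit 180) (nat_lit 5) (nat_lit 181) (nat_lit 5) (nat_lit 393) (nat_lit 382) (nat_lit 170))))) (XT.nd (nat_lit 282) (nat_lit 1092) (nat_lit 0) (XT.nd (nat_lit 94) (nat_lit 0) (nat_lit 0) (XT.lf (nat_lit 0) (nat_lit 9957690415) (nat_lit 1260) (nat_lit 24910386624) (nat_lit 1344) (nat_lit 951996411) (nat_lit 166) (nat_lit 5) (nat_lit 181) (nat_lit 5) (nat_lit 182) (nat_lit 5) (nat_lit 394) (nat_lit 382) (nat_lit 169)) (XT.nd (nat_lit 94) (nat_lit 0) (nat_lit 0) (XT.lf (nat_lit 0) (nat_lit 11836295418) (nat_lit 1260) (nat_lit 8937745773) (nat_lit 1344) (nat_lit 15626454353) (nat_lit 166) (nat_lit 5) (nat_lit 181) (nat_lit 5) (nat_lit 182) (nat_lit 5) (nat_lit 395) (nat_lit 382) (nat_lit 168)) (XT.lf (nat_lit 84) (nat_lit 7662117233) (nat_lit 0)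 (nat_lit 6180881523) (nat_lit 1344) (nat_lit 23153182782) (nat_lit 167) (nat_lit 5) (nat_lit 166) (nat_lit 5) (nat_lit 182) (nat_lit 5) (nat_lit 396) (nat_lit 382) (nat_lit 167)))) (XT.nd (nat_lit 188) (nat_lit 1176) (nat_lit 0) (XT.nd (nat_lit 94) (nat_lit 0) (nat_lit 0) (XT.lf (nat_lit 0) (nat_lit 16084255710) (nat_lit 1260) (nat_lit 12751326843) (nat_lit 1344) (nat_lit 8768928324) (nat_lit 167) (nat_lit 5) (nat_lit 182) (nat_lit 5) (nat_lit 183) (nat_lit 5) (nat_lit 397) (nat_lit 382) (nat_lit 166)) (XT.lf (nat_lit 84) (nat_lit 4351124746) (nat_lit 0) (nat_lit 14142835419) (nat_lit 1344) (nat_lit 19734096882) (nat_lit 168) (nat_lit 5) (nat_lit 167) (nat_lit 5) (nat_lit 183) (nat_lit 5) (nat_lit 398) (nat_lit 382) (nat_lit 165))) (XT.nd (nat_lit 94) (nat_lit 1260) (nat_lit 0) (XT.lf (nat_lit 0) (nat_lit 21113746199) (nat_lit 1260) (nat_lit 16650727306) (nat_lit 84) (nat_lit 1101705535)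 (nat_lit 168) (nat_lit 5) (nat_lit 183) (nat_lit 5) (nat_lit 169) (nat_lit 5) (nat_lit 399) (nat_lit 382) (nat_lit 164)) (XT.lf (nat_lit 0) (nat_lit 969679904) (nat_lit 1260) (nat_lit 22990075724) (nat_lit 1344) (nat_lit 15559263230) (nat_lit 153) (nat_lit 5) (nat_lit 168) (nat_lit 5) (nat_lit 169) (nat_lit 5) (nat_lit 400) (nat_lit 382) (nat_lit 163))))))) (XT.nd (nat_lit 1316) (nat_lit 2688) (nat_lit 0) (XT.nd (nat_lit 658) (nat_lit 1596) (nat_lit 0) (XT.nd (nat_lit 282) (nat_lit 1260) (nat_lit 0) (XT.nd (nat_lit 94) (nat_lit 588) (nat_lit 0) (XT.lf (nat_lit 0) (nat_lit 19458559596) (nat_lit 1260) (nat_lit 7599042040) (nat_lit 1344) (nat_lit 13128851515) (nat_lit 153) (nat_lit 5) (nat_lit 168) (nat_lit 5) (nat_lit 169) (nat_lit 5) (nat_lit 401) (nat_lit 382) (nat_lit 162)) (XT.nd (nat_lit 94) (nat_lit 588) (nat_lit 0) (XT.lf (nat_lit 0) (nat_lit 30326090539) (nat_lit 1344) (nat_lit 2452619293)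 (nat_lit 84) (nat_lit 8092872297) (nat_lit 153) (nat_lit 5) (nat_lit 169) (nat_lit 5) (nat_lit 154) (nat_lit 5) (nat_lit 402) (nat_lit 382) (nat_lit 161)) (XT.lf (nat_lit 0) (nat_lit 16618530833) (nat_lit 588) (nat_lit 17307504026) (nat_lit 672) (nat_lit 7644230895) (nat_lit 146) (nat_lit 5) (nat_lit 153) (nat_lit 5) (nat_lit 154) (nat_lit 5) (nat_lit 403) (nat_lit 382) (nat_lit 160)))) (XT.nd (nat_lit 188) (nat_lit 672) (nat_lit 0) (XT.nd (nat_lit 94) (nat_lit 588) (nat_lit 0) (XT.lf (nat_lit 0) (nat_lit 36310674076) (nat_lit 588) (nat_lit 1346517838) (nat_lit 672) (nat_lit 4632024260) (nat_lit 146) (nat_lit 5) (nat_lit 153) (nat_lit 5) (nat_lit 154) (nat_lit 5) (nat_lit 404) (nat_lit 382) (nat_lit 159)) (XT.lf (nat_lit 0) (nat_lit 13684366277) (nat_lit 588) (nat_lit 28091040139) (nat_lit 672) (nat_lit 1246077645) (nat_lit 139) (nat_lit 5) (nat_lit 146) (nat_lit 5) (nat_lit 147) (nat_lit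 5) (nat_lit 405) (nat_lit 382) (nat_lit 158))) (XT.nd (nat_lit 94) (nat_lit 588) (nat_lit 0) (XT.lf (nat_lit 0) (nat_lit 2270517200) (nat_lit 672) (nat_lit 9751112155) (nat_lit 84) (nat_lit 31751262477) (nat_lit 138) (nat_lit 5) (nat_lit 146) (nat_lit 5) (nat_lit 139) (nat_lit 5) (nat_lit 406) (nat_lit 382) (nat_lit 157)) (XT.lf (nat_lit 0) (nat_lit 6012839039) (nat_lit 672) (nat_lit 33972244194) (nat_lit 84) (nat_lit 4557032672) (nat_lit 131) (nat_lit 5) (nat_lit 139) (nat_lit 5) (nat_lit 132) (nat_lit 5) (nat_lit 407) (nat_lit 382) (nat_lit 156))))) (XT.nd (nat_lit 282) (nat_lit 1008) (nat_lit 0) (XT.nd (nat_lit 94) (nat_lit 588) (nat_lit 0) (XT.lf (nat_lit 0) (nat_lit 10084478646) (nat_lit 672) (nat_lit 13752523491) (nat_lit 84) (nat_lit 21490905465) (nat_lit 131) (nat_lit 5) (nat_lit 139) (nat_lit 5) (nat_lit 132) (nat_lit 5) (nat_lit 408) (nat_lit 382) (nat_lit 155)) (XT.nd (nat_lit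 94) (nat_lit 0) (nat_lit 0) (XT.lf (nat_lit 0) (nat_lit 7213151969) (nat_lit 588) (nat_lit 7133074103) (nat_lit 672) (nat_lit 31789010495) (nat_lit 124) (nat_lit 5) (nat_lit 131) (nat_lit 5) (nat_lit 132) (nat_lit 5) (nat_lit 409) (nat_lit 382) (nat_lit 154)) (XT.lf (nat_lit 0) (nat_lit 18971540443) (nat_lit 672) (nat_lit 17972521500) (nat_lit 84) (nat_lit 10015654232) (nat_lit 124) (nat_lit 5) (nat_lit 132) (nat_lit 5) (nat_lit 125) (nat_lit 5) (nat_lit 410) (nat_lit 382) (nat_lit 153)))) (XT.nd (nat_lit 188) (nat_lit 504) (nat_lit 0) (XT.nd (nat_lit 94) (nat_lit 0) (nat_lit 0) (XT.lf (nat_lit 0) (nat_lit 3603849133) (nat_lit 504) (nat_lit 20235719446) (nat_lit 588) (nat_lit 23966245105) (nat_lit 118) (nat_lit 5) (nat_lit 124) (nat_lit 5) (nat_lit 125) (nat_lit 5) (nat_lit 411) (nat_lit 382) (nat_lit 152)) (XT.lf (nat_lit 0) (nat_lit 26194564537) (nat_lit 504) (nat_lit 2839272793) (nat_lit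 588) (nat_lit 19638052881) (nat_lit 118) (nat_lit 5) (nat_lit 124) (nat_lit 5) (nat_lit 125) (nat_lit 5) (nat_lit 412) (nat_lit 382) (nat_lit 151))) (XT.nd (nat_lit 94) (nat_lit 504) (nat_lit 0) (XT.lf (nat_lit 0) (nat_lit 34527632676) (nat_lit 588) (nat_lit 247261293) (nat_lit 84) (nat_lit 14784746131) (nat_lit 118) (nat_lit 5) (nat_lit 125) (nat_lit 5) (nat_lit 119) (nat_lit 5) (nat_lit 413) (nat_lit 382) (nat_lit 150)) (XT.lf (nat_lit 0) (nat_lit 23070456406) (nat_lit 504) (nat_lit 17364450168) (nat_lit 588) (nat_lit 10031657932) (nat_lit 112) (nat_lit 5) (nat_lit 118) (nat_lit 5) (nat_lit 119) (nat_lit 5) (nat_lit 414) (nat_lit 382) (nat_lit 149)))))) (XT.nd (nat_lit 658) (nat_lit 1260) (nat_lit 0) (XT.nd (nat_lit 282) (nat_lit 924) (nat_lit 0) (XT.nd (nat_lit 94) (nat_lit 504) (nat_lit 0) (XT.lf (nat_lit 0) (nat_lit 46526190522) (nat_lit 588) (nat_lit 4314683336) (nat_lit 84) (nat_lit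 559620939) (nat_lit 112) (nat_lit 5) (nat_lit 119) (nat_lit 5) (nat_lit 113) (nat_lit 5) (nat_lit 415) (nat_lit 382) (nat_lit 148)) (XT.nd (nat_lit 94) (nat_lit 0) (nat_lit 0) (XT.lf (nat_lit 0) (nat_lit 792633803) (nat_lit 504) (nat_lit 32689642208) (nat_lit 84) (nat_lit 18869140349) (nat_lit 106) (nat_lit 5) (nat_lit 112) (nat_lit 5) (nat_lit 107) (nat_lit 5) (nat_lit 416) (nat_lit 382) (nat_lit 147)) (XT.lf (nat_lit 0) (nat_lit 6574462892) (nat_lit 504) (nat_lit 8933598889) (nat_lit 84) (nat_lit 37820072174) (nat_lit 106) (nat_lit 5) (nat_lit 112) (nat_lit 5) (nat_lit 107) (nat_lit 5) (nat_lit 417) (nat_lit 382) (nat_lit 146)))) (XT.nd (nat_lit 188) (nat_lit 420) (nat_lit 0) (XT.nd (nat_lit 94) (nat_lit 0) (nat_lit 0) (XT.lf (nat_lit 0) (nat_lit 12711319046) (nat_lit 588) (nat_lit 38517017866) (nat_lit 84) (nat_lit 3100370694) (nat_lit 100) (nat_lit 5) (nat_lit 107) (nat_lit 5) (nat_lit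 101) (nat_lit 5) (nat_lit 418) (nat_lit 382) (nat_lit 145)) (XT.lf (nat_lit 0) (nat_lit 19275833520) (nat_lit 588) (nat_lit 14029865961) (nat_lit 84) (nat_lit 22046294050) (nat_lit 100) (nat_lit 5) (nat_lit 107) (nat_lit 5) (nat_lit 101) (nat_lit 5) (nat_lit 419) (nat_lit 382) (nat_lit 144))) (XT.nd (nat_lit 94) (nat_lit 0) (nat_lit 0) (XT.lf (nat_lit 0) (nat_lit 11413351490) (nat_lit 420) (nat_lit 14732578473) (nat_lit 504) (nat_lit 30256790271) (nat_lit 95) (nat_lit 5) (nat_lit 100) (nat_lit 5) (nat_lit 101) (nat_lit 5) (nat_lit 420) (nat_lit 382) (nat_lit 143)) (XT.lf (nat_lit 0) (nat_lit 33406431324) (nat_lit 504) (nat_lit 19618214176) (nat_lit 84) (nat_lit 4454795728) (nat_lit 95) (nat_lit 5) (nat_lit 101) (nat_lit 5) (nat_lit 96) (nat_lit 5) (nat_lit 421) (nat_lit 382) (nat_lit 142))))) (XT.nd (nat_lit 282) (nat_lit 504) (nat_lit 0) (XT.nd (nat_lit 94) (nat_lit 336) (nat_lit 0) (XT.lf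 (nat_lit 0) (nat_lit 6493677140) (nat_lit 420) (nat_lit 34598340878) (nat_lit 504) (nat_lit 17490229230) (nat_lit 90) (nat_lit 5) (nat_lit 95) (nat_lit 5) (nat_lit 96) (nat_lit 5) (nat_lit 422) (nat_lit 382) (nat_lit 141)) (XT.nd (nat_lit 94) (nat_lit 336) (nat_lit 0) (XT.lf (nat_lit 0) (nat_lit 33789845762) (nat_lit 420) (nat_lit 15415431822) (nat_lit 504) (nat_lit 10506948166) (nat_lit 90) (nat_lit 5) (nat_lit 95) (nat_lit 5) (nat_lit 96) (nat_lit 5) (nat_lit 423) (nat_lit 382) (nat_lit 140)) (XT.lf (nat_lit 0) (nat_lit 1005442370) (nat_lit 336) (nat_lit 56606931456) (nat_lit 420) (nat_lit 3262218033) (nat_lit 86) (nat_lit 5) (nat_lit 90) (nat_lit 5) (nat_lit 91) (nat_lit 5) (nat_lit 424) (nat_lit 382) (nat_lit 139)))) (XT.nd (nat_lit 188) (nat_lit 420) (nat_lit 0) (XT.nd (nat_lit 94) (nat_lit 0) (nat_lit 0) (XT.lf (nat_lit 0) (nat_lit 4533917293) (nat_lit 420) (nat_lit 32988319163)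 (nat_lit 84) (nat_lit 24535902158) (nat_lit 85) (nat_lit 5) (nat_lit 90) (nat_lit 5) (nat_lit 86) (nat_lit 5) (nat_lit 425) (nat_lit 382) (nat_lit 138)) (XT.lf (nat_lit 0) (nat_lit 12497430091) (nat_lit 420) (nat_lit 5334561762) (nat_lit 84) (nat_lit 45444260419) (nat_lit 85) (nat_lit 5) (nat_lit 90) (nat_lit 5) (nat_lit 86) (nat_lit 5) (nat_lit 426) (nat_lit 382) (nat_lit 137))) (XT.nd (nat_lit 94) (nat_lit 0) (nat_lit 0) (XT.lf (nat_lit 0) (nat_lit 20951659474) (nat_lit 504) (nat_lit 40941587071) (nat_lit 84) (nat_lit 2630109716) (nat_lit 80) (nat_lit 5) (nat_lit 86) (nat_lit 5) (nat_lit 81) (nat_lit 5) (nat_lit 427) (nat_lit 382) (nat_lit 136)) (XT.lf (nat_lit 0) (nat_lit 29889573224) (nat_lit 504) (nat_lit 12509579662) (nat_lit 84) (nat_lit 23401819987) (nat_lit 80) (nat_lit 5) (nat_lit 86) (nat_lit 5) (nat_lit 81) (nat_lit 5) (nat_lit 428) (nat_lit 382) (nat_lit 135))))))))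
noncomputable def xc213 : XT := (XT.nd (nat_lit 54990) (nat_lit 0) (nat_lit 7140) (XT.nd (nat_lit 1222) (nat_lit 1344) (nat_lit 0) (XT.nd (nat_lit 564) (nat_lit 1008) (nat_lit 0) (XT.nd (nat_lit 282) (nat_lit 420) (nat_lit 0) (XT.nd (nat_lit 94) (nat_lit 336) (nat_lit 0) (XT.lf (nat_lit 0) (nat_lit 17108084652) (nat_lit 336) (nat_lit 22151120431) (nat_lit 420) (nat_lit 27852806663) (nat_lit 76) (nat_lit 5) (nat_lit 80) (nat_lit 5) (nat_lit 81) (nat_lit 5) (nat_lit 429) (nat_lit 382) (nat_lit 134)) (XT.nd (nat_lit 94) (nat_lit 336) (nat_lit 0) (XT.lf (nat_lit 0) (nat_lit 47869580557) (nat_lit 336) (nat_lit 1165809423) (nat_lit 420) (nat_lit 19423229038) (nat_lit 76) (nat_lit 5) (nat_lit 80) (nat_lit 5) (nat_lit 81) (nat_lit 5) (nat_lit 430) (nat_lit 382) (nat_lit 133)) (XT.lf (nat_lit 0) (nat_lit 9699884606) (nat_lit 336) (nat_lit 49693950215) (nat_lit 420) (nat_lit 10443121575) (nat_lit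 72) (nat_lit 5) (nat_lit 76) (nat_lit 5) (nat_lit 77) (nat_lit 5) (nat_lit 431) (nat_lit 382) (nat_lit 132)))) (XT.nd (nat_lit 94) (nat_lit 420) (nat_lit 0) (XT.lf (nat_lit 0) (nat_lit 41306646064) (nat_lit 336) (nat_lit 28974903307) (nat_lit 420) (nat_lit 968540121) (nat_lit 72) (nat_lit 5) (nat_lit 76) (nat_lit 5) (nat_lit 77) (nat_lit 5) (nat_lit 432) (nat_lit 382) (nat_lit 131)) (XT.nd (nat_lit 94) (nat_lit 0) (nat_lit 0) (XT.lf (nat_lit 0) (nat_lit 1091702582) (nat_lit 336) (nat_lit 7536733254) (nat_lit 420) (nat_lit 64074356230) (nat_lit 67) (nat_lit 5) (nat_lit 71) (nat_lit 5) (nat_lit 72) (nat_lit 5) (nat_lit 433) (nat_lit 382) (nat_lit 130)) (XT.lf (nat_lit 0) (nat_lit 18938232833) (nat_lit 420) (nat_lit 40671793067) (nat_lit 84) (nat_lit 14575431774) (nat_lit 67) (nat_lit 5) (nat_lit 72) (nat_lit 5) (nat_lit 68) (nat_lit 5) (nat_lit 434) (nat_lit 382) (nat_lit 129))))) (XT.nd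 (nat_lit 282) (nat_lit 672) (nat_lit 0) (XT.nd (nat_lit 94) (nat_lit 336) (nat_lit 0) (XT.lf (nat_lit 0) (nat_lit 29631171276) (nat_lit 420) (nat_lit 8880014578) (nat_lit 84) (nat_lit 37199202936) (nat_lit 67) (nat_lit 5) (nat_lit 72) (nat_lit 5) (nat_lit 68) (nat_lit 5) (nat_lit 435) (nat_lit 382) (nat_lit 128)) (XT.nd (nat_lit 94) (nat_lit 0) (nat_lit 0) (XT.lf (nat_lit 0) (nat_lit 24339422701) (nat_lit 336) (nat_lit 16538689539) (nat_lit 420) (nat_lit 36395960105) (nat_lit 63) (nat_lit 5) (nat_lit 67) (nat_lit 5) (nat_lit 68) (nat_lit 5) (nat_lit 436) (nat_lit 382) (nat_lit 127)) (XT.lf (nat_lit 0) (nat_lit 52610847512) (nat_lit 420) (nat_lit 20205013267) (nat_lit 84) (nat_lit 6064354956) (nat_lit 63) (nat_lit 5) (nat_lit 68) (nat_lit 5) (nat_lit 64) (nat_lit 5) (nat_lit 437) (nat_lit 382) (nat_lit 126)))) (XT.nd (nat_lit 188) (nat_lit 420) (nat_lit 0) (XT.nd (nat_lit 94) (nat_lit 0)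 (nat_lit 0) (XT.lf (nat_lit 0) (nat_lit 13607265900) (nat_lit 252) (nat_lit 51382129363) (nat_lit 336) (nat_lit 15536334135) (nat_lit 60) (nat_lit 5) (nat_lit 63) (nat_lit 5) (nat_lit 64) (nat_lit 5) (nat_lit 438) (nat_lit 382) (nat_lit 125)) (XT.lf (nat_lit 0) (nat_lit 48847082776) (nat_lit 252) (nat_lit 29095538581) (nat_lit 336) (nat_lit 4271888315) (nat_lit 60) (nat_lit 5) (nat_lit 63) (nat_lit 5) (nat_lit 64) (nat_lit 5) (nat_lit 439) (nat_lit 382) (nat_lit 124))) (XT.nd (nat_lit 94) (nat_lit 0) (nat_lit 0) (XT.lf (nat_lit 0) (nat_lit 1140940732) (nat_lit 336) (nat_lit 6056777201) (nat_lit 420) (nat_lit 76753814135) (nat_lit 55) (nat_lit 5) (nat_lit 59) (nat_lit 5) (nat_lit 60) (nat_lit 5) (nat_lit 440) (nat_lit 382) (nat_lit 123)) (XT.lf (nat_lit 0) (nat_lit 19435030188) (nat_lit 420) (nat_lit 48578522364) (nat_lit 84) (nat_lit 17710560135) (nat_lit 55) (nat_lit 5) (nat_lit 60) (nat_lit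 5) (nat_lit 56) (nat_lit 5) (nat_lit 441) (nat_lit 382) (nat_lit 122)))))) (XT.nd (nat_lit 658) (nat_lit 504) (nat_lit 0) (XT.nd (nat_lit 282) (nat_lit 588) (nat_lit 0) (XT.nd (nat_lit 94) (nat_lit 252) (nat_lit 0) (XT.lf (nat_lit 0) (nat_lit 32098761711) (nat_lit 420) (nat_lit 13380437476) (nat_lit 84) (nat_lit 42068893304) (nat_lit 55) (nat_lit 5) (nat_lit 60) (nat_lit 5) (nat_lit 56) (nat_lit 5) (nat_lit 442) (nat_lit 382) (nat_lit 121)) (XT.nd (nat_lit 94) (nat_lit 0) (nat_lit 0) (XT.lf (nat_lit 0) (nat_lit 23327850775) (nat_lit 252) (nat_lit 22038147247) (nat_lit 336) (nat_lit 44054086621) (nat_lit 52) (nat_lit 5) (nat_lit 55) (nat_lit 5) (nat_lit 56) (nat_lit 5) (nat_lit 443) (nat_lit 382) (nat_lit 120)) (XT.lf (nat_lit 0) (nat_lit 59187309089) (nat_lit 336) (nat_lit 29955050058) (nat_lit 84) (nat_lit 2201196401) (nat_lit 52) (nat_lit 5) (nat_lit 56) (nat_lit 5) (nat_lit 53) (nat_lit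 5) (nat_lit 444) (nat_lit 382) (nat_lit 119)))) (XT.nd (nat_lit 188) (nat_lit 336) (nat_lit 0) (XT.nd (nat_lit 94) (nat_lit 0) (nat_lit 0) (XT.lf (nat_lit 0) (nat_lit 7187371931) (nat_lit 252) (nat_lit 66522553373) (nat_lit 336) (nat_lit 19606206000) (nat_lit 49) (nat_lit 5) (nat_lit 52) (nat_lit 5) (nat_lit 53) (nat_lit 5) (nat_lit 445) (nat_lit 382) (nat_lit 118)) (XT.lf (nat_lit 0) (nat_lit 46057195477) (nat_lit 252) (nat_lit 42912898022) (nat_lit 336) (nat_lit 6368735306) (nat_lit 49) (nat_lit 5) (nat_lit 52) (nat_lit 5) (nat_lit 53) (nat_lit 5) (nat_lit 446) (nat_lit 382) (nat_lit 117))) (XT.nd (nat_lit 94) (nat_lit 252) (nat_lit 0) (XT.lf (nat_lit 0) (nat_lit 7123473976) (nat_lit 336) (nat_lit 11399843472) (nat_lit 84) (nat_lit 78896813178) (nat_lit 48) (nat_lit 5) (nat_lit 52) (nat_lit 5) (nat_lit 49) (nat_lit 5) (nat_lit 447) (nat_lit 382) (nat_lit 116)) (XT.lf (nat_lit 0) (nat_lit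 21228720865) (nat_lit 336) (nat_lit 71517761958) (nat_lit 84) (nat_lit 6805409297) (nat_lit 45) (nat_lit 5) (nat_lit 49) (nat_lit 5) (nat_lit 46) (nat_lit 5) (nat_lit 448) (nat_lit 382) (nat_lit 115))))) (XT.nd (nat_lit 282) (nat_lit 252) (nat_lit 0) (XT.nd (nat_lit 94) (nat_lit 252) (nat_lit 0) (XT.lf (nat_lit 0) (nat_lit 36056201104) (nat_lit 336) (nat_lit 33044769425) (nat_lit 84) (nat_lit 32637664252) (nat_lit 45) (nat_lit 5) (nat_lit 49) (nat_lit 5) (nat_lit 46) (nat_lit 5) (nat_lit 449) (nat_lit 382) (nat_lit 114)) (XT.nd (nat_lit 94) (nat_lit 0) (nat_lit 0) (XT.lf (nat_lit 0) (nat_lit 6712538368) (nat_lit 252) (nat_lit 44679930206) (nat_lit 336) (nat_lit 52596592851) (nat_lit 42) (nat_lit 5) (nat_lit 45) (nat_lit 5) (nat_lit 46) (nat_lit 5) (nat_lit 450) (nat_lit 382) (nat_lit 113)) (XT.lf (nat_lit 0) (nat_lit 48339098891) (nat_lit 252) (nat_lit 19182858537) (nat_lit 336) (nat_lit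 38775050003) (nat_lit 42) (nat_lit 5) (nat_lit 45) (nat_lit 5) (nat_lit 46) (nat_lit 5) (nat_lit 451) (nat_lit 382) (nat_lit 112)))) (XT.nd (nat_lit 188) (nat_lit 84) (nat_lit 0) (XT.nd (nat_lit 94) (nat_lit 168) (nat_lit 0) (XT.lf (nat_lit 0) (nat_lit 84202839172) (nat_lit 336) (nat_lit 17528625448) (nat_lit 84) (nat_lit 6940702503) (nat_lit 42) (nat_lit 5) (nat_lit 46) (nat_lit 5) (nat_lit 43) (nat_lit 5) (nat_lit 452) (nat_lit 382) (nat_lit 111)) (XT.lf (nat_lit 0) (nat_lit 24398900797) (nat_lit 168) (nat_lit 77409188111) (nat_lit 252) (nat_lit 9297774986) (nat_lit 40) (nat_lit 5) (nat_lit 42) (nat_lit 5) (nat_lit 43) (nat_lit 5) (nat_lit 453) (nat_lit 382) (nat_lit 110))) (XT.nd (nat_lit 94) (nat_lit 0) (nat_lit 0) (XT.lf (nat_lit 0) (nat_lit 6383658695) (nat_lit 252) (nat_lit 45727098366) (nat_lit 84) (nat_lit 61494642860) (nat_lit 39) (nat_lit 5) (nat_lit 42) (nat_lit 5) (nat_lit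 40) (nat_lit 5) (nat_lit 454) (nat_lit 382) (nat_lit 109)) (XT.lf (nat_lit 0) (nat_lit 22348151523) (nat_lit 252) (nat_lit 3610690394) (nat_lit 84) (nat_lit 90218334118) (nat_lit 39) (nat_lit 5) (nat_lit 42) (nat_lit 5) (nat_lit 40) (nat_lit 5) (nat_lit 455) (nat_lit 382) (nat_lit 108))))))) (XT.nd (nat_lit 1316) (nat_lit 3108) (nat_lit 0) (XT.nd (nat_lit 658) (nat_lit 0) (nat_lit 168) (XT.nd (nat_lit 282) (nat_lit 0) (nat_lit 84) (XT.nd (nat_lit 94) (nat_lit 1260) (nat_lit 0) (XT.lf (nat_lit 0) (nat_lit 15324925004) (nat_lit 1260) (nat_lit 6149197) (nat_lit 1260) (nat_lit 6149197) (nat_lit 176) (nat_lit 3) (nat_lit 191) (nat_lit 3) (nat_lit 191) (nat_lit 5) (nat_lit 383) (nat_lit 383) (nat_lit 179)) (XT.nd (nat_lit 94) (nat_lit 0) (nat_lit 0) (XT.lf (nat_lit 0) (nat_lit 171322181) (nat_lit 1260) (nat_lit 17620707302) (nat_lit 1344) (nat_lit 13336548648) (nat_lit 161) (nat_lit 5) (nat_lit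 176) (nat_lit 3) (nat_lit 177) (nat_lit 5) (nat_lit 384) (nat_lit 383) (nat_lit 178)) (XT.lf (nat_lit 0) (nat_lit 370213826) (nat_lit 1260) (nat_lit 4164044621) (nat_lit 1344) (nat_lit 27062144595) (nat_lit 161) (nat_lit 5) (nat_lit 176) (nat_lit 3) (nat_lit 177) (nat_lit 5) (nat_lit 385) (nat_lit 383) (nat_lit 177)))) (XT.nd (nat_lit 188) (nat_lit 0) (nat_lit 84) (XT.nd (nat_lit 94) (nat_lit 0) (nat_lit 0) (XT.lf (nat_lit 0) (nat_lit 756290041) (nat_lit 1260) (nat_lit 22276180893) (nat_lit 1344) (nat_lit 9040359721) (nat_lit 162) (nat_lit 5) (nat_lit 177) (nat_lit 5) (nat_lit 178) (nat_lit 5) (nat_lit 386) (nat_lit 383) (nat_lit 176)) (XT.lf (nat_lit 0) (nat_lit 1238914657) (nat_lit 1260) (nat_lit 8347477284) (nat_lit 1344) (nat_lit 22974614535) (nat_lit 162) (nat_lit 5) (nat_lit 177) (nat_lit 5) (nat_lit 178) (nat_lit 5) (nat_lit 387) (nat_lit 383) (nat_lit 175))) (XT.nd (nat_lit 94)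 (nat_lit 0) (nat_lit 0) (XT.lf (nat_lit 0) (nat_lit 1834067067) (nat_lit 1260) (nat_lit 26986614836) (nat_lit 1344) (nat_lit 4240208431) (nat_lit 163) (nat_lit 5) (nat_lit 178) (nat_lit 5) (nat_lit 179) (nat_lit 5) (nat_lit 388) (nat_lit 383) (nat_lit 174)) (XT.lf (nat_lit 0) (nat_lit 2624857258) (nat_lit 1260) (nat_lit 12570623637) (nat_lit 1344) (nat_lit 18374960426) (nat_lit 163) (nat_lit 5) (nat_lit 178) (nat_lit 5) (nat_lit 179) (nat_lit 5) (nat_lit 389) (nat_lit 383) (nat_lit 173))))) (XT.nd (nat_lit 282) (nat_lit 0) (nat_lit 168) (XT.nd (nat_lit 94) (nat_lit 0) (nat_lit 84) (XT.lf (nat_lit 84) (nat_lit 2321766595) (nat_lit 0) (nat_lit 1137729303) (nat_lit 1344) (nat_lit 30635183189) (nat_lit 164) (nat_lit 5) (nat_lit 163) (nat_lit 5) (nat_lit 179) (nat_lit 5) (nat_lit 390) (nat_lit 383) (nat_lit 172)) (XT.nd (nat_lit 94) (nat_lit 0) (nat_lit 0) (XT.lf (nat_lit 0) (nat_lit 4573482867)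 (nat_lit 1260) (nat_lit 16843176450) (nat_lit 1344) (nat_lit 13210359267) (nat_lit 164) (nat_lit 5) (nat_lit 179) (nat_lit 5) (nat_lit 180) (nat_lit 5) (nat_lit 391) (nat_lit 383) (nat_lit 171)) (XT.lf (nat_lit 0) (nat_lit 5730080879) (nat_lit 1260) (nat_lit 1478219471) (nat_lit 1344) (nat_lit 27966755937) (nat_lit 164) (nat_lit 5) (nat_lit 179) (nat_lit 5) (nat_lit 180) (nat_lit 5) (nat_lit 392) (nat_lit 383) (nat_lit 170)))) (XT.nd (nat_lit 188) (nat_lit 0) (nat_lit 84) (XT.nd (nat_lit 94) (nat_lit 0) (nat_lit 0) (XT.lf (nat_lit 0) (nat_lit 7132799232) (nat_lit 1260) (nat_lit 21176324083) (nat_lit 1344) (nat_lit 7424072785) (nat_lit 165) (nat_lit 5) (nat_lit 180) (nat_lit 5) (nat_lit 181) (nat_lit 5) (nat_lit 393) (nat_lit 383) (nat_lit 169)) (XT.lf (nat_lit 0) (nat_lit 8662082071) (nat_lit 1260) (nat_lit 5277251714) (nat_lit 1344) (nat_lit 22366215380) (nat_lit 165) (nat_lit 5) (nat_lit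 180) (nat_lit 5) (nat_lit 181) (nat_lit 5) (nat_lit 394) (nat_lit 383) (nat_lit 168))) (XT.nd (nat_lit 94) (nat_lit 0) (nat_lit 0) (XT.lf (nat_lit 0) (nat_lit 10353501400) (nat_lit 1260) (nat_lit 25582959566) (nat_lit 1344) (nat_lit 955127558) (nat_lit 166) (nat_lit 5) (nat_lit 181) (nat_lit 5) (nat_lit 182) (nat_lit 5) (nat_lit 395) (nat_lit 383) (nat_lit 167)) (XT.lf (nat_lit 0) (nat_lit 12285636972) (nat_lit 1260) (nat_lit 9133316343) (nat_lit 1344) (nat_lit 16070559881) (nat_lit 166) (nat_lit 5) (nat_lit 181) (nat_lit 5) (nat_lit 182) (nat_lit 5) (nat_lit 396) (nat_lit 383) (nat_lit 166)))))) (XT.nd (nat_lit 658) (nat_lit 2436) (nat_lit 0) (XT.nd (nat_lit 282) (nat_lit 1092) (nat_lit 0) (XT.nd (nat_lit 94) (nat_lit 0) (nat_lit 84) (XT.lf (nat_lit 84) (nat_lit 7963831162) (nat_lit 0) (nat_lit 6386655694) (nat_lit 1344) (nat_lit 23752649491) (nat_lit 167) (nat_lit 5) (nat_lit 166) (nat_lit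 5) (nat_lit 182) (nat_lit 5) (nat_lit 397) (nat_lit 383) (nat_lit 165)) (XT.nd (nat_lit 94) (nat_lit 0) (nat_lit 0) (XT.lf (nat_lit 0) (nat_lit 16656106239) (nat_lit 1260) (nat_lit 13061073791) (nat_lit 1344) (nat_lit 9012626593) (nat_lit 167) (nat_lit 5) (nat_lit 182) (nat_lit 5) (nat_lit 183) (nat_lit 5) (nat_lit 398) (nat_lit 383) (nat_lit 164)) (XT.lf (nat_lit 84) (nat_lit 4553737690) (nat_lit 0) (nat_lit 14582455370) (nat_lit 1344) (nat_lit 20235928038) (nat_lit 168) (nat_lit 5) (nat_lit 167) (nat_lit 5) (nat_lit 183) (nat_lit 5) (nat_lit 399) (nat_lit 383) (nat_lit 163)))) (XT.nd (nat_lit 188) (nat_lit 0) (nat_lit 0) (XT.nd (nat_lit 94) (nat_lit 1260) (nat_lit 0) (XT.lf (nat_lit 0) (nat_lit 21831883519) (nat_lit 1260) (nat_lit 17077429445) (nat_lit 84) (nat_lit 1120158984) (nat_lit 168) (nat_lit 5) (nat_lit 183) (nat_lit 5) (nat_lit 169) (nat_lit 5) (nat_lit 400) (nat_lit 383) (nat_lit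 162)) (XT.lf (nat_lit 0) (nat_lit 1070876063) (nat_lit 1260) (nat_lit 23690622576) (nat_lit 1344) (nat_lit 15940455948) (nat_lit 153) (nat_lit 5) (nat_lit 168) (nat_lit 5) (nat_lit 169) (nat_lit 5) (nat_lit 401) (nat_lit 383) (nat_lit 161))) (XT.nd (nat_lit 94) (nat_lit 0) (nat_lit 0) (XT.lf (nat_lit 0) (nat_lit 20112321978) (nat_lit 1260) (nat_lit 7837542020) (nat_lit 1344) (nat_lit 13439624654) (nat_lit 153) (nat_lit 5) (nat_lit 168) (nat_lit 5) (nat_lit 169) (nat_lit 5) (nat_lit 402) (nat_lit 383) (nat_lit 160)) (XT.lf (nat_lit 0) (nat_lit 31313963648) (nat_lit 1344) (nat_lit 2455649429) (nat_lit 84) (nat_lit 8325635878) (nat_lit 153) (nat_lit 5) (nat_lit 169) (nat_lit 5) (nat_lit 154) (nat_lit 5) (nat_lit 403) (nat_lit 383) (nat_lit 159))))) (XT.nd (nat_lit 282) (nat_lit 1260) (nat_lit 0) (XT.nd (nat_lit 94) (nat_lit 588) (nat_lit 0) (XT.lf (nat_lit 0) (nat_lit 17186943550) (nat_lit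 588) (nat_lit 17833359777) (nat_lit 672) (nat_lit 7794641868) (nat_lit 146) (nat_lit 5) (nat_lit 153) (nat_lit 5) (nat_lit 154) (nat_lit 5) (nat_lit 404) (nat_lit 383) (nat_lit 158)) (XT.nd (nat_lit 94) (nat_lit 588) (nat_lit 0) (XT.lf (nat_lit 0) (nat_lit 37467816426) (nat_lit 588) (nat_lit 1393350877) (nat_lit 672) (nat_lit 4694367557) (nat_lit 146) (nat_lit 5) (nat_lit 153) (nat_lit 5) (nat_lit 154) (nat_lit 5) (nat_lit 405) (nat_lit 383) (nat_lit 157)) (XT.lf (nat_lit 0) (nat_lit 14164450428) (nat_lit 588) (nat_lit 28936923420) (nat_lit 672) (nat_lit 1208447355) (nat_lit 139) (nat_lit 5) (nat_lit 146) (nat_lit 5) (nat_lit 147) (nat_lit 5) (nat_lit 406) (nat_lit 383) (nat_lit 156)))) (XT.nd (nat_lit 188) (nat_lit 588) (nat_lit 0) (XT.nd (nat_lit 94) (nat_lit 588) (nat_lit 0) (XT.lf (nat_lit 0) (nat_lit 2410039369) (nat_lit 672) (nat_lit 9974578068) (nat_lit 84) (nat_lit 32699199973)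 (nat_lit 138) (nat_lit 5) (nat_lit 146) (nat_lit 5) (nat_lit 139) (nat_lit 5) (nat_lit 407) (nat_lit 383) (nat_lit 155)) (XT.lf (nat_lit 0) (nat_lit 6263193145) (nat_lit 672) (nat_lit 34920790839) (nat_lit 84) (nat_lit 4692180818) (nat_lit 131) (nat_lit 5) (nat_lit 139) (nat_lit 5) (nat_lit 132) (nat_lit 5) (nat_lit 408) (nat_lit 383) (nat_lit 154))) (XT.nd (nat_lit 94) (nat_lit 588) (nat_lit 0) (XT.lf (nat_lit 0) (nat_lit 10454944010) (nat_lit 672) (nat_lit 14096535428) (nat_lit 84) (nat_lit 22134115315) (nat_lit 131) (nat_lit 5) (nat_lit 139) (nat_lit 5) (nat_lit 132) (nat_lit 5) (nat_lit 409) (nat_lit 383) (nat_lit 153)) (XT.lf (nat_lit 0) (nat_lit 7497438101) (nat_lit 588) (nat_lit 7345779800) (nat_lit 672) (nat_lit 32673968730) (nat_lit 124) (nat_lit 5) (nat_lit 131) (nat_lit 5) (nat_lit 132) (nat_lit 5) (nat_lit 410) (nat_lit 383) (nat_lit 152))))))))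
noncomputable def xc214 : XT := (XT.nd (nat_lit 2538) (nat_lit 2016) (nat_lit 0) (XT.nd (nat_lit 1222) (nat_lit 2268) (nat_lit 0) (XT.nd (nat_lit 564) (nat_lit 1848) (nat_lit 0) (XT.nd (nat_lit 282) (nat_lit 504) (nat_lit 0) (XT.nd (nat_lit 94) (nat_lit 504) (nat_lit 0) (XT.lf (nat_lit 0) (nat_lit 19605363757) (nat_lit 672) (nat_lit 18443749340) (nat_lit 84) (nat_lit 10317348540) (nat_lit 124) (nat_lit 5) (nat_lit 132) (nat_lit 5) (nat_lit 125) (nat_lit 5) (nat_lit 411) (nat_lit 383) (nat_lit 151)) (XT.nd (nat_lit 94) (nat_lit 0) (nat_lit 0) (XT.lf (nat_lit 0) (nat_lit 3779246257) (nat_lit 504) (nat_lit 20838949434) (nat_lit 588) (nat_lit 24619786572) (nat_lit 118) (nat_lit 5) (nat_lit 124) (nat_lit 5) (nat_lit 125) (nat_lit 5) (nat_lit 412) (nat_lit 383) (nat_lit 150)) (XT.lf (nat_lit 0) (nat_lit 27045723463) (nat_lit 504) (nat_lit 2920721272) (nat_lit 588) (nat_lit 20163654772) (nat_lit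 118) (nat_lit 5) (nat_lit 124) (nat_lit 5) (nat_lit 125) (nat_lit 5) (nat_lit 413) (nat_lit 383) (nat_lit 149)))) (XT.nd (nat_lit 94) (nat_lit 504) (nat_lit 0) (XT.lf (nat_lit 0) (nat_lit 35623294800) (nat_lit 588) (nat_lit 189403842) (nat_lit 84) (nat_lit 15231838926) (nat_lit 118) (nat_lit 5) (nat_lit 125) (nat_lit 5) (nat_lit 119) (nat_lit 5) (nat_lit 414) (nat_lit 383) (nat_lit 148)) (XT.nd (nat_lit 94) (nat_lit 0) (nat_lit 0) (XT.lf (nat_lit 0) (nat_lit 23827205433) (nat_lit 504) (nat_lit 17879460083) (nat_lit 588) (nat_lit 10272040651) (nat_lit 112) (nat_lit 5) (nat_lit 118) (nat_lit 5) (nat_lit 119) (nat_lit 5) (nat_lit 415) (nat_lit 383) (nat_lit 147)) (XT.lf (nat_lit 0) (nat_lit 47979033214) (nat_lit 588) (nat_lit 4379625129) (nat_lit 84) (nat_lit 582048401) (nat_lit 112) (nat_lit 5) (nat_lit 119) (nat_lit 5) (nat_lit 113) (nat_lit 5) (nat_lit 416) (nat_lit 383) (nat_lit 146)))))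 (XT.nd (nat_lit 282) (nat_lit 840) (nat_lit 0) (XT.nd (nat_lit 94) (nat_lit 504) (nat_lit 0) (XT.lf (nat_lit 0) (nat_lit 873063210) (nat_lit 504) (nat_lit 33605251703) (nat_lit 84) (nat_lit 19441858474) (nat_lit 106) (nat_lit 5) (nat_lit 112) (nat_lit 5) (nat_lit 107) (nat_lit 5) (nat_lit 417) (nat_lit 383) (nat_lit 145)) (XT.nd (nat_lit 94) (nat_lit 504) (nat_lit 0) (XT.lf (nat_lit 0) (nat_lit 6826697161) (nat_lit 504) (nat_lit 9138422612) (nat_lit 84) (nat_lit 38961124742) (nat_lit 106) (nat_lit 5) (nat_lit 112) (nat_lit 5) (nat_lit 107) (nat_lit 5) (nat_lit 418) (nat_lit 383) (nat_lit 144)) (XT.lf (nat_lit 0) (nat_lit 13146740789) (nat_lit 588) (nat_lit 39608344930) (nat_lit 84) (nat_lit 3201779633) (nat_lit 100) (nat_lit 5) (nat_lit 107) (nat_lit 5) (nat_lit 101) (nat_lit 5) (nat_lit 419) (nat_lit 383) (nat_lit 143)))) (XT.nd (nat_lit 188) (nat_lit 420) (nat_lit 0) (XT.nd (nat_lit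 94) (nat_lit 420) (nat_lit 0) (XT.lf (nat_lit 0) (nat_lit 19906615488) (nat_lit 588) (nat_lit 14388447890) (nat_lit 84) (nat_lit 22715836093) (nat_lit 100) (nat_lit 5) (nat_lit 107) (nat_lit 5) (nat_lit 101) (nat_lit 5) (nat_lit 420) (nat_lit 383) (nat_lit 142)) (XT.lf (nat_lit 0) (nat_lit 11817455163) (nat_lit 420) (nat_lit 15164423461) (nat_lit 504) (nat_lit 31111299728) (nat_lit 95) (nat_lit 5) (nat_lit 100) (nat_lit 5) (nat_lit 101) (nat_lit 5) (nat_lit 421) (nat_lit 383) (nat_lit 141))) (XT.nd (nat_lit 94) (nat_lit 420) (nat_lit 0) (XT.lf (nat_lit 0) (nat_lit 34458787526) (nat_lit 504) (nat_lit 20145373010) (nat_lit 84) (nat_lit 4598084888) (nat_lit 95) (nat_lit 5) (nat_lit 101) (nat_lit 5) (nat_lit 96) (nat_lit 5) (nat_lit 422) (nat_lit 383) (nat_lit 140)) (XT.lf (nat_lit 0) (nat_lit 6749273206) (nat_lit 420) (nat_lit 35624791858) (nat_lit 504) (nat_lit 17964099022) (nat_lit 90)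 (nat_lit 5) (nat_lit 95) (nat_lit 5) (nat_lit 96) (nat_lit 5) (nat_lit 423) (nat_lit 383) (nat_lit 139)))))) (XT.nd (nat_lit 658) (nat_lit 1092) (nat_lit 0) (XT.nd (nat_lit 282) (nat_lit 756) (nat_lit 0) (XT.nd (nat_lit 94) (nat_lit 420) (nat_lit 0) (XT.lf (nat_lit 0) (nat_lit 34862556429) (nat_lit 420) (nat_lit 15866730460) (nat_lit 504) (nat_lit 10772800218) (nat_lit 90) (nat_lit 5) (nat_lit 95) (nat_lit 5) (nat_lit 96) (nat_lit 5) (nat_lit 424) (nat_lit 383) (nat_lit 138)) (XT.nd (nat_lit 94) (nat_lit 84) (nat_lit 0) (XT.lf (nat_lit 0) (nat_lit 1095426744) (nat_lit 336) (nat_lit 58292454785) (nat_lit 420) (nat_lit 3311466140) (nat_lit 86) (nat_lit 5) (nat_lit 90) (nat_lit 5) (nat_lit 91) (nat_lit 5) (nat_lit 425) (nat_lit 383) (nat_lit 137)) (XT.lf (nat_lit 0) (nat_lit 4716216087) (nat_lit 420) (nat_lit 33918904953) (nat_lit 84) (nat_lit 25283309338) (nat_lit 85) (nat_lit 5) (nat_lit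 90) (nat_lit 5) (nat_lit 86) (nat_lit 5) (nat_lit 426) (nat_lit 383) (nat_lit 136)))) (XT.nd (nat_lit 188) (nat_lit 336) (nat_lit 0) (XT.nd (nat_lit 94) (nat_lit 420) (nat_lit 0) (XT.lf (nat_lit 0) (nat_lit 12917286271) (nat_lit 420) (nat_lit 5437255134) (nat_lit 84) (nat_lit 46818588343) (nat_lit 85) (nat_lit 5) (nat_lit 90) (nat_lit 5) (nat_lit 86) (nat_lit 5) (nat_lit 427) (nat_lit 383) (nat_lit 135)) (XT.lf (nat_lit 0) (nat_lit 21624500840) (nat_lit 504) (nat_lit 42111789223) (nat_lit 84) (nat_lit 2721377855) (nat_lit 80) (nat_lit 5) (nat_lit 86) (nat_lit 5) (nat_lit 81) (nat_lit 5) (nat_lit 428) (nat_lit 383) (nat_lit 134))) (XT.nd (nat_lit 94) (nat_lit 336) (nat_lit 0) (XT.lf (nat_lit 0) (nat_lit 30829261956) (nat_lit 504) (nat_lit 12828512235) (nat_lit 84) (nat_lit 24115879292) (nat_lit 80) (nat_lit 5) (nat_lit 86) (nat_lit 5) (nat_lit 81) (nat_lit 5) (nat_lit 429) (nat_lit 383)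 (nat_lit 133)) (XT.lf (nat_lit 0) (nat_lit 17677129509) (nat_lit 336) (nat_lit 22802137196) (nat_lit 420) (nat_lit 28644780006) (nat_lit 76) (nat_lit 5) (nat_lit 80) (nat_lit 5) (nat_lit 81) (nat_lit 5) (nat_lit 430) (nat_lit 383) (nat_lit 132))))) (XT.nd (nat_lit 282) (nat_lit 756) (nat_lit 0) (XT.nd (nat_lit 94) (nat_lit 336) (nat_lit 0) (XT.lf (nat_lit 0) (nat_lit 49359844982) (nat_lit 336) (nat_lit 1187660551) (nat_lit 420) (nat_lit 19963585271) (nat_lit 76) (nat_lit 5) (nat_lit 80) (nat_lit 5) (nat_lit 81) (nat_lit 5) (nat_lit 431) (nat_lit 383) (nat_lit 131)) (XT.nd (nat_lit 94) (nat_lit 0) (nat_lit 0) (XT.lf (nat_lit 0) (nat_lit 10045676263) (nat_lit 336) (nat_lit 51170480911) (nat_lit 420) (nat_lit 10714639133) (nat_lit 72) (nat_lit 5) (nat_lit 76) (nat_lit 5) (nat_lit 77) (nat_lit 5) (nat_lit 432) (nat_lit 383) (nat_lit 130)) (XT.lf (nat_lit 0) (nat_lit 42599044590) (nat_lit 336)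 (nat_lit 29830278746) (nat_lit 420) (nat_lit 957037014) (nat_lit 72) (nat_lit 5) (nat_lit 76) (nat_lit 5) (nat_lit 77) (nat_lit 5) (nat_lit 433) (nat_lit 383) (nat_lit 129)))) (XT.nd (nat_lit 188) (nat_lit 336) (nat_lit 0) (XT.nd (nat_lit 94) (nat_lit 0) (nat_lit 0) (XT.lf (nat_lit 0) (nat_lit 1177964935) (nat_lit 336) (nat_lit 7748447925) (nat_lit 420) (nat_lit 65956240233) (nat_lit 67) (nat_lit 5) (nat_lit 71) (nat_lit 5) (nat_lit 72) (nat_lit 5) (nat_lit 434) (nat_lit 383) (nat_lit 128)) (XT.lf (nat_lit 0) (nat_lit 19544498505) (nat_lit 420) (nat_lit 41838941315) (nat_lit 84) (nat_lit 15026390434) (nat_lit 67) (nat_lit 5) (nat_lit 72) (nat_lit 5) (nat_lit 68) (nat_lit 5) (nat_lit 435) (nat_lit 383) (nat_lit 127))) (XT.nd (nat_lit 94) (nat_lit 336) (nat_lit 0) (XT.lf (nat_lit 0) (nat_lit 30557114848) (nat_lit 420) (nat_lit 9094953321) (nat_lit 84) (nat_lit 38328475827) (nat_lit 67) (nat_lit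 5) (nat_lit 72) (nat_lit 5) (nat_lit 68) (nat_lit 5) (nat_lit 436) (nat_lit 383) (nat_lit 126)) (XT.lf (nat_lit 0) (nat_lit 25120562549) (nat_lit 336) (nat_lit 17020313408) (nat_lit 420) (nat_lit 37450281090) (nat_lit 63) (nat_lit 5) (nat_lit 67) (nat_lit 5) (nat_lit 68) (nat_lit 5) (nat_lit 437) (nat_lit 383) (nat_lit 125))))))) (XT.nd (nat_lit 1316) (nat_lit 252) (nat_lit 0) (XT.nd (nat_lit 658) (nat_lit 840) (nat_lit 0) (XT.nd (nat_lit 282) (nat_lit 672) (nat_lit 0) (XT.nd (nat_lit 94) (nat_lit 252) (nat_lit 0) (XT.lf (nat_lit 0) (nat_lit 54224668167) (nat_lit 420) (nat_lit 20760722016) (nat_lit 84) (nat_lit 6260123616) (nat_lit 63) (nat_lit 5) (nat_lit 68) (nat_lit 5) (nat_lit 64) (nat_lit 5) (nat_lit 438) (nat_lit 383) (nat_lit 124)) (XT.nd (nat_lit 94) (nat_lit 0) (nat_lit 0) (XT.lf (nat_lit 0) (nat_lit 14065431000) (nat_lit 252) (nat_lit 52908587631) (nat_lit 336) (nat_lit 15966392121)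 (nat_lit 60) (nat_lit 5) (nat_lit 63) (nat_lit 5) (nat_lit 64) (nat_lit 5) (nat_lit 439) (nat_lit 383) (nat_lit 123)) (XT.lf (nat_lit 0) (nat_lit 50360987612) (nat_lit 252) (nat_lit 29953836183) (nat_lit 336) (nat_lit 4365062403) (nat_lit 60) (nat_lit 5) (nat_lit 63) (nat_lit 5) (nat_lit 64) (nat_lit 5) (nat_lit 440) (nat_lit 383) (nat_lit 122)))) (XT.nd (nat_lit 188) (nat_lit 252) (nat_lit 0) (XT.nd (nat_lit 94) (nat_lit 0) (nat_lit 0) (XT.lf (nat_lit 0) (nat_lit 1223901299) (nat_lit 336) (nat_lit 6223517516) (nat_lit 420) (nat_lit 79021607441) (nat_lit 55) (nat_lit 5) (nat_lit 59) (nat_lit 5) (nat_lit 60) (nat_lit 5) (nat_lit 441) (nat_lit 383) (nat_lit 121)) (XT.lf (nat_lit 0) (nat_lit 20051006509) (nat_lit 420) (nat_lit 49987683583) (nat_lit 84) (nat_lit 18256120646) (nat_lit 55) (nat_lit 5) (nat_lit 60) (nat_lit 5) (nat_lit 56) (nat_lit 5) (nat_lit 442) (nat_lit 383) (nat_lit 120)))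 (XT.nd (nat_lit 94) (nat_lit 252) (nat_lit 0) (XT.lf (nat_lit 0) (nat_lit 33093690985) (nat_lit 420) (nat_lit 13735059870) (nat_lit 84) (nat_lit 43344788945) (nat_lit 55) (nat_lit 5) (nat_lit 60) (nat_lit 5) (nat_lit 56) (nat_lit 5) (nat_lit 443) (nat_lit 383) (nat_lit 119)) (XT.lf (nat_lit 0) (nat_lit 24074018296) (nat_lit 252) (nat_lit 22684440400) (nat_lit 336) (nat_lit 45343248654) (nat_lit 52) (nat_lit 5) (nat_lit 55) (nat_lit 5) (nat_lit 56) (nat_lit 5) (nat_lit 444) (nat_lit 383) (nat_lit 118))))) (XT.nd (nat_lit 282) (nat_lit 588) (nat_lit 0) (XT.nd (nat_lit 94) (nat_lit 252) (nat_lit 0) (XT.lf (nat_lit 0) (nat_lit 60993630782) (nat_lit 336) (nat_lit 30807906345) (nat_lit 84) (nat_lit 2281369636) (nat_lit 52) (nat_lit 5) (nat_lit 56) (nat_lit 5) (nat_lit 53) (nat_lit 5) (nat_lit 445) (nat_lit 383) (nat_lit 117)) (XT.nd (nat_lit 94) (nat_lit 0) (nat_lit 0) (XT.lf (nat_lit 0) (nat_lit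 7448339331) (nat_lit 252) (nat_lit 68503127802) (nat_lit 336) (nat_lit 20163207410) (nat_lit 49) (nat_lit 5) (nat_lit 52) (nat_lit 5) (nat_lit 53) (nat_lit 5) (nat_lit 446) (nat_lit 383) (nat_lit 116)) (XT.lf (nat_lit 0) (nat_lit 47482936820) (nat_lit 252) (nat_lit 44185622660) (nat_lit 336) (nat_lit 6529520888) (nat_lit 49) (nat_lit 5) (nat_lit 52) (nat_lit 5) (nat_lit 53) (nat_lit 5) (nat_lit 447) (nat_lit 383) (nat_lit 115)))) (XT.nd (nat_lit 188) (nat_lit 252) (nat_lit 0) (XT.nd (nat_lit 94) (nat_lit 252) (nat_lit 0) (XT.lf (nat_lit 0) (nat_lit 7365999237) (nat_lit 336) (nat_lit 11698491453) (nat_lit 84) (nat_lit 81277348677) (nat_lit 48) (nat_lit 5) (nat_lit 52) (nat_lit 5) (nat_lit 49) (nat_lit 5) (nat_lit 448) (nat_lit 383) (nat_lit 114)) (XT.lf (nat_lit 0) (nat_lit 21894116334) (nat_lit 336) (nat_lit 73619630639) (nat_lit 84) (nat_lit 7023816239) (nat_lit 45) (nat_lit 5) (nat_lit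 49) (nat_lit 5) (nat_lit 46) (nat_lit 5) (nat_lit 449) (nat_lit 383) (nat_lit 113))) (XT.nd (nat_lit 94) (nat_lit 252) (nat_lit 0) (XT.lf (nat_lit 0) (nat_lit 37165589898) (nat_lit 336) (nat_lit 33993720103) (nat_lit 84) (nat_lit 33630623950) (nat_lit 45) (nat_lit 5) (nat_lit 49) (nat_lit 5) (nat_lit 46) (nat_lit 5) (nat_lit 450) (nat_lit 383) (nat_lit 112)) (XT.lf (nat_lit 0) (nat_lit 6955891312) (nat_lit 252) (nat_lit 46005650709) (nat_lit 336) (nat_lit 54146344310) (nat_lit 42) (nat_lit 5) (nat_lit 45) (nat_lit 5) (nat_lit 46) (nat_lit 5) (nat_lit 451) (nat_lit 383) (nat_lit 111)))))) (XT.nd (nat_lit 53204) (nat_lit 0) (nat_lit 10332) (XT.nd (nat_lit 282) (nat_lit 84) (nat_lit 0) (XT.nd (nat_lit 94) (nat_lit 168) (nat_lit 0) (XT.lf (nat_lit 0) (nat_lit 49830026027) (nat_lit 252) (nat_lit 19744094387) (nat_lit 336) (nat_lit 39910974973) (nat_lit 42) (nat_lit 5) (nat_lit 45) (nat_lit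 5) (nat_lit 46) (nat_lit 5) (nat_lit 452) (nat_lit 383) (nat_lit 110)) (XT.nd (nat_lit 94) (nat_lit 168) (nat_lit 0) (XT.lf (nat_lit 0) (nat_lit 86754789631) (nat_lit 336) (nat_lit 18014251729) (nat_lit 84) (nat_lit 7162488470) (nat_lit 42) (nat_lit 5) (nat_lit 46) (nat_lit 5) (nat_lit 43) (nat_lit 5) (nat_lit 453) (nat_lit 383) (nat_lit 109)) (XT.lf (nat_lit 0) (nat_lit 25170705868) (nat_lit 168) (nat_lit 79717120581) (nat_lit 252) (nat_lit 9550422935) (nat_lit 40) (nat_lit 5) (nat_lit 42) (nat_lit 5) (nat_lit 43) (nat_lit 5) (nat_lit 454) (nat_lit 383) (nat_lit 108)))) (XT.nd (nat_lit 52734) (nat_lit 0) (nat_lit 10248) (XT.nd (nat_lit 52640) (nat_lit 0) (nat_lit 10248) (XT.lf (nat_lit 0) (nat_lit 6600190184) (nat_lit 252) (nat_lit 47059711507) (nat_lit 84) (nat_lit 63352885463) (nat_lit 39) (nat_lit 5) (nat_lit 42) (nat_lit 5) (nat_lit 40) (nat_lit 5) (nat_lit 455) (nat_lit 383) (nat_lit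 107)) (XT.lf (nat_lit 0) (nat_lit 26060946) (nat_lit 0) (nat_lit 26060946) (nat_lit 1260) (nat_lit 15743168193) (nat_lit 161) (nat_lit 5) (nat_lit 161) (nat_lit 3) (nat_lit 176) (nat_lit 3) (nat_lit 384) (nat_lit 384) (nat_lit 177))) (XT.nd (nat_lit 94) (nat_lit 0) (nat_lit 0) (XT.lf (nat_lit 0) (nat_lit 301421556) (nat_lit 1260) (nat_lit 18081948556) (nat_lit 1344) (nat_lit 13675088601) (nat_lit 161) (nat_lit 5) (nat_lit 176) (nat_lit 3) (nat_lit 177) (nat_lit 5) (nat_lit 385) (nat_lit 384) (nat_lit 176)) (XT.lf (nat_lit 0) (nat_lit 502640346) (nat_lit 1260) (nat_lit 4223548517) (nat_lit 1344) (nat_lit 27814245334) (nat_lit 161) (nat_lit 5) (nat_lit 176) (nat_lit 3) (nat_lit 177) (nat_lit 5) (nat_lit 386) (nat_lit 384) (nat_lit 175))))) (XT.nd (nat_lit 282) (nat_lit 0) (nat_lit 84) (XT.nd (nat_lit 94) (nat_lit 0) (nat_lit 0) (XT.lf (nat_lit 0) (nat_lit 896872367) (nat_lit 1260) (nat_lit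 22875407511) (nat_lit 1344) (nat_lit 9258984004) (nat_lit 162) (nat_lit 5) (nat_lit 177) (nat_lit 5) (nat_lit 178) (nat_lit 5) (nat_lit 387) (nat_lit 384) (nat_lit 174)) (XT.nd (nat_lit 94) (nat_lit 0) (nat_lit 84) (XT.lf (nat_lit 0) (nat_lit 1390541926) (nat_lit 1260) (nat_lit 8530854215) (nat_lit 1344) (nat_lit 23612798108) (nat_lit 162) (nat_lit 5) (nat_lit 177) (nat_lit 5) (nat_lit 178) (nat_lit 5) (nat_lit 388) (nat_lit 384) (nat_lit 173)) (XT.lf (nat_lit 0) (nat_lit 2000417144) (nat_lit 1260) (nat_lit 27725831580) (nat_lit 1344) (nat_lit 4322925928) (nat_lit 163) (nat_lit 5) (nat_lit 178) (nat_lit 5) (nat_lit 179) (nat_lit 5) (nat_lit 389) (nat_lit 384) (nat_lit 172)))) (XT.nd (nat_lit 188) (nat_lit 0) (nat_lit 84) (XT.nd (nat_lit 94) (nat_lit 0) (nat_lit 0) (XT.lf (nat_lit 0) (nat_lit 2811688476) (nat_lit 1260) (nat_lit 12879410597) (nat_lit 1344) (nat_lit 18883016272) (nat_lit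 163) (nat_lit 5) (nat_lit 178) (nat_lit 5) (nat_lit 179) (nat_lit 5) (nat_lit 390) (nat_lit 384) (nat_lit 171)) (XT.lf (nat_lit 84) (nat_lit 2459081423) (nat_lit 0) (nat_lit 1209787138) (nat_lit 1344) (nat_lit 31445292342) (nat_lit 164) (nat_lit 5) (nat_lit 163) (nat_lit 5) (nat_lit 179) (nat_lit 5) (nat_lit 391) (nat_lit 384) (nat_lit 170))) (XT.nd (nat_lit 94) (nat_lit 0) (nat_lit 0) (XT.lf (nat_lit 0) (nat_lit 4812845818) (nat_lit 1260) (nat_lit 17279165963) (nat_lit 1344) (nat_lit 13570567246) (nat_lit 164) (nat_lit 5) (nat_lit 179) (nat_lit 5) (nat_lit 180) (nat_lit 5) (nat_lit 392) (nat_lit 384) (nat_lit 169)) (XT.lf (nat_lit 0) (nat_lit 6001166280) (nat_lit 1260) (nat_lit 1455278890) (nat_lit 1344) (nat_lit 28770707353) (nat_lit 164) (nat_lit 5) (nat_lit 179) (nat_lit 5) (nat_lit 180) (nat_lit 5) (nat_lit 393) (nat_lit 384) (nat_lit 168))))))))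
noncomputable def xc215 : XT := (XT.nd (nat_lit 2632) (nat_lit 4368) (nat_lit 0) (XT.nd (nat_lit 1316) (nat_lit 3276) (nat_lit 0) (XT.nd (nat_lit 658) (nat_lit 2184) (nat_lit 0) (XT.nd (nat_lit 282) (nat_lit 0) (nat_lit 84) (XT.nd (nat_lit 94) (nat_lit 0) (nat_lit 0) (XT.lf (nat_lit 0) (nat_lit 7443426494) (nat_lit 1260) (nat_lit 21741612227) (nat_lit 1344) (nat_lit 7617079242) (nat_lit 165) (nat_lit 5) (nat_lit 180) (nat_lit 5) (nat_lit 181) (nat_lit 5) (nat_lit 394) (nat_lit 384) (nat_lit 167)) (XT.nd (nat_lit 94) (nat_lit 0) (nat_lit 84) (XT.lf (nat_lit 0) (nat_lit 9015772964) (nat_lit 1260) (nat_lit 5367606568) (nat_lit 1344) (nat_lit 23008351622) (nat_lit 165) (nat_lit 5) (nat_lit 180) (nat_lit 5) (nat_lit 181) (nat_lit 5) (nat_lit 395) (nat_lit 384) (nat_lit 166)) (XT.lf (nat_lit 0) (nat_lit 10755613910) (nat_lit 1260) (nat_lit 26280000001) (nat_lit 1344) (nat_lit 959812353) (nat_lit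 166) (nat_lit 5) (nat_lit 181) (nat_lit 5) (nat_lit 182) (nat_lit 5) (nat_lit 396) (nat_lit 384) (nat_lit 165)))) (XT.nd (nat_lit 188) (nat_lit 0) (nat_lit 84) (XT.nd (nat_lit 94) (nat_lit 0) (nat_lit 0) (XT.lf (nat_lit 0) (nat_lit 12743048283) (nat_lit 1260) (nat_lit 9338919375) (nat_lit 1344) (nat_lit 16529405773) (nat_lit 166) (nat_lit 5) (nat_lit 181) (nat_lit 5) (nat_lit 182) (nat_lit 5) (nat_lit 397) (nat_lit 384) (nat_lit 164)) (XT.lf (nat_lit 84) (nat_lit 8270472002) (nat_lit 0) (nat_lit 6597435048) (nat_lit 1344) (nat_lit 24375560982) (nat_lit 167) (nat_lit 5) (nat_lit 166) (nat_lit 5) (nat_lit 182) (nat_lit 5) (nat_lit 398) (nat_lit 384) (nat_lit 163))) (XT.nd (nat_lit 94) (nat_lit 0) (nat_lit 0) (XT.lf (nat_lit 0) (nat_lit 17239984786) (nat_lit 1260) (nat_lit 13384291755) (nat_lit 1344) (nat_lit 9264747703) (nat_lit 167) (nat_lit 5) (nat_lit 182) (nat_lit 5) (nat_lit 183) (nat_lit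 5) (nat_lit 399) (nat_lit 384) (nat_lit 162)) (XT.lf (nat_lit 84) (nat_lit 4758291382) (nat_lit 0) (nat_lit 15034383634) (nat_lit 1344) (nat_lit 20757991504) (nat_lit 168) (nat_lit 5) (nat_lit 167) (nat_lit 5) (nat_lit 183) (nat_lit 5) (nat_lit 400) (nat_lit 384) (nat_lit 161))))) (XT.nd (nat_lit 282) (nat_lit 1176) (nat_lit 0) (XT.nd (nat_lit 94) (nat_lit 1260) (nat_lit 0) (XT.lf (nat_lit 0) (nat_lit 22566701401) (nat_lit 1260) (nat_lit 17521112795) (nat_lit 84) (nat_lit 1140004004) (nat_lit 168) (nat_lit 5) (nat_lit 183) (nat_lit 5) (nat_lit 169) (nat_lit 5) (nat_lit 401) (nat_lit 384) (nat_lit 160)) (XT.nd (nat_lit 94) (nat_lit 0) (nat_lit 0) (XT.lf (nat_lit 0) (nat_lit 1170968941) (nat_lit 1260) (nat_lit 24411563311) (nat_lit 1344) (nat_lit 16337997387) (nat_lit 153) (nat_lit 5) (nat_lit 168) (nat_lit 5) (nat_lit 169) (nat_lit 5) (nat_lit 402) (nat_lit 384) (nat_lit 159)) (XT.lf (nat_lit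 0) (nat_lit 20781678624) (nat_lit 1260) (nat_lit 8082592608) (nat_lit 1344) (nat_lit 13764490830) (nat_lit 153) (nat_lit 5) (nat_lit 168) (nat_lit 5) (nat_lit 169) (nat_lit 5) (nat_lit 403) (nat_lit 384) (nat_lit 158)))) (XT.nd (nat_lit 188) (nat_lit 588) (nat_lit 0) (XT.nd (nat_lit 94) (nat_lit 588) (nat_lit 0) (XT.lf (nat_lit 0) (nat_lit 32326990242) (nat_lit 1344) (nat_lit 2462820238) (nat_lit 84) (nat_lit 8565957705) (nat_lit 153) (nat_lit 5) (nat_lit 169) (nat_lit 5) (nat_lit 154) (nat_lit 5) (nat_lit 404) (nat_lit 384) (nat_lit 157)) (XT.lf (nat_lit 0) (nat_lit 17768398583) (nat_lit 588) (nat_lit 18374610574) (nat_lit 672) (nat_lit 7954095269) (nat_lit 146) (nat_lit 5) (nat_lit 153) (nat_lit 5) (nat_lit 154) (nat_lit 5) (nat_lit 405) (nat_lit 384) (nat_lit 156))) (XT.nd (nat_lit 94) (nat_lit 588) (nat_lit 0) (XT.lf (nat_lit 0) (nat_lit 38655779779) (nat_lit 588) (nat_lit 1441219369)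 (nat_lit 672) (nat_lit 4762979307) (nat_lit 146) (nat_lit 5) (nat_lit 153) (nat_lit 5) (nat_lit 154) (nat_lit 5) (nat_lit 406) (nat_lit 384) (nat_lit 155)) (XT.lf (nat_lit 0) (nat_lit 14654944467) (nat_lit 588) (nat_lit 29808002258) (nat_lit 672) (nat_lit 1173994188) (nat_lit 139) (nat_lit 5) (nat_lit 146) (nat_lit 5) (nat_lit 147) (nat_lit 5) (nat_lit 407) (nat_lit 384) (nat_lit 154)))))) (XT.nd (nat_lit 658) (nat_lit 1512) (nat_lit 0) (XT.nd (nat_lit 282) (nat_lit 1092) (nat_lit 0) (XT.nd (nat_lit 94) (nat_lit 588) (nat_lit 0) (XT.lf (nat_lit 0) (nat_lit 2549648169) (nat_lit 672) (nat_lit 10208712713) (nat_lit 84) (nat_lit 33675839675) (nat_lit 138) (nat_lit 5) (nat_lit 146) (nat_lit 5) (nat_lit 139) (nat_lit 5) (nat_lit 408) (nat_lit 384) (nat_lit 153)) (XT.nd (nat_lit 94) (nat_lit 0) (nat_lit 0) (XT.lf (nat_lit 0) (nat_lit 6517041372) (nat_lit 672) (nat_lit 35901847800) (nat_lit 84)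 (nat_lit 4831473122) (nat_lit 131) (nat_lit 5) (nat_lit 139) (nat_lit 5) (nat_lit 132) (nat_lit 5) (nat_lit 409) (nat_lit 384) (nat_lit 152)) (XT.lf (nat_lit 0) (nat_lit 10832623818) (nat_lit 672) (nat_lit 14454803564) (nat_lit 84) (nat_lit 22796708559) (nat_lit 131) (nat_lit 5) (nat_lit 139) (nat_lit 5) (nat_lit 132) (nat_lit 5) (nat_lit 410) (nat_lit 384) (nat_lit 151)))) (XT.nd (nat_lit 188) (nat_lit 504) (nat_lit 0) (XT.nd (nat_lit 94) (nat_lit 0) (nat_lit 0) (XT.lf (nat_lit 0) (nat_lit 7786355564) (nat_lit 588) (nat_lit 7564940519) (nat_lit 672) (nat_lit 33589420067) (nat_lit 124) (nat_lit 5) (nat_lit 131) (nat_lit 5) (nat_lit 132) (nat_lit 5) (nat_lit 411) (nat_lit 384) (nat_lit 150)) (XT.lf (nat_lit 0) (nat_lit 20254489041) (nat_lit 672) (nat_lit 18933014497) (nat_lit 84) (nat_lit 10628023375) (nat_lit 124) (nat_lit 5) (nat_lit 132) (nat_lit 5) (nat_lit 125) (nat_lit 5) (nat_lit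 412) (nat_lit 384) (nat_lit 149))) (XT.nd (nat_lit 94) (nat_lit 0) (nat_lit 0) (XT.lf (nat_lit 0) (nat_lit 3956043053) (nat_lit 504) (nat_lit 21460496846) (nat_lit 588) (nat_lit 25296691144) (nat_lit 118) (nat_lit 5) (nat_lit 124) (nat_lit 5) (nat_lit 125) (nat_lit 5) (nat_lit 413) (nat_lit 384) (nat_lit 148)) (XT.lf (nat_lit 0) (nat_lit 27918667408) (nat_lit 504) (nat_lit 3004827307) (nat_lit 588) (nat_lit 20708672158) (nat_lit 118) (nat_lit 5) (nat_lit 124) (nat_lit 5) (nat_lit 125) (nat_lit 5) (nat_lit 414) (nat_lit 384) (nat_lit 147))))) (XT.nd (nat_lit 282) (nat_lit 1008) (nat_lit 0) (XT.nd (nat_lit 94) (nat_lit 504) (nat_lit 0) (XT.lf (nat_lit 0) (nat_lit 36748392120) (nat_lit 588) (nat_lit 133557737) (nat_lit 84) (nat_lit 15692140698) (nat_lit 118) (nat_lit 5) (nat_lit 125) (nat_lit 5) (nat_lit 119) (nat_lit 5) (nat_lit 415) (nat_lit 384) (nat_lit 146)) (XT.nd (nat_lit 94) (nat_lit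 0) (nat_lit 0) (XT.lf (nat_lit 0) (nat_lit 24602946599) (nat_lit 504) (nat_lit 18410260334) (nat_lit 588) (nat_lit 10523111647) (nat_lit 112) (nat_lit 5) (nat_lit 118) (nat_lit 5) (nat_lit 119) (nat_lit 5) (nat_lit 416) (nat_lit 384) (nat_lit 145)) (XT.lf (nat_lit 0) (nat_lit 49472185884) (nat_lit 588) (nat_lit 4450217666) (nat_lit 84) (nat_lit 604824995) (nat_lit 112) (nat_lit 5) (nat_lit 119) (nat_lit 5) (nat_lit 113) (nat_lit 5) (nat_lit 417) (nat_lit 384) (nat_lit 144)))) (XT.nd (nat_lit 188) (nat_lit 504) (nat_lit 0) (XT.nd (nat_lit 94) (nat_lit 0) (nat_lit 0) (XT.lf (nat_lit 0) (nat_lit 952653536) (nat_lit 504) (nat_lit 34552065328) (nat_lit 84) (nat_lit 20031376756) (nat_lit 106) (nat_lit 5) (nat_lit 112) (nat_lit 5) (nat_lit 107) (nat_lit 5) (nat_lit 418) (nat_lit 384) (nat_lit 143)) (XT.lf (nat_lit 0) (nat_lit 7083341211) (nat_lit 504) (nat_lit 9353018080) (nat_lit 84) (nat_lit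 40136038607) (nat_lit 106) (nat_lit 5) (nat_lit 112) (nat_lit 5) (nat_lit 107) (nat_lit 5) (nat_lit 419) (nat_lit 384) (nat_lit 142))) (XT.nd (nat_lit 94) (nat_lit 0) (nat_lit 0) (XT.lf (nat_lit 0) (nat_lit 13592120646) (nat_lit 588) (nat_lit 40736096200) (nat_lit 84) (nat_lit 3305748770) (nat_lit 100) (nat_lit 5) (nat_lit 107) (nat_lit 5) (nat_lit 101) (nat_lit 5) (nat_lit 420) (nat_lit 384) (nat_lit 141)) (XT.lf (nat_lit 0) (nat_lit 20553306801) (nat_lit 588) (nat_lit 14761364357) (nat_lit 84) (nat_lit 23404996368) (nat_lit 100) (nat_lit 5) (nat_lit 107) (nat_lit 5) (nat_lit 101) (nat_lit 5) (nat_lit 421) (nat_lit 384) (nat_lit 140))))))) (XT.nd (nat_lit 1316) (nat_lit 1596) (nat_lit 0) (XT.nd (nat_lit 658) (nat_lit 1512) (nat_lit 0) (XT.nd (nat_lit 282) (nat_lit 420) (nat_lit 0) (XT.nd (nat_lit 94) (nat_lit 420) (nat_lit 0) (XT.lf (nat_lit 0) (nat_lit 12230139934) (nat_lit 420) (nat_lit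 15609805438) (nat_lit 504) (nat_lit 31994498036) (nat_lit 95) (nat_lit 5) (nat_lit 100) (nat_lit 5) (nat_lit 101) (nat_lit 5) (nat_lit 422) (nat_lit 384) (nat_lit 139)) (XT.nd (nat_lit 94) (nat_lit 420) (nat_lit 0) (XT.lf (nat_lit 0) (nat_lit 35539834838) (nat_lit 504) (nat_lit 20691870508) (nat_lit 84) (nat_lit 4745119045) (nat_lit 95) (nat_lit 5) (nat_lit 101) (nat_lit 5) (nat_lit 96) (nat_lit 5) (nat_lit 423) (nat_lit 384) (nat_lit 138)) (XT.lf (nat_lit 0) (nat_lit 7009047804) (nat_lit 420) (nat_lit 36682696472) (nat_lit 504) (nat_lit 18455103165) (nat_lit 90) (nat_lit 5) (nat_lit 95) (nat_lit 5) (nat_lit 96) (nat_lit 5) (nat_lit 424) (nat_lit 384) (nat_lit 137)))) (XT.nd (nat_lit 188) (nat_lit 84) (nat_lit 0) (XT.nd (nat_lit 94) (nat_lit 336) (nat_lit 0) (XT.lf (nat_lit 0) (nat_lit 35964060696) (nat_lit 420) (nat_lit 16332208935) (nat_lit 504) (nat_lit 11049461091) (nat_lit 90) (nat_lit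 5) (nat_lit 95) (nat_lit 5) (nat_lit 96) (nat_lit 5) (nat_lit 425) (nat_lit 384) (nat_lit 136)) (XT.lf (nat_lit 0) (nat_lit 1184676673) (nat_lit 336) (nat_lit 60029271964) (nat_lit 420) (nat_lit 3364982586) (nat_lit 86) (nat_lit 5) (nat_lit 90) (nat_lit 5) (nat_lit 91) (nat_lit 5) (nat_lit 426) (nat_lit 384) (nat_lit 135))) (XT.nd (nat_lit 94) (nat_lit 0) (nat_lit 0) (XT.lf (nat_lit 0) (nat_lit 4901327111) (nat_lit 420) (nat_lit 34880798820) (nat_lit 84) (nat_lit 26052488338) (nat_lit 85) (nat_lit 5) (nat_lit 90) (nat_lit 5) (nat_lit 86) (nat_lit 5) (nat_lit 427) (nat_lit 384) (nat_lit 134)) (XT.lf (nat_lit 0) (nat_lit 13347158782) (nat_lit 420) (nat_lit 5546321058) (nat_lit 84) (nat_lit 48233514654) (nat_lit 85) (nat_lit 5) (nat_lit 90) (nat_lit 5) (nat_lit 86) (nat_lit 5) (nat_lit 428) (nat_lit 384) (nat_lit 133))))) (XT.nd (nat_lit 282) (nat_lit 756) (nat_lit 0) (XT.nd (nat_lit 94)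 (nat_lit 336) (nat_lit 0) (XT.lf (nat_lit 0) (nat_lit 22314984929) (nat_lit 504) (nat_lit 43320429486) (nat_lit 84) (nat_lit 2814674246) (nat_lit 80) (nat_lit 5) (nat_lit 86) (nat_lit 5) (nat_lit 81) (nat_lit 5) (nat_lit 429) (nat_lit 384) (nat_lit 132)) (XT.nd (nat_lit 94) (nat_lit 336) (nat_lit 0) (XT.lf (nat_lit 0) (nat_lit 31794672886) (nat_lit 504) (nat_lit 13160247783) (nat_lit 84) (nat_lit 24850671258) (nat_lit 80) (nat_lit 5) (nat_lit 86) (nat_lit 5) (nat_lit 81) (nat_lit 5) (nat_lit 430) (nat_lit 384) (nat_lit 131)) (XT.lf (nat_lit 0) (nat_lit 18260042431) (nat_lit 336) (nat_lit 23473460385) (nat_lit 420) (nat_lit 29463015990) (nat_lit 76) (nat_lit 5) (nat_lit 80) (nat_lit 5) (nat_lit 81) (nat_lit 5) (nat_lit 431) (nat_lit 384) (nat_lit 130)))) (XT.nd (nat_lit 188) (nat_lit 420) (nat_lit 0) (XT.nd (nat_lit 94) (nat_lit 336) (nat_lit 0) (XT.lf (nat_lit 0) (nat_lit 50891707357)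 (nat_lit 336) (nat_lit 1210920537) (nat_lit 420) (nat_lit 20522582717) (nat_lit 76) (nat_lit 5) (nat_lit 80) (nat_lit 5) (nat_lit 81) (nat_lit 5) (nat_lit 432) (nat_lit 384) (nat_lit 129)) (XT.lf (nat_lit 0) (nat_lit 10398696205) (nat_lit 336) (nat_lit 52692127707) (nat_lit 420) (nat_lit 10996700336) (nat_lit 72) (nat_lit 5) (nat_lit 76) (nat_lit 5) (nat_lit 77) (nat_lit 5) (nat_lit 433) (nat_lit 384) (nat_lit 128))) (XT.nd (nat_lit 94) (nat_lit 420) (nat_lit 0) (XT.lf (nat_lit 0) (nat_lit 43927161223) (nat_lit 336) (nat_lit 30712111737) (nat_lit 420) (nat_lit 947517085) (nat_lit 72) (nat_lit 5) (nat_lit 76) (nat_lit 5) (nat_lit 77) (nat_lit 5) (nat_lit 434) (nat_lit 384) (nat_lit 127)) (XT.lf (nat_lit 0) (nat_lit 1263743392) (nat_lit 336) (nat_lit 7967339927) (nat_lit 420) (nat_lit 67896896821) (nat_lit 67) (nat_lit 5) (nat_lit 71) (nat_lit 5) (nat_lit 72) (nat_lit 5) (nat_lit 435) (nat_lit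 384) (nat_lit 126)))))) (XT.nd (nat_lit 658) (nat_lit 588) (nat_lit 0) (XT.nd (nat_lit 282) (nat_lit 672) (nat_lit 0) (XT.nd (nat_lit 94) (nat_lit 336) (nat_lit 0) (XT.lf (nat_lit 0) (nat_lit 20166763979) (nat_lit 420) (nat_lit 43044146745) (nat_lit 84) (nat_lit 15490091665) (nat_lit 67) (nat_lit 5) (nat_lit 72) (nat_lit 5) (nat_lit 68) (nat_lit 5) (nat_lit 436) (nat_lit 384) (nat_lit 125)) (XT.nd (nat_lit 94) (nat_lit 336) (nat_lit 0) (XT.lf (nat_lit 0) (nat_lit 31508712293) (nat_lit 420) (nat_lit 9319294339) (nat_lit 84) (nat_lit 39490863614) (nat_lit 67) (nat_lit 5) (nat_lit 72) (nat_lit 5) (nat_lit 68) (nat_lit 5) (nat_lit 437) (nat_lit 384) (nat_lit 124)) (XT.lf (nat_lit 0) (nat_lit 25922211443) (nat_lit 336) (nat_lit 17517220466) (nat_lit 420) (nat_lit 38538387677) (nat_lit 63) (nat_lit 5) (nat_lit 67) (nat_lit 5) (nat_lit 68) (nat_lit 5) (nat_lit 438) (nat_lit 384) (nat_lit 123))))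 (XT.nd (nat_lit 188) (nat_lit 420) (nat_lit 0) (XT.nd (nat_lit 94) (nat_lit 252) (nat_lit 0) (XT.lf (nat_lit 0) (nat_lit 55884865871) (nat_lit 420) (nat_lit 21335997585) (nat_lit 84) (nat_lit 6460970977) (nat_lit 63) (nat_lit 5) (nat_lit 68) (nat_lit 5) (nat_lit 64) (nat_lit 5) (nat_lit 439) (nat_lit 384) (nat_lit 122)) (XT.lf (nat_lit 0) (nat_lit 14534473884) (nat_lit 252) (nat_lit 54481701032) (nat_lit 336) (nat_lit 16411420233) (nat_lit 60) (nat_lit 5) (nat_lit 63) (nat_lit 5) (nat_lit 64) (nat_lit 5) (nat_lit 440) (nat_lit 384) (nat_lit 121))) (XT.nd (nat_lit 94) (nat_lit 420) (nat_lit 0) (XT.lf (nat_lit 0) (nat_lit 51917525933) (nat_lit 252) (nat_lit 30838719008) (nat_lit 336) (nat_lit 4463039855) (nat_lit 60) (nat_lit 5) (nat_lit 63) (nat_lit 5) (nat_lit 64) (nat_lit 5) (nat_lit 441) (nat_lit 384) (nat_lit 120)) (XT.lf (nat_lit 0) (nat_lit 1306553247) (nat_lit 336) (nat_lit 6396118978)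 (nat_lit 420) (nat_lit 81359433420) (nat_lit 55) (nat_lit 5) (nat_lit 59) (nat_lit 5) (nat_lit 60) (nat_lit 5) (nat_lit 442) (nat_lit 384) (nat_lit 119))))) (XT.nd (nat_lit 282) (nat_lit 336) (nat_lit 0) (XT.nd (nat_lit 94) (nat_lit 252) (nat_lit 0) (XT.lf (nat_lit 0) (nat_lit 20683572066) (nat_lit 420) (nat_lit 51441886196) (nat_lit 84) (nat_lit 18817230326) (nat_lit 55) (nat_lit 5) (nat_lit 60) (nat_lit 5) (nat_lit 56) (nat_lit 5) (nat_lit 443) (nat_lit 384) (nat_lit 118)) (XT.nd (nat_lit 94) (nat_lit 252) (nat_lit 0) (XT.lf (nat_lit 0) (nat_lit 34116633133) (nat_lit 420) (nat_lit 14103006915) (nat_lit 84) (nat_lit 44658167624) (nat_lit 55) (nat_lit 5) (nat_lit 60) (nat_lit 5) (nat_lit 56) (nat_lit 5) (nat_lit 444) (nat_lit 384) (nat_lit 117)) (XT.lf (nat_lit 0) (nat_lit 24839911196) (nat_lit 252) (nat_lit 23350974870) (nat_lit 336) (nat_lit 46672948917) (nat_lit 52) (nat_lit 5) (nat_lit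 55) (nat_lit 5) (nat_lit 56) (nat_lit 5) (nat_lit 445) (nat_lit 384) (nat_lit 116)))) (XT.nd (nat_lit 188) (nat_lit 84) (nat_lit 0) (XT.nd (nat_lit 94) (nat_lit 252) (nat_lit 0) (XT.lf (nat_lit 0) (nat_lit 62852379680) (nat_lit 336) (nat_lit 31688977153) (nat_lit 84) (nat_lit 2363136527) (nat_lit 52) (nat_lit 5) (nat_lit 56) (nat_lit 5) (nat_lit 53) (nat_lit 5) (nat_lit 446) (nat_lit 384) (nat_lit 115)) (XT.lf (nat_lit 0) (nat_lit 7714532693) (nat_lit 252) (nat_lit 70543986391) (nat_lit 336) (nat_lit 20738708995) (nat_lit 49) (nat_lit 5) (nat_lit 52) (nat_lit 5) (nat_lit 53) (nat_lit 5) (nat_lit 447) (nat_lit 384) (nat_lit 114))) (XT.nd (nat_lit 94) (nat_lit 84) (nat_lit 0) (XT.lf (nat_lit 0) (nat_lit 48948923159) (nat_lit 252) (nat_lit 45497370713) (nat_lit 336) (nat_lit 6696868032) (nat_lit 49) (nat_lit 5) (nat_lit 52) (nat_lit 5) (nat_lit 53) (nat_lit 5) (nat_lit 448) (nat_lit 384)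 (nat_lit 113)) (XT.lf (nat_lit 0) (nat_lit 7614145811) (nat_lit 336) (nat_lit 12008587187) (nat_lit 84) (nat_lit 83728517761) (nat_lit 48) (nat_lit 5) (nat_lit 52) (nat_lit 5) (nat_lit 49) (nat_lit 5) (nat_lit 449) (nat_lit 384) (nat_lit 112))))))))
noncomputable def xc216 : XT := (XT.nd (nat_lit 55178) (nat_lit 0) (nat_lit 3024) (XT.nd (nat_lit 53862) (nat_lit 0) (nat_lit 9492) (XT.nd (nat_lit 53204) (nat_lit 0) (nat_lit 10164) (XT.nd (nat_lit 282) (nat_lit 168) (nat_lit 0) (XT.nd (nat_lit 94) (nat_lit 252) (nat_lit 0) (XT.lf (nat_lit 0) (nat_lit 22577835709) (nat_lit 336) (nat_lit 75787061883) (nat_lit 84) (nat_lit 7247957687) (nat_lit 45) (nat_lit 5) (nat_lit 49) (nat_lit 5) (nat_lit 46) (nat_lit 5) (nat_lit 450) (nat_lit 384) (nat_lit 111)) (XT.nd (nat_lit 94) (nat_lit 252) (nat_lit 0) (XT.lf (nat_lit 0) (nat_lit 38306670104) (nat_lit 336) (nat_lit 34973572798) (nat_lit 84) (nat_lit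 34652578553) (nat_lit 45) (nat_lit 5) (nat_lit 49) (nat_lit 5) (nat_lit 46) (nat_lit 5) (nat_lit 451) (nat_lit 384) (nat_lit 110)) (XT.lf (nat_lit 0) (nat_lit 7204135206) (nat_lit 252) (nat_lit 47371985370) (nat_lit 336) (nat_lit 55744204027) (nat_lit 42) (nat_lit 5) (nat_lit 45) (nat_lit 5) (nat_lit 46) (nat_lit 5) (nat_lit 452) (nat_lit 384) (nat_lit 109)))) (XT.nd (nat_lit 94) (nat_lit 168) (nat_lit 0) (XT.lf (nat_lit 0) (nat_lit 51363341520) (nat_lit 252) (nat_lit 20322985316) (nat_lit 336) (nat_lit 41082546347) (nat_lit 42) (nat_lit 5) (nat_lit 45) (nat_lit 5) (nat_lit 46) (nat_lit 5) (nat_lit 453) (nat_lit 384) (nat_lit 108)) (XT.nd (nat_lit 94) (nat_lit 168) (nat_lit 0) (XT.lf (nat_lit 0) (nat_lit 89381813830) (nat_lit 336) (nat_lit 18516756307) (nat_lit 84) (nat_lit 7390149336) (nat_lit 42) (nat_lit 5) (nat_lit 46) (nat_lit 5) (nat_lit 43) (nat_lit 5) (nat_lit 454) (nat_lit 384)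 (nat_lit 107)) (XT.lf (nat_lit 0) (nat_lit 25963378224) (nat_lit 168) (nat_lit 82095114382) (nat_lit 252) (nat_lit 9812159206) (nat_lit 40) (nat_lit 5) (nat_lit 42) (nat_lit 5) (nat_lit 43) (nat_lit 5) (nat_lit 455) (nat_lit 384) (nat_lit 106))))) (XT.nd (nat_lit 282) (nat_lit 0) (nat_lit 84) (XT.nd (nat_lit 94) (nat_lit 0) (nat_lit 0) (XT.lf (nat_lit 0) (nat_lit 57319281) (nat_lit 0) (nat_lit 57319281) (nat_lit 1260) (nat_lit 16152570971) (nat_lit 161) (nat_lit 5) (nat_lit 161) (nat_lit 3) (nat_lit 176) (nat_lit 3) (nat_lit 385) (nat_lit 385) (nat_lit 175)) (XT.nd (nat_lit 94) (nat_lit 0) (nat_lit 0) (XT.lf (nat_lit 0) (nat_lit 428250713) (nat_lit 1260) (nat_lit 18560894933) (nat_lit 1344) (nat_lit 14027318347) (nat_lit 161) (nat_lit 5) (nat_lit 176) (nat_lit 3) (nat_lit 177) (nat_lit 5) (nat_lit 386) (nat_lit 385) (nat_lit 174)) (XT.lf (nat_lit 0) (nat_lit 632075392) (nat_lit 1260) (nat_lit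 4288592760) (nat_lit 1344) (nat_lit 28592339770) (nat_lit 161) (nat_lit 5) (nat_lit 176) (nat_lit 3) (nat_lit 177) (nat_lit 5) (nat_lit 387) (nat_lit 385) (nat_lit 173)))) (XT.nd (nat_lit 188) (nat_lit 0) (nat_lit 84) (XT.nd (nat_lit 94) (nat_lit 0) (nat_lit 0) (XT.lf (nat_lit 0) (nat_lit 1034904585) (nat_lit 1260) (nat_lit 23496575185) (nat_lit 1344) (nat_lit 9487185696) (nat_lit 162) (nat_lit 5) (nat_lit 177) (nat_lit 5) (nat_lit 178) (nat_lit 5) (nat_lit 388) (nat_lit 385) (nat_lit 172)) (XT.lf (nat_lit 0) (nat_lit 1540147551) (nat_lit 1260) (nat_lit 8723581248) (nat_lit 1344) (nat_lit 24273057947) (nat_lit 162) (nat_lit 5) (nat_lit 177) (nat_lit 5) (nat_lit 178) (nat_lit 5) (nat_lit 389) (nat_lit 385) (nat_lit 171))) (XT.nd (nat_lit 94) (nat_lit 0) (nat_lit 0) (XT.lf (nat_lit 0) (nat_lit 2165367038) (nat_lit 1260) (nat_lit 28491265023) (nat_lit 1344) (nat_lit 4410678786) (nat_lit 163)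 (nat_lit 5) (nat_lit 178) (nat_lit 5) (nat_lit 179) (nat_lit 5) (nat_lit 390) (nat_lit 385) (nat_lit 170)) (XT.lf (nat_lit 0) (nat_lit 2997920081) (nat_lit 1260) (nat_lit 13201383688) (nat_lit 1344) (nat_lit 19408793247) (nat_lit 163) (nat_lit 5) (nat_lit 178) (nat_lit 5) (nat_lit 179) (nat_lit 5) (nat_lit 391) (nat_lit 385) (nat_lit 169)))))) (XT.nd (nat_lit 658) (nat_lit 840) (nat_lit 0) (XT.nd (nat_lit 282) (nat_lit 0) (nat_lit 168) (XT.nd (nat_lit 94) (nat_lit 0) (nat_lit 84) (XT.lf (nat_lit 84) (nat_lit 2596631630) (nat_lit 0) (nat_lit 1281829603) (nat_lit 1344) (nat_lit 32285958736) (nat_lit 164) (nat_lit 5) (nat_lit 163) (nat_lit 5) (nat_lit 179) (nat_lit 5) (nat_lit 392) (nat_lit 385) (nat_lit 168)) (XT.nd (nat_lit 94) (nat_lit 0) (nat_lit 0) (XT.lf (nat_lit 0) (nat_lit 5053525343) (nat_lit 1260) (nat_lit 17732213597) (nat_lit 1344) (nat_lit 13943653911) (nat_lit 164) (nat_lit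 5) (nat_lit 179) (nat_lit 5) (nat_lit 180) (nat_lit 5) (nat_lit 393) (nat_lit 385) (nat_lit 167)) (XT.lf (nat_lit 0) (nat_lit 6274690736) (nat_lit 1260) (nat_lit 1435512650) (nat_lit 1344) (nat_lit 29600789397) (nat_lit 164) (nat_lit 5) (nat_lit 179) (nat_lit 5) (nat_lit 180) (nat_lit 5) (nat_lit 394) (nat_lit 385) (nat_lit 166)))) (XT.nd (nat_lit 188) (nat_lit 0) (nat_lit 84) (XT.nd (nat_lit 94) (nat_lit 0) (nat_lit 0) (XT.lf (nat_lit 0) (nat_lit 7757824853) (nat_lit 1260) (nat_lit 22327877393) (nat_lit 1344) (nat_lit 7817581697) (nat_lit 165) (nat_lit 5) (nat_lit 180) (nat_lit 5) (nat_lit 181) (nat_lit 5) (nat_lit 395) (nat_lit 385) (nat_lit 165)) (XT.lf (nat_lit 0) (nat_lit 9374688449) (nat_lit 1260) (nat_lit 5464573405) (nat_lit 1344) (nat_lit 23671408071) (nat_lit 165) (nat_lit 5) (nat_lit 180) (nat_lit 5) (nat_lit 181) (nat_lit 5) (nat_lit 396) (nat_lit 385) (nat_lit 164))) (XT.nd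 (nat_lit 94) (nat_lit 0) (nat_lit 0) (XT.lf (nat_lit 0) (nat_lit 11164536893) (nat_lit 1260) (nat_lit 27001995672) (nat_lit 1344) (nat_lit 966013612) (nat_lit 166) (nat_lit 5) (nat_lit 181) (nat_lit 5) (nat_lit 182) (nat_lit 5) (nat_lit 397) (nat_lit 385) (nat_lit 163)) (XT.lf (nat_lit 0) (nat_lit 13209082028) (nat_lit 1260) (nat_lit 9554616734) (nat_lit 1344) (nat_lit 17003352887) (nat_lit 166) (nat_lit 5) (nat_lit 181) (nat_lit 5) (nat_lit 182) (nat_lit 5) (nat_lit 398) (nat_lit 385) (nat_lit 162))))) (XT.nd (nat_lit 282) (nat_lit 1092) (nat_lit 0) (XT.nd (nat_lit 94) (nat_lit 0) (nat_lit 84) (XT.lf (nat_lit 84) (nat_lit 8582424323) (nat_lit 0) (nat_lit 6813436790) (nat_lit 1344) (nat_lit 25022307128) (nat_lit 167) (nat_lit 5) (nat_lit 166) (nat_lit 5) (nat_lit 182) (nat_lit 5) (nat_lit 399) (nat_lit 385) (nat_lit 161)) (XT.nd (nat_lit 94) (nat_lit 0) (nat_lit 0) (XT.lf (nat_lit 0) (nat_lit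 17836546532) (nat_lit 1260) (nat_lit 13721144996) (nat_lit 1344) (nat_lit 9525480513) (nat_lit 167) (nat_lit 5) (nat_lit 182) (nat_lit 5) (nat_lit 183) (nat_lit 5) (nat_lit 400) (nat_lit 385) (nat_lit 160)) (XT.lf (nat_lit 84) (nat_lit 4965081561) (nat_lit 0) (nat_lit 15499039993) (nat_lit 1344) (nat_lit 21300597046) (nat_lit 168) (nat_lit 5) (nat_lit 167) (nat_lit 5) (nat_lit 183) (nat_lit 5) (nat_lit 401) (nat_lit 385) (nat_lit 159)))) (XT.nd (nat_lit 188) (nat_lit 0) (nat_lit 0) (XT.nd (nat_lit 94) (nat_lit 1260) (nat_lit 0) (XT.lf (nat_lit 0) (nat_lit 23318979450) (nat_lit 1260) (nat_lit 17982046836) (nat_lit 84) (nat_lit 1161234241) (nat_lit 168) (nat_lit 5) (nat_lit 183) (nat_lit 5) (nat_lit 169) (nat_lit 5) (nat_lit 402) (nat_lit 385) (nat_lit 158)) (XT.lf (nat_lit 0) (nat_lit 1270163045) (nat_lit 1260) (nat_lit 25153545479) (nat_lit 1344) (nat_lit 16752095986) (nat_lit 153) (nat_lit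 5) (nat_lit 168) (nat_lit 5) (nat_lit 169) (nat_lit 5) (nat_lit 403) (nat_lit 385) (nat_lit 157))) (XT.nd (nat_lit 94) (nat_lit 0) (nat_lit 0) (XT.lf (nat_lit 0) (nat_lit 21467328046) (nat_lit 1260) (nat_lit 8334425016) (nat_lit 1344) (nat_lit 14103599028) (nat_lit 153) (nat_lit 5) (nat_lit 168) (nat_lit 5) (nat_lit 169) (nat_lit 5) (nat_lit 404) (nat_lit 385) (nat_lit 156)) (XT.lf (nat_lit 0) (nat_lit 33366182251) (nat_lit 1344) (nat_lit 2474023467) (nat_lit 84) (nat_lit 8814031496) (nat_lit 153) (nat_lit 5) (nat_lit 169) (nat_lit 5) (nat_lit 154) (nat_lit 5) (nat_lit 405) (nat_lit 385) (nat_lit 155))))))) (XT.nd (nat_lit 1316) (nat_lit 2520) (nat_lit 0) (XT.nd (nat_lit 658) (nat_lit 1512) (nat_lit 0) (XT.nd (nat_lit 282) (nat_lit 1260) (nat_lit 0) (XT.nd (nat_lit 94) (nat_lit 588) (nat_lit 0) (XT.lf (nat_lit 0) (nat_lit 18363517395) (nat_lit 588) (nat_lit 18931740120) (nat_lit 672) (nat_lit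 8122602325) (nat_lit 146) (nat_lit 5) (nat_lit 153) (nat_lit 5) (nat_lit 154) (nat_lit 5) (nat_lit 406) (nat_lit 385) (nat_lit 154)) (XT.nd (nat_lit 94) (nat_lit 588) (nat_lit 0) (XT.lf (nat_lit 0) (nat_lit 39875712255) (nat_lit 588) (nat_lit 1490175589) (nat_lit 672) (nat_lit 4837795092) (nat_lit 146) (nat_lit 5) (nat_lit 153) (nat_lit 5) (nat_lit 154) (nat_lit 5) (nat_lit 407) (nat_lit 385) (nat_lit 153)) (XT.lf (nat_lit 0) (nat_lit 15156389885) (nat_lit 588) (nat_lit 30705042905) (nat_lit 672) (nat_lit 1142566274) (nat_lit 139) (nat_lit 5) (nat_lit 146) (nat_lit 5) (nat_lit 147) (nat_lit 5) (nat_lit 408) (nat_lit 385) (nat_lit 152)))) (XT.nd (nat_lit 188) (nat_lit 588) (nat_lit 0) (XT.nd (nat_lit 94) (nat_lit 588) (nat_lit 0) (XT.lf (nat_lit 0) (nat_lit 2689581500) (nat_lit 672) (nat_lit 10453608559) (nat_lit 84) (nat_lit 34682027489) (nat_lit 138) (nat_lit 5) (nat_lit 146) (nat_lit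 5) (nat_lit 139) (nat_lit 5) (nat_lit 409) (nat_lit 385) (nat_lit 151)) (XT.lf (nat_lit 0) (nat_lit 6774719105) (nat_lit 672) (nat_lit 36916157674) (nat_lit 84) (nat_lit 4975028757) (nat_lit 131) (nat_lit 5) (nat_lit 139) (nat_lit 5) (nat_lit 132) (nat_lit 5) (nat_lit 410) (nat_lit 385) (nat_lit 150))) (XT.nd (nat_lit 94) (nat_lit 588) (nat_lit 0) (XT.lf (nat_lit 0) (nat_lit 11217958350) (nat_lit 672) (nat_lit 14827529652) (nat_lit 84) (nat_lit 23479261702) (nat_lit 131) (nat_lit 5) (nat_lit 139) (nat_lit 5) (nat_lit 132) (nat_lit 5) (nat_lit 411) (nat_lit 385) (nat_lit 149)) (XT.lf (nat_lit 0) (nat_lit 8080267015) (nat_lit 588) (nat_lit 7790745673) (nat_lit 672) (nat_lit 34536052877) (nat_lit 124) (nat_lit 5) (nat_lit 131) (nat_lit 5) (nat_lit 132) (nat_lit 5) (nat_lit 412) (nat_lit 385) (nat_lit 148))))) (XT.nd (nat_lit 282) (nat_lit 1008) (nat_lit 0) (XT.nd (nat_lit 94) (nat_lit 504)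 (nat_lit 0) (XT.lf (nat_lit 0) (nat_lit 20919588479) (nat_lit 672) (nat_lit 19440634188) (nat_lit 84) (nat_lit 10947952190) (nat_lit 124) (nat_lit 5) (nat_lit 132) (nat_lit 5) (nat_lit 125) (nat_lit 5) (nat_lit 413) (nat_lit 385) (nat_lit 147)) (XT.nd (nat_lit 94) (nat_lit 0) (nat_lit 0) (XT.lf (nat_lit 0) (nat_lit 4134503219) (nat_lit 504) (nat_lit 22100898543) (nat_lit 588) (nat_lit 25997444056) (nat_lit 118) (nat_lit 5) (nat_lit 124) (nat_lit 5) (nat_lit 125) (nat_lit 5) (nat_lit 414) (nat_lit 385) (nat_lit 146)) (XT.lf (nat_lit 0) (nat_lit 28814265172) (nat_lit 504) (nat_lit 3091658332) (nat_lit 588) (nat_lit 21273478126) (nat_lit 118) (nat_lit 5) (nat_lit 124) (nat_lit 5) (nat_lit 125) (nat_lit 5) (nat_lit 415) (nat_lit 385) (nat_lit 145)))) (XT.nd (nat_lit 188) (nat_lit 504) (nat_lit 0) (XT.nd (nat_lit 94) (nat_lit 504) (nat_lit 0) (XT.lf (nat_lit 0) (nat_lit 37904004857) (nat_lit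 588) (nat_lit 79568221) (nat_lit 84) (nat_lit 16166059414) (nat_lit 118) (nat_lit 5) (nat_lit 125) (nat_lit 5) (nat_lit 119) (nat_lit 5) (nat_lit 416) (nat_lit 385) (nat_lit 144)) (XT.lf (nat_lit 0) (nat_lit 25398462655) (nat_lit 504) (nat_lit 18957305111) (nat_lit 588) (nat_lit 10784991984) (nat_lit 112) (nat_lit 5) (nat_lit 118) (nat_lit 5) (nat_lit 119) (nat_lit 5) (nat_lit 417) (nat_lit 385) (nat_lit 143))) (XT.nd (nat_lit 94) (nat_lit 504) (nat_lit 0) (XT.lf (nat_lit 0) (nat_lit 51007045846) (nat_lit 588) (nat_lit 4526417931) (nat_lit 84) (nat_lit 627979776) (nat_lit 112) (nat_lit 5) (nat_lit 119) (nat_lit 5) (nat_lit 113) (nat_lit 5) (nat_lit 418) (nat_lit 385) (nat_lit 142)) (XT.lf (nat_lit 0) (nat_lit 1031566283) (nat_lit 504) (nat_lit 35530804753) (nat_lit 84) (nat_lit 20638221091) (nat_lit 106) (nat_lit 5) (nat_lit 112) (nat_lit 5) (nat_lit 107) (nat_lit 5) (nat_lit 419) (nat_lit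 385) (nat_lit 141)))))) (XT.nd (nat_lit 658) (nat_lit 1176) (nat_lit 0) (XT.nd (nat_lit 282) (nat_lit 840) (nat_lit 0) (XT.nd (nat_lit 94) (nat_lit 504) (nat_lit 0) (XT.lf (nat_lit 0) (nat_lit 7344708574) (nat_lit 504) (nat_lit 9577470240) (nat_lit 84) (nat_lit 41345850865) (nat_lit 106) (nat_lit 5) (nat_lit 112) (nat_lit 5) (nat_lit 107) (nat_lit 5) (nat_lit 420) (nat_lit 385) (nat_lit 140)) (XT.nd (nat_lit 94) (nat_lit 0) (nat_lit 0) (XT.lf (nat_lit 0) (nat_lit 14047935574) (nat_lit 588) (nat_lit 41901152903) (nat_lit 84) (nat_lit 3412382586) (nat_lit 100) (nat_lit 5) (nat_lit 107) (nat_lit 5) (nat_lit 101) (nat_lit 5) (nat_lit 421) (nat_lit 385) (nat_lit 139)) (XT.lf (nat_lit 0) (nat_lit 21216557761) (nat_lit 588) (nat_lit 15148840061) (nat_lit 84) (nat_lit 24114390291) (nat_lit 100) (nat_lit 5) (nat_lit 107) (nat_lit 5) (nat_lit 101) (nat_lit 5) (nat_lit 422) (nat_lit 385) (nat_lit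 138)))) (XT.nd (nat_lit 188) (nat_lit 420) (nat_lit 0) (XT.nd (nat_lit 94) (nat_lit 0) (nat_lit 0) (XT.lf (nat_lit 0) (nat_lit 12651866563) (nat_lit 420) (nat_lit 16069097125) (nat_lit 504) (nat_lit 32907070574) (nat_lit 95) (nat_lit 5) (nat_lit 100) (nat_lit 5) (nat_lit 101) (nat_lit 5) (nat_lit 423) (nat_lit 385) (nat_lit 137)) (XT.lf (nat_lit 0) (nat_lit 36650599292) (nat_lit 504) (nat_lit 21258084543) (nat_lit 84) (nat_lit 4896042330) (nat_lit 95) (nat_lit 5) (nat_lit 101) (nat_lit 5) (nat_lit 96) (nat_lit 5) (nat_lit 424) (nat_lit 385) (nat_lit 136))) (XT.nd (nat_lit 94) (nat_lit 0) (nat_lit 0) (XT.lf (nat_lit 0) (nat_lit 7273326592) (nat_lit 420) (nat_lit 37772960435) (nat_lit 504) (nat_lit 18963588168) (nat_lit 90) (nat_lit 5) (nat_lit 95) (nat_lit 5) (nat_lit 96) (nat_lit 5) (nat_lit 425) (nat_lit 385) (nat_lit 135)) (XT.lf (nat_lit 0) (nat_lit 37095416841) (nat_lit 420) (nat_lit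 16812255852) (nat_lit 504) (nat_lit 11337092408) (nat_lit 90) (nat_lit 5) (nat_lit 95) (nat_lit 5) (nat_lit 96) (nat_lit 5) (nat_lit 426) (nat_lit 385) (nat_lit 134))))) (XT.nd (nat_lit 282) (nat_lit 756) (nat_lit 0) (XT.nd (nat_lit 94) (nat_lit 84) (nat_lit 0) (XT.lf (nat_lit 0) (nat_lit 1273367249) (nat_lit 336) (nat_lit 61818880007) (nat_lit 420) (nat_lit 3422735215) (nat_lit 86) (nat_lit 5) (nat_lit 90) (nat_lit 5) (nat_lit 91) (nat_lit 5) (nat_lit 427) (nat_lit 385) (nat_lit 133)) (XT.nd (nat_lit 94) (nat_lit 0) (nat_lit 0) (XT.lf (nat_lit 0) (nat_lit 5089487238) (nat_lit 420) (nat_lit 35874745377) (nat_lit 84) (nat_lit 26844129649) (nat_lit 85) (nat_lit 5) (nat_lit 90) (nat_lit 5) (nat_lit 86) (nat_lit 5) (nat_lit 428) (nat_lit 385) (nat_lit 132)) (XT.lf (nat_lit 0) (nat_lit 13787496180) (nat_lit 420) (nat_lit 5661761751) (nat_lit 84) (nat_lit 49690293550) (nat_lit 85) (nat_lit 5)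 (nat_lit 90) (nat_lit 5) (nat_lit 86) (nat_lit 5) (nat_lit 429) (nat_lit 385) (nat_lit 131)))) (XT.nd (nat_lit 188) (nat_lit 336) (nat_lit 0) (XT.nd (nat_lit 94) (nat_lit 0) (nat_lit 0) (XT.lf (nat_lit 0) (nat_lit 23023786973) (nat_lit 504) (nat_lit 44568469730) (nat_lit 84) (nat_lit 2910100480) (nat_lit 80) (nat_lit 5) (nat_lit 86) (nat_lit 5) (nat_lit 81) (nat_lit 5) (nat_lit 430) (nat_lit 385) (nat_lit 130)) (XT.lf (nat_lit 0) (nat_lit 32786719379) (nat_lit 504) (nat_lit 13504984692) (nat_lit 84) (nat_lit 25606857422) (nat_lit 80) (nat_lit 5) (nat_lit 86) (nat_lit 5) (nat_lit 81) (nat_lit 5) (nat_lit 431) (nat_lit 385) (nat_lit 129))) (XT.nd (nat_lit 94) (nat_lit 0) (nat_lit 0) (XT.lf (nat_lit 0) (nat_lit 18857423341) (nat_lit 336) (nat_lit 24165654652) (nat_lit 420) (nat_lit 30308158788) (nat_lit 76) (nat_lit 5) (nat_lit 80) (nat_lit 5) (nat_lit 81) (nat_lit 5) (nat_lit 432) (nat_lit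 385) (nat_lit 128)) (XT.lf (nat_lit 0) (nat_lit 52466594148) (nat_lit 336) (nat_lit 1235588400) (nat_lit 420) (nat_lit 21100641090) (nat_lit 76) (nat_lit 5) (nat_lit 80) (nat_lit 5) (nat_lit 81) (nat_lit 5) (nat_lit 433) (nat_lit 385) (nat_lit 127))))))))
noncomputable def xc217 : XT := (XT.nd (nat_lit 55272) (nat_lit 0) (nat_lit 5880) (XT.nd (nat_lit 1222) (nat_lit 840) (nat_lit 0) (XT.nd (nat_lit 564) (nat_lit 924) (nat_lit 0) (XT.nd (nat_lit 282) (nat_lit 336) (nat_lit 0) (XT.nd (nat_lit 94) (nat_lit 420) (nat_lit 0) (XT.lf (nat_lit 0) (nat_lit 10759341845) (nat_lit 336) (nat_lit 54260197004) (nat_lit 420) (nat_lit 11289483831) (nat_lit 72) (nat_lit 5) (nat_lit 76) (nat_lit 5) (nat_lit 77) (nat_lit 5) (nat_lit 434) (nat_lit 385) (nat_lit 126)) (XT.nd (nat_lit 94) (nat_lit 420) (nat_lit 0) (XT.lf (nat_lit 0) (nat_lit 45292242811) (nat_lit 336) (nat_lit 31621150299) (nat_lit 420) (nat_lit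 939906175) (nat_lit 72) (nat_lit 5) (nat_lit 76) (nat_lit 5) (nat_lit 77) (nat_lit 5) (nat_lit 435) (nat_lit 385) (nat_lit 125)) (XT.lf (nat_lit 0) (nat_lit 1349199769) (nat_lit 336) (nat_lit 8193577171) (nat_lit 420) (nat_lit 69897956220) (nat_lit 67) (nat_lit 5) (nat_lit 71) (nat_lit 5) (nat_lit 72) (nat_lit 5) (nat_lit 436) (nat_lit 385) (nat_lit 124)))) (XT.nd (nat_lit 94) (nat_lit 336) (nat_lit 0) (XT.lf (nat_lit 0) (nat_lit 20805634858) (nat_lit 420) (nat_lit 44288376407) (nat_lit 84) (nat_lit 15966962874) (nat_lit 67) (nat_lit 5) (nat_lit 72) (nat_lit 5) (nat_lit 68) (nat_lit 5) (nat_lit 437) (nat_lit 385) (nat_lit 123)) (XT.nd (nat_lit 94) (nat_lit 336) (nat_lit 0) (XT.lf (nat_lit 0) (nat_lit 32486855176) (nat_lit 420) (nat_lit 9553150121) (nat_lit 84) (nat_lit 40687403560) (nat_lit 67) (nat_lit 5) (nat_lit 72) (nat_lit 5) (nat_lit 68) (nat_lit 5) (nat_lit 438) (nat_lit 385) (nat_lit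 122)) (XT.lf (nat_lit 0) (nat_lit 26745152570) (nat_lit 336) (nat_lit 18029821306) (nat_lit 420) (nat_lit 39661169672) (nat_lit 63) (nat_lit 5) (nat_lit 67) (nat_lit 5) (nat_lit 68) (nat_lit 5) (nat_lit 439) (nat_lit 385) (nat_lit 121))))) (XT.nd (nat_lit 282) (nat_lit 672) (nat_lit 0) (XT.nd (nat_lit 94) (nat_lit 252) (nat_lit 0) (XT.lf (nat_lit 0) (nat_lit 57592948899) (nat_lit 420) (nat_lit 21931260761) (nat_lit 84) (nat_lit 6667095000) (nat_lit 63) (nat_lit 5) (nat_lit 68) (nat_lit 5) (nat_lit 64) (nat_lit 5) (nat_lit 440) (nat_lit 385) (nat_lit 120)) (XT.nd (nat_lit 94) (nat_lit 0) (nat_lit 0) (XT.lf (nat_lit 0) (nat_lit 15014885473) (nat_lit 252) (nat_lit 56102819770) (nat_lit 336) (nat_lit 16871748840) (nat_lit 60) (nat_lit 5) (nat_lit 63) (nat_lit 5) (nat_lit 64) (nat_lit 5) (nat_lit 441) (nat_lit 385) (nat_lit 119)) (XT.lf (nat_lit 0) (nat_lit 53518136538) (nat_lit 252) (nat_lit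 31750936605) (nat_lit 336) (nat_lit 4565849498) (nat_lit 60) (nat_lit 5) (nat_lit 63) (nat_lit 5) (nat_lit 64) (nat_lit 5) (nat_lit 442) (nat_lit 385) (nat_lit 118)))) (XT.nd (nat_lit 188) (nat_lit 252) (nat_lit 0) (XT.nd (nat_lit 94) (nat_lit 0) (nat_lit 0) (XT.lf (nat_lit 0) (nat_lit 1389047901) (nat_lit 336) (nat_lit 6574708115) (nat_lit 420) (nat_lit 83769278310) (nat_lit 55) (nat_lit 5) (nat_lit 59) (nat_lit 5) (nat_lit 60) (nat_lit 5) (nat_lit 443) (nat_lit 385) (nat_lit 117)) (XT.lf (nat_lit 0) (nat_lit 21333333033) (nat_lit 420) (nat_lit 52942322635) (nat_lit 84) (nat_lit 19394402586) (nat_lit 55) (nat_lit 5) (nat_lit 60) (nat_lit 5) (nat_lit 56) (nat_lit 5) (nat_lit 444) (nat_lit 385) (nat_lit 116))) (XT.nd (nat_lit 94) (nat_lit 252) (nat_lit 0) (XT.lf (nat_lit 0) (nat_lit 35168533879) (nat_lit 420) (nat_lit 14484524164) (nat_lit 84) (nat_lit 46010199400) (nat_lit 55) (nat_lit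 5) (nat_lit 60) (nat_lit 5) (nat_lit 56) (nat_lit 5) (nat_lit 445) (nat_lit 385) (nat_lit 115)) (XT.lf (nat_lit 0) (nat_lit 25626273912) (nat_lit 252) (nat_lit 24038308960) (nat_lit 336) (nat_lit 48044296592) (nat_lit 52) (nat_lit 5) (nat_lit 55) (nat_lit 5) (nat_lit 56) (nat_lit 5) (nat_lit 446) (nat_lit 385) (nat_lit 114)))))) (XT.nd (nat_lit 658) (nat_lit 0) (nat_lit 0) (XT.nd (nat_lit 282) (nat_lit 588) (nat_lit 0) (XT.nd (nat_lit 94) (nat_lit 252) (nat_lit 0) (XT.lf (nat_lit 0) (nat_lit 64765229773) (nat_lit 336) (nat_lit 32598958012) (nat_lit 84) (nat_lit 2446591469) (nat_lit 52) (nat_lit 5) (nat_lit 56) (nat_lit 5) (nat_lit 53) (nat_lit 5) (nat_lit 447) (nat_lit 385) (nat_lit 113)) (XT.nd (nat_lit 94) (nat_lit 0) (nat_lit 0) (XT.lf (nat_lit 0) (nat_lit 7986258223) (nat_lit 252) (nat_lit 72646887899) (nat_lit 336) (nat_lit 21333163000) (nat_lit 49) (nat_lit 5) (nat_lit 52) (nat_lit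 5) (nat_lit 53) (nat_lit 5) (nat_lit 448) (nat_lit 385) (nat_lit 112)) (XT.lf (nat_lit 0) (nat_lit 50456506921) (nat_lit 252) (nat_lit 46849264568) (nat_lit 336) (nat_lit 6870873816) (nat_lit 49) (nat_lit 5) (nat_lit 52) (nat_lit 5) (nat_lit 53) (nat_lit 5) (nat_lit 449) (nat_lit 385) (nat_lit 111)))) (XT.nd (nat_lit 188) (nat_lit 252) (nat_lit 0) (XT.nd (nat_lit 94) (nat_lit 252) (nat_lit 0) (XT.lf (nat_lit 0) (nat_lit 7868177307) (nat_lit 336) (nat_lit 12330331267) (nat_lit 84) (nat_lit 86252484353) (nat_lit 48) (nat_lit 5) (nat_lit 52) (nat_lit 5) (nat_lit 49) (nat_lit 5) (nat_lit 450) (nat_lit 385) (nat_lit 110)) (XT.lf (nat_lit 0) (nat_lit 23280522731) (nat_lit 336) (nat_lit 78021878683) (nat_lit 84) (nat_lit 7478052616) (nat_lit 45) (nat_lit 5) (nat_lit 49) (nat_lit 5) (nat_lit 46) (nat_lit 5) (nat_lit 451) (nat_lit 385) (nat_lit 109))) (XT.nd (nat_lit 94) (nat_lit 252) (nat_lit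 0) (XT.lf (nat_lit 0) (nat_lit 39480483752) (nat_lit 336) (nat_lit 35985114878) (nat_lit 84) (nat_lit 35704443480) (nat_lit 45) (nat_lit 5) (nat_lit 49) (nat_lit 5) (nat_lit 46) (nat_lit 5) (nat_lit 452) (nat_lit 385) (nat_lit 108)) (XT.lf (nat_lit 0) (nat_lit 7457555100) (nat_lit 252) (nat_lit 48780104249) (nat_lit 336) (nat_lit 57391522502) (nat_lit 42) (nat_lit 5) (nat_lit 45) (nat_lit 5) (nat_lit 46) (nat_lit 5) (nat_lit 453) (nat_lit 385) (nat_lit 107))))) (XT.nd (nat_lit 53016) (nat_lit 0) (nat_lit 9996) (XT.nd (nat_lit 94) (nat_lit 0) (nat_lit 0) (XT.lf (nat_lit 0) (nat_lit 52940451317) (nat_lit 252) (nat_lit 20920014019) (nat_lit 336) (nat_lit 42290743469) (nat_lit 42) (nat_lit 5) (nat_lit 45) (nat_lit 5) (nat_lit 46) (nat_lit 5) (nat_lit 454) (nat_lit 385) (nat_lit 106)) (XT.nd (nat_lit 52828) (nat_lit 0) (nat_lit 9996) (XT.lf (nat_lit 0) (nat_lit 92086249214) (nat_lit 336) (nat_lit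 19036512957) (nat_lit 84) (nat_lit 7623906046) (nat_lit 42) (nat_lit 5) (nat_lit 46) (nat_lit 5) (nat_lit 43) (nat_lit 5) (nat_lit 455) (nat_lit 385) (nat_lit 105)) (XT.lf (nat_lit 0) (nat_lit 87765889) (nat_lit 0) (nat_lit 87765889) (nat_lit 1260) (nat_lit 16577866105) (nat_lit 161) (nat_lit 5) (nat_lit 161) (nat_lit 3) (nat_lit 176) (nat_lit 3) (nat_lit 386) (nat_lit 386) (nat_lit 173)))) (XT.nd (nat_lit 188) (nat_lit 0) (nat_lit 84) (XT.nd (nat_lit 94) (nat_lit 0) (nat_lit 0) (XT.lf (nat_lit 0) (nat_lit 552123318) (nat_lit 1260) (nat_lit 19057855554) (nat_lit 1344) (nat_lit 14393445738) (nat_lit 161) (nat_lit 5) (nat_lit 176) (nat_lit 3) (nat_lit 177) (nat_lit 5) (nat_lit 387) (nat_lit 386) (nat_lit 172)) (XT.lf (nat_lit 0) (nat_lit 758828997) (nat_lit 1260) (nat_lit 4359127992) (nat_lit 1344) (nat_lit 29397010779) (nat_lit 161) (nat_lit 5) (nat_lit 176) (nat_lit 3) (nat_lit 177) (nat_lit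 5) (nat_lit 388) (nat_lit 386) (nat_lit 171))) (XT.nd (nat_lit 94) (nat_lit 0) (nat_lit 0) (XT.lf (nat_lit 0) (nat_lit 1170698681) (nat_lit 1260) (nat_lit 24140114583) (nat_lit 1344) (nat_lit 9725078835) (nat_lit 162) (nat_lit 5) (nat_lit 177) (nat_lit 5) (nat_lit 178) (nat_lit 5) (nat_lit 389) (nat_lit 386) (nat_lit 170)) (XT.lf (nat_lit 0) (nat_lit 1688048053) (nat_lit 1260) (nat_lit 8925717950) (nat_lit 1344) (nat_lit 24955888100) (nat_lit 162) (nat_lit 5) (nat_lit 177) (nat_lit 5) (nat_lit 178) (nat_lit 5) (nat_lit 390) (nat_lit 386) (nat_lit 169))))))) (XT.nd (nat_lit 1316) (nat_lit 3444) (nat_lit 0) (XT.nd (nat_lit 658) (nat_lit 840) (nat_lit 0) (XT.nd (nat_lit 282) (nat_lit 0) (nat_lit 84) (XT.nd (nat_lit 94) (nat_lit 0) (nat_lit 0) (XT.lf (nat_lit 0) (nat_lit 2329241593) (nat_lit 1260) (nat_lit 29283469743) (nat_lit 1344) (nat_lit 4503471467) (nat_lit 163) (nat_lit 5) (nat_lit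 178) (nat_lit 5) (nat_lit 179) (nat_lit 5) (nat_lit 391) (nat_lit 386) (nat_lit 168)) (XT.nd (nat_lit 94) (nat_lit 0) (nat_lit 0) (XT.lf (nat_lit 0) (nat_lit 3183890251) (nat_lit 1260) (nat_lit 13536713324) (nat_lit 1344) (nat_lit 19952680653) (nat_lit 163) (nat_lit 5) (nat_lit 178) (nat_lit 5) (nat_lit 179) (nat_lit 5) (nat_lit 392) (nat_lit 386) (nat_lit 167)) (XT.lf (nat_lit 84) (nat_lit 2734647239) (nat_lit 0) (nat_lit 1353981211) (nat_lit 1344) (nat_lit 33157740083) (nat_lit 164) (nat_lit 5) (nat_lit 163) (nat_lit 5) (nat_lit 179) (nat_lit 5) (nat_lit 393) (nat_lit 386) (nat_lit 166)))) (XT.nd (nat_lit 188) (nat_lit 0) (nat_lit 84) (XT.nd (nat_lit 94) (nat_lit 0) (nat_lit 0) (XT.lf (nat_lit 0) (nat_lit 5295897576) (nat_lit 1260) (nat_lit 18202602716) (nat_lit 1344) (nat_lit 14329886659) (nat_lit 164) (nat_lit 5) (nat_lit 179) (nat_lit 5) (nat_lit 180) (nat_lit 5) (nat_lit 394) (nat_lit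 386) (nat_lit 165)) (XT.lf (nat_lit 0) (nat_lit 6551054247) (nat_lit 1260) (nat_lit 1418794254) (nat_lit 1344) (nat_lit 30457670487) (nat_lit 164) (nat_lit 5) (nat_lit 179) (nat_lit 5) (nat_lit 180) (nat_lit 5) (nat_lit 395) (nat_lit 386) (nat_lit 164))) (XT.nd (nat_lit 94) (nat_lit 0) (nat_lit 0) (XT.lf (nat_lit 0) (nat_lit 8076425905) (nat_lit 1260) (nat_lit 22935518219) (nat_lit 1344) (nat_lit 8025707110) (nat_lit 165) (nat_lit 5) (nat_lit 180) (nat_lit 5) (nat_lit 181) (nat_lit 5) (nat_lit 396) (nat_lit 386) (nat_lit 163)) (XT.lf (nat_lit 0) (nat_lit 9739294448) (nat_lit 1260) (nat_lit 5568126631) (nat_lit 1344) (nat_lit 24355917267) (nat_lit 165) (nat_lit 5) (nat_lit 180) (nat_lit 5) (nat_lit 181) (nat_lit 5) (nat_lit 397) (nat_lit 386) (nat_lit 162))))) (XT.nd (nat_lit 282) (nat_lit 1092) (nat_lit 0) (XT.nd (nat_lit 94) (nat_lit 0) (nat_lit 0) (XT.lf (nat_lit 0) (nat_lit 11580776200)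 (nat_lit 1260) (nat_lit 27749463094) (nat_lit 1344) (nat_lit 973697847) (nat_lit 166) (nat_lit 5) (nat_lit 181) (nat_lit 5) (nat_lit 182) (nat_lit 5) (nat_lit 398) (nat_lit 386) (nat_lit 161)) (XT.nd (nat_lit 94) (nat_lit 0) (nat_lit 0) (XT.lf (nat_lit 0) (nat_lit 13684289635) (nat_lit 1260) (nat_lit 9780485869) (nat_lit 1344) (nat_lit 17492777577) (nat_lit 166) (nat_lit 5) (nat_lit 181) (nat_lit 5) (nat_lit 182) (nat_lit 5) (nat_lit 399) (nat_lit 386) (nat_lit 160)) (XT.lf (nat_lit 84) (nat_lit 8900070642) (nat_lit 0) (nat_lit 7034880793) (nat_lit 1344) (nat_lit 25693307492) (nat_lit 167) (nat_lit 5) (nat_lit 166) (nat_lit 5) (nat_lit 182) (nat_lit 5) (nat_lit 400) (nat_lit 386) (nat_lit 159)))) (XT.nd (nat_lit 188) (nat_lit 1176) (nat_lit 0) (XT.nd (nat_lit 94) (nat_lit 0) (nat_lit 0) (XT.lf (nat_lit 0) (nat_lit 18446449415) (nat_lit 1260) (nat_lit 14071816474) (nat_lit 1344) (nat_lit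 9795023209) (nat_lit 167) (nat_lit 5) (nat_lit 182) (nat_lit 5) (nat_lit 183) (nat_lit 5) (nat_lit 401) (nat_lit 386) (nat_lit 158)) (XT.lf (nat_lit 84) (nat_lit 5174399205) (nat_lit 0) (nat_lit 15976853920) (nat_lit 1344) (nat_lit 21864080786) (nat_lit 168) (nat_lit 5) (nat_lit 167) (nat_lit 5) (nat_lit 183) (nat_lit 5) (nat_lit 402) (nat_lit 386) (nat_lit 157))) (XT.nd (nat_lit 94) (nat_lit 1260) (nat_lit 0) (XT.lf (nat_lit 0) (nat_lit 24089504632) (nat_lit 1260) (nat_lit 18460522905) (nat_lit 84) (nat_lit 1183845909) (nat_lit 168) (nat_lit 5) (nat_lit 183) (nat_lit 5) (nat_lit 169) (nat_lit 5) (nat_lit 403) (nat_lit 386) (nat_lit 156)) (XT.lf (nat_lit 0) (nat_lit 1368655377) (nat_lit 1260) (nat_lit 25917234008) (nat_lit 1344) (nat_lit 17182982625) (nat_lit 153) (nat_lit 5) (nat_lit 168) (nat_lit 5) (nat_lit 169) (nat_lit 5) (nat_lit 404) (nat_lit 386) (nat_lit 155)))))) (XT.nd (nat_lit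 658) (nat_lit 1596) (nat_lit 0) (XT.nd (nat_lit 282) (nat_lit 1260) (nat_lit 0) (XT.nd (nat_lit 94) (nat_lit 588) (nat_lit 0) (XT.lf (nat_lit 0) (nat_lit 22169976471) (nat_lit 1260) (nat_lit 8593275403) (nat_lit 1344) (nat_lit 14457118417) (nat_lit 153) (nat_lit 5) (nat_lit 168) (nat_lit 5) (nat_lit 169) (nat_lit 5) (nat_lit 405) (nat_lit 386) (nat_lit 154)) (XT.nd (nat_lit 94) (nat_lit 588) (nat_lit 0) (XT.lf (nat_lit 0) (nat_lit 34432567193) (nat_lit 1344) (nat_lit 2489160960) (nat_lit 84) (nat_lit 9070058682) (nat_lit 153) (nat_lit 5) (nat_lit 169) (nat_lit 5) (nat_lit 154) (nat_lit 5) (nat_lit 406) (nat_lit 386) (nat_lit 153)) (XT.lf (nat_lit 0) (nat_lit 18972926881) (nat_lit 588) (nat_lit 19505245371) (nat_lit 672) (nat_lit 8300189526) (nat_lit 146) (nat_lit 5) (nat_lit 153) (nat_lit 5) (nat_lit 154) (nat_lit 5) (nat_lit 407) (nat_lit 386) (nat_lit 152)))) (XT.nd (nat_lit 188) (nat_lit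 672) (nat_lit 0) (XT.nd (nat_lit 94) (nat_lit 588) (nat_lit 0) (XT.lf (nat_lit 0) (nat_lit 41128783587) (nat_lit 588) (nat_lit 1540272165) (nat_lit 672) (nat_lit 4918763053) (nat_lit 146) (nat_lit 5) (nat_lit 153) (nat_lit 5) (nat_lit 154) (nat_lit 5) (nat_lit 408) (nat_lit 386) (nat_lit 151)) (XT.lf (nat_lit 0) (nat_lit 15669331260) (nat_lit 588) (nat_lit 31628834007) (nat_lit 672) (nat_lit 1114021375) (nat_lit 139) (nat_lit 5) (nat_lit 146) (nat_lit 5) (nat_lit 147) (nat_lit 5) (nat_lit 409) (nat_lit 386) (nat_lit 150))) (XT.nd (nat_lit 94) (nat_lit 588) (nat_lit 0) (XT.lf (nat_lit 0) (nat_lit 2830070892) (nat_lit 672) (nat_lit 10709373913) (nat_lit 84) (nat_lit 35718635570) (nat_lit 138) (nat_lit 5) (nat_lit 146) (nat_lit 5) (nat_lit 139) (nat_lit 5) (nat_lit 410) (nat_lit 386) (nat_lit 149)) (XT.lf (nat_lit 0) (nat_lit 7036558560) (nat_lit 672) (nat_lit 37964498696) (nat_lit 84) (nat_lit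 5122970771) (nat_lit 131) (nat_lit 5) (nat_lit 139) (nat_lit 5) (nat_lit 132) (nat_lit 5) (nat_lit 411) (nat_lit 386) (nat_lit 148))))) (XT.nd (nat_lit 282) (nat_lit 1008) (nat_lit 0) (XT.nd (nat_lit 94) (nat_lit 588) (nat_lit 0) (XT.lf (nat_lit 0) (nat_lit 11611388248) (nat_lit 672) (nat_lit 15214934466) (nat_lit 84) (nat_lit 24182368826) (nat_lit 131) (nat_lit 5) (nat_lit 139) (nat_lit 5) (nat_lit 132) (nat_lit 5) (nat_lit 412) (nat_lit 386) (nat_lit 147)) (XT.nd (nat_lit 94) (nat_lit 0) (nat_lit 0) (XT.lf (nat_lit 0) (nat_lit 8379533149) (nat_lit 588) (nat_lit 8023390598) (nat_lit 672) (nat_lit 35514589178) (nat_lit 124) (nat_lit 5) (nat_lit 131) (nat_lit 5) (nat_lit 132) (nat_lit 5) (nat_lit 413) (nat_lit 386) (nat_lit 146)) (XT.lf (nat_lit 0) (nat_lit 21601342187) (nat_lit 672) (nat_lit 19966947997) (nat_lit 84) (nat_lit 11277416407) (nat_lit 124) (nat_lit 5) (nat_lit 132) (nat_lit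 5) (nat_lit 125) (nat_lit 5) (nat_lit 414) (nat_lit 386) (nat_lit 145)))) (XT.nd (nat_lit 188) (nat_lit 504) (nat_lit 0) (XT.nd (nat_lit 94) (nat_lit 0) (nat_lit 0) (XT.lf (nat_lit 0) (nat_lit 4314885638) (nat_lit 504) (nat_lit 22760708224) (nat_lit 588) (nat_lit 26722557478) (nat_lit 118) (nat_lit 5) (nat_lit 124) (nat_lit 5) (nat_lit 125) (nat_lit 5) (nat_lit 415) (nat_lit 386) (nat_lit 144)) (XT.lf (nat_lit 0) (nat_lit 29733399266) (nat_lit 504) (nat_lit 3181284514) (nat_lit 588) (nat_lit 21858468975) (nat_lit 118) (nat_lit 5) (nat_lit 124) (nat_lit 5) (nat_lit 125) (nat_lit 5) (nat_lit 416) (nat_lit 386) (nat_lit 143))) (XT.nd (nat_lit 94) (nat_lit 504) (nat_lit 0) (XT.lf (nat_lit 0) (nat_lit 39091234319) (nat_lit 588) (nat_lit 27288240) (nat_lit 84) (nat_lit 16654014610) (nat_lit 118) (nat_lit 5) (nat_lit 125) (nat_lit 5) (nat_lit 119) (nat_lit 5) (nat_lit 417) (nat_lit 386) (nat_lit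 142)) (XT.lf (nat_lit 0) (nat_lit 26214547610) (nat_lit 504) (nat_lit 19521063351) (nat_lit 588) (nat_lit 11057817819) (nat_lit 112) (nat_lit 5) (nat_lit 118) (nat_lit 5) (nat_lit 119) (nat_lit 5) (nat_lit 418) (nat_lit 386) (nat_lit 141))))))))
noncomputable def xc218 : XT := (XT.nd (nat_lit 2538) (nat_lit 1092) (nat_lit 0) (XT.nd (nat_lit 1222) (nat_lit 2100) (nat_lit 0) (XT.nd (nat_lit 564) (nat_lit 1260) (nat_lit 0) (XT.nd (nat_lit 282) (nat_lit 924) (nat_lit 0) (XT.nd (nat_lit 94) (nat_lit 504) (nat_lit 0) (XT.lf (nat_lit 0) (nat_lit 52585041541) (nat_lit 588) (nat_lit 4608193818) (nat_lit 84) (nat_lit 651541605) (nat_lit 112) (nat_lit 5) (nat_lit 119) (nat_lit 5) (nat_lit 113) (nat_lit 5) (nat_lit 419) (nat_lit 386) (nat_lit 140)) (XT.nd (nat_lit 94) (nat_lit 0) (nat_lit 0) (XT.lf (nat_lit 0) (nat_lit 1109957084) (nat_lit 504) (nat_lit 36542225612) (nat_lit 84) (nat_lit 21262931898)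 (nat_lit 106) (nat_lit 5) (nat_lit 112) (nat_lit 5) (nat_lit 107) (nat_lit 5) (nat_lit 420) (nat_lit 386) (nat_lit 139)) (XT.lf (nat_lit 0) (nat_lit 7611111785) (nat_lit 504) (nat_lit 9811878537) (nat_lit 84) (nat_lit 42591628502) (nat_lit 106) (nat_lit 5) (nat_lit 112) (nat_lit 5) (nat_lit 107) (nat_lit 5) (nat_lit 421) (nat_lit 386) (nat_lit 138)))) (XT.nd (nat_lit 94) (nat_lit 420) (nat_lit 0) (XT.lf (nat_lit 0) (nat_lit 14514666609) (nat_lit 588) (nat_lit 43104434842) (nat_lit 84) (nat_lit 3521787103) (nat_lit 100) (nat_lit 5) (nat_lit 107) (nat_lit 5) (nat_lit 101) (nat_lit 5) (nat_lit 422) (nat_lit 386) (nat_lit 137)) (XT.nd (nat_lit 94) (nat_lit 420) (nat_lit 0) (XT.lf (nat_lit 0) (nat_lit 21897028249) (nat_lit 588) (nat_lit 15551118227) (nat_lit 84) (nat_lit 24844650194) (nat_lit 100) (nat_lit 5) (nat_lit 107) (nat_lit 5) (nat_lit 101) (nat_lit 5) (nat_lit 423) (nat_lit 386) (nat_lit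 136)) (XT.lf (nat_lit 0) (nat_lit 13083097958) (nat_lit 420) (nat_lit 16542684341) (nat_lit 504) (nat_lit 33849733343) (nat_lit 95) (nat_lit 5) (nat_lit 100) (nat_lit 5) (nat_lit 101) (nat_lit 5) (nat_lit 424) (nat_lit 386) (nat_lit 135))))) (XT.nd (nat_lit 282) (nat_lit 840) (nat_lit 0) (XT.nd (nat_lit 94) (nat_lit 420) (nat_lit 0) (XT.lf (nat_lit 0) (nat_lit 37792128214) (nat_lit 504) (nat_lit 21844415937) (nat_lit 84) (nat_lit 5051001378) (nat_lit 95) (nat_lit 5) (nat_lit 101) (nat_lit 5) (nat_lit 96) (nat_lit 5) (nat_lit 425) (nat_lit 386) (nat_lit 134)) (XT.nd (nat_lit 94) (nat_lit 0) (nat_lit 0) (XT.lf (nat_lit 0) (nat_lit 7542433501) (nat_lit 420) (nat_lit 38896518810) (nat_lit 504) (nat_lit 19489920555) (nat_lit 90) (nat_lit 5) (nat_lit 95) (nat_lit 5) (nat_lit 96) (nat_lit 5) (nat_lit 426) (nat_lit 386) (nat_lit 133)) (XT.lf (nat_lit 0) (nat_lit 38257703725) (nat_lit 420) (nat_lit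 17307273588) (nat_lit 504) (nat_lit 11635869978) (nat_lit 90) (nat_lit 5) (nat_lit 95) (nat_lit 5) (nat_lit 96) (nat_lit 5) (nat_lit 427) (nat_lit 386) (nat_lit 132)))) (XT.nd (nat_lit 188) (nat_lit 420) (nat_lit 0) (XT.nd (nat_lit 94) (nat_lit 84) (nat_lit 0) (XT.lf (nat_lit 0) (nat_lit 1361667498) (nat_lit 336) (nat_lit 63662823243) (nat_lit 420) (nat_lit 3484700098) (nat_lit 86) (nat_lit 5) (nat_lit 90) (nat_lit 5) (nat_lit 91) (nat_lit 5) (nat_lit 428) (nat_lit 386) (nat_lit 131)) (XT.lf (nat_lit 0) (nat_lit 5280931694) (nat_lit 420) (nat_lit 36901522748) (nat_lit 84) (nat_lit 27658942332) (nat_lit 85) (nat_lit 5) (nat_lit 90) (nat_lit 5) (nat_lit 86) (nat_lit 5) (nat_lit 429) (nat_lit 386) (nat_lit 130))) (XT.nd (nat_lit 94) (nat_lit 420) (nat_lit 0) (XT.lf (nat_lit 0) (nat_lit 14238751978) (nat_lit 420) (nat_lit 5783590341) (nat_lit 84) (nat_lit 51190214777) (nat_lit 85) (nat_lit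 5) (nat_lit 90) (nat_lit 5) (nat_lit 86) (nat_lit 5) (nat_lit 430) (nat_lit 386) (nat_lit 129)) (XT.lf (nat_lit 0) (nat_lit 23751594084) (nat_lit 504) (nat_lit 45856911663) (nat_lit 84) (nat_lit 3007758859) (nat_lit 80) (nat_lit 5) (nat_lit 86) (nat_lit 5) (nat_lit 81) (nat_lit 5) (nat_lit 431) (nat_lit 386) (nat_lit 128)))))) (XT.nd (nat_lit 658) (nat_lit 1008) (nat_lit 0) (XT.nd (nat_lit 282) (nat_lit 756) (nat_lit 0) (XT.nd (nat_lit 94) (nat_lit 336) (nat_lit 0) (XT.lf (nat_lit 0) (nat_lit 33806334069) (nat_lit 504) (nat_lit 13862937962) (nat_lit 84) (nat_lit 26385116897) (nat_lit 80) (nat_lit 5) (nat_lit 86) (nat_lit 5) (nat_lit 81) (nat_lit 5) (nat_lit 432) (nat_lit 386) (nat_lit 127)) (XT.nd (nat_lit 94) (nat_lit 0) (nat_lit 0) (XT.lf (nat_lit 0) (nat_lit 19469879604) (nat_lit 336) (nat_lit 24879304144) (nat_lit 420) (nat_lit 31180880145) (nat_lit 76) (nat_lit 5) (nat_lit 80) (nat_lit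 5) (nat_lit 81) (nat_lit 5) (nat_lit 433) (nat_lit 386) (nat_lit 126)) (XT.lf (nat_lit 0) (nat_lit 54085964363) (nat_lit 336) (nat_lit 1261665618) (nat_lit 420) (nat_lit 21698200704) (nat_lit 76) (nat_lit 5) (nat_lit 80) (nat_lit 5) (nat_lit 81) (nat_lit 5) (nat_lit 434) (nat_lit 386) (nat_lit 125)))) (XT.nd (nat_lit 188) (nat_lit 420) (nat_lit 0) (XT.nd (nat_lit 94) (nat_lit 0) (nat_lit 0) (XT.lf (nat_lit 0) (nat_lit 11128012149) (nat_lit 336) (nat_lit 55876037098) (nat_lit 420) (nat_lit 11593181529) (nat_lit 72) (nat_lit 5) (nat_lit 76) (nat_lit 5) (nat_lit 77) (nat_lit 5) (nat_lit 435) (nat_lit 386) (nat_lit 124)) (XT.lf (nat_lit 0) (nat_lit 46695563541) (nat_lit 336) (nat_lit 32558167511) (nat_lit 420) (nat_lit 934135577) (nat_lit 72) (nat_lit 5) (nat_lit 76) (nat_lit 5) (nat_lit 77) (nat_lit 5) (nat_lit 436) (nat_lit 386) (nat_lit 123))) (XT.nd (nat_lit 94) (nat_lit 0) (nat_lit 0)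 (XT.lf (nat_lit 0) (nat_lit 1434490612) (nat_lit 336) (nat_lit 8427335326) (nat_lit 420) (nat_lit 71961105195) (nat_lit 67) (nat_lit 5) (nat_lit 71) (nat_lit 5) (nat_lit 72) (nat_lit 5) (nat_lit 437) (nat_lit 386) (nat_lit 122)) (XT.lf (nat_lit 0) (nat_lit 21461727705) (nat_lit 420) (nat_lit 45572636390) (nat_lit 84) (nat_lit 16457441699) (nat_lit 67) (nat_lit 5) (nat_lit 72) (nat_lit 5) (nat_lit 68) (nat_lit 5) (nat_lit 438) (nat_lit 386) (nat_lit 121))))) (XT.nd (nat_lit 282) (nat_lit 672) (nat_lit 0) (XT.nd (nat_lit 94) (nat_lit 336) (nat_lit 0) (XT.lf (nat_lit 0) (nat_lit 33492454812) (nat_lit 420) (nat_lit 9796646266) (nat_lit 84) (nat_lit 41919161530) (nat_lit 67) (nat_lit 5) (nat_lit 72) (nat_lit 5) (nat_lit 68) (nat_lit 5) (nat_lit 439) (nat_lit 386) (nat_lit 120)) (XT.nd (nat_lit 94) (nat_lit 0) (nat_lit 0) (XT.lf (nat_lit 0) (nat_lit 27590182972) (nat_lit 336) (nat_lit 18558541590)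 (nat_lit 420) (nat_lit 40819550681) (nat_lit 63) (nat_lit 5) (nat_lit 67) (nat_lit 5) (nat_lit 68) (nat_lit 5) (nat_lit 440) (nat_lit 386) (nat_lit 119)) (XT.lf (nat_lit 0) (nat_lit 59350464063) (nat_lit 420) (nat_lit 22546954497) (nat_lit 84) (nat_lit 6878696966) (nat_lit 63) (nat_lit 5) (nat_lit 68) (nat_lit 5) (nat_lit 64) (nat_lit 5) (nat_lit 441) (nat_lit 386) (nat_lit 118)))) (XT.nd (nat_lit 188) (nat_lit 420) (nat_lit 0) (XT.nd (nat_lit 94) (nat_lit 0) (nat_lit 0) (XT.lf (nat_lit 0) (nat_lit 15507161966) (nat_lit 252) (nat_lit 57773337400) (nat_lit 336) (nat_lit 17347725040) (nat_lit 60) (nat_lit 5) (nat_lit 63) (nat_lit 5) (nat_lit 64) (nat_lit 5) (nat_lit 442) (nat_lit 386) (nat_lit 117)) (XT.lf (nat_lit 0) (nat_lit 55164292216) (nat_lit 252) (nat_lit 32691263768) (nat_lit 336) (nat_lit 4673527639) (nat_lit 60) (nat_lit 5) (nat_lit 63) (nat_lit 5) (nat_lit 64) (nat_lit 5) (nat_lit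 443) (nat_lit 386) (nat_lit 116))) (XT.nd (nat_lit 94) (nat_lit 0) (nat_lit 0) (XT.lf (nat_lit 0) (nat_lit 1471531910) (nat_lit 336) (nat_lit 6759418081) (nat_lit 420) (nat_lit 86253194520) (nat_lit 55) (nat_lit 5) (nat_lit 59) (nat_lit 5) (nat_lit 60) (nat_lit 5) (nat_lit 444) (nat_lit 386) (nat_lit 115)) (XT.lf (nat_lit 0) (nat_lit 22000907540) (nat_lit 420) (nat_lit 54490230219) (nat_lit 84) (nat_lit 19988163545) (nat_lit 55) (nat_lit 5) (nat_lit 60) (nat_lit 5) (nat_lit 56) (nat_lit 5) (nat_lit 445) (nat_lit 386) (nat_lit 114))))))) (XT.nd (nat_lit 54144) (nat_lit 0) (nat_lit 10080) (XT.nd (nat_lit 658) (nat_lit 252) (nat_lit 0) (XT.nd (nat_lit 282) (nat_lit 588) (nat_lit 0) (XT.nd (nat_lit 94) (nat_lit 252) (nat_lit 0) (XT.lf (nat_lit 0) (nat_lit 36250361271) (nat_lit 420) (nat_lit 14879873389) (nat_lit 84) (nat_lit 47402086820) (nat_lit 55) (nat_lit 5) (nat_lit 60) (nat_lit 5) (nat_lit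 56) (nat_lit 5) (nat_lit 446) (nat_lit 386) (nat_lit 113)) (XT.nd (nat_lit 94) (nat_lit 0) (nat_lit 0) (XT.lf (nat_lit 0) (nat_lit 26433864449) (nat_lit 252) (nat_lit 24747020528) (nat_lit 336) (nat_lit 49458440277) (nat_lit 52) (nat_lit 5) (nat_lit 55) (nat_lit 5) (nat_lit 56) (nat_lit 5) (nat_lit 447) (nat_lit 386) (nat_lit 112)) (XT.lf (nat_lit 0) (nat_lit 66733899460) (nat_lit 336) (nat_lit 33538573981) (nat_lit 84) (nat_lit 2531829015) (nat_lit 52) (nat_lit 5) (nat_lit 56) (nat_lit 5) (nat_lit 53) (nat_lit 5) (nat_lit 448) (nat_lit 386) (nat_lit 111)))) (XT.nd (nat_lit 188) (nat_lit 336) (nat_lit 0) (XT.nd (nat_lit 94) (nat_lit 0) (nat_lit 0) (XT.lf (nat_lit 0) (nat_lit 8263822733) (nat_lit 252) (nat_lit 74813646705) (nat_lit 336) (nat_lit 21947041135) (nat_lit 49) (nat_lit 5) (nat_lit 52) (nat_lit 5) (nat_lit 53) (nat_lit 5) (nat_lit 449) (nat_lit 386) (nat_lit 110)) (XT.lf (nat_lit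 0) (nat_lit 52007072773) (nat_lit 252) (nat_lit 48242463058) (nat_lit 336) (nat_lit 7051643958) (nat_lit 49) (nat_lit 5) (nat_lit 52) (nat_lit 5) (nat_lit 53) (nat_lit 5) (nat_lit 450) (nat_lit 386) (nat_lit 109))) (XT.nd (nat_lit 94) (nat_lit 252) (nat_lit 0) (XT.lf (nat_lit 0) (nat_lit 8128359796) (nat_lit 336) (nat_lit 12663938504) (nat_lit 84) (nat_lit 88851474719) (nat_lit 48) (nat_lit 5) (nat_lit 52) (nat_lit 5) (nat_lit 49) (nat_lit 5) (nat_lit 451) (nat_lit 386) (nat_lit 108)) (XT.lf (nat_lit 0) (nat_lit 24002835057) (nat_lit 336) (nat_lit 80325966982) (nat_lit 84) (nat_lit 7714323875) (nat_lit 45) (nat_lit 5) (nat_lit 49) (nat_lit 5) (nat_lit 46) (nat_lit 5) (nat_lit 452) (nat_lit 386) (nat_lit 107))))) (XT.nd (nat_lit 53110) (nat_lit 0) (nat_lit 9996) (XT.nd (nat_lit 94) (nat_lit 252) (nat_lit 0) (XT.lf (nat_lit 0) (nat_lit 40688098890) (nat_lit 336) (nat_lit 37029165352) (nat_lit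 84) (nat_lit 36787158999) (nat_lit 45) (nat_lit 5) (nat_lit 49) (nat_lit 5) (nat_lit 46) (nat_lit 5) (nat_lit 453) (nat_lit 386) (nat_lit 106)) (XT.nd (nat_lit 94) (nat_lit 0) (nat_lit 0) (XT.lf (nat_lit 0) (nat_lit 7716436657) (nat_lit 252) (nat_lit 50231215283) (nat_lit 336) (nat_lit 59089696072) (nat_lit 42) (nat_lit 5) (nat_lit 45) (nat_lit 5) (nat_lit 46) (nat_lit 5) (nat_lit 454) (nat_lit 386) (nat_lit 105)) (XT.lf (nat_lit 0) (nat_lit 54562795831) (nat_lit 252) (nat_lit 21535680368) (nat_lit 336) (nat_lit 43536580234) (nat_lit 42) (nat_lit 5) (nat_lit 45) (nat_lit 5) (nat_lit 46) (nat_lit 5) (nat_lit 455) (nat_lit 386) (nat_lit 104)))) (XT.nd (nat_lit 188) (nat_lit 0) (nat_lit 0) (XT.nd (nat_lit 94) (nat_lit 0) (nat_lit 0) (XT.lf (nat_lit 0) (nat_lit 117476846) (nat_lit 0) (nat_lit 117476846) (nat_lit 1260) (nat_lit 17019323123) (nat_lit 161) (nat_lit 5) (nat_lit 161) (nat_lit 3)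 (nat_lit 176) (nat_lit 3) (nat_lit 387) (nat_lit 387) (nat_lit 171)) (XT.lf (nat_lit 0) (nat_lit 673338806) (nat_lit 1260) (nat_lit 19573161561) (nat_lit 1344) (nat_lit 14773696505) (nat_lit 161) (nat_lit 5) (nat_lit 176) (nat_lit 3) (nat_lit 177) (nat_lit 5) (nat_lit 388) (nat_lit 387) (nat_lit 170))) (XT.nd (nat_lit 94) (nat_lit 0) (nat_lit 84) (XT.lf (nat_lit 0) (nat_lit 883197546) (nat_lit 1260) (nat_lit 4435115754) (nat_lit 1344) (nat_lit 30228870029) (nat_lit 161) (nat_lit 5) (nat_lit 176) (nat_lit 3) (nat_lit 177) (nat_lit 5) (nat_lit 389) (nat_lit 387) (nat_lit 169)) (XT.lf (nat_lit 0) (nat_lit 1304553696) (nat_lit 1260) (nat_lit 24806482355) (nat_lit 1344) (nat_lit 9972790827) (nat_lit 162) (nat_lit 5) (nat_lit 177) (nat_lit 5) (nat_lit 178) (nat_lit 5) (nat_lit 390) (nat_lit 387) (nat_lit 168)))))) (XT.nd (nat_lit 658) (nat_lit 0) (nat_lit 252) (XT.nd (nat_lit 282) (nat_lit 0)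 (nat_lit 84) (XT.nd (nat_lit 94) (nat_lit 0) (nat_lit 84) (XT.lf (nat_lit 0) (nat_lit 1834547800) (nat_lit 1260) (nat_lit 9137338357) (nat_lit 1344) (nat_lit 25661807100) (nat_lit 162) (nat_lit 5) (nat_lit 177) (nat_lit 5) (nat_lit 178) (nat_lit 5) (nat_lit 391) (nat_lit 387) (nat_lit 167)) (XT.nd (nat_lit 94) (nat_lit 0) (nat_lit 0) (XT.lf (nat_lit 0) (nat_lit 2492354343) (nat_lit 1260) (nat_lit 30103030269) (nat_lit 1344) (nat_lit 4601316978) (nat_lit 163) (nat_lit 5) (nat_lit 178) (nat_lit 5) (nat_lit 179) (nat_lit 5) (nat_lit 392) (nat_lit 387) (nat_lit 166)) (XT.lf (nat_lit 0) (nat_lit 3369926863) (nat_lit 1260) (nat_lit 13885587960) (nat_lit 1344) (nat_lit 20515087642) (nat_lit 163) (nat_lit 5) (nat_lit 178) (nat_lit 5) (nat_lit 179) (nat_lit 5) (nat_lit 393) (nat_lit 387) (nat_lit 165)))) (XT.nd (nat_lit 188) (nat_lit 0) (nat_lit 84) (XT.nd (nat_lit 94) (nat_lit 0) (nat_lit 84)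 (XT.lf (nat_lit 84) (nat_lit 2873352374) (nat_lit 0) (nat_lit 1426363039) (nat_lit 1344) (nat_lit 34061231439) (nat_lit 164) (nat_lit 5) (nat_lit 163) (nat_lit 5) (nat_lit 179) (nat_lit 5) (nat_lit 394) (nat_lit 387) (nat_lit 164)) (XT.lf (nat_lit 0) (nat_lit 5540330609) (nat_lit 1260) (nat_lit 18690638298) (nat_lit 1344) (nat_lit 14729547732) (nat_lit 164) (nat_lit 5) (nat_lit 179) (nat_lit 5) (nat_lit 180) (nat_lit 5) (nat_lit 395) (nat_lit 387) (nat_lit 163))) (XT.nd (nat_lit 94) (nat_lit 0) (nat_lit 84) (XT.lf (nat_lit 0) (nat_lit 6830650054) (nat_lit 1260) (nat_lit 1405006140) (nat_lit 1344) (nat_lit 31342045721) (nat_lit 164) (nat_lit 5) (nat_lit 179) (nat_lit 5) (nat_lit 180) (nat_lit 5) (nat_lit 396) (nat_lit 387) (nat_lit 162)) (XT.lf (nat_lit 0) (nat_lit 8399655911) (nat_lit 1260) (nat_lit 23564958546) (nat_lit 1344) (nat_lit 8241591871) (nat_lit 165) (nat_lit 5) (nat_lit 180)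 (nat_lit 5) (nat_lit 181) (nat_lit 5) (nat_lit 397) (nat_lit 387) (nat_lit 161))))) (XT.nd (nat_lit 282) (nat_lit 0) (nat_lit 84) (XT.nd (nat_lit 94) (nat_lit 0) (nat_lit 84) (XT.lf (nat_lit 0) (nat_lit 10110053116) (nat_lit 1260) (nat_lit 5678252741) (nat_lit 1344) (nat_lit 25062433181) (nat_lit 165) (nat_lit 5) (nat_lit 180) (nat_lit 5) (nat_lit 181) (nat_lit 5) (nat_lit 398) (nat_lit 387) (nat_lit 160)) (XT.nd (nat_lit 94) (nat_lit 0) (nat_lit 0) (XT.lf (nat_lit 0) (nat_lit 12004835549) (nat_lit 1260) (nat_lit 28522947601) (nat_lit 1344) (nat_lit 982835096) (nat_lit 166) (nat_lit 5) (nat_lit 181) (nat_lit 5) (nat_lit 182) (nat_lit 5) (nat_lit 399) (nat_lit 387) (nat_lit 159)) (XT.lf (nat_lit 0) (nat_lit 14169222269) (nat_lit 1260) (nat_lit 10016619488) (nat_lit 1344) (nat_lit 17998071888) (nat_lit 166) (nat_lit 5) (nat_lit 181) (nat_lit 5) (nat_lit 182) (nat_lit 5) (nat_lit 400) (nat_lit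 387) (nat_lit 158)))) (XT.nd (nat_lit 188) (nat_lit 0) (nat_lit 84) (XT.nd (nat_lit 94) (nat_lit 0) (nat_lit 84) (XT.lf (nat_lit 84) (nat_lit 9223792140) (nat_lit 0) (nat_lit 7261989900) (nat_lit 1344) (nat_lit 26389011184) (nat_lit 167) (nat_lit 5) (nat_lit 166) (nat_lit 5) (nat_lit 182) (nat_lit 5) (nat_lit 401) (nat_lit 387) (nat_lit 157)) (XT.lf (nat_lit 0) (nat_lit 19070355186) (nat_lit 1260) (nat_lit 14436507614) (nat_lit 1344) (nat_lit 10073583380) (nat_lit 167) (nat_lit 5) (nat_lit 182) (nat_lit 5) (nat_lit 183) (nat_lit 5) (nat_lit 402) (nat_lit 387) (nat_lit 156))) (XT.nd (nat_lit 94) (nat_lit 0) (nat_lit 84) (XT.lf (nat_lit 84) (nat_lit 5386531169) (nat_lit 0) (nat_lit 16468265040) (nat_lit 1344) (nat_lit 22448805009) (nat_lit 168) (nat_lit 5) (nat_lit 167) (nat_lit 5) (nat_lit 183) (nat_lit 5) (nat_lit 403) (nat_lit 387) (nat_lit 155)) (XT.lf (nat_lit 0) (nat_lit 24879072416)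 (nat_lit 1260) (nat_lit 18956854064) (nat_lit 84) (nat_lit 1207837713) (nat_lit 168) (nat_lit 5) (nat_lit 183) (nat_lit 5) (nat_lit 169) (nat_lit 5) (nat_lit 404) (nat_lit 387) (nat_lit 154))))))))
noncomputable def xc219 : XT := (XT.nd (nat_lit 2632) (nat_lit 3192) (nat_lit 0) (XT.nd (nat_lit 1316) (nat_lit 2688) (nat_lit 0) (XT.nd (nat_lit 658) (nat_lit 2184) (nat_lit 0) (XT.nd (nat_lit 282) (nat_lit 1260) (nat_lit 0) (XT.nd (nat_lit 94) (nat_lit 0) (nat_lit 0) (XT.lf (nat_lit 0) (nat_lit 1466635992) (nat_lit 1260) (nat_lit 26703311840) (nat_lit 1344) (nat_lit 17630910373) (nat_lit 153) (nat_lit 5) (nat_lit 168) (nat_lit 5) (nat_lit 169) (nat_lit 5) (nat_lit 405) (nat_lit 387) (nat_lit 153)) (XT.nd (nat_lit 94) (nat_lit 0) (nat_lit 0) (XT.lf (nat_lit 0) (nat_lit 22890338827) (nat_lit 1260) (nat_lit 8859385133) (nat_lit 1344) (nat_lit 14825238056) (nat_lit 153) (nat_lit 5) (nat_lit 168)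 (nat_lit 5) (nat_lit 169) (nat_lit 5) (nat_lit 406) (nat_lit 387) (nat_lit 152)) (XT.lf (nat_lit 0) (nat_lit 35527189486) (nat_lit 1344) (nat_lit 2508144196) (nat_lit 84) (nat_lit 9334248519) (nat_lit 153) (nat_lit 5) (nat_lit 169) (nat_lit 5) (nat_lit 154) (nat_lit 5) (nat_lit 407) (nat_lit 387) (nat_lit 151)))) (XT.nd (nat_lit 188) (nat_lit 672) (nat_lit 0) (XT.nd (nat_lit 94) (nat_lit 0) (nat_lit 0) (XT.lf (nat_lit 0) (nat_lit 19597260284) (nat_lit 588) (nat_lit 20095637012) (nat_lit 672) (nat_lit 8486898230) (nat_lit 146) (nat_lit 5) (nat_lit 153) (nat_lit 5) (nat_lit 154) (nat_lit 5) (nat_lit 408) (nat_lit 387) (nat_lit 150)) (XT.lf (nat_lit 0) (nat_lit 42416186509) (nat_lit 588) (nat_lit 1591562156) (nat_lit 672) (nat_lit 5005843437) (nat_lit 146) (nat_lit 5) (nat_lit 153) (nat_lit 5) (nat_lit 154) (nat_lit 5) (nat_lit 409) (nat_lit 387) (nat_lit 149))) (XT.nd (nat_lit 94) (nat_lit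 84) (nat_lit 0) (XT.lf (nat_lit 0) (nat_lit 16194317106) (nat_lit 588) (nat_lit 32580187306) (nat_lit 672) (nat_lit 1088226362) (nat_lit 139) (nat_lit 5) (nat_lit 146) (nat_lit 5) (nat_lit 147) (nat_lit 5) (nat_lit 410) (nat_lit 387) (nat_lit 148)) (XT.lf (nat_lit 0) (nat_lit 2971342090) (nat_lit 672) (nat_lit 10976132646) (nat_lit 84) (nat_lit 36786563056) (nat_lit 138) (nat_lit 5) (nat_lit 146) (nat_lit 5) (nat_lit 139) (nat_lit 5) (nat_lit 411) (nat_lit 387) (nat_lit 147))))) (XT.nd (nat_lit 282) (nat_lit 1008) (nat_lit 0) (XT.nd (nat_lit 94) (nat_lit 588) (nat_lit 0) (XT.lf (nat_lit 0) (nat_lit 7302889441) (nat_lit 672) (nat_lit 39047685040) (nat_lit 84) (nat_lit 5275426179) (nat_lit 131) (nat_lit 5) (nat_lit 139) (nat_lit 5) (nat_lit 132) (nat_lit 5) (nat_lit 412) (nat_lit 387) (nat_lit 146)) (XT.nd (nat_lit 94) (nat_lit 588) (nat_lit 0) (XT.lf (nat_lit 0) (nat_lit 12013355258) (nat_lit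 672) (nat_lit 15617257629) (nat_lit 84) (nat_lit 24906642108) (nat_lit 131) (nat_lit 5) (nat_lit 139) (nat_lit 5) (nat_lit 132) (nat_lit 5) (nat_lit 413) (nat_lit 387) (nat_lit 145)) (XT.lf (nat_lit 0) (nat_lit 8684513379) (nat_lit 588) (nat_lit 8263076720) (nat_lit 672) (nat_lit 36525784904) (nat_lit 124) (nat_lit 5) (nat_lit 131) (nat_lit 5) (nat_lit 132) (nat_lit 5) (nat_lit 414) (nat_lit 387) (nat_lit 144)))) (XT.nd (nat_lit 188) (nat_lit 504) (nat_lit 0) (XT.nd (nat_lit 94) (nat_lit 504) (nat_lit 0) (XT.lf (nat_lit 0) (nat_lit 22300439154) (nat_lit 672) (nat_lit 20512317812) (nat_lit 84) (nat_lit 11616705674) (nat_lit 124) (nat_lit 5) (nat_lit 132) (nat_lit 5) (nat_lit 125) (nat_lit 5) (nat_lit 415) (nat_lit 387) (nat_lit 143)) (XT.lf (nat_lit 0) (nat_lit 4497444962) (nat_lit 504) (nat_lit 23440496880) (nat_lit 588) (nat_lit 27472570615) (nat_lit 118) (nat_lit 5) (nat_lit 124) (nat_lit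 5) (nat_lit 125) (nat_lit 5) (nat_lit 416) (nat_lit 387) (nat_lit 142))) (XT.nd (nat_lit 94) (nat_lit 504) (nat_lit 0) (XT.lf (nat_lit 0) (nat_lit 30676967026) (nat_lit 504) (nat_lit 3273778786) (nat_lit 588) (nat_lit 22464064221) (nat_lit 118) (nat_lit 5) (nat_lit 124) (nat_lit 5) (nat_lit 125) (nat_lit 5) (nat_lit 417) (nat_lit 387) (nat_lit 141)) (XT.lf (nat_lit 0) (nat_lit 23888171) (nat_lit 504) (nat_lit 40287545640) (nat_lit 588) (nat_lit 17132779232) (nat_lit 112) (nat_lit 5) (nat_lit 118) (nat_lit 5) (nat_lit 119) (nat_lit 5) (nat_lit 418) (nat_lit 387) (nat_lit 140)))))) (XT.nd (nat_lit 658) (nat_lit 1260) (nat_lit 0) (XT.nd (nat_lit 282) (nat_lit 924) (nat_lit 0) (XT.nd (nat_lit 94) (nat_lit 504) (nat_lit 0) (XT.lf (nat_lit 0) (nat_lit 27052007769) (nat_lit 504) (nat_lit 20102019115) (nat_lit 588) (nat_lit 11341740189) (nat_lit 112) (nat_lit 5) (nat_lit 118) (nat_lit 5) (nat_lit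 119) (nat_lit 5) (nat_lit 419) (nat_lit 387) (nat_lit 139)) (XT.nd (nat_lit 94) (nat_lit 504) (nat_lit 0) (XT.lf (nat_lit 0) (nat_lit 54207634092) (nat_lit 588) (nat_lit 4695523758) (nat_lit 84) (nat_lit 675539201) (nat_lit 112) (nat_lit 5) (nat_lit 119) (nat_lit 5) (nat_lit 113) (nat_lit 5) (nat_lit 420) (nat_lit 387) (nat_lit 138)) (XT.lf (nat_lit 0) (nat_lit 1187976140) (nat_lit 504) (nat_lit 37587117807) (nat_lit 84) (nat_lit 21906064622) (nat_lit 106) (nat_lit 5) (nat_lit 112) (nat_lit 5) (nat_lit 107) (nat_lit 5) (nat_lit 421) (nat_lit 387) (nat_lit 137)))) (XT.nd (nat_lit 188) (nat_lit 420) (nat_lit 0) (XT.nd (nat_lit 94) (nat_lit 504) (nat_lit 0) (XT.lf (nat_lit 0) (nat_lit 7882862948) (nat_lit 504) (nat_lit 10056356667) (nat_lit 84) (nat_lit 43874469365) (nat_lit 106) (nat_lit 5) (nat_lit 112) (nat_lit 5) (nat_lit 107) (nat_lit 5) (nat_lit 422) (nat_lit 387) (nat_lit 136)) (XT.lf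 (nat_lit 0) (nat_lit 14992799573) (nat_lit 588) (nat_lit 44346900862) (nat_lit 84) (nat_lit 3634070031) (nat_lit 100) (nat_lit 5) (nat_lit 107) (nat_lit 5) (nat_lit 101) (nat_lit 5) (nat_lit 423) (nat_lit 387) (nat_lit 135))) (XT.nd (nat_lit 94) (nat_lit 420) (nat_lit 0) (XT.lf (nat_lit 0) (nat_lit 22595388578) (nat_lit 588) (nat_lit 15968460487) (nat_lit 84) (nat_lit 25596425928) (nat_lit 100) (nat_lit 5) (nat_lit 107) (nat_lit 5) (nat_lit 101) (nat_lit 5) (nat_lit 424) (nat_lit 387) (nat_lit 134)) (XT.lf (nat_lit 0) (nat_lit 13524299916) (nat_lit 420) (nat_lit 17030966288) (nat_lit 504) (nat_lit 34823233309) (nat_lit 95) (nat_lit 5) (nat_lit 100) (nat_lit 5) (nat_lit 101) (nat_lit 5) (nat_lit 425) (nat_lit 387) (nat_lit 133))))) (XT.nd (nat_lit 282) (nat_lit 840) (nat_lit 0) (XT.nd (nat_lit 94) (nat_lit 420) (nat_lit 0) (XT.lf (nat_lit 0) (nat_lit 38965491403) (nat_lit 504) (nat_lit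 22451288484) (nat_lit 84) (nat_lit 5210145499) (nat_lit 95) (nat_lit 5) (nat_lit 101) (nat_lit 5) (nat_lit 96) (nat_lit 5) (nat_lit 426) (nat_lit 387) (nat_lit 132)) (XT.nd (nat_lit 94) (nat_lit 0) (nat_lit 0) (XT.lf (nat_lit 0) (nat_lit 7816691340) (nat_lit 420) (nat_lit 40054336763) (nat_lit 504) (nat_lit 20034486908) (nat_lit 90) (nat_lit 5) (nat_lit 95) (nat_lit 5) (nat_lit 96) (nat_lit 5) (nat_lit 427) (nat_lit 387) (nat_lit 131)) (XT.lf (nat_lit 0) (nat_lit 39452022055) (nat_lit 420) (nat_lit 17817678581) (nat_lit 504) (nat_lit 11945983685) (nat_lit 90) (nat_lit 5) (nat_lit 95) (nat_lit 5) (nat_lit 96) (nat_lit 5) (nat_lit 428) (nat_lit 387) (nat_lit 130)))) (XT.nd (nat_lit 188) (nat_lit 420) (nat_lit 0) (XT.nd (nat_lit 94) (nat_lit 84) (nat_lit 0) (XT.lf (nat_lit 0) (nat_lit 1449740854) (nat_lit 336) (nat_lit 65562694589) (nat_lit 420) (nat_lit 3550861260) (nat_lit 86) (nat_lit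 5) (nat_lit 90) (nat_lit 5) (nat_lit 91) (nat_lit 5) (nat_lit 429) (nat_lit 387) (nat_lit 129)) (XT.lf (nat_lit 0) (nat_lit 5475894511) (nat_lit 420) (nat_lit 37961942934) (nat_lit 84) (nat_lit 28497654699) (nat_lit 85) (nat_lit 5) (nat_lit 90) (nat_lit 5) (nat_lit 86) (nat_lit 5) (nat_lit 430) (nat_lit 387) (nat_lit 128))) (XT.nd (nat_lit 94) (nat_lit 420) (nat_lit 0) (XT.lf (nat_lit 0) (nat_lit 14701385281) (nat_lit 420) (nat_lit 5911830578) (nat_lit 84) (nat_lit 52734604811) (nat_lit 85) (nat_lit 5) (nat_lit 90) (nat_lit 5) (nat_lit 86) (nat_lit 5) (nat_lit 431) (nat_lit 387) (nat_lit 127)) (XT.lf (nat_lit 0) (nat_lit 24499106090) (nat_lit 504) (nat_lit 47186797390) (nat_lit 84) (nat_lit 3107752550) (nat_lit 80) (nat_lit 5) (nat_lit 86) (nat_lit 5) (nat_lit 81) (nat_lit 5) (nat_lit 432) (nat_lit 387) (nat_lit 126))))))) (XT.nd (nat_lit 1316) (nat_lit 1092) (nat_lit 0) (XT.nd (nat_lit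 658) (nat_lit 1008) (nat_lit 0) (XT.nd (nat_lit 282) (nat_lit 756) (nat_lit 0) (XT.nd (nat_lit 94) (nat_lit 336) (nat_lit 0) (XT.lf (nat_lit 0) (nat_lit 34854469901) (nat_lit 504) (nat_lit 14234339088) (nat_lit 84) (nat_lit 27186147030) (nat_lit 80) (nat_lit 5) (nat_lit 86) (nat_lit 5) (nat_lit 81) (nat_lit 5) (nat_lit 433) (nat_lit 387) (nat_lit 125)) (XT.nd (nat_lit 94) (nat_lit 0) (nat_lit 0) (XT.lf (nat_lit 0) (nat_lit 20098026858) (nat_lit 336) (nat_lit 25615012943) (nat_lit 420) (nat_lit 32081879736) (nat_lit 76) (nat_lit 5) (nat_lit 80) (nat_lit 5) (nat_lit 81) (nat_lit 5) (nat_lit 434) (nat_lit 387) (nat_lit 124)) (XT.lf (nat_lit 0) (nat_lit 55751311124) (nat_lit 336) (nat_lit 1289156047) (nat_lit 420) (nat_lit 22315722635) (nat_lit 76) (nat_lit 5) (nat_lit 80) (nat_lit 5) (nat_lit 81) (nat_lit 5) (nat_lit 435) (nat_lit 387) (nat_lit 123)))) (XT.nd (nat_lit 188) (nat_lit 420) (nat_lit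 0) (XT.nd (nat_lit 94) (nat_lit 0) (nat_lit 0) (XT.lf (nat_lit 0) (nat_lit 11505108286) (nat_lit 336) (nat_lit 57541039281) (nat_lit 420) (nat_lit 11907998544) (nat_lit 72) (nat_lit 5) (nat_lit 76) (nat_lit 5) (nat_lit 77) (nat_lit 5) (nat_lit 436) (nat_lit 387) (nat_lit 122)) (XT.lf (nat_lit 0) (nat_lit 48138426343) (nat_lit 336) (nat_lit 33523962119) (nat_lit 420) (nat_lit 930141750) (nat_lit 72) (nat_lit 5) (nat_lit 76) (nat_lit 5) (nat_lit 77) (nat_lit 5) (nat_lit 437) (nat_lit 387) (nat_lit 121))) (XT.nd (nat_lit 94) (nat_lit 0) (nat_lit 0) (XT.lf (nat_lit 0) (nat_lit 1519767626) (nat_lit 336) (nat_lit 8668797897) (nat_lit 420) (nat_lit 74088088306) (nat_lit 67) (nat_lit 5) (nat_lit 71) (nat_lit 5) (nat_lit 72) (nat_lit 5) (nat_lit 438) (nat_lit 387) (nat_lit 120)) (XT.lf (nat_lit 0) (nat_lit 22135670780) (nat_lit 420) (nat_lit 46897972416) (nat_lit 84) (nat_lit 16961976468) (nat_lit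 67) (nat_lit 5) (nat_lit 72) (nat_lit 5) (nat_lit 68) (nat_lit 5) (nat_lit 439) (nat_lit 387) (nat_lit 119))))) (XT.nd (nat_lit 282) (nat_lit 672) (nat_lit 0) (XT.nd (nat_lit 94) (nat_lit 336) (nat_lit 0) (XT.lf (nat_lit 0) (nat_lit 34526443257) (nat_lit 420) (nat_lit 10049921318) (nat_lit 84) (nat_lit 43187232995) (nat_lit 67) (nat_lit 5) (nat_lit 72) (nat_lit 5) (nat_lit 68) (nat_lit 5) (nat_lit 440) (nat_lit 387) (nat_lit 118)) (XT.nd (nat_lit 94) (nat_lit 0) (nat_lit 0) (XT.lf (nat_lit 0) (nat_lit 28458114520) (nat_lit 336) (nat_lit 19103822340) (nat_lit 420) (nat_lit 42014488713) (nat_lit 63) (nat_lit 5) (nat_lit 67) (nat_lit 5) (nat_lit 68) (nat_lit 5) (nat_lit 441) (nat_lit 387) (nat_lit 117)) (XT.lf (nat_lit 0) (nat_lit 61158998247) (nat_lit 420) (nat_lit 23183544028) (nat_lit 84) (nat_lit 7095981729) (nat_lit 63) (nat_lit 5) (nat_lit 68) (nat_lit 5) (nat_lit 64) (nat_lit 5) (nat_lit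 442) (nat_lit 387) (nat_lit 116)))) (XT.nd (nat_lit 188) (nat_lit 420) (nat_lit 0) (XT.nd (nat_lit 94) (nat_lit 0) (nat_lit 0) (XT.lf (nat_lit 0) (nat_lit 16011805545) (nat_lit 252) (nat_lit 59494691953) (nat_lit 336) (nat_lit 17839712768) (nat_lit 60) (nat_lit 5) (nat_lit 63) (nat_lit 5) (nat_lit 64) (nat_lit 5) (nat_lit 443) (nat_lit 387) (nat_lit 115)) (XT.lf (nat_lit 0) (nat_lit 56857501293) (nat_lit 252) (nat_lit 33660501128) (nat_lit 336) (nat_lit 4786117911) (nat_lit 60) (nat_lit 5) (nat_lit 63) (nat_lit 5) (nat_lit 64) (nat_lit 5) (nat_lit 444) (nat_lit 387) (nat_lit 114))) (XT.nd (nat_lit 94) (nat_lit 0) (nat_lit 0) (XT.lf (nat_lit 0) (nat_lit 1554147630) (nat_lit 336) (nat_lit 6950388692) (nat_lit 420) (nat_lit 88813302243) (nat_lit 55) (nat_lit 5) (nat_lit 59) (nat_lit 5) (nat_lit 60) (nat_lit 5) (nat_lit 445) (nat_lit 387) (nat_lit 113)) (XT.lf (nat_lit 0) (nat_lit 22686926393)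 (nat_lit 420) (nat_lit 56086891980) (nat_lit 84) (nat_lit 20599052565) (nat_lit 55) (nat_lit 5) (nat_lit 60) (nat_lit 5) (nat_lit 56) (nat_lit 5) (nat_lit 446) (nat_lit 387) (nat_lit 112)))))) (XT.nd (nat_lit 658) (nat_lit 252) (nat_lit 0) (XT.nd (nat_lit 282) (nat_lit 588) (nat_lit 0) (XT.nd (nat_lit 94) (nat_lit 252) (nat_lit 0) (XT.lf (nat_lit 0) (nat_lit 37363106698) (nat_lit 420) (nat_lit 15289332556) (nat_lit 84) (nat_lit 48835066040) (nat_lit 55) (nat_lit 5) (nat_lit 60) (nat_lit 5) (nat_lit 56) (nat_lit 5) (nat_lit 447) (nat_lit 387) (nat_lit 111)) (XT.nd (nat_lit 94) (nat_lit 0) (nat_lit 0) (XT.lf (nat_lit 0) (nat_lit 27263455289) (nat_lit 252) (nat_lit 25477707418) (nat_lit 336) (nat_lit 50916568815) (nat_lit 52) (nat_lit 5) (nat_lit 55) (nat_lit 5) (nat_lit 56) (nat_lit 5) (nat_lit 448) (nat_lit 387) (nat_lit 110)) (XT.lf (nat_lit 0) (nat_lit 68760153217) (nat_lit 336) (nat_lit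 34508580035) (nat_lit 84) (nat_lit 2618944034) (nat_lit 52) (nat_lit 5) (nat_lit 56) (nat_lit 5) (nat_lit 53) (nat_lit 5) (nat_lit 449) (nat_lit 387) (nat_lit 109)))) (XT.nd (nat_lit 188) (nat_lit 336) (nat_lit 0) (XT.nd (nat_lit 94) (nat_lit 0) (nat_lit 0) (XT.lf (nat_lit 0) (nat_lit 8547534157) (nat_lit 252) (nat_lit 77046134312) (nat_lit 336) (nat_lit 22580834823) (nat_lit 49) (nat_lit 5) (nat_lit 52) (nat_lit 5) (nat_lit 53) (nat_lit 5) (nat_lit 450) (nat_lit 387) (nat_lit 108)) (XT.lf (nat_lit 0) (nat_lit 53602039075) (nat_lit 252) (nat_lit 49678162393) (nat_lit 336) (nat_lit 7239292747) (nat_lit 49) (nat_lit 5) (nat_lit 52) (nat_lit 5) (nat_lit 53) (nat_lit 5) (nat_lit 451) (nat_lit 387) (nat_lit 107))) (XT.nd (nat_lit 94) (nat_lit 252) (nat_lit 0) (XT.lf (nat_lit 0) (nat_lit 8394962186) (nat_lit 336) (nat_lit 13009637882) (nat_lit 84) (nat_lit 91527779481) (nat_lit 48) (nat_lit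 5) (nat_lit 52) (nat_lit 5) (nat_lit 49) (nat_lit 5) (nat_lit 452) (nat_lit 387) (nat_lit 106)) (XT.lf (nat_lit 0) (nat_lit 24745444989) (nat_lit 336) (nat_lit 82701277086) (nat_lit 84) (nat_lit 7956998460) (nat_lit 45) (nat_lit 5) (nat_lit 49) (nat_lit 5) (nat_lit 46) (nat_lit 5) (nat_lit 453) (nat_lit 387) (nat_lit 105))))) (XT.nd (nat_lit 53204) (nat_lit 0) (nat_lit 9996) (XT.nd (nat_lit 94) (nat_lit 252) (nat_lit 0) (XT.lf (nat_lit 0) (nat_lit 41930610672) (nat_lit 336) (nat_lit 38106575357) (nat_lit 84) (nat_lit 37901691117) (nat_lit 45) (nat_lit 5) (nat_lit 49) (nat_lit 5) (nat_lit 46) (nat_lit 5) (nat_lit 454) (nat_lit 387) (nat_lit 104)) (XT.nd (nat_lit 53016) (nat_lit 0) (nat_lit 9996) (XT.lf (nat_lit 0) (nat_lit 7981066625) (nat_lit 252) (nat_lit 51726565264) (nat_lit 336) (nat_lit 60840167984) (nat_lit 42) (nat_lit 5) (nat_lit 45) (nat_lit 5) (nat_lit 46) (nat_lit 5) (nat_lit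 455) (nat_lit 387) (nat_lit 103)) (XT.lf (nat_lit 0) (nat_lit 146524746) (nat_lit 0) (nat_lit 146524746) (nat_lit 1260) (nat_lit 17477231532) (nat_lit 161) (nat_lit 5) (nat_lit 161) (nat_lit 3) (nat_lit 176) (nat_lit 3) (nat_lit 388) (nat_lit 388) (nat_lit 169)))) (XT.nd (nat_lit 188) (nat_lit 0) (nat_lit 84) (XT.nd (nat_lit 94) (nat_lit 0) (nat_lit 0) (XT.lf (nat_lit 0) (nat_lit 792183319) (nat_lit 1260) (nat_lit 20107166040) (nat_lit 1344) (nat_lit 15168314125) (nat_lit 161) (nat_lit 5) (nat_lit 176) (nat_lit 3) (nat_lit 177) (nat_lit 5) (nat_lit 389) (nat_lit 388) (nat_lit 168)) (XT.lf (nat_lit 0) (nat_lit 1005464684) (nat_lit 1260) (nat_lit 4516528094) (nat_lit 1344) (nat_lit 31088558193) (nat_lit 161) (nat_lit 5) (nat_lit 176) (nat_lit 3) (nat_lit 177) (nat_lit 5) (nat_lit 390) (nat_lit 388) (nat_lit 167))) (XT.nd (nat_lit 94) (nat_lit 0) (nat_lit 0) (XT.lf (nat_lit 0) (nat_lit 1436756622)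 (nat_lit 1260) (nat_lit 25496161164) (nat_lit 1344) (nat_lit 10230462276) (nat_lit 162) (nat_lit 5) (nat_lit 177) (nat_lit 5) (nat_lit 178) (nat_lit 5) (nat_lit 391) (nat_lit 388) (nat_lit 166)) (XT.lf (nat_lit 0) (nat_lit 1979939880) (nat_lit 1260) (nat_lit 9358530681) (nat_lit 1344) (nat_lit 26391358132) (nat_lit 162) (nat_lit 5) (nat_lit 177) (nat_lit 5) (nat_lit 178) (nat_lit 5) (nat_lit 392) (nat_lit 388) (nat_lit 165))))))))
noncomputable def xc220 : XT := (XT.nd (nat_lit 2538) (nat_lit 4788) (nat_lit 0) (XT.nd (nat_lit 1222) (nat_lit 4284) (nat_lit 0) (XT.nd (nat_lit 564) (nat_lit 0) (nat_lit 168) (XT.nd (nat_lit 282) (nat_lit 0) (nat_lit 84) (XT.nd (nat_lit 94) (nat_lit 0) (nat_lit 0) (XT.lf (nat_lit 0) (nat_lit 2655008376) (nat_lit 1260) (nat_lit 30950561212) (nat_lit 1344) (nat_lit 4704236653) (nat_lit 163) (nat_lit 5) (nat_lit 178) (nat_lit 5) (nat_lit 179) (nat_lit 5) (nat_lit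 393) (nat_lit 388) (nat_lit 164)) (XT.nd (nat_lit 94) (nat_lit 0) (nat_lit 0) (XT.lf (nat_lit 0) (nat_lit 3556348361) (nat_lit 1260) (nat_lit 14248213885) (nat_lit 1344) (nat_lit 21096443345) (nat_lit 163) (nat_lit 5) (nat_lit 178) (nat_lit 5) (nat_lit 179) (nat_lit 5) (nat_lit 394) (nat_lit 388) (nat_lit 163)) (XT.lf (nat_lit 84) (nat_lit 3012965818) (nat_lit 0) (nat_lit 1499093030) (nat_lit 1344) (nat_lit 34997065134) (nat_lit 164) (nat_lit 5) (nat_lit 163) (nat_lit 5) (nat_lit 179) (nat_lit 5) (nat_lit 395) (nat_lit 388) (nat_lit 162)))) (XT.nd (nat_lit 94) (nat_lit 0) (nat_lit 0) (XT.lf (nat_lit 0) (nat_lit 5787185363) (nat_lit 1260) (nat_lit 19196646823) (nat_lit 1344) (nat_lit 15142934280) (nat_lit 164) (nat_lit 5) (nat_lit 179) (nat_lit 5) (nat_lit 180) (nat_lit 5) (nat_lit 396) (nat_lit 388) (nat_lit 161)) (XT.nd (nat_lit 94) (nat_lit 0) (nat_lit 84) (XT.lf (nat_lit 0) (nat_lit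 7113865512) (nat_lit 1260) (nat_lit 1394039214) (nat_lit 1344) (nat_lit 32254637303) (nat_lit 164) (nat_lit 5) (nat_lit 179) (nat_lit 5) (nat_lit 180) (nat_lit 5) (nat_lit 397) (nat_lit 388) (nat_lit 160)) (XT.lf (nat_lit 0) (nat_lit 8727936689) (nat_lit 1260) (nat_lit 24216647410) (nat_lit 1344) (nat_lit 8465381758) (nat_lit 165) (nat_lit 5) (nat_lit 180) (nat_lit 5) (nat_lit 181) (nat_lit 5) (nat_lit 398) (nat_lit 388) (nat_lit 159))))) (XT.nd (nat_lit 282) (nat_lit 0) (nat_lit 84) (XT.nd (nat_lit 94) (nat_lit 0) (nat_lit 84) (XT.lf (nat_lit 0) (nat_lit 10487423740) (nat_lit 1260) (nat_lit 5794949942) (nat_lit 1344) (nat_lit 25791531546) (nat_lit 165) (nat_lit 5) (nat_lit 180) (nat_lit 5) (nat_lit 181) (nat_lit 5) (nat_lit 399) (nat_lit 388) (nat_lit 158)) (XT.nd (nat_lit 94) (nat_lit 0) (nat_lit 0) (XT.lf (nat_lit 0) (nat_lit 12437217456) (nat_lit 1260) (nat_lit 29323023449) (nat_lit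 1344) (nat_lit 993398774) (nat_lit 166) (nat_lit 5) (nat_lit 181) (nat_lit 5) (nat_lit 182) (nat_lit 5) (nat_lit 400) (nat_lit 388) (nat_lit 157)) (XT.lf (nat_lit 0) (nat_lit 14664431792) (nat_lit 1260) (nat_lit 10263125276) (nat_lit 1344) (nat_lit 18519643778) (nat_lit 166) (nat_lit 5) (nat_lit 181) (nat_lit 5) (nat_lit 182) (nat_lit 5) (nat_lit 401) (nat_lit 388) (nat_lit 156)))) (XT.nd (nat_lit 188) (nat_lit 0) (nat_lit 84) (XT.nd (nat_lit 94) (nat_lit 0) (nat_lit 84) (XT.lf (nat_lit 84) (nat_lit 9553969359) (nat_lit 0) (nat_lit 7494990215) (nat_lit 1344) (nat_lit 27109896777) (nat_lit 167) (nat_lit 5) (nat_lit 166) (nat_lit 5) (nat_lit 182) (nat_lit 5) (nat_lit 402) (nat_lit 388) (nat_lit 155)) (XT.lf (nat_lit 0) (nat_lit 19708930436) (nat_lit 1260) (nat_lit 14815438120) (nat_lit 1344) (nat_lit 10361378094) (nat_lit 167) (nat_lit 5) (nat_lit 182) (nat_lit 5) (nat_lit 183) (nat_lit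 5) (nat_lit 403) (nat_lit 388) (nat_lit 154))) (XT.nd (nat_lit 94) (nat_lit 0) (nat_lit 84) (XT.lf (nat_lit 84) (nat_lit 5601760800) (nat_lit 0) (nat_lit 16973723589) (nat_lit 1344) (nat_lit 23055158026) (nat_lit 168) (nat_lit 5) (nat_lit 167) (nat_lit 5) (nat_lit 183) (nat_lit 5) (nat_lit 404) (nat_lit 388) (nat_lit 153)) (XT.lf (nat_lit 0) (nat_lit 25688487896) (nat_lit 1260) (nat_lit 19471375005) (nat_lit 84) (nat_lit 1233210771) (nat_lit 168) (nat_lit 5) (nat_lit 183) (nat_lit 5) (nat_lit 169) (nat_lit 5) (nat_lit 405) (nat_lit 388) (nat_lit 152)))))) (XT.nd (nat_lit 658) (nat_lit 2184) (nat_lit 0) (XT.nd (nat_lit 282) (nat_lit 1260) (nat_lit 0) (XT.nd (nat_lit 94) (nat_lit 0) (nat_lit 0) (XT.lf (nat_lit 0) (nat_lit 1564288531) (nat_lit 1260) (nat_lit 27512480582) (nat_lit 1344) (nat_lit 18096154274) (nat_lit 153) (nat_lit 5) (nat_lit 168) (nat_lit 5) (nat_lit 169) (nat_lit 5) (nat_lit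 406) (nat_lit 388) (nat_lit 151)) (XT.nd (nat_lit 94) (nat_lit 0) (nat_lit 0) (XT.lf (nat_lit 0) (nat_lit 23629139729) (nat_lit 1260) (nat_lit 9133001042) (nat_lit 1344) (nat_lit 15208166643) (nat_lit 153) (nat_lit 5) (nat_lit 168) (nat_lit 5) (nat_lit 169) (nat_lit 5) (nat_lit 407) (nat_lit 388) (nat_lit 150)) (XT.lf (nat_lit 0) (nat_lit 36651111757) (nat_lit 1344) (nat_lit 2530893855) (nat_lit 84) (nat_lit 9606818228) (nat_lit 153) (nat_lit 5) (nat_lit 169) (nat_lit 5) (nat_lit 154) (nat_lit 5) (nat_lit 408) (nat_lit 388) (nat_lit 149)))) (XT.nd (nat_lit 188) (nat_lit 672) (nat_lit 0) (XT.nd (nat_lit 94) (nat_lit 0) (nat_lit 0) (XT.lf (nat_lit 0) (nat_lit 20237158106) (nat_lit 588) (nat_lit 20703439934) (nat_lit 672) (nat_lit 8682784296) (nat_lit 146) (nat_lit 5) (nat_lit 153) (nat_lit 5) (nat_lit 154) (nat_lit 5) (nat_lit 409) (nat_lit 388) (nat_lit 148)) (XT.lf (nat_lit 0) (nat_lit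 43739138137) (nat_lit 588) (nat_lit 1644099128) (nat_lit 672) (nat_lit 5099008177) (nat_lit 146) (nat_lit 5) (nat_lit 153) (nat_lit 5) (nat_lit 154) (nat_lit 5) (nat_lit 410) (nat_lit 388) (nat_lit 147))) (XT.nd (nat_lit 94) (nat_lit 84) (nat_lit 0) (XT.lf (nat_lit 0) (nat_lit 16731900704) (nat_lit 588) (nat_lit 33559938366) (nat_lit 672) (nat_lit 1065056720) (nat_lit 139) (nat_lit 5) (nat_lit 146) (nat_lit 5) (nat_lit 147) (nat_lit 5) (nat_lit 411) (nat_lit 388) (nat_lit 146)) (XT.lf (nat_lit 0) (nat_lit 3113615609) (nat_lit 672) (nat_lit 11254023956) (nat_lit 84) (nat_lit 37886736834) (nat_lit 138) (nat_lit 5) (nat_lit 146) (nat_lit 5) (nat_lit 139) (nat_lit 5) (nat_lit 412) (nat_lit 388) (nat_lit 145))))) (XT.nd (nat_lit 282) (nat_lit 1008) (nat_lit 0) (XT.nd (nat_lit 94) (nat_lit 588) (nat_lit 0) (XT.lf (nat_lit 0) (nat_lit 7574039583) (nat_lit 672) (nat_lit 40166567173) (nat_lit 84)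 (nat_lit 5432526069) (nat_lit 131) (nat_lit 5) (nat_lit 139) (nat_lit 5) (nat_lit 132) (nat_lit 5) (nat_lit 413) (nat_lit 388) (nat_lit 144)) (XT.nd (nat_lit 94) (nat_lit 588) (nat_lit 0) (XT.lf (nat_lit 0) (nat_lit 12424302963) (nat_lit 672) (nat_lit 16034757475) (nat_lit 84) (nat_lit 25652712347) (nat_lit 131) (nat_lit 5) (nat_lit 139) (nat_lit 5) (nat_lit 132) (nat_lit 5) (nat_lit 414) (nat_lit 388) (nat_lit 143)) (XT.lf (nat_lit 0) (nat_lit 8995566487) (nat_lit 588) (nat_lit 8510011725) (nat_lit 672) (nat_lit 37570430211) (nat_lit 124) (nat_lit 5) (nat_lit 131) (nat_lit 5) (nat_lit 132) (nat_lit 5) (nat_lit 415) (nat_lit 388) (nat_lit 142)))) (XT.nd (nat_lit 188) (nat_lit 504) (nat_lit 0) (XT.nd (nat_lit 94) (nat_lit 504) (nat_lit 0) (XT.lf (nat_lit 0) (nat_lit 23017578166) (nat_lit 672) (nat_lit 21077127799) (nat_lit 84) (nat_lit 11966118122) (nat_lit 124) (nat_lit 5) (nat_lit 132)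 (nat_lit 5) (nat_lit 125) (nat_lit 5) (nat_lit 416) (nat_lit 388) (nat_lit 141)) (XT.lf (nat_lit 0) (nat_lit 4682432177) (nat_lit 504) (nat_lit 24140853279) (nat_lit 588) (nat_lit 28248049847) (nat_lit 118) (nat_lit 5) (nat_lit 124) (nat_lit 5) (nat_lit 125) (nat_lit 5) (nat_lit 417) (nat_lit 388) (nat_lit 140))) (XT.nd (nat_lit 94) (nat_lit 504) (nat_lit 0) (XT.lf (nat_lit 0) (nat_lit 31645881732) (nat_lit 504) (nat_lit 3369216900) (nat_lit 588) (nat_lit 23090706647) (nat_lit 118) (nat_lit 5) (nat_lit 124) (nat_lit 5) (nat_lit 125) (nat_lit 5) (nat_lit 418) (nat_lit 388) (nat_lit 139)) (XT.lf (nat_lit 0) (nat_lit 74142419) (nat_lit 504) (nat_lit 41491632071) (nat_lit 588) (nat_lit 17600343032) (nat_lit 112) (nat_lit 5) (nat_lit 118) (nat_lit 5) (nat_lit 119) (nat_lit 5) (nat_lit 419) (nat_lit 388) (nat_lit 138))))))) (XT.nd (nat_lit 1316) (nat_lit 2100) (nat_lit 0) (XT.nd (nat_lit 658)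 (nat_lit 1260) (nat_lit 0) (XT.nd (nat_lit 282) (nat_lit 924) (nat_lit 0) (XT.nd (nat_lit 94) (nat_lit 504) (nat_lit 0) (XT.lf (nat_lit 0) (nat_lit 27911662761) (nat_lit 504) (nat_lit 20700671981) (nat_lit 588) (nat_lit 11636924845) (nat_lit 112) (nat_lit 5) (nat_lit 118) (nat_lit 5) (nat_lit 119) (nat_lit 5) (nat_lit 420) (nat_lit 388) (nat_lit 137)) (XT.nd (nat_lit 94) (nat_lit 504) (nat_lit 0) (XT.lf (nat_lit 0) (nat_lit 55876318864) (nat_lit 588) (nat_lit 4788396375) (nat_lit 84) (nat_lit 700001199) (nat_lit 112) (nat_lit 5) (nat_lit 119) (nat_lit 5) (nat_lit 113) (nat_lit 5) (nat_lit 421) (nat_lit 388) (nat_lit 136)) (XT.lf (nat_lit 0) (nat_lit 1265768637) (nat_lit 504) (nat_lit 38666305880) (nat_lit 84) (nat_lit 22568190258) (nat_lit 106) (nat_lit 5) (nat_lit 112) (nat_lit 5) (nat_lit 107) (nat_lit 5) (nat_lit 422) (nat_lit 388) (nat_lit 135)))) (XT.nd (nat_lit 188) (nat_lit 420)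 (nat_lit 0) (XT.nd (nat_lit 94) (nat_lit 504) (nat_lit 0) (XT.lf (nat_lit 0) (nat_lit 8160274286) (nat_lit 504) (nat_lit 10311032356) (nat_lit 84) (nat_lit 45195503151) (nat_lit 106) (nat_lit 5) (nat_lit 112) (nat_lit 5) (nat_lit 107) (nat_lit 5) (nat_lit 423) (nat_lit 388) (nat_lit 134)) (XT.lf (nat_lit 0) (nat_lit 15482825775) (nat_lit 588) (nat_lit 45629549357) (nat_lit 84) (nat_lit 3749340897) (nat_lit 100) (nat_lit 5) (nat_lit 107) (nat_lit 5) (nat_lit 101) (nat_lit 5) (nat_lit 424) (nat_lit 388) (nat_lit 133))) (XT.nd (nat_lit 94) (nat_lit 420) (nat_lit 0) (XT.lf (nat_lit 0) (nat_lit 23312320346) (nat_lit 588) (nat_lit 16401146796) (nat_lit 84) (nat_lit 26370385468) (nat_lit 100) (nat_lit 5) (nat_lit 107) (nat_lit 5) (nat_lit 101) (nat_lit 5) (nat_lit 425) (nat_lit 388) (nat_lit 132)) (XT.lf (nat_lit 0) (nat_lit 13975941836) (nat_lit 420) (nat_lit 17534355844) (nat_lit 504) (nat_lit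 35828348790) (nat_lit 95) (nat_lit 5) (nat_lit 100) (nat_lit 5) (nat_lit 101) (nat_lit 5) (nat_lit 426) (nat_lit 388) (nat_lit 131))))) (XT.nd (nat_lit 282) (nat_lit 840) (nat_lit 0) (XT.nd (nat_lit 94) (nat_lit 420) (nat_lit 0) (XT.lf (nat_lit 0) (nat_lit 40171782323) (nat_lit 504) (nat_lit 23079149005) (nat_lit 84) (nat_lit 5373626865) (nat_lit 95) (nat_lit 5) (nat_lit 101) (nat_lit 5) (nat_lit 96) (nat_lit 5) (nat_lit 427) (nat_lit 388) (nat_lit 130)) (XT.nd (nat_lit 94) (nat_lit 0) (nat_lit 0) (XT.lf (nat_lit 0) (nat_lit 8096422389) (nat_lit 420) (nat_lit 41247410347) (nat_lit 504) (nat_lit 20597693950) (nat_lit 90) (nat_lit 5) (nat_lit 95) (nat_lit 5) (nat_lit 96) (nat_lit 5) (nat_lit 428) (nat_lit 388) (nat_lit 129)) (XT.lf (nat_lit 0) (nat_lit 40679495638) (nat_lit 420) (nat_lit 18343901639) (nat_lit 504) (nat_lit 12267637404) (nat_lit 90) (nat_lit 5) (nat_lit 95) (nat_lit 5) (nat_lit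 96) (nat_lit 5) (nat_lit 429) (nat_lit 388) (nat_lit 128)))) (XT.nd (nat_lit 188) (nat_lit 420) (nat_lit 0) (XT.nd (nat_lit 94) (nat_lit 84) (nat_lit 0) (XT.lf (nat_lit 0) (nat_lit 1537745599) (nat_lit 336) (nat_lit 67520136882) (nat_lit 420) (nat_lit 3621210416) (nat_lit 86) (nat_lit 5) (nat_lit 90) (nat_lit 5) (nat_lit 91) (nat_lit 5) (nat_lit 430) (nat_lit 388) (nat_lit 127)) (XT.lf (nat_lit 0) (nat_lit 5674608962) (nat_lit 420) (nat_lit 39056852219) (nat_lit 84) (nat_lit 29361015010) (nat_lit 85) (nat_lit 5) (nat_lit 90) (nat_lit 5) (nat_lit 86) (nat_lit 5) (nat_lit 431) (nat_lit 388) (nat_lit 126))) (XT.nd (nat_lit 94) (nat_lit 420) (nat_lit 0) (XT.lf (nat_lit 0) (nat_lit 15175861417) (nat_lit 420) (nat_lit 6046516561) (nat_lit 84) (nat_lit 54324828071) (nat_lit 85) (nat_lit 5) (nat_lit 90) (nat_lit 5) (nat_lit 86) (nat_lit 5) (nat_lit 432) (nat_lit 388) (nat_lit 125)) (XT.lf (nat_lit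 0) (nat_lit 25267036369) (nat_lit 504) (nat_lit 48559210037) (nat_lit 84) (nat_lit 3210185734) (nat_lit 80) (nat_lit 5) (nat_lit 86) (nat_lit 5) (nat_lit 81) (nat_lit 5) (nat_lit 433) (nat_lit 388) (nat_lit 124)))))) (XT.nd (nat_lit 658) (nat_lit 1008) (nat_lit 0) (XT.nd (nat_lit 282) (nat_lit 756) (nat_lit 0) (XT.nd (nat_lit 94) (nat_lit 336) (nat_lit 0) (XT.lf (nat_lit 0) (nat_lit 35932101178) (nat_lit 504) (nat_lit 14619435985) (nat_lit 84) (nat_lit 28010664070) (nat_lit 80) (nat_lit 5) (nat_lit 86) (nat_lit 5) (nat_lit 81) (nat_lit 5) (nat_lit 434) (nat_lit 388) (nat_lit 123)) (XT.nd (nat_lit 94) (nat_lit 0) (nat_lit 0) (XT.lf (nat_lit 0) (nat_lit 20742489829) (nat_lit 336) (nat_lit 26373405526) (nat_lit 420) (nat_lit 33011885554) (nat_lit 76) (nat_lit 5) (nat_lit 80) (nat_lit 5) (nat_lit 81) (nat_lit 5) (nat_lit 435) (nat_lit 388) (nat_lit 122)) (XT.lf (nat_lit 0) (nat_lit 57464163240)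 (nat_lit 336) (nat_lit 1318065870) (nat_lit 420) (nat_lit 22953688902) (nat_lit 76) (nat_lit 5) (nat_lit 80) (nat_lit 5) (nat_lit 81) (nat_lit 5) (nat_lit 436) (nat_lit 388) (nat_lit 121)))) (XT.nd (nat_lit 188) (nat_lit 420) (nat_lit 0) (XT.nd (nat_lit 94) (nat_lit 0) (nat_lit 0) (XT.lf (nat_lit 0) (nat_lit 11891034249) (nat_lit 336) (nat_lit 59256638987) (nat_lit 420) (nat_lit 12234153166) (nat_lit 72) (nat_lit 5) (nat_lit 76) (nat_lit 5) (nat_lit 77) (nat_lit 5) (nat_lit 437) (nat_lit 388) (nat_lit 120)) (XT.lf (nat_lit 0) (nat_lit 49622164293) (nat_lit 336) (nat_lit 34519359164) (nat_lit 420) (nat_lit 927866067) (nat_lit 72) (nat_lit 5) (nat_lit 76) (nat_lit 5) (nat_lit 77) (nat_lit 5) (nat_lit 438) (nat_lit 388) (nat_lit 119))) (XT.nd (nat_lit 94) (nat_lit 0) (nat_lit 0) (XT.lf (nat_lit 0) (nat_lit 1605178069) (nat_lit 336) (nat_lit 8918156311) (nat_lit 420) (nat_lit 76280709233)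 (nat_lit 67) (nat_lit 5) (nat_lit 71) (nat_lit 5) (nat_lit 72) (nat_lit 5) (nat_lit 439) (nat_lit 388) (nat_lit 118)) (XT.lf (nat_lit 0) (nat_lit 22828104786) (nat_lit 420) (nat_lit 48265470485) (nat_lit 84) (nat_lit 17481026655) (nat_lit 67) (nat_lit 5) (nat_lit 72) (nat_lit 5) (nat_lit 68) (nat_lit 5) (nat_lit 440) (nat_lit 388) (nat_lit 117))))) (XT.nd (nat_lit 282) (nat_lit 672) (nat_lit 0) (XT.nd (nat_lit 94) (nat_lit 336) (nat_lit 0) (XT.lf (nat_lit 0) (nat_lit 35589774305) (nat_lit 420) (nat_lit 10313126625) (nat_lit 84) (nat_lit 44492744056) (nat_lit 67) (nat_lit 5) (nat_lit 72) (nat_lit 5) (nat_lit 68) (nat_lit 5) (nat_lit 441) (nat_lit 388) (nat_lit 116)) (XT.nd (nat_lit 94) (nat_lit 0) (nat_lit 0) (XT.lf (nat_lit 0) (nat_lit 29349774873) (nat_lit 336) (nat_lit 19666120253) (nat_lit 420) (nat_lit 43246976831) (nat_lit 63) (nat_lit 5) (nat_lit 67) (nat_lit 5) (nat_lit 68) (nat_lit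 5) (nat_lit 442) (nat_lit 388) (nat_lit 115)) (XT.lf (nat_lit 0) (nat_lit 63020179979) (nat_lit 420) (nat_lit 23841517025) (nat_lit 84) (nat_lit 7319157961) (nat_lit 63) (nat_lit 5) (nat_lit 68) (nat_lit 5) (nat_lit 64) (nat_lit 5) (nat_lit 443) (nat_lit 388) (nat_lit 114)))) (XT.nd (nat_lit 188) (nat_lit 420) (nat_lit 0) (XT.nd (nat_lit 94) (nat_lit 0) (nat_lit 0) (XT.lf (nat_lit 0) (nat_lit 16529325062) (nat_lit 252) (nat_lit 61268367127) (nat_lit 336) (nat_lit 18348092930) (nat_lit 60) (nat_lit 5) (nat_lit 63) (nat_lit 5) (nat_lit 64) (nat_lit 5) (nat_lit 444) (nat_lit 388) (nat_lit 113)) (XT.lf (nat_lit 0) (nat_lit 58599309196) (nat_lit 252) (nat_lit 34659475789) (nat_lit 336) (nat_lit 4903671137) (nat_lit 60) (nat_lit 5) (nat_lit 63) (nat_lit 5) (nat_lit 64) (nat_lit 5) (nat_lit 445) (nat_lit 388) (nat_lit 112))) (XT.nd (nat_lit 94) (nat_lit 0) (nat_lit 0) (XT.lf (nat_lit 0) (nat_lit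 1637033501) (nat_lit 336) (nat_lit 7147766475) (nat_lit 420) (nat_lit 91451791128) (nat_lit 55) (nat_lit 5) (nat_lit 59) (nat_lit 5) (nat_lit 60) (nat_lit 5) (nat_lit 446) (nat_lit 388) (nat_lit 111)) (XT.lf (nat_lit 0) (nat_lit 23392033786) (nat_lit 420) (nat_lit 57733637541) (nat_lit 84) (nat_lit 21227622798) (nat_lit 55) (nat_lit 5) (nat_lit 60) (nat_lit 5) (nat_lit 56) (nat_lit 5) (nat_lit 447) (nat_lit 388) (nat_lit 110))))))))
noncomputable def xc221 : XT := (XT.nd (nat_lit 55742) (nat_lit 0) (nat_lit 2604) (XT.nd (nat_lit 54426) (nat_lit 0) (nat_lit 9072) (XT.nd (nat_lit 53768) (nat_lit 0) (nat_lit 9744) (XT.nd (nat_lit 282) (nat_lit 588) (nat_lit 0) (XT.nd (nat_lit 94) (nat_lit 252) (nat_lit 0) (XT.lf (nat_lit 0) (nat_lit 38507785920) (nat_lit 420) (nat_lit 15713195834) (nat_lit 84) (nat_lit 50310407979) (nat_lit 55) (nat_lit 5) (nat_lit 60) (nat_lit 5) (nat_lit 56) (nat_lit 5)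 (nat_lit 448) (nat_lit 388) (nat_lit 109)) (XT.nd (nat_lit 94) (nat_lit 0) (nat_lit 0) (XT.lf (nat_lit 0) (nat_lit 28115834305) (nat_lit 252) (nat_lit 26230987905) (nat_lit 336) (nat_lit 52419912170) (nat_lit 52) (nat_lit 5) (nat_lit 55) (nat_lit 5) (nat_lit 56) (nat_lit 5) (nat_lit 449) (nat_lit 388) (nat_lit 108)) (XT.lf (nat_lit 0) (nat_lit 70845803298) (nat_lit 336) (nat_lit 35509761495) (nat_lit 84) (nat_lit 2708031866) (nat_lit 52) (nat_lit 5) (nat_lit 56) (nat_lit 5) (nat_lit 53) (nat_lit 5) (nat_lit 450) (nat_lit 388) (nat_lit 107)))) (XT.nd (nat_lit 188) (nat_lit 336) (nat_lit 0) (XT.nd (nat_lit 94) (nat_lit 0) (nat_lit 0) (XT.lf (nat_lit 0) (nat_lit 8837702045) (nat_lit 252) (nat_lit 79346280908) (nat_lit 336) (nat_lit 23235055470) (nat_lit 49) (nat_lit 5) (nat_lit 52) (nat_lit 5) (nat_lit 53) (nat_lit 5) (nat_lit 451) (nat_lit 388) (nat_lit 106)) (XT.lf (nat_lit 0) (nat_lit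 55242859338) (nat_lit 252) (nat_lit 51157597134) (nat_lit 336) (nat_lit 7433942988) (nat_lit 49) (nat_lit 5) (nat_lit 52) (nat_lit 5) (nat_lit 53) (nat_lit 5) (nat_lit 452) (nat_lit 388) (nat_lit 105))) (XT.nd (nat_lit 94) (nat_lit 252) (nat_lit 0) (XT.lf (nat_lit 0) (nat_lit 8668256614) (nat_lit 336) (nat_lit 13367672539) (nat_lit 84) (nat_lit 94283755687) (nat_lit 48) (nat_lit 5) (nat_lit 52) (nat_lit 5) (nat_lit 49) (nat_lit 5) (nat_lit 453) (nat_lit 388) (nat_lit 104)) (XT.lf (nat_lit 0) (nat_lit 25509040198) (nat_lit 336) (nat_lit 85149825150) (nat_lit 84) (nat_lit 8206307780) (nat_lit 45) (nat_lit 5) (nat_lit 49) (nat_lit 5) (nat_lit 46) (nat_lit 5) (nat_lit 454) (nat_lit 388) (nat_lit 103))))) (XT.nd (nat_lit 282) (nat_lit 0) (nat_lit 84) (XT.nd (nat_lit 94) (nat_lit 0) (nat_lit 0) (XT.lf (nat_lit 0) (nat_lit 174978923) (nat_lit 0) (nat_lit 174978923) (nat_lit 1260) (nat_lit 17951900741)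 (nat_lit 161) (nat_lit 5) (nat_lit 161) (nat_lit 3) (nat_lit 176) (nat_lit 3) (nat_lit 389) (nat_lit 389) (nat_lit 167)) (XT.nd (nat_lit 94) (nat_lit 0) (nat_lit 0) (XT.lf (nat_lit 0) (nat_lit 908930578) (nat_lit 1260) (nat_lit 20660243999) (nat_lit 1344) (nat_lit 15577559726) (nat_lit 161) (nat_lit 5) (nat_lit 176) (nat_lit 3) (nat_lit 177) (nat_lit 5) (nat_lit 390) (nat_lit 389) (nat_lit 166)) (XT.lf (nat_lit 0) (nat_lit 1125902177) (nat_lit 1260) (nat_lit 4603347216) (nat_lit 1344) (nat_lit 31976745209) (nat_lit 161) (nat_lit 5) (nat_lit 176) (nat_lit 3) (nat_lit 177) (nat_lit 5) (nat_lit 391) (nat_lit 389) (nat_lit 165)))) (XT.nd (nat_lit 188) (nat_lit 0) (nat_lit 84) (XT.nd (nat_lit 94) (nat_lit 0) (nat_lit 0) (XT.lf (nat_lit 0) (nat_lit 1567583249) (nat_lit 1260) (nat_lit 26209659759) (nat_lit 1344) (nat_lit 10498246843) (nat_lit 162) (nat_lit 5) (nat_lit 177) (nat_lit 5) (nat_lit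 178) (nat_lit 5) (nat_lit 392) (nat_lit 389) (nat_lit 164)) (XT.lf (nat_lit 0) (nat_lit 2124506939) (nat_lit 1260) (nat_lit 9589397048) (nat_lit 1344) (nat_lit 27145109263) (nat_lit 162) (nat_lit 5) (nat_lit 177) (nat_lit 5) (nat_lit 178) (nat_lit 5) (nat_lit 393) (nat_lit 389) (nat_lit 163))) (XT.nd (nat_lit 94) (nat_lit 0) (nat_lit 0) (XT.lf (nat_lit 0) (nat_lit 2817497164) (nat_lit 1260) (nat_lit 31826707452) (nat_lit 1344) (nat_lit 4812259940) (nat_lit 163) (nat_lit 5) (nat_lit 178) (nat_lit 5) (nat_lit 179) (nat_lit 5) (nat_lit 394) (nat_lit 389) (nat_lit 162)) (XT.lf (nat_lit 0) (nat_lit 3743464575) (nat_lit 1260) (nat_lit 14624815063) (nat_lit 1344) (nat_lit 21697197021) (nat_lit 163) (nat_lit 5) (nat_lit 178) (nat_lit 5) (nat_lit 179) (nat_lit 5) (nat_lit 395) (nat_lit 389) (nat_lit 161)))))) (XT.nd (nat_lit 658) (nat_lit 840) (nat_lit 0) (XT.nd (nat_lit 282) (nat_lit 0) (nat_lit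 168) (XT.nd (nat_lit 94) (nat_lit 0) (nat_lit 84) (XT.lf (nat_lit 84) (nat_lit 3153701549) (nat_lit 0) (nat_lit 1572286294) (nat_lit 1344) (nat_lit 35965910777) (nat_lit 164) (nat_lit 5) (nat_lit 163) (nat_lit 5) (nat_lit 179) (nat_lit 5) (nat_lit 396) (nat_lit 389) (nat_lit 160)) (XT.nd (nat_lit 94) (nat_lit 0) (nat_lit 0) (XT.lf (nat_lit 0) (nat_lit 6036816415) (nat_lit 1260) (nat_lit 19720976219) (nat_lit 1344) (nat_lit 15570358435) (nat_lit 164) (nat_lit 5) (nat_lit 179) (nat_lit 5) (nat_lit 180) (nat_lit 5) (nat_lit 397) (nat_lit 389) (nat_lit 159)) (XT.lf (nat_lit 0) (nat_lit 7401082926) (nat_lit 1260) (nat_lit 1385792420) (nat_lit 1344) (nat_lit 33196194991) (nat_lit 164) (nat_lit 5) (nat_lit 179) (nat_lit 5) (nat_lit 180) (nat_lit 5) (nat_lit 398) (nat_lit 389) (nat_lit 158)))) (XT.nd (nat_lit 188) (nat_lit 0) (nat_lit 84) (XT.nd (nat_lit 94) (nat_lit 0) (nat_lit 0) (XT.lf (nat_lit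 0) (nat_lit 9061686470) (nat_lit 1260) (nat_lit 24891059084) (nat_lit 1344) (nat_lit 8697231920) (nat_lit 165) (nat_lit 5) (nat_lit 180) (nat_lit 5) (nat_lit 181) (nat_lit 5) (nat_lit 399) (nat_lit 389) (nat_lit 157)) (XT.lf (nat_lit 0) (nat_lit 10871863617) (nat_lit 1260) (nat_lit 5918227811) (nat_lit 1344) (nat_lit 26543810220) (nat_lit 165) (nat_lit 5) (nat_lit 180) (nat_lit 5) (nat_lit 181) (nat_lit 5) (nat_lit 400) (nat_lit 389) (nat_lit 156))) (XT.nd (nat_lit 94) (nat_lit 0) (nat_lit 0) (XT.lf (nat_lit 0) (nat_lit 12878424130) (nat_lit 1260) (nat_lit 30150293962) (nat_lit 1344) (nat_lit 1005365526) (nat_lit 166) (nat_lit 5) (nat_lit 181) (nat_lit 5) (nat_lit 182) (nat_lit 5) (nat_lit 401) (nat_lit 389) (nat_lit 155)) (XT.lf (nat_lit 0) (nat_lit 15170471687) (nat_lit 1260) (nat_lit 10520125646) (nat_lit 1344) (nat_lit 19057917353) (nat_lit 166) (nat_lit 5) (nat_lit 181) (nat_lit 5)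 (nat_lit 182) (nat_lit 5) (nat_lit 402) (nat_lit 389) (nat_lit 154))))) (XT.nd (nat_lit 282) (nat_lit 1092) (nat_lit 0) (XT.nd (nat_lit 94) (nat_lit 0) (nat_lit 84) (XT.lf (nat_lit 84) (nat_lit 9890982874) (nat_lit 0) (nat_lit 7734111407) (nat_lit 1344) (nat_lit 27856472273) (nat_lit 167) (nat_lit 5) (nat_lit 166) (nat_lit 5) (nat_lit 182) (nat_lit 5) (nat_lit 403) (nat_lit 389) (nat_lit 153)) (XT.nd (nat_lit 94) (nat_lit 0) (nat_lit 0) (XT.lf (nat_lit 0) (nat_lit 20362847604) (nat_lit 1260) (nat_lit 15208845818) (nat_lit 1344) (nat_lit 10658634002) (nat_lit 167) (nat_lit 5) (nat_lit 182) (nat_lit 5) (nat_lit 183) (nat_lit 5) (nat_lit 404) (nat_lit 389) (nat_lit 152)) (XT.lf (nat_lit 84) (nat_lit 5820368526) (nat_lit 0) (nat_lit 17493690878) (nat_lit 1344) (nat_lit 23683554088) (nat_lit 168) (nat_lit 5) (nat_lit 167) (nat_lit 5) (nat_lit 183) (nat_lit 5) (nat_lit 405) (nat_lit 389) (nat_lit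 151)))) (XT.nd (nat_lit 188) (nat_lit 0) (nat_lit 0) (XT.nd (nat_lit 94) (nat_lit 1260) (nat_lit 0) (XT.lf (nat_lit 0) (nat_lit 26518566897) (nat_lit 1260) (nat_lit 20004441997) (nat_lit 84) (nat_lit 1259968549) (nat_lit 168) (nat_lit 5) (nat_lit 183) (nat_lit 5) (nat_lit 169) (nat_lit 5) (nat_lit 406) (nat_lit 389) (nat_lit 150)) (XT.lf (nat_lit 0) (nat_lit 1661790718) (nat_lit 1260) (nat_lit 28345461170) (nat_lit 1344) (nat_lit 18579011179) (nat_lit 153) (nat_lit 5) (nat_lit 168) (nat_lit 5) (nat_lit 169) (nat_lit 5) (nat_lit 407) (nat_lit 389) (nat_lit 149))) (XT.nd (nat_lit 94) (nat_lit 0) (nat_lit 0) (XT.lf (nat_lit 0) (nat_lit 24387114436) (nat_lit 1260) (nat_lit 9414375705) (nat_lit 1344) (nat_lit 15606132300) (nat_lit 153) (nat_lit 5) (nat_lit 168) (nat_lit 5) (nat_lit 169) (nat_lit 5) (nat_lit 408) (nat_lit 389) (nat_lit 148)) (XT.lf (nat_lit 0) (nat_lit 37805416140) (nat_lit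 1344) (nat_lit 2557339412) (nat_lit 84) (nat_lit 9887993133) (nat_lit 153) (nat_lit 5) (nat_lit 169) (nat_lit 5) (nat_lit 154) (nat_lit 5) (nat_lit 409) (nat_lit 389) (nat_lit 147))))))) (XT.nd (nat_lit 1316) (nat_lit 2520) (nat_lit 0) (XT.nd (nat_lit 658) (nat_lit 1512) (nat_lit 0) (XT.nd (nat_lit 282) (nat_lit 1260) (nat_lit 0) (XT.nd (nat_lit 94) (nat_lit 588) (nat_lit 0) (XT.lf (nat_lit 0) (nat_lit 20893268997) (nat_lit 588) (nat_lit 21329193722) (nat_lit 672) (nat_lit 8887917763) (nat_lit 146) (nat_lit 5) (nat_lit 153) (nat_lit 5) (nat_lit 154) (nat_lit 5) (nat_lit 410) (nat_lit 389) (nat_lit 146)) (XT.nd (nat_lit 94) (nat_lit 588) (nat_lit 0) (XT.lf (nat_lit 0) (nat_lit 45098881357) (nat_lit 588) (nat_lit 1697937238) (nat_lit 672) (nat_lit 5198240498) (nat_lit 146) (nat_lit 5) (nat_lit 153) (nat_lit 5) (nat_lit 154) (nat_lit 5) (nat_lit 411) (nat_lit 389) (nat_lit 145)) (XT.lf (nat_lit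 0) (nat_lit 17282640914) (nat_lit 588) (nat_lit 34568947320) (nat_lit 672) (nat_lit 1044396080) (nat_lit 139) (nat_lit 5) (nat_lit 146) (nat_lit 5) (nat_lit 147) (nat_lit 5) (nat_lit 412) (nat_lit 389) (nat_lit 144)))) (XT.nd (nat_lit 188) (nat_lit 588) (nat_lit 0) (XT.nd (nat_lit 94) (nat_lit 588) (nat_lit 0) (XT.lf (nat_lit 0) (nat_lit 3257107267) (nat_lit 672) (nat_lit 11543202154) (nat_lit 84) (nat_lit 39020112327) (nat_lit 138) (nat_lit 5) (nat_lit 146) (nat_lit 5) (nat_lit 139) (nat_lit 5) (nat_lit 413) (nat_lit 389) (nat_lit 143)) (XT.lf (nat_lit 0) (nat_lit 7850335573) (nat_lit 672) (nat_lit 41322032263) (nat_lit 84) (nat_lit 5594405710) (nat_lit 131) (nat_lit 5) (nat_lit 139) (nat_lit 5) (nat_lit 132) (nat_lit 5) (nat_lit 414) (nat_lit 389) (nat_lit 142))) (XT.nd (nat_lit 94) (nat_lit 588) (nat_lit 0) (XT.lf (nat_lit 0) (nat_lit 12844677492) (nat_lit 672) (nat_lit 16467710953)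 (nat_lit 84) (nat_lit 26421229503) (nat_lit 131) (nat_lit 5) (nat_lit 139) (nat_lit 5) (nat_lit 132) (nat_lit 5) (nat_lit 415) (nat_lit 389) (nat_lit 141)) (XT.lf (nat_lit 0) (nat_lit 9313051266) (nat_lit 588) (nat_lit 8764409733) (nat_lit 672) (nat_lit 38649349847) (nat_lit 124) (nat_lit 5) (nat_lit 131) (nat_lit 5) (nat_lit 132) (nat_lit 5) (nat_lit 416) (nat_lit 389) (nat_lit 140))))) (XT.nd (nat_lit 282) (nat_lit 1008) (nat_lit 0) (XT.nd (nat_lit 94) (nat_lit 504) (nat_lit 0) (XT.lf (nat_lit 0) (nat_lit 23753468728) (nat_lit 672) (nat_lit 21661784410) (nat_lit 84) (nat_lit 12325960632) (nat_lit 124) (nat_lit 5) (nat_lit 132) (nat_lit 5) (nat_lit 125) (nat_lit 5) (nat_lit 417) (nat_lit 389) (nat_lit 139)) (XT.nd (nat_lit 94) (nat_lit 0) (nat_lit 0) (XT.lf (nat_lit 0) (nat_lit 4870095138) (nat_lit 504) (nat_lit 24862384460) (nat_lit 588) (nat_lit 29049588915) (nat_lit 118) (nat_lit 5)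 (nat_lit 124) (nat_lit 5) (nat_lit 125) (nat_lit 5) (nat_lit 418) (nat_lit 389) (nat_lit 138)) (XT.lf (nat_lit 0) (nat_lit 32641073713) (nat_lit 504) (nat_lit 3467677467) (nat_lit 588) (nat_lit 23738862382) (nat_lit 118) (nat_lit 5) (nat_lit 124) (nat_lit 5) (nat_lit 125) (nat_lit 5) (nat_lit 419) (nat_lit 389) (nat_lit 137)))) (XT.nd (nat_lit 188) (nat_lit 504) (nat_lit 0) (XT.nd (nat_lit 94) (nat_lit 0) (nat_lit 0) (XT.lf (nat_lit 0) (nat_lit 123060633) (nat_lit 504) (nat_lit 42732101706) (nat_lit 588) (nat_lit 18084598420) (nat_lit 112) (nat_lit 5) (nat_lit 118) (nat_lit 5) (nat_lit 119) (nat_lit 5) (nat_lit 420) (nat_lit 389) (nat_lit 136)) (XT.lf (nat_lit 0) (nat_lit 28794346568) (nat_lit 504) (nat_lit 21317537454) (nat_lit 588) (nat_lit 11943552102) (nat_lit 112) (nat_lit 5) (nat_lit 118) (nat_lit 5) (nat_lit 119) (nat_lit 5) (nat_lit 421) (nat_lit 389) (nat_lit 135))) (XT.nd (nat_lit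 94) (nat_lit 504) (nat_lit 0) (XT.lf (nat_lit 0) (nat_lit 57592627046) (nat_lit 588) (nat_lit 4886810171) (nat_lit 84) (nat_lit 724956200) (nat_lit 112) (nat_lit 5) (nat_lit 119) (nat_lit 5) (nat_lit 113) (nat_lit 5) (nat_lit 422) (nat_lit 389) (nat_lit 134)) (XT.lf (nat_lit 0) (nat_lit 1343475142) (nat_lit 504) (nat_lit 39780649414) (nat_lit 84) (nat_lit 23249895874) (nat_lit 106) (nat_lit 5) (nat_lit 112) (nat_lit 5) (nat_lit 107) (nat_lit 5) (nat_lit 423) (nat_lit 389) (nat_lit 133)))))) (XT.nd (nat_lit 658) (nat_lit 1176) (nat_lit 0) (XT.nd (nat_lit 282) (nat_lit 840) (nat_lit 0) (XT.nd (nat_lit 94) (nat_lit 504) (nat_lit 0) (XT.lf (nat_lit 0) (nat_lit 8443658676) (nat_lit 504) (nat_lit 10576047169) (nat_lit 84) (nat_lit 46555892428) (nat_lit 106) (nat_lit 5) (nat_lit 112) (nat_lit 5) (nat_lit 107) (nat_lit 5) (nat_lit 424) (nat_lit 389) (nat_lit 132)) (XT.nd (nat_lit 94) (nat_lit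 0) (nat_lit 0) (XT.lf (nat_lit 0) (nat_lit 15985242695) (nat_lit 588) (nat_lit 46953418842) (nat_lit 84) (nat_lit 3867711185) (nat_lit 100) (nat_lit 5) (nat_lit 107) (nat_lit 5) (nat_lit 101) (nat_lit 5) (nat_lit 425) (nat_lit 389) (nat_lit 131)) (XT.lf (nat_lit 0) (nat_lit 24048517284) (nat_lit 588) (nat_lit 16849475379) (nat_lit 84) (nat_lit 27167215537) (nat_lit 100) (nat_lit 5) (nat_lit 107) (nat_lit 5) (nat_lit 101) (nat_lit 5) (nat_lit 426) (nat_lit 389) (nat_lit 130)))) (XT.nd (nat_lit 188) (nat_lit 420) (nat_lit 0) (XT.nd (nat_lit 94) (nat_lit 0) (nat_lit 0) (XT.lf (nat_lit 0) (nat_lit 14438497424) (nat_lit 420) (nat_lit 18053279882) (nat_lit 504) (nat_lit 36865889876) (nat_lit 95) (nat_lit 5) (nat_lit 100) (nat_lit 5) (nat_lit 101) (nat_lit 5) (nat_lit 427) (nat_lit 389) (nat_lit 129)) (XT.lf (nat_lit 0) (nat_lit 41412119296) (nat_lit 504) (nat_lit 23728467453) (nat_lit 84) (nat_lit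 5541600682) (nat_lit 95) (nat_lit 5) (nat_lit 101) (nat_lit 5) (nat_lit 96) (nat_lit 5) (nat_lit 428) (nat_lit 389) (nat_lit 128))) (XT.nd (nat_lit 94) (nat_lit 0) (nat_lit 0) (XT.lf (nat_lit 0) (nat_lit 8381948965) (nat_lit 420) (nat_lit 42476767318) (nat_lit 504) (nat_lit 21179968660) (nat_lit 90) (nat_lit 5) (nat_lit 95) (nat_lit 5) (nat_lit 96) (nat_lit 5) (nat_lit 429) (nat_lit 389) (nat_lit 127)) (XT.lf (nat_lit 0) (nat_lit 41941272647) (nat_lit 420) (nat_lit 18886388261) (nat_lit 504) (nat_lit 12601048945) (nat_lit 90) (nat_lit 5) (nat_lit 95) (nat_lit 5) (nat_lit 96) (nat_lit 5) (nat_lit 430) (nat_lit 389) (nat_lit 126))))) (XT.nd (nat_lit 282) (nat_lit 756) (nat_lit 0) (XT.nd (nat_lit 94) (nat_lit 84) (nat_lit 0) (XT.lf (nat_lit 0) (nat_lit 1625835285) (nat_lit 336) (nat_lit 69536844256) (nat_lit 420) (nat_lit 3695746737) (nat_lit 86) (nat_lit 5) (nat_lit 90) (nat_lit 5) (nat_lit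 91) (nat_lit 5) (nat_lit 431) (nat_lit 389) (nat_lit 125)) (XT.nd (nat_lit 94) (nat_lit 0) (nat_lit 0) (XT.lf (nat_lit 0) (nat_lit 5877307986) (nat_lit 420) (nat_lit 40187131635) (nat_lit 84) (nat_lit 30249792175) (nat_lit 85) (nat_lit 5) (nat_lit 90) (nat_lit 5) (nat_lit 86) (nat_lit 5) (nat_lit 432) (nat_lit 389) (nat_lit 124)) (XT.lf (nat_lit 0) (nat_lit 15662652556) (nat_lit 420) (nat_lit 6187692494) (nat_lit 84) (nat_lit 55962288171) (nat_lit 85) (nat_lit 5) (nat_lit 90) (nat_lit 5) (nat_lit 86) (nat_lit 5) (nat_lit 433) (nat_lit 389) (nat_lit 123)))) (XT.nd (nat_lit 188) (nat_lit 336) (nat_lit 0) (XT.nd (nat_lit 94) (nat_lit 0) (nat_lit 0) (XT.lf (nat_lit 0) (nat_lit 26056112684) (nat_lit 504) (nat_lit 49975274420) (nat_lit 84) (nat_lit 3315163761) (nat_lit 80) (nat_lit 5) (nat_lit 86) (nat_lit 5) (nat_lit 81) (nat_lit 5) (nat_lit 434) (nat_lit 389) (nat_lit 122)) (XT.lf (nat_lit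 0) (nat_lit 37040224625) (nat_lit 504) (nat_lit 15018492930) (nat_lit 84) (nat_lit 28859403851) (nat_lit 80) (nat_lit 5) (nat_lit 86) (nat_lit 5) (nat_lit 81) (nat_lit 5) (nat_lit 435) (nat_lit 389) (nat_lit 121))) (XT.nd (nat_lit 94) (nat_lit 0) (nat_lit 0) (XT.lf (nat_lit 0) (nat_lit 21403903147) (nat_lit 336) (nat_lit 27155127246) (nat_lit 420) (nat_lit 33971654343) (nat_lit 76) (nat_lit 5) (nat_lit 80) (nat_lit 5) (nat_lit 81) (nat_lit 5) (nat_lit 436) (nat_lit 389) (nat_lit 120)) (XT.lf (nat_lit 0) (nat_lit 59226086800) (nat_lit 336) (nat_lit 1348403529) (nat_lit 420) (nat_lit 23612602698) (nat_lit 76) (nat_lit 5) (nat_lit 80) (nat_lit 5) (nat_lit 81) (nat_lit 5) (nat_lit 437) (nat_lit 389) (nat_lit 119))))))))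
noncomputable def xc222 : XT := (XT.nd (nat_lit 55836) (nat_lit 0) (nat_lit 3864) (XT.nd (nat_lit 1222) (nat_lit 252) (nat_lit 0) (XT.nd (nat_lit 564) (nat_lit 924) (nat_lit 0) (XT.nd (nat_lit 282) (nat_lit 336) (nat_lit 0) (XT.nd (nat_lit 94) (nat_lit 420) (nat_lit 0) (XT.lf (nat_lit 0) (nat_lit 12286197471) (nat_lit 336) (nat_lit 61024316974) (nat_lit 420) (nat_lit 12571876852) (nat_lit 72) (nat_lit 5) (nat_lit 76) (nat_lit 5) (nat_lit 77) (nat_lit 5) (nat_lit 438) (nat_lit 389) (nat_lit 118)) (XT.nd (nat_lit 94) (nat_lit 420) (nat_lit 0) (XT.lf (nat_lit 0) (nat_lit 51148142031) (nat_lit 336) (nat_lit 35545210636) (nat_lit 420) (nat_lit 927254565) (nat_lit 72) (nat_lit 5) (nat_lit 76) (nat_lit 5) (nat_lit 77) (nat_lit 5) (nat_lit 439) (nat_lit 389) (nat_lit 117)) (XT.lf (nat_lit 0) (nat_lit 1690865143) (nat_lit 336) (nat_lit 9175610019) (nat_lit 420) (nat_lit 78540832158) (nat_lit 67)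 (nat_lit 5) (nat_lit 71) (nat_lit 5) (nat_lit 72) (nat_lit 5) (nat_lit 440) (nat_lit 389) (nat_lit 116)))) (XT.nd (nat_lit 94) (nat_lit 336) (nat_lit 0) (XT.lf (nat_lit 0) (nat_lit 23539683610) (nat_lit 420) (nat_lit 49676257577) (nat_lit 84) (nat_lit 18015063348) (nat_lit 67) (nat_lit 5) (nat_lit 72) (nat_lit 5) (nat_lit 68) (nat_lit 5) (nat_lit 441) (nat_lit 389) (nat_lit 115)) (XT.nd (nat_lit 94) (nat_lit 336) (nat_lit 0) (XT.lf (nat_lit 0) (nat_lit 36683424505) (nat_lit 420) (nat_lit 10586426227) (nat_lit 84) (nat_lit 45836852488) (nat_lit 67) (nat_lit 5) (nat_lit 72) (nat_lit 5) (nat_lit 68) (nat_lit 5) (nat_lit 442) (nat_lit 389) (nat_lit 114)) (XT.lf (nat_lit 0) (nat_lit 30266008451) (nat_lit 336) (nat_lit 20245908030) (nat_lit 420) (nat_lit 44518043838) (nat_lit 63) (nat_lit 5) (nat_lit 67) (nat_lit 5) (nat_lit 68) (nat_lit 5) (nat_lit 443) (nat_lit 389) (nat_lit 113))))) (XT.nd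 (nat_lit 282) (nat_lit 672) (nat_lit 0) (XT.nd (nat_lit 94) (nat_lit 252) (nat_lit 0) (XT.lf (nat_lit 0) (nat_lit 64935681019) (nat_lit 420) (nat_lit 24521383778) (nat_lit 84) (nat_lit 7548438402) (nat_lit 63) (nat_lit 5) (nat_lit 68) (nat_lit 5) (nat_lit 64) (nat_lit 5) (nat_lit 444) (nat_lit 389) (nat_lit 112)) (XT.nd (nat_lit 94) (nat_lit 0) (nat_lit 0) (XT.lf (nat_lit 0) (nat_lit 17060236720) (nat_lit 252) (nat_lit 63095893506) (nat_lit 336) (nat_lit 18873263571) (nat_lit 60) (nat_lit 5) (nat_lit 63) (nat_lit 5) (nat_lit 64) (nat_lit 5) (nat_lit 445) (nat_lit 389) (nat_lit 111)) (XT.lf (nat_lit 0) (nat_lit 60391300032) (nat_lit 252) (nat_lit 35689041971) (nat_lit 336) (nat_lit 5026245206) (nat_lit 60) (nat_lit 5) (nat_lit 63) (nat_lit 5) (nat_lit 64) (nat_lit 5) (nat_lit 446) (nat_lit 389) (nat_lit 110)))) (XT.nd (nat_lit 188) (nat_lit 252) (nat_lit 0) (XT.nd (nat_lit 94) (nat_lit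 0) (nat_lit 0) (XT.lf (nat_lit 0) (nat_lit 1720324392) (nat_lit 336) (nat_lit 7351704721) (nat_lit 420) (nat_lit 94170922030) (nat_lit 55) (nat_lit 5) (nat_lit 59) (nat_lit 5) (nat_lit 60) (nat_lit 5) (nat_lit 447) (nat_lit 389) (nat_lit 109)) (XT.lf (nat_lit 0) (nat_lit 24116888023) (nat_lit 420) (nat_lit 59431844048) (nat_lit 84) (nat_lit 21874441732) (nat_lit 55) (nat_lit 5) (nat_lit 60) (nat_lit 5) (nat_lit 56) (nat_lit 5) (nat_lit 448) (nat_lit 389) (nat_lit 108))) (XT.nd (nat_lit 94) (nat_lit 252) (nat_lit 0) (XT.lf (nat_lit 0) (nat_lit 39685440103) (nat_lit 420) (nat_lit 16151773632) (nat_lit 84) (nat_lit 51829419490) (nat_lit 55) (nat_lit 5) (nat_lit 60) (nat_lit 5) (nat_lit 56) (nat_lit 5) (nat_lit 449) (nat_lit 389) (nat_lit 107)) (XT.lf (nat_lit 0) (nat_lit 28991805666) (nat_lit 252) (nat_lit 27007501164) (nat_lit 336) (nat_lit 53969742347) (nat_lit 52) (nat_lit 5) (nat_lit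 55) (nat_lit 5) (nat_lit 56) (nat_lit 5) (nat_lit 450) (nat_lit 389) (nat_lit 106)))))) (XT.nd (nat_lit 53956) (nat_lit 0) (nat_lit 9492) (XT.nd (nat_lit 53580) (nat_lit 0) (nat_lit 9408) (XT.nd (nat_lit 94) (nat_lit 252) (nat_lit 0) (XT.lf (nat_lit 0) (nat_lit 72992711456) (nat_lit 336) (nat_lit 36542934498) (nat_lit 84) (nat_lit 2799188470) (nat_lit 52) (nat_lit 5) (nat_lit 56) (nat_lit 5) (nat_lit 53) (nat_lit 5) (nat_lit 451) (nat_lit 389) (nat_lit 105)) (XT.nd (nat_lit 94) (nat_lit 0) (nat_lit 0) (XT.lf (nat_lit 0) (nat_lit 9134638048) (nat_lit 252) (nat_lit 81716076975) (nat_lit 336) (nat_lit 23910234763) (nat_lit 49) (nat_lit 5) (nat_lit 52) (nat_lit 5) (nat_lit 53) (nat_lit 5) (nat_lit 452) (nat_lit 389) (nat_lit 104)) (XT.lf (nat_lit 0) (nat_lit 56931023702) (nat_lit 252) (nat_lit 52682041204) (nat_lit 336) (nat_lit 7635725966) (nat_lit 49) (nat_lit 5) (nat_lit 52) (nat_lit 5)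 (nat_lit 53) (nat_lit 5) (nat_lit 453) (nat_lit 389) (nat_lit 103)))) (XT.nd (nat_lit 188) (nat_lit 0) (nat_lit 0) (XT.nd (nat_lit 94) (nat_lit 0) (nat_lit 0) (XT.lf (nat_lit 0) (nat_lit 202905673) (nat_lit 0) (nat_lit 202905673) (nat_lit 1260) (nat_lit 18443660009) (nat_lit 161) (nat_lit 5) (nat_lit 161) (nat_lit 3) (nat_lit 176) (nat_lit 3) (nat_lit 390) (nat_lit 390) (nat_lit 165)) (XT.lf (nat_lit 0) (nat_lit 1023842721) (nat_lit 1260) (nat_lit 21232792367) (nat_lit 1344) (nat_lit 16001712023) (nat_lit 161) (nat_lit 5) (nat_lit 176) (nat_lit 3) (nat_lit 177) (nat_lit 5) (nat_lit 391) (nat_lit 390) (nat_lit 164))) (XT.nd (nat_lit 94) (nat_lit 0) (nat_lit 84) (XT.lf (nat_lit 0) (nat_lit 1244770724) (nat_lit 1260) (nat_lit 4695565155) (nat_lit 1344) (nat_lit 32894130579) (nat_lit 161) (nat_lit 5) (nat_lit 176) (nat_lit 3) (nat_lit 177) (nat_lit 5) (nat_lit 392) (nat_lit 390) (nat_lit 163))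 (XT.lf (nat_lit 0) (nat_lit 1697298963) (nat_lit 1260) (nat_lit 26947513092) (nat_lit 1344) (nat_lit 10776311129) (nat_lit 162) (nat_lit 5) (nat_lit 177) (nat_lit 5) (nat_lit 178) (nat_lit 5) (nat_lit 393) (nat_lit 390) (nat_lit 162))))) (XT.nd (nat_lit 282) (nat_lit 0) (nat_lit 84) (XT.nd (nat_lit 94) (nat_lit 0) (nat_lit 84) (XT.lf (nat_lit 0) (nat_lit 2268521968) (nat_lit 1260) (nat_lit 9830053271) (nat_lit 1344) (nat_lit 27923653688) (nat_lit 162) (nat_lit 5) (nat_lit 177) (nat_lit 5) (nat_lit 178) (nat_lit 5) (nat_lit 394) (nat_lit 390) (nat_lit 161)) (XT.nd (nat_lit 94) (nat_lit 0) (nat_lit 0) (XT.lf (nat_lit 0) (nat_lit 2980105344) (nat_lit 1260) (nat_lit 32732144366) (nat_lit 1344) (nat_lit 4925424220) (nat_lit 163) (nat_lit 5) (nat_lit 178) (nat_lit 5) (nat_lit 179) (nat_lit 5) (nat_lit 395) (nat_lit 390) (nat_lit 160)) (XT.lf (nat_lit 0) (nat_lit 3931577508) (nat_lit 1260) (nat_lit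 15015633001) (nat_lit 1344) (nat_lit 22317818254) (nat_lit 163) (nat_lit 5) (nat_lit 178) (nat_lit 5) (nat_lit 179) (nat_lit 5) (nat_lit 396) (nat_lit 390) (nat_lit 159)))) (XT.nd (nat_lit 188) (nat_lit 0) (nat_lit 84) (XT.nd (nat_lit 94) (nat_lit 0) (nat_lit 84) (XT.lf (nat_lit 84) (nat_lit 3295769242) (nat_lit 0) (nat_lit 1646055385) (nat_lit 1344) (nat_lit 36968475328) (nat_lit 164) (nat_lit 5) (nat_lit 163) (nat_lit 5) (nat_lit 179) (nat_lit 5) (nat_lit 397) (nat_lit 390) (nat_lit 158)) (XT.lf (nat_lit 0) (nat_lit 6289572799) (nat_lit 1260) (nat_lit 20263995825) (nat_lit 1344) (nat_lit 16012147411) (nat_lit 164) (nat_lit 5) (nat_lit 179) (nat_lit 5) (nat_lit 180) (nat_lit 5) (nat_lit 398) (nat_lit 390) (nat_lit 157))) (XT.nd (nat_lit 94) (nat_lit 0) (nat_lit 84) (XT.lf (nat_lit 0) (nat_lit 7692680357) (nat_lit 1260) (nat_lit 1380172328) (nat_lit 1344) (nat_lit 34167496591) (nat_lit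 164) (nat_lit 5) (nat_lit 179) (nat_lit 5) (nat_lit 180) (nat_lit 5) (nat_lit 399) (nat_lit 390) (nat_lit 156)) (XT.lf (nat_lit 0) (nat_lit 9401320719) (nat_lit 1260) (nat_lit 25588693158) (nat_lit 1344) (nat_lit 8937306865) (nat_lit 165) (nat_lit 5) (nat_lit 180) (nat_lit 5) (nat_lit 181) (nat_lit 5) (nat_lit 400) (nat_lit 390) (nat_lit 155))))))) (XT.nd (nat_lit 1316) (nat_lit 3612) (nat_lit 0) (XT.nd (nat_lit 658) (nat_lit 2268) (nat_lit 0) (XT.nd (nat_lit 282) (nat_lit 0) (nat_lit 84) (XT.nd (nat_lit 94) (nat_lit 0) (nat_lit 84) (XT.lf (nat_lit 0) (nat_lit 11263828899) (nat_lit 1260) (nat_lit 6048106977) (nat_lit 1344) (nat_lit 27319889563) (nat_lit 165) (nat_lit 5) (nat_lit 180) (nat_lit 5) (nat_lit 181) (nat_lit 5) (nat_lit 401) (nat_lit 390) (nat_lit 154)) (XT.nd (nat_lit 94) (nat_lit 0) (nat_lit 0) (XT.lf (nat_lit 0) (nat_lit 13328958351) (nat_lit 1260) (nat_lit 31005391724) (nat_lit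 1344) (nat_lit 1018715096) (nat_lit 166) (nat_lit 5) (nat_lit 181) (nat_lit 5) (nat_lit 182) (nat_lit 5) (nat_lit 402) (nat_lit 390) (nat_lit 153)) (XT.lf (nat_lit 0) (nat_lit 15687897971) (nat_lit 1260) (nat_lit 10787757516) (nat_lit 1344) (nat_lit 19613333129) (nat_lit 166) (nat_lit 5) (nat_lit 181) (nat_lit 5) (nat_lit 182) (nat_lit 5) (nat_lit 403) (nat_lit 390) (nat_lit 152)))) (XT.nd (nat_lit 188) (nat_lit 0) (nat_lit 84) (XT.nd (nat_lit 94) (nat_lit 0) (nat_lit 84) (XT.lf (nat_lit 84) (nat_lit 10235213947) (nat_lit 0) (nat_lit 7979586993) (nat_lit 1344) (nat_lit 28629275114) (nat_lit 167) (nat_lit 5) (nat_lit 166) (nat_lit 5) (nat_lit 182) (nat_lit 5) (nat_lit 404) (nat_lit 390) (nat_lit 151)) (XT.lf (nat_lit 0) (nat_lit 21032785964) (nat_lit 1260) (nat_lit 15616986539) (nat_lit 1344) (nat_lit 10965587448) (nat_lit 167) (nat_lit 5) (nat_lit 182) (nat_lit 5) (nat_lit 183) (nat_lit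 5) (nat_lit 405) (nat_lit 390) (nat_lit 150))) (XT.nd (nat_lit 94) (nat_lit 0) (nat_lit 84) (XT.lf (nat_lit 84) (nat_lit 6042632425) (nat_lit 0) (nat_lit 18028639773) (nat_lit 1344) (nat_lit 24334433338) (nat_lit 168) (nat_lit 5) (nat_lit 167) (nat_lit 5) (nat_lit 183) (nat_lit 5) (nat_lit 406) (nat_lit 390) (nat_lit 149)) (XT.lf (nat_lit 0) (nat_lit 27370137067) (nat_lit 1260) (nat_lit 20556432869) (nat_lit 84) (nat_lit 1288116794) (nat_lit 168) (nat_lit 5) (nat_lit 183) (nat_lit 5) (nat_lit 169) (nat_lit 5) (nat_lit 407) (nat_lit 390) (nat_lit 148))))) (XT.nd (nat_lit 282) (nat_lit 1260) (nat_lit 0) (XT.nd (nat_lit 94) (nat_lit 0) (nat_lit 0) (XT.lf (nat_lit 0) (nat_lit 1759314842) (nat_lit 1260) (nat_lit 29202994550) (nat_lit 1344) (nat_lit 19079799629) (nat_lit 153) (nat_lit 5) (nat_lit 168) (nat_lit 5) (nat_lit 169) (nat_lit 5) (nat_lit 408) (nat_lit 390) (nat_lit 147)) (XT.nd (nat_lit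 94) (nat_lit 0) (nat_lit 0) (XT.lf (nat_lit 0) (nat_lit 25165009814) (nat_lit 1260) (nat_lit 9703767699) (nat_lit 1344) (nat_lit 16019382400) (nat_lit 153) (nat_lit 5) (nat_lit 168) (nat_lit 5) (nat_lit 169) (nat_lit 5) (nat_lit 409) (nat_lit 390) (nat_lit 146)) (XT.lf (nat_lit 0) (nat_lit 38991205573) (nat_lit 1344) (nat_lit 2587418762) (nat_lit 84) (nat_lit 10178006816) (nat_lit 153) (nat_lit 5) (nat_lit 169) (nat_lit 5) (nat_lit 154) (nat_lit 5) (nat_lit 410) (nat_lit 390) (nat_lit 145)))) (XT.nd (nat_lit 188) (nat_lit 672) (nat_lit 0) (XT.nd (nat_lit 94) (nat_lit 0) (nat_lit 0) (XT.lf (nat_lit 0) (nat_lit 21566250636) (nat_lit 588) (nat_lit 21973453161) (nat_lit 672) (nat_lit 9102382554) (nat_lit 146) (nat_lit 5) (nat_lit 153) (nat_lit 5) (nat_lit 154) (nat_lit 5) (nat_lit 411) (nat_lit 390) (nat_lit 144)) (XT.lf (nat_lit 0) (nat_lit 46496686215) (nat_lit 588) (nat_lit 1753131304)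 (nat_lit 672) (nat_lit 5303534565) (nat_lit 146) (nat_lit 5) (nat_lit 153) (nat_lit 5) (nat_lit 154) (nat_lit 5) (nat_lit 412) (nat_lit 390) (nat_lit 143))) (XT.nd (nat_lit 94) (nat_lit 84) (nat_lit 0) (XT.lf (nat_lit 0) (nat_lit 17847102975) (nat_lit 588) (nat_lit 35608099634) (nat_lit 672) (nat_lit 1026135784) (nat_lit 139) (nat_lit 5) (nat_lit 146) (nat_lit 5) (nat_lit 147) (nat_lit 5) (nat_lit 413) (nat_lit 390) (nat_lit 142)) (XT.lf (nat_lit 0) (nat_lit 3402028694) (nat_lit 672) (nat_lit 11843836496) (nat_lit 84) (nat_lit 40187674305) (nat_lit 138) (nat_lit 5) (nat_lit 146) (nat_lit 5) (nat_lit 139) (nat_lit 5) (nat_lit 414) (nat_lit 390) (nat_lit 141)))))) (XT.nd (nat_lit 658) (nat_lit 1428) (nat_lit 0) (XT.nd (nat_lit 282) (nat_lit 1008) (nat_lit 0) (XT.nd (nat_lit 94) (nat_lit 588) (nat_lit 0) (XT.lf (nat_lit 0) (nat_lit 8132103350) (nat_lit 672) (nat_lit 42515004642) (nat_lit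 84) (nat_lit 5761204664) (nat_lit 131) (nat_lit 5) (nat_lit 139) (nat_lit 5) (nat_lit 132) (nat_lit 5) (nat_lit 415) (nat_lit 390) (nat_lit 140)) (XT.nd (nat_lit 94) (nat_lit 588) (nat_lit 0) (XT.lf (nat_lit 0) (nat_lit 13274928214) (nat_lit 672) (nat_lit 16916413554) (nat_lit 84) (nat_lit 27212863264) (nat_lit 131) (nat_lit 5) (nat_lit 139) (nat_lit 5) (nat_lit 132) (nat_lit 5) (nat_lit 416) (nat_lit 390) (nat_lit 139)) (XT.lf (nat_lit 0) (nat_lit 9637327132) (nat_lit 588) (nat_lit 9026491480) (nat_lit 672) (nat_lit 39763403563) (nat_lit 124) (nat_lit 5) (nat_lit 131) (nat_lit 5) (nat_lit 132) (nat_lit 5) (nat_lit 417) (nat_lit 390) (nat_lit 138)))) (XT.nd (nat_lit 188) (nat_lit 504) (nat_lit 0) (XT.nd (nat_lit 94) (nat_lit 504) (nat_lit 0) (XT.lf (nat_lit 0) (nat_lit 24508831973) (nat_lit 672) (nat_lit 22266716438) (nat_lit 84) (nat_lit 12696549109) (nat_lit 124) (nat_lit 5) (nat_lit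 132) (nat_lit 5) (nat_lit 125) (nat_lit 5) (nat_lit 418) (nat_lit 390) (nat_lit 137)) (XT.lf (nat_lit 0) (nat_lit 5060679089) (nat_lit 504) (nat_lit 25605716246) (nat_lit 588) (nat_lit 29877809141) (nat_lit 118) (nat_lit 5) (nat_lit 124) (nat_lit 5) (nat_lit 125) (nat_lit 5) (nat_lit 419) (nat_lit 390) (nat_lit 136))) (XT.nd (nat_lit 94) (nat_lit 504) (nat_lit 0) (XT.lf (nat_lit 0) (nat_lit 33663491456) (nat_lit 504) (nat_lit 3569242018) (nat_lit 588) (nat_lit 24409021030) (nat_lit 118) (nat_lit 5) (nat_lit 124) (nat_lit 5) (nat_lit 125) (nat_lit 5) (nat_lit 420) (nat_lit 390) (nat_lit 135)) (XT.lf (nat_lit 0) (nat_lit 170765970) (nat_lit 504) (nat_lit 44010031081) (nat_lit 588) (nat_lit 18585893180) (nat_lit 112) (nat_lit 5) (nat_lit 118) (nat_lit 5) (nat_lit 119) (nat_lit 5) (nat_lit 421) (nat_lit 390) (nat_lit 134))))) (XT.nd (nat_lit 282) (nat_lit 924) (nat_lit 0) (XT.nd (nat_lit 94)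 (nat_lit 504) (nat_lit 0) (XT.lf (nat_lit 0) (nat_lit 29700908536) (nat_lit 504) (nat_lit 21953147387) (nat_lit 588) (nat_lit 12261816730) (nat_lit 112) (nat_lit 5) (nat_lit 118) (nat_lit 5) (nat_lit 119) (nat_lit 5) (nat_lit 422) (nat_lit 390) (nat_lit 133)) (XT.nd (nat_lit 94) (nat_lit 504) (nat_lit 0) (XT.lf (nat_lit 0) (nat_lit 59358127241) (nat_lit 588) (nat_lit 4990773233) (nat_lit 84) (nat_lit 750432820) (nat_lit 112) (nat_lit 5) (nat_lit 119) (nat_lit 5) (nat_lit 113) (nat_lit 5) (nat_lit 423) (nat_lit 390) (nat_lit 132)) (XT.lf (nat_lit 0) (nat_lit 1421231980) (nat_lit 504) (nat_lit 40931043500) (nat_lit 84) (nat_lit 23951785161) (nat_lit 106) (nat_lit 5) (nat_lit 112) (nat_lit 5) (nat_lit 107) (nat_lit 5) (nat_lit 424) (nat_lit 390) (nat_lit 131)))) (XT.nd (nat_lit 188) (nat_lit 420) (nat_lit 0) (XT.nd (nat_lit 94) (nat_lit 504) (nat_lit 0) (XT.lf (nat_lit 0) (nat_lit 8733330168)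 (nat_lit 504) (nat_lit 10851556355) (nat_lit 84) (nat_lit 47956833677) (nat_lit 106) (nat_lit 5) (nat_lit 112) (nat_lit 5) (nat_lit 107) (nat_lit 5) (nat_lit 425) (nat_lit 390) (nat_lit 130)) (XT.lf (nat_lit 0) (nat_lit 16500554663) (nat_lit 588) (nat_lit 48319588571) (nat_lit 84) (nat_lit 3989294467) (nat_lit 100) (nat_lit 5) (nat_lit 107) (nat_lit 5) (nat_lit 101) (nat_lit 5) (nat_lit 426) (nat_lit 390) (nat_lit 129))) (XT.nd (nat_lit 94) (nat_lit 420) (nat_lit 0) (XT.lf (nat_lit 0) (nat_lit 24804686091) (nat_lit 588) (nat_lit 17313762712) (nat_lit 84) (nat_lit 27987622243) (nat_lit 100) (nat_lit 5) (nat_lit 107) (nat_lit 5) (nat_lit 101) (nat_lit 5) (nat_lit 427) (nat_lit 390) (nat_lit 128)) (XT.lf (nat_lit 0) (nat_lit 14912445383) (nat_lit 420) (nat_lit 18588179590) (nat_lit 504) (nat_lit 37936698905) (nat_lit 95) (nat_lit 5) (nat_lit 100) (nat_lit 5) (nat_lit 101) (nat_lit 5) (nat_lit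 428) (nat_lit 390) (nat_lit 127))))))))
noncomputable def xc223 : XT := (XT.nd (nat_lit 56118) (nat_lit 0) (nat_lit 5040) (XT.nd (nat_lit 1316) (nat_lit 1260) (nat_lit 0) (XT.nd (nat_lit 658) (nat_lit 1092) (nat_lit 0) (XT.nd (nat_lit 282) (nat_lit 840) (nat_lit 0) (XT.nd (nat_lit 94) (nat_lit 420) (nat_lit 0) (XT.lf (nat_lit 0) (nat_lit 42687646701) (nat_lit 504) (nat_lit 24399737047) (nat_lit 84) (nat_lit 5714225375) (nat_lit 95) (nat_lit 5) (nat_lit 101) (nat_lit 5) (nat_lit 96) (nat_lit 5) (nat_lit 429) (nat_lit 390) (nat_lit 126)) (XT.nd (nat_lit 94) (nat_lit 0) (nat_lit 0) (XT.lf (nat_lit 0) (nat_lit 8673593977) (nat_lit 420) (nat_lit 43743467981) (nat_lit 504) (nat_lit 21781758418) (nat_lit 90) (nat_lit 5) (nat_lit 95) (nat_lit 5) (nat_lit 96) (nat_lit 5) (nat_lit 430) (nat_lit 390) (nat_lit 125)) (XT.lf (nat_lit 0) (nat_lit 43238526887) (nat_lit 420) (nat_lit 19445598980) (nat_lit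 504) (nat_lit 12946450023) (nat_lit 90) (nat_lit 5) (nat_lit 95) (nat_lit 5) (nat_lit 96) (nat_lit 5) (nat_lit 431) (nat_lit 390) (nat_lit 124)))) (XT.nd (nat_lit 188) (nat_lit 420) (nat_lit 0) (XT.nd (nat_lit 94) (nat_lit 84) (nat_lit 0) (XT.lf (nat_lit 0) (nat_lit 1714159140) (nat_lit 336) (nat_lit 71614563559) (nat_lit 420) (nat_lit 3774476626) (nat_lit 86) (nat_lit 5) (nat_lit 90) (nat_lit 5) (nat_lit 91) (nat_lit 5) (nat_lit 432) (nat_lit 390) (nat_lit 123)) (XT.lf (nat_lit 0) (nat_lit 6084224601) (nat_lit 420) (nat_lit 41353697464) (nat_lit 84) (nat_lit 31164776481) (nat_lit 85) (nat_lit 5) (nat_lit 90) (nat_lit 5) (nat_lit 86) (nat_lit 5) (nat_lit 433) (nat_lit 390) (nat_lit 122))) (XT.nd (nat_lit 94) (nat_lit 420) (nat_lit 0) (XT.lf (nat_lit 0) (nat_lit 16162238323) (nat_lit 420) (nat_lit 6335412473) (nat_lit 84) (nat_lit 57648429186) (nat_lit 85) (nat_lit 5) (nat_lit 90) (nat_lit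 5) (nat_lit 86) (nat_lit 5) (nat_lit 434) (nat_lit 390) (nat_lit 121)) (XT.lf (nat_lit 0) (nat_lit 26867078018) (nat_lit 504) (nat_lit 51436157765) (nat_lit 84) (nat_lit 3422793295) (nat_lit 80) (nat_lit 5) (nat_lit 86) (nat_lit 5) (nat_lit 81) (nat_lit 5) (nat_lit 435) (nat_lit 390) (nat_lit 120))))) (XT.nd (nat_lit 282) (nat_lit 756) (nat_lit 0) (XT.nd (nat_lit 94) (nat_lit 336) (nat_lit 0) (XT.lf (nat_lit 0) (nat_lit 38179860445) (nat_lit 504) (nat_lit 15431790546) (nat_lit 84) (nat_lit 29733122492) (nat_lit 80) (nat_lit 5) (nat_lit 86) (nat_lit 5) (nat_lit 81) (nat_lit 5) (nat_lit 436) (nat_lit 390) (nat_lit 119)) (XT.nd (nat_lit 94) (nat_lit 0) (nat_lit 0) (XT.lf (nat_lit 0) (nat_lit 22082912147) (nat_lit 336) (nat_lit 27960844835) (nat_lit 420) (nat_lit 34961972059) (nat_lit 76) (nat_lit 5) (nat_lit 80) (nat_lit 5) (nat_lit 81) (nat_lit 5) (nat_lit 437) (nat_lit 390) (nat_lit 118))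 (XT.lf (nat_lit 0) (nat_lit 61038686789) (nat_lit 336) (nat_lit 1380179685) (nat_lit 420) (nat_lit 24292988629) (nat_lit 76) (nat_lit 5) (nat_lit 80) (nat_lit 5) (nat_lit 81) (nat_lit 5) (nat_lit 438) (nat_lit 390) (nat_lit 117)))) (XT.nd (nat_lit 188) (nat_lit 420) (nat_lit 0) (XT.nd (nat_lit 94) (nat_lit 0) (nat_lit 0) (XT.lf (nat_lit 0) (nat_lit 12691009423) (nat_lit 336) (nat_lit 62845600557) (nat_lit 420) (nat_lit 12921414241) (nat_lit 72) (nat_lit 5) (nat_lit 76) (nat_lit 5) (nat_lit 77) (nat_lit 5) (nat_lit 439) (nat_lit 390) (nat_lit 116)) (XT.lf (nat_lit 0) (nat_lit 52717757193) (nat_lit 336) (nat_lit 36602396153) (nat_lit 420) (nat_lit 928257719) (nat_lit 72) (nat_lit 5) (nat_lit 76) (nat_lit 5) (nat_lit 77) (nat_lit 5) (nat_lit 440) (nat_lit 390) (nat_lit 115))) (XT.nd (nat_lit 94) (nat_lit 0) (nat_lit 0) (XT.lf (nat_lit 0) (nat_lit 1776968354) (nat_lit 336) (nat_lit 9441366601)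 (nat_lit 420) (nat_lit 80870383212) (nat_lit 67) (nat_lit 5) (nat_lit 71) (nat_lit 5) (nat_lit 72) (nat_lit 5) (nat_lit 441) (nat_lit 390) (nat_lit 114)) (XT.lf (nat_lit 0) (nat_lit 24271075061) (nat_lit 420) (nat_lit 51131502395) (nat_lit 84) (nat_lit 18564569724) (nat_lit 67) (nat_lit 5) (nat_lit 72) (nat_lit 5) (nat_lit 68) (nat_lit 5) (nat_lit 442) (nat_lit 390) (nat_lit 113)))))) (XT.nd (nat_lit 658) (nat_lit 252) (nat_lit 0) (XT.nd (nat_lit 282) (nat_lit 672) (nat_lit 0) (XT.nd (nat_lit 94) (nat_lit 336) (nat_lit 0) (XT.lf (nat_lit 0) (nat_lit 37808394176) (nat_lit 420) (nat_lit 10869996772) (nat_lit 84) (nat_lit 47220748816) (nat_lit 67) (nat_lit 5) (nat_lit 72) (nat_lit 5) (nat_lit 68) (nat_lit 5) (nat_lit 443) (nat_lit 390) (nat_lit 112)) (XT.nd (nat_lit 94) (nat_lit 0) (nat_lit 0) (XT.lf (nat_lit 0) (nat_lit 31207677396) (nat_lit 336) (nat_lit 20843674722) (nat_lit 420) (nat_lit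 45828755011) (nat_lit 63) (nat_lit 5) (nat_lit 67) (nat_lit 5) (nat_lit 68) (nat_lit 5) (nat_lit 444) (nat_lit 390) (nat_lit 111)) (XT.lf (nat_lit 0) (nat_lit 66907217978) (nat_lit 420) (nat_lit 25223677419) (nat_lit 84) (nat_lit 7784040110) (nat_lit 63) (nat_lit 5) (nat_lit 68) (nat_lit 5) (nat_lit 64) (nat_lit 5) (nat_lit 445) (nat_lit 390) (nat_lit 110)))) (XT.nd (nat_lit 188) (nat_lit 420) (nat_lit 0) (XT.nd (nat_lit 94) (nat_lit 0) (nat_lit 0) (XT.lf (nat_lit 0) (nat_lit 17605064754) (nat_lit 252) (nat_lit 64978849834) (nat_lit 336) (nat_lit 19415640056) (nat_lit 60) (nat_lit 5) (nat_lit 63) (nat_lit 5) (nat_lit 64) (nat_lit 5) (nat_lit 446) (nat_lit 390) (nat_lit 109)) (XT.lf (nat_lit 0) (nat_lit 62235098191) (nat_lit 252) (nat_lit 36750081698) (nat_lit 336) (nat_lit 5153904968) (nat_lit 60) (nat_lit 5) (nat_lit 63) (nat_lit 5) (nat_lit 64) (nat_lit 5) (nat_lit 447) (nat_lit 390)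 (nat_lit 108))) (XT.nd (nat_lit 94) (nat_lit 0) (nat_lit 0) (XT.lf (nat_lit 0) (nat_lit 1804151945) (nat_lit 336) (nat_lit 7562363557) (nat_lit 420) (nat_lit 96973028829) (nat_lit 55) (nat_lit 5) (nat_lit 59) (nat_lit 5) (nat_lit 60) (nat_lit 5) (nat_lit 448) (nat_lit 390) (nat_lit 107)) (XT.lf (nat_lit 0) (nat_lit 24862162242) (nat_lit 420) (nat_lit 61182937158) (nat_lit 84) (nat_lit 22540091753) (nat_lit 55) (nat_lit 5) (nat_lit 60) (nat_lit 5) (nat_lit 56) (nat_lit 5) (nat_lit 449) (nat_lit 390) (nat_lit 106))))) (XT.nd (nat_lit 53768) (nat_lit 0) (nat_lit 9156) (XT.nd (nat_lit 94) (nat_lit 252) (nat_lit 0) (XT.lf (nat_lit 0) (nat_lit 40897136877) (nat_lit 420) (nat_lit 16605392656) (nat_lit 84) (nat_lit 53393444569) (nat_lit 55) (nat_lit 5) (nat_lit 60) (nat_lit 5) (nat_lit 56) (nat_lit 5) (nat_lit 450) (nat_lit 390) (nat_lit 105)) (XT.nd (nat_lit 94) (nat_lit 0) (nat_lit 0) (XT.lf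 (nat_lit 0) (nat_lit 29892190745) (nat_lit 252) (nat_lit 27807907763) (nat_lit 336) (nat_lit 55567374359) (nat_lit 52) (nat_lit 5) (nat_lit 55) (nat_lit 5) (nat_lit 56) (nat_lit 5) (nat_lit 451) (nat_lit 390) (nat_lit 104)) (XT.lf (nat_lit 0) (nat_lit 75202790716) (nat_lit 336) (nat_lit 37608946501) (nat_lit 84) (nat_lit 2892510573) (nat_lit 52) (nat_lit 5) (nat_lit 56) (nat_lit 5) (nat_lit 53) (nat_lit 5) (nat_lit 452) (nat_lit 390) (nat_lit 103)))) (XT.nd (nat_lit 188) (nat_lit 0) (nat_lit 0) (XT.nd (nat_lit 94) (nat_lit 0) (nat_lit 0) (XT.lf (nat_lit 0) (nat_lit 230368452) (nat_lit 0) (nat_lit 230368452) (nat_lit 1260) (nat_lit 18952858438) (nat_lit 161) (nat_lit 5) (nat_lit 161) (nat_lit 3) (nat_lit 176) (nat_lit 3) (nat_lit 391) (nat_lit 391) (nat_lit 163)) (XT.lf (nat_lit 0) (nat_lit 1137171091) (nat_lit 1260) (nat_lit 21825230044) (nat_lit 1344) (nat_lit 16441067281) (nat_lit 161)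 (nat_lit 5) (nat_lit 176) (nat_lit 3) (nat_lit 177) (nat_lit 5) (nat_lit 392) (nat_lit 391) (nat_lit 162))) (XT.nd (nat_lit 94) (nat_lit 0) (nat_lit 84) (XT.lf (nat_lit 0) (nat_lit 1362320728) (nat_lit 1260) (nat_lit 4793183474) (nat_lit 1344) (nat_lit 33841443717) (nat_lit 161) (nat_lit 5) (nat_lit 176) (nat_lit 3) (nat_lit 177) (nat_lit 5) (nat_lit 393) (nat_lit 391) (nat_lit 161)) (XT.lf (nat_lit 0) (nat_lit 1826159506) (nat_lit 1260) (nat_lit 27710282476) (nat_lit 1344) (nat_lit 11064834585) (nat_lit 162) (nat_lit 5) (nat_lit 177) (nat_lit 5) (nat_lit 178) (nat_lit 5) (nat_lit 394) (nat_lit 391) (nat_lit 160))))))) (XT.nd (nat_lit 1316) (nat_lit 4200) (nat_lit 0) (XT.nd (nat_lit 658) (nat_lit 0) (nat_lit 252) (XT.nd (nat_lit 282) (nat_lit 0) (nat_lit 84) (XT.nd (nat_lit 94) (nat_lit 0) (nat_lit 84) (XT.lf (nat_lit 0) (nat_lit 2412249058) (nat_lit 1260) (nat_lit 10080628647) (nat_lit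 1344) (nat_lit 28727610019) (nat_lit 162) (nat_lit 5) (nat_lit 177) (nat_lit 5) (nat_lit 178) (nat_lit 5) (nat_lit 395) (nat_lit 391) (nat_lit 159)) (XT.nd (nat_lit 94) (nat_lit 0) (nat_lit 0) (XT.lf (nat_lit 0) (nat_lit 3143109470) (nat_lit 1260) (nat_lit 33667578101) (nat_lit 1344) (nat_lit 5043774638) (nat_lit 163) (nat_lit 5) (nat_lit 178) (nat_lit 5) (nat_lit 179) (nat_lit 5) (nat_lit 396) (nat_lit 391) (nat_lit 158)) (XT.lf (nat_lit 0) (nat_lit 4120982082) (nat_lit 1260) (nat_lit 15420926654) (nat_lit 1344) (nat_lit 22958797162) (nat_lit 163) (nat_lit 5) (nat_lit 178) (nat_lit 5) (nat_lit 179) (nat_lit 5) (nat_lit 397) (nat_lit 391) (nat_lit 157)))) (XT.nd (nat_lit 188) (nat_lit 0) (nat_lit 84) (XT.nd (nat_lit 94) (nat_lit 0) (nat_lit 84) (XT.lf (nat_lit 84) (nat_lit 3439374759) (nat_lit 0) (nat_lit 1720510571) (nat_lit 1344) (nat_lit 38005503221) (nat_lit 164) (nat_lit 5) (nat_lit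 163) (nat_lit 5) (nat_lit 179) (nat_lit 5) (nat_lit 398) (nat_lit 391) (nat_lit 156)) (XT.lf (nat_lit 0) (nat_lit 6545798763) (nat_lit 1260) (nat_lit 20826096414) (nat_lit 1344) (nat_lit 16468643629) (nat_lit 164) (nat_lit 5) (nat_lit 179) (nat_lit 5) (nat_lit 180) (nat_lit 5) (nat_lit 399) (nat_lit 391) (nat_lit 155))) (XT.nd (nat_lit 94) (nat_lit 0) (nat_lit 84) (XT.lf (nat_lit 0) (nat_lit 7989032399) (nat_lit 1260) (nat_lit 1377092755) (nat_lit 1344) (nat_lit 35169348475) (nat_lit 164) (nat_lit 5) (nat_lit 179) (nat_lit 5) (nat_lit 180) (nat_lit 5) (nat_lit 400) (nat_lit 391) (nat_lit 154)) (XT.lf (nat_lit 0) (nat_lit 9747252937) (nat_lit 1260) (nat_lit 26310074663) (nat_lit 1344) (nat_lit 9185780476) (nat_lit 165) (nat_lit 5) (nat_lit 180) (nat_lit 5) (nat_lit 181) (nat_lit 5) (nat_lit 401) (nat_lit 391) (nat_lit 153))))) (XT.nd (nat_lit 282) (nat_lit 0) (nat_lit 84) (XT.nd (nat_lit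 94) (nat_lit 0) (nat_lit 84) (XT.lf (nat_lit 0) (nat_lit 11663775413) (nat_lit 1260) (nat_lit 6184618837) (nat_lit 1344) (nat_lit 28120412856) (nat_lit 165) (nat_lit 5) (nat_lit 180) (nat_lit 5) (nat_lit 181) (nat_lit 5) (nat_lit 402) (nat_lit 391) (nat_lit 152)) (XT.nd (nat_lit 94) (nat_lit 0) (nat_lit 0) (XT.lf (nat_lit 0) (nat_lit 13789324318) (nat_lit 1260) (nat_lit 31888978816) (nat_lit 1344) (nat_lit 1033430195) (nat_lit 166) (nat_lit 5) (nat_lit 181) (nat_lit 5) (nat_lit 182) (nat_lit 5) (nat_lit 403) (nat_lit 391) (nat_lit 151)) (XT.lf (nat_lit 0) (nat_lit 16217270072) (nat_lit 1260) (nat_lit 11066172125) (nat_lit 1344) (nat_lit 20186348314) (nat_lit 166) (nat_lit 5) (nat_lit 181) (nat_lit 5) (nat_lit 182) (nat_lit 5) (nat_lit 404) (nat_lit 391) (nat_lit 150)))) (XT.nd (nat_lit 188) (nat_lit 0) (nat_lit 84) (XT.nd (nat_lit 94) (nat_lit 0) (nat_lit 84) (XT.lf (nat_lit 84) (nat_lit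 10587045168) (nat_lit 0) (nat_lit 8231654633) (nat_lit 1344) (nat_lit 29428872261) (nat_lit 167) (nat_lit 5) (nat_lit 166) (nat_lit 5) (nat_lit 182) (nat_lit 5) (nat_lit 405) (nat_lit 391) (nat_lit 149)) (XT.lf (nat_lit 0) (nat_lit 21719432595) (nat_lit 1260) (nat_lit 16040134033) (nat_lit 1344) (nat_lit 11282484589) (nat_lit 167) (nat_lit 5) (nat_lit 182) (nat_lit 5) (nat_lit 183) (nat_lit 5) (nat_lit 406) (nat_lit 391) (nat_lit 148))) (XT.nd (nat_lit 94) (nat_lit 0) (nat_lit 84) (XT.lf (nat_lit 84) (nat_lit 6268828774) (nat_lit 0) (nat_lit 18579055161) (nat_lit 1344) (nat_lit 25008261821) (nat_lit 168) (nat_lit 5) (nat_lit 167) (nat_lit 5) (nat_lit 183) (nat_lit 5) (nat_lit 407) (nat_lit 391) (nat_lit 147)) (XT.lf (nat_lit 0) (nat_lit 28244038957) (nat_lit 1260) (nat_lit 21127747038) (nat_lit 84) (nat_lit 1317663483) (nat_lit 168) (nat_lit 5) (nat_lit 183) (nat_lit 5) (nat_lit 169) (nat_lit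 5) (nat_lit 408) (nat_lit 391) (nat_lit 146)))))) (XT.nd (nat_lit 658) (nat_lit 2184) (nat_lit 0) (XT.nd (nat_lit 282) (nat_lit 1260) (nat_lit 0) (XT.nd (nat_lit 94) (nat_lit 0) (nat_lit 0) (XT.lf (nat_lit 0) (nat_lit 1857028215) (nat_lit 1260) (nat_lit 30085842370) (nat_lit 1344) (nat_lit 19598859764) (nat_lit 153) (nat_lit 5) (nat_lit 168) (nat_lit 5) (nat_lit 169) (nat_lit 5) (nat_lit 409) (nat_lit 391) (nat_lit 145)) (XT.nd (nat_lit 94) (nat_lit 0) (nat_lit 0) (XT.lf (nat_lit 0) (nat_lit 25963585280) (nat_lit 1260) (nat_lit 10001441880) (nat_lit 1344) (nat_lit 16448183431) (nat_lit 153) (nat_lit 5) (nat_lit 168) (nat_lit 5) (nat_lit 169) (nat_lit 5) (nat_lit 410) (nat_lit 391) (nat_lit 144)) (XT.lf (nat_lit 0) (nat_lit 40209605091) (nat_lit 1344) (nat_lit 2621077868) (nat_lit 84) (nat_lit 10477101275) (nat_lit 153) (nat_lit 5) (nat_lit 169) (nat_lit 5) (nat_lit 154) (nat_lit 5) (nat_lit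 411) (nat_lit 391) (nat_lit 143)))) (XT.nd (nat_lit 188) (nat_lit 672) (nat_lit 0) (XT.nd (nat_lit 94) (nat_lit 0) (nat_lit 0) (XT.lf (nat_lit 0) (nat_lit 22256770599) (nat_lit 588) (nat_lit 22636788745) (nat_lit 672) (nat_lit 9326276217) (nat_lit 146) (nat_lit 5) (nat_lit 153) (nat_lit 5) (nat_lit 154) (nat_lit 5) (nat_lit 412) (nat_lit 391) (nat_lit 142)) (XT.lf (nat_lit 0) (nat_lit 47933851309) (nat_lit 588) (nat_lit 1809736883) (nat_lit 672) (nat_lit 5414895152) (nat_lit 146) (nat_lit 5) (nat_lit 153) (nat_lit 5) (nat_lit 154) (nat_lit 5) (nat_lit 413) (nat_lit 391) (nat_lit 141))) (XT.nd (nat_lit 94) (nat_lit 84) (nat_lit 0) (XT.lf (nat_lit 0) (nat_lit 18425859296) (nat_lit 588) (nat_lit 36678306893) (nat_lit 672) (nat_lit 1010174474) (nat_lit 139) (nat_lit 5) (nat_lit 146) (nat_lit 5) (nat_lit 147) (nat_lit 5) (nat_lit 414) (nat_lit 391) (nat_lit 140)) (XT.lf (nat_lit 0) (nat_lit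 3548587821) (nat_lit 672) (nat_lit 12156111039) (nat_lit 84) (nat_lit 41390437730) (nat_lit 138) (nat_lit 5) (nat_lit 146) (nat_lit 5) (nat_lit 139) (nat_lit 5) (nat_lit 415) (nat_lit 391) (nat_lit 139))))) (XT.nd (nat_lit 282) (nat_lit 1008) (nat_lit 0) (XT.nd (nat_lit 94) (nat_lit 588) (nat_lit 0) (XT.lf (nat_lit 0) (nat_lit 8419668777) (nat_lit 672) (nat_lit 43746446308) (nat_lit 84) (nat_lit 5933066897) (nat_lit 131) (nat_lit 5) (nat_lit 139) (nat_lit 5) (nat_lit 132) (nat_lit 5) (nat_lit 416) (nat_lit 391) (nat_lit 138)) (XT.nd (nat_lit 94) (nat_lit 588) (nat_lit 0) (XT.lf (nat_lit 0) (nat_lit 13715508417) (nat_lit 672) (nat_lit 17381179287) (nat_lit 84) (nat_lit 28028303622) (nat_lit 131) (nat_lit 5) (nat_lit 139) (nat_lit 5) (nat_lit 132) (nat_lit 5) (nat_lit 417) (nat_lit 391) (nat_lit 137)) (XT.lf (nat_lit 0) (nat_lit 9968754730) (nat_lit 588) (nat_lit 9296484504) (nat_lit 672)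 (nat_lit 40913486574) (nat_lit 124) (nat_lit 5) (nat_lit 131) (nat_lit 5) (nat_lit 132) (nat_lit 5) (nat_lit 418) (nat_lit 391) (nat_lit 136)))) (XT.nd (nat_lit 188) (nat_lit 504) (nat_lit 0) (XT.nd (nat_lit 94) (nat_lit 504) (nat_lit 0) (XT.lf (nat_lit 0) (nat_lit 25284401564) (nat_lit 672) (nat_lit 22892375106) (nat_lit 84) (nat_lit 13078208763) (nat_lit 124) (nat_lit 5) (nat_lit 132) (nat_lit 5) (nat_lit 125) (nat_lit 5) (nat_lit 419) (nat_lit 391) (nat_lit 135)) (XT.lf (nat_lit 0) (nat_lit 5254427161) (nat_lit 504) (nat_lit 26371493779) (nat_lit 588) (nat_lit 30733359703) (nat_lit 118) (nat_lit 5) (nat_lit 124) (nat_lit 5) (nat_lit 125) (nat_lit 5) (nat_lit 420) (nat_lit 391) (nat_lit 134))) (XT.nd (nat_lit 94) (nat_lit 504) (nat_lit 0) (XT.lf (nat_lit 0) (nat_lit 34714102704) (nat_lit 504) (nat_lit 3673995050) (nat_lit 588) (nat_lit 25101695823) (nat_lit 118) (nat_lit 5) (nat_lit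 124) (nat_lit 5) (nat_lit 125) (nat_lit 5) (nat_lit 421) (nat_lit 391) (nat_lit 133)) (XT.lf (nat_lit 0) (nat_lit 217375911) (nat_lit 504) (nat_lit 45326529886) (nat_lit 588) (nat_lit 19104594311) (nat_lit 112) (nat_lit 5) (nat_lit 118) (nat_lit 5) (nat_lit 119) (nat_lit 5) (nat_lit 422) (nat_lit 391) (nat_lit 132))))))))
noncomputable def xc224 : XT := (XT.nd (nat_lit 2538) (nat_lit 252) (nat_lit 0) (XT.nd (nat_lit 1222) (nat_lit 2520) (nat_lit 0) (XT.nd (nat_lit 564) (nat_lit 1260) (nat_lit 0) (XT.nd (nat_lit 282) (nat_lit 504) (nat_lit 0) (XT.nd (nat_lit 94) (nat_lit 504) (nat_lit 0) (XT.lf (nat_lit 0) (nat_lit 30632214396) (nat_lit 504) (nat_lit 22608050423) (nat_lit 588) (nat_lit 12591927868) (nat_lit 112) (nat_lit 5) (nat_lit 118) (nat_lit 5) (nat_lit 119) (nat_lit 5) (nat_lit 423) (nat_lit 391) (nat_lit 131)) (XT.nd (nat_lit 94) (nat_lit 504) (nat_lit 0) (XT.lf (nat_lit 0) (nat_lit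 61174427080) (nat_lit 588) (nat_lit 5100302969) (nat_lit 84) (nat_lit 776459739) (nat_lit 112) (nat_lit 5) (nat_lit 119) (nat_lit 5) (nat_lit 113) (nat_lit 5) (nat_lit 424) (nat_lit 391) (nat_lit 130)) (XT.lf (nat_lit 0) (nat_lit 1499171592) (nat_lit 504) (nat_lit 42118419243) (nat_lit 84) (nat_lit 24674478984) (nat_lit 106) (nat_lit 5) (nat_lit 112) (nat_lit 5) (nat_lit 107) (nat_lit 5) (nat_lit 425) (nat_lit 391) (nat_lit 129)))) (XT.nd (nat_lit 94) (nat_lit 504) (nat_lit 0) (XT.lf (nat_lit 0) (nat_lit 9029604493) (nat_lit 504) (nat_lit 11137728714) (nat_lit 84) (nat_lit 49399558366) (nat_lit 106) (nat_lit 5) (nat_lit 112) (nat_lit 5) (nat_lit 107) (nat_lit 5) (nat_lit 426) (nat_lit 391) (nat_lit 128)) (XT.nd (nat_lit 94) (nat_lit 0) (nat_lit 0) (XT.lf (nat_lit 0) (nat_lit 17029273524) (nat_lit 588) (nat_lit 49729179211) (nat_lit 84) (nat_lit 4114206543) (nat_lit 100) (nat_lit 5) (nat_lit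 107) (nat_lit 5) (nat_lit 101) (nat_lit 5) (nat_lit 427) (nat_lit 391) (nat_lit 127)) (XT.lf (nat_lit 0) (nat_lit 25581547277) (nat_lit 588) (nat_lit 17794343537) (nat_lit 84) (nat_lit 28832331728) (nat_lit 100) (nat_lit 5) (nat_lit 107) (nat_lit 5) (nat_lit 101) (nat_lit 5) (nat_lit 428) (nat_lit 391) (nat_lit 126))))) (XT.nd (nat_lit 282) (nat_lit 420) (nat_lit 0) (XT.nd (nat_lit 94) (nat_lit 420) (nat_lit 0) (XT.lf (nat_lit 0) (nat_lit 15398270095) (nat_lit 420) (nat_lit 19139510822) (nat_lit 504) (nat_lit 39041650974) (nat_lit 95) (nat_lit 5) (nat_lit 100) (nat_lit 5) (nat_lit 101) (nat_lit 5) (nat_lit 429) (nat_lit 391) (nat_lit 125)) (XT.nd (nat_lit 94) (nat_lit 420) (nat_lit 0) (XT.lf (nat_lit 0) (nat_lit 43999536189) (nat_lit 504) (nat_lit 25093474441) (nat_lit 84) (nat_lit 5891662761) (nat_lit 95) (nat_lit 5) (nat_lit 101) (nat_lit 5) (nat_lit 96) (nat_lit 5) (nat_lit 430) (nat_lit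 391) (nat_lit 124)) (XT.lf (nat_lit 0) (nat_lit 8971681468) (nat_lit 420) (nat_lit 45048606071) (nat_lit 504) (nat_lit 22403531180) (nat_lit 90) (nat_lit 5) (nat_lit 95) (nat_lit 5) (nat_lit 96) (nat_lit 5) (nat_lit 431) (nat_lit 391) (nat_lit 123)))) (XT.nd (nat_lit 188) (nat_lit 84) (nat_lit 0) (XT.nd (nat_lit 94) (nat_lit 336) (nat_lit 0) (XT.lf (nat_lit 0) (nat_lit 44572459074) (nat_lit 420) (nat_lit 20022009717) (nat_lit 504) (nat_lit 13304086252) (nat_lit 90) (nat_lit 5) (nat_lit 95) (nat_lit 5) (nat_lit 96) (nat_lit 5) (nat_lit 432) (nat_lit 391) (nat_lit 122)) (XT.lf (nat_lit 0) (nat_lit 1802862448) (nat_lit 336) (nat_lit 73755095834) (nat_lit 420) (nat_lit 3857413524) (nat_lit 86) (nat_lit 5) (nat_lit 90) (nat_lit 5) (nat_lit 91) (nat_lit 5) (nat_lit 433) (nat_lit 391) (nat_lit 121))) (XT.nd (nat_lit 94) (nat_lit 0) (nat_lit 0) (XT.lf (nat_lit 0) (nat_lit 6295592300) (nat_lit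 420) (nat_lit 42557501790) (nat_lit 84) (nat_lit 32106780329) (nat_lit 85) (nat_lit 5) (nat_lit 90) (nat_lit 5) (nat_lit 86) (nat_lit 5) (nat_lit 434) (nat_lit 391) (nat_lit 120)) (XT.lf (nat_lit 0) (nat_lit 16675106405) (nat_lit 420) (nat_lit 6489740286) (nat_lit 84) (nat_lit 59384736967) (nat_lit 85) (nat_lit 5) (nat_lit 90) (nat_lit 5) (nat_lit 86) (nat_lit 5) (nat_lit 435) (nat_lit 391) (nat_lit 119)))))) (XT.nd (nat_lit 658) (nat_lit 1008) (nat_lit 0) (XT.nd (nat_lit 282) (nat_lit 756) (nat_lit 0) (XT.nd (nat_lit 94) (nat_lit 336) (nat_lit 0) (XT.lf (nat_lit 0) (nat_lit 27700691407) (nat_lit 504) (nat_lit 52943070486) (nat_lit 84) (nat_lit 3533182457) (nat_lit 80) (nat_lit 5) (nat_lit 86) (nat_lit 5) (nat_lit 81) (nat_lit 5) (nat_lit 436) (nat_lit 391) (nat_lit 118)) (XT.nd (nat_lit 94) (nat_lit 336) (nat_lit 0) (XT.lf (nat_lit 0) (nat_lit 39352053393) (nat_lit 504) (nat_lit 15859625804)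 (nat_lit 84) (nat_lit 30632597102) (nat_lit 80) (nat_lit 5) (nat_lit 86) (nat_lit 5) (nat_lit 81) (nat_lit 5) (nat_lit 437) (nat_lit 391) (nat_lit 117)) (XT.lf (nat_lit 0) (nat_lit 22780173671) (nat_lit 336) (nat_lit 28791246926) (nat_lit 420) (nat_lit 35983654376) (nat_lit 76) (nat_lit 5) (nat_lit 80) (nat_lit 5) (nat_lit 81) (nat_lit 5) (nat_lit 438) (nat_lit 391) (nat_lit 116)))) (XT.nd (nat_lit 188) (nat_lit 420) (nat_lit 0) (XT.nd (nat_lit 94) (nat_lit 336) (nat_lit 0) (XT.lf (nat_lit 0) (nat_lit 62903608713) (nat_lit 336) (nat_lit 1413407159) (nat_lit 420) (nat_lit 24995393002) (nat_lit 76) (nat_lit 5) (nat_lit 80) (nat_lit 5) (nat_lit 81) (nat_lit 5) (nat_lit 439) (nat_lit 391) (nat_lit 115)) (XT.lf (nat_lit 0) (nat_lit 13105886212) (nat_lit 336) (nat_lit 64722064883) (nat_lit 420) (nat_lit 13283023191) (nat_lit 72) (nat_lit 5) (nat_lit 76) (nat_lit 5) (nat_lit 77) (nat_lit 5) (nat_lit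 440) (nat_lit 391) (nat_lit 114))) (XT.nd (nat_lit 94) (nat_lit 420) (nat_lit 0) (XT.lf (nat_lit 0) (nat_lit 54332441857) (nat_lit 336) (nat_lit 37691823677) (nat_lit 420) (nat_lit 930830230) (nat_lit 72) (nat_lit 5) (nat_lit 76) (nat_lit 5) (nat_lit 77) (nat_lit 5) (nat_lit 441) (nat_lit 391) (nat_lit 113)) (XT.lf (nat_lit 0) (nat_lit 1863623862) (nat_lit 336) (nat_lit 9715641893) (nat_lit 420) (nat_lit 83271351989) (nat_lit 67) (nat_lit 5) (nat_lit 71) (nat_lit 5) (nat_lit 72) (nat_lit 5) (nat_lit 442) (nat_lit 391) (nat_lit 112))))) (XT.nd (nat_lit 282) (nat_lit 672) (nat_lit 0) (XT.nd (nat_lit 94) (nat_lit 336) (nat_lit 0) (XT.lf (nat_lit 0) (nat_lit 25022961619) (nat_lit 420) (nat_lit 52632416164) (nat_lit 84) (nat_lit 19130041528) (nat_lit 67) (nat_lit 5) (nat_lit 72) (nat_lit 5) (nat_lit 68) (nat_lit 5) (nat_lit 443) (nat_lit 391) (nat_lit 111)) (XT.nd (nat_lit 94) (nat_lit 336)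 (nat_lit 0) (XT.lf (nat_lit 0) (nat_lit 38965708434) (nat_lit 420) (nat_lit 11164027449) (nat_lit 84) (nat_lit 48645657408) (nat_lit 67) (nat_lit 5) (nat_lit 72) (nat_lit 5) (nat_lit 68) (nat_lit 5) (nat_lit 444) (nat_lit 391) (nat_lit 110)) (XT.lf (nat_lit 0) (nat_lit 32175662539) (nat_lit 336) (nat_lit 21459926100) (nat_lit 420) (nat_lit 47180212870) (nat_lit 63) (nat_lit 5) (nat_lit 67) (nat_lit 5) (nat_lit 68) (nat_lit 5) (nat_lit 445) (nat_lit 391) (nat_lit 109)))) (XT.nd (nat_lit 188) (nat_lit 420) (nat_lit 0) (XT.nd (nat_lit 94) (nat_lit 252) (nat_lit 0) (XT.lf (nat_lit 0) (nat_lit 68936553971) (nat_lit 420) (nat_lit 25948954174) (nat_lit 84) (nat_lit 8026184704) (nat_lit 63) (nat_lit 5) (nat_lit 68) (nat_lit 5) (nat_lit 64) (nat_lit 5) (nat_lit 446) (nat_lit 391) (nat_lit 108)) (XT.lf (nat_lit 0) (nat_lit 18164342093) (nat_lit 252) (nat_lit 66918864327) (nat_lit 336) (nat_lit 19975655283)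 (nat_lit 60) (nat_lit 5) (nat_lit 63) (nat_lit 5) (nat_lit 64) (nat_lit 5) (nat_lit 447) (nat_lit 391) (nat_lit 107))) (XT.nd (nat_lit 94) (nat_lit 420) (nat_lit 0) (XT.lf (nat_lit 0) (nat_lit 64132369968) (nat_lit 252) (nat_lit 37843505507) (nat_lit 336) (nat_lit 5286722141) (nat_lit 60) (nat_lit 5) (nat_lit 63) (nat_lit 5) (nat_lit 64) (nat_lit 5) (nat_lit 448) (nat_lit 391) (nat_lit 106)) (XT.lf (nat_lit 0) (nat_lit 1888644889) (nat_lit 336) (nat_lit 7779910016) (nat_lit 420) (nat_lit 99860520324) (nat_lit 55) (nat_lit 5) (nat_lit 59) (nat_lit 5) (nat_lit 60) (nat_lit 5) (nat_lit 449) (nat_lit 391) (nat_lit 105))))))) (XT.nd (nat_lit 54896) (nat_lit 0) (nat_lit 7224) (XT.nd (nat_lit 54238) (nat_lit 0) (nat_lit 9240) (XT.nd (nat_lit 53862) (nat_lit 0) (nat_lit 9156) (XT.nd (nat_lit 94) (nat_lit 252) (nat_lit 0) (XT.lf (nat_lit 0) (nat_lit 25628545140) (nat_lit 420) (nat_lit 62988392084)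 (nat_lit 84) (nat_lit 23225170713) (nat_lit 55) (nat_lit 5) (nat_lit 60) (nat_lit 5) (nat_lit 56) (nat_lit 5) (nat_lit 450) (nat_lit 391) (nat_lit 104)) (XT.nd (nat_lit 94) (nat_lit 252) (nat_lit 0) (XT.lf (nat_lit 0) (nat_lit 42143971401) (nat_lit 420) (nat_lit 17074396000) (nat_lit 84) (nat_lit 55003865583) (nat_lit 55) (nat_lit 5) (nat_lit 60) (nat_lit 5) (nat_lit 56) (nat_lit 5) (nat_lit 451) (nat_lit 391) (nat_lit 103)) (XT.lf (nat_lit 0) (nat_lit 30817829036) (nat_lit 252) (nat_lit 28632890178) (nat_lit 336) (nat_lit 57214167239) (nat_lit 52) (nat_lit 5) (nat_lit 55) (nat_lit 5) (nat_lit 56) (nat_lit 5) (nat_lit 452) (nat_lit 391) (nat_lit 102)))) (XT.nd (nat_lit 188) (nat_lit 0) (nat_lit 0) (XT.nd (nat_lit 94) (nat_lit 0) (nat_lit 0) (XT.lf (nat_lit 0) (nat_lit 257428066) (nat_lit 0) (nat_lit 257428066) (nat_lit 1260) (nat_lit 19479864993) (nat_lit 161) (nat_lit 5) (nat_lit 161)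 (nat_lit 3) (nat_lit 176) (nat_lit 3) (nat_lit 392) (nat_lit 392) (nat_lit 161)) (XT.lf (nat_lit 0) (nat_lit 1249156984) (nat_lit 1260) (nat_lit 22437997978) (nat_lit 1344) (nat_lit 16895939319) (nat_lit 161) (nat_lit 5) (nat_lit 176) (nat_lit 3) (nat_lit 177) (nat_lit 5) (nat_lit 393) (nat_lit 392) (nat_lit 160))) (XT.nd (nat_lit 94) (nat_lit 0) (nat_lit 84) (XT.lf (nat_lit 0) (nat_lit 1478793029) (nat_lit 1260) (nat_lit 4896212991) (nat_lit 1344) (nat_lit 34819444329) (nat_lit 161) (nat_lit 5) (nat_lit 176) (nat_lit 3) (nat_lit 177) (nat_lit 5) (nat_lit 394) (nat_lit 392) (nat_lit 159)) (XT.lf (nat_lit 0) (nat_lit 1954411700) (nat_lit 1260) (nat_lit 28498555784) (nat_lit 1344) (nat_lit 11364009449) (nat_lit 162) (nat_lit 5) (nat_lit 177) (nat_lit 5) (nat_lit 178) (nat_lit 5) (nat_lit 395) (nat_lit 392) (nat_lit 158))))) (XT.nd (nat_lit 282) (nat_lit 0) (nat_lit 84) (XT.nd (nat_lit 94)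 (nat_lit 0) (nat_lit 84) (XT.lf (nat_lit 0) (nat_lit 2555944112) (nat_lit 1260) (nat_lit 10341265791) (nat_lit 1344) (nat_lit 29557622617) (nat_lit 162) (nat_lit 5) (nat_lit 177) (nat_lit 5) (nat_lit 178) (nat_lit 5) (nat_lit 396) (nat_lit 392) (nat_lit 157)) (XT.nd (nat_lit 94) (nat_lit 0) (nat_lit 0) (XT.lf (nat_lit 0) (nat_lit 3306778724) (nat_lit 1260) (nat_lit 34633745894) (nat_lit 1344) (nat_lit 5167363955) (nat_lit 163) (nat_lit 5) (nat_lit 178) (nat_lit 5) (nat_lit 179) (nat_lit 5) (nat_lit 397) (nat_lit 392) (nat_lit 156)) (XT.lf (nat_lit 0) (nat_lit 4311966855) (nat_lit 1260) (nat_lit 15840972367) (nat_lit 1344) (nat_lit 23620644648) (nat_lit 163) (nat_lit 5) (nat_lit 178) (nat_lit 5) (nat_lit 179) (nat_lit 5) (nat_lit 398) (nat_lit 392) (nat_lit 155)))) (XT.nd (nat_lit 188) (nat_lit 0) (nat_lit 84) (XT.nd (nat_lit 94) (nat_lit 0) (nat_lit 84) (XT.lf (nat_lit 84) (nat_lit 3584720618)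 (nat_lit 0) (nat_lit 1795760090) (nat_lit 1344) (nat_lit 39077776559) (nat_lit 164) (nat_lit 5) (nat_lit 163) (nat_lit 5) (nat_lit 179) (nat_lit 5) (nat_lit 399) (nat_lit 392) (nat_lit 154)) (XT.lf (nat_lit 0) (nat_lit 6805834504) (nat_lit 1260) (nat_lit 21407690235) (nat_lit 1344) (nat_lit 16940204867) (nat_lit 164) (nat_lit 5) (nat_lit 179) (nat_lit 5) (nat_lit 180) (nat_lit 5) (nat_lit 400) (nat_lit 392) (nat_lit 153))) (XT.nd (nat_lit 94) (nat_lit 0) (nat_lit 84) (XT.lf (nat_lit 0) (nat_lit 8290510922) (nat_lit 1260) (nat_lit 1376474401) (nat_lit 1344) (nat_lit 36202586142) (nat_lit 164) (nat_lit 5) (nat_lit 179) (nat_lit 5) (nat_lit 180) (nat_lit 5) (nat_lit 401) (nat_lit 392) (nat_lit 152)) (XT.lf (nat_lit 0) (nat_lit 10099895424) (nat_lit 1260) (nat_lit 27055754234) (nat_lit 1344) (nat_lit 9442836032) (nat_lit 165) (nat_lit 5) (nat_lit 180) (nat_lit 5) (nat_lit 181) (nat_lit 5)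 (nat_lit 402) (nat_lit 392) (nat_lit 151)))))) (XT.nd (nat_lit 658) (nat_lit 2268) (nat_lit 0) (XT.nd (nat_lit 282) (nat_lit 0) (nat_lit 84) (XT.nd (nat_lit 94) (nat_lit 0) (nat_lit 84) (XT.lf (nat_lit 0) (nat_lit 12072159451) (nat_lit 1260) (nat_lit 6327805296) (nat_lit 1344) (nat_lit 28946046738) (nat_lit 165) (nat_lit 5) (nat_lit 180) (nat_lit 5) (nat_lit 181) (nat_lit 5) (nat_lit 403) (nat_lit 392) (nat_lit 150)) (XT.nd (nat_lit 94) (nat_lit 0) (nat_lit 0) (XT.lf (nat_lit 0) (nat_lit 14260028476) (nat_lit 1260) (nat_lit 32801747097) (nat_lit 1344) (nat_lit 1049496393) (nat_lit 166) (nat_lit 5) (nat_lit 181) (nat_lit 5) (nat_lit 182) (nat_lit 5) (nat_lit 404) (nat_lit 392) (nat_lit 149)) (XT.lf (nat_lit 0) (nat_lit 16759151697) (nat_lit 1260) (nat_lit 11355534877) (nat_lit 1344) (nat_lit 20777437105) (nat_lit 166) (nat_lit 5) (nat_lit 181) (nat_lit 5) (nat_lit 182) (nat_lit 5) (nat_lit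 405) (nat_lit 392) (nat_lit 148)))) (XT.nd (nat_lit 188) (nat_lit 0) (nat_lit 84) (XT.nd (nat_lit 94) (nat_lit 0) (nat_lit 84) (XT.lf (nat_lit 84) (nat_lit 10946861067) (nat_lit 0) (nat_lit 8490556416) (nat_lit 1344) (nat_lit 30255860300) (nat_lit 167) (nat_lit 5) (nat_lit 166) (nat_lit 5) (nat_lit 182) (nat_lit 5) (nat_lit 406) (nat_lit 392) (nat_lit 147)) (XT.lf (nat_lit 0) (nat_lit 22423483338) (nat_lit 1260) (nat_lit 16478579922) (nat_lit 1344) (nat_lit 11609581539) (nat_lit 167) (nat_lit 5) (nat_lit 182) (nat_lit 5) (nat_lit 183) (nat_lit 5) (nat_lit 407) (nat_lit 392) (nat_lit 146))) (XT.nd (nat_lit 94) (nat_lit 0) (nat_lit 84) (XT.lf (nat_lit 84) (nat_lit 6499232572) (nat_lit 0) (nat_lit 19145434447) (nat_lit 1344) (nat_lit 25705531527) (nat_lit 168) (nat_lit 5) (nat_lit 167) (nat_lit 5) (nat_lit 183) (nat_lit 5) (nat_lit 408) (nat_lit 392) (nat_lit 145)) (XT.lf (nat_lit 0) (nat_lit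 29141127095) (nat_lit 1260) (nat_lit 21718805562) (nat_lit 84) (nat_lit 1348618767) (nat_lit 168) (nat_lit 5) (nat_lit 183) (nat_lit 5) (nat_lit 169) (nat_lit 5) (nat_lit 409) (nat_lit 392) (nat_lit 144))))) (XT.nd (nat_lit 282) (nat_lit 1260) (nat_lit 0) (XT.nd (nat_lit 94) (nat_lit 0) (nat_lit 0) (XT.lf (nat_lit 0) (nat_lit 1955093597) (nat_lit 1260) (nat_lit 30994787689) (nat_lit 1344) (nat_lit 20136553284) (nat_lit 153) (nat_lit 5) (nat_lit 168) (nat_lit 5) (nat_lit 169) (nat_lit 5) (nat_lit 410) (nat_lit 392) (nat_lit 143)) (XT.nd (nat_lit 94) (nat_lit 0) (nat_lit 0) (XT.lf (nat_lit 0) (nat_lit 26783613747) (nat_lit 1260) (nat_lit 10307669648) (nat_lit 1344) (nat_lit 16892820902) (nat_lit 153) (nat_lit 5) (nat_lit 168) (nat_lit 5) (nat_lit 169) (nat_lit 5) (nat_lit 411) (nat_lit 392) (nat_lit 142)) (XT.lf (nat_lit 0) (nat_lit 41461763119) (nat_lit 1344) (nat_lit 2658270428) (nat_lit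 84) (nat_lit 10785527099) (nat_lit 153) (nat_lit 5) (nat_lit 169) (nat_lit 5) (nat_lit 154) (nat_lit 5) (nat_lit 412) (nat_lit 392) (nat_lit 141)))) (XT.nd (nat_lit 188) (nat_lit 672) (nat_lit 0) (XT.nd (nat_lit 94) (nat_lit 0) (nat_lit 0) (XT.lf (nat_lit 0) (nat_lit 22965507220) (nat_lit 588) (nat_lit 23319787203) (nat_lit 672) (nat_lit 9559709698) (nat_lit 146) (nat_lit 5) (nat_lit 153) (nat_lit 5) (nat_lit 154) (nat_lit 5) (nat_lit 413) (nat_lit 392) (nat_lit 140)) (XT.lf (nat_lit 0) (nat_lit 49411705200) (nat_lit 588) (nat_lit 1867810345) (nat_lit 672) (nat_lit 5532337341) (nat_lit 146) (nat_lit 5) (nat_lit 153) (nat_lit 5) (nat_lit 154) (nat_lit 5) (nat_lit 414) (nat_lit 392) (nat_lit 139))) (XT.nd (nat_lit 94) (nat_lit 84) (nat_lit 0) (XT.lf (nat_lit 0) (nat_lit 19019490227) (nat_lit 588) (nat_lit 37780507613) (nat_lit 672) (nat_lit 996417700) (nat_lit 139) (nat_lit 5) (nat_lit 146)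 (nat_lit 5) (nat_lit 147) (nat_lit 5) (nat_lit 415) (nat_lit 392) (nat_lit 138)) (XT.lf (nat_lit 0) (nat_lit 3696989338) (nat_lit 672) (nat_lit 12480224522) (nat_lit 84) (nat_lit 42629448625) (nat_lit 138) (nat_lit 5) (nat_lit 146) (nat_lit 5) (nat_lit 139) (nat_lit 5) (nat_lit 416) (nat_lit 392) (nat_lit 137))))))))
noncomputable def xc225 : XT := (XT.nd (nat_lit 2538) (nat_lit 1008) (nat_lit 0) (XT.nd (nat_lit 1222) (nat_lit 2772) (nat_lit 0) (XT.nd (nat_lit 564) (nat_lit 1512) (nat_lit 0) (XT.nd (nat_lit 282) (nat_lit 504) (nat_lit 0) (XT.nd (nat_lit 94) (nat_lit 588) (nat_lit 0) (XT.lf (nat_lit 0) (nat_lit 8713358216) (nat_lit 672) (nat_lit 45017357490) (nat_lit 84) (nat_lit 6110140904) (nat_lit 131) (nat_lit 5) (nat_lit 139) (nat_lit 5) (nat_lit 132) (nat_lit 5) (nat_lit 417) (nat_lit 392) (nat_lit 136)) (XT.nd (nat_lit 94) (nat_lit 588) (nat_lit 0) (XT.lf (nat_lit 0) (nat_lit 14166875976)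 (nat_lit 672) (nat_lit 17862340679) (nat_lit 84) (nat_lit 28868261468) (nat_lit 131) (nat_lit 5) (nat_lit 139) (nat_lit 5) (nat_lit 132) (nat_lit 5) (nat_lit 418) (nat_lit 392) (nat_lit 135)) (XT.lf (nat_lit 0) (nat_lit 10307696516) (nat_lit 588) (nat_lit 9574623340) (nat_lit 672) (nat_lit 42100530066) (nat_lit 124) (nat_lit 5) (nat_lit 131) (nat_lit 5) (nat_lit 132) (nat_lit 5) (nat_lit 419) (nat_lit 392) (nat_lit 134)))) (XT.nd (nat_lit 94) (nat_lit 504) (nat_lit 0) (XT.lf (nat_lit 0) (nat_lit 26080924591) (nat_lit 672) (nat_lit 23539234185) (nat_lit 84) (nat_lit 13471274397) (nat_lit 124) (nat_lit 5) (nat_lit 132) (nat_lit 5) (nat_lit 125) (nat_lit 5) (nat_lit 420) (nat_lit 392) (nat_lit 133)) (XT.nd (nat_lit 94) (nat_lit 0) (nat_lit 0) (XT.lf (nat_lit 0) (nat_lit 5451580854) (nat_lit 504) (nat_lit 27160382060) (nat_lit 588) (nat_lit 31616917933) (nat_lit 118) (nat_lit 5) (nat_lit 124)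 (nat_lit 5) (nat_lit 125) (nat_lit 5) (nat_lit 421) (nat_lit 392) (nat_lit 132)) (XT.lf (nat_lit 0) (nat_lit 35793895570) (nat_lit 504) (nat_lit 3782024093) (nat_lit 588) (nat_lit 25817423823) (nat_lit 118) (nat_lit 5) (nat_lit 124) (nat_lit 5) (nat_lit 125) (nat_lit 5) (nat_lit 422) (nat_lit 392) (nat_lit 131))))) (XT.nd (nat_lit 282) (nat_lit 1008) (nat_lit 0) (XT.nd (nat_lit 94) (nat_lit 0) (nat_lit 0) (XT.lf (nat_lit 0) (nat_lit 263002629) (nat_lit 504) (nat_lit 46682741914) (nat_lit 588) (nat_lit 19641088097) (nat_lit 112) (nat_lit 5) (nat_lit 118) (nat_lit 5) (nat_lit 119) (nat_lit 5) (nat_lit 423) (nat_lit 392) (nat_lit 130)) (XT.nd (nat_lit 94) (nat_lit 0) (nat_lit 0) (XT.lf (nat_lit 0) (nat_lit 31589147275) (nat_lit 504) (nat_lit 23282812451) (nat_lit 588) (nat_lit 12934108964) (nat_lit 112) (nat_lit 5) (nat_lit 118) (nat_lit 5) (nat_lit 119) (nat_lit 5) (nat_lit 424) (nat_lit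 392) (nat_lit 129)) (XT.lf (nat_lit 0) (nat_lit 63043174853) (nat_lit 588) (nat_lit 5215425865) (nat_lit 84) (nat_lit 803065752) (nat_lit 112) (nat_lit 5) (nat_lit 119) (nat_lit 5) (nat_lit 113) (nat_lit 5) (nat_lit 425) (nat_lit 392) (nat_lit 128)))) (XT.nd (nat_lit 188) (nat_lit 504) (nat_lit 0) (XT.nd (nat_lit 94) (nat_lit 0) (nat_lit 0) (XT.lf (nat_lit 0) (nat_lit 1577422876) (nat_lit 504) (nat_lit 43343744314) (nat_lit 84) (nat_lit 25418615953) (nat_lit 106) (nat_lit 5) (nat_lit 112) (nat_lit 5) (nat_lit 107) (nat_lit 5) (nat_lit 426) (nat_lit 392) (nat_lit 127)) (XT.lf (nat_lit 0) (nat_lit 9332799555) (nat_lit 504) (nat_lit 11434746491) (nat_lit 84) (nat_lit 50885334049) (nat_lit 106) (nat_lit 5) (nat_lit 112) (nat_lit 5) (nat_lit 107) (nat_lit 5) (nat_lit 427) (nat_lit 392) (nat_lit 126))) (XT.nd (nat_lit 94) (nat_lit 0) (nat_lit 0) (XT.lf (nat_lit 0) (nat_lit 17571919306) (nat_lit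 588) (nat_lit 51183353562) (nat_lit 84) (nat_lit 4242565573) (nat_lit 100) (nat_lit 5) (nat_lit 107) (nat_lit 5) (nat_lit 101) (nat_lit 5) (nat_lit 428) (nat_lit 392) (nat_lit 125)) (XT.lf (nat_lit 0) (nat_lit 26379836002) (nat_lit 588) (nat_lit 18291570906) (nat_lit 84) (nat_lit 29702090838) (nat_lit 100) (nat_lit 5) (nat_lit 107) (nat_lit 5) (nat_lit 101) (nat_lit 5) (nat_lit 429) (nat_lit 392) (nat_lit 124)))))) (XT.nd (nat_lit 658) (nat_lit 1512) (nat_lit 0) (XT.nd (nat_lit 282) (nat_lit 420) (nat_lit 0) (XT.nd (nat_lit 94) (nat_lit 420) (nat_lit 0) (XT.lf (nat_lit 0) (nat_lit 15896462282) (nat_lit 420) (nat_lit 19707744450) (nat_lit 504) (nat_lit 40181654486) (nat_lit 95) (nat_lit 5) (nat_lit 100) (nat_lit 5) (nat_lit 101) (nat_lit 5) (nat_lit 430) (nat_lit 392) (nat_lit 123)) (XT.nd (nat_lit 94) (nat_lit 420) (nat_lit 0) (XT.lf (nat_lit 0) (nat_lit 45348987905) (nat_lit 504) (nat_lit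 25810219934) (nat_lit 84) (nat_lit 6074078235) (nat_lit 95) (nat_lit 5) (nat_lit 101) (nat_lit 5) (nat_lit 96) (nat_lit 5) (nat_lit 431) (nat_lit 392) (nat_lit 122)) (XT.lf (nat_lit 0) (nat_lit 9276537135) (nat_lit 420) (nat_lit 46393309658) (nat_lit 504) (nat_lit 23045775686) (nat_lit 90) (nat_lit 5) (nat_lit 95) (nat_lit 5) (nat_lit 96) (nat_lit 5) (nat_lit 432) (nat_lit 392) (nat_lit 121)))) (XT.nd (nat_lit 188) (nat_lit 84) (nat_lit 0) (XT.nd (nat_lit 94) (nat_lit 336) (nat_lit 0) (XT.lf (nat_lit 0) (nat_lit 45944298112) (nat_lit 420) (nat_lit 20616112149) (nat_lit 504) (nat_lit 13674217160) (nat_lit 90) (nat_lit 5) (nat_lit 95) (nat_lit 5) (nat_lit 96) (nat_lit 5) (nat_lit 433) (nat_lit 392) (nat_lit 120)) (XT.lf (nat_lit 0) (nat_lit 1892086914) (nat_lit 336) (nat_lit 75960297835) (nat_lit 420) (nat_lit 3944577724) (nat_lit 86) (nat_lit 5) (nat_lit 90) (nat_lit 5) (nat_lit 91) (nat_lit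 5) (nat_lit 434) (nat_lit 392) (nat_lit 119))) (XT.nd (nat_lit 94) (nat_lit 0) (nat_lit 0) (XT.lf (nat_lit 0) (nat_lit 6511645441) (nat_lit 420) (nat_lit 43799533095) (nat_lit 84) (nat_lit 33076638987) (nat_lit 85) (nat_lit 5) (nat_lit 90) (nat_lit 5) (nat_lit 86) (nat_lit 5) (nat_lit 435) (nat_lit 392) (nat_lit 118)) (XT.lf (nat_lit 0) (nat_lit 17201753162) (nat_lit 420) (nat_lit 6650749244) (nat_lit 84) (nat_lit 61172740483) (nat_lit 85) (nat_lit 5) (nat_lit 90) (nat_lit 5) (nat_lit 86) (nat_lit 5) (nat_lit 436) (nat_lit 392) (nat_lit 117))))) (XT.nd (nat_lit 282) (nat_lit 756) (nat_lit 0) (XT.nd (nat_lit 94) (nat_lit 336) (nat_lit 0) (XT.lf (nat_lit 0) (nat_lit 28557728786) (nat_lit 504) (nat_lit 54497267010) (nat_lit 84) (nat_lit 3646440976) (nat_lit 80) (nat_lit 5) (nat_lit 86) (nat_lit 5) (nat_lit 81) (nat_lit 5) (nat_lit 437) (nat_lit 392) (nat_lit 116)) (XT.nd (nat_lit 94) (nat_lit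 336) (nat_lit 0) (XT.lf (nat_lit 0) (nat_lit 40557873865) (nat_lit 504) (nat_lit 16302312063) (nat_lit 84) (nat_lit 31558626515) (nat_lit 80) (nat_lit 5) (nat_lit 86) (nat_lit 5) (nat_lit 81) (nat_lit 5) (nat_lit 438) (nat_lit 392) (nat_lit 115)) (XT.lf (nat_lit 0) (nat_lit 23496356862) (nat_lit 336) (nat_lit 29647044610) (nat_lit 420) (nat_lit 37037547225) (nat_lit 76) (nat_lit 5) (nat_lit 80) (nat_lit 5) (nat_lit 81) (nat_lit 5) (nat_lit 439) (nat_lit 392) (nat_lit 114)))) (XT.nd (nat_lit 188) (nat_lit 420) (nat_lit 0) (XT.nd (nat_lit 94) (nat_lit 336) (nat_lit 0) (XT.lf (nat_lit 0) (nat_lit 64822540256) (nat_lit 336) (nat_lit 1448100904) (nat_lit 420) (nat_lit 25720384129) (nat_lit 76) (nat_lit 5) (nat_lit 80) (nat_lit 5) (nat_lit 81) (nat_lit 5) (nat_lit 440) (nat_lit 392) (nat_lit 113)) (XT.lf (nat_lit 0) (nat_lit 13531249156) (nat_lit 336) (nat_lit 66655334247) (nat_lit 420) (nat_lit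 13656974837) (nat_lit 72) (nat_lit 5) (nat_lit 76) (nat_lit 5) (nat_lit 77) (nat_lit 5) (nat_lit 441) (nat_lit 392) (nat_lit 112))) (XT.nd (nat_lit 94) (nat_lit 420) (nat_lit 0) (XT.lf (nat_lit 0) (nat_lit 55993664003) (nat_lit 336) (nat_lit 38814430249) (nat_lit 420) (nat_lit 934930816) (nat_lit 72) (nat_lit 5) (nat_lit 76) (nat_lit 5) (nat_lit 77) (nat_lit 5) (nat_lit 442) (nat_lit 392) (nat_lit 111)) (XT.lf (nat_lit 0) (nat_lit 1950964813) (nat_lit 336) (nat_lit 9998660111) (nat_lit 420) (nat_lit 85745793125) (nat_lit 67) (nat_lit 5) (nat_lit 71) (nat_lit 5) (nat_lit 72) (nat_lit 5) (nat_lit 443) (nat_lit 392) (nat_lit 110))))))) (XT.nd (nat_lit 54990) (nat_lit 0) (nat_lit 8232) (XT.nd (nat_lit 658) (nat_lit 0) (nat_lit 0) (XT.nd (nat_lit 282) (nat_lit 672) (nat_lit 0) (XT.nd (nat_lit 94) (nat_lit 336) (nat_lit 0) (XT.lf (nat_lit 0) (nat_lit 25796041179) (nat_lit 420) (nat_lit 54180253478)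 (nat_lit 84) (nat_lit 19711987559) (nat_lit 67) (nat_lit 5) (nat_lit 72) (nat_lit 5) (nat_lit 68) (nat_lit 5) (nat_lit 444) (nat_lit 392) (nat_lit 109)) (XT.nd (nat_lit 94) (nat_lit 336) (nat_lit 0) (XT.lf (nat_lit 0) (nat_lit 40156418241) (nat_lit 420) (nat_lit 11468719951) (nat_lit 84) (nat_lit 50112837601) (nat_lit 67) (nat_lit 5) (nat_lit 72) (nat_lit 5) (nat_lit 68) (nat_lit 5) (nat_lit 445) (nat_lit 392) (nat_lit 108)) (XT.lf (nat_lit 0) (nat_lit 33170864381) (nat_lit 336) (nat_lit 22095185035) (nat_lit 420) (nat_lit 48573557997) (nat_lit 63) (nat_lit 5) (nat_lit 67) (nat_lit 5) (nat_lit 68) (nat_lit 5) (nat_lit 446) (nat_lit 392) (nat_lit 107)))) (XT.nd (nat_lit 188) (nat_lit 420) (nat_lit 0) (XT.nd (nat_lit 94) (nat_lit 252) (nat_lit 0) (XT.lf (nat_lit 0) (nat_lit 71025500297) (nat_lit 420) (nat_lit 26697793647) (nat_lit 84) (nat_lit 8275098618) (nat_lit 63) (nat_lit 5) (nat_lit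 68) (nat_lit 5) (nat_lit 64) (nat_lit 5) (nat_lit 447) (nat_lit 392) (nat_lit 106)) (XT.lf (nat_lit 0) (nat_lit 18738611026) (nat_lit 252) (nat_lit 68917616041) (nat_lit 336) (nat_lit 20553759916) (nat_lit 60) (nat_lit 5) (nat_lit 63) (nat_lit 5) (nat_lit 64) (nat_lit 5) (nat_lit 448) (nat_lit 392) (nat_lit 105))) (XT.nd (nat_lit 94) (nat_lit 420) (nat_lit 0) (XT.lf (nat_lit 0) (nat_lit 66084825213) (nat_lit 252) (nat_lit 38970253181) (nat_lit 336) (nat_lit 5424775237) (nat_lit 60) (nat_lit 5) (nat_lit 63) (nat_lit 5) (nat_lit 64) (nat_lit 5) (nat_lit 449) (nat_lit 392) (nat_lit 104)) (XT.lf (nat_lit 0) (nat_lit 1973929352) (nat_lit 336) (nat_lit 8004518130) (nat_lit 420) (nat_lit 102835882197) (nat_lit 55) (nat_lit 5) (nat_lit 59) (nat_lit 5) (nat_lit 60) (nat_lit 5) (nat_lit 450) (nat_lit 392) (nat_lit 103))))) (XT.nd (nat_lit 53956) (nat_lit 0) (nat_lit 8904) (XT.nd (nat_lit 94) (nat_lit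 0) (nat_lit 0) (XT.lf (nat_lit 0) (nat_lit 26416741705) (nat_lit 420) (nat_lit 64849734685) (nat_lit 84) (nat_lit 23930292512) (nat_lit 55) (nat_lit 5) (nat_lit 60) (nat_lit 5) (nat_lit 56) (nat_lit 5) (nat_lit 451) (nat_lit 392) (nat_lit 102)) (XT.nd (nat_lit 53768) (nat_lit 0) (nat_lit 8904) (XT.lf (nat_lit 0) (nat_lit 43427067447) (nat_lit 420) (nat_lit 17559143257) (nat_lit 84) (nat_lit 56662104538) (nat_lit 55) (nat_lit 5) (nat_lit 60) (nat_lit 5) (nat_lit 56) (nat_lit 5) (nat_lit 452) (nat_lit 392) (nat_lit 101)) (XT.lf (nat_lit 0) (nat_lit 284142859) (nat_lit 0) (nat_lit 284142859) (nat_lit 1260) (nat_lit 20025068560) (nat_lit 161) (nat_lit 5) (nat_lit 161) (nat_lit 3) (nat_lit 176) (nat_lit 3) (nat_lit 393) (nat_lit 393) (nat_lit 159)))) (XT.nd (nat_lit 188) (nat_lit 0) (nat_lit 84) (XT.nd (nat_lit 94) (nat_lit 0) (nat_lit 0) (XT.lf (nat_lit 0) (nat_lit 1360032352) (nat_lit 1260)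 (nat_lit 23071559289) (nat_lit 1344) (nat_lit 17366659538) (nat_lit 161) (nat_lit 5) (nat_lit 176) (nat_lit 3) (nat_lit 177) (nat_lit 5) (nat_lit 394) (nat_lit 393) (nat_lit 158)) (XT.lf (nat_lit 0) (nat_lit 1594419596) (nat_lit 1260) (nat_lit 5004673528) (nat_lit 1344) (nat_lit 35828922844) (nat_lit 161) (nat_lit 5) (nat_lit 176) (nat_lit 3) (nat_lit 177) (nat_lit 5) (nat_lit 395) (nat_lit 393) (nat_lit 157))) (XT.nd (nat_lit 94) (nat_lit 0) (nat_lit 0) (XT.lf (nat_lit 0) (nat_lit 2082294130) (nat_lit 1260) (nat_lit 29312947685) (nat_lit 1344) (nat_lit 11674040701) (nat_lit 162) (nat_lit 5) (nat_lit 177) (nat_lit 5) (nat_lit 178) (nat_lit 5) (nat_lit 396) (nat_lit 393) (nat_lit 156)) (XT.lf (nat_lit 0) (nat_lit 2699855521) (nat_lit 1260) (nat_lit 10612120491) (nat_lit 1344) (nat_lit 30414361944) (nat_lit 162) (nat_lit 5) (nat_lit 177) (nat_lit 5) (nat_lit 178) (nat_lit 5) (nat_lit 397)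 (nat_lit 393) (nat_lit 155)))))) (XT.nd (nat_lit 658) (nat_lit 840) (nat_lit 0) (XT.nd (nat_lit 282) (nat_lit 0) (nat_lit 84) (XT.nd (nat_lit 94) (nat_lit 0) (nat_lit 0) (XT.lf (nat_lit 0) (nat_lit 3471375591) (nat_lit 1260) (nat_lit 35631416439) (nat_lit 1344) (nat_lit 5296252419) (nat_lit 163) (nat_lit 5) (nat_lit 178) (nat_lit 5) (nat_lit 179) (nat_lit 5) (nat_lit 398) (nat_lit 393) (nat_lit 154)) (XT.nd (nat_lit 94) (nat_lit 0) (nat_lit 0) (XT.lf (nat_lit 0) (nat_lit 4504814700) (nat_lit 1260) (nat_lit 16276063837) (nat_lit 1344) (nat_lit 24303892672) (nat_lit 163) (nat_lit 5) (nat_lit 178) (nat_lit 5) (nat_lit 179) (nat_lit 5) (nat_lit 399) (nat_lit 393) (nat_lit 153)) (XT.lf (nat_lit 84) (nat_lit 3732006430) (nat_lit 0) (nat_lit 1871910395) (nat_lit 1344) (nat_lit 40186115362) (nat_lit 164) (nat_lit 5) (nat_lit 163) (nat_lit 5) (nat_lit 179) (nat_lit 5) (nat_lit 400) (nat_lit 393)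 (nat_lit 152)))) (XT.nd (nat_lit 188) (nat_lit 0) (nat_lit 84) (XT.nd (nat_lit 94) (nat_lit 0) (nat_lit 0) (XT.lf (nat_lit 0) (nat_lit 7070016870) (nat_lit 1260) (nat_lit 22009211101) (nat_lit 1344) (nat_lit 17427204423) (nat_lit 164) (nat_lit 5) (nat_lit 179) (nat_lit 5) (nat_lit 180) (nat_lit 5) (nat_lit 401) (nat_lit 393) (nat_lit 151)) (XT.lf (nat_lit 0) (nat_lit 8597485795) (nat_lit 1260) (nat_lit 1378244514) (nat_lit 1344) (nat_lit 37268074804) (nat_lit 164) (nat_lit 5) (nat_lit 179) (nat_lit 5) (nat_lit 180) (nat_lit 5) (nat_lit 402) (nat_lit 393) (nat_lit 150))) (XT.nd (nat_lit 94) (nat_lit 0) (nat_lit 0) (XT.lf (nat_lit 0) (nat_lit 10459660031) (nat_lit 1260) (nat_lit 27826308312) (nat_lit 1344) (nat_lit 9708666255) (nat_lit 165) (nat_lit 5) (nat_lit 180) (nat_lit 5) (nat_lit 181) (nat_lit 5) (nat_lit 403) (nat_lit 393) (nat_lit 149)) (XT.lf (nat_lit 0) (nat_lit 12489438550) (nat_lit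 1260) (nat_lit 6477718533) (nat_lit 1344) (nat_lit 29797481677) (nat_lit 165) (nat_lit 5) (nat_lit 180) (nat_lit 5) (nat_lit 181) (nat_lit 5) (nat_lit 404) (nat_lit 393) (nat_lit 148))))) (XT.nd (nat_lit 282) (nat_lit 1092) (nat_lit 0) (XT.nd (nat_lit 94) (nat_lit 0) (nat_lit 0) (XT.lf (nat_lit 0) (nat_lit 14741580324) (nat_lit 1260) (nat_lit 33744418527) (nat_lit 1344) (nat_lit 1066902005) (nat_lit 166) (nat_lit 5) (nat_lit 181) (nat_lit 5) (nat_lit 182) (nat_lit 5) (nat_lit 405) (nat_lit 393) (nat_lit 147)) (XT.nd (nat_lit 94) (nat_lit 0) (nat_lit 0) (XT.lf (nat_lit 0) (nat_lit 17314111678) (nat_lit 1260) (nat_lit 11656025212) (nat_lit 1344) (nat_lit 21387091014) (nat_lit 166) (nat_lit 5) (nat_lit 181) (nat_lit 5) (nat_lit 182) (nat_lit 5) (nat_lit 406) (nat_lit 393) (nat_lit 146)) (XT.lf (nat_lit 84) (nat_lit 11315048731) (nat_lit 0) (nat_lit 8756539151) (nat_lit 1344) (nat_lit 31110865613)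 (nat_lit 167) (nat_lit 5) (nat_lit 166) (nat_lit 5) (nat_lit 182) (nat_lit 5) (nat_lit 407) (nat_lit 393) (nat_lit 145)))) (XT.nd (nat_lit 188) (nat_lit 1176) (nat_lit 0) (XT.nd (nat_lit 94) (nat_lit 0) (nat_lit 0) (XT.lf (nat_lit 0) (nat_lit 23145643738) (nat_lit 1260) (nat_lit 16932633679) (nat_lit 1344) (nat_lit 11947144518) (nat_lit 167) (nat_lit 5) (nat_lit 182) (nat_lit 5) (nat_lit 183) (nat_lit 5) (nat_lit 408) (nat_lit 393) (nat_lit 144)) (XT.lf (nat_lit 84) (nat_lit 6734118055) (nat_lit 0) (nat_lit 19728288036) (nat_lit 1344) (nat_lit 26426760487) (nat_lit 168) (nat_lit 5) (nat_lit 167) (nat_lit 5) (nat_lit 183) (nat_lit 5) (nat_lit 409) (nat_lit 393) (nat_lit 143))) (XT.nd (nat_lit 94) (nat_lit 1260) (nat_lit 0) (XT.lf (nat_lit 0) (nat_lit 30062271049) (nat_lit 1260) (nat_lit 22330051237) (nat_lit 84) (nat_lit 1380994927) (nat_lit 168) (nat_lit 5) (nat_lit 183) (nat_lit 5) (nat_lit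 169) (nat_lit 5) (nat_lit 410) (nat_lit 393) (nat_lit 142)) (XT.lf (nat_lit 0) (nat_lit 2053669617) (nat_lit 1260) (nat_lit 31930635701) (nat_lit 1344) (nat_lit 20693263444) (nat_lit 153) (nat_lit 5) (nat_lit 168) (nat_lit 5) (nat_lit 169) (nat_lit 5) (nat_lit 411) (nat_lit 393) (nat_lit 141))))))))
noncomputable def xc226 : XT := (XT.nd (nat_lit 2538) (nat_lit 2100) (nat_lit 0) (XT.nd (nat_lit 1222) (nat_lit 2688) (nat_lit 0) (XT.nd (nat_lit 564) (nat_lit 2184) (nat_lit 0) (XT.nd (nat_lit 282) (nat_lit 672) (nat_lit 0) (XT.nd (nat_lit 94) (nat_lit 588) (nat_lit 0) (XT.lf (nat_lit 0) (nat_lit 27625882560) (nat_lit 1260) (nat_lit 10622729234) (nat_lit 1344) (nat_lit 17353599278) (nat_lit 153) (nat_lit 5) (nat_lit 168) (nat_lit 5) (nat_lit 169) (nat_lit 5) (nat_lit 412) (nat_lit 393) (nat_lit 140)) (XT.nd (nat_lit 94) (nat_lit 588) (nat_lit 0) (XT.lf (nat_lit 0) (nat_lit 42748852770) (nat_lit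 1344) (nat_lit 2698957579) (nat_lit 84) (nat_lit 11103543649) (nat_lit 153) (nat_lit 5) (nat_lit 169) (nat_lit 5) (nat_lit 154) (nat_lit 5) (nat_lit 413) (nat_lit 393) (nat_lit 139)) (XT.lf (nat_lit 0) (nat_lit 23693150448) (nat_lit 588) (nat_lit 24023052038) (nat_lit 672) (nat_lit 9802807139) (nat_lit 146) (nat_lit 5) (nat_lit 153) (nat_lit 5) (nat_lit 154) (nat_lit 5) (nat_lit 414) (nat_lit 393) (nat_lit 138)))) (XT.nd (nat_lit 94) (nat_lit 672) (nat_lit 0) (XT.lf (nat_lit 0) (nat_lit 50931607824) (nat_lit 588) (nat_lit 1927408945) (nat_lit 672) (nat_lit 5655886248) (nat_lit 146) (nat_lit 5) (nat_lit 153) (nat_lit 5) (nat_lit 154) (nat_lit 5) (nat_lit 415) (nat_lit 393) (nat_lit 137)) (XT.nd (nat_lit 94) (nat_lit 84) (nat_lit 0) (XT.lf (nat_lit 0) (nat_lit 19628584834) (nat_lit 588) (nat_lit 38915668070) (nat_lit 672) (nat_lit 984777563) (nat_lit 139) (nat_lit 5) (nat_lit 146) (nat_lit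 5) (nat_lit 147) (nat_lit 5) (nat_lit 416) (nat_lit 393) (nat_lit 136)) (XT.lf (nat_lit 0) (nat_lit 3847435151) (nat_lit 672) (nat_lit 12816390284) (nat_lit 84) (nat_lit 43905784966) (nat_lit 138) (nat_lit 5) (nat_lit 146) (nat_lit 5) (nat_lit 139) (nat_lit 5) (nat_lit 417) (nat_lit 393) (nat_lit 135))))) (XT.nd (nat_lit 282) (nat_lit 1008) (nat_lit 0) (XT.nd (nat_lit 94) (nat_lit 588) (nat_lit 0) (XT.lf (nat_lit 0) (nat_lit 9013499065) (nat_lit 672) (nat_lit 46328777257) (nat_lit 84) (nat_lit 6292579828) (nat_lit 131) (nat_lit 5) (nat_lit 139) (nat_lit 5) (nat_lit 132) (nat_lit 5) (nat_lit 418) (nat_lit 393) (nat_lit 134)) (XT.nd (nat_lit 94) (nat_lit 588) (nat_lit 0) (XT.lf (nat_lit 0) (nat_lit 14629494005) (nat_lit 672) (nat_lit 18360248803) (nat_lit 84) (nat_lit 29733469212) (nat_lit 131) (nat_lit 5) (nat_lit 139) (nat_lit 5) (nat_lit 132) (nat_lit 5) (nat_lit 419) (nat_lit 393) (nat_lit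 133)) (XT.lf (nat_lit 0) (nat_lit 10654517330) (nat_lit 588) (nat_lit 9861149722) (nat_lit 672) (nat_lit 43325501756) (nat_lit 124) (nat_lit 5) (nat_lit 131) (nat_lit 5) (nat_lit 132) (nat_lit 5) (nat_lit 420) (nat_lit 393) (nat_lit 132)))) (XT.nd (nat_lit 188) (nat_lit 504) (nat_lit 0) (XT.nd (nat_lit 94) (nat_lit 504) (nat_lit 0) (XT.lf (nat_lit 0) (nat_lit 26899162472) (nat_lit 672) (nat_lit 24207790159) (nat_lit 84) (nat_lit 13876090706) (nat_lit 124) (nat_lit 5) (nat_lit 132) (nat_lit 5) (nat_lit 125) (nat_lit 5) (nat_lit 421) (nat_lit 393) (nat_lit 131)) (XT.lf (nat_lit 0) (nat_lit 5652380498) (nat_lit 504) (nat_lit 27973066523) (nat_lit 588) (nat_lit 32529189670) (nat_lit 118) (nat_lit 5) (nat_lit 124) (nat_lit 5) (nat_lit 125) (nat_lit 5) (nat_lit 422) (nat_lit 393) (nat_lit 130))) (XT.nd (nat_lit 94) (nat_lit 504) (nat_lit 0) (XT.lf (nat_lit 0) (nat_lit 36903879639) (nat_lit 504)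 (nat_lit 3893419769) (nat_lit 588) (nat_lit 26556766149) (nat_lit 118) (nat_lit 5) (nat_lit 124) (nat_lit 5) (nat_lit 125) (nat_lit 5) (nat_lit 423) (nat_lit 393) (nat_lit 129)) (XT.lf (nat_lit 0) (nat_lit 307753337) (nat_lit 504) (nat_lit 48079846030) (nat_lit 588) (nat_lit 20195780216) (nat_lit 112) (nat_lit 5) (nat_lit 118) (nat_lit 5) (nat_lit 119) (nat_lit 5) (nat_lit 424) (nat_lit 393) (nat_lit 128)))))) (XT.nd (nat_lit 658) (nat_lit 1260) (nat_lit 0) (XT.nd (nat_lit 282) (nat_lit 924) (nat_lit 0) (XT.nd (nat_lit 94) (nat_lit 504) (nat_lit 0) (XT.lf (nat_lit 0) (nat_lit 32572608711) (nat_lit 504) (nat_lit 23978017076) (nat_lit 588) (nat_lit 13288597743) (nat_lit 112) (nat_lit 5) (nat_lit 118) (nat_lit 5) (nat_lit 119) (nat_lit 5) (nat_lit 425) (nat_lit 393) (nat_lit 127)) (XT.nd (nat_lit 94) (nat_lit 504) (nat_lit 0) (XT.lf (nat_lit 0) (nat_lit 64966061164) (nat_lit 588) (nat_lit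 5336177271) (nat_lit 84) (nat_lit 830279811) (nat_lit 112) (nat_lit 5) (nat_lit 119) (nat_lit 5) (nat_lit 113) (nat_lit 5) (nat_lit 426) (nat_lit 393) (nat_lit 126)) (XT.lf (nat_lit 0) (nat_lit 1656111511) (nat_lit 504) (nat_lit 44608023552) (nat_lit 84) (nat_lit 26184853006) (nat_lit 106) (nat_lit 5) (nat_lit 112) (nat_lit 5) (nat_lit 107) (nat_lit 5) (nat_lit 427) (nat_lit 393) (nat_lit 125)))) (XT.nd (nat_lit 188) (nat_lit 420) (nat_lit 0) (XT.nd (nat_lit 94) (nat_lit 504) (nat_lit 0) (XT.lf (nat_lit 0) (nat_lit 9643235920) (nat_lit 504) (nat_lit 11742805301) (nat_lit 84) (nat_lit 52415465502) (nat_lit 106) (nat_lit 5) (nat_lit 112) (nat_lit 5) (nat_lit 107) (nat_lit 5) (nat_lit 428) (nat_lit 393) (nat_lit 124)) (XT.lf (nat_lit 0) (nat_lit 18129020872) (nat_lit 588) (nat_lit 52683317336) (nat_lit 84) (nat_lit 4374492208) (nat_lit 100) (nat_lit 5) (nat_lit 107) (nat_lit 5) (nat_lit 101)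 (nat_lit 5) (nat_lit 429) (nat_lit 393) (nat_lit 123))) (XT.nd (nat_lit 94) (nat_lit 420) (nat_lit 0) (XT.lf (nat_lit 0) (nat_lit 27200302914) (nat_lit 588) (nat_lit 18805816254) (nat_lit 84) (nat_lit 30597667804) (nat_lit 100) (nat_lit 5) (nat_lit 107) (nat_lit 5) (nat_lit 101) (nat_lit 5) (nat_lit 430) (nat_lit 393) (nat_lit 122)) (XT.lf (nat_lit 0) (nat_lit 16407519677) (nat_lit 420) (nat_lit 20293366737) (nat_lit 504) (nat_lit 41357651754) (nat_lit 95) (nat_lit 5) (nat_lit 100) (nat_lit 5) (nat_lit 101) (nat_lit 5) (nat_lit 431) (nat_lit 393) (nat_lit 121))))) (XT.nd (nat_lit 282) (nat_lit 840) (nat_lit 0) (XT.nd (nat_lit 94) (nat_lit 420) (nat_lit 0) (XT.lf (nat_lit 0) (nat_lit 46737231724) (nat_lit 504) (nat_lit 26550537711) (nat_lit 84) (nat_lit 6261640944) (nat_lit 95) (nat_lit 5) (nat_lit 101) (nat_lit 5) (nat_lit 96) (nat_lit 5) (nat_lit 432) (nat_lit 393) (nat_lit 120)) (XT.nd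 (nat_lit 94) (nat_lit 0) (nat_lit 0) (XT.lf (nat_lit 0) (nat_lit 9588488846) (nat_lit 420) (nat_lit 47778742094) (nat_lit 504) (nat_lit 23709001695) (nat_lit 90) (nat_lit 5) (nat_lit 95) (nat_lit 5) (nat_lit 96) (nat_lit 5) (nat_lit 433) (nat_lit 393) (nat_lit 119)) (XT.lf (nat_lit 0) (nat_lit 47355302392) (nat_lit 420) (nat_lit 21228414102) (nat_lit 504) (nat_lit 14057116237) (nat_lit 90) (nat_lit 5) (nat_lit 95) (nat_lit 5) (nat_lit 96) (nat_lit 5) (nat_lit 434) (nat_lit 393) (nat_lit 118)))) (XT.nd (nat_lit 188) (nat_lit 420) (nat_lit 0) (XT.nd (nat_lit 94) (nat_lit 84) (nat_lit 0) (XT.lf (nat_lit 0) (nat_lit 1981971016) (nat_lit 336) (nat_lit 78232083607) (nat_lit 420) (nat_lit 4035996207) (nat_lit 86) (nat_lit 5) (nat_lit 90) (nat_lit 5) (nat_lit 91) (nat_lit 5) (nat_lit 435) (nat_lit 393) (nat_lit 117)) (XT.lf (nat_lit 0) (nat_lit 6732619624) (nat_lit 420) (nat_lit 45080816903) (nat_lit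 84) (nat_lit 34075211367) (nat_lit 85) (nat_lit 5) (nat_lit 90) (nat_lit 5) (nat_lit 86) (nat_lit 5) (nat_lit 436) (nat_lit 393) (nat_lit 116))) (XT.nd (nat_lit 94) (nat_lit 420) (nat_lit 0) (XT.lf (nat_lit 0) (nat_lit 17742684223) (nat_lit 420) (nat_lit 6818522026) (nat_lit 84) (nat_lit 63014013192) (nat_lit 85) (nat_lit 5) (nat_lit 90) (nat_lit 5) (nat_lit 86) (nat_lit 5) (nat_lit 437) (nat_lit 393) (nat_lit 115)) (XT.lf (nat_lit 0) (nat_lit 29438983824) (nat_lit 504) (nat_lit 56100046656) (nat_lit 84) (nat_lit 3762680321) (nat_lit 80) (nat_lit 5) (nat_lit 86) (nat_lit 5) (nat_lit 81) (nat_lit 5) (nat_lit 438) (nat_lit 393) (nat_lit 114))))))) (XT.nd (nat_lit 55178) (nat_lit 0) (nat_lit 8904) (XT.nd (nat_lit 658) (nat_lit 1008) (nat_lit 0) (XT.nd (nat_lit 282) (nat_lit 756) (nat_lit 0) (XT.nd (nat_lit 94) (nat_lit 336) (nat_lit 0) (XT.lf (nat_lit 0) (nat_lit 41798418989) (nat_lit 504)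 (nat_lit 16760179129) (nat_lit 84) (nat_lit 32512032025) (nat_lit 80) (nat_lit 5) (nat_lit 86) (nat_lit 5) (nat_lit 81) (nat_lit 5) (nat_lit 439) (nat_lit 393) (nat_lit 113)) (XT.nd (nat_lit 94) (nat_lit 0) (nat_lit 0) (XT.lf (nat_lit 0) (nat_lit 24232143959) (nat_lit 336) (nat_lit 30528971997) (nat_lit 420) (nat_lit 38124527367) (nat_lit 76) (nat_lit 5) (nat_lit 80) (nat_lit 5) (nat_lit 81) (nat_lit 5) (nat_lit 440) (nat_lit 393) (nat_lit 112)) (XT.lf (nat_lit 0) (nat_lit 66797212960) (nat_lit 336) (nat_lit 1484277959) (nat_lit 420) (nat_lit 26468552668) (nat_lit 76) (nat_lit 5) (nat_lit 80) (nat_lit 5) (nat_lit 81) (nat_lit 5) (nat_lit 441) (nat_lit 393) (nat_lit 111)))) (XT.nd (nat_lit 188) (nat_lit 420) (nat_lit 0) (XT.nd (nat_lit 94) (nat_lit 0) (nat_lit 0) (XT.lf (nat_lit 0) (nat_lit 13967525359) (nat_lit 336) (nat_lit 68647083460) (nat_lit 420) (nat_lit 14043553674) (nat_lit 72)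 (nat_lit 5) (nat_lit 76) (nat_lit 5) (nat_lit 77) (nat_lit 5) (nat_lit 442) (nat_lit 393) (nat_lit 110)) (XT.lf (nat_lit 0) (nat_lit 57702929000) (nat_lit 336) (nat_lit 39971182754) (nat_lit 420) (nat_lit 940522034) (nat_lit 72) (nat_lit 5) (nat_lit 76) (nat_lit 5) (nat_lit 77) (nat_lit 5) (nat_lit 443) (nat_lit 393) (nat_lit 109))) (XT.nd (nat_lit 94) (nat_lit 0) (nat_lit 0) (XT.lf (nat_lit 0) (nat_lit 2039121653) (nat_lit 336) (nat_lit 10290654000) (nat_lit 420) (nat_lit 88295827938) (nat_lit 67) (nat_lit 5) (nat_lit 71) (nat_lit 5) (nat_lit 72) (nat_lit 5) (nat_lit 444) (nat_lit 393) (nat_lit 108)) (XT.lf (nat_lit 0) (nat_lit 26591027807) (nat_lit 420) (nat_lit 55776313198) (nat_lit 84) (nat_lit 20310930166) (nat_lit 67) (nat_lit 5) (nat_lit 72) (nat_lit 5) (nat_lit 68) (nat_lit 5) (nat_lit 445) (nat_lit 393) (nat_lit 107))))) (XT.nd (nat_lit 282) (nat_lit 672) (nat_lit 0) (XT.nd (nat_lit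 94) (nat_lit 336) (nat_lit 0) (XT.lf (nat_lit 0) (nat_lit 41381601461) (nat_lit 420) (nat_lit 11784288457) (nat_lit 84) (nat_lit 51623584847) (nat_lit 67) (nat_lit 5) (nat_lit 72) (nat_lit 5) (nat_lit 68) (nat_lit 5) (nat_lit 446) (nat_lit 393) (nat_lit 106)) (XT.nd (nat_lit 94) (nat_lit 0) (nat_lit 0) (XT.lf (nat_lit 0) (nat_lit 34194204060) (nat_lit 336) (nat_lit 22749991903) (nat_lit 420) (nat_lit 50009969883) (nat_lit 63) (nat_lit 5) (nat_lit 67) (nat_lit 5) (nat_lit 68) (nat_lit 5) (nat_lit 447) (nat_lit 393) (nat_lit 105)) (XT.lf (nat_lit 0) (nat_lit 73175918154) (nat_lit 420) (nat_lit 27470799138) (nat_lit 84) (nat_lit 8531013348) (nat_lit 63) (nat_lit 5) (nat_lit 68) (nat_lit 5) (nat_lit 64) (nat_lit 5) (nat_lit 448) (nat_lit 393) (nat_lit 104)))) (XT.nd (nat_lit 188) (nat_lit 420) (nat_lit 0) (XT.nd (nat_lit 94) (nat_lit 0) (nat_lit 0) (XT.lf (nat_lit 0) (nat_lit 19328423868)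 (nat_lit 252) (nat_lit 70976836279) (nat_lit 336) (nat_lit 21150422648) (nat_lit 60) (nat_lit 5) (nat_lit 63) (nat_lit 5) (nat_lit 64) (nat_lit 5) (nat_lit 449) (nat_lit 393) (nat_lit 103)) (XT.lf (nat_lit 0) (nat_lit 68094219009) (nat_lit 252) (nat_lit 40131294521) (nat_lit 336) (nat_lit 5568149498) (nat_lit 60) (nat_lit 5) (nat_lit 63) (nat_lit 5) (nat_lit 64) (nat_lit 5) (nat_lit 450) (nat_lit 393) (nat_lit 102))) (XT.nd (nat_lit 53956) (nat_lit 0) (nat_lit 8904) (XT.lf (nat_lit 0) (nat_lit 2060129151) (nat_lit 336) (nat_lit 8236369023) (nat_lit 420) (nat_lit 105901679054) (nat_lit 55) (nat_lit 5) (nat_lit 59) (nat_lit 5) (nat_lit 60) (nat_lit 5) (nat_lit 451) (nat_lit 393) (nat_lit 101)) (XT.lf (nat_lit 0) (nat_lit 310568880) (nat_lit 0) (nat_lit 310568880) (nat_lit 1260) (nat_lit 20588878038) (nat_lit 161) (nat_lit 5) (nat_lit 161) (nat_lit 3) (nat_lit 176) (nat_lit 3) (nat_lit 394)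 (nat_lit 394) (nat_lit 157)))))) (XT.nd (nat_lit 658) (nat_lit 0) (nat_lit 252) (XT.nd (nat_lit 282) (nat_lit 0) (nat_lit 84) (XT.nd (nat_lit 94) (nat_lit 0) (nat_lit 0) (XT.lf (nat_lit 0) (nat_lit 1470020484) (nat_lit 1260) (nat_lit 23726399415) (nat_lit 1344) (nat_lit 17853576979) (nat_lit 161) (nat_lit 5) (nat_lit 176) (nat_lit 3) (nat_lit 177) (nat_lit 5) (nat_lit 395) (nat_lit 394) (nat_lit 156)) (XT.nd (nat_lit 94) (nat_lit 0) (nat_lit 84) (XT.lf (nat_lit 0) (nat_lit 1709424185) (nat_lit 1260) (nat_lit 5118593682) (nat_lit 1344) (nat_lit 36870700873) (nat_lit 161) (nat_lit 5) (nat_lit 176) (nat_lit 3) (nat_lit 177) (nat_lit 5) (nat_lit 396) (nat_lit 394) (nat_lit 155)) (XT.lf (nat_lit 0) (nat_lit 2210037795) (nat_lit 1260) (nat_lit 30154099927) (nat_lit 1344) (nat_lit 11995146047) (nat_lit 162) (nat_lit 5) (nat_lit 177) (nat_lit 5) (nat_lit 178) (nat_lit 5) (nat_lit 397) (nat_lit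 394) (nat_lit 154)))) (XT.nd (nat_lit 188) (nat_lit 0) (nat_lit 84) (XT.nd (nat_lit 94) (nat_lit 0) (nat_lit 84) (XT.lf (nat_lit 0) (nat_lit 2844224819) (nat_lit 1260) (nat_lit 10893361592) (nat_lit 1344) (nat_lit 31298524963) (nat_lit 162) (nat_lit 5) (nat_lit 177) (nat_lit 5) (nat_lit 178) (nat_lit 5) (nat_lit 398) (nat_lit 394) (nat_lit 153)) (XT.lf (nat_lit 0) (nat_lit 3637156510) (nat_lit 1260) (nat_lit 36661390291) (nat_lit 1344) (nat_lit 5430507646) (nat_lit 163) (nat_lit 5) (nat_lit 178) (nat_lit 5) (nat_lit 179) (nat_lit 5) (nat_lit 399) (nat_lit 394) (nat_lit 152))) (XT.nd (nat_lit 94) (nat_lit 0) (nat_lit 0) (XT.lf (nat_lit 0) (nat_lit 4699803462) (nat_lit 1260) (nat_lit 16726512120) (nat_lit 1344) (nat_lit 25009094554) (nat_lit 163) (nat_lit 5) (nat_lit 178) (nat_lit 5) (nat_lit 179) (nat_lit 5) (nat_lit 400) (nat_lit 394) (nat_lit 151)) (XT.lf (nat_lit 84) (nat_lit 3881429338)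 (nat_lit 0) (nat_lit 1949066389) (nat_lit 1344) (nat_lit 41331377875) (nat_lit 164) (nat_lit 5) (nat_lit 163) (nat_lit 5) (nat_lit 179) (nat_lit 5) (nat_lit 401) (nat_lit 394) (nat_lit 150))))) (XT.nd (nat_lit 282) (nat_lit 0) (nat_lit 84) (XT.nd (nat_lit 94) (nat_lit 0) (nat_lit 0) (XT.lf (nat_lit 0) (nat_lit 7338680041) (nat_lit 1260) (nat_lit 22631114503) (nat_lit 1344) (nat_lit 17930031310) (nat_lit 164) (nat_lit 5) (nat_lit 179) (nat_lit 5) (nat_lit 180) (nat_lit 5) (nat_lit 402) (nat_lit 394) (nat_lit 149)) (XT.nd (nat_lit 94) (nat_lit 0) (nat_lit 84) (XT.lf (nat_lit 0) (nat_lit 8910325577) (nat_lit 1260) (nat_lit 1382336578) (nat_lit 1344) (nat_lit 38366710014) (nat_lit 164) (nat_lit 5) (nat_lit 179) (nat_lit 5) (nat_lit 180) (nat_lit 5) (nat_lit 403) (nat_lit 394) (nat_lit 148)) (XT.lf (nat_lit 0) (nat_lit 10826958875) (nat_lit 1260) (nat_lit 28622339385) (nat_lit 1344) (nat_lit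 9983473366) (nat_lit 165) (nat_lit 5) (nat_lit 180) (nat_lit 5) (nat_lit 181) (nat_lit 5) (nat_lit 404) (nat_lit 394) (nat_lit 147)))) (XT.nd (nat_lit 188) (nat_lit 0) (nat_lit 84) (XT.nd (nat_lit 94) (nat_lit 0) (nat_lit 84) (XT.lf (nat_lit 0) (nat_lit 12916072233) (nat_lit 1260) (nat_lit 6634420792) (nat_lit 1344) (nat_lit 30675432460) (nat_lit 165) (nat_lit 5) (nat_lit 180) (nat_lit 5) (nat_lit 181) (nat_lit 5) (nat_lit 405) (nat_lit 394) (nat_lit 146)) (XT.lf (nat_lit 0) (nat_lit 15234493200) (nat_lit 1260) (nat_lit 34717745538) (nat_lit 1344) (nat_lit 1085637993) (nat_lit 166) (nat_lit 5) (nat_lit 181) (nat_lit 5) (nat_lit 182) (nat_lit 5) (nat_lit 406) (nat_lit 394) (nat_lit 145))) (XT.nd (nat_lit 94) (nat_lit 0) (nat_lit 0) (XT.lf (nat_lit 0) (nat_lit 17882724802) (nat_lit 1260) (nat_lit 11967836508) (nat_lit 1344) (nat_lit 22015819209) (nat_lit 166) (nat_lit 5) (nat_lit 181) (nat_lit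 5) (nat_lit 182) (nat_lit 5) (nat_lit 407) (nat_lit 394) (nat_lit 144)) (XT.lf (nat_lit 84) (nat_lit 11691998384) (nat_lit 0) (nat_lit 9029854651) (nat_lit 1344) (nat_lit 31994544588) (nat_lit 167) (nat_lit 5) (nat_lit 166) (nat_lit 5) (nat_lit 182) (nat_lit 5) (nat_lit 408) (nat_lit 394) (nat_lit 143))))))))
noncomputable def xc227 : XT := (XT.nd (nat_lit 2632) (nat_lit 2184) (nat_lit 0) (XT.nd (nat_lit 1316) (nat_lit 3192) (nat_lit 0) (XT.nd (nat_lit 658) (nat_lit 1848) (nat_lit 0) (XT.nd (nat_lit 282) (nat_lit 1764) (nat_lit 0) (XT.nd (nat_lit 94) (nat_lit 0) (nat_lit 0) (XT.lf (nat_lit 0) (nat_lit 23886629980) (nat_lit 1260) (nat_lit 17402622643) (nat_lit 1344) (nat_lit 12295450015) (nat_lit 167) (nat_lit 5) (nat_lit 182) (nat_lit 5) (nat_lit 183) (nat_lit 5) (nat_lit 409) (nat_lit 394) (nat_lit 142)) (XT.nd (nat_lit 94) (nat_lit 0) (nat_lit 84) (XT.lf (nat_lit 84) (nat_lit 6973759192)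 (nat_lit 0) (nat_lit 20328139840) (nat_lit 1344) (nat_lit 27172492904) (nat_lit 168) (nat_lit 5) (nat_lit 167) (nat_lit 5) (nat_lit 183) (nat_lit 5) (nat_lit 410) (nat_lit 394) (nat_lit 141)) (XT.lf (nat_lit 0) (nat_lit 31008356488) (nat_lit 1260) (nat_lit 22961948729) (nat_lit 84) (nat_lit 1414806336) (nat_lit 168) (nat_lit 5) (nat_lit 183) (nat_lit 5) (nat_lit 169) (nat_lit 5) (nat_lit 411) (nat_lit 394) (nat_lit 140)))) (XT.nd (nat_lit 188) (nat_lit 588) (nat_lit 0) (XT.nd (nat_lit 94) (nat_lit 0) (nat_lit 0) (XT.lf (nat_lit 0) (nat_lit 2152911162) (nat_lit 1260) (nat_lit 32894214477) (nat_lit 1344) (nat_lit 21269395085) (nat_lit 153) (nat_lit 5) (nat_lit 168) (nat_lit 5) (nat_lit 169) (nat_lit 5) (nat_lit 412) (nat_lit 394) (nat_lit 139)) (XT.lf (nat_lit 0) (nat_lit 28491194431) (nat_lit 1260) (nat_lit 10946905970) (nat_lit 1344) (nat_lit 17830841953) (nat_lit 153) (nat_lit 5) (nat_lit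 168) (nat_lit 5) (nat_lit 169) (nat_lit 5) (nat_lit 413) (nat_lit 394) (nat_lit 138))) (XT.nd (nat_lit 94) (nat_lit 588) (nat_lit 0) (XT.lf (nat_lit 0) (nat_lit 44072073143) (nat_lit 1344) (nat_lit 2743107603) (nat_lit 84) (nat_lit 11431419245) (nat_lit 153) (nat_lit 5) (nat_lit 169) (nat_lit 5) (nat_lit 154) (nat_lit 5) (nat_lit 414) (nat_lit 394) (nat_lit 137)) (XT.lf (nat_lit 0) (nat_lit 24440402697) (nat_lit 588) (nat_lit 24747204075) (nat_lit 672) (nat_lit 10055705709) (nat_lit 146) (nat_lit 5) (nat_lit 153) (nat_lit 5) (nat_lit 154) (nat_lit 5) (nat_lit 415) (nat_lit 394) (nat_lit 136))))) (XT.nd (nat_lit 282) (nat_lit 1176) (nat_lit 0) (XT.nd (nat_lit 94) (nat_lit 672) (nat_lit 0) (XT.lf (nat_lit 0) (nat_lit 52494951919) (nat_lit 588) (nat_lit 1988590899) (nat_lit 672) (nat_lit 5785576773) (nat_lit 146) (nat_lit 5) (nat_lit 153) (nat_lit 5) (nat_lit 154) (nat_lit 5) (nat_lit 416)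 (nat_lit 394) (nat_lit 135)) (XT.nd (nat_lit 94) (nat_lit 84) (nat_lit 0) (XT.lf (nat_lit 0) (nat_lit 20253741653) (nat_lit 588) (nat_lit 40084783157) (nat_lit 672) (nat_lit 975172367) (nat_lit 139) (nat_lit 5) (nat_lit 146) (nat_lit 5) (nat_lit 147) (nat_lit 5) (nat_lit 417) (nat_lit 394) (nat_lit 134)) (XT.lf (nat_lit 0) (nat_lit 4000124802) (nat_lit 672) (nat_lit 13164836208) (nat_lit 84) (nat_lit 45220557612) (nat_lit 138) (nat_lit 5) (nat_lit 146) (nat_lit 5) (nat_lit 139) (nat_lit 5) (nat_lit 418) (nat_lit 394) (nat_lit 133)))) (XT.nd (nat_lit 188) (nat_lit 588) (nat_lit 0) (XT.nd (nat_lit 94) (nat_lit 0) (nat_lit 0) (XT.lf (nat_lit 0) (nat_lit 9320420300) (nat_lit 672) (nat_lit 47681784171) (nat_lit 84) (nat_lit 6480541591) (nat_lit 131) (nat_lit 5) (nat_lit 139) (nat_lit 5) (nat_lit 132) (nat_lit 5) (nat_lit 419) (nat_lit 394) (nat_lit 132)) (XT.lf (nat_lit 0) (nat_lit 15103831507)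 (nat_lit 672) (nat_lit 18875273351) (nat_lit 84) (nat_lit 30624681413) (nat_lit 131) (nat_lit 5) (nat_lit 139) (nat_lit 5) (nat_lit 132) (nat_lit 5) (nat_lit 420) (nat_lit 394) (nat_lit 131))) (XT.nd (nat_lit 94) (nat_lit 0) (nat_lit 0) (XT.lf (nat_lit 0) (nat_lit 11009584953) (nat_lit 588) (nat_lit 10156312785) (nat_lit 672) (nat_lit 44589406490) (nat_lit 124) (nat_lit 5) (nat_lit 131) (nat_lit 5) (nat_lit 132) (nat_lit 5) (nat_lit 421) (nat_lit 394) (nat_lit 130)) (XT.lf (nat_lit 0) (nat_lit 27739891840) (nat_lit 672) (nat_lit 24898562414) (nat_lit 84) (nat_lit 14293012579) (nat_lit 124) (nat_lit 5) (nat_lit 132) (nat_lit 5) (nat_lit 125) (nat_lit 5) (nat_lit 422) (nat_lit 394) (nat_lit 129)))))) (XT.nd (nat_lit 658) (nat_lit 1680) (nat_lit 0) (XT.nd (nat_lit 282) (nat_lit 504) (nat_lit 0) (XT.nd (nat_lit 94) (nat_lit 504) (nat_lit 0) (XT.lf (nat_lit 0) (nat_lit 5857065702) (nat_lit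 504) (nat_lit 28810253619) (nat_lit 588) (nat_lit 33470909643) (nat_lit 118) (nat_lit 5) (nat_lit 124) (nat_lit 5) (nat_lit 125) (nat_lit 5) (nat_lit 423) (nat_lit 394) (nat_lit 128)) (XT.nd (nat_lit 94) (nat_lit 504) (nat_lit 0) (XT.lf (nat_lit 0) (nat_lit 38045087085) (nat_lit 504) (nat_lit 4008275858) (nat_lit 588) (nat_lit 27320308242) (nat_lit 118) (nat_lit 5) (nat_lit 124) (nat_lit 5) (nat_lit 125) (nat_lit 5) (nat_lit 424) (nat_lit 394) (nat_lit 127)) (XT.lf (nat_lit 0) (nat_lit 351730614) (nat_lit 504) (nat_lit 49519057190) (nat_lit 588) (nat_lit 20769095865) (nat_lit 112) (nat_lit 5) (nat_lit 118) (nat_lit 5) (nat_lit 119) (nat_lit 5) (nat_lit 425) (nat_lit 394) (nat_lit 126)))) (XT.nd (nat_lit 188) (nat_lit 504) (nat_lit 0) (XT.nd (nat_lit 94) (nat_lit 0) (nat_lit 0) (XT.lf (nat_lit 0) (nat_lit 33583519669) (nat_lit 504) (nat_lit 24694266111) (nat_lit 588) (nat_lit 13655646202)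 (nat_lit 112) (nat_lit 5) (nat_lit 118) (nat_lit 5) (nat_lit 119) (nat_lit 5) (nat_lit 426) (nat_lit 394) (nat_lit 125)) (XT.lf (nat_lit 0) (nat_lit 66944820607) (nat_lit 588) (nat_lit 5462601198) (nat_lit 84) (nat_lit 858131070) (nat_lit 112) (nat_lit 5) (nat_lit 119) (nat_lit 5) (nat_lit 113) (nat_lit 5) (nat_lit 427) (nat_lit 394) (nat_lit 124))) (XT.nd (nat_lit 94) (nat_lit 0) (nat_lit 0) (XT.lf (nat_lit 0) (nat_lit 1735360272) (nat_lit 504) (nat_lit 45912299613) (nat_lit 84) (nat_lit 26973866006) (nat_lit 106) (nat_lit 5) (nat_lit 112) (nat_lit 5) (nat_lit 107) (nat_lit 5) (nat_lit 428) (nat_lit 394) (nat_lit 123)) (XT.lf (nat_lit 0) (nat_lit 9961237285) (nat_lit 504) (nat_lit 12062114077) (nat_lit 84) (nat_lit 53991295884) (nat_lit 106) (nat_lit 5) (nat_lit 112) (nat_lit 5) (nat_lit 107) (nat_lit 5) (nat_lit 429) (nat_lit 394) (nat_lit 122))))) (XT.nd (nat_lit 282) (nat_lit 756)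 (nat_lit 0) (XT.nd (nat_lit 94) (nat_lit 420) (nat_lit 0) (XT.lf (nat_lit 0) (nat_lit 18701116578) (nat_lit 588) (nat_lit 54230319984) (nat_lit 84) (nat_lit 4510109732) (nat_lit 100) (nat_lit 5) (nat_lit 107) (nat_lit 5) (nat_lit 101) (nat_lit 5) (nat_lit 430) (nat_lit 394) (nat_lit 121)) (XT.nd (nat_lit 94) (nat_lit 420) (nat_lit 0) (XT.lf (nat_lit 0) (nat_lit 28043714992) (nat_lit 588) (nat_lit 19337469506) (nat_lit 84) (nat_lit 31519852943) (nat_lit 100) (nat_lit 5) (nat_lit 107) (nat_lit 5) (nat_lit 101) (nat_lit 5) (nat_lit 431) (nat_lit 394) (nat_lit 120)) (XT.lf (nat_lit 0) (nat_lit 16931947667) (nat_lit 420) (nat_lit 20896879733) (nat_lit 504) (nat_lit 42570619625) (nat_lit 95) (nat_lit 5) (nat_lit 100) (nat_lit 5) (nat_lit 101) (nat_lit 5) (nat_lit 432) (nat_lit 394) (nat_lit 119)))) (XT.nd (nat_lit 188) (nat_lit 336) (nat_lit 0) (XT.nd (nat_lit 94) (nat_lit 420) (nat_lit 0) (XT.lf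 (nat_lit 0) (nat_lit 48165528506) (nat_lit 504) (nat_lit 27315016118) (nat_lit 84) (nat_lit 6454523976) (nat_lit 95) (nat_lit 5) (nat_lit 101) (nat_lit 5) (nat_lit 96) (nat_lit 5) (nat_lit 433) (nat_lit 394) (nat_lit 118)) (XT.lf (nat_lit 0) (nat_lit 9907867140) (nat_lit 420) (nat_lit 49206102986) (nat_lit 504) (nat_lit 24393740253) (nat_lit 90) (nat_lit 5) (nat_lit 95) (nat_lit 5) (nat_lit 96) (nat_lit 5) (nat_lit 434) (nat_lit 394) (nat_lit 117))) (XT.nd (nat_lit 94) (nat_lit 336) (nat_lit 0) (XT.lf (nat_lit 0) (nat_lit 48806761103) (nat_lit 420) (nat_lit 21859439952) (nat_lit 504) (nat_lit 14453070993) (nat_lit 90) (nat_lit 5) (nat_lit 95) (nat_lit 5) (nat_lit 96) (nat_lit 5) (nat_lit 435) (nat_lit 394) (nat_lit 116)) (XT.lf (nat_lit 0) (nat_lit 2072650332) (nat_lit 336) (nat_lit 80572426110) (nat_lit 420) (nat_lit 4131702497) (nat_lit 86) (nat_lit 5) (nat_lit 90) (nat_lit 5) (nat_lit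 91) (nat_lit 5) (nat_lit 436) (nat_lit 394) (nat_lit 115))))))) (XT.nd (nat_lit 1316) (nat_lit 0) (nat_lit 0) (XT.nd (nat_lit 658) (nat_lit 1008) (nat_lit 0) (XT.nd (nat_lit 282) (nat_lit 672) (nat_lit 0) (XT.nd (nat_lit 94) (nat_lit 420) (nat_lit 0) (XT.lf (nat_lit 0) (nat_lit 6958752063) (nat_lit 420) (nat_lit 46402416463) (nat_lit 84) (nat_lit 35103380810) (nat_lit 85) (nat_lit 5) (nat_lit 90) (nat_lit 5) (nat_lit 86) (nat_lit 5) (nat_lit 437) (nat_lit 394) (nat_lit 114)) (XT.nd (nat_lit 94) (nat_lit 420) (nat_lit 0) (XT.lf (nat_lit 0) (nat_lit 18298415090) (nat_lit 420) (nat_lit 6993150555) (nat_lit 84) (nat_lit 64910174464) (nat_lit 85) (nat_lit 5) (nat_lit 90) (nat_lit 5) (nat_lit 86) (nat_lit 5) (nat_lit 438) (nat_lit 394) (nat_lit 113)) (XT.lf (nat_lit 0) (nat_lit 30345268783) (nat_lit 504) (nat_lit 57752754565) (nat_lit 84) (nat_lit 3882013852) (nat_lit 80) (nat_lit 5) (nat_lit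 86) (nat_lit 5) (nat_lit 81) (nat_lit 5) (nat_lit 439) (nat_lit 394) (nat_lit 112)))) (XT.nd (nat_lit 188) (nat_lit 336) (nat_lit 0) (XT.nd (nat_lit 94) (nat_lit 336) (nat_lit 0) (XT.lf (nat_lit 0) (nat_lit 43074813737) (nat_lit 504) (nat_lit 17233573347) (nat_lit 84) (nat_lit 33493658152) (nat_lit 80) (nat_lit 5) (nat_lit 86) (nat_lit 5) (nat_lit 81) (nat_lit 5) (nat_lit 440) (nat_lit 394) (nat_lit 111)) (XT.lf (nat_lit 0) (nat_lit 24988231089) (nat_lit 336) (nat_lit 31437786815) (nat_lit 420) (nat_lit 39245503009) (nat_lit 76) (nat_lit 5) (nat_lit 80) (nat_lit 5) (nat_lit 81) (nat_lit 5) (nat_lit 441) (nat_lit 394) (nat_lit 110))) (XT.nd (nat_lit 94) (nat_lit 336) (nat_lit 0) (XT.lf (nat_lit 0) (nat_lit 68829403923) (nat_lit 336) (nat_lit 1521957422) (nat_lit 420) (nat_lit 27240511986) (nat_lit 76) (nat_lit 5) (nat_lit 80) (nat_lit 5) (nat_lit 81) (nat_lit 5) (nat_lit 442) (nat_lit 394)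 (nat_lit 109)) (XT.lf (nat_lit 0) (nat_lit 14415148282) (nat_lit 336) (nat_lit 70699039262) (nat_lit 420) (nat_lit 14443057656) (nat_lit 72) (nat_lit 5) (nat_lit 76) (nat_lit 5) (nat_lit 77) (nat_lit 5) (nat_lit 443) (nat_lit 394) (nat_lit 108))))) (XT.nd (nat_lit 282) (nat_lit 588) (nat_lit 0) (XT.nd (nat_lit 94) (nat_lit 420) (nat_lit 0) (XT.lf (nat_lit 0) (nat_lit 59461781104) (nat_lit 336) (nat_lit 41163078721) (nat_lit 420) (nat_lit 947570095) (nat_lit 72) (nat_lit 5) (nat_lit 76) (nat_lit 5) (nat_lit 77) (nat_lit 5) (nat_lit 444) (nat_lit 394) (nat_lit 107)) (XT.nd (nat_lit 94) (nat_lit 0) (nat_lit 0) (XT.lf (nat_lit 0) (nat_lit 2128222436) (nat_lit 336) (nat_lit 10591864982) (nat_lit 420) (nat_lit 90923646145) (nat_lit 67) (nat_lit 5) (nat_lit 71) (nat_lit 5) (nat_lit 72) (nat_lit 5) (nat_lit 445) (nat_lit 394) (nat_lit 106)) (XT.lf (nat_lit 0) (nat_lit 27408652499) (nat_lit 420)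 (nat_lit 57421939398) (nat_lit 84) (nat_lit 20927405758) (nat_lit 67) (nat_lit 5) (nat_lit 72) (nat_lit 5) (nat_lit 68) (nat_lit 5) (nat_lit 446) (nat_lit 394) (nat_lit 105)))) (XT.nd (nat_lit 188) (nat_lit 252) (nat_lit 0) (XT.nd (nat_lit 94) (nat_lit 336) (nat_lit 0) (XT.lf (nat_lit 0) (nat_lit 42642363930) (nat_lit 420) (nat_lit 12110959639) (nat_lit 84) (nat_lit 53179231894) (nat_lit 67) (nat_lit 5) (nat_lit 72) (nat_lit 5) (nat_lit 68) (nat_lit 5) (nat_lit 447) (nat_lit 394) (nat_lit 104)) (XT.lf (nat_lit 0) (nat_lit 35246624346) (nat_lit 336) (nat_lit 23424905004) (nat_lit 420) (nat_lit 51490667836) (nat_lit 63) (nat_lit 5) (nat_lit 67) (nat_lit 5) (nat_lit 68) (nat_lit 5) (nat_lit 448) (nat_lit 394) (nat_lit 103))) (XT.nd (nat_lit 94) (nat_lit 252) (nat_lit 0) (XT.lf (nat_lit 0) (nat_lit 75389720393) (nat_lit 420) (nat_lit 28268597994) (nat_lit 84) (nat_lit 8794165703) (nat_lit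 63) (nat_lit 5) (nat_lit 68) (nat_lit 5) (nat_lit 64) (nat_lit 5) (nat_lit 449) (nat_lit 394) (nat_lit 102)) (XT.lf (nat_lit 0) (nat_lit 19934343613) (nat_lit 252) (nat_lit 73098310051) (nat_lit 336) (nat_lit 21766130477) (nat_lit 60) (nat_lit 5) (nat_lit 63) (nat_lit 5) (nat_lit 64) (nat_lit 5) (nat_lit 450) (nat_lit 394) (nat_lit 101)))))) (XT.nd (nat_lit 54614) (nat_lit 0) (nat_lit 8652) (XT.nd (nat_lit 54238) (nat_lit 0) (nat_lit 8484) (XT.nd (nat_lit 54050) (nat_lit 0) (nat_lit 8484) (XT.lf (nat_lit 0) (nat_lit 70162353374) (nat_lit 252) (nat_lit 41327630137) (nat_lit 336) (nat_lit 5716936847) (nat_lit 60) (nat_lit 5) (nat_lit 63) (nat_lit 5) (nat_lit 64) (nat_lit 5) (nat_lit 451) (nat_lit 394) (nat_lit 100)) (XT.nd (nat_lit 94) (nat_lit 0) (nat_lit 0) (XT.lf (nat_lit 0) (nat_lit 336760049) (nat_lit 0) (nat_lit 336760049) (nat_lit 1260) (nat_lit 21171722455) (nat_lit 161) (nat_lit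 5) (nat_lit 161) (nat_lit 3) (nat_lit 176) (nat_lit 3) (nat_lit 395) (nat_lit 395) (nat_lit 155)) (XT.lf (nat_lit 0) (nat_lit 1579336634) (nat_lit 1260) (nat_lit 24403026299) (nat_lit 1344) (nat_lit 18357058409) (nat_lit 161) (nat_lit 5) (nat_lit 176) (nat_lit 3) (nat_lit 177) (nat_lit 5) (nat_lit 396) (nat_lit 395) (nat_lit 154)))) (XT.nd (nat_lit 188) (nat_lit 0) (nat_lit 84) (XT.nd (nat_lit 94) (nat_lit 0) (nat_lit 84) (XT.lf (nat_lit 0) (nat_lit 1824022964) (nat_lit 1260) (nat_lit 5238010620) (nat_lit 1344) (nat_lit 37945631725) (nat_lit 161) (nat_lit 5) (nat_lit 176) (nat_lit 3) (nat_lit 177) (nat_lit 5) (nat_lit 397) (nat_lit 395) (nat_lit 153)) (XT.lf (nat_lit 0) (nat_lit 2337866727) (nat_lit 1260) (nat_lit 31022681650) (nat_lit 1344) (nat_lit 12327555924) (nat_lit 162) (nat_lit 5) (nat_lit 177) (nat_lit 5) (nat_lit 178) (nat_lit 5) (nat_lit 398) (nat_lit 395) (nat_lit 152))) (XT.nd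 (nat_lit 94) (nat_lit 0) (nat_lit 84) (XT.lf (nat_lit 0) (nat_lit 2989287290) (nat_lit 1260) (nat_lit 11185170911) (nat_lit 1344) (nat_lit 32210835562) (nat_lit 162) (nat_lit 5) (nat_lit 177) (nat_lit 5) (nat_lit 178) (nat_lit 5) (nat_lit 399) (nat_lit 395) (nat_lit 151)) (XT.lf (nat_lit 0) (nat_lit 3804372487) (nat_lit 1260) (nat_lit 37724500317) (nat_lit 1344) (nat_lit 5570204527) (nat_lit 163) (nat_lit 5) (nat_lit 178) (nat_lit 5) (nat_lit 179) (nat_lit 5) (nat_lit 400) (nat_lit 395) (nat_lit 150))))) (XT.nd (nat_lit 282) (nat_lit 0) (nat_lit 84) (XT.nd (nat_lit 94) (nat_lit 0) (nat_lit 0) (XT.lf (nat_lit 0) (nat_lit 4897206579) (nat_lit 1260) (nat_lit 17192645656) (nat_lit 1344) (nat_lit 25736825305) (nat_lit 163) (nat_lit 5) (nat_lit 178) (nat_lit 5) (nat_lit 179) (nat_lit 5) (nat_lit 401) (nat_lit 395) (nat_lit 149)) (XT.nd (nat_lit 94) (nat_lit 0) (nat_lit 84) (XT.lf (nat_lit 84)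 (nat_lit 4033184420) (nat_lit 0) (nat_lit 2027331653) (nat_lit 1344) (nat_lit 42514460932) (nat_lit 164) (nat_lit 5) (nat_lit 163) (nat_lit 5) (nat_lit 179) (nat_lit 5) (nat_lit 402) (nat_lit 395) (nat_lit 148)) (XT.lf (nat_lit 0) (nat_lit 7612156179) (nat_lit 1260) (nat_lit 23273877771) (nat_lit 1344) (nat_lit 18449090469) (nat_lit 164) (nat_lit 5) (nat_lit 179) (nat_lit 5) (nat_lit 180) (nat_lit 5) (nat_lit 403) (nat_lit 395) (nat_lit 147)))) (XT.nd (nat_lit 188) (nat_lit 0) (nat_lit 84) (XT.nd (nat_lit 94) (nat_lit 0) (nat_lit 84) (XT.lf (nat_lit 0) (nat_lit 9229398195) (nat_lit 1260) (nat_lit 1388690008) (nat_lit 1344) (nat_lit 39499418324) (nat_lit 164) (nat_lit 5) (nat_lit 179) (nat_lit 5) (nat_lit 180) (nat_lit 5) (nat_lit 404) (nat_lit 395) (nat_lit 146)) (XT.lf (nat_lit 0) (nat_lit 11202205047) (nat_lit 1260) (nat_lit 29444476267) (nat_lit 1344) (nat_lit 10267469152) (nat_lit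 165) (nat_lit 5) (nat_lit 180) (nat_lit 5) (nat_lit 181) (nat_lit 5) (nat_lit 405) (nat_lit 395) (nat_lit 145))) (XT.nd (nat_lit 94) (nat_lit 0) (nat_lit 84) (XT.lf (nat_lit 0) (nat_lit 13352522755) (nat_lit 1260) (nat_lit 6797984193) (nat_lit 1344) (nat_lit 31580638721) (nat_lit 165) (nat_lit 5) (nat_lit 180) (nat_lit 5) (nat_lit 181) (nat_lit 5) (nat_lit 406) (nat_lit 395) (nat_lit 144)) (XT.lf (nat_lit 0) (nat_lit 15739285057) (nat_lit 1260) (nat_lit 35722511438) (nat_lit 1344) (nat_lit 1105697875) (nat_lit 166) (nat_lit 5) (nat_lit 181) (nat_lit 5) (nat_lit 182) (nat_lit 5) (nat_lit 407) (nat_lit 395) (nat_lit 143))))))))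
noncomputable def xc228 : XT := (XT.nd (nat_lit 2538) (nat_lit 2688) (nat_lit 0) (XT.nd (nat_lit 1222) (nat_lit 3024) (nat_lit 0) (XT.nd (nat_lit 564) (nat_lit 1848) (nat_lit 0) (XT.nd (nat_lit 282) (nat_lit 1092) (nat_lit 0) (XT.nd (nat_lit 94) (nat_lit 0) (nat_lit 0) (XT.lf (nat_lit 0) (nat_lit 18465572625) (nat_lit 1260) (nat_lit 12291176004) (nat_lit 1344) (nat_lit 22664148875) (nat_lit 166) (nat_lit 5) (nat_lit 181) (nat_lit 5) (nat_lit 182) (nat_lit 5) (nat_lit 408) (nat_lit 395) (nat_lit 142)) (XT.nd (nat_lit 94) (nat_lit 0) (nat_lit 84) (XT.lf (nat_lit 84) (nat_lit 12078103978) (nat_lit 0) (nat_lit 9310760023) (nat_lit 1344) (nat_lit 32907583872) (nat_lit 167) (nat_lit 5) (nat_lit 166) (nat_lit 5) (nat_lit 182) (nat_lit 5) (nat_lit 409) (nat_lit 395) (nat_lit 141)) (XT.lf (nat_lit 0) (nat_lit 24647169807) (nat_lit 1260) (nat_lit 17888892060) (nat_lit 1344) (nat_lit 12654784965)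 (nat_lit 167) (nat_lit 5) (nat_lit 182) (nat_lit 5) (nat_lit 183) (nat_lit 5) (nat_lit 410) (nat_lit 395) (nat_lit 140)))) (XT.nd (nat_lit 94) (nat_lit 1176) (nat_lit 0) (XT.lf (nat_lit 84) (nat_lit 7218430159) (nat_lit 0) (nat_lit 20945527784) (nat_lit 1344) (nat_lit 27943299326) (nat_lit 168) (nat_lit 5) (nat_lit 167) (nat_lit 5) (nat_lit 183) (nat_lit 5) (nat_lit 411) (nat_lit 395) (nat_lit 139)) (XT.nd (nat_lit 94) (nat_lit 1260) (nat_lit 0) (XT.lf (nat_lit 0) (nat_lit 31980286236) (nat_lit 1260) (nat_lit 23614984733) (nat_lit 84) (nat_lit 1450069416) (nat_lit 168) (nat_lit 5) (nat_lit 183) (nat_lit 5) (nat_lit 169) (nat_lit 5) (nat_lit 412) (nat_lit 395) (nat_lit 138)) (XT.lf (nat_lit 0) (nat_lit 2252969754) (nat_lit 1260) (nat_lit 33886375726) (nat_lit 1344) (nat_lit 21865374700) (nat_lit 153) (nat_lit 5) (nat_lit 168) (nat_lit 5) (nat_lit 169) (nat_lit 5) (nat_lit 413) (nat_lit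 395) (nat_lit 137))))) (XT.nd (nat_lit 282) (nat_lit 1260) (nat_lit 0) (XT.nd (nat_lit 94) (nat_lit 588) (nat_lit 0) (XT.lf (nat_lit 0) (nat_lit 29380368378) (nat_lit 1260) (nat_lit 11280492582) (nat_lit 1344) (nat_lit 18324891253) (nat_lit 153) (nat_lit 5) (nat_lit 168) (nat_lit 5) (nat_lit 169) (nat_lit 5) (nat_lit 414) (nat_lit 395) (nat_lit 136)) (XT.nd (nat_lit 94) (nat_lit 588) (nat_lit 0) (XT.lf (nat_lit 0) (nat_lit 45432650636) (nat_lit 1344) (nat_lit 2790695671) (nat_lit 84) (nat_lit 11769431373) (nat_lit 153) (nat_lit 5) (nat_lit 169) (nat_lit 5) (nat_lit 154) (nat_lit 5) (nat_lit 415) (nat_lit 395) (nat_lit 135)) (XT.lf (nat_lit 0) (nat_lit 25207979691) (nat_lit 588) (nat_lit 25492882027) (nat_lit 672) (nat_lit 10318555460) (nat_lit 146) (nat_lit 5) (nat_lit 153) (nat_lit 5) (nat_lit 154) (nat_lit 5) (nat_lit 416) (nat_lit 395) (nat_lit 134)))) (XT.nd (nat_lit 188) (nat_lit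 672) (nat_lit 0) (XT.nd (nat_lit 94) (nat_lit 588) (nat_lit 0) (XT.lf (nat_lit 0) (nat_lit 54103164470) (nat_lit 588) (nat_lit 2051415451) (nat_lit 672) (nat_lit 5921453377) (nat_lit 146) (nat_lit 5) (nat_lit 153) (nat_lit 5) (nat_lit 154) (nat_lit 5) (nat_lit 417) (nat_lit 395) (nat_lit 133)) (XT.lf (nat_lit 0) (nat_lit 20895569449) (nat_lit 588) (nat_lit 41288877265) (nat_lit 672) (nat_lit 967526300) (nat_lit 139) (nat_lit 5) (nat_lit 146) (nat_lit 5) (nat_lit 147) (nat_lit 5) (nat_lit 418) (nat_lit 395) (nat_lit 132))) (XT.nd (nat_lit 94) (nat_lit 588) (nat_lit 0) (XT.lf (nat_lit 0) (nat_lit 4155255887) (nat_lit 672) (nat_lit 13525804685) (nat_lit 84) (nat_lit 46574911260) (nat_lit 138) (nat_lit 5) (nat_lit 146) (nat_lit 5) (nat_lit 139) (nat_lit 5) (nat_lit 419) (nat_lit 395) (nat_lit 131)) (XT.lf (nat_lit 0) (nat_lit 9634452988) (nat_lit 672) (nat_lit 49077497001) (nat_lit 84) (nat_lit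 6674189028) (nat_lit 131) (nat_lit 5) (nat_lit 139) (nat_lit 5) (nat_lit 132) (nat_lit 5) (nat_lit 420) (nat_lit 395) (nat_lit 130)))))) (XT.nd (nat_lit 658) (nat_lit 1428) (nat_lit 0) (XT.nd (nat_lit 282) (nat_lit 1008) (nat_lit 0) (XT.nd (nat_lit 94) (nat_lit 588) (nat_lit 0) (XT.lf (nat_lit 0) (nat_lit 15590364006) (nat_lit 672) (nat_lit 19407802722) (nat_lit 84) (nat_lit 31542675437) (nat_lit 131) (nat_lit 5) (nat_lit 139) (nat_lit 5) (nat_lit 132) (nat_lit 5) (nat_lit 421) (nat_lit 395) (nat_lit 129)) (XT.nd (nat_lit 94) (nat_lit 0) (nat_lit 0) (XT.lf (nat_lit 0) (nat_lit 11373270657) (nat_lit 588) (nat_lit 10460369283) (nat_lit 672) (nat_lit 45893286894) (nat_lit 124) (nat_lit 5) (nat_lit 131) (nat_lit 5) (nat_lit 132) (nat_lit 5) (nat_lit 422) (nat_lit 395) (nat_lit 128)) (XT.lf (nat_lit 0) (nat_lit 28603905443) (nat_lit 672) (nat_lit 25612093469) (nat_lit 84) (nat_lit 14722405418)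 (nat_lit 124) (nat_lit 5) (nat_lit 132) (nat_lit 5) (nat_lit 125) (nat_lit 5) (nat_lit 423) (nat_lit 395) (nat_lit 127)))) (XT.nd (nat_lit 188) (nat_lit 504) (nat_lit 0) (XT.nd (nat_lit 94) (nat_lit 0) (nat_lit 0) (XT.lf (nat_lit 0) (nat_lit 6065875786) (nat_lit 504) (nat_lit 29672671418) (nat_lit 588) (nat_lit 34442841893) (nat_lit 118) (nat_lit 5) (nat_lit 124) (nat_lit 5) (nat_lit 125) (nat_lit 5) (nat_lit 424) (nat_lit 395) (nat_lit 126)) (XT.lf (nat_lit 0) (nat_lit 39218573788) (nat_lit 504) (nat_lit 4126689366) (nat_lit 588) (nat_lit 28108660170) (nat_lit 118) (nat_lit 5) (nat_lit 124) (nat_lit 5) (nat_lit 125) (nat_lit 5) (nat_lit 425) (nat_lit 395) (nat_lit 125))) (XT.nd (nat_lit 94) (nat_lit 0) (nat_lit 0) (XT.lf (nat_lit 0) (nat_lit 395032724) (nat_lit 504) (nat_lit 51001627471) (nat_lit 588) (nat_lit 21361479932) (nat_lit 112) (nat_lit 5) (nat_lit 118) (nat_lit 5) (nat_lit 119)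 (nat_lit 5) (nat_lit 426) (nat_lit 395) (nat_lit 124)) (XT.lf (nat_lit 0) (nat_lit 34622821561) (nat_lit 504) (nat_lit 25432180081) (nat_lit 588) (nat_lit 14035520628) (nat_lit 112) (nat_lit 5) (nat_lit 118) (nat_lit 5) (nat_lit 119) (nat_lit 5) (nat_lit 427) (nat_lit 395) (nat_lit 123))))) (XT.nd (nat_lit 282) (nat_lit 924) (nat_lit 0) (XT.nd (nat_lit 94) (nat_lit 504) (nat_lit 0) (XT.lf (nat_lit 0) (nat_lit 68981233477) (nat_lit 588) (nat_lit 5594750145) (nat_lit 84) (nat_lit 886648935) (nat_lit 112) (nat_lit 5) (nat_lit 119) (nat_lit 5) (nat_lit 113) (nat_lit 5) (nat_lit 428) (nat_lit 395) (nat_lit 122)) (XT.nd (nat_lit 94) (nat_lit 0) (nat_lit 0) (XT.lf (nat_lit 0) (nat_lit 1815289320) (nat_lit 504) (nat_lit 47257653667) (nat_lit 84) (nat_lit 27786350352) (nat_lit 106) (nat_lit 5) (nat_lit 112) (nat_lit 5) (nat_lit 107) (nat_lit 5) (nat_lit 429) (nat_lit 395) (nat_lit 121)) (XT.lf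 (nat_lit 0) (nat_lit 10287130947) (nat_lit 504) (nat_lit 12392895038) (nat_lit 84) (nat_lit 55614207931) (nat_lit 106) (nat_lit 5) (nat_lit 112) (nat_lit 5) (nat_lit 107) (nat_lit 5) (nat_lit 430) (nat_lit 395) (nat_lit 120)))) (XT.nd (nat_lit 188) (nat_lit 420) (nat_lit 0) (XT.nd (nat_lit 94) (nat_lit 0) (nat_lit 0) (XT.lf (nat_lit 0) (nat_lit 19288754920) (nat_lit 588) (nat_lit 55825655568) (nat_lit 84) (nat_lit 4649544194) (nat_lit 100) (nat_lit 5) (nat_lit 107) (nat_lit 5) (nat_lit 101) (nat_lit 5) (nat_lit 431) (nat_lit 395) (nat_lit 119)) (XT.lf (nat_lit 0) (nat_lit 28910856388) (nat_lit 588) (nat_lit 19886939208) (nat_lit 84) (nat_lit 32469459376) (nat_lit 100) (nat_lit 5) (nat_lit 107) (nat_lit 5) (nat_lit 101) (nat_lit 5) (nat_lit 432) (nat_lit 395) (nat_lit 118))) (XT.nd (nat_lit 94) (nat_lit 0) (nat_lit 0) (XT.lf (nat_lit 0) (nat_lit 17470259948) (nat_lit 420) (nat_lit 21518801673)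 (nat_lit 504) (nat_lit 43821570167) (nat_lit 95) (nat_lit 5) (nat_lit 100) (nat_lit 5) (nat_lit 101) (nat_lit 5) (nat_lit 433) (nat_lit 395) (nat_lit 117)) (XT.lf (nat_lit 0) (nat_lit 49635171363) (nat_lit 504) (nat_lit 28104267975) (nat_lit 84) (nat_lit 6652904539) (nat_lit 95) (nat_lit 5) (nat_lit 101) (nat_lit 5) (nat_lit 96) (nat_lit 5) (nat_lit 434) (nat_lit 395) (nat_lit 116))))))) (XT.nd (nat_lit 1316) (nat_lit 336) (nat_lit 0) (XT.nd (nat_lit 658) (nat_lit 1092) (nat_lit 0) (XT.nd (nat_lit 282) (nat_lit 504) (nat_lit 0) (XT.nd (nat_lit 94) (nat_lit 336) (nat_lit 0) (XT.lf (nat_lit 0) (nat_lit 10235005717) (nat_lit 420) (nat_lit 50676629209) (nat_lit 504) (nat_lit 25100543984) (nat_lit 90) (nat_lit 5) (nat_lit 95) (nat_lit 5) (nat_lit 96) (nat_lit 5) (nat_lit 435) (nat_lit 395) (nat_lit 115)) (XT.nd (nat_lit 94) (nat_lit 336) (nat_lit 0) (XT.lf (nat_lit 0) (nat_lit 50299995550)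 (nat_lit 420) (nat_lit 22509731047) (nat_lit 504) (nat_lit 14862383048) (nat_lit 90) (nat_lit 5) (nat_lit 95) (nat_lit 5) (nat_lit 96) (nat_lit 5) (nat_lit 436) (nat_lit 395) (nat_lit 114)) (XT.lf (nat_lit 0) (nat_lit 2164257860) (nat_lit 336) (nat_lit 82983358904) (nat_lit 420) (nat_lit 4231736524) (nat_lit 86) (nat_lit 5) (nat_lit 90) (nat_lit 5) (nat_lit 91) (nat_lit 5) (nat_lit 437) (nat_lit 395) (nat_lit 113)))) (XT.nd (nat_lit 188) (nat_lit 420) (nat_lit 0) (XT.nd (nat_lit 94) (nat_lit 0) (nat_lit 0) (XT.lf (nat_lit 0) (nat_lit 7190281946) (nat_lit 420) (nat_lit 47765433489) (nat_lit 84) (nat_lit 36162055901) (nat_lit 85) (nat_lit 5) (nat_lit 90) (nat_lit 5) (nat_lit 86) (nat_lit 5) (nat_lit 438) (nat_lit 395) (nat_lit 112)) (XT.lf (nat_lit 0) (nat_lit 18869471737) (nat_lit 420) (nat_lit 7174735879) (nat_lit 84) (nat_lit 66862891024) (nat_lit 85) (nat_lit 5) (nat_lit 90) (nat_lit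 5) (nat_lit 86) (nat_lit 5) (nat_lit 439) (nat_lit 395) (nat_lit 111))) (XT.nd (nat_lit 94) (nat_lit 0) (nat_lit 0) (XT.lf (nat_lit 0) (nat_lit 31277415369) (nat_lit 504) (nat_lit 59456782682) (nat_lit 84) (nat_lit 4004556953) (nat_lit 80) (nat_lit 5) (nat_lit 86) (nat_lit 5) (nat_lit 81) (nat_lit 5) (nat_lit 440) (nat_lit 395) (nat_lit 110)) (XT.lf (nat_lit 0) (nat_lit 44388212055) (nat_lit 504) (nat_lit 17722857713) (nat_lit 84) (nat_lit 34504373417) (nat_lit 80) (nat_lit 5) (nat_lit 86) (nat_lit 5) (nat_lit 81) (nat_lit 5) (nat_lit 441) (nat_lit 395) (nat_lit 109))))) (XT.nd (nat_lit 282) (nat_lit 420) (nat_lit 0) (XT.nd (nat_lit 94) (nat_lit 336) (nat_lit 0) (XT.lf (nat_lit 0) (nat_lit 25765329064) (nat_lit 336) (nat_lit 32374271026) (nat_lit 420) (nat_lit 40401414447) (nat_lit 76) (nat_lit 5) (nat_lit 80) (nat_lit 5) (nat_lit 81) (nat_lit 5) (nat_lit 442) (nat_lit 395) (nat_lit 108))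 (XT.nd (nat_lit 94) (nat_lit 336) (nat_lit 0) (XT.lf (nat_lit 0) (nat_lit 70920937538) (nat_lit 336) (nat_lit 1561160423) (nat_lit 420) (nat_lit 28036898558) (nat_lit 76) (nat_lit 5) (nat_lit 80) (nat_lit 5) (nat_lit 81) (nat_lit 5) (nat_lit 443) (nat_lit 395) (nat_lit 107)) (XT.lf (nat_lit 0) (nat_lit 14874558297) (nat_lit 336) (nat_lit 72812981784) (nat_lit 420) (nat_lit 14855798318) (nat_lit 72) (nat_lit 5) (nat_lit 76) (nat_lit 5) (nat_lit 77) (nat_lit 5) (nat_lit 444) (nat_lit 395) (nat_lit 106)))) (XT.nd (nat_lit 188) (nat_lit 0) (nat_lit 0) (XT.nd (nat_lit 94) (nat_lit 420) (nat_lit 0) (XT.lf (nat_lit 0) (nat_lit 61271804991) (nat_lit 336) (nat_lit 42391147145) (nat_lit 420) (nat_lit 956044705) (nat_lit 72) (nat_lit 5) (nat_lit 76) (nat_lit 5) (nat_lit 77) (nat_lit 5) (nat_lit 445) (nat_lit 395) (nat_lit 105)) (XT.lf (nat_lit 0) (nat_lit 2218393110) (nat_lit 336) (nat_lit 10902543320)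 (nat_lit 420) (nat_lit 93631507634) (nat_lit 67) (nat_lit 5) (nat_lit 71) (nat_lit 5) (nat_lit 72) (nat_lit 5) (nat_lit 446) (nat_lit 395) (nat_lit 104))) (XT.nd (nat_lit 94) (nat_lit 0) (nat_lit 0) (XT.lf (nat_lit 0) (nat_lit 28249663942) (nat_lit 420) (nat_lit 59118522364) (nat_lit 84) (nat_lit 21561965312) (nat_lit 67) (nat_lit 5) (nat_lit 72) (nat_lit 5) (nat_lit 68) (nat_lit 5) (nat_lit 447) (nat_lit 395) (nat_lit 103)) (XT.lf (nat_lit 0) (nat_lit 43939840545) (nat_lit 420) (nat_lit 12448972685) (nat_lit 84) (nat_lit 54781149997) (nat_lit 67) (nat_lit 5) (nat_lit 72) (nat_lit 5) (nat_lit 68) (nat_lit 5) (nat_lit 448) (nat_lit 395) (nat_lit 102)))))) (XT.nd (nat_lit 54802) (nat_lit 0) (nat_lit 8400) (XT.nd (nat_lit 54426) (nat_lit 0) (nat_lit 8232) (XT.nd (nat_lit 94) (nat_lit 0) (nat_lit 0) (XT.lf (nat_lit 0) (nat_lit 36329090626) (nat_lit 336) (nat_lit 24120501004) (nat_lit 420)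 (nat_lit 53016911914) (nat_lit 63) (nat_lit 5) (nat_lit 67) (nat_lit 5) (nat_lit 68) (nat_lit 5) (nat_lit 449) (nat_lit 395) (nat_lit 101)) (XT.nd (nat_lit 54238) (nat_lit 0) (nat_lit 8232) (XT.lf (nat_lit 0) (nat_lit 77668873306) (nat_lit 420) (nat_lit 29091841985) (nat_lit 84) (nat_lit 9064798058) (nat_lit 63) (nat_lit 5) (nat_lit 68) (nat_lit 5) (nat_lit 64) (nat_lit 5) (nat_lit 450) (nat_lit 395) (nat_lit 100)) (XT.lf (nat_lit 0) (nat_lit 362768310) (nat_lit 0) (nat_lit 362768310) (nat_lit 1260) (nat_lit 21774051125) (nat_lit 161) (nat_lit 5) (nat_lit 161) (nat_lit 3) (nat_lit 176) (nat_lit 3) (nat_lit 396) (nat_lit 396) (nat_lit 153)))) (XT.nd (nat_lit 188) (nat_lit 0) (nat_lit 84) (XT.nd (nat_lit 94) (nat_lit 0) (nat_lit 0) (XT.lf (nat_lit 0) (nat_lit 1688188630) (nat_lit 1260) (nat_lit 25101970609) (nat_lit 1344) (nat_lit 18877488439) (nat_lit 161) (nat_lit 5) (nat_lit 176) (nat_lit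 3) (nat_lit 177) (nat_lit 5) (nat_lit 397) (nat_lit 396) (nat_lit 152)) (XT.lf (nat_lit 0) (nat_lit 1938425106) (nat_lit 1260) (nat_lit 5362969892) (nat_lit 1344) (nat_lit 39054600946) (nat_lit 161) (nat_lit 5) (nat_lit 176) (nat_lit 3) (nat_lit 177) (nat_lit 5) (nat_lit 398) (nat_lit 396) (nat_lit 151))) (XT.nd (nat_lit 94) (nat_lit 0) (nat_lit 0) (XT.lf (nat_lit 0) (nat_lit 2465998580) (nat_lit 1260) (nat_lit 31919389742) (nat_lit 1344) (nat_lit 12671513524) (nat_lit 162) (nat_lit 5) (nat_lit 177) (nat_lit 5) (nat_lit 178) (nat_lit 5) (nat_lit 399) (nat_lit 396) (nat_lit 150)) (XT.lf (nat_lit 0) (nat_lit 3135272561) (nat_lit 1260) (nat_lit 11487743167) (nat_lit 1344) (nat_lit 33152045019) (nat_lit 162) (nat_lit 5) (nat_lit 177) (nat_lit 5) (nat_lit 178) (nat_lit 5) (nat_lit 400) (nat_lit 396) (nat_lit 149))))) (XT.nd (nat_lit 282) (nat_lit 0) (nat_lit 84) (XT.nd (nat_lit 94) (nat_lit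 0) (nat_lit 0) (XT.lf (nat_lit 0) (nat_lit 3973269693) (nat_lit 1260) (nat_lit 38821612193) (nat_lit 1344) (nat_lit 5715425143) (nat_lit 163) (nat_lit 5) (nat_lit 178) (nat_lit 5) (nat_lit 179) (nat_lit 5) (nat_lit 401) (nat_lit 396) (nat_lit 148)) (XT.nd (nat_lit 94) (nat_lit 0) (nat_lit 0) (XT.lf (nat_lit 0) (nat_lit 5097293680) (nat_lit 1260) (nat_lit 17674810333) (nat_lit 1344) (nat_lit 26487681986) (nat_lit 163) (nat_lit 5) (nat_lit 178) (nat_lit 5) (nat_lit 179) (nat_lit 5) (nat_lit 402) (nat_lit 396) (nat_lit 147)) (XT.lf (nat_lit 84) (nat_lit 4187465089) (nat_lit 0) (nat_lit 2106808659) (nat_lit 1344) (nat_lit 43736300378) (nat_lit 164) (nat_lit 5) (nat_lit 163) (nat_lit 5) (nat_lit 179) (nat_lit 5) (nat_lit 403) (nat_lit 396) (nat_lit 146)))) (XT.nd (nat_lit 188) (nat_lit 0) (nat_lit 84) (XT.nd (nat_lit 94) (nat_lit 0) (nat_lit 0) (XT.lf (nat_lit 0) (nat_lit 7890776060) (nat_lit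 1260) (nat_lit 23938000253) (nat_lit 1344) (nat_lit 18984802998) (nat_lit 164) (nat_lit 5) (nat_lit 179) (nat_lit 5) (nat_lit 180) (nat_lit 5) (nat_lit 404) (nat_lit 396) (nat_lit 145)) (XT.lf (nat_lit 0) (nat_lit 9555071593) (nat_lit 1260) (nat_lit 1397249881) (nat_lit 1344) (nat_lit 40667157975) (nat_lit 164) (nat_lit 5) (nat_lit 179) (nat_lit 5) (nat_lit 180) (nat_lit 5) (nat_lit 405) (nat_lit 396) (nat_lit 144))) (XT.nd (nat_lit 94) (nat_lit 0) (nat_lit 0) (XT.lf (nat_lit 0) (nat_lit 11585813290) (nat_lit 1260) (nat_lit 30293374418) (nat_lit 1344) (nat_lit 10560875059) (nat_lit 165) (nat_lit 5) (nat_lit 180) (nat_lit 5) (nat_lit 181) (nat_lit 5) (nat_lit 406) (nat_lit 396) (nat_lit 143)) (XT.lf (nat_lit 0) (nat_lit 13799255809) (nat_lit 1260) (nat_lit 6968490576) (nat_lit 1344) (nat_lit 32513865486) (nat_lit 165) (nat_lit 5) (nat_lit 180) (nat_lit 5) (nat_lit 181) (nat_lit 5) (nat_lit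 407) (nat_lit 396) (nat_lit 142))))))))
noncomputable def xc229 : XT := (XT.nd (nat_lit 2538) (nat_lit 2688) (nat_lit 0) (XT.nd (nat_lit 1222) (nat_lit 3612) (nat_lit 0) (XT.nd (nat_lit 564) (nat_lit 2352) (nat_lit 0) (XT.nd (nat_lit 282) (nat_lit 0) (nat_lit 84) (XT.nd (nat_lit 94) (nat_lit 0) (nat_lit 0) (XT.lf (nat_lit 0) (nat_lit 16256479220) (nat_lit 1260) (nat_lit 36759530860) (nat_lit 1344) (nat_lit 1127077636) (nat_lit 166) (nat_lit 5) (nat_lit 181) (nat_lit 5) (nat_lit 182) (nat_lit 5) (nat_lit 408) (nat_lit 396) (nat_lit 141)) (XT.nd (nat_lit 94) (nat_lit 0) (nat_lit 0) (XT.lf (nat_lit 0) (nat_lit 19063244280) (nat_lit 1260) (nat_lit 12626264759) (nat_lit 1344) (nat_lit 23332625598) (nat_lit 166) (nat_lit 5) (nat_lit 181) (nat_lit 5) (nat_lit 182) (nat_lit 5) (nat_lit 409) (nat_lit 396) (nat_lit 140)) (XT.lf (nat_lit 84) (nat_lit 12473763755) (nat_lit 0) (nat_lit 9599517957)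 (nat_lit 1344) (nat_lit 33850700677) (nat_lit 167) (nat_lit 5) (nat_lit 166) (nat_lit 5) (nat_lit 182) (nat_lit 5) (nat_lit 410) (nat_lit 396) (nat_lit 139)))) (XT.nd (nat_lit 94) (nat_lit 0) (nat_lit 0) (XT.lf (nat_lit 0) (nat_lit 25428003439) (nat_lit 1260) (nat_lit 18391805158) (nat_lit 1344) (nat_lit 13025446942) (nat_lit 167) (nat_lit 5) (nat_lit 182) (nat_lit 5) (nat_lit 183) (nat_lit 5) (nat_lit 411) (nat_lit 396) (nat_lit 138)) (XT.nd (nat_lit 94) (nat_lit 0) (nat_lit 84) (XT.lf (nat_lit 84) (nat_lit 7468405810) (nat_lit 0) (nat_lit 21581004325) (nat_lit 1344) (nat_lit 28739776866) (nat_lit 168) (nat_lit 5) (nat_lit 167) (nat_lit 5) (nat_lit 183) (nat_lit 5) (nat_lit 412) (nat_lit 396) (nat_lit 137)) (XT.lf (nat_lit 0) (nat_lit 32978981329) (nat_lit 1260) (nat_lit 24289668173) (nat_lit 84) (nat_lit 1486802613) (nat_lit 168) (nat_lit 5) (nat_lit 183) (nat_lit 5) (nat_lit 169) (nat_lit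 5) (nat_lit 413) (nat_lit 396) (nat_lit 136))))) (XT.nd (nat_lit 282) (nat_lit 1260) (nat_lit 0) (XT.nd (nat_lit 94) (nat_lit 0) (nat_lit 0) (XT.lf (nat_lit 0) (nat_lit 2353993908) (nat_lit 1260) (nat_lit 34907995573) (nat_lit 1344) (nat_lit 22481650545) (nat_lit 153) (nat_lit 5) (nat_lit 168) (nat_lit 5) (nat_lit 169) (nat_lit 5) (nat_lit 414) (nat_lit 396) (nat_lit 135)) (XT.nd (nat_lit 94) (nat_lit 0) (nat_lit 0) (XT.lf (nat_lit 0) (nat_lit 30294240654) (nat_lit 1260) (nat_lit 11623789470) (nat_lit 1344) (nat_lit 18836108480) (nat_lit 153) (nat_lit 5) (nat_lit 168) (nat_lit 5) (nat_lit 169) (nat_lit 5) (nat_lit 415) (nat_lit 396) (nat_lit 134)) (XT.lf (nat_lit 0) (nat_lit 46831840258) (nat_lit 1344) (nat_lit 2841703600) (nat_lit 84) (nat_lit 12117866893) (nat_lit 153) (nat_lit 5) (nat_lit 169) (nat_lit 5) (nat_lit 154) (nat_lit 5) (nat_lit 416) (nat_lit 396) (nat_lit 133)))) (XT.nd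 (nat_lit 188) (nat_lit 672) (nat_lit 0) (XT.nd (nat_lit 94) (nat_lit 0) (nat_lit 0) (XT.lf (nat_lit 0) (nat_lit 25996611308) (nat_lit 588) (nat_lit 26260743076) (nat_lit 672) (nat_lit 10591519213) (nat_lit 146) (nat_lit 5) (nat_lit 153) (nat_lit 5) (nat_lit 154) (nat_lit 5) (nat_lit 417) (nat_lit 396) (nat_lit 132)) (XT.lf (nat_lit 0) (nat_lit 55757708167) (nat_lit 588) (nat_lit 2115942952) (nat_lit 672) (nat_lit 6063569880) (nat_lit 146) (nat_lit 5) (nat_lit 153) (nat_lit 5) (nat_lit 154) (nat_lit 5) (nat_lit 418) (nat_lit 396) (nat_lit 131))) (XT.nd (nat_lit 94) (nat_lit 84) (nat_lit 0) (XT.lf (nat_lit 0) (nat_lit 21554687967) (nat_lit 588) (nat_lit 42529005184) (nat_lit 672) (nat_lit 961769133) (nat_lit 139) (nat_lit 5) (nat_lit 146) (nat_lit 5) (nat_lit 147) (nat_lit 5) (nat_lit 419) (nat_lit 396) (nat_lit 130)) (XT.lf (nat_lit 0) (nat_lit 4313024452) (nat_lit 672) (nat_lit 13899552613)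 (nat_lit 84) (nat_lit 47970025426) (nat_lit 138) (nat_lit 5) (nat_lit 146) (nat_lit 5) (nat_lit 139) (nat_lit 5) (nat_lit 420) (nat_lit 396) (nat_lit 129)))))) (XT.nd (nat_lit 658) (nat_lit 1428) (nat_lit 0) (XT.nd (nat_lit 282) (nat_lit 1008) (nat_lit 0) (XT.nd (nat_lit 94) (nat_lit 588) (nat_lit 0) (XT.lf (nat_lit 0) (nat_lit 9955930804) (nat_lit 672) (nat_lit 50517075474) (nat_lit 84) (nat_lit 6873690021) (nat_lit 131) (nat_lit 5) (nat_lit 139) (nat_lit 5) (nat_lit 132) (nat_lit 5) (nat_lit 421) (nat_lit 396) (nat_lit 128)) (XT.nd (nat_lit 94) (nat_lit 588) (nat_lit 0) (XT.lf (nat_lit 0) (nat_lit 16089574175) (nat_lit 672) (nat_lit 19958244146) (nat_lit 84) (nat_lit 32488252129) (nat_lit 131) (nat_lit 5) (nat_lit 139) (nat_lit 5) (nat_lit 132) (nat_lit 5) (nat_lit 422) (nat_lit 396) (nat_lit 127)) (XT.lf (nat_lit 0) (nat_lit 11745949741) (nat_lit 588) (nat_lit 10773583806) (nat_lit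 672) (nat_lit 47238224072) (nat_lit 124) (nat_lit 5) (nat_lit 131) (nat_lit 5) (nat_lit 132) (nat_lit 5) (nat_lit 423) (nat_lit 396) (nat_lit 126)))) (XT.nd (nat_lit 188) (nat_lit 504) (nat_lit 0) (XT.nd (nat_lit 94) (nat_lit 504) (nat_lit 0) (XT.lf (nat_lit 0) (nat_lit 29492013037) (nat_lit 672) (nat_lit 26348949234) (nat_lit 84) (nat_lit 15164645459) (nat_lit 124) (nat_lit 5) (nat_lit 132) (nat_lit 5) (nat_lit 125) (nat_lit 5) (nat_lit 424) (nat_lit 396) (nat_lit 125)) (XT.lf (nat_lit 0) (nat_lit 6279050206) (nat_lit 504) (nat_lit 30561070233) (nat_lit 588) (nat_lit 35445780237) (nat_lit 118) (nat_lit 5) (nat_lit 124) (nat_lit 5) (nat_lit 125) (nat_lit 5) (nat_lit 425) (nat_lit 396) (nat_lit 124))) (XT.nd (nat_lit 94) (nat_lit 504) (nat_lit 0) (XT.lf (nat_lit 0) (nat_lit 40425420464) (nat_lit 504) (nat_lit 4248760603) (nat_lit 588) (nat_lit 28922456953) (nat_lit 118) (nat_lit 5) (nat_lit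 124) (nat_lit 5) (nat_lit 125) (nat_lit 5) (nat_lit 426) (nat_lit 396) (nat_lit 123)) (XT.lf (nat_lit 0) (nat_lit 437753901) (nat_lit 504) (nat_lit 52528847156) (nat_lit 588) (nat_lit 21973397185) (nat_lit 112) (nat_lit 5) (nat_lit 118) (nat_lit 5) (nat_lit 119) (nat_lit 5) (nat_lit 427) (nat_lit 396) (nat_lit 122))))) (XT.nd (nat_lit 282) (nat_lit 924) (nat_lit 0) (XT.nd (nat_lit 94) (nat_lit 504) (nat_lit 0) (XT.lf (nat_lit 0) (nat_lit 35691477272) (nat_lit 504) (nat_lit 26192398746) (nat_lit 588) (nat_lit 14428501640) (nat_lit 112) (nat_lit 5) (nat_lit 118) (nat_lit 5) (nat_lit 119) (nat_lit 5) (nat_lit 428) (nat_lit 396) (nat_lit 121)) (XT.nd (nat_lit 94) (nat_lit 504) (nat_lit 0) (XT.lf (nat_lit 0) (nat_lit 71077127501) (nat_lit 588) (nat_lit 5732684939) (nat_lit 84) (nat_lit 915863101) (nat_lit 112) (nat_lit 5) (nat_lit 119) (nat_lit 5) (nat_lit 113) (nat_lit 5) (nat_lit 429) (nat_lit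 396) (nat_lit 120)) (XT.lf (nat_lit 0) (nat_lit 1896016488) (nat_lit 504) (nat_lit 48645206130) (nat_lit 84) (nat_lit 28623021611) (nat_lit 106) (nat_lit 5) (nat_lit 112) (nat_lit 5) (nat_lit 107) (nat_lit 5) (nat_lit 430) (nat_lit 396) (nat_lit 119)))) (XT.nd (nat_lit 188) (nat_lit 420) (nat_lit 0) (XT.nd (nat_lit 94) (nat_lit 504) (nat_lit 0) (XT.lf (nat_lit 0) (nat_lit 10621248262) (nat_lit 504) (nat_lit 12735383688) (nat_lit 84) (nat_lit 57285625187) (nat_lit 106) (nat_lit 5) (nat_lit 112) (nat_lit 5) (nat_lit 107) (nat_lit 5) (nat_lit 431) (nat_lit 396) (nat_lit 118)) (XT.lf (nat_lit 0) (nat_lit 19892495186) (nat_lit 588) (nat_lit 57470663698) (nat_lit 84) (nat_lit 4792924544) (nat_lit 100) (nat_lit 5) (nat_lit 107) (nat_lit 5) (nat_lit 101) (nat_lit 5) (nat_lit 432) (nat_lit 396) (nat_lit 117))) (XT.nd (nat_lit 94) (nat_lit 420) (nat_lit 0) (XT.lf (nat_lit 0) (nat_lit 29802529281)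 (nat_lit 588) (nat_lit 20454652687) (nat_lit 84) (nat_lit 33447323763) (nat_lit 100) (nat_lit 5) (nat_lit 107) (nat_lit 5) (nat_lit 101) (nat_lit 5) (nat_lit 433) (nat_lit 396) (nat_lit 116)) (XT.lf (nat_lit 0) (nat_lit 18022979161) (nat_lit 420) (nat_lit 22159667398) (nat_lit 504) (nat_lit 45111551378) (nat_lit 95) (nat_lit 5) (nat_lit 100) (nat_lit 5) (nat_lit 101) (nat_lit 5) (nat_lit 434) (nat_lit 396) (nat_lit 115))))))) (XT.nd (nat_lit 1316) (nat_lit 336) (nat_lit 0) (XT.nd (nat_lit 658) (nat_lit 1092) (nat_lit 0) (XT.nd (nat_lit 282) (nat_lit 840) (nat_lit 0) (XT.nd (nat_lit 94) (nat_lit 420) (nat_lit 0) (XT.lf (nat_lit 0) (nat_lit 51147486944) (nat_lit 504) (nat_lit 28918930911) (nat_lit 84) (nat_lit 6856964144) (nat_lit 95) (nat_lit 5) (nat_lit 101) (nat_lit 5) (nat_lit 96) (nat_lit 5) (nat_lit 435) (nat_lit 396) (nat_lit 114)) (XT.nd (nat_lit 94) (nat_lit 0) (nat_lit 0) (XT.lf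 (nat_lit 0) (nat_lit 10570241921) (nat_lit 420) (nat_lit 52191595946) (nat_lit 504) (nat_lit 25829987415) (nat_lit 90) (nat_lit 5) (nat_lit 95) (nat_lit 5) (nat_lit 96) (nat_lit 5) (nat_lit 436) (nat_lit 396) (nat_lit 113)) (XT.lf (nat_lit 0) (nat_lit 51836360497) (nat_lit 420) (nat_lit 23179846144) (nat_lit 504) (nat_lit 15285368240) (nat_lit 90) (nat_lit 5) (nat_lit 95) (nat_lit 5) (nat_lit 96) (nat_lit 5) (nat_lit 437) (nat_lit 396) (nat_lit 112)))) (XT.nd (nat_lit 188) (nat_lit 420) (nat_lit 0) (XT.nd (nat_lit 94) (nat_lit 84) (nat_lit 0) (XT.lf (nat_lit 0) (nat_lit 2256924326) (nat_lit 336) (nat_lit 85466977882) (nat_lit 420) (nat_lit 4336144508) (nat_lit 86) (nat_lit 5) (nat_lit 90) (nat_lit 5) (nat_lit 91) (nat_lit 5) (nat_lit 438) (nat_lit 396) (nat_lit 111)) (XT.lf (nat_lit 0) (nat_lit 7427450788) (nat_lit 420) (nat_lit 49171008928) (nat_lit 84) (nat_lit 37252171292) (nat_lit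 85) (nat_lit 5) (nat_lit 90) (nat_lit 5) (nat_lit 86) (nat_lit 5) (nat_lit 439) (nat_lit 396) (nat_lit 110))) (XT.nd (nat_lit 94) (nat_lit 420) (nat_lit 0) (XT.lf (nat_lit 0) (nat_lit 19456391213) (nat_lit 420) (nat_lit 7363388086) (nat_lit 84) (nat_lit 68873878449) (nat_lit 85) (nat_lit 5) (nat_lit 90) (nat_lit 5) (nat_lit 86) (nat_lit 5) (nat_lit 440) (nat_lit 396) (nat_lit 109)) (XT.lf (nat_lit 0) (nat_lit 32236275603) (nat_lit 504) (nat_lit 61213570788) (nat_lit 84) (nat_lit 4130427176) (nat_lit 80) (nat_lit 5) (nat_lit 86) (nat_lit 5) (nat_lit 81) (nat_lit 5) (nat_lit 441) (nat_lit 396) (nat_lit 108))))) (XT.nd (nat_lit 282) (nat_lit 756) (nat_lit 0) (XT.nd (nat_lit 94) (nat_lit 336) (nat_lit 0) (XT.lf (nat_lit 0) (nat_lit 45739798002) (nat_lit 504) (nat_lit 18228412013) (nat_lit 84) (nat_lit 35545071138) (nat_lit 80) (nat_lit 5) (nat_lit 86) (nat_lit 5) (nat_lit 81) (nat_lit 5) (nat_lit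 442) (nat_lit 396) (nat_lit 107)) (XT.nd (nat_lit 94) (nat_lit 0) (nat_lit 0) (XT.lf (nat_lit 0) (nat_lit 26564164177) (nat_lit 336) (nat_lit 33339231465) (nat_lit 420) (nat_lit 41593234756) (nat_lit 76) (nat_lit 5) (nat_lit 80) (nat_lit 5) (nat_lit 81) (nat_lit 5) (nat_lit 443) (nat_lit 396) (nat_lit 106)) (XT.lf (nat_lit 0) (nat_lit 73073687257) (nat_lit 336) (nat_lit 1601910098) (nat_lit 420) (nat_lit 28858372384) (nat_lit 76) (nat_lit 5) (nat_lit 80) (nat_lit 5) (nat_lit 81) (nat_lit 5) (nat_lit 444) (nat_lit 396) (nat_lit 105)))) (XT.nd (nat_lit 188) (nat_lit 420) (nat_lit 0) (XT.nd (nat_lit 94) (nat_lit 0) (nat_lit 0) (XT.lf (nat_lit 0) (nat_lit 15346203254) (nat_lit 336) (nat_lit 74990746056) (nat_lit 420) (nat_lit 15282100915) (nat_lit 72) (nat_lit 5) (nat_lit 76) (nat_lit 5) (nat_lit 77) (nat_lit 5) (nat_lit 445) (nat_lit 396) (nat_lit 104)) (XT.lf (nat_lit 0) (nat_lit 63134627304)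 (nat_lit 336) (nat_lit 43656449344) (nat_lit 420) (nat_lit 965918908) (nat_lit 72) (nat_lit 5) (nat_lit 76) (nat_lit 5) (nat_lit 77) (nat_lit 5) (nat_lit 446) (nat_lit 396) (nat_lit 103))) (XT.nd (nat_lit 94) (nat_lit 0) (nat_lit 0) (XT.lf (nat_lit 0) (nat_lit 2309757800) (nat_lit 336) (nat_lit 11222948292) (nat_lit 420) (nat_lit 96421744319) (nat_lit 67) (nat_lit 5) (nat_lit 71) (nat_lit 5) (nat_lit 72) (nat_lit 5) (nat_lit 447) (nat_lit 396) (nat_lit 102)) (XT.lf (nat_lit 0) (nat_lit 29114829295) (nat_lit 420) (nat_lit 60867499643) (nat_lit 84) (nat_lit 22215174898) (nat_lit 67) (nat_lit 5) (nat_lit 72) (nat_lit 5) (nat_lit 68) (nat_lit 5) (nat_lit 448) (nat_lit 396) (nat_lit 101)))))) (XT.nd (nat_lit 54896) (nat_lit 0) (nat_lit 8400) (XT.nd (nat_lit 54520) (nat_lit 0) (nat_lit 8232) (XT.nd (nat_lit 94) (nat_lit 336) (nat_lit 0) (XT.lf (nat_lit 0) (nat_lit 45275196377) (nat_lit 420)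 (nat_lit 12798579349) (nat_lit 84) (nat_lit 56430750154) (nat_lit 67) (nat_lit 5) (nat_lit 72) (nat_lit 5) (nat_lit 68) (nat_lit 5) (nat_lit 449) (nat_lit 396) (nat_lit 100)) (XT.nd (nat_lit 54332) (nat_lit 0) (nat_lit 8232) (XT.lf (nat_lit 0) (nat_lit 37442591914) (nat_lit 336) (nat_lit 24837375389) (nat_lit 420) (nat_lit 54590003909) (nat_lit 63) (nat_lit 5) (nat_lit 67) (nat_lit 5) (nat_lit 68) (nat_lit 5) (nat_lit 450) (nat_lit 396) (nat_lit 99)) (XT.lf (nat_lit 0) (nat_lit 388643781) (nat_lit 0) (nat_lit 388643781) (nat_lit 1260) (nat_lit 22396333831) (nat_lit 161) (nat_lit 5) (nat_lit 161) (nat_lit 3) (nat_lit 176) (nat_lit 3) (nat_lit 397) (nat_lit 397) (nat_lit 151)))) (XT.nd (nat_lit 188) (nat_lit 0) (nat_lit 84) (XT.nd (nat_lit 94) (nat_lit 0) (nat_lit 0) (XT.lf (nat_lit 0) (nat_lit 1796777447) (nat_lit 1260) (nat_lit 25823785993) (nat_lit 1344) (nat_lit 19415269664) (nat_lit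 161) (nat_lit 5) (nat_lit 176) (nat_lit 3) (nat_lit 177) (nat_lit 5) (nat_lit 398) (nat_lit 397) (nat_lit 150)) (XT.lf (nat_lit 0) (nat_lit 2052833353) (nat_lit 1260) (nat_lit 5493525266) (nat_lit 1344) (nat_lit 40198526909) (nat_lit 161) (nat_lit 5) (nat_lit 176) (nat_lit 3) (nat_lit 177) (nat_lit 5) (nat_lit 399) (nat_lit 397) (nat_lit 149))) (XT.nd (nat_lit 94) (nat_lit 0) (nat_lit 0) (XT.lf (nat_lit 0) (nat_lit 2594645189) (nat_lit 1260) (nat_lit 32844949228) (nat_lit 1344) (nat_lit 13027274843) (nat_lit 162) (nat_lit 5) (nat_lit 177) (nat_lit 5) (nat_lit 178) (nat_lit 5) (nat_lit 400) (nat_lit 397) (nat_lit 148)) (XT.lf (nat_lit 0) (nat_lit 3282405157) (nat_lit 1260) (nat_lit 11801285942) (nat_lit 1344) (nat_lit 34122932499) (nat_lit 162) (nat_lit 5) (nat_lit 177) (nat_lit 5) (nat_lit 178) (nat_lit 5) (nat_lit 401) (nat_lit 397) (nat_lit 147))))) (XT.nd (nat_lit 282) (nat_lit 0) (nat_lit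 84) (XT.nd (nat_lit 94) (nat_lit 0) (nat_lit 0) (XT.lf (nat_lit 0) (nat_lit 4144090021) (nat_lit 1260) (nat_lit 39953624935) (nat_lit 1344) (nat_lit 5866258696) (nat_lit 163) (nat_lit 5) (nat_lit 178) (nat_lit 5) (nat_lit 179) (nat_lit 5) (nat_lit 402) (nat_lit 397) (nat_lit 146)) (XT.nd (nat_lit 94) (nat_lit 0) (nat_lit 0) (XT.lf (nat_lit 0) (nat_lit 5300331167) (nat_lit 1260) (nat_lit 18173369571) (nat_lit 1344) (nat_lit 27262284095) (nat_lit 163) (nat_lit 5) (nat_lit 178) (nat_lit 5) (nat_lit 179) (nat_lit 5) (nat_lit 403) (nat_lit 397) (nat_lit 145)) (XT.lf (nat_lit 84) (nat_lit 4344463476) (nat_lit 0) (nat_lit 2187598985) (nat_lit 1344) (nat_lit 44997871545) (nat_lit 164) (nat_lit 5) (nat_lit 163) (nat_lit 5) (nat_lit 179) (nat_lit 5) (nat_lit 404) (nat_lit 397) (nat_lit 144)))) (XT.nd (nat_lit 188) (nat_lit 0) (nat_lit 84) (XT.nd (nat_lit 94) (nat_lit 0) (nat_lit 0) (XT.lf (nat_lit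 0) (nat_lit 8174869683) (nat_lit 1260) (nat_lit 24624003536) (nat_lit 1344) (nat_lit 19537606410) (nat_lit 164) (nat_lit 5) (nat_lit 179) (nat_lit 5) (nat_lit 180) (nat_lit 5) (nat_lit 405) (nat_lit 397) (nat_lit 143)) (XT.lf (nat_lit 0) (nat_lit 9887714363) (nat_lit 1260) (nat_lit 1407966674) (nat_lit 1344) (nat_lit 41870919629) (nat_lit 164) (nat_lit 5) (nat_lit 179) (nat_lit 5) (nat_lit 180) (nat_lit 5) (nat_lit 406) (nat_lit 397) (nat_lit 142))) (XT.nd (nat_lit 94) (nat_lit 0) (nat_lit 0) (XT.lf (nat_lit 0) (nat_lit 11978200670) (nat_lit 1260) (nat_lit 31169716287) (nat_lit 1344) (nat_lit 10863922285) (nat_lit 165) (nat_lit 5) (nat_lit 180) (nat_lit 5) (nat_lit 181) (nat_lit 5) (nat_lit 407) (nat_lit 397) (nat_lit 141)) (XT.lf (nat_lit 0) (nat_lit 14256741232) (nat_lit 1260) (nat_lit 7146031349) (nat_lit 1344) (nat_lit 33475903756) (nat_lit 165) (nat_lit 5) (nat_lit 180) (nat_lit 5)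 (nat_lit 181) (nat_lit 5) (nat_lit 408) (nat_lit 397) (nat_lit 140))))))))
noncomputable def xc230 : XT := (XT.nd (nat_lit 2538) (nat_lit 2352) (nat_lit 0) (XT.nd (nat_lit 1222) (nat_lit 3612) (nat_lit 0) (XT.nd (nat_lit 564) (nat_lit 2352) (nat_lit 0) (XT.nd (nat_lit 282) (nat_lit 0) (nat_lit 84) (XT.nd (nat_lit 94) (nat_lit 0) (nat_lit 0) (XT.lf (nat_lit 0) (nat_lit 16786605127) (nat_lit 1260) (nat_lit 37829650256) (nat_lit 1344) (nat_lit 1149775652) (nat_lit 166) (nat_lit 5) (nat_lit 181) (nat_lit 5) (nat_lit 182) (nat_lit 5) (nat_lit 409) (nat_lit 397) (nat_lit 139)) (XT.nd (nat_lit 94) (nat_lit 0) (nat_lit 0) (XT.lf (nat_lit 0) (nat_lit 19676337269) (nat_lit 1260) (nat_lit 12973337625) (nat_lit 1344) (nat_lit 24021813770) (nat_lit 166) (nat_lit 5) (nat_lit 181) (nat_lit 5) (nat_lit 182) (nat_lit 5) (nat_lit 410) (nat_lit 397) (nat_lit 138)) (XT.lf (nat_lit 84) (nat_lit 12879380812)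 (nat_lit 0) (nat_lit 9896397013) (nat_lit 1344) (nat_lit 34824643122) (nat_lit 167) (nat_lit 5) (nat_lit 166) (nat_lit 5) (nat_lit 182) (nat_lit 5) (nat_lit 411) (nat_lit 397) (nat_lit 137)))) (XT.nd (nat_lit 94) (nat_lit 0) (nat_lit 0) (XT.lf (nat_lit 0) (nat_lit 26229884487) (nat_lit 1260) (nat_lit 18911743246) (nat_lit 1344) (nat_lit 13407744356) (nat_lit 167) (nat_lit 5) (nat_lit 182) (nat_lit 5) (nat_lit 183) (nat_lit 5) (nat_lit 412) (nat_lit 397) (nat_lit 136)) (XT.nd (nat_lit 94) (nat_lit 0) (nat_lit 84) (XT.lf (nat_lit 84) (nat_lit 7723962128) (nat_lit 0) (nat_lit 22235136978) (nat_lit 1344) (nat_lit 29562549455) (nat_lit 168) (nat_lit 5) (nat_lit 167) (nat_lit 5) (nat_lit 183) (nat_lit 5) (nat_lit 413) (nat_lit 397) (nat_lit 135)) (XT.lf (nat_lit 0) (nat_lit 34005382068) (nat_lit 1260) (nat_lit 24986530429) (nat_lit 84) (nat_lit 1525026369) (nat_lit 168) (nat_lit 5) (nat_lit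 183) (nat_lit 5) (nat_lit 169) (nat_lit 5) (nat_lit 414) (nat_lit 397) (nat_lit 134))))) (XT.nd (nat_lit 282) (nat_lit 1260) (nat_lit 0) (XT.nd (nat_lit 94) (nat_lit 0) (nat_lit 0) (XT.lf (nat_lit 0) (nat_lit 2456129478) (nat_lit 1260) (nat_lit 35959975354) (nat_lit 1344) (nat_lit 23118692769) (nat_lit 153) (nat_lit 5) (nat_lit 168) (nat_lit 5) (nat_lit 169) (nat_lit 5) (nat_lit 415) (nat_lit 397) (nat_lit 133)) (XT.nd (nat_lit 94) (nat_lit 0) (nat_lit 0) (XT.lf (nat_lit 0) (nat_lit 31233665691) (nat_lit 1260) (nat_lit 11977105013) (nat_lit 1344) (nat_lit 19364873975) (nat_lit 153) (nat_lit 5) (nat_lit 168) (nat_lit 5) (nat_lit 169) (nat_lit 5) (nat_lit 416) (nat_lit 397) (nat_lit 132)) (XT.lf (nat_lit 0) (nat_lit 48270926961) (nat_lit 1344) (nat_lit 2896119624) (nat_lit 84) (nat_lit 12477022260) (nat_lit 153) (nat_lit 5) (nat_lit 169) (nat_lit 5) (nat_lit 154) (nat_lit 5) (nat_lit 417)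 (nat_lit 397) (nat_lit 131)))) (XT.nd (nat_lit 188) (nat_lit 672) (nat_lit 0) (XT.nd (nat_lit 94) (nat_lit 0) (nat_lit 0) (XT.lf (nat_lit 0) (nat_lit 26807042427) (nat_lit 588) (nat_lit 27051463462) (nat_lit 672) (nat_lit 10874772460) (nat_lit 146) (nat_lit 5) (nat_lit 153) (nat_lit 5) (nat_lit 154) (nat_lit 5) (nat_lit 418) (nat_lit 397) (nat_lit 130)) (XT.lf (nat_lit 0) (nat_lit 57460082887) (nat_lit 588) (nat_lit 2182234924) (nat_lit 672) (nat_lit 6211989279) (nat_lit 146) (nat_lit 5) (nat_lit 153) (nat_lit 5) (nat_lit 154) (nat_lit 5) (nat_lit 419) (nat_lit 397) (nat_lit 129))) (XT.nd (nat_lit 94) (nat_lit 84) (nat_lit 0) (XT.lf (nat_lit 0) (nat_lit 22231728677) (nat_lit 588) (nat_lit 43806253039) (nat_lit 672) (nat_lit 957835935) (nat_lit 139) (nat_lit 5) (nat_lit 146) (nat_lit 5) (nat_lit 147) (nat_lit 5) (nat_lit 420) (nat_lit 397) (nat_lit 128)) (XT.lf (nat_lit 0) (nat_lit 4473625374)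 (nat_lit 672) (nat_lit 14286351414) (nat_lit 84) (nat_lit 49407115471) (nat_lit 138) (nat_lit 5) (nat_lit 146) (nat_lit 5) (nat_lit 139) (nat_lit 5) (nat_lit 421) (nat_lit 397) (nat_lit 127)))))) (XT.nd (nat_lit 658) (nat_lit 1428) (nat_lit 0) (XT.nd (nat_lit 282) (nat_lit 1008) (nat_lit 0) (XT.nd (nat_lit 94) (nat_lit 588) (nat_lit 0) (XT.lf (nat_lit 0) (nat_lit 10285190523) (nat_lit 672) (nat_lit 52001721080) (nat_lit 84) (nat_lit 7079217643) (nat_lit 131) (nat_lit 5) (nat_lit 139) (nat_lit 5) (nat_lit 132) (nat_lit 5) (nat_lit 422) (nat_lit 397) (nat_lit 126)) (XT.nd (nat_lit 94) (nat_lit 588) (nat_lit 0) (XT.lf (nat_lit 0) (nat_lit 16601952463) (nat_lit 672) (nat_lit 20527023842) (nat_lit 84) (nat_lit 33462236510) (nat_lit 131) (nat_lit 5) (nat_lit 139) (nat_lit 5) (nat_lit 132) (nat_lit 5) (nat_lit 423) (nat_lit 397) (nat_lit 125)) (XT.lf (nat_lit 0) (nat_lit 12128002062) (nat_lit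 588) (nat_lit 11096229010) (nat_lit 672) (nat_lit 48625338342) (nat_lit 124) (nat_lit 5) (nat_lit 131) (nat_lit 5) (nat_lit 132) (nat_lit 5) (nat_lit 424) (nat_lit 397) (nat_lit 124)))) (XT.nd (nat_lit 188) (nat_lit 504) (nat_lit 0) (XT.nd (nat_lit 94) (nat_lit 504) (nat_lit 0) (XT.lf (nat_lit 0) (nat_lit 30405042286) (nat_lit 672) (nat_lit 27109719305) (nat_lit 84) (nat_lit 15620120102) (nat_lit 124) (nat_lit 5) (nat_lit 132) (nat_lit 5) (nat_lit 125) (nat_lit 5) (nat_lit 425) (nat_lit 397) (nat_lit 123)) (XT.lf (nat_lit 0) (nat_lit 6496828957) (nat_lit 504) (nat_lit 31476223268) (nat_lit 588) (nat_lit 36480548769) (nat_lit 118) (nat_lit 5) (nat_lit 124) (nat_lit 5) (nat_lit 125) (nat_lit 5) (nat_lit 426) (nat_lit 397) (nat_lit 122))) (XT.nd (nat_lit 94) (nat_lit 504) (nat_lit 0) (XT.lf (nat_lit 0) (nat_lit 41666733801) (nat_lit 504) (nat_lit 4374593254) (nat_lit 588) (nat_lit 29762358938)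 (nat_lit 118) (nat_lit 5) (nat_lit 124) (nat_lit 5) (nat_lit 125) (nat_lit 5) (nat_lit 427) (nat_lit 397) (nat_lit 121)) (XT.lf (nat_lit 0) (nat_lit 479984639) (nat_lit 504) (nat_lit 54102045835) (nat_lit 588) (nat_lit 22605332491) (nat_lit 112) (nat_lit 5) (nat_lit 118) (nat_lit 5) (nat_lit 119) (nat_lit 5) (nat_lit 428) (nat_lit 397) (nat_lit 120))))) (XT.nd (nat_lit 282) (nat_lit 924) (nat_lit 0) (XT.nd (nat_lit 94) (nat_lit 504) (nat_lit 0) (XT.lf (nat_lit 0) (nat_lit 36790472193) (nat_lit 504) (nat_lit 26975581645) (nat_lit 588) (nat_lit 14834884253) (nat_lit 112) (nat_lit 5) (nat_lit 118) (nat_lit 5) (nat_lit 119) (nat_lit 5) (nat_lit 429) (nat_lit 397) (nat_lit 119)) (XT.nd (nat_lit 94) (nat_lit 504) (nat_lit 0) (XT.lf (nat_lit 0) (nat_lit 73234379604) (nat_lit 588) (nat_lit 5876474602) (nat_lit 84) (nat_lit 945803598) (nat_lit 112) (nat_lit 5) (nat_lit 119) (nat_lit 5) (nat_lit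 113) (nat_lit 5) (nat_lit 430) (nat_lit 397) (nat_lit 118)) (XT.lf (nat_lit 0) (nat_lit 1977657553) (nat_lit 504) (nat_lit 50076117458) (nat_lit 84) (nat_lit 29484616160) (nat_lit 106) (nat_lit 5) (nat_lit 112) (nat_lit 5) (nat_lit 107) (nat_lit 5) (nat_lit 431) (nat_lit 397) (nat_lit 117)))) (XT.nd (nat_lit 188) (nat_lit 420) (nat_lit 0) (XT.nd (nat_lit 94) (nat_lit 504) (nat_lit 0) (XT.lf (nat_lit 0) (nat_lit 10963925098) (nat_lit 504) (nat_lit 13089828835) (nat_lit 84) (nat_lit 59007013264) (nat_lit 106) (nat_lit 5) (nat_lit 112) (nat_lit 5) (nat_lit 107) (nat_lit 5) (nat_lit 432) (nat_lit 397) (nat_lit 116)) (XT.lf (nat_lit 0) (nat_lit 20512908101) (nat_lit 588) (nat_lit 59166730505) (nat_lit 84) (nat_lit 4940382771) (nat_lit 100) (nat_lit 5) (nat_lit 107) (nat_lit 5) (nat_lit 101) (nat_lit 5) (nat_lit 433) (nat_lit 397) (nat_lit 115))) (XT.nd (nat_lit 94) (nat_lit 420) (nat_lit 0)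 (XT.lf (nat_lit 0) (nat_lit 30719554732) (nat_lit 588) (nat_lit 21041056245) (nat_lit 84) (nat_lit 34454307059) (nat_lit 100) (nat_lit 5) (nat_lit 107) (nat_lit 5) (nat_lit 101) (nat_lit 5) (nat_lit 434) (nat_lit 397) (nat_lit 114)) (XT.lf (nat_lit 0) (nat_lit 18590637539) (nat_lit 420) (nat_lit 22820028798) (nat_lit 504) (nat_lit 46441647949) (nat_lit 95) (nat_lit 5) (nat_lit 100) (nat_lit 5) (nat_lit 101) (nat_lit 5) (nat_lit 435) (nat_lit 397) (nat_lit 113))))))) (XT.nd (nat_lit 55742) (nat_lit 0) (nat_lit 7896) (XT.nd (nat_lit 658) (nat_lit 1092) (nat_lit 0) (XT.nd (nat_lit 282) (nat_lit 840) (nat_lit 0) (XT.nd (nat_lit 94) (nat_lit 420) (nat_lit 0) (XT.lf (nat_lit 0) (nat_lit 52703836748) (nat_lit 504) (nat_lit 29759667749) (nat_lit 84) (nat_lit 7066888800) (nat_lit 95) (nat_lit 5) (nat_lit 101) (nat_lit 5) (nat_lit 96) (nat_lit 5) (nat_lit 436) (nat_lit 397) (nat_lit 112)) (XT.nd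 (nat_lit 94) (nat_lit 0) (nat_lit 0) (XT.lf (nat_lit 0) (nat_lit 10913917218) (nat_lit 420) (nat_lit 53752317771) (nat_lit 504) (nat_lit 26582667330) (nat_lit 90) (nat_lit 5) (nat_lit 95) (nat_lit 5) (nat_lit 96) (nat_lit 5) (nat_lit 437) (nat_lit 397) (nat_lit 111)) (XT.lf (nat_lit 0) (nat_lit 53417245525) (nat_lit 420) (nat_lit 23870361865) (nat_lit 504) (nat_lit 15722356755) (nat_lit 90) (nat_lit 5) (nat_lit 95) (nat_lit 5) (nat_lit 96) (nat_lit 5) (nat_lit 438) (nat_lit 397) (nat_lit 110)))) (XT.nd (nat_lit 188) (nat_lit 420) (nat_lit 0) (XT.nd (nat_lit 94) (nat_lit 84) (nat_lit 0) (XT.lf (nat_lit 0) (nat_lit 2350778469) (nat_lit 336) (nat_lit 88025443069) (nat_lit 420) (nat_lit 4444978856) (nat_lit 86) (nat_lit 5) (nat_lit 90) (nat_lit 5) (nat_lit 91) (nat_lit 5) (nat_lit 439) (nat_lit 397) (nat_lit 109)) (XT.lf (nat_lit 0) (nat_lit 7670502781) (nat_lit 420) (nat_lit 50620323789)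 (nat_lit 84) (nat_lit 38374688561) (nat_lit 85) (nat_lit 5) (nat_lit 90) (nat_lit 5) (nat_lit 86) (nat_lit 5) (nat_lit 440) (nat_lit 397) (nat_lit 108))) (XT.nd (nat_lit 94) (nat_lit 420) (nat_lit 0) (XT.lf (nat_lit 0) (nat_lit 20059722241) (nat_lit 420) (nat_lit 7559226226) (nat_lit 84) (nat_lit 70944902695) (nat_lit 85) (nat_lit 5) (nat_lit 90) (nat_lit 5) (nat_lit 86) (nat_lit 5) (nat_lit 441) (nat_lit 397) (nat_lit 107)) (XT.lf (nat_lit 0) (nat_lit 33222722692) (nat_lit 504) (nat_lit 63024607590) (nat_lit 84) (nat_lit 4259744379) (nat_lit 80) (nat_lit 5) (nat_lit 86) (nat_lit 5) (nat_lit 81) (nat_lit 5) (nat_lit 442) (nat_lit 397) (nat_lit 106))))) (XT.nd (nat_lit 282) (nat_lit 756) (nat_lit 0) (XT.nd (nat_lit 94) (nat_lit 336) (nat_lit 0) (XT.lf (nat_lit 0) (nat_lit 47130786913) (nat_lit 504) (nat_lit 18750632993) (nat_lit 84) (nat_lit 36616670250) (nat_lit 80) (nat_lit 5) (nat_lit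 86) (nat_lit 5) (nat_lit 81) (nat_lit 5) (nat_lit 443) (nat_lit 397) (nat_lit 105)) (XT.nd (nat_lit 94) (nat_lit 0) (nat_lit 0) (XT.lf (nat_lit 0) (nat_lit 27385478998) (nat_lit 336) (nat_lit 34333500509) (nat_lit 420) (nat_lit 42821970506) (nat_lit 76) (nat_lit 5) (nat_lit 80) (nat_lit 5) (nat_lit 81) (nat_lit 5) (nat_lit 444) (nat_lit 397) (nat_lit 104)) (XT.lf (nat_lit 0) (nat_lit 75289577386) (nat_lit 336) (nat_lit 1644231576) (nat_lit 420) (nat_lit 29705617446) (nat_lit 76) (nat_lit 5) (nat_lit 80) (nat_lit 5) (nat_lit 81) (nat_lit 5) (nat_lit 445) (nat_lit 397) (nat_lit 103)))) (XT.nd (nat_lit 188) (nat_lit 420) (nat_lit 0) (XT.nd (nat_lit 94) (nat_lit 0) (nat_lit 0) (XT.lf (nat_lit 0) (nat_lit 15830539024) (nat_lit 336) (nat_lit 77234223568) (nat_lit 420) (nat_lit 15722304585) (nat_lit 72) (nat_lit 5) (nat_lit 76) (nat_lit 5) (nat_lit 77) (nat_lit 5) (nat_lit 446) (nat_lit 397)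 (nat_lit 102)) (XT.lf (nat_lit 0) (nat_lit 65051918232) (nat_lit 336) (nat_lit 44960079844) (nat_lit 420) (nat_lit 977168944) (nat_lit 72) (nat_lit 5) (nat_lit 76) (nat_lit 5) (nat_lit 77) (nat_lit 5) (nat_lit 447) (nat_lit 397) (nat_lit 101))) (XT.nd (nat_lit 94) (nat_lit 0) (nat_lit 0) (XT.lf (nat_lit 0) (nat_lit 2402439068) (nat_lit 336) (nat_lit 11553348375) (nat_lit 420) (nat_lit 99296762051) (nat_lit 67) (nat_lit 5) (nat_lit 71) (nat_lit 5) (nat_lit 72) (nat_lit 5) (nat_lit 448) (nat_lit 397) (nat_lit 100)) (XT.lf (nat_lit 0) (nat_lit 30004934965) (nat_lit 420) (nat_lit 62670357141) (nat_lit 84) (nat_lit 22887616220) (nat_lit 67) (nat_lit 5) (nat_lit 72) (nat_lit 5) (nat_lit 68) (nat_lit 5) (nat_lit 449) (nat_lit 397) (nat_lit 99)))))) (XT.nd (nat_lit 658) (nat_lit 0) (nat_lit 168) (XT.nd (nat_lit 282) (nat_lit 0) (nat_lit 84) (XT.nd (nat_lit 94) (nat_lit 0) (nat_lit 0) (XT.lf (nat_lit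 0) (nat_lit 414434889) (nat_lit 0) (nat_lit 414434889) (nat_lit 1260) (nat_lit 23039061033) (nat_lit 161) (nat_lit 5) (nat_lit 161) (nat_lit 3) (nat_lit 176) (nat_lit 3) (nat_lit 398) (nat_lit 398) (nat_lit 149)) (XT.nd (nat_lit 94) (nat_lit 0) (nat_lit 0) (XT.lf (nat_lit 0) (nat_lit 1905297754) (nat_lit 1260) (nat_lit 26569049356) (nat_lit 1344) (nat_lit 19970822836) (nat_lit 161) (nat_lit 5) (nat_lit 176) (nat_lit 3) (nat_lit 177) (nat_lit 5) (nat_lit 399) (nat_lit 398) (nat_lit 148)) (XT.lf (nat_lit 0) (nat_lit 2167444552) (nat_lit 1260) (nat_lit 5629738581) (nat_lit 1344) (nat_lit 41378361436) (nat_lit 161) (nat_lit 5) (nat_lit 176) (nat_lit 3) (nat_lit 177) (nat_lit 5) (nat_lit 400) (nat_lit 398) (nat_lit 147)))) (XT.nd (nat_lit 188) (nat_lit 0) (nat_lit 84) (XT.nd (nat_lit 94) (nat_lit 0) (nat_lit 0) (XT.lf (nat_lit 0) (nat_lit 2724013107) (nat_lit 1260) (nat_lit 33800113705) (nat_lit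 1344) (nat_lit 13395108747) (nat_lit 162) (nat_lit 5) (nat_lit 177) (nat_lit 5) (nat_lit 178) (nat_lit 5) (nat_lit 401) (nat_lit 398) (nat_lit 146)) (XT.lf (nat_lit 0) (nat_lit 3430905042) (nat_lit 1260) (nat_lit 12126019665) (nat_lit 1344) (nat_lit 35124305580) (nat_lit 162) (nat_lit 5) (nat_lit 177) (nat_lit 5) (nat_lit 178) (nat_lit 5) (nat_lit 402) (nat_lit 398) (nat_lit 145))) (XT.nd (nat_lit 94) (nat_lit 0) (nat_lit 0) (XT.lf (nat_lit 0) (nat_lit 4317071631) (nat_lit 1260) (nat_lit 41121471477) (nat_lit 1344) (nat_lit 6022801456) (nat_lit 163) (nat_lit 5) (nat_lit 178) (nat_lit 5) (nat_lit 179) (nat_lit 5) (nat_lit 403) (nat_lit 398) (nat_lit 144)) (XT.lf (nat_lit 0) (nat_lit 5506582762) (nat_lit 1260) (nat_lit 18688704439) (nat_lit 1344) (nat_lit 28061273976) (nat_lit 163) (nat_lit 5) (nat_lit 178) (nat_lit 5) (nat_lit 179) (nat_lit 5) (nat_lit 404) (nat_lit 398) (nat_lit 143)))))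 (XT.nd (nat_lit 282) (nat_lit 0) (nat_lit 168) (XT.nd (nat_lit 94) (nat_lit 0) (nat_lit 84) (XT.lf (nat_lit 84) (nat_lit 4504370793) (nat_lit 0) (nat_lit 2269803508) (nat_lit 1344) (nat_lit 46300189778) (nat_lit 164) (nat_lit 5) (nat_lit 163) (nat_lit 5) (nat_lit 179) (nat_lit 5) (nat_lit 405) (nat_lit 398) (nat_lit 142)) (XT.nd (nat_lit 94) (nat_lit 0) (nat_lit 0) (XT.lf (nat_lit 0) (nat_lit 8464766863) (nat_lit 1260) (nat_lit 25332431696) (nat_lit 1344) (nat_lit 20107954908) (nat_lit 164) (nat_lit 5) (nat_lit 179) (nat_lit 5) (nat_lit 180) (nat_lit 5) (nat_lit 406) (nat_lit 398) (nat_lit 141)) (XT.lf (nat_lit 0) (nat_lit 10227696367) (nat_lit 1260) (nat_lit 1420796018) (nat_lit 1344) (nat_lit 43111727126) (nat_lit 164) (nat_lit 5) (nat_lit 179) (nat_lit 5) (nat_lit 180) (nat_lit 5) (nat_lit 407) (nat_lit 398) (nat_lit 140)))) (XT.nd (nat_lit 188) (nat_lit 0) (nat_lit 84) (XT.nd (nat_lit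 94) (nat_lit 0) (nat_lit 0) (XT.lf (nat_lit 0) (nat_lit 12379787224) (nat_lit 1260) (nat_lit 32074211714) (nat_lit 1344) (nat_lit 11176851900) (nat_lit 165) (nat_lit 5) (nat_lit 180) (nat_lit 5) (nat_lit 181) (nat_lit 5) (nat_lit 408) (nat_lit 398) (nat_lit 139)) (XT.lf (nat_lit 0) (nat_lit 14725453695) (nat_lit 1260) (nat_lit 7330707374) (nat_lit 1344) (nat_lit 34467571109) (nat_lit 165) (nat_lit 5) (nat_lit 180) (nat_lit 5) (nat_lit 181) (nat_lit 5) (nat_lit 409) (nat_lit 398) (nat_lit 138))) (XT.nd (nat_lit 94) (nat_lit 0) (nat_lit 0) (XT.lf (nat_lit 0) (nat_lit 17330199068) (nat_lit 1260) (nat_lit 38933748427) (nat_lit 1344) (nat_lit 1173792615) (nat_lit 166) (nat_lit 5) (nat_lit 181) (nat_lit 5) (nat_lit 182) (nat_lit 5) (nat_lit 410) (nat_lit 398) (nat_lit 137)) (XT.lf (nat_lit 0) (nat_lit 20305458248) (nat_lit 1260) (nat_lit 13332643251) (nat_lit 1344) (nat_lit 24732297012) (nat_lit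 166) (nat_lit 5) (nat_lit 181) (nat_lit 5) (nat_lit 182) (nat_lit 5) (nat_lit 411) (nat_lit 398) (nat_lit 136))))))))
noncomputable def xc231 : XT := (XT.nd (nat_lit 2632) (nat_lit 1932) (nat_lit 0) (XT.nd (nat_lit 1316) (nat_lit 2856) (nat_lit 0) (XT.nd (nat_lit 658) (nat_lit 2436) (nat_lit 0) (XT.nd (nat_lit 282) (nat_lit 1092) (nat_lit 0) (XT.nd (nat_lit 94) (nat_lit 0) (nat_lit 84) (XT.lf (nat_lit 84) (nat_lit 13295363655) (nat_lit 0) (nat_lit 10201671917) (nat_lit 1344) (nat_lit 35830190620) (nat_lit 167) (nat_lit 5) (nat_lit 166) (nat_lit 5) (nat_lit 182) (nat_lit 5) (nat_lit 412) (nat_lit 398) (nat_lit 135)) (XT.nd (nat_lit 94) (nat_lit 0) (nat_lit 0) (XT.lf (nat_lit 0) (nat_lit 27053580856) (nat_lit 1260) (nat_lit 19449105850) (nat_lit 1344) (nat_lit 13801996676) (nat_lit 167) (nat_lit 5) (nat_lit 182) (nat_lit 5) (nat_lit 183) (nat_lit 5) (nat_lit 413) (nat_lit 398) (nat_lit 134))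 (XT.lf (nat_lit 84) (nat_lit 7985376668) (nat_lit 0) (nat_lit 22908508858) (nat_lit 1344) (nat_lit 30412268131) (nat_lit 168) (nat_lit 5) (nat_lit 167) (nat_lit 5) (nat_lit 183) (nat_lit 5) (nat_lit 414) (nat_lit 398) (nat_lit 133)))) (XT.nd (nat_lit 188) (nat_lit 0) (nat_lit 0) (XT.nd (nat_lit 94) (nat_lit 1260) (nat_lit 0) (XT.lf (nat_lit 0) (nat_lit 35060449081) (nat_lit 1260) (nat_lit 25706125598) (nat_lit 84) (nat_lit 1564763093) (nat_lit 168) (nat_lit 5) (nat_lit 183) (nat_lit 5) (nat_lit 169) (nat_lit 5) (nat_lit 415) (nat_lit 398) (nat_lit 132)) (XT.lf (nat_lit 0) (nat_lit 2559519981) (nat_lit 1260) (nat_lit 37043242438) (nat_lit 1344) (nat_lit 23776993592) (nat_lit 153) (nat_lit 5) (nat_lit 168) (nat_lit 5) (nat_lit 169) (nat_lit 5) (nat_lit 416) (nat_lit 398) (nat_lit 131))) (XT.nd (nat_lit 94) (nat_lit 0) (nat_lit 0) (XT.lf (nat_lit 0) (nat_lit 32199517040) (nat_lit 1260) (nat_lit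 12340755856) (nat_lit 1344) (nat_lit 19911587223) (nat_lit 153) (nat_lit 5) (nat_lit 168) (nat_lit 5) (nat_lit 169) (nat_lit 5) (nat_lit 417) (nat_lit 398) (nat_lit 130)) (XT.lf (nat_lit 0) (nat_lit 49751226978) (nat_lit 1344) (nat_lit 2953938188) (nat_lit 84) (nat_lit 12847203754) (nat_lit 153) (nat_lit 5) (nat_lit 169) (nat_lit 5) (nat_lit 154) (nat_lit 5) (nat_lit 418) (nat_lit 398) (nat_lit 129))))) (XT.nd (nat_lit 282) (nat_lit 1260) (nat_lit 0) (XT.nd (nat_lit 94) (nat_lit 588) (nat_lit 0) (XT.lf (nat_lit 0) (nat_lit 27640033773) (nat_lit 588) (nat_lit 27865739098) (nat_lit 672) (nat_lit 11168503306) (nat_lit 146) (nat_lit 5) (nat_lit 153) (nat_lit 5) (nat_lit 154) (nat_lit 5) (nat_lit 419) (nat_lit 398) (nat_lit 128)) (XT.nd (nat_lit 94) (nat_lit 588) (nat_lit 0) (XT.lf (nat_lit 0) (nat_lit 59211827193) (nat_lit 588) (nat_lit 2250354138) (nat_lit 672) (nat_lit 6366783590) (nat_lit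 146) (nat_lit 5) (nat_lit 153) (nat_lit 5) (nat_lit 154) (nat_lit 5) (nat_lit 420) (nat_lit 398) (nat_lit 127)) (XT.lf (nat_lit 0) (nat_lit 22927335519) (nat_lit 588) (nat_lit 45121739244) (nat_lit 672) (nat_lit 955666807) (nat_lit 139) (nat_lit 5) (nat_lit 146) (nat_lit 5) (nat_lit 147) (nat_lit 5) (nat_lit 421) (nat_lit 398) (nat_lit 126)))) (XT.nd (nat_lit 188) (nat_lit 588) (nat_lit 0) (XT.nd (nat_lit 94) (nat_lit 588) (nat_lit 0) (XT.lf (nat_lit 0) (nat_lit 4637252731) (nat_lit 672) (nat_lit 14686487081) (nat_lit 84) (nat_lit 50887433640) (nat_lit 138) (nat_lit 5) (nat_lit 146) (nat_lit 5) (nat_lit 139) (nat_lit 5) (nat_lit 422) (nat_lit 398) (nat_lit 125)) (XT.lf (nat_lit 0) (nat_lit 10622572514) (nat_lit 672) (nat_lit 53532677927) (nat_lit 84) (nat_lit 7290950305) (nat_lit 131) (nat_lit 5) (nat_lit 139) (nat_lit 5) (nat_lit 132) (nat_lit 5) (nat_lit 423) (nat_lit 398) (nat_lit 124)))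 (XT.nd (nat_lit 94) (nat_lit 588) (nat_lit 0) (XT.lf (nat_lit 0) (nat_lit 17127997712) (nat_lit 672) (nat_lit 21114587192) (nat_lit 84) (nat_lit 34465478492) (nat_lit 131) (nat_lit 5) (nat_lit 139) (nat_lit 5) (nat_lit 132) (nat_lit 5) (nat_lit 424) (nat_lit 398) (nat_lit 123)) (XT.lf (nat_lit 0) (nat_lit 12519812554) (nat_lit 588) (nat_lit 11428585848) (nat_lit 672) (nat_lit 50055790025) (nat_lit 124) (nat_lit 5) (nat_lit 131) (nat_lit 5) (nat_lit 132) (nat_lit 5) (nat_lit 425) (nat_lit 398) (nat_lit 122)))))) (XT.nd (nat_lit 658) (nat_lit 1344) (nat_lit 0) (XT.nd (nat_lit 282) (nat_lit 1008) (nat_lit 0) (XT.nd (nat_lit 94) (nat_lit 504) (nat_lit 0) (XT.lf (nat_lit 0) (nat_lit 31343839664) (nat_lit 672) (nat_lit 27895017289) (nat_lit 84) (nat_lit 16089228258) (nat_lit 124) (nat_lit 5) (nat_lit 132) (nat_lit 5) (nat_lit 125) (nat_lit 5) (nat_lit 426) (nat_lit 398) (nat_lit 121)) (XT.nd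 (nat_lit 94) (nat_lit 0) (nat_lit 0) (XT.lf (nat_lit 0) (nat_lit 6719452975) (nat_lit 504) (nat_lit 32418927279) (nat_lit 588) (nat_lit 37548002393) (nat_lit 118) (nat_lit 5) (nat_lit 124) (nat_lit 5) (nat_lit 125) (nat_lit 5) (nat_lit 427) (nat_lit 398) (nat_lit 120)) (XT.lf (nat_lit 0) (nat_lit 42943647610) (nat_lit 504) (nat_lit 4504294463) (nat_lit 588) (nat_lit 30629052193) (nat_lit 118) (nat_lit 5) (nat_lit 124) (nat_lit 5) (nat_lit 125) (nat_lit 5) (nat_lit 428) (nat_lit 398) (nat_lit 119)))) (XT.nd (nat_lit 188) (nat_lit 504) (nat_lit 0) (XT.nd (nat_lit 94) (nat_lit 0) (nat_lit 0) (XT.lf (nat_lit 0) (nat_lit 521811948) (nat_lit 504) (nat_lit 55722593557) (nat_lit 588) (nat_lit 23257791072) (nat_lit 112) (nat_lit 5) (nat_lit 118) (nat_lit 5) (nat_lit 119) (nat_lit 5) (nat_lit 429) (nat_lit 398) (nat_lit 118)) (XT.lf (nat_lit 0) (nat_lit 37920815261) (nat_lit 504) (nat_lit 27782408654)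 (nat_lit 588) (nat_lit 15254977970) (nat_lit 112) (nat_lit 5) (nat_lit 118) (nat_lit 5) (nat_lit 119) (nat_lit 5) (nat_lit 430) (nat_lit 398) (nat_lit 117))) (XT.nd (nat_lit 94) (nat_lit 504) (nat_lit 0) (XT.lf (nat_lit 0) (nat_lit 75454917711) (nat_lit 588) (nat_lit 6026196227) (nat_lit 84) (nat_lit 976500831) (nat_lit 112) (nat_lit 5) (nat_lit 119) (nat_lit 5) (nat_lit 113) (nat_lit 5) (nat_lit 431) (nat_lit 398) (nat_lit 116)) (XT.lf (nat_lit 0) (nat_lit 2060326491) (nat_lit 504) (nat_lit 51551588978) (nat_lit 84) (nat_lit 30371891850) (nat_lit 106) (nat_lit 5) (nat_lit 112) (nat_lit 5) (nat_lit 107) (nat_lit 5) (nat_lit 432) (nat_lit 398) (nat_lit 115))))) (XT.nd (nat_lit 282) (nat_lit 840) (nat_lit 0) (XT.nd (nat_lit 94) (nat_lit 504) (nat_lit 0) (XT.lf (nat_lit 0) (nat_lit 11315502280) (nat_lit 504) (nat_lit 13456492628) (nat_lit 84) (nat_lit 60779881142) (nat_lit 106) (nat_lit 5)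 (nat_lit 112) (nat_lit 5) (nat_lit 107) (nat_lit 5) (nat_lit 433) (nat_lit 398) (nat_lit 114)) (XT.nd (nat_lit 94) (nat_lit 0) (nat_lit 0) (XT.lf (nat_lit 0) (nat_lit 21150576483) (nat_lit 588) (nat_lit 60915289680) (nat_lit 84) (nat_lit 5092054044) (nat_lit 100) (nat_lit 5) (nat_lit 107) (nat_lit 5) (nat_lit 101) (nat_lit 5) (nat_lit 434) (nat_lit 398) (nat_lit 113)) (XT.lf (nat_lit 0) (nat_lit 31662773548) (nat_lit 588) (nat_lit 21646615369) (nat_lit 84) (nat_lit 35491295290) (nat_lit 100) (nat_lit 5) (nat_lit 107) (nat_lit 5) (nat_lit 101) (nat_lit 5) (nat_lit 435) (nat_lit 398) (nat_lit 112)))) (XT.nd (nat_lit 188) (nat_lit 420) (nat_lit 0) (XT.nd (nat_lit 94) (nat_lit 0) (nat_lit 0) (XT.lf (nat_lit 0) (nat_lit 19173777537) (nat_lit 420) (nat_lit 23500455261) (nat_lit 504) (nat_lit 47812982060) (nat_lit 95) (nat_lit 5) (nat_lit 100) (nat_lit 5) (nat_lit 101) (nat_lit 5) (nat_lit 436)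 (nat_lit 398) (nat_lit 111)) (XT.lf (nat_lit 0) (nat_lit 54305618451) (nat_lit 504) (nat_lit 30627166907) (nat_lit 84) (nat_lit 7282869195) (nat_lit 95) (nat_lit 5) (nat_lit 101) (nat_lit 5) (nat_lit 96) (nat_lit 5) (nat_lit 437) (nat_lit 398) (nat_lit 110))) (XT.nd (nat_lit 94) (nat_lit 0) (nat_lit 0) (XT.lf (nat_lit 0) (nat_lit 11266377660) (nat_lit 420) (nat_lit 55360149767) (nat_lit 504) (nat_lit 27359203144) (nat_lit 90) (nat_lit 5) (nat_lit 95) (nat_lit 5) (nat_lit 96) (nat_lit 5) (nat_lit 438) (nat_lit 398) (nat_lit 109)) (XT.lf (nat_lit 0) (nat_lit 55044076411) (nat_lit 420) (nat_lit 24581873170) (nat_lit 504) (nat_lit 16173693278) (nat_lit 90) (nat_lit 5) (nat_lit 95) (nat_lit 5) (nat_lit 96) (nat_lit 5) (nat_lit 439) (nat_lit 398) (nat_lit 108))))))) (XT.nd (nat_lit 55836) (nat_lit 0) (nat_lit 7980) (XT.nd (nat_lit 658) (nat_lit 756) (nat_lit 0) (XT.nd (nat_lit 282) (nat_lit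 756) (nat_lit 0) (XT.nd (nat_lit 94) (nat_lit 84) (nat_lit 0) (XT.lf (nat_lit 0) (nat_lit 2445947326) (nat_lit 336) (nat_lit 90660980468) (nat_lit 420) (nat_lit 4558298070) (nat_lit 86) (nat_lit 5) (nat_lit 90) (nat_lit 5) (nat_lit 91) (nat_lit 5) (nat_lit 440) (nat_lit 398) (nat_lit 107)) (XT.nd (nat_lit 94) (nat_lit 0) (nat_lit 0) (XT.lf (nat_lit 0) (nat_lit 7919685137) (nat_lit 420) (nat_lit 52114600005) (nat_lit 84) (nat_lit 39530597076) (nat_lit 85) (nat_lit 5) (nat_lit 90) (nat_lit 5) (nat_lit 86) (nat_lit 5) (nat_lit 441) (nat_lit 398) (nat_lit 106)) (XT.lf (nat_lit 0) (nat_lit 20680025823) (nat_lit 420) (nat_lit 7762378258) (nat_lit 84) (nat_lit 73077781677) (nat_lit 85) (nat_lit 5) (nat_lit 90) (nat_lit 5) (nat_lit 86) (nat_lit 5) (nat_lit 442) (nat_lit 398) (nat_lit 105)))) (XT.nd (nat_lit 188) (nat_lit 336) (nat_lit 0) (XT.nd (nat_lit 94) (nat_lit 0) (nat_lit 0) (XT.lf (nat_lit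 0) (nat_lit 34237651918) (nat_lit 504) (nat_lit 64891431857) (nat_lit 84) (nat_lit 4392630864) (nat_lit 80) (nat_lit 5) (nat_lit 86) (nat_lit 5) (nat_lit 81) (nat_lit 5) (nat_lit 443) (nat_lit 398) (nat_lit 104)) (XT.lf (nat_lit 0) (nat_lit 48562426584) (nat_lit 504) (nat_lit 19289934545) (nat_lit 84) (nat_lit 37720116138) (nat_lit 80) (nat_lit 5) (nat_lit 86) (nat_lit 5) (nat_lit 81) (nat_lit 5) (nat_lit 444) (nat_lit 398) (nat_lit 103))) (XT.nd (nat_lit 94) (nat_lit 0) (nat_lit 0) (XT.lf (nat_lit 0) (nat_lit 28230033184) (nat_lit 336) (nat_lit 35357936761) (nat_lit 420) (nat_lit 44088662526) (nat_lit 76) (nat_lit 5) (nat_lit 80) (nat_lit 5) (nat_lit 81) (nat_lit 5) (nat_lit 445) (nat_lit 398) (nat_lit 102)) (XT.lf (nat_lit 0) (nat_lit 77570584917) (nat_lit 336) (nat_lit 1688151957) (nat_lit 420) (nat_lit 30579342187) (nat_lit 76) (nat_lit 5) (nat_lit 80) (nat_lit 5) (nat_lit 81) (nat_lit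 5) (nat_lit 446) (nat_lit 398) (nat_lit 101))))) (XT.nd (nat_lit 54802) (nat_lit 0) (nat_lit 7896) (XT.nd (nat_lit 94) (nat_lit 420) (nat_lit 0) (XT.lf (nat_lit 0) (nat_lit 16328030058) (nat_lit 336) (nat_lit 79545363886) (nat_lit 420) (nat_lit 16176762527) (nat_lit 72) (nat_lit 5) (nat_lit 76) (nat_lit 5) (nat_lit 77) (nat_lit 5) (nat_lit 447) (nat_lit 398) (nat_lit 100)) (XT.nd (nat_lit 94) (nat_lit 420) (nat_lit 0) (XT.lf (nat_lit 0) (nat_lit 67025393122) (nat_lit 336) (nat_lit 46303167299) (nat_lit 420) (nat_lit 989774113) (nat_lit 72) (nat_lit 5) (nat_lit 76) (nat_lit 5) (nat_lit 77) (nat_lit 5) (nat_lit 448) (nat_lit 398) (nat_lit 99)) (XT.lf (nat_lit 0) (nat_lit 2496558177) (nat_lit 336) (nat_lit 11894021438) (nat_lit 420) (nat_lit 102259042613) (nat_lit 67) (nat_lit 5) (nat_lit 71) (nat_lit 5) (nat_lit 72) (nat_lit 5) (nat_lit 449) (nat_lit 398) (nat_lit 98)))) (XT.nd (nat_lit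 188) (nat_lit 0) (nat_lit 0) (XT.nd (nat_lit 94) (nat_lit 0) (nat_lit 0) (XT.lf (nat_lit 0) (nat_lit 440188508) (nat_lit 0) (nat_lit 440188508) (nat_lit 1260) (nat_lit 23702744115) (nat_lit 161) (nat_lit 5) (nat_lit 161) (nat_lit 3) (nat_lit 176) (nat_lit 3) (nat_lit 399) (nat_lit 399) (nat_lit 147)) (XT.lf (nat_lit 0) (nat_lit 2013938433) (nat_lit 1260) (nat_lit 27338361183) (nat_lit 1344) (nat_lit 20544587055) (nat_lit 161) (nat_lit 5) (nat_lit 176) (nat_lit 3) (nat_lit 177) (nat_lit 5) (nat_lit 400) (nat_lit 399) (nat_lit 146))) (XT.nd (nat_lit 94) (nat_lit 0) (nat_lit 84) (XT.lf (nat_lit 0) (nat_lit 2282450166) (nat_lit 1260) (nat_lit 5771679618) (nat_lit 1344) (nat_lit 42595090468) (nat_lit 161) (nat_lit 5) (nat_lit 176) (nat_lit 3) (nat_lit 177) (nat_lit 5) (nat_lit 401) (nat_lit 399) (nat_lit 145)) (XT.lf (nat_lit 0) (nat_lit 2854304113) (nat_lit 1260) (nat_lit 34785665801) (nat_lit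 1344) (nat_lit 13775297064) (nat_lit 162) (nat_lit 5) (nat_lit 177) (nat_lit 5) (nat_lit 178) (nat_lit 5) (nat_lit 402) (nat_lit 399) (nat_lit 144)))))) (XT.nd (nat_lit 658) (nat_lit 0) (nat_lit 252) (XT.nd (nat_lit 282) (nat_lit 0) (nat_lit 84) (XT.nd (nat_lit 94) (nat_lit 0) (nat_lit 84) (XT.lf (nat_lit 0) (nat_lit 3580988128) (nat_lit 1260) (nat_lit 12462177619) (nat_lit 1344) (nat_lit 36157000820) (nat_lit 162) (nat_lit 5) (nat_lit 177) (nat_lit 5) (nat_lit 178) (nat_lit 5) (nat_lit 403) (nat_lit 399) (nat_lit 143)) (XT.nd (nat_lit 94) (nat_lit 0) (nat_lit 0) (XT.lf (nat_lit 0) (nat_lit 4492449469) (nat_lit 1260) (nat_lit 42326119293) (nat_lit 1344) (nat_lit 6185156721) (nat_lit 163) (nat_lit 5) (nat_lit 178) (nat_lit 5) (nat_lit 179) (nat_lit 5) (nat_lit 404) (nat_lit 399) (nat_lit 142)) (XT.lf (nat_lit 0) (nat_lit 5716310040) (nat_lit 1260) (nat_lit 19221213796) (nat_lit 1344) (nat_lit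 28885317265) (nat_lit 163) (nat_lit 5) (nat_lit 178) (nat_lit 5) (nat_lit 179) (nat_lit 5) (nat_lit 405) (nat_lit 399) (nat_lit 141)))) (XT.nd (nat_lit 188) (nat_lit 0) (nat_lit 84) (XT.nd (nat_lit 94) (nat_lit 0) (nat_lit 84) (XT.lf (nat_lit 84) (nat_lit 4667377695) (nat_lit 0) (nat_lit 2353522605) (nat_lit 1344) (nat_lit 47644311021) (nat_lit 164) (nat_lit 5) (nat_lit 163) (nat_lit 5) (nat_lit 179) (nat_lit 5) (nat_lit 406) (nat_lit 399) (nat_lit 140)) (XT.lf (nat_lit 0) (nat_lit 8760797804) (nat_lit 1260) (nat_lit 26063851583) (nat_lit 1344) (nat_lit 20696319680) (nat_lit 164) (nat_lit 5) (nat_lit 179) (nat_lit 5) (nat_lit 180) (nat_lit 5) (nat_lit 407) (nat_lit 399) (nat_lit 139))) (XT.nd (nat_lit 94) (nat_lit 0) (nat_lit 84) (XT.lf (nat_lit 0) (nat_lit 10575389331) (nat_lit 1260) (nat_lit 1435698478) (nat_lit 1344) (nat_lit 44390638284) (nat_lit 164) (nat_lit 5) (nat_lit 179) (nat_lit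 5) (nat_lit 180) (nat_lit 5) (nat_lit 408) (nat_lit 399) (nat_lit 138)) (XT.lf (nat_lit 0) (nat_lit 12790996594) (nat_lit 1260) (nat_lit 33007598342) (nat_lit 1344) (nat_lit 11499914972) (nat_lit 165) (nat_lit 5) (nat_lit 180) (nat_lit 5) (nat_lit 181) (nat_lit 5) (nat_lit 409) (nat_lit 399) (nat_lit 137))))) (XT.nd (nat_lit 282) (nat_lit 0) (nat_lit 84) (XT.nd (nat_lit 94) (nat_lit 0) (nat_lit 84) (XT.lf (nat_lit 0) (nat_lit 15205873377) (nat_lit 1260) (nat_lit 7522628864) (nat_lit 1344) (nat_lit 35489712333) (nat_lit 165) (nat_lit 5) (nat_lit 180) (nat_lit 5) (nat_lit 181) (nat_lit 5) (nat_lit 410) (nat_lit 399) (nat_lit 136)) (XT.nd (nat_lit 94) (nat_lit 0) (nat_lit 0) (XT.lf (nat_lit 0) (nat_lit 17887804905) (nat_lit 1260) (nat_lit 40072737091) (nat_lit 1344) (nat_lit 1199131469) (nat_lit 166) (nat_lit 5) (nat_lit 181) (nat_lit 5) (nat_lit 182) (nat_lit 5) (nat_lit 411) (nat_lit 399)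 (nat_lit 135)) (XT.lf (nat_lit 0) (nat_lit 20951223807) (nat_lit 1260) (nat_lit 13704444114) (nat_lit 1344) (nat_lit 25464678618) (nat_lit 166) (nat_lit 5) (nat_lit 181) (nat_lit 5) (nat_lit 182) (nat_lit 5) (nat_lit 412) (nat_lit 399) (nat_lit 134)))) (XT.nd (nat_lit 188) (nat_lit 0) (nat_lit 84) (XT.nd (nat_lit 94) (nat_lit 0) (nat_lit 84) (XT.lf (nat_lit 84) (nat_lit 13722126741) (nat_lit 0) (nat_lit 10515623850) (nat_lit 1344) (nat_lit 36868154313) (nat_lit 167) (nat_lit 5) (nat_lit 166) (nat_lit 5) (nat_lit 182) (nat_lit 5) (nat_lit 413) (nat_lit 399) (nat_lit 133)) (XT.lf (nat_lit 0) (nat_lit 27899875655) (nat_lit 1260) (nat_lit 20004310864) (nat_lit 1344) (nat_lit 14208534651) (nat_lit 167) (nat_lit 5) (nat_lit 182) (nat_lit 5) (nat_lit 183) (nat_lit 5) (nat_lit 414) (nat_lit 399) (nat_lit 132))) (XT.nd (nat_lit 94) (nat_lit 0) (nat_lit 84) (XT.lf (nat_lit 84) (nat_lit 8252928992)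 (nat_lit 0) (nat_lit 23601719229) (nat_lit 1344) (nat_lit 31289611378) (nat_lit 168) (nat_lit 5) (nat_lit 167) (nat_lit 5) (nat_lit 183) (nat_lit 5) (nat_lit 415) (nat_lit 399) (nat_lit 131)) (XT.lf (nat_lit 0) (nat_lit 36145164383) (nat_lit 1260) (nat_lit 26449030787) (nat_lit 84) (nat_lit 1606037152) (nat_lit 168) (nat_lit 5) (nat_lit 183) (nat_lit 5) (nat_lit 169) (nat_lit 5) (nat_lit 416) (nat_lit 399) (nat_lit 130))))))))
noncomputable def xc232 : XT := (XT.nd (nat_lit 2538) (nat_lit 1092) (nat_lit 0) (XT.nd (nat_lit 1222) (nat_lit 2772) (nat_lit 0) (XT.nd (nat_lit 564) (nat_lit 1764) (nat_lit 0) (XT.nd (nat_lit 282) (nat_lit 1176) (nat_lit 0) (XT.nd (nat_lit 94) (nat_lit 0) (nat_lit 0) (XT.lf (nat_lit 0) (nat_lit 2664306919) (nat_lit 1260) (nat_lit 38158751063) (nat_lit 1344) (nat_lit 24457067505) (nat_lit 153) (nat_lit 5) (nat_lit 168) (nat_lit 5) (nat_lit 169) (nat_lit 5) (nat_lit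 417) (nat_lit 399) (nat_lit 129)) (XT.nd (nat_lit 94) (nat_lit 0) (nat_lit 0) (XT.lf (nat_lit 0) (nat_lit 33192688316) (nat_lit 1260) (nat_lit 12715067223) (nat_lit 1344) (nat_lit 20476666981) (nat_lit 153) (nat_lit 5) (nat_lit 168) (nat_lit 5) (nat_lit 169) (nat_lit 5) (nat_lit 418) (nat_lit 399) (nat_lit 128)) (XT.lf (nat_lit 0) (nat_lit 51274089179) (nat_lit 1344) (nat_lit 3015159760) (nat_lit 84) (nat_lit 13228727725) (nat_lit 153) (nat_lit 5) (nat_lit 169) (nat_lit 5) (nat_lit 154) (nat_lit 5) (nat_lit 419) (nat_lit 399) (nat_lit 127)))) (XT.nd (nat_lit 94) (nat_lit 588) (nat_lit 0) (XT.lf (nat_lit 0) (nat_lit 28496362765) (nat_lit 588) (nat_lit 28704286189) (nat_lit 672) (nat_lit 11472912418) (nat_lit 146) (nat_lit 5) (nat_lit 153) (nat_lit 5) (nat_lit 154) (nat_lit 5) (nat_lit 420) (nat_lit 399) (nat_lit 126)) (XT.nd (nat_lit 94) (nat_lit 588) (nat_lit 0) (XT.lf (nat_lit 0) (nat_lit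 61014519853) (nat_lit 588) (nat_lit 2320364683) (nat_lit 672) (nat_lit 6528033712) (nat_lit 146) (nat_lit 5) (nat_lit 153) (nat_lit 5) (nat_lit 154) (nat_lit 5) (nat_lit 421) (nat_lit 399) (nat_lit 125)) (XT.lf (nat_lit 0) (nat_lit 23642165653) (nat_lit 588) (nat_lit 46476615490) (nat_lit 672) (nat_lit 955206634) (nat_lit 139) (nat_lit 5) (nat_lit 146) (nat_lit 5) (nat_lit 147) (nat_lit 5) (nat_lit 422) (nat_lit 399) (nat_lit 124))))) (XT.nd (nat_lit 282) (nat_lit 1092) (nat_lit 0) (XT.nd (nat_lit 94) (nat_lit 588) (nat_lit 0) (XT.lf (nat_lit 0) (nat_lit 4804100160) (nat_lit 672) (nat_lit 15100260244) (nat_lit 84) (nat_lit 52412270152) (nat_lit 138) (nat_lit 5) (nat_lit 146) (nat_lit 5) (nat_lit 139) (nat_lit 5) (nat_lit 423) (nat_lit 399) (nat_lit 123)) (XT.nd (nat_lit 94) (nat_lit 0) (nat_lit 0) (XT.lf (nat_lit 0) (nat_lit 10968421218) (nat_lit 672) (nat_lit 55111233640) (nat_lit 84)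 (nat_lit 7509071908) (nat_lit 131) (nat_lit 5) (nat_lit 139) (nat_lit 5) (nat_lit 132) (nat_lit 5) (nat_lit 424) (nat_lit 399) (nat_lit 122)) (XT.lf (nat_lit 0) (nat_lit 17668217768) (nat_lit 672) (nat_lit 21721398958) (nat_lit 84) (nat_lit 35498853617) (nat_lit 131) (nat_lit 5) (nat_lit 139) (nat_lit 5) (nat_lit 132) (nat_lit 5) (nat_lit 425) (nat_lit 399) (nat_lit 121)))) (XT.nd (nat_lit 188) (nat_lit 504) (nat_lit 0) (XT.nd (nat_lit 94) (nat_lit 0) (nat_lit 0) (XT.lf (nat_lit 0) (nat_lit 12921771742) (nat_lit 588) (nat_lit 11770943818) (nat_lit 672) (nat_lit 51530780281) (nat_lit 124) (nat_lit 5) (nat_lit 131) (nat_lit 5) (nat_lit 132) (nat_lit 5) (nat_lit 426) (nat_lit 399) (nat_lit 120)) (XT.lf (nat_lit 0) (nat_lit 32309271367) (nat_lit 672) (nat_lit 28705481158) (nat_lit 84) (nat_lit 16572380694) (nat_lit 124) (nat_lit 5) (nat_lit 132) (nat_lit 5) (nat_lit 125) (nat_lit 5) (nat_lit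 427) (nat_lit 399) (nat_lit 119))) (XT.nd (nat_lit 94) (nat_lit 0) (nat_lit 0) (XT.lf (nat_lit 0) (nat_lit 6947164520) (nat_lit 504) (nat_lit 33390003264) (nat_lit 588) (nat_lit 38649027403) (nat_lit 118) (nat_lit 5) (nat_lit 124) (nat_lit 5) (nat_lit 125) (nat_lit 5) (nat_lit 428) (nat_lit 399) (nat_lit 118)) (XT.lf (nat_lit 0) (nat_lit 44257323987) (nat_lit 504) (nat_lit 4637974915) (nat_lit 588) (nat_lit 31523248941) (nat_lit 118) (nat_lit 5) (nat_lit 124) (nat_lit 5) (nat_lit 125) (nat_lit 5) (nat_lit 429) (nat_lit 399) (nat_lit 117)))))) (XT.nd (nat_lit 658) (nat_lit 1260) (nat_lit 0) (XT.nd (nat_lit 282) (nat_lit 1008) (nat_lit 0) (XT.nd (nat_lit 94) (nat_lit 0) (nat_lit 0) (XT.lf (nat_lit 0) (nat_lit 563319609) (nat_lit 504) (nat_lit 57391902004) (nat_lit 588) (nat_lit 23931298775) (nat_lit 112) (nat_lit 5) (nat_lit 118) (nat_lit 5) (nat_lit 119) (nat_lit 5) (nat_lit 430) (nat_lit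 399) (nat_lit 116)) (XT.nd (nat_lit 94) (nat_lit 0) (nat_lit 0) (XT.lf (nat_lit 0) (nat_lit 39083540013) (nat_lit 504) (nat_lit 28613580564) (nat_lit 588) (nat_lit 15689106893) (nat_lit 112) (nat_lit 5) (nat_lit 118) (nat_lit 5) (nat_lit 119) (nat_lit 5) (nat_lit 431) (nat_lit 399) (nat_lit 115)) (XT.lf (nat_lit 0) (nat_lit 77740722580) (nat_lit 588) (nat_lit 6181934877) (nat_lit 84) (nat_lit 1007985624) (nat_lit 112) (nat_lit 5) (nat_lit 119) (nat_lit 5) (nat_lit 113) (nat_lit 5) (nat_lit 432) (nat_lit 399) (nat_lit 114)))) (XT.nd (nat_lit 188) (nat_lit 504) (nat_lit 0) (XT.nd (nat_lit 94) (nat_lit 0) (nat_lit 0) (XT.lf (nat_lit 0) (nat_lit 2144135732) (nat_lit 504) (nat_lit 53072863762) (nat_lit 84) (nat_lit 31285628684) (nat_lit 106) (nat_lit 5) (nat_lit 112) (nat_lit 5) (nat_lit 107) (nat_lit 5) (nat_lit 433) (nat_lit 399) (nat_lit 113)) (XT.lf (nat_lit 0) (nat_lit 11676326034) (nat_lit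 504) (nat_lit 13835650625) (nat_lit 84) (nat_lit 62605782507) (nat_lit 106) (nat_lit 5) (nat_lit 112) (nat_lit 5) (nat_lit 107) (nat_lit 5) (nat_lit 434) (nat_lit 399) (nat_lit 112))) (XT.nd (nat_lit 94) (nat_lit 0) (nat_lit 0) (XT.lf (nat_lit 0) (nat_lit 21806095888) (nat_lit 588) (nat_lit 62717823551) (nat_lit 84) (nat_lit 5248076849) (nat_lit 100) (nat_lit 5) (nat_lit 107) (nat_lit 5) (nat_lit 101) (nat_lit 5) (nat_lit 435) (nat_lit 399) (nat_lit 111)) (XT.lf (nat_lit 0) (nat_lit 32633047152) (nat_lit 588) (nat_lit 22271814976) (nat_lit 84) (nat_lit 36559200346) (nat_lit 100) (nat_lit 5) (nat_lit 107) (nat_lit 5) (nat_lit 101) (nat_lit 5) (nat_lit 436) (nat_lit 399) (nat_lit 110))))) (XT.nd (nat_lit 282) (nat_lit 420) (nat_lit 0) (XT.nd (nat_lit 94) (nat_lit 420) (nat_lit 0) (XT.lf (nat_lit 0) (nat_lit 19772952473) (nat_lit 420) (nat_lit 24201534146) (nat_lit 504) (nat_lit 49226714224)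 (nat_lit 95) (nat_lit 5) (nat_lit 100) (nat_lit 5) (nat_lit 101) (nat_lit 5) (nat_lit 437) (nat_lit 399) (nat_lit 109)) (XT.nd (nat_lit 94) (nat_lit 420) (nat_lit 0) (XT.lf (nat_lit 0) (nat_lit 55954267257) (nat_lit 504) (nat_lit 31522142839) (nat_lit 84) (nat_lit 7505100894) (nat_lit 95) (nat_lit 5) (nat_lit 101) (nat_lit 5) (nat_lit 96) (nat_lit 5) (nat_lit 438) (nat_lit 399) (nat_lit 108)) (XT.lf (nat_lit 0) (nat_lit 11627974349) (nat_lit 420) (nat_lit 57016488677) (nat_lit 504) (nat_lit 28160237315) (nat_lit 90) (nat_lit 5) (nat_lit 95) (nat_lit 5) (nat_lit 96) (nat_lit 5) (nat_lit 439) (nat_lit 399) (nat_lit 107)))) (XT.nd (nat_lit 188) (nat_lit 84) (nat_lit 0) (XT.nd (nat_lit 94) (nat_lit 336) (nat_lit 0) (XT.lf (nat_lit 0) (nat_lit 56718316527) (nat_lit 420) (nat_lit 25314993848) (nat_lit 504) (nat_lit 16639737161) (nat_lit 90) (nat_lit 5) (nat_lit 95) (nat_lit 5) (nat_lit 96) (nat_lit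 5) (nat_lit 440) (nat_lit 399) (nat_lit 106)) (XT.lf (nat_lit 0) (nat_lit 2542556495) (nat_lit 336) (nat_lit 93375883976) (nat_lit 420) (nat_lit 4676166674) (nat_lit 86) (nat_lit 5) (nat_lit 90) (nat_lit 5) (nat_lit 91) (nat_lit 5) (nat_lit 441) (nat_lit 399) (nat_lit 105))) (XT.nd (nat_lit 94) (nat_lit 0) (nat_lit 0) (XT.lf (nat_lit 0) (nat_lit 8175248424) (nat_lit 420) (nat_lit 53655101350) (nat_lit 84) (nat_lit 40720914891) (nat_lit 85) (nat_lit 5) (nat_lit 90) (nat_lit 5) (nat_lit 86) (nat_lit 5) (nat_lit 442) (nat_lit 399) (nat_lit 104)) (XT.lf (nat_lit 0) (nat_lit 21317875853) (nat_lit 420) (nat_lit 7972981009) (nat_lit 84) (nat_lit 75274386878) (nat_lit 85) (nat_lit 5) (nat_lit 90) (nat_lit 5) (nat_lit 86) (nat_lit 5) (nat_lit 443) (nat_lit 399) (nat_lit 103))))))) (XT.nd (nat_lit 55930) (nat_lit 0) (nat_lit 6216) (XT.nd (nat_lit 55272) (nat_lit 0) (nat_lit 7476) (XT.nd (nat_lit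 282) (nat_lit 336) (nat_lit 0) (XT.nd (nat_lit 94) (nat_lit 336) (nat_lit 0) (XT.lf (nat_lit 0) (nat_lit 35281981536) (nat_lit 504) (nat_lit 66815633610) (nat_lit 84) (nat_lit 4529211518) (nat_lit 80) (nat_lit 5) (nat_lit 86) (nat_lit 5) (nat_lit 81) (nat_lit 5) (nat_lit 444) (nat_lit 399) (nat_lit 102)) (XT.nd (nat_lit 94) (nat_lit 336) (nat_lit 0) (XT.lf (nat_lit 0) (nat_lit 50035998470) (nat_lit 504) (nat_lit 19846747919) (nat_lit 84) (nat_lit 38856381494) (nat_lit 80) (nat_lit 5) (nat_lit 86) (nat_lit 5) (nat_lit 81) (nat_lit 5) (nat_lit 445) (nat_lit 399) (nat_lit 101)) (XT.lf (nat_lit 0) (nat_lit 29098604286) (nat_lit 336) (nat_lit 36413425771) (nat_lit 420) (nat_lit 45394386690) (nat_lit 76) (nat_lit 5) (nat_lit 80) (nat_lit 5) (nat_lit 81) (nat_lit 5) (nat_lit 446) (nat_lit 399) (nat_lit 100)))) (XT.nd (nat_lit 188) (nat_lit 0) (nat_lit 0) (XT.nd (nat_lit 94) (nat_lit 336) (nat_lit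 0) (XT.lf (nat_lit 0) (nat_lit 79918741403) (nat_lit 336) (nat_lit 1733700309) (nat_lit 420) (nat_lit 31480280015) (nat_lit 76) (nat_lit 5) (nat_lit 80) (nat_lit 5) (nat_lit 81) (nat_lit 5) (nat_lit 447) (nat_lit 399) (nat_lit 99)) (XT.lf (nat_lit 0) (nat_lit 16839149934) (nat_lit 336) (nat_lit 81926176317) (nat_lit 420) (nat_lit 16645842200) (nat_lit 72) (nat_lit 5) (nat_lit 76) (nat_lit 5) (nat_lit 77) (nat_lit 5) (nat_lit 448) (nat_lit 399) (nat_lit 98))) (XT.nd (nat_lit 54708) (nat_lit 0) (nat_lit 7476) (XT.lf (nat_lit 0) (nat_lit 69056814114) (nat_lit 336) (nat_lit 47686875438) (nat_lit 420) (nat_lit 1003716655) (nat_lit 72) (nat_lit 5) (nat_lit 76) (nat_lit 5) (nat_lit 77) (nat_lit 5) (nat_lit 449) (nat_lit 399) (nat_lit 97)) (XT.lf (nat_lit 0) (nat_lit 465950081) (nat_lit 0) (nat_lit 465950081) (nat_lit 1260) (nat_lit 24387915657) (nat_lit 161) (nat_lit 5) (nat_lit 161) (nat_lit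 3) (nat_lit 176) (nat_lit 3) (nat_lit 400) (nat_lit 400) (nat_lit 145))))) (XT.nd (nat_lit 282) (nat_lit 0) (nat_lit 84) (XT.nd (nat_lit 94) (nat_lit 0) (nat_lit 0) (XT.lf (nat_lit 0) (nat_lit 2122883068) (nat_lit 1260) (nat_lit 28132345883) (nat_lit 1344) (nat_lit 21137019996) (nat_lit 161) (nat_lit 5) (nat_lit 176) (nat_lit 3) (nat_lit 177) (nat_lit 5) (nat_lit 401) (nat_lit 400) (nat_lit 144)) (XT.nd (nat_lit 94) (nat_lit 0) (nat_lit 84) (XT.lf (nat_lit 0) (nat_lit 2398036761) (nat_lit 1260) (nat_lit 5919425991) (nat_lit 1344) (nat_lit 43849734763) (nat_lit 161) (nat_lit 5) (nat_lit 176) (nat_lit 3) (nat_lit 177) (nat_lit 5) (nat_lit 402) (nat_lit 400) (nat_lit 143)) (XT.lf (nat_lit 0) (nat_lit 2985715697) (nat_lit 1260) (nat_lit 35802417682) (nat_lit 1344) (nat_lit 14168134688) (nat_lit 162) (nat_lit 5) (nat_lit 177) (nat_lit 5) (nat_lit 178) (nat_lit 5) (nat_lit 403) (nat_lit 400)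 (nat_lit 142)))) (XT.nd (nat_lit 188) (nat_lit 0) (nat_lit 84) (XT.nd (nat_lit 94) (nat_lit 0) (nat_lit 84) (XT.lf (nat_lit 0) (nat_lit 3732866762) (nat_lit 1260) (nat_lit 12810005964) (nat_lit 1344) (nat_lit 37221884351) (nat_lit 162) (nat_lit 5) (nat_lit 177) (nat_lit 5) (nat_lit 178) (nat_lit 5) (nat_lit 404) (nat_lit 400) (nat_lit 141)) (XT.lf (nat_lit 0) (nat_lit 4670455764) (nat_lit 1260) (nat_lit 43568571050) (nat_lit 1344) (nat_lit 6353434791) (nat_lit 163) (nat_lit 5) (nat_lit 178) (nat_lit 5) (nat_lit 179) (nat_lit 5) (nat_lit 405) (nat_lit 400) (nat_lit 140))) (XT.nd (nat_lit 94) (nat_lit 0) (nat_lit 0) (XT.lf (nat_lit 0) (nat_lit 5929772943) (nat_lit 1260) (nat_lit 19771314461) (nat_lit 1344) (nat_lit 29735103354) (nat_lit 163) (nat_lit 5) (nat_lit 178) (nat_lit 5) (nat_lit 179) (nat_lit 5) (nat_lit 406) (nat_lit 400) (nat_lit 139)) (XT.lf (nat_lit 84) (nat_lit 4833674621)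 (nat_lit 0) (nat_lit 2438856336) (nat_lit 1344) (nat_lit 49031332452) (nat_lit 164) (nat_lit 5) (nat_lit 163) (nat_lit 5) (nat_lit 179) (nat_lit 5) (nat_lit 407) (nat_lit 400) (nat_lit 138)))))) (XT.nd (nat_lit 658) (nat_lit 1512) (nat_lit 0) (XT.nd (nat_lit 282) (nat_lit 0) (nat_lit 84) (XT.nd (nat_lit 94) (nat_lit 0) (nat_lit 0) (XT.lf (nat_lit 0) (nat_lit 9063293653) (nat_lit 1260) (nat_lit 26818853129) (nat_lit 1344) (nat_lit 21303189216) (nat_lit 164) (nat_lit 5) (nat_lit 179) (nat_lit 5) (nat_lit 180) (nat_lit 5) (nat_lit 408) (nat_lit 400) (nat_lit 137)) (XT.nd (nat_lit 94) (nat_lit 0) (nat_lit 84) (XT.lf (nat_lit 0) (nat_lit 10931167433) (nat_lit 1260) (nat_lit 1452639334) (nat_lit 1344) (nat_lit 45708745729) (nat_lit 164) (nat_lit 5) (nat_lit 179) (nat_lit 5) (nat_lit 180) (nat_lit 5) (nat_lit 409) (nat_lit 400) (nat_lit 136)) (XT.lf (nat_lit 0) (nat_lit 13212256658) (nat_lit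 1260) (nat_lit 33970642087) (nat_lit 1344) (nat_lit 11833372704) (nat_lit 165) (nat_lit 5) (nat_lit 180) (nat_lit 5) (nat_lit 181) (nat_lit 5) (nat_lit 410) (nat_lit 400) (nat_lit 135)))) (XT.nd (nat_lit 188) (nat_lit 0) (nat_lit 84) (XT.nd (nat_lit 94) (nat_lit 0) (nat_lit 84) (XT.lf (nat_lit 0) (nat_lit 15698486633) (nat_lit 1260) (nat_lit 7721915298) (nat_lit 1344) (nat_lit 36543200095) (nat_lit 165) (nat_lit 5) (nat_lit 180) (nat_lit 5) (nat_lit 181) (nat_lit 5) (nat_lit 411) (nat_lit 400) (nat_lit 134)) (XT.lf (nat_lit 0) (nat_lit 18459974791) (nat_lit 1260) (nat_lit 41247561500) (nat_lit 1344) (nat_lit 1225797351) (nat_lit 166) (nat_lit 5) (nat_lit 181) (nat_lit 5) (nat_lit 182) (nat_lit 5) (nat_lit 412) (nat_lit 400) (nat_lit 133))) (XT.nd (nat_lit 94) (nat_lit 0) (nat_lit 0) (XT.lf (nat_lit 0) (nat_lit 21614261238) (nat_lit 1260) (nat_lit 14089016559) (nat_lit 1344) (nat_lit 26219582023)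 (nat_lit 166) (nat_lit 5) (nat_lit 181) (nat_lit 5) (nat_lit 182) (nat_lit 5) (nat_lit 413) (nat_lit 400) (nat_lit 132)) (XT.lf (nat_lit 84) (nat_lit 14160091020) (nat_lit 0) (nat_lit 10838540747) (nat_lit 1344) (nat_lit 37939377540) (nat_lit 167) (nat_lit 5) (nat_lit 166) (nat_lit 5) (nat_lit 182) (nat_lit 5) (nat_lit 414) (nat_lit 400) (nat_lit 131))))) (XT.nd (nat_lit 282) (nat_lit 1764) (nat_lit 0) (XT.nd (nat_lit 94) (nat_lit 0) (nat_lit 0) (XT.lf (nat_lit 0) (nat_lit 28769568101) (nat_lit 1260) (nat_lit 20577794735) (nat_lit 1344) (nat_lit 14627700554) (nat_lit 167) (nat_lit 5) (nat_lit 182) (nat_lit 5) (nat_lit 183) (nat_lit 5) (nat_lit 415) (nat_lit 400) (nat_lit 130)) (XT.nd (nat_lit 94) (nat_lit 0) (nat_lit 84) (XT.lf (nat_lit 84) (nat_lit 8526901086) (nat_lit 0) (nat_lit 24315384063) (nat_lit 1344) (nat_lit 32195285489) (nat_lit 168) (nat_lit 5) (nat_lit 167) (nat_lit 5) (nat_lit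 183) (nat_lit 5) (nat_lit 416) (nat_lit 400) (nat_lit 129)) (XT.lf (nat_lit 0) (nat_lit 37260532444) (nat_lit 1260) (nat_lit 27215846438) (nat_lit 84) (nat_lit 1648874846) (nat_lit 168) (nat_lit 5) (nat_lit 183) (nat_lit 5) (nat_lit 169) (nat_lit 5) (nat_lit 417) (nat_lit 400) (nat_lit 128)))) (XT.nd (nat_lit 188) (nat_lit 588) (nat_lit 0) (XT.nd (nat_lit 94) (nat_lit 0) (nat_lit 0) (XT.lf (nat_lit 0) (nat_lit 2770630072) (nat_lit 1260) (nat_lit 39307483198) (nat_lit 1344) (nat_lit 25159451512) (nat_lit 153) (nat_lit 5) (nat_lit 168) (nat_lit 5) (nat_lit 169) (nat_lit 5) (nat_lit 418) (nat_lit 400) (nat_lit 127)) (XT.lf (nat_lit 0) (nat_lit 34214094156) (nat_lit 1260) (nat_lit 13100373223) (nat_lit 1344) (nat_lit 21060551439) (nat_lit 153) (nat_lit 5) (nat_lit 168) (nat_lit 5) (nat_lit 169) (nat_lit 5) (nat_lit 419) (nat_lit 400) (nat_lit 126))) (XT.nd (nat_lit 94) (nat_lit 588) (nat_lit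 0) (XT.lf (nat_lit 0) (nat_lit 52840896444) (nat_lit 1344) (nat_lit 3079790655) (nat_lit 84) (nat_lit 13621920839) (nat_lit 153) (nat_lit 5) (nat_lit 169) (nat_lit 5) (nat_lit 154) (nat_lit 5) (nat_lit 420) (nat_lit 400) (nat_lit 125)) (XT.lf (nat_lit 0) (nat_lit 29376824371) (nat_lit 588) (nat_lit 29567841883) (nat_lit 672) (nat_lit 11788213009) (nat_lit 146) (nat_lit 5) (nat_lit 153) (nat_lit 5) (nat_lit 154) (nat_lit 5) (nat_lit 421) (nat_lit 400) (nat_lit 124))))))))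
noncomputable def xc233 : XT := (XT.nd (nat_lit 2538) (nat_lit 336) (nat_lit 0) (XT.nd (nat_lit 1222) (nat_lit 2520) (nat_lit 0) (XT.nd (nat_lit 564) (nat_lit 1512) (nat_lit 0) (XT.nd (nat_lit 282) (nat_lit 1176) (nat_lit 0) (XT.nd (nat_lit 94) (nat_lit 672) (nat_lit 0) (XT.lf (nat_lit 0) (nat_lit 62869781392) (nat_lit 588) (nat_lit 2392332039) (nat_lit 672) (nat_lit 6695829304) (nat_lit 146) (nat_lit 5) (nat_lit 153) (nat_lit 5) (nat_lit 154) (nat_lit 5) (nat_lit 422) (nat_lit 400) (nat_lit 123)) (XT.nd (nat_lit 94) (nat_lit 84) (nat_lit 0) (XT.lf (nat_lit 0) (nat_lit 24376890203) (nat_lit 588) (nat_lit 47872067756) (nat_lit 672) (nat_lit 956404846) (nat_lit 139) (nat_lit 5) (nat_lit 146) (nat_lit 5) (nat_lit 147) (nat_lit 5) (nat_lit 423) (nat_lit 400) (nat_lit 122)) (XT.lf (nat_lit 0) (nat_lit 4974361206) (nat_lit 672) (nat_lit 15527986263) (nat_lit 84) (nat_lit 53982954312) (nat_lit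 138) (nat_lit 5) (nat_lit 146) (nat_lit 5) (nat_lit 139) (nat_lit 5) (nat_lit 424) (nat_lit 400) (nat_lit 121)))) (XT.nd (nat_lit 94) (nat_lit 588) (nat_lit 0) (XT.lf (nat_lit 0) (nat_lit 11323085626) (nat_lit 672) (nat_lit 56738720309) (nat_lit 84) (nat_lit 7733771998) (nat_lit 131) (nat_lit 5) (nat_lit 139) (nat_lit 5) (nat_lit 132) (nat_lit 5) (nat_lit 425) (nat_lit 400) (nat_lit 120)) (XT.nd (nat_lit 94) (nat_lit 588) (nat_lit 0) (XT.lf (nat_lit 0) (nat_lit 18223130099) (nat_lit 672) (nat_lit 22347943509) (nat_lit 84) (nat_lit 36563263820) (nat_lit 131) (nat_lit 5) (nat_lit 139) (nat_lit 5) (nat_lit 132) (nat_lit 5) (nat_lit 426) (nat_lit 400) (nat_lit 119)) (XT.lf (nat_lit 0) (nat_lit 13334276259) (nat_lit 588) (nat_lit 12123601206) (nat_lit 672) (nat_lit 53051551983) (nat_lit 124) (nat_lit 5) (nat_lit 131) (nat_lit 5) (nat_lit 132) (nat_lit 5) (nat_lit 427) (nat_lit 400) (nat_lit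 118))))) (XT.nd (nat_lit 282) (nat_lit 1008) (nat_lit 0) (XT.nd (nat_lit 94) (nat_lit 504) (nat_lit 0) (XT.lf (nat_lit 0) (nat_lit 33302224231) (nat_lit 672) (nat_lit 29541773646) (nat_lit 84) (nat_lit 17070000404) (nat_lit 124) (nat_lit 5) (nat_lit 132) (nat_lit 5) (nat_lit 125) (nat_lit 5) (nat_lit 428) (nat_lit 400) (nat_lit 117)) (XT.nd (nat_lit 94) (nat_lit 0) (nat_lit 0) (XT.lf (nat_lit 0) (nat_lit 7180207561) (nat_lit 504) (nat_lit 34390297166) (nat_lit 588) (nat_lit 39784542093) (nat_lit 118) (nat_lit 5) (nat_lit 124) (nat_lit 5) (nat_lit 125) (nat_lit 5) (nat_lit 429) (nat_lit 400) (nat_lit 116)) (XT.lf (nat_lit 0) (nat_lit 45608954487) (nat_lit 504) (nat_lit 4775748923) (nat_lit 588) (nat_lit 32445688028) (nat_lit 118) (nat_lit 5) (nat_lit 124) (nat_lit 5) (nat_lit 125) (nat_lit 5) (nat_lit 430) (nat_lit 400) (nat_lit 115)))) (XT.nd (nat_lit 188) (nat_lit 504) (nat_lit 0) (XT.nd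 (nat_lit 94) (nat_lit 0) (nat_lit 0) (XT.lf (nat_lit 0) (nat_lit 604588415) (nat_lit 504) (nat_lit 59111425715) (nat_lit 588) (nat_lit 24626402382) (nat_lit 112) (nat_lit 5) (nat_lit 118) (nat_lit 5) (nat_lit 119) (nat_lit 5) (nat_lit 431) (nat_lit 400) (nat_lit 114)) (XT.lf (nat_lit 0) (nat_lit 40279705648) (nat_lit 504) (nat_lit 29469819681) (nat_lit 588) (nat_lit 16137609851) (nat_lit 112) (nat_lit 5) (nat_lit 118) (nat_lit 5) (nat_lit 119) (nat_lit 5) (nat_lit 432) (nat_lit 400) (nat_lit 113))) (XT.nd (nat_lit 94) (nat_lit 504) (nat_lit 0) (XT.lf (nat_lit 0) (nat_lit 80093829673) (nat_lit 588) (nat_lit 6343783501) (nat_lit 84) (nat_lit 1040289259) (nat_lit 112) (nat_lit 5) (nat_lit 119) (nat_lit 5) (nat_lit 113) (nat_lit 5) (nat_lit 433) (nat_lit 400) (nat_lit 112)) (XT.lf (nat_lit 0) (nat_lit 2229196391) (nat_lit 504) (nat_lit 54641227556) (nat_lit 84) (nat_lit 32226629515) (nat_lit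 106) (nat_lit 5) (nat_lit 112) (nat_lit 5) (nat_lit 107) (nat_lit 5) (nat_lit 434) (nat_lit 400) (nat_lit 111)))))) (XT.nd (nat_lit 658) (nat_lit 1176) (nat_lit 0) (XT.nd (nat_lit 282) (nat_lit 840) (nat_lit 0) (XT.nd (nat_lit 94) (nat_lit 504) (nat_lit 0) (XT.lf (nat_lit 0) (nat_lit 12046748424) (nat_lit 504) (nat_lit 14227591873) (nat_lit 84) (nat_lit 64486317119) (nat_lit 106) (nat_lit 5) (nat_lit 112) (nat_lit 5) (nat_lit 107) (nat_lit 5) (nat_lit 435) (nat_lit 400) (nat_lit 110)) (XT.nd (nat_lit 94) (nat_lit 0) (nat_lit 0) (XT.lf (nat_lit 0) (nat_lit 22480075267) (nat_lit 588) (nat_lit 64575864225) (nat_lit 84) (nat_lit 5408593132) (nat_lit 100) (nat_lit 5) (nat_lit 107) (nat_lit 5) (nat_lit 101) (nat_lit 5) (nat_lit 436) (nat_lit 400) (nat_lit 109)) (XT.lf (nat_lit 0) (nat_lit 33631258473) (nat_lit 588) (nat_lit 22917159685) (nat_lit 84) (nat_lit 37658960802) (nat_lit 100) (nat_lit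 5) (nat_lit 107) (nat_lit 5) (nat_lit 101) (nat_lit 5) (nat_lit 437) (nat_lit 400) (nat_lit 108)))) (XT.nd (nat_lit 188) (nat_lit 420) (nat_lit 0) (XT.nd (nat_lit 94) (nat_lit 0) (nat_lit 0) (XT.lf (nat_lit 0) (nat_lit 20388727163) (nat_lit 420) (nat_lit 24923871269) (nat_lit 504) (nat_lit 50684044166) (nat_lit 95) (nat_lit 5) (nat_lit 100) (nat_lit 5) (nat_lit 101) (nat_lit 5) (nat_lit 438) (nat_lit 400) (nat_lit 107)) (XT.lf (nat_lit 0) (nat_lit 57651257281) (nat_lit 504) (nat_lit 32445336509) (nat_lit 84) (nat_lit 7733784530) (nat_lit 95) (nat_lit 5) (nat_lit 101) (nat_lit 5) (nat_lit 96) (nat_lit 5) (nat_lit 439) (nat_lit 400) (nat_lit 106))) (XT.nd (nat_lit 94) (nat_lit 0) (nat_lit 0) (XT.lf (nat_lit 0) (nat_lit 11999063894) (nat_lit 420) (nat_lit 58722774097) (nat_lit 504) (nat_lit 28986435779) (nat_lit 90) (nat_lit 5) (nat_lit 95) (nat_lit 5) (nat_lit 96) (nat_lit 5) (nat_lit 440)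 (nat_lit 400) (nat_lit 105)) (XT.lf (nat_lit 0) (nat_lit 58441468270) (nat_lit 420) (nat_lit 26070357022) (nat_lit 504) (nat_lit 17120862620) (nat_lit 90) (nat_lit 5) (nat_lit 95) (nat_lit 5) (nat_lit 96) (nat_lit 5) (nat_lit 441) (nat_lit 400) (nat_lit 104))))) (XT.nd (nat_lit 282) (nat_lit 756) (nat_lit 0) (XT.nd (nat_lit 94) (nat_lit 84) (nat_lit 0) (XT.lf (nat_lit 0) (nat_lit 2640730400) (nat_lit 336) (nat_lit 96172517357) (nat_lit 420) (nat_lit 4798655144) (nat_lit 86) (nat_lit 5) (nat_lit 90) (nat_lit 5) (nat_lit 91) (nat_lit 5) (nat_lit 442) (nat_lit 400) (nat_lit 103)) (XT.nd (nat_lit 94) (nat_lit 0) (nat_lit 0) (XT.lf (nat_lit 0) (nat_lit 8437446902) (nat_lit 420) (nat_lit 55243134393) (nat_lit 84) (nat_lit 41946689669) (nat_lit 85) (nat_lit 5) (nat_lit 90) (nat_lit 5) (nat_lit 86) (nat_lit 5) (nat_lit 443) (nat_lit 400) (nat_lit 102)) (XT.lf (nat_lit 0) (nat_lit 21973859726)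 (nat_lit 420) (nat_lit 8191180150) (nat_lit 84) (nat_lit 77536645019) (nat_lit 85) (nat_lit 5) (nat_lit 90) (nat_lit 5) (nat_lit 86) (nat_lit 5) (nat_lit 444) (nat_lit 400) (nat_lit 101)))) (XT.nd (nat_lit 188) (nat_lit 336) (nat_lit 0) (XT.nd (nat_lit 94) (nat_lit 0) (nat_lit 0) (XT.lf (nat_lit 0) (nat_lit 36356653690) (nat_lit 504) (nat_lit 68798855374) (nat_lit 84) (nat_lit 4669613953) (nat_lit 80) (nat_lit 5) (nat_lit 86) (nat_lit 5) (nat_lit 81) (nat_lit 5) (nat_lit 445) (nat_lit 400) (nat_lit 100)) (XT.lf (nat_lit 0) (nat_lit 51552818917) (nat_lit 504) (nat_lit 20421521963) (nat_lit 84) (nat_lit 40026467200) (nat_lit 80) (nat_lit 5) (nat_lit 86) (nat_lit 5) (nat_lit 81) (nat_lit 5) (nat_lit 446) (nat_lit 400) (nat_lit 99))) (XT.nd (nat_lit 94) (nat_lit 0) (nat_lit 0) (XT.lf (nat_lit 0) (nat_lit 29991988569) (nat_lit 336) (nat_lit 37500880771) (nat_lit 420) (nat_lit 46740254759) (nat_lit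 76) (nat_lit 5) (nat_lit 80) (nat_lit 5) (nat_lit 81) (nat_lit 5) (nat_lit 447) (nat_lit 400) (nat_lit 98)) (XT.lf (nat_lit 0) (nat_lit 82336134863) (nat_lit 336) (nat_lit 1780907655) (nat_lit 420) (nat_lit 32409189841) (nat_lit 76) (nat_lit 5) (nat_lit 80) (nat_lit 5) (nat_lit 81) (nat_lit 5) (nat_lit 448) (nat_lit 400) (nat_lit 97))))))) (XT.nd (nat_lit 56024) (nat_lit 0) (nat_lit 4956) (XT.nd (nat_lit 55366) (nat_lit 0) (nat_lit 7644) (XT.nd (nat_lit 54990) (nat_lit 0) (nat_lit 7476) (XT.nd (nat_lit 54802) (nat_lit 0) (nat_lit 7476) (XT.lf (nat_lit 0) (nat_lit 17364381906) (nat_lit 336) (nat_lit 84378731626) (nat_lit 420) (nat_lit 17129925542) (nat_lit 72) (nat_lit 5) (nat_lit 76) (nat_lit 5) (nat_lit 77) (nat_lit 5) (nat_lit 449) (nat_lit 400) (nat_lit 96)) (XT.nd (nat_lit 94) (nat_lit 0) (nat_lit 0) (XT.lf (nat_lit 0) (nat_lit 491763739) (nat_lit 0) (nat_lit 491763739) (nat_lit 1260)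 (nat_lit 25095129730) (nat_lit 161) (nat_lit 5) (nat_lit 161) (nat_lit 3) (nat_lit 176) (nat_lit 3) (nat_lit 401) (nat_lit 401) (nat_lit 143)) (XT.lf (nat_lit 0) (nat_lit 2232310425) (nat_lit 1260) (nat_lit 28951652167) (nat_lit 1344) (nat_lit 21748598150) (nat_lit 161) (nat_lit 5) (nat_lit 176) (nat_lit 3) (nat_lit 177) (nat_lit 5) (nat_lit 402) (nat_lit 401) (nat_lit 142)))) (XT.nd (nat_lit 188) (nat_lit 0) (nat_lit 84) (XT.nd (nat_lit 94) (nat_lit 0) (nat_lit 84) (XT.lf (nat_lit 0) (nat_lit 2514386470) (nat_lit 1260) (nat_lit 6073063050) (nat_lit 1344) (nat_lit 45143350646) (nat_lit 161) (nat_lit 5) (nat_lit 176) (nat_lit 3) (nat_lit 177) (nat_lit 5) (nat_lit 403) (nat_lit 401) (nat_lit 141)) (XT.lf (nat_lit 0) (nat_lit 3118441527) (nat_lit 1260) (nat_lit 36851211587) (nat_lit 1344) (nat_lit 14573929705) (nat_lit 162) (nat_lit 5) (nat_lit 177) (nat_lit 5) (nat_lit 178) (nat_lit 5) (nat_lit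 404) (nat_lit 401) (nat_lit 140))) (XT.nd (nat_lit 94) (nat_lit 0) (nat_lit 84) (XT.lf (nat_lit 0) (nat_lit 3886750202) (nat_lit 1260) (nat_lit 13169763789) (nat_lit 1344) (nat_lit 38319852509) (nat_lit 162) (nat_lit 5) (nat_lit 177) (nat_lit 5) (nat_lit 178) (nat_lit 5) (nat_lit 405) (nat_lit 401) (nat_lit 139)) (XT.lf (nat_lit 0) (nat_lit 4851320507) (nat_lit 1260) (nat_lit 44849865319) (nat_lit 1344) (nat_lit 6527752953) (nat_lit 163) (nat_lit 5) (nat_lit 178) (nat_lit 5) (nat_lit 179) (nat_lit 5) (nat_lit 406) (nat_lit 401) (nat_lit 138))))) (XT.nd (nat_lit 282) (nat_lit 0) (nat_lit 84) (XT.nd (nat_lit 94) (nat_lit 0) (nat_lit 0) (XT.lf (nat_lit 0) (nat_lit 6147230278) (nat_lit 1260) (nat_lit 20339441407) (nat_lit 1344) (nat_lit 30611345890) (nat_lit 163) (nat_lit 5) (nat_lit 178) (nat_lit 5) (nat_lit 179) (nat_lit 5) (nat_lit 407) (nat_lit 401) (nat_lit 137)) (XT.nd (nat_lit 94) (nat_lit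 0) (nat_lit 84) (XT.lf (nat_lit 84) (nat_lit 5003452127) (nat_lit 0) (nat_lit 2525904629) (nat_lit 1344) (nat_lit 50462393172) (nat_lit 164) (nat_lit 5) (nat_lit 163) (nat_lit 5) (nat_lit 179) (nat_lit 5) (nat_lit 408) (nat_lit 401) (nat_lit 136)) (XT.lf (nat_lit 0) (nat_lit 9372587048) (nat_lit 1260) (nat_lit 27598049696) (nat_lit 1344) (nat_lit 21929069646) (nat_lit 164) (nat_lit 5) (nat_lit 179) (nat_lit 5) (nat_lit 180) (nat_lit 5) (nat_lit 409) (nat_lit 401) (nat_lit 135)))) (XT.nd (nat_lit 188) (nat_lit 0) (nat_lit 84) (XT.nd (nat_lit 94) (nat_lit 0) (nat_lit 84) (XT.lf (nat_lit 0) (nat_lit 11295407878) (nat_lit 1260) (nat_lit 1471588390) (nat_lit 1344) (nat_lit 47067177766) (nat_lit 164) (nat_lit 5) (nat_lit 179) (nat_lit 5) (nat_lit 180) (nat_lit 5) (nat_lit 410) (nat_lit 401) (nat_lit 134)) (XT.lf (nat_lit 0) (nat_lit 13644000139) (nat_lit 1260) (nat_lit 34964137629) (nat_lit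 1344) (nat_lit 12177496595) (nat_lit 165) (nat_lit 5) (nat_lit 180) (nat_lit 5) (nat_lit 181) (nat_lit 5) (nat_lit 411) (nat_lit 401) (nat_lit 133))) (XT.nd (nat_lit 94) (nat_lit 0) (nat_lit 84) (XT.lf (nat_lit 0) (nat_lit 16203786651) (nat_lit 1260) (nat_lit 7928695358) (nat_lit 1344) (nat_lit 37628935622) (nat_lit 165) (nat_lit 5) (nat_lit 180) (nat_lit 5) (nat_lit 181) (nat_lit 5) (nat_lit 412) (nat_lit 401) (nat_lit 132)) (XT.lf (nat_lit 0) (nat_lit 19047269876) (nat_lit 1260) (nat_lit 42459201085) (nat_lit 1344) (nat_lit 1253797530) (nat_lit 166) (nat_lit 5) (nat_lit 181) (nat_lit 5) (nat_lit 182) (nat_lit 5) (nat_lit 413) (nat_lit 401) (nat_lit 131)))))) (XT.nd (nat_lit 658) (nat_lit 1848) (nat_lit 0) (XT.nd (nat_lit 282) (nat_lit 1092) (nat_lit 0) (XT.nd (nat_lit 94) (nat_lit 0) (nat_lit 0) (XT.lf (nat_lit 0) (nat_lit 22295209310) (nat_lit 1260) (nat_lit 14486650881) (nat_lit 1344)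 (nat_lit 26997651287) (nat_lit 166) (nat_lit 5) (nat_lit 181) (nat_lit 5) (nat_lit 182) (nat_lit 5) (nat_lit 414) (nat_lit 401) (nat_lit 130)) (XT.nd (nat_lit 94) (nat_lit 0) (nat_lit 84) (XT.lf (nat_lit 84) (nat_lit 14609684473) (nat_lit 0) (nat_lit 11170717594) (nat_lit 1344) (nat_lit 39044736355) (nat_lit 167) (nat_lit 5) (nat_lit 166) (nat_lit 5) (nat_lit 182) (nat_lit 5) (nat_lit 415) (nat_lit 401) (nat_lit 129)) (XT.lf (nat_lit 0) (nat_lit 29663474427) (nat_lit 1260) (nat_lit 21170012681) (nat_lit 1344) (nat_lit 15059848438) (nat_lit 167) (nat_lit 5) (nat_lit 182) (nat_lit 5) (nat_lit 183) (nat_lit 5) (nat_lit 416) (nat_lit 401) (nat_lit 128)))) (XT.nd (nat_lit 188) (nat_lit 1176) (nat_lit 0) (XT.nd (nat_lit 94) (nat_lit 0) (nat_lit 84) (XT.lf (nat_lit 84) (nat_lit 8807577781) (nat_lit 0) (nat_lit 25050136619) (nat_lit 1344) (nat_lit 33130024975) (nat_lit 168) (nat_lit 5) (nat_lit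 167) (nat_lit 5) (nat_lit 183) (nat_lit 5) (nat_lit 417) (nat_lit 401) (nat_lit 127)) (XT.lf (nat_lit 0) (nat_lit 38407581267) (nat_lit 1260) (nat_lit 28007196680) (nat_lit 84) (nat_lit 1693304405) (nat_lit 168) (nat_lit 5) (nat_lit 183) (nat_lit 5) (nat_lit 169) (nat_lit 5) (nat_lit 418) (nat_lit 401) (nat_lit 126))) (XT.nd (nat_lit 94) (nat_lit 0) (nat_lit 0) (XT.lf (nat_lit 0) (nat_lit 2878627801) (nat_lit 1260) (nat_lit 40490449426) (nat_lit 1344) (nat_lit 25884705396) (nat_lit 153) (nat_lit 5) (nat_lit 168) (nat_lit 5) (nat_lit 169) (nat_lit 5) (nat_lit 419) (nat_lit 401) (nat_lit 125)) (XT.lf (nat_lit 0) (nat_lit 35264671181) (nat_lit 1260) (nat_lit 13497017169) (nat_lit 1344) (nat_lit 21663698407) (nat_lit 153) (nat_lit 5) (nat_lit 168) (nat_lit 5) (nat_lit 169) (nat_lit 5) (nat_lit 420) (nat_lit 401) (nat_lit 124))))) (XT.nd (nat_lit 282) (nat_lit 1260) (nat_lit 0) (XT.nd (nat_lit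 94) (nat_lit 588) (nat_lit 0) (XT.lf (nat_lit 0) (nat_lit 54453067055) (nat_lit 1344) (nat_lit 3147842875) (nat_lit 84) (nat_lit 14027120347) (nat_lit 153) (nat_lit 5) (nat_lit 169) (nat_lit 5) (nat_lit 154) (nat_lit 5) (nat_lit 421) (nat_lit 401) (nat_lit 123)) (XT.nd (nat_lit 94) (nat_lit 0) (nat_lit 0) (XT.lf (nat_lit 0) (nat_lit 30282231960) (nat_lit 588) (nat_lit 30457164922) (nat_lit 672) (nat_lit 12114630836) (nat_lit 146) (nat_lit 5) (nat_lit 153) (nat_lit 5) (nat_lit 154) (nat_lit 5) (nat_lit 422) (nat_lit 401) (nat_lit 122)) (XT.lf (nat_lit 0) (nat_lit 64779275668) (nat_lit 588) (nat_lit 2466323148) (nat_lit 672) (nat_lit 6870268685) (nat_lit 146) (nat_lit 5) (nat_lit 153) (nat_lit 5) (nat_lit 154) (nat_lit 5) (nat_lit 423) (nat_lit 401) (nat_lit 121)))) (XT.nd (nat_lit 188) (nat_lit 588) (nat_lit 0) (XT.nd (nat_lit 94) (nat_lit 84) (nat_lit 0) (XT.lf (nat_lit 0) (nat_lit 25132195006)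 (nat_lit 588) (nat_lit 49309317358) (nat_lit 672) (nat_lit 959215206) (nat_lit 139) (nat_lit 5) (nat_lit 146) (nat_lit 5) (nat_lit 147) (nat_lit 5) (nat_lit 424) (nat_lit 401) (nat_lit 120)) (XT.lf (nat_lit 0) (nat_lit 5148229653) (nat_lit 672) (nat_lit 15969995341) (nat_lit 84) (nat_lit 55600855662) (nat_lit 138) (nat_lit 5) (nat_lit 146) (nat_lit 5) (nat_lit 139) (nat_lit 5) (nat_lit 425) (nat_lit 401) (nat_lit 119))) (XT.nd (nat_lit 94) (nat_lit 0) (nat_lit 0) (XT.lf (nat_lit 0) (nat_lit 11686919747) (nat_lit 672) (nat_lit 58416515493) (nat_lit 84) (nat_lit 7965245929) (nat_lit 131) (nat_lit 5) (nat_lit 139) (nat_lit 5) (nat_lit 132) (nat_lit 5) (nat_lit 426) (nat_lit 401) (nat_lit 118)) (XT.lf (nat_lit 0) (nat_lit 18793262401) (nat_lit 672) (nat_lit 22994725092) (nat_lit 84) (nat_lit 37659638212) (nat_lit 131) (nat_lit 5) (nat_lit 139) (nat_lit 5) (nat_lit 132) (nat_lit 5) (nat_lit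 427) (nat_lit 401) (nat_lit 117))))))))
noncomputable def xc234 : XT := (XT.nd (nat_lit 57434) (nat_lit 0) (nat_lit 3024) (XT.nd (nat_lit 1222) (nat_lit 1596) (nat_lit 0) (XT.nd (nat_lit 564) (nat_lit 1428) (nat_lit 0) (XT.nd (nat_lit 282) (nat_lit 504) (nat_lit 0) (XT.nd (nat_lit 94) (nat_lit 504) (nat_lit 0) (XT.lf (nat_lit 0) (nat_lit 13757729341) (nat_lit 588) (nat_lit 12486865349) (nat_lit 672) (nat_lit 54619390647) (nat_lit 124) (nat_lit 5) (nat_lit 131) (nat_lit 5) (nat_lit 132) (nat_lit 5) (nat_lit 428) (nat_lit 401) (nat_lit 116)) (XT.nd (nat_lit 94) (nat_lit 504) (nat_lit 0) (XT.lf (nat_lit 0) (nat_lit 34323606655) (nat_lit 672) (nat_lit 30404582659) (nat_lit 84) (nat_lit 17582522970) (nat_lit 124) (nat_lit 5) (nat_lit 132) (nat_lit 5) (nat_lit 125) (nat_lit 5) (nat_lit 429) (nat_lit 401) (nat_lit 115)) (XT.lf (nat_lit 0) (nat_lit 7418828138) (nat_lit 504) (nat_lit 35420680606)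 (nat_lit 588) (nat_lit 40955497402) (nat_lit 118) (nat_lit 5) (nat_lit 124) (nat_lit 5) (nat_lit 125) (nat_lit 5) (nat_lit 430) (nat_lit 401) (nat_lit 114)))) (XT.nd (nat_lit 94) (nat_lit 504) (nat_lit 0) (XT.lf (nat_lit 0) (nat_lit 46999761327) (nat_lit 504) (nat_lit 4917734522) (nat_lit 588) (nat_lit 33397135414) (nat_lit 118) (nat_lit 5) (nat_lit 124) (nat_lit 5) (nat_lit 125) (nat_lit 5) (nat_lit 431) (nat_lit 401) (nat_lit 113)) (XT.nd (nat_lit 94) (nat_lit 0) (nat_lit 0) (XT.lf (nat_lit 0) (nat_lit 645696393) (nat_lit 504) (nat_lit 60882663341) (nat_lit 588) (nat_lit 25343669941) (nat_lit 112) (nat_lit 5) (nat_lit 118) (nat_lit 5) (nat_lit 119) (nat_lit 5) (nat_lit 432) (nat_lit 401) (nat_lit 112)) (XT.lf (nat_lit 0) (nat_lit 41510398104) (nat_lit 504) (nat_lit 30351870441) (nat_lit 588) (nat_lit 16600840562) (nat_lit 112) (nat_lit 5) (nat_lit 118) (nat_lit 5) (nat_lit 119) (nat_lit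 5) (nat_lit 433) (nat_lit 401) (nat_lit 111))))) (XT.nd (nat_lit 282) (nat_lit 924) (nat_lit 0) (XT.nd (nat_lit 94) (nat_lit 504) (nat_lit 0) (XT.lf (nat_lit 0) (nat_lit 82516331070) (nat_lit 588) (nat_lit 6511842861) (nat_lit 84) (nat_lit 1073443518) (nat_lit 112) (nat_lit 5) (nat_lit 119) (nat_lit 5) (nat_lit 113) (nat_lit 5) (nat_lit 434) (nat_lit 401) (nat_lit 110)) (XT.nd (nat_lit 94) (nat_lit 0) (nat_lit 0) (XT.lf (nat_lit 0) (nat_lit 2315618506) (nat_lit 504) (nat_lit 56258009752) (nat_lit 84) (nat_lit 33195720767) (nat_lit 106) (nat_lit 5) (nat_lit 112) (nat_lit 5) (nat_lit 107) (nat_lit 5) (nat_lit 435) (nat_lit 401) (nat_lit 109)) (XT.lf (nat_lit 0) (nat_lit 12427127792) (nat_lit 504) (nat_lit 14632619016) (nat_lit 84) (nat_lit 66423132231) (nat_lit 106) (nat_lit 5) (nat_lit 112) (nat_lit 5) (nat_lit 107) (nat_lit 5) (nat_lit 436) (nat_lit 401) (nat_lit 108)))) (XT.nd (nat_lit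 188) (nat_lit 420) (nat_lit 0) (XT.nd (nat_lit 94) (nat_lit 0) (nat_lit 0) (XT.lf (nat_lit 0) (nat_lit 23173137628) (nat_lit 588) (nat_lit 66490994773) (nat_lit 84) (nat_lit 5573748446) (nat_lit 100) (nat_lit 5) (nat_lit 107) (nat_lit 5) (nat_lit 101) (nat_lit 5) (nat_lit 437) (nat_lit 401) (nat_lit 107)) (XT.lf (nat_lit 0) (nat_lit 34658312832) (nat_lit 588) (nat_lit 23583174108) (nat_lit 84) (nat_lit 38791542752) (nat_lit 100) (nat_lit 5) (nat_lit 107) (nat_lit 5) (nat_lit 101) (nat_lit 5) (nat_lit 438) (nat_lit 401) (nat_lit 106))) (XT.nd (nat_lit 94) (nat_lit 0) (nat_lit 0) (XT.lf (nat_lit 0) (nat_lit 21021678558) (nat_lit 420) (nat_lit 25668091412) (nat_lit 504) (nat_lit 52186211750) (nat_lit 95) (nat_lit 5) (nat_lit 100) (nat_lit 5) (nat_lit 101) (nat_lit 5) (nat_lit 439) (nat_lit 401) (nat_lit 105)) (XT.lf (nat_lit 0) (nat_lit 59398102952) (nat_lit 504) (nat_lit 33397515895) (nat_lit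 84) (nat_lit 7969126003) (nat_lit 95) (nat_lit 5) (nat_lit 101) (nat_lit 5) (nat_lit 96) (nat_lit 5) (nat_lit 440) (nat_lit 401) (nat_lit 104)))))) (XT.nd (nat_lit 658) (nat_lit 336) (nat_lit 0) (XT.nd (nat_lit 282) (nat_lit 504) (nat_lit 0) (XT.nd (nat_lit 94) (nat_lit 336) (nat_lit 0) (XT.lf (nat_lit 0) (nat_lit 12380008866) (nat_lit 420) (nat_lit 60480489707) (nat_lit 504) (nat_lit 29838488410) (nat_lit 90) (nat_lit 5) (nat_lit 95) (nat_lit 5) (nat_lit 96) (nat_lit 5) (nat_lit 441) (nat_lit 401) (nat_lit 103)) (XT.nd (nat_lit 94) (nat_lit 336) (nat_lit 0) (XT.lf (nat_lit 0) (nat_lit 60215074508) (nat_lit 420) (nat_lit 26848615682) (nat_lit 504) (nat_lit 17617458942) (nat_lit 90) (nat_lit 5) (nat_lit 95) (nat_lit 5) (nat_lit 96) (nat_lit 5) (nat_lit 442) (nat_lit 401) (nat_lit 102)) (XT.lf (nat_lit 0) (nat_lit 2740592532) (nat_lit 336) (nat_lit 99053316275) (nat_lit 420) (nat_lit 4925839862)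 (nat_lit 86) (nat_lit 5) (nat_lit 90) (nat_lit 5) (nat_lit 91) (nat_lit 5) (nat_lit 443) (nat_lit 401) (nat_lit 101)))) (XT.nd (nat_lit 188) (nat_lit 420) (nat_lit 0) (XT.nd (nat_lit 94) (nat_lit 0) (nat_lit 0) (XT.lf (nat_lit 0) (nat_lit 8706538850) (nat_lit 420) (nat_lit 56880049504) (nat_lit 84) (nat_lit 43208999616) (nat_lit 85) (nat_lit 5) (nat_lit 90) (nat_lit 5) (nat_lit 86) (nat_lit 5) (nat_lit 444) (nat_lit 401) (nat_lit 100)) (XT.lf (nat_lit 0) (nat_lit 22648578955) (nat_lit 420) (nat_lit 8417130195) (nat_lit 84) (nat_lit 79866539765) (nat_lit 85) (nat_lit 5) (nat_lit 90) (nat_lit 5) (nat_lit 86) (nat_lit 5) (nat_lit 445) (nat_lit 401) (nat_lit 99))) (XT.nd (nat_lit 94) (nat_lit 0) (nat_lit 0) (XT.lf (nat_lit 0) (nat_lit 37462635332) (nat_lit 504) (nat_lit 70842793469) (nat_lit 84) (nat_lit 4813968645) (nat_lit 80) (nat_lit 5) (nat_lit 86) (nat_lit 5) (nat_lit 81) (nat_lit 5)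 (nat_lit 446) (nat_lit 401) (nat_lit 98)) (XT.lf (nat_lit 0) (nat_lit 53114240408) (nat_lit 504) (nat_lit 21014723383) (nat_lit 84) (nat_lit 41231403229) (nat_lit 80) (nat_lit 5) (nat_lit 86) (nat_lit 5) (nat_lit 81) (nat_lit 5) (nat_lit 447) (nat_lit 401) (nat_lit 97))))) (XT.nd (nat_lit 55178) (nat_lit 0) (nat_lit 7140) (XT.nd (nat_lit 54990) (nat_lit 0) (nat_lit 7140) (XT.lf (nat_lit 0) (nat_lit 30911001835) (nat_lit 336) (nat_lit 38621243443) (nat_lit 420) (nat_lit 48127415242) (nat_lit 76) (nat_lit 5) (nat_lit 80) (nat_lit 5) (nat_lit 81) (nat_lit 5) (nat_lit 448) (nat_lit 401) (nat_lit 96)) (XT.nd (nat_lit 94) (nat_lit 0) (nat_lit 0) (XT.lf (nat_lit 0) (nat_lit 517672421) (nat_lit 0) (nat_lit 517672421) (nat_lit 1260) (nat_lit 25824962228) (nat_lit 161) (nat_lit 5) (nat_lit 161) (nat_lit 3) (nat_lit 176) (nat_lit 3) (nat_lit 402) (nat_lit 402) (nat_lit 141)) (XT.lf (nat_lit 0) (nat_lit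 2342394889) (nat_lit 1260) (nat_lit 29796953459) (nat_lit 1344) (nat_lit 22379817104) (nat_lit 161) (nat_lit 5) (nat_lit 176) (nat_lit 3) (nat_lit 177) (nat_lit 5) (nat_lit 403) (nat_lit 402) (nat_lit 140)))) (XT.nd (nat_lit 188) (nat_lit 0) (nat_lit 84) (XT.nd (nat_lit 94) (nat_lit 0) (nat_lit 84) (XT.lf (nat_lit 0) (nat_lit 2631677434) (nat_lit 1260) (nat_lit 6232683803) (nat_lit 1344) (nat_lit 46477030785) (nat_lit 161) (nat_lit 5) (nat_lit 176) (nat_lit 3) (nat_lit 177) (nat_lit 5) (nat_lit 404) (nat_lit 402) (nat_lit 139)) (XT.lf (nat_lit 0) (nat_lit 3252671896) (nat_lit 1260) (nat_lit 37932920407) (nat_lit 1344) (nat_lit 14993003545) (nat_lit 162) (nat_lit 5) (nat_lit 177) (nat_lit 5) (nat_lit 178) (nat_lit 5) (nat_lit 405) (nat_lit 402) (nat_lit 138))) (XT.nd (nat_lit 94) (nat_lit 0) (nat_lit 84) (XT.lf (nat_lit 0) (nat_lit 4042845060) (nat_lit 1260) (nat_lit 13541723180) (nat_lit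 1344) (nat_lit 39451832501) (nat_lit 162) (nat_lit 5) (nat_lit 177) (nat_lit 5) (nat_lit 178) (nat_lit 5) (nat_lit 406) (nat_lit 402) (nat_lit 137)) (XT.lf (nat_lit 0) (nat_lit 5035271915) (nat_lit 1260) (nat_lit 46171077309) (nat_lit 1344) (nat_lit 6708235478) (nat_lit 163) (nat_lit 5) (nat_lit 178) (nat_lit 5) (nat_lit 179) (nat_lit 5) (nat_lit 407) (nat_lit 402) (nat_lit 136))))))) (XT.nd (nat_lit 1316) (nat_lit 3444) (nat_lit 0) (XT.nd (nat_lit 658) (nat_lit 840) (nat_lit 0) (XT.nd (nat_lit 282) (nat_lit 0) (nat_lit 84) (XT.nd (nat_lit 94) (nat_lit 0) (nat_lit 0) (XT.lf (nat_lit 0) (nat_lit 6368940189) (nat_lit 1260) (nat_lit 20926047980) (nat_lit 1344) (nat_lit 31514783293) (nat_lit 163) (nat_lit 5) (nat_lit 178) (nat_lit 5) (nat_lit 179) (nat_lit 5) (nat_lit 408) (nat_lit 402) (nat_lit 135)) (XT.nd (nat_lit 94) (nat_lit 0) (nat_lit 84) (XT.lf (nat_lit 84) (nat_lit 5176901216) (nat_lit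 0) (nat_lit 2614767453) (nat_lit 1344) (nat_lit 51938674947) (nat_lit 164) (nat_lit 5) (nat_lit 163) (nat_lit 5) (nat_lit 179) (nat_lit 5) (nat_lit 409) (nat_lit 402) (nat_lit 134)) (XT.lf (nat_lit 0) (nat_lit 9689012642) (nat_lit 1260) (nat_lit 28402078445) (nat_lit 1344) (nat_lit 22574485099) (nat_lit 164) (nat_lit 5) (nat_lit 179) (nat_lit 5) (nat_lit 180) (nat_lit 5) (nat_lit 410) (nat_lit 402) (nat_lit 133)))) (XT.nd (nat_lit 188) (nat_lit 0) (nat_lit 84) (XT.nd (nat_lit 94) (nat_lit 0) (nat_lit 84) (XT.lf (nat_lit 0) (nat_lit 11668491457) (nat_lit 1260) (nat_lit 1492519788) (nat_lit 1344) (nat_lit 48467099277) (nat_lit 164) (nat_lit 5) (nat_lit 179) (nat_lit 5) (nat_lit 180) (nat_lit 5) (nat_lit 411) (nat_lit 402) (nat_lit 132)) (XT.lf (nat_lit 0) (nat_lit 14086665210) (nat_lit 1260) (nat_lit 35988908943) (nat_lit 1344) (nat_lit 12532568604) (nat_lit 165) (nat_lit 5) (nat_lit 180)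 (nat_lit 5) (nat_lit 181) (nat_lit 5) (nat_lit 412) (nat_lit 402) (nat_lit 131))) (XT.nd (nat_lit 94) (nat_lit 0) (nat_lit 84) (XT.lf (nat_lit 0) (nat_lit 16722274102) (nat_lit 1260) (nat_lit 8143106885) (nat_lit 1344) (nat_lit 38747849429) (nat_lit 165) (nat_lit 5) (nat_lit 180) (nat_lit 5) (nat_lit 181) (nat_lit 5) (nat_lit 413) (nat_lit 402) (nat_lit 130)) (XT.lf (nat_lit 0) (nat_lit 19650261016) (nat_lit 1260) (nat_lit 43708670152) (nat_lit 1344) (nat_lit 1283141363) (nat_lit 166) (nat_lit 5) (nat_lit 181) (nat_lit 5) (nat_lit 182) (nat_lit 5) (nat_lit 414) (nat_lit 402) (nat_lit 129))))) (XT.nd (nat_lit 282) (nat_lit 1092) (nat_lit 0) (XT.nd (nat_lit 94) (nat_lit 0) (nat_lit 0) (XT.lf (nat_lit 0) (nat_lit 22994719030) (nat_lit 1260) (nat_lit 14897651412) (nat_lit 1344) (nat_lit 27799551610) (nat_lit 166) (nat_lit 5) (nat_lit 181) (nat_lit 5) (nat_lit 182) (nat_lit 5) (nat_lit 415)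 (nat_lit 402) (nat_lit 128)) (XT.nd (nat_lit 94) (nat_lit 0) (nat_lit 84) (XT.lf (nat_lit 84) (nat_lit 15071342641) (nat_lit 0) (nat_lit 11512456734) (nat_lit 1344) (nat_lit 40185140080) (nat_lit 167) (nat_lit 5) (nat_lit 166) (nat_lit 5) (nat_lit 182) (nat_lit 5) (nat_lit 416) (nat_lit 402) (nat_lit 127)) (XT.lf (nat_lit 0) (nat_lit 30582428789) (nat_lit 1260) (nat_lit 21781438921) (nat_lit 1344) (nat_lit 15505344397) (nat_lit 167) (nat_lit 5) (nat_lit 182) (nat_lit 5) (nat_lit 183) (nat_lit 5) (nat_lit 417) (nat_lit 402) (nat_lit 126)))) (XT.nd (nat_lit 188) (nat_lit 1176) (nat_lit 0) (XT.nd (nat_lit 94) (nat_lit 0) (nat_lit 84) (XT.lf (nat_lit 84) (nat_lit 9095247156) (nat_lit 0) (nat_lit 25806628024) (nat_lit 1344) (nat_lit 34094593008) (nat_lit 168) (nat_lit 5) (nat_lit 167) (nat_lit 5) (nat_lit 183) (nat_lit 5) (nat_lit 418) (nat_lit 402) (nat_lit 125)) (XT.lf (nat_lit 0) (nat_lit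 39587363469) (nat_lit 1260) (nat_lit 28823729716) (nat_lit 84) (nat_lit 1739355978) (nat_lit 168) (nat_lit 5) (nat_lit 183) (nat_lit 5) (nat_lit 169) (nat_lit 5) (nat_lit 419) (nat_lit 402) (nat_lit 124))) (XT.nd (nat_lit 94) (nat_lit 0) (nat_lit 0) (XT.lf (nat_lit 0) (nat_lit 2988437314) (nat_lit 1260) (nat_lit 41708689850) (nat_lit 1344) (nat_lit 26633412019) (nat_lit 153) (nat_lit 5) (nat_lit 168) (nat_lit 5) (nat_lit 169) (nat_lit 5) (nat_lit 420) (nat_lit 402) (nat_lit 123)) (XT.lf (nat_lit 0) (nat_lit 36345378966) (nat_lit 1260) (nat_lit 13905351899) (nat_lit 1344) (nat_lit 22286585536) (nat_lit 153) (nat_lit 5) (nat_lit 168) (nat_lit 5) (nat_lit 169) (nat_lit 5) (nat_lit 421) (nat_lit 402) (nat_lit 122)))))) (XT.nd (nat_lit 658) (nat_lit 1596) (nat_lit 0) (XT.nd (nat_lit 282) (nat_lit 1260) (nat_lit 0) (XT.nd (nat_lit 94) (nat_lit 588) (nat_lit 0) (XT.lf (nat_lit 0) (nat_lit 56112056104)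 (nat_lit 1344) (nat_lit 3219333962) (nat_lit 84) (nat_lit 14444674350) (nat_lit 153) (nat_lit 5) (nat_lit 169) (nat_lit 5) (nat_lit 154) (nat_lit 5) (nat_lit 422) (nat_lit 402) (nat_lit 121)) (XT.nd (nat_lit 94) (nat_lit 0) (nat_lit 0) (XT.lf (nat_lit 0) (nat_lit 31213418175) (nat_lit 588) (nat_lit 31373036324) (nat_lit 672) (nat_lit 12452404229) (nat_lit 146) (nat_lit 5) (nat_lit 153) (nat_lit 5) (nat_lit 154) (nat_lit 5) (nat_lit 423) (nat_lit 402) (nat_lit 120)) (XT.lf (nat_lit 0) (nat_lit 66744711467) (nat_lit 588) (nat_lit 2542406488) (nat_lit 672) (nat_lit 7051458754) (nat_lit 146) (nat_lit 5) (nat_lit 153) (nat_lit 5) (nat_lit 154) (nat_lit 5) (nat_lit 424) (nat_lit 402) (nat_lit 119)))) (XT.nd (nat_lit 188) (nat_lit 588) (nat_lit 0) (XT.nd (nat_lit 94) (nat_lit 84) (nat_lit 0) (XT.lf (nat_lit 0) (nat_lit 25908781363) (nat_lit 588) (nat_lit 50789622016) (nat_lit 672) (nat_lit 963595597)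 (nat_lit 139) (nat_lit 5) (nat_lit 146) (nat_lit 5) (nat_lit 147) (nat_lit 5) (nat_lit 425) (nat_lit 402) (nat_lit 118)) (XT.lf (nat_lit 0) (nat_lit 5325899854) (nat_lit 672) (nat_lit 16426632660) (nat_lit 84) (nat_lit 57267385168) (nat_lit 138) (nat_lit 5) (nat_lit 146) (nat_lit 5) (nat_lit 139) (nat_lit 5) (nat_lit 426) (nat_lit 402) (nat_lit 117))) (XT.nd (nat_lit 94) (nat_lit 0) (nat_lit 0) (XT.lf (nat_lit 0) (nat_lit 12060283066) (nat_lit 672) (nat_lit 60146043266) (nat_lit 84) (nat_lit 8203695033) (nat_lit 131) (nat_lit 5) (nat_lit 139) (nat_lit 5) (nat_lit 132) (nat_lit 5) (nat_lit 427) (nat_lit 402) (nat_lit 116)) (XT.lf (nat_lit 0) (nat_lit 19379153213) (nat_lit 672) (nat_lit 23662268114) (nat_lit 84) (nat_lit 38788933888) (nat_lit 131) (nat_lit 5) (nat_lit 139) (nat_lit 5) (nat_lit 132) (nat_lit 5) (nat_lit 428) (nat_lit 402) (nat_lit 115))))) (XT.nd (nat_lit 282) (nat_lit 504)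 (nat_lit 0) (XT.nd (nat_lit 94) (nat_lit 504) (nat_lit 0) (XT.lf (nat_lit 0) (nat_lit 14192541337) (nat_lit 588) (nat_lit 12861052897) (nat_lit 672) (nat_lit 56235625401) (nat_lit 124) (nat_lit 5) (nat_lit 131) (nat_lit 5) (nat_lit 132) (nat_lit 5) (nat_lit 429) (nat_lit 402) (nat_lit 114)) (XT.nd (nat_lit 94) (nat_lit 504) (nat_lit 0) (XT.lf (nat_lit 0) (nat_lit 35374349540) (nat_lit 672) (nat_lit 31294621736) (nat_lit 84) (nat_lit 18110396958) (nat_lit 124) (nat_lit 5) (nat_lit 132) (nat_lit 5) (nat_lit 125) (nat_lit 5) (nat_lit 430) (nat_lit 402) (nat_lit 113)) (XT.lf (nat_lit 0) (nat_lit 7663274734) (nat_lit 504) (nat_lit 36482051637) (nat_lit 588) (nat_lit 42162877611) (nat_lit 118) (nat_lit 5) (nat_lit 124) (nat_lit 5) (nat_lit 125) (nat_lit 5) (nat_lit 431) (nat_lit 402) (nat_lit 112)))) (XT.nd (nat_lit 188) (nat_lit 0) (nat_lit 0) (XT.nd (nat_lit 94) (nat_lit 504) (nat_lit 0) (XT.lf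 (nat_lit 0) (nat_lit 48430998586) (nat_lit 504) (nat_lit 5064053560) (nat_lit 588) (nat_lit 34378384705) (nat_lit 118) (nat_lit 5) (nat_lit 124) (nat_lit 5) (nat_lit 125) (nat_lit 5) (nat_lit 432) (nat_lit 402) (nat_lit 111)) (XT.lf (nat_lit 0) (nat_lit 686719019) (nat_lit 504) (nat_lit 62707158940) (nat_lit 588) (nat_lit 26083691121) (nat_lit 112) (nat_lit 5) (nat_lit 118) (nat_lit 5) (nat_lit 119) (nat_lit 5) (nat_lit 433) (nat_lit 402) (nat_lit 110))) (XT.nd (nat_lit 94) (nat_lit 0) (nat_lit 0) (XT.lf (nat_lit 0) (nat_lit 42776731149) (nat_lit 504) (nat_lit 31260500048) (nat_lit 588) (nat_lit 17079167800) (nat_lit 112) (nat_lit 5) (nat_lit 118) (nat_lit 5) (nat_lit 119) (nat_lit 5) (nat_lit 434) (nat_lit 402) (nat_lit 109)) (XT.lf (nat_lit 0) (nat_lit 85010377424) (nat_lit 588) (nat_lit 6686221480) (nat_lit 84) (nat_lit 1107480719) (nat_lit 112) (nat_lit 5) (nat_lit 119) (nat_lit 5)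 (nat_lit 113) (nat_lit 5) (nat_lit 435) (nat_lit 402) (nat_lit 108))))))))
noncomputable def xc235 : XT := (XT.nd (nat_lit 57622) (nat_lit 0) (nat_lit 504) (XT.nd (nat_lit 56306) (nat_lit 0) (nat_lit 6804) (XT.nd (nat_lit 658) (nat_lit 840) (nat_lit 0) (XT.nd (nat_lit 282) (nat_lit 840) (nat_lit 0) (XT.nd (nat_lit 94) (nat_lit 504) (nat_lit 0) (XT.lf (nat_lit 0) (nat_lit 2403511250) (nat_lit 504) (nat_lit 57924584400) (nat_lit 84) (nat_lit 34193753165) (nat_lit 106) (nat_lit 5) (nat_lit 112) (nat_lit 5) (nat_lit 107) (nat_lit 5) (nat_lit 436) (nat_lit 402) (nat_lit 107)) (XT.nd (nat_lit 94) (nat_lit 504) (nat_lit 0) (XT.lf (nat_lit 0) (nat_lit 12817829189) (nat_lit 504) (nat_lit 15051048418) (nat_lit 84) (nat_lit 68417924037) (nat_lit 106) (nat_lit 5) (nat_lit 112) (nat_lit 5) (nat_lit 107) (nat_lit 5) (nat_lit 437) (nat_lit 402) (nat_lit 106)) (XT.lf (nat_lit 0) (nat_lit 23885920694)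 (nat_lit 588) (nat_lit 68464850472) (nat_lit 84) (nat_lit 5743692089) (nat_lit 100) (nat_lit 5) (nat_lit 107) (nat_lit 5) (nat_lit 101) (nat_lit 5) (nat_lit 438) (nat_lit 402) (nat_lit 105)))) (XT.nd (nat_lit 188) (nat_lit 420) (nat_lit 0) (XT.nd (nat_lit 94) (nat_lit 420) (nat_lit 0) (XT.lf (nat_lit 0) (nat_lit 35715138854) (nat_lit 588) (nat_lit 24270403172) (nat_lit 84) (nat_lit 39957940675) (nat_lit 100) (nat_lit 5) (nat_lit 107) (nat_lit 5) (nat_lit 101) (nat_lit 5) (nat_lit 439) (nat_lit 402) (nat_lit 104)) (XT.lf (nat_lit 0) (nat_lit 21672396386) (nat_lit 420) (nat_lit 26434838844) (nat_lit 504) (nat_lit 53734497940) (nat_lit 95) (nat_lit 5) (nat_lit 100) (nat_lit 5) (nat_lit 101) (nat_lit 5) (nat_lit 440) (nat_lit 402) (nat_lit 103))) (XT.nd (nat_lit 94) (nat_lit 420) (nat_lit 0) (XT.lf (nat_lit 0) (nat_lit 61196360445) (nat_lit 504) (nat_lit 34379476522) (nat_lit 84) (nat_lit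 8211336683) (nat_lit 95) (nat_lit 5) (nat_lit 101) (nat_lit 5) (nat_lit 96) (nat_lit 5) (nat_lit 441) (nat_lit 402) (nat_lit 102)) (XT.lf (nat_lit 0) (nat_lit 12771178249) (nat_lit 420) (nat_lit 62291164543) (nat_lit 504) (nat_lit 30717109513) (nat_lit 90) (nat_lit 5) (nat_lit 95) (nat_lit 5) (nat_lit 96) (nat_lit 5) (nat_lit 442) (nat_lit 402) (nat_lit 101))))) (XT.nd (nat_lit 282) (nat_lit 420) (nat_lit 0) (XT.nd (nat_lit 94) (nat_lit 420) (nat_lit 0) (XT.lf (nat_lit 0) (nat_lit 62040720060) (nat_lit 420) (nat_lit 27650443224) (nat_lit 504) (nat_lit 18129930721) (nat_lit 90) (nat_lit 5) (nat_lit 95) (nat_lit 5) (nat_lit 96) (nat_lit 5) (nat_lit 443) (nat_lit 402) (nat_lit 100)) (XT.nd (nat_lit 94) (nat_lit 84) (nat_lit 0) (XT.lf (nat_lit 0) (nat_lit 2842265695) (nat_lit 336) (nat_lit 102020790395) (nat_lit 420) (nat_lit 5057803072) (nat_lit 86) (nat_lit 5) (nat_lit 90) (nat_lit 5) (nat_lit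 91) (nat_lit 5) (nat_lit 444) (nat_lit 402) (nat_lit 99)) (XT.lf (nat_lit 0) (nat_lit 8982786896) (nat_lit 420) (nat_lit 58567241902) (nat_lit 84) (nat_lit 44508954454) (nat_lit 85) (nat_lit 5) (nat_lit 90) (nat_lit 5) (nat_lit 86) (nat_lit 5) (nat_lit 445) (nat_lit 402) (nat_lit 98)))) (XT.nd (nat_lit 188) (nat_lit 0) (nat_lit 0) (XT.nd (nat_lit 94) (nat_lit 420) (nat_lit 0) (XT.lf (nat_lit 0) (nat_lit 23342649801) (nat_lit 420) (nat_lit 8650994501) (nat_lit 84) (nat_lit 82266113482) (nat_lit 85) (nat_lit 5) (nat_lit 90) (nat_lit 5) (nat_lit 86) (nat_lit 5) (nat_lit 446) (nat_lit 402) (nat_lit 97)) (XT.lf (nat_lit 0) (nat_lit 38600919173) (nat_lit 504) (nat_lit 72949199371) (nat_lit 84) (nat_lit 4962409076) (nat_lit 80) (nat_lit 5) (nat_lit 86) (nat_lit 5) (nat_lit 81) (nat_lit 5) (nat_lit 447) (nat_lit 402) (nat_lit 96))) (XT.nd (nat_lit 55084) (nat_lit 0) (nat_lit 6804) (XT.lf (nat_lit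 0) (nat_lit 54721652845) (nat_lit 504) (nat_lit 21626837025) (nat_lit 84) (nat_lit 42472249571) (nat_lit 80) (nat_lit 5) (nat_lit 86) (nat_lit 5) (nat_lit 81) (nat_lit 5) (nat_lit 448) (nat_lit 402) (nat_lit 95)) (XT.lf (nat_lit 0) (nat_lit 543717976) (nat_lit 0) (nat_lit 543717976) (nat_lit 1260) (nat_lit 26578011223) (nat_lit 161) (nat_lit 5) (nat_lit 161) (nat_lit 3) (nat_lit 176) (nat_lit 3) (nat_lit 403) (nat_lit 403) (nat_lit 139)))))) (XT.nd (nat_lit 658) (nat_lit 0) (nat_lit 252) (XT.nd (nat_lit 282) (nat_lit 0) (nat_lit 84) (XT.nd (nat_lit 94) (nat_lit 0) (nat_lit 0) (XT.lf (nat_lit 0) (nat_lit 2453306901) (nat_lit 1260) (nat_lit 30668948336) (nat_lit 1344) (nat_lit 23031191831) (nat_lit 161) (nat_lit 5) (nat_lit 176) (nat_lit 3) (nat_lit 177) (nat_lit 5) (nat_lit 404) (nat_lit 403) (nat_lit 138)) (XT.nd (nat_lit 94) (nat_lit 0) (nat_lit 84) (XT.lf (nat_lit 0) (nat_lit 2750084228)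 (nat_lit 1260) (nat_lit 6398388854) (nat_lit 1344) (nat_lit 47851905024) (nat_lit 161) (nat_lit 5) (nat_lit 176) (nat_lit 3) (nat_lit 177) (nat_lit 5) (nat_lit 405) (nat_lit 403) (nat_lit 137)) (XT.lf (nat_lit 0) (nat_lit 3388594143) (nat_lit 1260) (nat_lit 39048448288) (nat_lit 1344) (nat_lit 15425691144) (nat_lit 162) (nat_lit 5) (nat_lit 177) (nat_lit 5) (nat_lit 178) (nat_lit 5) (nat_lit 406) (nat_lit 403) (nat_lit 136)))) (XT.nd (nat_lit 188) (nat_lit 0) (nat_lit 84) (XT.nd (nat_lit 94) (nat_lit 0) (nat_lit 84) (XT.lf (nat_lit 0) (nat_lit 4201355742) (nat_lit 1260) (nat_lit 13926169311) (nat_lit 1344) (nat_lit 40618783099) (nat_lit 162) (nat_lit 5) (nat_lit 177) (nat_lit 5) (nat_lit 178) (nat_lit 5) (nat_lit 407) (nat_lit 403) (nat_lit 135)) (XT.lf (nat_lit 0) (nat_lit 5222536871) (nat_lit 1260) (nat_lit 47533319658) (nat_lit 1344) (nat_lit 6895013636) (nat_lit 163) (nat_lit 5) (nat_lit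 178) (nat_lit 5) (nat_lit 179) (nat_lit 5) (nat_lit 408) (nat_lit 403) (nat_lit 134))) (XT.nd (nat_lit 94) (nat_lit 0) (nat_lit 0) (XT.lf (nat_lit 0) (nat_lit 6595160626) (nat_lit 1260) (nat_lit 21531606148) (nat_lit 1344) (nat_lit 32446179309) (nat_lit 163) (nat_lit 5) (nat_lit 178) (nat_lit 5) (nat_lit 179) (nat_lit 5) (nat_lit 409) (nat_lit 403) (nat_lit 133)) (XT.lf (nat_lit 84) (nat_lit 5354213649) (nat_lit 0) (nat_lit 2705544989) (nat_lit 1344) (nat_lit 53461402996) (nat_lit 164) (nat_lit 5) (nat_lit 163) (nat_lit 5) (nat_lit 179) (nat_lit 5) (nat_lit 410) (nat_lit 403) (nat_lit 132))))) (XT.nd (nat_lit 282) (nat_lit 0) (nat_lit 84) (XT.nd (nat_lit 94) (nat_lit 0) (nat_lit 0) (XT.lf (nat_lit 0) (nat_lit 10012907626) (nat_lit 1260) (nat_lit 29231600746) (nat_lit 1344) (nat_lit 23239978078) (nat_lit 164) (nat_lit 5) (nat_lit 179) (nat_lit 5) (nat_lit 180) (nat_lit 5) (nat_lit 411)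 (nat_lit 403) (nat_lit 131)) (XT.nd (nat_lit 94) (nat_lit 0) (nat_lit 84) (XT.lf (nat_lit 0) (nat_lit 12050803098) (nat_lit 1260) (nat_lit 1515411835) (nat_lit 1344) (nat_lit 49909712668) (nat_lit 164) (nat_lit 5) (nat_lit 179) (nat_lit 5) (nat_lit 180) (nat_lit 5) (nat_lit 412) (nat_lit 403) (nat_lit 130)) (XT.lf (nat_lit 0) (nat_lit 14540696090) (nat_lit 1260) (nat_lit 37045809868) (nat_lit 1344) (nat_lit 12898881331) (nat_lit 165) (nat_lit 5) (nat_lit 180) (nat_lit 5) (nat_lit 181) (nat_lit 5) (nat_lit 413) (nat_lit 403) (nat_lit 129)))) (XT.nd (nat_lit 188) (nat_lit 0) (nat_lit 84) (XT.nd (nat_lit 94) (nat_lit 0) (nat_lit 84) (XT.lf (nat_lit 0) (nat_lit 17254457784) (nat_lit 1260) (nat_lit 8365296845) (nat_lit 1344) (nat_lit 39900902066) (nat_lit 165) (nat_lit 5) (nat_lit 180) (nat_lit 5) (nat_lit 181) (nat_lit 5) (nat_lit 414) (nat_lit 403) (nat_lit 128)) (XT.lf (nat_lit 0) (nat_lit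 20269529468) (nat_lit 1260) (nat_lit 44997018610) (nat_lit 1344) (nat_lit 1313840248) (nat_lit 166) (nat_lit 5) (nat_lit 181) (nat_lit 5) (nat_lit 182) (nat_lit 5) (nat_lit 415) (nat_lit 403) (nat_lit 127))) (XT.nd (nat_lit 94) (nat_lit 0) (nat_lit 0) (XT.lf (nat_lit 0) (nat_lit 23713454408) (nat_lit 1260) (nat_lit 15322336637) (nat_lit 1344) (nat_lit 28625969851) (nat_lit 166) (nat_lit 5) (nat_lit 181) (nat_lit 5) (nat_lit 182) (nat_lit 5) (nat_lit 416) (nat_lit 403) (nat_lit 126)) (XT.lf (nat_lit 84) (nat_lit 15545509155) (nat_lit 0) (nat_lit 11864068171) (nat_lit 1344) (nat_lit 41361531906) (nat_lit 167) (nat_lit 5) (nat_lit 166) (nat_lit 5) (nat_lit 182) (nat_lit 5) (nat_lit 417) (nat_lit 403) (nat_lit 125))))))) (XT.nd (nat_lit 1316) (nat_lit 3192) (nat_lit 0) (XT.nd (nat_lit 658) (nat_lit 1848) (nat_lit 0) (XT.nd (nat_lit 282) (nat_lit 1764) (nat_lit 0) (XT.nd (nat_lit 94) (nat_lit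 0) (nat_lit 0) (XT.lf (nat_lit 0) (nat_lit 31527284185) (nat_lit 1260) (nat_lit 22412566940) (nat_lit 1344) (nat_lit 15964566851) (nat_lit 167) (nat_lit 5) (nat_lit 182) (nat_lit 5) (nat_lit 183) (nat_lit 5) (nat_lit 418) (nat_lit 403) (nat_lit 124)) (XT.nd (nat_lit 94) (nat_lit 0) (nat_lit 84) (XT.lf (nat_lit 84) (nat_lit 9390200943) (nat_lit 0) (nat_lit 26585527880) (nat_lit 1344) (nat_lit 35089781900) (nat_lit 168) (nat_lit 5) (nat_lit 167) (nat_lit 5) (nat_lit 183) (nat_lit 5) (nat_lit 419) (nat_lit 403) (nat_lit 123)) (XT.lf (nat_lit 0) (nat_lit 40800957382) (nat_lit 1260) (nat_lit 29666118237) (nat_lit 84) (nat_lit 1787061627) (nat_lit 168) (nat_lit 5) (nat_lit 183) (nat_lit 5) (nat_lit 169) (nat_lit 5) (nat_lit 420) (nat_lit 403) (nat_lit 122)))) (XT.nd (nat_lit 188) (nat_lit 588) (nat_lit 0) (XT.nd (nat_lit 94) (nat_lit 0) (nat_lit 0) (XT.lf (nat_lit 0) (nat_lit 3100194948) (nat_lit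 1260) (nat_lit 42963275026) (nat_lit 1344) (nat_lit 27406177658) (nat_lit 153) (nat_lit 5) (nat_lit 168) (nat_lit 5) (nat_lit 169) (nat_lit 5) (nat_lit 421) (nat_lit 403) (nat_lit 121)) (XT.lf (nat_lit 0) (nat_lit 37457201029) (nat_lit 1260) (nat_lit 14325740107) (nat_lit 1344) (nat_lit 22929710556) (nat_lit 153) (nat_lit 5) (nat_lit 168) (nat_lit 5) (nat_lit 169) (nat_lit 5) (nat_lit 422) (nat_lit 403) (nat_lit 120))) (XT.nd (nat_lit 94) (nat_lit 588) (nat_lit 0) (XT.lf (nat_lit 0) (nat_lit 57819356932) (nat_lit 1344) (nat_lit 3294286873) (nat_lit 84) (nat_lit 14874942087) (nat_lit 153) (nat_lit 5) (nat_lit 169) (nat_lit 5) (nat_lit 154) (nat_lit 5) (nat_lit 423) (nat_lit 403) (nat_lit 119)) (XT.lf (nat_lit 0) (nat_lit 32171235797) (nat_lit 588) (nat_lit 32316260078) (nat_lit 672) (nat_lit 12801784131) (nat_lit 146) (nat_lit 5) (nat_lit 153) (nat_lit 5) (nat_lit 154) (nat_lit 5) (nat_lit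 424) (nat_lit 403) (nat_lit 118))))) (XT.nd (nat_lit 282) (nat_lit 1176) (nat_lit 0) (XT.nd (nat_lit 94) (nat_lit 672) (nat_lit 0) (XT.lf (nat_lit 0) (nat_lit 68767844149) (nat_lit 588) (nat_lit 2620652143) (nat_lit 672) (nat_lit 7239514919) (nat_lit 146) (nat_lit 5) (nat_lit 153) (nat_lit 5) (nat_lit 154) (nat_lit 5) (nat_lit 425) (nat_lit 403) (nat_lit 117)) (XT.nd (nat_lit 94) (nat_lit 84) (nat_lit 0) (XT.lf (nat_lit 0) (nat_lit 26707366802) (nat_lit 588) (nat_lit 52314276967) (nat_lit 672) (nat_lit 969507833) (nat_lit 139) (nat_lit 5) (nat_lit 146) (nat_lit 5) (nat_lit 147) (nat_lit 5) (nat_lit 426) (nat_lit 403) (nat_lit 116)) (XT.lf (nat_lit 0) (nat_lit 5507567047) (nat_lit 672) (nat_lit 16898258540) (nat_lit 84) (nat_lit 58983996446) (nat_lit 138) (nat_lit 5) (nat_lit 146) (nat_lit 5) (nat_lit 139) (nat_lit 5) (nat_lit 427) (nat_lit 403) (nat_lit 115)))) (XT.nd (nat_lit 188) (nat_lit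 588) (nat_lit 0) (XT.nd (nat_lit 94) (nat_lit 0) (nat_lit 0) (XT.lf (nat_lit 0) (nat_lit 12443541014) (nat_lit 672) (nat_lit 61928775311) (nat_lit 84) (nat_lit 8449326786) (nat_lit 131) (nat_lit 5) (nat_lit 139) (nat_lit 5) (nat_lit 132) (nat_lit 5) (nat_lit 428) (nat_lit 403) (nat_lit 114)) (XT.lf (nat_lit 0) (nat_lit 19981352523) (nat_lit 672) (nat_lit 24351117466) (nat_lit 84) (nat_lit 39952136762) (nat_lit 131) (nat_lit 5) (nat_lit 139) (nat_lit 5) (nat_lit 132) (nat_lit 5) (nat_lit 429) (nat_lit 403) (nat_lit 113))) (XT.nd (nat_lit 94) (nat_lit 0) (nat_lit 0) (XT.lf (nat_lit 0) (nat_lit 14639130203) (nat_lit 588) (nat_lit 13246490091) (nat_lit 672) (nat_lit 57901630006) (nat_lit 124) (nat_lit 5) (nat_lit 131) (nat_lit 5) (nat_lit 132) (nat_lit 5) (nat_lit 430) (nat_lit 403) (nat_lit 112)) (XT.lf (nat_lit 0) (nat_lit 36455407234) (nat_lit 672) (nat_lit 32212630524) (nat_lit 84) (nat_lit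 18654084301) (nat_lit 124) (nat_lit 5) (nat_lit 132) (nat_lit 5) (nat_lit 125) (nat_lit 5) (nat_lit 431) (nat_lit 403) (nat_lit 111)))))) (XT.nd (nat_lit 658) (nat_lit 1680) (nat_lit 0) (XT.nd (nat_lit 282) (nat_lit 504) (nat_lit 0) (XT.nd (nat_lit 94) (nat_lit 504) (nat_lit 0) (XT.lf (nat_lit 0) (nat_lit 7913798627) (nat_lit 504) (nat_lit 37575335519) (nat_lit 588) (nat_lit 43407701055) (nat_lit 118) (nat_lit 5) (nat_lit 124) (nat_lit 5) (nat_lit 125) (nat_lit 5) (nat_lit 432) (nat_lit 403) (nat_lit 110)) (XT.nd (nat_lit 94) (nat_lit 504) (nat_lit 0) (XT.lf (nat_lit 0) (nat_lit 49903953446) (nat_lit 504) (nat_lit 5214831801) (nat_lit 588) (nat_lit 35390257718) (nat_lit 118) (nat_lit 5) (nat_lit 124) (nat_lit 5) (nat_lit 125) (nat_lit 5) (nat_lit 433) (nat_lit 403) (nat_lit 109)) (XT.lf (nat_lit 0) (nat_lit 727729426) (nat_lit 504) (nat_lit 64586503313) (nat_lit 588) (nat_lit 26847077604)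 (nat_lit 112) (nat_lit 5) (nat_lit 118) (nat_lit 5) (nat_lit 119) (nat_lit 5) (nat_lit 434) (nat_lit 403) (nat_lit 108)))) (XT.nd (nat_lit 188) (nat_lit 504) (nat_lit 0) (XT.nd (nat_lit 94) (nat_lit 0) (nat_lit 0) (XT.lf (nat_lit 0) (nat_lit 44079847487) (nat_lit 504) (nat_lit 32196499132) (nat_lit 588) (nat_lit 17572975600) (nat_lit 112) (nat_lit 5) (nat_lit 118) (nat_lit 5) (nat_lit 119) (nat_lit 5) (nat_lit 435) (nat_lit 403) (nat_lit 107)) (XT.lf (nat_lit 0) (nat_lit 87578179953) (nat_lit 588) (nat_lit 6867035605) (nat_lit 84) (nat_lit 1142433764) (nat_lit 112) (nat_lit 5) (nat_lit 119) (nat_lit 5) (nat_lit 113) (nat_lit 5) (nat_lit 436) (nat_lit 403) (nat_lit 106))) (XT.nd (nat_lit 94) (nat_lit 0) (nat_lit 0) (XT.lf (nat_lit 0) (nat_lit 2492983154) (nat_lit 504) (nat_lit 59642371283) (nat_lit 84) (nat_lit 35221602497) (nat_lit 106) (nat_lit 5) (nat_lit 112) (nat_lit 5) (nat_lit 107)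 (nat_lit 5) (nat_lit 437) (nat_lit 403) (nat_lit 105)) (XT.lf (nat_lit 0) (nat_lit 13219224808) (nat_lit 504) (nat_lit 15483210308) (nat_lit 84) (nat_lit 70472439174) (nat_lit 106) (nat_lit 5) (nat_lit 112) (nat_lit 5) (nat_lit 107) (nat_lit 5) (nat_lit 438) (nat_lit 403) (nat_lit 104))))) (XT.nd (nat_lit 282) (nat_lit 756) (nat_lit 0) (XT.nd (nat_lit 94) (nat_lit 420) (nat_lit 0) (XT.lf (nat_lit 0) (nat_lit 24619077574) (nat_lit 588) (nat_lit 70499120104) (nat_lit 84) (nat_lit 5918577260) (nat_lit 100) (nat_lit 5) (nat_lit 107) (nat_lit 5) (nat_lit 101) (nat_lit 5) (nat_lit 439) (nat_lit 403) (nat_lit 103)) (XT.nd (nat_lit 94) (nat_lit 420) (nat_lit 0) (XT.lf (nat_lit 0) (nat_lit 36802689389) (nat_lit 588) (nat_lit 24979412469) (nat_lit 84) (nat_lit 41159178321) (nat_lit 100) (nat_lit 5) (nat_lit 107) (nat_lit 5) (nat_lit 101) (nat_lit 5) (nat_lit 440) (nat_lit 403) (nat_lit 102)) (XT.lf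 (nat_lit 0) (nat_lit 22341483793) (nat_lit 420) (nat_lit 27224777863) (nat_lit 504) (nat_lit 55330225817) (nat_lit 95) (nat_lit 5) (nat_lit 100) (nat_lit 5) (nat_lit 101) (nat_lit 5) (nat_lit 441) (nat_lit 403) (nat_lit 101)))) (XT.nd (nat_lit 188) (nat_lit 336) (nat_lit 0) (XT.nd (nat_lit 94) (nat_lit 420) (nat_lit 0) (XT.lf (nat_lit 0) (nat_lit 63047629150) (nat_lit 504) (nat_lit 35392042031) (nat_lit 84) (nat_lit 8460633613) (nat_lit 95) (nat_lit 5) (nat_lit 101) (nat_lit 5) (nat_lit 96) (nat_lit 5) (nat_lit 442) (nat_lit 403) (nat_lit 100)) (XT.lf (nat_lit 0) (nat_lit 13172947884) (nat_lit 420) (nat_lit 64156374306) (nat_lit 504) (nat_lit 31623038342) (nat_lit 90) (nat_lit 5) (nat_lit 95) (nat_lit 5) (nat_lit 96) (nat_lit 5) (nat_lit 443) (nat_lit 403) (nat_lit 99))) (XT.nd (nat_lit 94) (nat_lit 336) (nat_lit 0) (XT.lf (nat_lit 0) (nat_lit 63920033204) (nat_lit 420) (nat_lit 28476534023)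 (nat_lit 504) (nat_lit 18658698103) (nat_lit 90) (nat_lit 5) (nat_lit 95) (nat_lit 5) (nat_lit 96) (nat_lit 5) (nat_lit 444) (nat_lit 403) (nat_lit 98)) (XT.lf (nat_lit 0) (nat_lit 2945872235) (nat_lit 336) (nat_lit 105077525552) (nat_lit 420) (nat_lit 5194632850) (nat_lit 86) (nat_lit 5) (nat_lit 90) (nat_lit 5) (nat_lit 91) (nat_lit 5) (nat_lit 445) (nat_lit 403) (nat_lit 97))))))))
noncomputable def xc236 : XT := (XT.nd (nat_lit 57622) (nat_lit 0) (nat_lit 420) (XT.nd (nat_lit 56306) (nat_lit 0) (nat_lit 4956) (XT.nd (nat_lit 55648) (nat_lit 0) (nat_lit 6888) (XT.nd (nat_lit 55366) (nat_lit 0) (nat_lit 6804) (XT.nd (nat_lit 94) (nat_lit 420) (nat_lit 0) (XT.lf (nat_lit 0) (nat_lit 9266458345) (nat_lit 420) (nat_lit 60306152752) (nat_lit 84) (nat_lit 45847696412) (nat_lit 85) (nat_lit 5) (nat_lit 90) (nat_lit 5) (nat_lit 86) (nat_lit 5) (nat_lit 446) (nat_lit 403) (nat_lit 96)) (XT.nd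 (nat_lit 94) (nat_lit 420) (nat_lit 0) (XT.lf (nat_lit 0) (nat_lit 24056703898) (nat_lit 420) (nat_lit 8892945300) (nat_lit 84) (nat_lit 84737469046) (nat_lit 85) (nat_lit 5) (nat_lit 90) (nat_lit 5) (nat_lit 86) (nat_lit 5) (nat_lit 447) (nat_lit 403) (nat_lit 95)) (XT.lf (nat_lit 0) (nat_lit 39772524636) (nat_lit 504) (nat_lit 75119881119) (nat_lit 84) (nat_lit 5115071877) (nat_lit 80) (nat_lit 5) (nat_lit 86) (nat_lit 5) (nat_lit 81) (nat_lit 5) (nat_lit 448) (nat_lit 403) (nat_lit 94)))) (XT.nd (nat_lit 94) (nat_lit 0) (nat_lit 0) (XT.lf (nat_lit 0) (nat_lit 569941272) (nat_lit 0) (nat_lit 569941272) (nat_lit 1260) (nat_lit 27354897349) (nat_lit 161) (nat_lit 5) (nat_lit 161) (nat_lit 3) (nat_lit 176) (nat_lit 3) (nat_lit 404) (nat_lit 404) (nat_lit 137)) (XT.nd (nat_lit 94) (nat_lit 0) (nat_lit 0) (XT.lf (nat_lit 0) (nat_lit 2565213362) (nat_lit 1260) (nat_lit 31568360997) (nat_lit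 1344) (nat_lit 23703257017) (nat_lit 161) (nat_lit 5) (nat_lit 176) (nat_lit 3) (nat_lit 177) (nat_lit 5) (nat_lit 405) (nat_lit 404) (nat_lit 136)) (XT.lf (nat_lit 0) (nat_lit 2869778264) (nat_lit 1260) (nat_lit 6570286355) (nat_lit 1344) (nat_lit 49269141234) (nat_lit 161) (nat_lit 5) (nat_lit 176) (nat_lit 3) (nat_lit 177) (nat_lit 5) (nat_lit 406) (nat_lit 404) (nat_lit 135))))) (XT.nd (nat_lit 282) (nat_lit 0) (nat_lit 84) (XT.nd (nat_lit 94) (nat_lit 0) (nat_lit 0) (XT.lf (nat_lit 0) (nat_lit 3526393064) (nat_lit 1260) (nat_lit 40198731286) (nat_lit 1344) (nat_lit 15872341124) (nat_lit 162) (nat_lit 5) (nat_lit 177) (nat_lit 5) (nat_lit 178) (nat_lit 5) (nat_lit 407) (nat_lit 404) (nat_lit 134)) (XT.nd (nat_lit 94) (nat_lit 0) (nat_lit 84) (XT.lf (nat_lit 0) (nat_lit 4362484858) (nat_lit 1260) (nat_lit 14323400555) (nat_lit 1344) (nat_lit 41821695375) (nat_lit 162) (nat_lit 5) (nat_lit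 177) (nat_lit 5) (nat_lit 178) (nat_lit 5) (nat_lit 408) (nat_lit 404) (nat_lit 133)) (XT.lf (nat_lit 0) (nat_lit 5413341357) (nat_lit 1260) (nat_lit 48937743256) (nat_lit 1344) (nat_lit 7088225712) (nat_lit 163) (nat_lit 5) (nat_lit 178) (nat_lit 5) (nat_lit 179) (nat_lit 5) (nat_lit 409) (nat_lit 404) (nat_lit 132)))) (XT.nd (nat_lit 188) (nat_lit 0) (nat_lit 84) (XT.nd (nat_lit 94) (nat_lit 0) (nat_lit 0) (XT.lf (nat_lit 0) (nat_lit 6826149794) (nat_lit 1260) (nat_lit 22156606767) (nat_lit 1344) (nat_lit 33406323589) (nat_lit 163) (nat_lit 5) (nat_lit 178) (nat_lit 5) (nat_lit 179) (nat_lit 5) (nat_lit 410) (nat_lit 404) (nat_lit 131)) (XT.lf (nat_lit 84) (nat_lit 5535582256) (nat_lit 0) (nat_lit 2798337800) (nat_lit 1344) (nat_lit 55031846839) (nat_lit 164) (nat_lit 5) (nat_lit 163) (nat_lit 5) (nat_lit 179) (nat_lit 5) (nat_lit 411) (nat_lit 404) (nat_lit 130))) (XT.nd (nat_lit 94)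 (nat_lit 0) (nat_lit 0) (XT.lf (nat_lit 0) (nat_lit 10344612230) (nat_lit 1260) (nat_lit 30087302607) (nat_lit 1344) (nat_lit 23926109860) (nat_lit 164) (nat_lit 5) (nat_lit 179) (nat_lit 5) (nat_lit 180) (nat_lit 5) (nat_lit 412) (nat_lit 404) (nat_lit 129)) (XT.lf (nat_lit 0) (nat_lit 12442732411) (nat_lit 1260) (nat_lit 1540246849) (nat_lit 1344) (nat_lit 51396258844) (nat_lit 164) (nat_lit 5) (nat_lit 179) (nat_lit 5) (nat_lit 180) (nat_lit 5) (nat_lit 413) (nat_lit 404) (nat_lit 128)))))) (XT.nd (nat_lit 658) (nat_lit 2184) (nat_lit 0) (XT.nd (nat_lit 282) (nat_lit 0) (nat_lit 84) (XT.nd (nat_lit 94) (nat_lit 0) (nat_lit 0) (XT.lf (nat_lit 0) (nat_lit 15006543632) (nat_lit 1260) (nat_lit 38135724701) (nat_lit 1344) (nat_lit 13276738211) (nat_lit 165) (nat_lit 5) (nat_lit 180) (nat_lit 5) (nat_lit 181) (nat_lit 5) (nat_lit 414) (nat_lit 404) (nat_lit 127)) (XT.nd (nat_lit 94) (nat_lit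 0) (nat_lit 84) (XT.lf (nat_lit 0) (nat_lit 17800855265) (nat_lit 1260) (nat_lit 8595421320) (nat_lit 1344) (nat_lit 41089084896) (nat_lit 165) (nat_lit 5) (nat_lit 180) (nat_lit 5) (nat_lit 181) (nat_lit 5) (nat_lit 415) (nat_lit 404) (nat_lit 126)) (XT.lf (nat_lit 0) (nat_lit 20905667593) (nat_lit 1260) (nat_lit 46325332744) (nat_lit 1344) (nat_lit 1345907584) (nat_lit 166) (nat_lit 5) (nat_lit 181) (nat_lit 5) (nat_lit 182) (nat_lit 5) (nat_lit 416) (nat_lit 404) (nat_lit 125)))) (XT.nd (nat_lit 188) (nat_lit 0) (nat_lit 84) (XT.nd (nat_lit 94) (nat_lit 0) (nat_lit 0) (XT.lf (nat_lit 0) (nat_lit 24452093225) (nat_lit 1260) (nat_lit 15761039334) (nat_lit 1344) (nat_lit 29477615092) (nat_lit 166) (nat_lit 5) (nat_lit 181) (nat_lit 5) (nat_lit 182) (nat_lit 5) (nat_lit 417) (nat_lit 404) (nat_lit 124)) (XT.lf (nat_lit 84) (nat_lit 16032636269) (nat_lit 0) (nat_lit 12225869879) (nat_lit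 1344) (nat_lit 42574889527) (nat_lit 167) (nat_lit 5) (nat_lit 166) (nat_lit 5) (nat_lit 182) (nat_lit 5) (nat_lit 418) (nat_lit 404) (nat_lit 123))) (XT.nd (nat_lit 94) (nat_lit 0) (nat_lit 0) (XT.lf (nat_lit 0) (nat_lit 32498913375) (nat_lit 1260) (nat_lit 23063909780) (nat_lit 1344) (nat_lit 16437906838) (nat_lit 167) (nat_lit 5) (nat_lit 182) (nat_lit 5) (nat_lit 183) (nat_lit 5) (nat_lit 419) (nat_lit 404) (nat_lit 122)) (XT.lf (nat_lit 84) (nat_lit 9692734921) (nat_lit 0) (nat_lit 27387524874) (nat_lit 1344) (nat_lit 36116413619) (nat_lit 168) (nat_lit 5) (nat_lit 167) (nat_lit 5) (nat_lit 183) (nat_lit 5) (nat_lit 420) (nat_lit 404) (nat_lit 121))))) (XT.nd (nat_lit 282) (nat_lit 1176) (nat_lit 0) (XT.nd (nat_lit 94) (nat_lit 1260) (nat_lit 0) (XT.lf (nat_lit 0) (nat_lit 42049468154) (nat_lit 1260) (nat_lit 30535059865) (nat_lit 84) (nat_lit 1836455331) (nat_lit 168) (nat_lit 5)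 (nat_lit 183) (nat_lit 5) (nat_lit 169) (nat_lit 5) (nat_lit 421) (nat_lit 404) (nat_lit 120)) (XT.nd (nat_lit 94) (nat_lit 0) (nat_lit 0) (XT.lf (nat_lit 0) (nat_lit 3214036422) (nat_lit 1260) (nat_lit 44255306918) (nat_lit 1344) (nat_lit 28203632360) (nat_lit 153) (nat_lit 5) (nat_lit 168) (nat_lit 5) (nat_lit 169) (nat_lit 5) (nat_lit 422) (nat_lit 404) (nat_lit 119)) (XT.lf (nat_lit 0) (nat_lit 38601145822) (nat_lit 1260) (nat_lit 14758554680) (nat_lit 1344) (nat_lit 23593591555) (nat_lit 153) (nat_lit 5) (nat_lit 168) (nat_lit 5) (nat_lit 169) (nat_lit 5) (nat_lit 423) (nat_lit 404) (nat_lit 118)))) (XT.nd (nat_lit 188) (nat_lit 588) (nat_lit 0) (XT.nd (nat_lit 94) (nat_lit 588) (nat_lit 0) (XT.lf (nat_lit 0) (nat_lit 59576502579) (nat_lit 1344) (nat_lit 3372729856) (nat_lit 84) (nat_lit 15318294231) (nat_lit 153) (nat_lit 5) (nat_lit 169) (nat_lit 5) (nat_lit 154) (nat_lit 5) (nat_lit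 424) (nat_lit 404) (nat_lit 117)) (XT.lf (nat_lit 0) (nat_lit 33156558636) (nat_lit 588) (nat_lit 33287663862) (nat_lit 672) (nat_lit 13163034162) (nat_lit 146) (nat_lit 5) (nat_lit 153) (nat_lit 5) (nat_lit 154) (nat_lit 5) (nat_lit 425) (nat_lit 404) (nat_lit 116))) (XT.nd (nat_lit 94) (nat_lit 588) (nat_lit 0) (XT.lf (nat_lit 0) (nat_lit 70850477303) (nat_lit 588) (nat_lit 2701131884) (nat_lit 672) (nat_lit 7434561053) (nat_lit 146) (nat_lit 5) (nat_lit 153) (nat_lit 5) (nat_lit 154) (nat_lit 5) (nat_lit 426) (nat_lit 404) (nat_lit 115)) (XT.lf (nat_lit 0) (nat_lit 27528685834) (nat_lit 588) (nat_lit 53884616098) (nat_lit 672) (nat_lit 976917480) (nat_lit 139) (nat_lit 5) (nat_lit 146) (nat_lit 5) (nat_lit 147) (nat_lit 5) (nat_lit 427) (nat_lit 404) (nat_lit 114))))))) (XT.nd (nat_lit 1316) (nat_lit 1260) (nat_lit 0) (XT.nd (nat_lit 658) (nat_lit 1512) (nat_lit 0) (XT.nd (nat_lit 282)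 (nat_lit 1092) (nat_lit 0) (XT.nd (nat_lit 94) (nat_lit 588) (nat_lit 0) (XT.lf (nat_lit 0) (nat_lit 5693427670) (nat_lit 672) (nat_lit 17385248619) (nat_lit 84) (nat_lit 60752187018) (nat_lit 138) (nat_lit 5) (nat_lit 146) (nat_lit 5) (nat_lit 139) (nat_lit 5) (nat_lit 428) (nat_lit 404) (nat_lit 113)) (XT.nd (nat_lit 94) (nat_lit 0) (nat_lit 0) (XT.lf (nat_lit 0) (nat_lit 12837065414) (nat_lit 672) (nat_lit 63766232074) (nat_lit 84) (nat_lit 8702354995) (nat_lit 131) (nat_lit 5) (nat_lit 139) (nat_lit 5) (nat_lit 132) (nat_lit 5) (nat_lit 429) (nat_lit 404) (nat_lit 112)) (XT.lf (nat_lit 0) (nat_lit 20600422390) (nat_lit 672) (nat_lit 25061838857) (nat_lit 84) (nat_lit 41150262422) (nat_lit 131) (nat_lit 5) (nat_lit 139) (nat_lit 5) (nat_lit 132) (nat_lit 5) (nat_lit 430) (nat_lit 404) (nat_lit 111)))) (XT.nd (nat_lit 188) (nat_lit 504) (nat_lit 0) (XT.nd (nat_lit 94) (nat_lit 0) (nat_lit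 0) (XT.lf (nat_lit 0) (nat_lit 15097922006) (nat_lit 588) (nat_lit 13643513040) (nat_lit 672) (nat_lit 59618823917) (nat_lit 124) (nat_lit 5) (nat_lit 131) (nat_lit 5) (nat_lit 132) (nat_lit 5) (nat_lit 431) (nat_lit 404) (nat_lit 110)) (XT.lf (nat_lit 0) (nat_lit 37567758496) (nat_lit 672) (nat_lit 33159375295) (nat_lit 84) (nat_lit 19214060713) (nat_lit 124) (nat_lit 5) (nat_lit 132) (nat_lit 5) (nat_lit 125) (nat_lit 5) (nat_lit 432) (nat_lit 404) (nat_lit 109))) (XT.nd (nat_lit 94) (nat_lit 0) (nat_lit 0) (XT.lf (nat_lit 0) (nat_lit 8170654239) (nat_lit 504) (nat_lit 38701485520) (nat_lit 588) (nat_lit 44691020894) (nat_lit 118) (nat_lit 5) (nat_lit 124) (nat_lit 5) (nat_lit 125) (nat_lit 5) (nat_lit 433) (nat_lit 404) (nat_lit 108)) (XT.lf (nat_lit 0) (nat_lit 51419947441) (nat_lit 504) (nat_lit 5370199022) (nat_lit 588) (nat_lit 36433605068) (nat_lit 118) (nat_lit 5) (nat_lit 124)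 (nat_lit 5) (nat_lit 125) (nat_lit 5) (nat_lit 434) (nat_lit 404) (nat_lit 107))))) (XT.nd (nat_lit 282) (nat_lit 1008) (nat_lit 0) (XT.nd (nat_lit 94) (nat_lit 0) (nat_lit 0) (XT.lf (nat_lit 0) (nat_lit 768798594) (nat_lit 504) (nat_lit 66522335386) (nat_lit 588) (nat_lit 27634463491) (nat_lit 112) (nat_lit 5) (nat_lit 118) (nat_lit 5) (nat_lit 119) (nat_lit 5) (nat_lit 435) (nat_lit 404) (nat_lit 106)) (XT.nd (nat_lit 94) (nat_lit 0) (nat_lit 0) (XT.lf (nat_lit 0) (nat_lit 45420919888) (nat_lit 504) (nat_lit 33160682430) (nat_lit 588) (nat_lit 18082663469) (nat_lit 112) (nat_lit 5) (nat_lit 118) (nat_lit 5) (nat_lit 119) (nat_lit 5) (nat_lit 436) (nat_lit 404) (nat_lit 105)) (XT.lf (nat_lit 0) (nat_lit 90222012491) (nat_lit 588) (nat_lit 7054409177) (nat_lit 84) (nat_lit 1178336170) (nat_lit 112) (nat_lit 5) (nat_lit 119) (nat_lit 5) (nat_lit 113) (nat_lit 5) (nat_lit 437) (nat_lit 404)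 (nat_lit 104)))) (XT.nd (nat_lit 188) (nat_lit 504) (nat_lit 0) (XT.nd (nat_lit 94) (nat_lit 0) (nat_lit 0) (XT.lf (nat_lit 0) (nat_lit 2584142302) (nat_lit 504) (nat_lit 61412837021) (nat_lit 84) (nat_lit 36280170393) (nat_lit 106) (nat_lit 5) (nat_lit 112) (nat_lit 5) (nat_lit 107) (nat_lit 5) (nat_lit 438) (nat_lit 404) (nat_lit 103)) (XT.lf (nat_lit 0) (nat_lit 13631694419) (nat_lit 504) (nat_lit 15929448947) (nat_lit 84) (nat_lit 72588476252) (nat_lit 106) (nat_lit 5) (nat_lit 112) (nat_lit 5) (nat_lit 107) (nat_lit 5) (nat_lit 439) (nat_lit 404) (nat_lit 102))) (XT.nd (nat_lit 94) (nat_lit 0) (nat_lit 0) (XT.lf (nat_lit 0) (nat_lit 25373277444) (nat_lit 588) (nat_lit 72595547301) (nat_lit 84) (nat_lit 6098561205) (nat_lit 100) (nat_lit 5) (nat_lit 107) (nat_lit 5) (nat_lit 101) (nat_lit 5) (nat_lit 440) (nat_lit 404) (nat_lit 101)) (XT.lf (nat_lit 0) (nat_lit 37921942442) (nat_lit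 588) (nat_lit 25710788623) (nat_lit 84) (nat_lit 42396309619) (nat_lit 100) (nat_lit 5) (nat_lit 107) (nat_lit 5) (nat_lit 101) (nat_lit 5) (nat_lit 441) (nat_lit 404) (nat_lit 100)))))) (XT.nd (nat_lit 55930) (nat_lit 0) (nat_lit 6384) (XT.nd (nat_lit 282) (nat_lit 420) (nat_lit 0) (XT.nd (nat_lit 94) (nat_lit 420) (nat_lit 0) (XT.lf (nat_lit 0) (nat_lit 23029557995) (nat_lit 420) (nat_lit 28038593359) (nat_lit 504) (nat_lit 56974761622) (nat_lit 95) (nat_lit 5) (nat_lit 100) (nat_lit 5) (nat_lit 101) (nat_lit 5) (nat_lit 442) (nat_lit 404) (nat_lit 99)) (XT.nd (nat_lit 94) (nat_lit 420) (nat_lit 0) (XT.lf (nat_lit 0) (nat_lit 64953553162) (nat_lit 504) (nat_lit 36436064781) (nat_lit 84) (nat_lit 8717239717) (nat_lit 95) (nat_lit 5) (nat_lit 101) (nat_lit 5) (nat_lit 96) (nat_lit 5) (nat_lit 443) (nat_lit 404) (nat_lit 98)) (XT.lf (nat_lit 0) (nat_lit 13585700925) (nat_lit 420) (nat_lit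 66077742722) (nat_lit 504) (nat_lit 32557039648) (nat_lit 90) (nat_lit 5) (nat_lit 95) (nat_lit 5) (nat_lit 96) (nat_lit 5) (nat_lit 444) (nat_lit 404) (nat_lit 97)))) (XT.nd (nat_lit 188) (nat_lit 84) (nat_lit 0) (XT.nd (nat_lit 94) (nat_lit 336) (nat_lit 0) (XT.lf (nat_lit 0) (nat_lit 65854687214) (nat_lit 420) (nat_lit 29327604012) (nat_lit 504) (nat_lit 19204197061) (nat_lit 90) (nat_lit 5) (nat_lit 95) (nat_lit 5) (nat_lit 96) (nat_lit 5) (nat_lit 445) (nat_lit 404) (nat_lit 96)) (XT.lf (nat_lit 0) (nat_lit 3051534261) (nat_lit 336) (nat_lit 108226185982) (nat_lit 420) (nat_lit 5336423090) (nat_lit 86) (nat_lit 5) (nat_lit 90) (nat_lit 5) (nat_lit 91) (nat_lit 5) (nat_lit 446) (nat_lit 404) (nat_lit 95))) (XT.nd (nat_lit 55366) (nat_lit 0) (nat_lit 6384) (XT.lf (nat_lit 0) (nat_lit 9557825496) (nat_lit 420) (nat_lit 62098270309) (nat_lit 84) (nat_lit 47226401246) (nat_lit 85) (nat_lit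 5) (nat_lit 90) (nat_lit 5) (nat_lit 86) (nat_lit 5) (nat_lit 447) (nat_lit 404) (nat_lit 94)) (XT.lf (nat_lit 0) (nat_lit 596382292) (nat_lit 0) (nat_lit 596382292) (nat_lit 1260) (nat_lit 28156264215) (nat_lit 161) (nat_lit 5) (nat_lit 161) (nat_lit 3) (nat_lit 176) (nat_lit 3) (nat_lit 405) (nat_lit 405) (nat_lit 135))))) (XT.nd (nat_lit 282) (nat_lit 0) (nat_lit 84) (XT.nd (nat_lit 94) (nat_lit 0) (nat_lit 0) (XT.lf (nat_lit 0) (nat_lit 2678278023) (nat_lit 1260) (nat_lit 32495941764) (nat_lit 1344) (nat_lit 24396567408) (nat_lit 161) (nat_lit 5) (nat_lit 176) (nat_lit 3) (nat_lit 177) (nat_lit 5) (nat_lit 406) (nat_lit 405) (nat_lit 134)) (XT.nd (nat_lit 94) (nat_lit 0) (nat_lit 84) (XT.lf (nat_lit 0) (nat_lit 2990928175) (nat_lit 1260) (nat_lit 6748491973) (nat_lit 1344) (nat_lit 50729946228) (nat_lit 161) (nat_lit 5) (nat_lit 176) (nat_lit 3) (nat_lit 177) (nat_lit 5) (nat_lit 407)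 (nat_lit 405) (nat_lit 133)) (XT.lf (nat_lit 0) (nat_lit 3666251306) (nat_lit 1260) (nat_lit 41384738045) (nat_lit 1344) (nat_lit 16333316001) (nat_lit 162) (nat_lit 5) (nat_lit 177) (nat_lit 5) (nat_lit 178) (nat_lit 5) (nat_lit 408) (nat_lit 405) (nat_lit 132)))) (XT.nd (nat_lit 188) (nat_lit 0) (nat_lit 84) (XT.nd (nat_lit 94) (nat_lit 0) (nat_lit 84) (XT.lf (nat_lit 0) (nat_lit 4526433627) (nat_lit 1260) (nat_lit 14733728611) (nat_lit 1344) (nat_lit 43061593463) (nat_lit 162) (nat_lit 5) (nat_lit 177) (nat_lit 5) (nat_lit 178) (nat_lit 5) (nat_lit 409) (nat_lit 405) (nat_lit 131)) (XT.lf (nat_lit 0) (nat_lit 5607910869) (nat_lit 1260) (nat_lit 50385538112) (nat_lit 1344) (nat_lit 7288017047) (nat_lit 163) (nat_lit 5) (nat_lit 178) (nat_lit 5) (nat_lit 179) (nat_lit 5) (nat_lit 410) (nat_lit 405) (nat_lit 130))) (XT.nd (nat_lit 94) (nat_lit 0) (nat_lit 0) (XT.lf (nat_lit 0) (nat_lit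 7062166590) (nat_lit 1260) (nat_lit 22801559881) (nat_lit 1344) (nat_lit 34396032290) (nat_lit 163) (nat_lit 5) (nat_lit 178) (nat_lit 5) (nat_lit 179) (nat_lit 5) (nat_lit 411) (nat_lit 405) (nat_lit 129)) (XT.lf (nat_lit 84) (nat_lit 5721201233) (nat_lit 0) (nat_lit 2893246989) (nat_lit 1344) (nat_lit 56651321194) (nat_lit 164) (nat_lit 5) (nat_lit 163) (nat_lit 5) (nat_lit 179) (nat_lit 5) (nat_lit 412) (nat_lit 405) (nat_lit 128))))))))
noncomputable def xc237 : XT := (XT.nd (nat_lit 2632) (nat_lit 1680) (nat_lit 0) (XT.nd (nat_lit 1316) (nat_lit 3360) (nat_lit 0) (XT.nd (nat_lit 658) (nat_lit 1512) (nat_lit 0) (XT.nd (nat_lit 282) (nat_lit 0) (nat_lit 84) (XT.nd (nat_lit 94) (nat_lit 0) (nat_lit 0) (XT.lf (nat_lit 0) (nat_lit 10684470228) (nat_lit 1260) (nat_lit 30969895141) (nat_lit 1344) (nat_lit 24633460918) (nat_lit 164) (nat_lit 5) (nat_lit 179) (nat_lit 5) (nat_lit 180) (nat_lit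 5) (nat_lit 413) (nat_lit 405) (nat_lit 127)) (XT.nd (nat_lit 94) (nat_lit 0) (nat_lit 84) (XT.lf (nat_lit 0) (nat_lit 12844674219) (nat_lit 1260) (nat_lit 1567011008) (nat_lit 1344) (nat_lit 52928018224) (nat_lit 164) (nat_lit 5) (nat_lit 179) (nat_lit 5) (nat_lit 180) (nat_lit 5) (nat_lit 414) (nat_lit 405) (nat_lit 126)) (XT.lf (nat_lit 0) (nat_lit 15484665910) (nat_lit 1260) (nat_lit 39259568841) (nat_lit 1344) (nat_lit 13666453725) (nat_lit 165) (nat_lit 5) (nat_lit 180) (nat_lit 5) (nat_lit 181) (nat_lit 5) (nat_lit 415) (nat_lit 405) (nat_lit 125)))) (XT.nd (nat_lit 188) (nat_lit 0) (nat_lit 84) (XT.nd (nat_lit 94) (nat_lit 0) (nat_lit 84) (XT.lf (nat_lit 0) (nat_lit 18361993514) (nat_lit 1260) (nat_lit 8833645512) (nat_lit 1344) (nat_lit 42313420906) (nat_lit 165) (nat_lit 5) (nat_lit 180) (nat_lit 5) (nat_lit 181) (nat_lit 5) (nat_lit 416) (nat_lit 405) (nat_lit 124)) (XT.lf (nat_lit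 0) (nat_lit 21559279548) (nat_lit 1260) (nat_lit 47694736025) (nat_lit 1344) (nat_lit 1379358739) (nat_lit 166) (nat_lit 5) (nat_lit 181) (nat_lit 5) (nat_lit 182) (nat_lit 5) (nat_lit 417) (nat_lit 405) (nat_lit 123))) (XT.nd (nat_lit 94) (nat_lit 0) (nat_lit 0) (XT.lf (nat_lit 0) (nat_lit 25211327796) (nat_lit 1260) (nat_lit 16214106727) (nat_lit 1344) (nat_lit 30355219202) (nat_lit 166) (nat_lit 5) (nat_lit 181) (nat_lit 5) (nat_lit 182) (nat_lit 5) (nat_lit 418) (nat_lit 405) (nat_lit 122)) (XT.lf (nat_lit 84) (nat_lit 16533185382) (nat_lit 0) (nat_lit 12598188122) (nat_lit 1344) (nat_lit 43826225819) (nat_lit 167) (nat_lit 5) (nat_lit 166) (nat_lit 5) (nat_lit 182) (nat_lit 5) (nat_lit 419) (nat_lit 405) (nat_lit 121))))) (XT.nd (nat_lit 282) (nat_lit 1764) (nat_lit 0) (XT.nd (nat_lit 94) (nat_lit 0) (nat_lit 0) (XT.lf (nat_lit 0) (nat_lit 33498209802) (nat_lit 1260) (nat_lit 23736000353)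 (nat_lit 1344) (nat_lit 16925768316) (nat_lit 167) (nat_lit 5) (nat_lit 182) (nat_lit 5) (nat_lit 183) (nat_lit 5) (nat_lit 420) (nat_lit 405) (nat_lit 120)) (XT.nd (nat_lit 94) (nat_lit 0) (nat_lit 84) (XT.lf (nat_lit 84) (nat_lit 10003149310) (nat_lit 0) (nat_lit 28213327411) (nat_lit 1344) (nat_lit 37175340340) (nat_lit 168) (nat_lit 5) (nat_lit 167) (nat_lit 5) (nat_lit 183) (nat_lit 5) (nat_lit 421) (nat_lit 405) (nat_lit 119)) (XT.lf (nat_lit 0) (nat_lit 43334028880) (nat_lit 1260) (nat_lit 31431277635) (nat_lit 84) (nat_lit 1887572984) (nat_lit 168) (nat_lit 5) (nat_lit 183) (nat_lit 5) (nat_lit 169) (nat_lit 5) (nat_lit 422) (nat_lit 405) (nat_lit 118)))) (XT.nd (nat_lit 188) (nat_lit 588) (nat_lit 0) (XT.nd (nat_lit 94) (nat_lit 0) (nat_lit 0) (XT.lf (nat_lit 0) (nat_lit 3330097089) (nat_lit 1260) (nat_lit 45585919883) (nat_lit 1344) (nat_lit 29026430343) (nat_lit 153) (nat_lit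 5) (nat_lit 168) (nat_lit 5) (nat_lit 169) (nat_lit 5) (nat_lit 423) (nat_lit 405) (nat_lit 117)) (XT.lf (nat_lit 0) (nat_lit 39778247745) (nat_lit 1260) (nat_lit 15204179046) (nat_lit 1344) (nat_lit 24278767275) (nat_lit 153) (nat_lit 5) (nat_lit 168) (nat_lit 5) (nat_lit 169) (nat_lit 5) (nat_lit 424) (nat_lit 405) (nat_lit 116))) (XT.nd (nat_lit 94) (nat_lit 588) (nat_lit 0) (XT.lf (nat_lit 0) (nat_lit 61385067276) (nat_lit 1344) (nat_lit 3454696346) (nat_lit 84) (nat_lit 15775113187) (nat_lit 153) (nat_lit 5) (nat_lit 169) (nat_lit 5) (nat_lit 154) (nat_lit 5) (nat_lit 425) (nat_lit 405) (nat_lit 115)) (XT.lf (nat_lit 0) (nat_lit 34170282414) (nat_lit 588) (nat_lit 34288099774) (nat_lit 672) (nat_lit 13536430708) (nat_lit 146) (nat_lit 5) (nat_lit 153) (nat_lit 5) (nat_lit 154) (nat_lit 5) (nat_lit 426) (nat_lit 405) (nat_lit 114)))))) (XT.nd (nat_lit 658) (nat_lit 1512) (nat_lit 0)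 (XT.nd (nat_lit 282) (nat_lit 1176) (nat_lit 0) (XT.nd (nat_lit 94) (nat_lit 672) (nat_lit 0) (XT.lf (nat_lit 0) (nat_lit 72994464456) (nat_lit 588) (nat_lit 2783919235) (nat_lit 672) (nat_lit 7636729459) (nat_lit 146) (nat_lit 5) (nat_lit 153) (nat_lit 5) (nat_lit 154) (nat_lit 5) (nat_lit 427) (nat_lit 405) (nat_lit 113)) (XT.nd (nat_lit 94) (nat_lit 84) (nat_lit 0) (XT.lf (nat_lit 0) (nat_lit 28373490727) (nat_lit 588) (nat_lit 55502013118) (nat_lit 672) (nat_lit 985793684) (nat_lit 139) (nat_lit 5) (nat_lit 146) (nat_lit 5) (nat_lit 147) (nat_lit 5) (nat_lit 428) (nat_lit 405) (nat_lit 112)) (XT.lf (nat_lit 0) (nat_lit 5883679657) (nat_lit 672) (nat_lit 17887994053) (nat_lit 84) (nat_lit 62573499615) (nat_lit 138) (nat_lit 5) (nat_lit 146) (nat_lit 5) (nat_lit 139) (nat_lit 5) (nat_lit 429) (nat_lit 405) (nat_lit 111)))) (XT.nd (nat_lit 188) (nat_lit 588) (nat_lit 0) (XT.nd (nat_lit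 94) (nat_lit 0) (nat_lit 0) (XT.lf (nat_lit 0) (nat_lit 13241234940) (nat_lit 672) (nat_lit 65659983955) (nat_lit 84) (nat_lit 8962999972) (nat_lit 131) (nat_lit 5) (nat_lit 139) (nat_lit 5) (nat_lit 132) (nat_lit 5) (nat_lit 430) (nat_lit 405) (nat_lit 110)) (XT.lf (nat_lit 0) (nat_lit 21236937550) (nat_lit 672) (nat_lit 25795019187) (nat_lit 84) (nat_lit 42384357021) (nat_lit 131) (nat_lit 5) (nat_lit 139) (nat_lit 5) (nat_lit 132) (nat_lit 5) (nat_lit 431) (nat_lit 405) (nat_lit 109))) (XT.nd (nat_lit 94) (nat_lit 0) (nat_lit 0) (XT.lf (nat_lit 0) (nat_lit 15569351415) (nat_lit 588) (nat_lit 14052468018) (nat_lit 672) (nat_lit 61388673403) (nat_lit 124) (nat_lit 5) (nat_lit 131) (nat_lit 5) (nat_lit 132) (nat_lit 5) (nat_lit 432) (nat_lit 405) (nat_lit 108)) (XT.lf (nat_lit 0) (nat_lit 38712407468) (nat_lit 672) (nat_lit 34135649489) (nat_lit 84) (nat_lit 19790816103) (nat_lit 124)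 (nat_lit 5) (nat_lit 132) (nat_lit 5) (nat_lit 125) (nat_lit 5) (nat_lit 433) (nat_lit 405) (nat_lit 107))))) (XT.nd (nat_lit 282) (nat_lit 504) (nat_lit 0) (XT.nd (nat_lit 94) (nat_lit 504) (nat_lit 0) (XT.lf (nat_lit 0) (nat_lit 8434099489) (nat_lit 504) (nat_lit 39861483743) (nat_lit 588) (nat_lit 46013925908) (nat_lit 118) (nat_lit 5) (nat_lit 124) (nat_lit 5) (nat_lit 125) (nat_lit 5) (nat_lit 434) (nat_lit 405) (nat_lit 106)) (XT.nd (nat_lit 94) (nat_lit 504) (nat_lit 0) (XT.lf (nat_lit 0) (nat_lit 52980337732) (nat_lit 504) (nat_lit 5530289127) (nat_lit 588) (nat_lit 37509306800) (nat_lit 118) (nat_lit 5) (nat_lit 124) (nat_lit 5) (nat_lit 125) (nat_lit 5) (nat_lit 435) (nat_lit 405) (nat_lit 105)) (XT.lf (nat_lit 0) (nat_lit 809995539) (nat_lit 504) (nat_lit 68516343627) (nat_lit 588) (nat_lit 28446505746) (nat_lit 112) (nat_lit 5) (nat_lit 118) (nat_lit 5) (nat_lit 119) (nat_lit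 5) (nat_lit 436) (nat_lit 405) (nat_lit 104)))) (XT.nd (nat_lit 188) (nat_lit 504) (nat_lit 0) (XT.nd (nat_lit 94) (nat_lit 0) (nat_lit 0) (XT.lf (nat_lit 0) (nat_lit 46801152326) (nat_lit 504) (nat_lit 34153889484) (nat_lit 588) (nat_lit 18608646626) (nat_lit 112) (nat_lit 5) (nat_lit 118) (nat_lit 5) (nat_lit 119) (nat_lit 5) (nat_lit 437) (nat_lit 405) (nat_lit 103)) (XT.lf (nat_lit 0) (nat_lit 92944213577) (nat_lit 588) (nat_lit 7248473825) (nat_lit 84) (nat_lit 1215222115) (nat_lit 112) (nat_lit 5) (nat_lit 119) (nat_lit 5) (nat_lit 113) (nat_lit 5) (nat_lit 438) (nat_lit 405) (nat_lit 102))) (XT.nd (nat_lit 94) (nat_lit 0) (nat_lit 0) (XT.lf (nat_lit 0) (nat_lit 2677096540) (nat_lit 504) (nat_lit 63237496239) (nat_lit 84) (nat_lit 37370385120) (nat_lit 106) (nat_lit 5) (nat_lit 112) (nat_lit 5) (nat_lit 107) (nat_lit 5) (nat_lit 439) (nat_lit 405) (nat_lit 101)) (XT.lf (nat_lit 0)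 (nat_lit 14055625804) (nat_lit 504) (nat_lit 16390122810) (nat_lit 84) (nat_lit 74767887448) (nat_lit 106) (nat_lit 5) (nat_lit 112) (nat_lit 5) (nat_lit 107) (nat_lit 5) (nat_lit 440) (nat_lit 405) (nat_lit 100))))))) (XT.nd (nat_lit 56682) (nat_lit 0) (nat_lit 5628) (XT.nd (nat_lit 56024) (nat_lit 0) (nat_lit 6300) (XT.nd (nat_lit 282) (nat_lit 756) (nat_lit 0) (XT.nd (nat_lit 94) (nat_lit 420) (nat_lit 0) (XT.lf (nat_lit 0) (nat_lit 26149206225) (nat_lit 588) (nat_lit 74755931953) (nat_lit 84) (nat_lit 6283805370) (nat_lit 100) (nat_lit 5) (nat_lit 107) (nat_lit 5) (nat_lit 101) (nat_lit 5) (nat_lit 441) (nat_lit 405) (nat_lit 99)) (XT.nd (nat_lit 94) (nat_lit 420) (nat_lit 0) (XT.lf (nat_lit 0) (nat_lit 39073902130) (nat_lit 588) (nat_lit 26465139693) (nat_lit 84) (nat_lit 43670419615) (nat_lit 100) (nat_lit 5) (nat_lit 107) (nat_lit 5) (nat_lit 101) (nat_lit 5) (nat_lit 442) (nat_lit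 405) (nat_lit 98)) (XT.lf (nat_lit 0) (nat_lit 23737250926) (nat_lit 420) (nat_lit 28876991389) (nat_lit 504) (nat_lit 58669515857) (nat_lit 95) (nat_lit 5) (nat_lit 100) (nat_lit 5) (nat_lit 101) (nat_lit 5) (nat_lit 443) (nat_lit 405) (nat_lit 97)))) (XT.nd (nat_lit 188) (nat_lit 336) (nat_lit 0) (XT.nd (nat_lit 94) (nat_lit 420) (nat_lit 0) (XT.lf (nat_lit 0) (nat_lit 66915822814) (nat_lit 504) (nat_lit 37512426477) (nat_lit 84) (nat_lit 8981384013) (nat_lit 95) (nat_lit 5) (nat_lit 101) (nat_lit 5) (nat_lit 96) (nat_lit 5) (nat_lit 444) (nat_lit 405) (nat_lit 96)) (XT.lf (nat_lit 0) (nat_lit 14009828276) (nat_lit 420) (nat_lit 68056942934) (nat_lit 504) (nat_lit 33519904250) (nat_lit 90) (nat_lit 5) (nat_lit 95) (nat_lit 5) (nat_lit 96) (nat_lit 5) (nat_lit 445) (nat_lit 405) (nat_lit 95))) (XT.nd (nat_lit 94) (nat_lit 336) (nat_lit 0) (XT.lf (nat_lit 0) (nat_lit 67846401931) (nat_lit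 420) (nat_lit 30204391287) (nat_lit 504) (nat_lit 19766879684) (nat_lit 90) (nat_lit 5) (nat_lit 95) (nat_lit 5) (nat_lit 96) (nat_lit 5) (nat_lit 446) (nat_lit 405) (nat_lit 94)) (XT.lf (nat_lit 0) (nat_lit 3159373869) (nat_lit 336) (nat_lit 111469516630) (nat_lit 420) (nat_lit 5483273494) (nat_lit 86) (nat_lit 5) (nat_lit 90) (nat_lit 5) (nat_lit 91) (nat_lit 5) (nat_lit 447) (nat_lit 405) (nat_lit 93))))) (XT.nd (nat_lit 282) (nat_lit 0) (nat_lit 84) (XT.nd (nat_lit 94) (nat_lit 0) (nat_lit 0) (XT.lf (nat_lit 0) (nat_lit 623080228) (nat_lit 0) (nat_lit 623080228) (nat_lit 1260) (nat_lit 28982778840) (nat_lit 161) (nat_lit 5) (nat_lit 161) (nat_lit 3) (nat_lit 176) (nat_lit 3) (nat_lit 406) (nat_lit 406) (nat_lit 133)) (XT.nd (nat_lit 94) (nat_lit 0) (nat_lit 0) (XT.lf (nat_lit 0) (nat_lit 2792661863) (nat_lit 1260) (nat_lit 33452467616) (nat_lit 1344) (nat_lit 25111698174) (nat_lit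 161) (nat_lit 5) (nat_lit 176) (nat_lit 3) (nat_lit 177) (nat_lit 5) (nat_lit 407) (nat_lit 406) (nat_lit 132)) (XT.lf (nat_lit 0) (nat_lit 3113700194) (nat_lit 1260) (nat_lit 6933128867) (nat_lit 1344) (nat_lit 52235566697) (nat_lit 161) (nat_lit 5) (nat_lit 176) (nat_lit 3) (nat_lit 177) (nat_lit 5) (nat_lit 408) (nat_lit 406) (nat_lit 131)))) (XT.nd (nat_lit 188) (nat_lit 0) (nat_lit 84) (XT.nd (nat_lit 94) (nat_lit 0) (nat_lit 0) (XT.lf (nat_lit 0) (nat_lit 3808349742) (nat_lit 1260) (nat_lit 42607470515) (nat_lit 1344) (nat_lit 16808992400) (nat_lit 162) (nat_lit 5) (nat_lit 177) (nat_lit 5) (nat_lit 178) (nat_lit 5) (nat_lit 409) (nat_lit 406) (nat_lit 130)) (XT.lf (nat_lit 0) (nat_lit 4693402263) (nat_lit 1260) (nat_lit 15157478652) (nat_lit 1344) (nat_lit 44339535362) (nat_lit 162) (nat_lit 5) (nat_lit 177) (nat_lit 5) (nat_lit 178) (nat_lit 5) (nat_lit 410) (nat_lit 406) (nat_lit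 129))) (XT.nd (nat_lit 94) (nat_lit 0) (nat_lit 0) (XT.lf (nat_lit 0) (nat_lit 5806470819) (nat_lit 1260) (nat_lit 51877934266) (nat_lit 1344) (nat_lit 7494540077) (nat_lit 163) (nat_lit 5) (nat_lit 178) (nat_lit 5) (nat_lit 179) (nat_lit 5) (nat_lit 411) (nat_lit 406) (nat_lit 128)) (XT.lf (nat_lit 0) (nat_lit 7303471028) (nat_lit 1260) (nat_lit 23466995037) (nat_lit 1344) (nat_lit 35416148714) (nat_lit 163) (nat_lit 5) (nat_lit 178) (nat_lit 5) (nat_lit 179) (nat_lit 5) (nat_lit 412) (nat_lit 406) (nat_lit 127)))))) (XT.nd (nat_lit 658) (nat_lit 840) (nat_lit 0) (XT.nd (nat_lit 282) (nat_lit 0) (nat_lit 168) (XT.nd (nat_lit 94) (nat_lit 0) (nat_lit 84) (XT.lf (nat_lit 84) (nat_lit 5911266443) (nat_lit 0) (nat_lit 2990374359) (nat_lit 1344) (nat_lit 58321186920) (nat_lit 164) (nat_lit 5) (nat_lit 163) (nat_lit 5) (nat_lit 179) (nat_lit 5) (nat_lit 413) (nat_lit 406) (nat_lit 126)) (XT.nd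 (nat_lit 94) (nat_lit 0) (nat_lit 0) (XT.lf (nat_lit 0) (nat_lit 11032829418) (nat_lit 1260) (nat_lit 31880115056) (nat_lit 1344) (nat_lit 25362631362) (nat_lit 164) (nat_lit 5) (nat_lit 179) (nat_lit 5) (nat_lit 180) (nat_lit 5) (nat_lit 414) (nat_lit 406) (nat_lit 125)) (XT.lf (nat_lit 0) (nat_lit 13257029089) (nat_lit 1260) (nat_lit 1595694213) (nat_lit 1344) (nat_lit 54506311796) (nat_lit 164) (nat_lit 5) (nat_lit 179) (nat_lit 5) (nat_lit 180) (nat_lit 5) (nat_lit 415) (nat_lit 406) (nat_lit 124)))) (XT.nd (nat_lit 188) (nat_lit 0) (nat_lit 84) (XT.nd (nat_lit 94) (nat_lit 0) (nat_lit 0) (XT.lf (nat_lit 0) (nat_lit 15975528791) (nat_lit 1260) (nat_lit 40418289451) (nat_lit 1344) (nat_lit 14068353611) (nat_lit 165) (nat_lit 5) (nat_lit 180) (nat_lit 5) (nat_lit 181) (nat_lit 5) (nat_lit 416) (nat_lit 406) (nat_lit 123)) (XT.lf (nat_lit 0) (nat_lit 18938409537) (nat_lit 1260) (nat_lit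 9080143756) (nat_lit 1344) (nat_lit 43574965547) (nat_lit 165) (nat_lit 5) (nat_lit 180) (nat_lit 5) (nat_lit 181) (nat_lit 5) (nat_lit 417) (nat_lit 406) (nat_lit 122))) (XT.nd (nat_lit 94) (nat_lit 0) (nat_lit 0) (XT.lf (nat_lit 0) (nat_lit 22230981986) (nat_lit 1260) (nat_lit 49106389962) (nat_lit 1344) (nat_lit 1414211013) (nat_lit 166) (nat_lit 5) (nat_lit 181) (nat_lit 5) (nat_lit 182) (nat_lit 5) (nat_lit 418) (nat_lit 406) (nat_lit 121)) (XT.lf (nat_lit 0) (nat_lit 25991865739) (nat_lit 1260) (nat_lit 16681900663) (nat_lit 1344) (nat_lit 31259537440) (nat_lit 166) (nat_lit 5) (nat_lit 181) (nat_lit 5) (nat_lit 182) (nat_lit 5) (nat_lit 419) (nat_lit 406) (nat_lit 120))))) (XT.nd (nat_lit 282) (nat_lit 1092) (nat_lit 0) (XT.nd (nat_lit 94) (nat_lit 0) (nat_lit 84) (XT.lf (nat_lit 84) (nat_lit 17047627569) (nat_lit 0) (nat_lit 12981357770) (nat_lit 1344) (nat_lit 45116589562) (nat_lit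 167) (nat_lit 5) (nat_lit 166) (nat_lit 5) (nat_lit 182) (nat_lit 5) (nat_lit 420) (nat_lit 406) (nat_lit 119)) (XT.nd (nat_lit 94) (nat_lit 0) (nat_lit 0) (XT.lf (nat_lit 0) (nat_lit 34526088536) (nat_lit 1260) (nat_lit 24429391779) (nat_lit 1344) (nat_lit 17428568486) (nat_lit 167) (nat_lit 5) (nat_lit 182) (nat_lit 5) (nat_lit 183) (nat_lit 5) (nat_lit 421) (nat_lit 406) (nat_lit 118)) (XT.lf (nat_lit 84) (nat_lit 10321749153) (nat_lit 0) (nat_lit 29063664259) (nat_lit 1344) (nat_lit 38267445033) (nat_lit 168) (nat_lit 5) (nat_lit 167) (nat_lit 5) (nat_lit 183) (nat_lit 5) (nat_lit 422) (nat_lit 406) (nat_lit 117)))) (XT.nd (nat_lit 188) (nat_lit 0) (nat_lit 0) (XT.nd (nat_lit 94) (nat_lit 1260) (nat_lit 0) (XT.lf (nat_lit 0) (nat_lit 44655801732) (nat_lit 1260) (nat_lit 32355520492) (nat_lit 84) (nat_lit 1940452406) (nat_lit 168) (nat_lit 5) (nat_lit 183) (nat_lit 5) (nat_lit 169)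 (nat_lit 5) (nat_lit 423) (nat_lit 406) (nat_lit 116)) (XT.lf (nat_lit 0) (nat_lit 3448512185) (nat_lit 1260) (nat_lit 46956281680) (nat_lit 1344) (nat_lit 29875250412) (nat_lit 153) (nat_lit 5) (nat_lit 168) (nat_lit 5) (nat_lit 169) (nat_lit 5) (nat_lit 424) (nat_lit 406) (nat_lit 115))) (XT.nd (nat_lit 94) (nat_lit 0) (nat_lit 0) (XT.lf (nat_lit 0) (nat_lit 40989568171) (nat_lit 1260) (nat_lit 15663007525) (nat_lit 1344) (nat_lit 24985797437) (nat_lit 153) (nat_lit 5) (nat_lit 168) (nat_lit 5) (nat_lit 169) (nat_lit 5) (nat_lit 425) (nat_lit 406) (nat_lit 114)) (XT.lf (nat_lit 0) (nat_lit 63246667950) (nat_lit 1344) (nat_lit 3540224874) (nat_lit 84) (nat_lit 16245793419) (nat_lit 153) (nat_lit 5) (nat_lit 169) (nat_lit 5) (nat_lit 154) (nat_lit 5) (nat_lit 426) (nat_lit 406) (nat_lit 113))))))))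
noncomputable def xc238 : XT := (XT.nd (nat_lit 57998) (nat_lit 0) (nat_lit 1848) (XT.nd (nat_lit 1222) (nat_lit 1848) (nat_lit 0) (XT.nd (nat_lit 564) (nat_lit 1596) (nat_lit 0) (XT.nd (nat_lit 282) (nat_lit 672) (nat_lit 0) (XT.nd (nat_lit 94) (nat_lit 588) (nat_lit 0) (XT.lf (nat_lit 0) (nat_lit 35213325676) (nat_lit 588) (nat_lit 35318445092) (nat_lit 672) (nat_lit 13922263021) (nat_lit 146) (nat_lit 5) (nat_lit 153) (nat_lit 5) (nat_lit 154) (nat_lit 5) (nat_lit 427) (nat_lit 406) (nat_lit 112)) (XT.nd (nat_lit 94) (nat_lit 588) (nat_lit 0) (XT.lf (nat_lit 0) (nat_lit 75201710807) (nat_lit 588) (nat_lit 2869089554) (nat_lit 672) (nat_lit 7846160849) (nat_lit 146) (nat_lit 5) (nat_lit 153) (nat_lit 5) (nat_lit 154) (nat_lit 5) (nat_lit 428) (nat_lit 406) (nat_lit 111)) (XT.lf (nat_lit 0) (nat_lit 29242552287) (nat_lit 588) (nat_lit 57167882765) (nat_lit 672) (nat_lit 996109015) (nat_lit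 139) (nat_lit 5) (nat_lit 146) (nat_lit 5) (nat_lit 147) (nat_lit 5) (nat_lit 429) (nat_lit 406) (nat_lit 110)))) (XT.nd (nat_lit 94) (nat_lit 588) (nat_lit 0) (XT.lf (nat_lit 0) (nat_lit 6078522743) (nat_lit 672) (nat_lit 18406901737) (nat_lit 84) (nat_lit 64449523519) (nat_lit 138) (nat_lit 5) (nat_lit 146) (nat_lit 5) (nat_lit 139) (nat_lit 5) (nat_lit 430) (nat_lit 406) (nat_lit 109)) (XT.nd (nat_lit 94) (nat_lit 0) (nat_lit 0) (XT.lf (nat_lit 0) (nat_lit 13656435569) (nat_lit 672) (nat_lit 67611652566) (nat_lit 84) (nat_lit 9231488735) (nat_lit 131) (nat_lit 5) (nat_lit 139) (nat_lit 5) (nat_lit 132) (nat_lit 5) (nat_lit 431) (nat_lit 406) (nat_lit 108)) (XT.lf (nat_lit 0) (nat_lit 21891486047) (nat_lit 672) (nat_lit 26551266939) (nat_lit 84) (nat_lit 43655498182) (nat_lit 131) (nat_lit 5) (nat_lit 139) (nat_lit 5) (nat_lit 132) (nat_lit 5) (nat_lit 432) (nat_lit 406) (nat_lit 107)))))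 (XT.nd (nat_lit 282) (nat_lit 504) (nat_lit 0) (XT.nd (nat_lit 94) (nat_lit 504) (nat_lit 0) (XT.lf (nat_lit 0) (nat_lit 16053862204) (nat_lit 588) (nat_lit 14473711760) (nat_lit 672) (nat_lit 63212692704) (nat_lit 124) (nat_lit 5) (nat_lit 131) (nat_lit 5) (nat_lit 132) (nat_lit 5) (nat_lit 433) (nat_lit 406) (nat_lit 106)) (XT.nd (nat_lit 94) (nat_lit 504) (nat_lit 0) (XT.lf (nat_lit 0) (nat_lit 39890384667) (nat_lit 672) (nat_lit 35142274290) (nat_lit 84) (nat_lit 20384855006) (nat_lit 124) (nat_lit 5) (nat_lit 132) (nat_lit 5) (nat_lit 125) (nat_lit 5) (nat_lit 434) (nat_lit 406) (nat_lit 105)) (XT.lf (nat_lit 0) (nat_lit 8704396130) (nat_lit 504) (nat_lit 41056341978) (nat_lit 588) (nat_lit 47377541335) (nat_lit 118) (nat_lit 5) (nat_lit 124) (nat_lit 5) (nat_lit 125) (nat_lit 5) (nat_lit 435) (nat_lit 406) (nat_lit 104)))) (XT.nd (nat_lit 188) (nat_lit 0) (nat_lit 0) (XT.nd (nat_lit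 94) (nat_lit 504) (nat_lit 0) (XT.lf (nat_lit 0) (nat_lit 54586518404) (nat_lit 504) (nat_lit 5695240250) (nat_lit 588) (nat_lit 38618273044) (nat_lit 118) (nat_lit 5) (nat_lit 124) (nat_lit 5) (nat_lit 125) (nat_lit 5) (nat_lit 436) (nat_lit 406) (nat_lit 103)) (XT.lf (nat_lit 0) (nat_lit 851387484) (nat_lit 504) (nat_lit 70570267510) (nat_lit 588) (nat_lit 29283884660) (nat_lit 112) (nat_lit 5) (nat_lit 118) (nat_lit 5) (nat_lit 119) (nat_lit 5) (nat_lit 437) (nat_lit 406) (nat_lit 102))) (XT.nd (nat_lit 94) (nat_lit 0) (nat_lit 0) (XT.lf (nat_lit 0) (nat_lit 48221781148) (nat_lit 504) (nat_lit 35176985367) (nat_lit 588) (nat_lit 19151356259) (nat_lit 112) (nat_lit 5) (nat_lit 118) (nat_lit 5) (nat_lit 119) (nat_lit 5) (nat_lit 438) (nat_lit 406) (nat_lit 101)) (XT.lf (nat_lit 0) (nat_lit 95747188594) (nat_lit 588) (nat_lit 7449368866) (nat_lit 84) (nat_lit 1253126473) (nat_lit 112)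 (nat_lit 5) (nat_lit 119) (nat_lit 5) (nat_lit 113) (nat_lit 5) (nat_lit 439) (nat_lit 406) (nat_lit 100)))))) (XT.nd (nat_lit 658) (nat_lit 0) (nat_lit 0) (XT.nd (nat_lit 282) (nat_lit 840) (nat_lit 0) (XT.nd (nat_lit 94) (nat_lit 504) (nat_lit 0) (XT.lf (nat_lit 0) (nat_lit 2771953661) (nat_lit 504) (nat_lit 65117912771) (nat_lit 84) (nat_lit 38493202409) (nat_lit 106) (nat_lit 5) (nat_lit 112) (nat_lit 5) (nat_lit 107) (nat_lit 5) (nat_lit 440) (nat_lit 406) (nat_lit 99)) (XT.nd (nat_lit 94) (nat_lit 504) (nat_lit 0) (XT.lf (nat_lit 0) (nat_lit 14491415185) (nat_lit 504) (nat_lit 16865604791) (nat_lit 84) (nat_lit 77012580125) (nat_lit 106) (nat_lit 5) (nat_lit 112) (nat_lit 5) (nat_lit 107) (nat_lit 5) (nat_lit 441) (nat_lit 406) (nat_lit 98)) (XT.lf (nat_lit 0) (nat_lit 26947567280) (nat_lit 588) (nat_lit 76982131670) (nat_lit 84) (nat_lit 6474475558) (nat_lit 100) (nat_lit 5) (nat_lit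 107) (nat_lit 5) (nat_lit 101) (nat_lit 5) (nat_lit 442) (nat_lit 406) (nat_lit 97)))) (XT.nd (nat_lit 188) (nat_lit 420) (nat_lit 0) (XT.nd (nat_lit 94) (nat_lit 420) (nat_lit 0) (XT.lf (nat_lit 0) (nat_lit 40259599649) (nat_lit 588) (nat_lit 27243095591) (nat_lit 84) (nat_lit 44982625433) (nat_lit 100) (nat_lit 5) (nat_lit 107) (nat_lit 5) (nat_lit 101) (nat_lit 5) (nat_lit 443) (nat_lit 406) (nat_lit 96)) (XT.lf (nat_lit 0) (nat_lit 24465209901) (nat_lit 420) (nat_lit 29740699782) (nat_lit 504) (nat_lit 60415944426) (nat_lit 95) (nat_lit 5) (nat_lit 100) (nat_lit 5) (nat_lit 101) (nat_lit 5) (nat_lit 444) (nat_lit 406) (nat_lit 95))) (XT.nd (nat_lit 94) (nat_lit 420) (nat_lit 0) (XT.lf (nat_lit 0) (nat_lit 68936176240) (nat_lit 504) (nat_lit 38622038834) (nat_lit 84) (nat_lit 9253301831) (nat_lit 95) (nat_lit 5) (nat_lit 101) (nat_lit 5) (nat_lit 96) (nat_lit 5) (nat_lit 445) (nat_lit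 406) (nat_lit 94)) (XT.lf (nat_lit 0) (nat_lit 14445729048) (nat_lit 420) (nat_lit 70095698946) (nat_lit 504) (nat_lit 34512449641) (nat_lit 90) (nat_lit 5) (nat_lit 95) (nat_lit 5) (nat_lit 96) (nat_lit 5) (nat_lit 446) (nat_lit 406) (nat_lit 93))))) (XT.nd (nat_lit 55742) (nat_lit 0) (nat_lit 5964) (XT.nd (nat_lit 55554) (nat_lit 0) (nat_lit 5964) (XT.lf (nat_lit 0) (nat_lit 69896945371) (nat_lit 420) (nat_lit 31107656738) (nat_lit 504) (nat_lit 20347214486) (nat_lit 90) (nat_lit 5) (nat_lit 95) (nat_lit 5) (nat_lit 96) (nat_lit 5) (nat_lit 447) (nat_lit 406) (nat_lit 92)) (XT.nd (nat_lit 94) (nat_lit 0) (nat_lit 0) (XT.lf (nat_lit 0) (nat_lit 650073575) (nat_lit 0) (nat_lit 650073575) (nat_lit 1260) (nat_lit 29835132126) (nat_lit 161) (nat_lit 5) (nat_lit 161) (nat_lit 3) (nat_lit 176) (nat_lit 3) (nat_lit 407) (nat_lit 407) (nat_lit 131)) (XT.lf (nat_lit 0) (nat_lit 2908523441) (nat_lit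 1260) (nat_lit 34438742746) (nat_lit 1344) (nat_lit 25849245316) (nat_lit 161) (nat_lit 5) (nat_lit 176) (nat_lit 3) (nat_lit 177) (nat_lit 5) (nat_lit 408) (nat_lit 407) (nat_lit 130)))) (XT.nd (nat_lit 188) (nat_lit 0) (nat_lit 84) (XT.nd (nat_lit 94) (nat_lit 0) (nat_lit 84) (XT.lf (nat_lit 0) (nat_lit 3238258503) (nat_lit 1260) (nat_lit 7124327686) (nat_lit 1344) (nat_lit 53787290199) (nat_lit 161) (nat_lit 5) (nat_lit 176) (nat_lit 3) (nat_lit 177) (nat_lit 5) (nat_lit 409) (nat_lit 407) (nat_lit 129)) (XT.lf (nat_lit 0) (nat_lit 3952867834) (nat_lit 1260) (nat_lit 43867964712) (nat_lit 1344) (nat_lit 17299761294) (nat_lit 162) (nat_lit 5) (nat_lit 177) (nat_lit 5) (nat_lit 178) (nat_lit 5) (nat_lit 410) (nat_lit 407) (nat_lit 128))) (XT.nd (nat_lit 94) (nat_lit 0) (nat_lit 84) (XT.lf (nat_lit 0) (nat_lit 4863590351) (nat_lit 1260) (nat_lit 15594989499) (nat_lit 1344) (nat_lit 45656613775)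 (nat_lit 162) (nat_lit 5) (nat_lit 177) (nat_lit 5) (nat_lit 178) (nat_lit 5) (nat_lit 411) (nat_lit 407) (nat_lit 127)) (XT.lf (nat_lit 0) (nat_lit 6009246924) (nat_lit 1260) (nat_lit 53416202740) (nat_lit 1344) (nat_lit 7707954391) (nat_lit 163) (nat_lit 5) (nat_lit 178) (nat_lit 5) (nat_lit 179) (nat_lit 5) (nat_lit 412) (nat_lit 407) (nat_lit 126))))))) (XT.nd (nat_lit 1316) (nat_lit 3444) (nat_lit 0) (XT.nd (nat_lit 658) (nat_lit 840) (nat_lit 0) (XT.nd (nat_lit 282) (nat_lit 0) (nat_lit 84) (XT.nd (nat_lit 94) (nat_lit 0) (nat_lit 0) (XT.lf (nat_lit 0) (nat_lit 7550324655) (nat_lit 1260) (nat_lit 24153461632) (nat_lit 1344) (nat_lit 36467543963) (nat_lit 163) (nat_lit 5) (nat_lit 178) (nat_lit 5) (nat_lit 179) (nat_lit 5) (nat_lit 413) (nat_lit 407) (nat_lit 125)) (XT.nd (nat_lit 94) (nat_lit 0) (nat_lit 84) (XT.lf (nat_lit 84) (nat_lit 6105975700) (nat_lit 0) (nat_lit 3089822568)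 (nat_lit 1344) (nat_lit 60042852022) (nat_lit 164) (nat_lit 5) (nat_lit 163) (nat_lit 5) (nat_lit 179) (nat_lit 5) (nat_lit 414) (nat_lit 407) (nat_lit 124)) (XT.lf (nat_lit 0) (nat_lit 11390042110) (nat_lit 1260) (nat_lit 32818725182) (nat_lit 1344) (nat_lit 26114241395) (nat_lit 164) (nat_lit 5) (nat_lit 179) (nat_lit 5) (nat_lit 180) (nat_lit 5) (nat_lit 415) (nat_lit 407) (nat_lit 123)))) (XT.nd (nat_lit 188) (nat_lit 0) (nat_lit 84) (XT.nd (nat_lit 94) (nat_lit 0) (nat_lit 84) (XT.lf (nat_lit 0) (nat_lit 13680203855) (nat_lit 1260) (nat_lit 1626289966) (nat_lit 1344) (nat_lit 56132502210) (nat_lit 164) (nat_lit 5) (nat_lit 179) (nat_lit 5) (nat_lit 180) (nat_lit 5) (nat_lit 416) (nat_lit 407) (nat_lit 122)) (XT.lf (nat_lit 0) (nat_lit 16479606516) (nat_lit 1260) (nat_lit 41612866173) (nat_lit 1344) (nat_lit 14482775107) (nat_lit 165) (nat_lit 5) (nat_lit 180) (nat_lit 5) (nat_lit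 181) (nat_lit 5) (nat_lit 417) (nat_lit 407) (nat_lit 121))) (XT.nd (nat_lit 94) (nat_lit 0) (nat_lit 84) (XT.lf (nat_lit 0) (nat_lit 19530651008) (nat_lit 1260) (nat_lit 9335099562) (nat_lit 1344) (nat_lit 44874807609) (nat_lit 165) (nat_lit 5) (nat_lit 180) (nat_lit 5) (nat_lit 181) (nat_lit 5) (nat_lit 418) (nat_lit 407) (nat_lit 120)) (XT.lf (nat_lit 0) (nat_lit 22921404755) (nat_lit 1260) (nat_lit 50561494996) (nat_lit 1344) (nat_lit 1450483618) (nat_lit 166) (nat_lit 5) (nat_lit 181) (nat_lit 5) (nat_lit 182) (nat_lit 5) (nat_lit 419) (nat_lit 407) (nat_lit 119))))) (XT.nd (nat_lit 282) (nat_lit 1092) (nat_lit 0) (XT.nd (nat_lit 94) (nat_lit 0) (nat_lit 0) (XT.lf (nat_lit 0) (nat_lit 26794430749) (nat_lit 1260) (nat_lit 17164797814) (nat_lit 1344) (nat_lit 32191349072) (nat_lit 166) (nat_lit 5) (nat_lit 181) (nat_lit 5) (nat_lit 182) (nat_lit 5) (nat_lit 420) (nat_lit 407) (nat_lit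 118)) (XT.nd (nat_lit 94) (nat_lit 0) (nat_lit 84) (XT.lf (nat_lit 84) (nat_lit 17576444110) (nat_lit 0) (nat_lit 13375722628) (nat_lit 1344) (nat_lit 46447066200) (nat_lit 167) (nat_lit 5) (nat_lit 166) (nat_lit 5) (nat_lit 182) (nat_lit 5) (nat_lit 421) (nat_lit 407) (nat_lit 117)) (XT.lf (nat_lit 0) (nat_lit 35583487217) (nat_lit 1260) (nat_lit 25144657748) (nat_lit 1344) (nat_lit 17946738125) (nat_lit 167) (nat_lit 5) (nat_lit 182) (nat_lit 5) (nat_lit 183) (nat_lit 5) (nat_lit 422) (nat_lit 407) (nat_lit 116)))) (XT.nd (nat_lit 188) (nat_lit 1176) (nat_lit 0) (XT.nd (nat_lit 94) (nat_lit 0) (nat_lit 84) (XT.lf (nat_lit 84) (nat_lit 10648844708) (nat_lit 0) (nat_lit 29939285212) (nat_lit 1344) (nat_lit 39393642088) (nat_lit 168) (nat_lit 5) (nat_lit 167) (nat_lit 5) (nat_lit 183) (nat_lit 5) (nat_lit 423) (nat_lit 407) (nat_lit 115)) (XT.lf (nat_lit 0) (nat_lit 46015979116) (nat_lit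 1260) (nat_lit 33308563832) (nat_lit 84) (nat_lit 1995133348) (nat_lit 168) (nat_lit 5) (nat_lit 183) (nat_lit 5) (nat_lit 169) (nat_lit 5) (nat_lit 424) (nat_lit 407) (nat_lit 114))) (XT.nd (nat_lit 94) (nat_lit 0) (nat_lit 0) (XT.lf (nat_lit 0) (nat_lit 3569417059) (nat_lit 1260) (nat_lit 48367594505) (nat_lit 1344) (nat_lit 30750796414) (nat_lit 153) (nat_lit 5) (nat_lit 168) (nat_lit 5) (nat_lit 169) (nat_lit 5) (nat_lit 425) (nat_lit 407) (nat_lit 113)) (XT.lf (nat_lit 0) (nat_lit 42236196486) (nat_lit 1260) (nat_lit 16135445688) (nat_lit 1344) (nat_lit 25715263098) (nat_lit 153) (nat_lit 5) (nat_lit 168) (nat_lit 5) (nat_lit 169) (nat_lit 5) (nat_lit 426) (nat_lit 407) (nat_lit 112)))))) (XT.nd (nat_lit 658) (nat_lit 1596) (nat_lit 0) (XT.nd (nat_lit 282) (nat_lit 1260) (nat_lit 0) (XT.nd (nat_lit 94) (nat_lit 588) (nat_lit 0) (XT.lf (nat_lit 0) (nat_lit 65162965770) (nat_lit 1344)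 (nat_lit 3629358982) (nat_lit 84) (nat_lit 16730741767) (nat_lit 153) (nat_lit 5) (nat_lit 169) (nat_lit 5) (nat_lit 154) (nat_lit 5) (nat_lit 427) (nat_lit 407) (nat_lit 111)) (XT.nd (nat_lit 94) (nat_lit 0) (nat_lit 0) (XT.lf (nat_lit 0) (nat_lit 36286630707) (nat_lit 588) (nat_lit 36379603050) (nat_lit 672) (nat_lit 14320833346) (nat_lit 146) (nat_lit 5) (nat_lit 153) (nat_lit 5) (nat_lit 154) (nat_lit 5) (nat_lit 428) (nat_lit 407) (nat_lit 110)) (XT.lf (nat_lit 0) (nat_lit 77474175005) (nat_lit 588) (nat_lit 2956720109) (nat_lit 672) (nat_lit 8063004349) (nat_lit 146) (nat_lit 5) (nat_lit 153) (nat_lit 5) (nat_lit 154) (nat_lit 5) (nat_lit 429) (nat_lit 407) (nat_lit 109)))) (XT.nd (nat_lit 188) (nat_lit 588) (nat_lit 0) (XT.nd (nat_lit 94) (nat_lit 84) (nat_lit 0) (XT.lf (nat_lit 0) (nat_lit 30136660637) (nat_lit 588) (nat_lit 58883682047) (nat_lit 672) (nat_lit 1007839322) (nat_lit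 139) (nat_lit 5) (nat_lit 146) (nat_lit 5) (nat_lit 147) (nat_lit 5) (nat_lit 430) (nat_lit 407) (nat_lit 108)) (XT.lf (nat_lit 0) (nat_lit 6278158749) (nat_lit 672) (nat_lit 18942394548) (nat_lit 84) (nat_lit 66381895938) (nat_lit 138) (nat_lit 5) (nat_lit 146) (nat_lit 5) (nat_lit 139) (nat_lit 5) (nat_lit 431) (nat_lit 407) (nat_lit 107))) (XT.nd (nat_lit 94) (nat_lit 0) (nat_lit 0) (XT.lf (nat_lit 0) (nat_lit 14083061035) (nat_lit 672) (nat_lit 69622912023) (nat_lit 84) (nat_lit 9508055193) (nat_lit 131) (nat_lit 5) (nat_lit 139) (nat_lit 5) (nat_lit 132) (nat_lit 5) (nat_lit 432) (nat_lit 407) (nat_lit 106)) (XT.lf (nat_lit 0) (nat_lit 22564669850) (nat_lit 672) (nat_lit 27331212598) (nat_lit 84) (nat_lit 44964795939) (nat_lit 131) (nat_lit 5) (nat_lit 139) (nat_lit 5) (nat_lit 132) (nat_lit 5) (nat_lit 433) (nat_lit 407) (nat_lit 105))))) (XT.nd (nat_lit 282) (nat_lit 504) (nat_lit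 0) (XT.nd (nat_lit 94) (nat_lit 504) (nat_lit 0) (XT.lf (nat_lit 0) (nat_lit 16551907750) (nat_lit 588) (nat_lit 14907611775) (nat_lit 672) (nat_lit 65092445244) (nat_lit 124) (nat_lit 5) (nat_lit 131) (nat_lit 5) (nat_lit 132) (nat_lit 5) (nat_lit 434) (nat_lit 407) (nat_lit 104)) (XT.nd (nat_lit 94) (nat_lit 504) (nat_lit 0) (XT.lf (nat_lit 0) (nat_lit 41102747988) (nat_lit 672) (nat_lit 36180099232) (nat_lit 84) (nat_lit 20996697028) (nat_lit 124) (nat_lit 5) (nat_lit 132) (nat_lit 5) (nat_lit 125) (nat_lit 5) (nat_lit 435) (nat_lit 407) (nat_lit 103)) (XT.lf (nat_lit 0) (nat_lit 8981810093) (nat_lit 504) (nat_lit 42287102576) (nat_lit 588) (nat_lit 48783029749) (nat_lit 118) (nat_lit 5) (nat_lit 124) (nat_lit 5) (nat_lit 125) (nat_lit 5) (nat_lit 436) (nat_lit 407) (nat_lit 102)))) (XT.nd (nat_lit 188) (nat_lit 0) (nat_lit 0) (XT.nd (nat_lit 94) (nat_lit 504) (nat_lit 0) (XT.lf (nat_lit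 0) (nat_lit 56239921800) (nat_lit 504) (nat_lit 5865194873) (nat_lit 588) (nat_lit 39761444705) (nat_lit 118) (nat_lit 5) (nat_lit 124) (nat_lit 5) (nat_lit 125) (nat_lit 5) (nat_lit 437) (nat_lit 407) (nat_lit 101)) (XT.lf (nat_lit 0) (nat_lit 893040032) (nat_lit 504) (nat_lit 72685899028) (nat_lit 588) (nat_lit 30147304339) (nat_lit 112) (nat_lit 5) (nat_lit 118) (nat_lit 5) (nat_lit 119) (nat_lit 5) (nat_lit 438) (nat_lit 407) (nat_lit 100))) (XT.nd (nat_lit 94) (nat_lit 0) (nat_lit 0) (XT.lf (nat_lit 0) (nat_lit 49684076256) (nat_lit 504) (nat_lit 36230861426) (nat_lit 588) (nat_lit 19711239801) (nat_lit 112) (nat_lit 5) (nat_lit 118) (nat_lit 5) (nat_lit 119) (nat_lit 5) (nat_lit 439) (nat_lit 407) (nat_lit 99)) (XT.lf (nat_lit 0) (nat_lit 98633411972) (nat_lit 588) (nat_lit 7657241322) (nat_lit 84) (nat_lit 1292084858) (nat_lit 112) (nat_lit 5) (nat_lit 119) (nat_lit 5) (nat_lit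 113) (nat_lit 5) (nat_lit 440) (nat_lit 407) (nat_lit 98))))))))
noncomputable def xc239 : XT := (XT.nd (nat_lit 58186) (nat_lit 0) (nat_lit 420) (XT.nd (nat_lit 56870) (nat_lit 0) (nat_lit 5292) (XT.nd (nat_lit 56212) (nat_lit 0) (nat_lit 5964) (XT.nd (nat_lit 282) (nat_lit 840) (nat_lit 0) (XT.nd (nat_lit 94) (nat_lit 504) (nat_lit 0) (XT.lf (nat_lit 0) (nat_lit 2868821598) (nat_lit 504) (nat_lit 67055700928) (nat_lit 84) (nat_lit 39649606301) (nat_lit 106) (nat_lit 5) (nat_lit 112) (nat_lit 5) (nat_lit 107) (nat_lit 5) (nat_lit 441) (nat_lit 407) (nat_lit 97)) (XT.nd (nat_lit 94) (nat_lit 504) (nat_lit 0) (XT.lf (nat_lit 0) (nat_lit 14939467667) (nat_lit 504) (nat_lit 17356282424) (nat_lit 84) (nat_lit 79324518519) (nat_lit 106) (nat_lit 5) (nat_lit 112) (nat_lit 5) (nat_lit 107) (nat_lit 5) (nat_lit 442) (nat_lit 407) (nat_lit 96)) (XT.lf (nat_lit 0) (nat_lit 27769082120) (nat_lit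 588) (nat_lit 79276063297) (nat_lit 84) (nat_lit 6670742086) (nat_lit 100) (nat_lit 5) (nat_lit 107) (nat_lit 5) (nat_lit 101) (nat_lit 5) (nat_lit 443) (nat_lit 407) (nat_lit 95)))) (XT.nd (nat_lit 188) (nat_lit 420) (nat_lit 0) (XT.nd (nat_lit 94) (nat_lit 420) (nat_lit 0) (XT.lf (nat_lit 0) (nat_lit 41480094261) (nat_lit 588) (nat_lit 28045308533) (nat_lit 84) (nat_lit 46334077266) (nat_lit 100) (nat_lit 5) (nat_lit 107) (nat_lit 5) (nat_lit 101) (nat_lit 5) (nat_lit 444) (nat_lit 407) (nat_lit 94)) (XT.lf (nat_lit 0) (nat_lit 25214098281) (nat_lit 420) (nat_lit 30630468755) (nat_lit 504) (nat_lit 62215549813) (nat_lit 95) (nat_lit 5) (nat_lit 100) (nat_lit 5) (nat_lit 101) (nat_lit 5) (nat_lit 445) (nat_lit 407) (nat_lit 93))) (XT.nd (nat_lit 94) (nat_lit 420) (nat_lit 0) (XT.lf (nat_lit 0) (nat_lit 71016400977) (nat_lit 504) (nat_lit 39765844275) (nat_lit 84) (nat_lit 9533235034)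 (nat_lit 95) (nat_lit 5) (nat_lit 101) (nat_lit 5) (nat_lit 96) (nat_lit 5) (nat_lit 446) (nat_lit 407) (nat_lit 92)) (XT.lf (nat_lit 0) (nat_lit 14893810998) (nat_lit 420) (nat_lit 72195787110) (nat_lit 504) (nat_lit 35535520617) (nat_lit 90) (nat_lit 5) (nat_lit 95) (nat_lit 5) (nat_lit 96) (nat_lit 5) (nat_lit 447) (nat_lit 407) (nat_lit 91))))) (XT.nd (nat_lit 282) (nat_lit 0) (nat_lit 84) (XT.nd (nat_lit 94) (nat_lit 0) (nat_lit 0) (XT.lf (nat_lit 0) (nat_lit 677400214) (nat_lit 0) (nat_lit 677400214) (nat_lit 1260) (nat_lit 30714039347) (nat_lit 161) (nat_lit 5) (nat_lit 161) (nat_lit 3) (nat_lit 176) (nat_lit 3) (nat_lit 408) (nat_lit 408) (nat_lit 129)) (XT.nd (nat_lit 94) (nat_lit 0) (nat_lit 0) (XT.lf (nat_lit 0) (nat_lit 3026019244) (nat_lit 1260) (nat_lit 35455599157) (nat_lit 1344) (nat_lit 26609826074) (nat_lit 161) (nat_lit 5) (nat_lit 176) (nat_lit 3) (nat_lit 177) (nat_lit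 5) (nat_lit 409) (nat_lit 408) (nat_lit 128)) (XT.lf (nat_lit 0) (nat_lit 3364765578) (nat_lit 1260) (nat_lit 7322226574) (nat_lit 1344) (nat_lit 55386446186) (nat_lit 161) (nat_lit 5) (nat_lit 176) (nat_lit 3) (nat_lit 177) (nat_lit 5) (nat_lit 410) (nat_lit 408) (nat_lit 127)))) (XT.nd (nat_lit 188) (nat_lit 0) (nat_lit 84) (XT.nd (nat_lit 94) (nat_lit 0) (nat_lit 0) (XT.lf (nat_lit 0) (nat_lit 4099983985) (nat_lit 1260) (nat_lit 45167291504) (nat_lit 1344) (nat_lit 17806028261) (nat_lit 162) (nat_lit 5) (nat_lit 177) (nat_lit 5) (nat_lit 178) (nat_lit 5) (nat_lit 411) (nat_lit 408) (nat_lit 126)) (XT.lf (nat_lit 0) (nat_lit 5037197202) (nat_lit 1260) (nat_lit 16046613796) (nat_lit 1344) (nat_lit 47013956973) (nat_lit 162) (nat_lit 5) (nat_lit 177) (nat_lit 5) (nat_lit 178) (nat_lit 5) (nat_lit 412) (nat_lit 408) (nat_lit 125))) (XT.nd (nat_lit 94) (nat_lit 0) (nat_lit 0) (XT.lf (nat_lit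 0) (nat_lit 6216465590) (nat_lit 1260) (nat_lit 55001656535) (nat_lit 1344) (nat_lit 7928426797) (nat_lit 163) (nat_lit 5) (nat_lit 178) (nat_lit 5) (nat_lit 179) (nat_lit 5) (nat_lit 413) (nat_lit 408) (nat_lit 124)) (XT.lf (nat_lit 0) (nat_lit 7802990956) (nat_lit 1260) (nat_lit 24861529279) (nat_lit 1344) (nat_lit 37551117635) (nat_lit 163) (nat_lit 5) (nat_lit 178) (nat_lit 5) (nat_lit 179) (nat_lit 5) (nat_lit 414) (nat_lit 408) (nat_lit 123)))))) (XT.nd (nat_lit 658) (nat_lit 840) (nat_lit 0) (XT.nd (nat_lit 282) (nat_lit 0) (nat_lit 168) (XT.nd (nat_lit 94) (nat_lit 0) (nat_lit 84) (XT.lf (nat_lit 84) (nat_lit 6305529053) (nat_lit 0) (nat_lit 3191695281) (nat_lit 1344) (nat_lit 61817772698) (nat_lit 164) (nat_lit 5) (nat_lit 163) (nat_lit 5) (nat_lit 179) (nat_lit 5) (nat_lit 415) (nat_lit 408) (nat_lit 122)) (XT.nd (nat_lit 94) (nat_lit 0) (nat_lit 0) (XT.lf (nat_lit 0) (nat_lit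 11756465599) (nat_lit 1260) (nat_lit 33786515022) (nat_lit 1344) (nat_lit 26888931803) (nat_lit 164) (nat_lit 5) (nat_lit 179) (nat_lit 5) (nat_lit 180) (nat_lit 5) (nat_lit 416) (nat_lit 408) (nat_lit 121)) (XT.lf (nat_lit 0) (nat_lit 14114612131) (nat_lit 1260) (nat_lit 1658795252) (nat_lit 1344) (nat_lit 57807994913) (nat_lit 164) (nat_lit 5) (nat_lit 179) (nat_lit 5) (nat_lit 180) (nat_lit 5) (nat_lit 417) (nat_lit 408) (nat_lit 120)))) (XT.nd (nat_lit 188) (nat_lit 0) (nat_lit 84) (XT.nd (nat_lit 94) (nat_lit 0) (nat_lit 0) (XT.lf (nat_lit 0) (nat_lit 16997382270) (nat_lit 1260) (nat_lit 42844311860) (nat_lit 1344) (nat_lit 14910067190) (nat_lit 165) (nat_lit 5) (nat_lit 180) (nat_lit 5) (nat_lit 181) (nat_lit 5) (nat_lit 418) (nat_lit 408) (nat_lit 119)) (XT.lf (nat_lit 0) (nat_lit 20139276907) (nat_lit 1260) (nat_lit 9598705657) (nat_lit 1344) (nat_lit 46214070118) (nat_lit 165)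 (nat_lit 5) (nat_lit 180) (nat_lit 5) (nat_lit 181) (nat_lit 5) (nat_lit 419) (nat_lit 408) (nat_lit 118))) (XT.nd (nat_lit 94) (nat_lit 0) (nat_lit 0) (XT.lf (nat_lit 0) (nat_lit 23631191596) (nat_lit 1260) (nat_lit 52061291429) (nat_lit 1344) (nat_lit 1488197650) (nat_lit 166) (nat_lit 5) (nat_lit 181) (nat_lit 5) (nat_lit 182) (nat_lit 5) (nat_lit 420) (nat_lit 408) (nat_lit 117)) (XT.lf (nat_lit 0) (nat_lit 27619763378) (nat_lit 1260) (nat_lit 17663189887) (nat_lit 1344) (nat_lit 33151458014) (nat_lit 166) (nat_lit 5) (nat_lit 181) (nat_lit 5) (nat_lit 182) (nat_lit 5) (nat_lit 421) (nat_lit 408) (nat_lit 116))))) (XT.nd (nat_lit 282) (nat_lit 1092) (nat_lit 0) (XT.nd (nat_lit 94) (nat_lit 0) (nat_lit 84) (XT.lf (nat_lit 84) (nat_lit 18120127021) (nat_lit 0) (nat_lit 13781635767) (nat_lit 1344) (nat_lit 47818778639) (nat_lit 167) (nat_lit 5) (nat_lit 166) (nat_lit 5) (nat_lit 182)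 (nat_lit 5) (nat_lit 422) (nat_lit 408) (nat_lit 115)) (XT.nd (nat_lit 94) (nat_lit 0) (nat_lit 0) (XT.lf (nat_lit 0) (nat_lit 36671367009) (nat_lit 1260) (nat_lit 25882392914) (nat_lit 1344) (nat_lit 18480721931) (nat_lit 167) (nat_lit 5) (nat_lit 182) (nat_lit 5) (nat_lit 183) (nat_lit 5) (nat_lit 423) (nat_lit 408) (nat_lit 114)) (XT.lf (nat_lit 84) (nat_lit 10984751826) (nat_lit 0) (nat_lit 30840961765) (nat_lit 1344) (nat_lit 40554877974) (nat_lit 168) (nat_lit 5) (nat_lit 167) (nat_lit 5) (nat_lit 183) (nat_lit 5) (nat_lit 424) (nat_lit 408) (nat_lit 113)))) (XT.nd (nat_lit 188) (nat_lit 0) (nat_lit 0) (XT.nd (nat_lit 94) (nat_lit 1260) (nat_lit 0) (XT.lf (nat_lit 0) (nat_lit 47415784847) (nat_lit 1260) (nat_lit 34291210062) (nat_lit 84) (nat_lit 2051657506) (nat_lit 168) (nat_lit 5) (nat_lit 183) (nat_lit 5) (nat_lit 169) (nat_lit 5) (nat_lit 425) (nat_lit 408) (nat_lit 112)) (XT.lf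 (nat_lit 0) (nat_lit 3692947405) (nat_lit 1260) (nat_lit 49821096066) (nat_lit 1344) (nat_lit 31653797721) (nat_lit 153) (nat_lit 5) (nat_lit 168) (nat_lit 5) (nat_lit 169) (nat_lit 5) (nat_lit 426) (nat_lit 408) (nat_lit 111))) (XT.nd (nat_lit 94) (nat_lit 0) (nat_lit 0) (XT.lf (nat_lit 0) (nat_lit 43519251152) (nat_lit 1260) (nat_lit 16621910733) (nat_lit 1344) (nat_lit 26467767025) (nat_lit 153) (nat_lit 5) (nat_lit 168) (nat_lit 5) (nat_lit 169) (nat_lit 5) (nat_lit 427) (nat_lit 408) (nat_lit 110)) (XT.lf (nat_lit 0) (nat_lit 67135667714) (nat_lit 1344) (nat_lit 3722147152) (nat_lit 84) (nat_lit 17230377797) (nat_lit 153) (nat_lit 5) (nat_lit 169) (nat_lit 5) (nat_lit 154) (nat_lit 5) (nat_lit 428) (nat_lit 408) (nat_lit 109))))))) (XT.nd (nat_lit 1316) (nat_lit 924) (nat_lit 0) (XT.nd (nat_lit 658) (nat_lit 1512) (nat_lit 0) (XT.nd (nat_lit 282) (nat_lit 1260) (nat_lit 0) (XT.nd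 (nat_lit 94) (nat_lit 588) (nat_lit 0) (XT.lf (nat_lit 0) (nat_lit 37391164457) (nat_lit 588) (nat_lit 37472503635) (nat_lit 672) (nat_lit 14732457059) (nat_lit 146) (nat_lit 5) (nat_lit 153) (nat_lit 5) (nat_lit 154) (nat_lit 5) (nat_lit 429) (nat_lit 408) (nat_lit 108)) (XT.nd (nat_lit 94) (nat_lit 588) (nat_lit 0) (XT.lf (nat_lit 0) (nat_lit 79813870963) (nat_lit 588) (nat_lit 3046890153) (nat_lit 672) (nat_lit 8287417501) (nat_lit 146) (nat_lit 5) (nat_lit 153) (nat_lit 5) (nat_lit 154) (nat_lit 5) (nat_lit 430) (nat_lit 408) (nat_lit 107)) (XT.lf (nat_lit 0) (nat_lit 31056626025) (nat_lit 588) (nat_lit 60650911519) (nat_lit 672) (nat_lit 1020963592) (nat_lit 139) (nat_lit 5) (nat_lit 146) (nat_lit 5) (nat_lit 147) (nat_lit 5) (nat_lit 431) (nat_lit 408) (nat_lit 106)))) (XT.nd (nat_lit 188) (nat_lit 588) (nat_lit 0) (XT.nd (nat_lit 94) (nat_lit 588) (nat_lit 0) (XT.lf (nat_lit 0)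 (nat_lit 6482791875) (nat_lit 672) (nat_lit 19494911610) (nat_lit 84) (nat_lit 68372303437) (nat_lit 138) (nat_lit 5) (nat_lit 146) (nat_lit 5) (nat_lit 139) (nat_lit 5) (nat_lit 432) (nat_lit 408) (nat_lit 105)) (XT.lf (nat_lit 0) (nat_lit 14521513275) (nat_lit 672) (nat_lit 71695490306) (nat_lit 84) (nat_lit 9792940355) (nat_lit 131) (nat_lit 5) (nat_lit 139) (nat_lit 5) (nat_lit 132) (nat_lit 5) (nat_lit 433) (nat_lit 408) (nat_lit 104))) (XT.nd (nat_lit 94) (nat_lit 588) (nat_lit 0) (XT.lf (nat_lit 0) (nat_lit 23257105489) (nat_lit 672) (nat_lit 28135509095) (nat_lit 84) (nat_lit 46313393707) (nat_lit 131) (nat_lit 5) (nat_lit 139) (nat_lit 5) (nat_lit 132) (nat_lit 5) (nat_lit 434) (nat_lit 408) (nat_lit 103)) (XT.lf (nat_lit 0) (nat_lit 17063951531) (nat_lit 588) (nat_lit 15354546662) (nat_lit 672) (nat_lit 67029544890) (nat_lit 124) (nat_lit 5) (nat_lit 131) (nat_lit 5) (nat_lit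 132) (nat_lit 5) (nat_lit 435) (nat_lit 408) (nat_lit 102))))) (XT.nd (nat_lit 282) (nat_lit 1008) (nat_lit 0) (XT.nd (nat_lit 94) (nat_lit 504) (nat_lit 0) (XT.lf (nat_lit 0) (nat_lit 42350583732) (nat_lit 672) (nat_lit 37250002833) (nat_lit 84) (nat_lit 21626877297) (nat_lit 124) (nat_lit 5) (nat_lit 132) (nat_lit 5) (nat_lit 125) (nat_lit 5) (nat_lit 436) (nat_lit 408) (nat_lit 101)) (XT.nd (nat_lit 94) (nat_lit 0) (nat_lit 0) (XT.lf (nat_lit 0) (nat_lit 9266611816) (nat_lit 504) (nat_lit 43554839358) (nat_lit 588) (nat_lit 50231591972) (nat_lit 118) (nat_lit 5) (nat_lit 124) (nat_lit 5) (nat_lit 125) (nat_lit 5) (nat_lit 437) (nat_lit 408) (nat_lit 100)) (XT.lf (nat_lit 0) (nat_lit 57942019862) (nat_lit 504) (nat_lit 6040299947) (nat_lit 588) (nat_lit 40939794191) (nat_lit 118) (nat_lit 5) (nat_lit 124) (nat_lit 5) (nat_lit 125) (nat_lit 5) (nat_lit 438) (nat_lit 408) (nat_lit 99))))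 (XT.nd (nat_lit 188) (nat_lit 504) (nat_lit 0) (XT.nd (nat_lit 94) (nat_lit 0) (nat_lit 0) (XT.lf (nat_lit 0) (nat_lit 935017324) (nat_lit 504) (nat_lit 74865084250) (nat_lit 588) (nat_lit 31037493230) (nat_lit 112) (nat_lit 5) (nat_lit 118) (nat_lit 5) (nat_lit 119) (nat_lit 5) (nat_lit 439) (nat_lit 408) (nat_lit 98)) (XT.lf (nat_lit 0) (nat_lit 51189342321) (nat_lit 504) (nat_lit 37316436057) (nat_lit 588) (nat_lit 20288761229) (nat_lit 112) (nat_lit 5) (nat_lit 118) (nat_lit 5) (nat_lit 119) (nat_lit 5) (nat_lit 440) (nat_lit 408) (nat_lit 97))) (XT.nd (nat_lit 94) (nat_lit 504) (nat_lit 0) (XT.lf (nat_lit 0) (nat_lit 101605429432) (nat_lit 588) (nat_lit 7872245950) (nat_lit 84) (nat_lit 1332133662) (nat_lit 112) (nat_lit 5) (nat_lit 119) (nat_lit 5) (nat_lit 113) (nat_lit 5) (nat_lit 441) (nat_lit 408) (nat_lit 96)) (XT.lf (nat_lit 0) (nat_lit 2967808602) (nat_lit 504) (nat_lit 69052526799)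 (nat_lit 84) (nat_lit 40840610014) (nat_lit 106) (nat_lit 5) (nat_lit 112) (nat_lit 5) (nat_lit 107) (nat_lit 5) (nat_lit 442) (nat_lit 408) (nat_lit 95)))))) (XT.nd (nat_lit 56400) (nat_lit 0) (nat_lit 5628) (XT.nd (nat_lit 282) (nat_lit 420) (nat_lit 0) (XT.nd (nat_lit 94) (nat_lit 504) (nat_lit 0) (XT.lf (nat_lit 0) (nat_lit 15400197674) (nat_lit 504) (nat_lit 17862558123) (nat_lit 84) (nat_lit 81705725457) (nat_lit 106) (nat_lit 5) (nat_lit 112) (nat_lit 5) (nat_lit 107) (nat_lit 5) (nat_lit 443) (nat_lit 408) (nat_lit 94)) (XT.nd (nat_lit 94) (nat_lit 0) (nat_lit 0) (XT.lf (nat_lit 0) (nat_lit 28614491109) (nat_lit 588) (nat_lit 81639704491) (nat_lit 84) (nat_lit 6872779950) (nat_lit 100) (nat_lit 5) (nat_lit 107) (nat_lit 5) (nat_lit 101) (nat_lit 5) (nat_lit 444) (nat_lit 408) (nat_lit 93)) (XT.lf (nat_lit 0) (nat_lit 42736474298) (nat_lit 588) (nat_lit 28872453513) (nat_lit 84)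 (nat_lit 47725959391) (nat_lit 100) (nat_lit 5) (nat_lit 107) (nat_lit 5) (nat_lit 101) (nat_lit 5) (nat_lit 445) (nat_lit 408) (nat_lit 92)))) (XT.nd (nat_lit 55930) (nat_lit 0) (nat_lit 5544) (XT.nd (nat_lit 55836) (nat_lit 0) (nat_lit 5544) (XT.lf (nat_lit 0) (nat_lit 25984596150) (nat_lit 420) (nat_lit 31547071553) (nat_lit 504) (nat_lit 64069882322) (nat_lit 95) (nat_lit 5) (nat_lit 100) (nat_lit 5) (nat_lit 101) (nat_lit 5) (nat_lit 446) (nat_lit 408) (nat_lit 91)) (XT.lf (nat_lit 0) (nat_lit 705097499) (nat_lit 0) (nat_lit 705097499) (nat_lit 1260) (nat_lit 31620240674) (nat_lit 161) (nat_lit 5) (nat_lit 161) (nat_lit 3) (nat_lit 176) (nat_lit 3) (nat_lit 409) (nat_lit 409) (nat_lit 127))) (XT.nd (nat_lit 94) (nat_lit 0) (nat_lit 0) (XT.lf (nat_lit 0) (nat_lit 3145304015) (nat_lit 1260) (nat_lit 36503897285) (nat_lit 1344) (nat_lit 27394079381) (nat_lit 161) (nat_lit 5) (nat_lit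 176) (nat_lit 3) (nat_lit 177) (nat_lit 5) (nat_lit 410) (nat_lit 409) (nat_lit 126)) (XT.lf (nat_lit 0) (nat_lit 3493382521) (nat_lit 1260) (nat_lit 7526971189) (nat_lit 1344) (nat_lit 57034407071) (nat_lit 161) (nat_lit 5) (nat_lit 176) (nat_lit 3) (nat_lit 177) (nat_lit 5) (nat_lit 411) (nat_lit 409) (nat_lit 125))))) (XT.nd (nat_lit 282) (nat_lit 0) (nat_lit 84) (XT.nd (nat_lit 94) (nat_lit 0) (nat_lit 0) (XT.lf (nat_lit 0) (nat_lit 4249875875) (nat_lit 1260) (nat_lit 46506557446) (nat_lit 1344) (nat_lit 18328213754) (nat_lit 162) (nat_lit 5) (nat_lit 177) (nat_lit 5) (nat_lit 178) (nat_lit 5) (nat_lit 412) (nat_lit 409) (nat_lit 124)) (XT.nd (nat_lit 94) (nat_lit 0) (nat_lit 84) (XT.lf (nat_lit 0) (nat_lit 5214422216) (nat_lit 1260) (nat_lit 16512718226) (nat_lit 1344) (nat_lit 48412729706) (nat_lit 162) (nat_lit 5) (nat_lit 177) (nat_lit 5) (nat_lit 178) (nat_lit 5) (nat_lit 413)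 (nat_lit 409) (nat_lit 123)) (XT.lf (nat_lit 0) (nat_lit 6428354278) (nat_lit 1260) (nat_lit 56635651666) (nat_lit 1344) (nat_lit 8156131401) (nat_lit 163) (nat_lit 5) (nat_lit 178) (nat_lit 5) (nat_lit 179) (nat_lit 5) (nat_lit 414) (nat_lit 409) (nat_lit 122)))) (XT.nd (nat_lit 188) (nat_lit 0) (nat_lit 84) (XT.nd (nat_lit 94) (nat_lit 0) (nat_lit 0) (XT.lf (nat_lit 0) (nat_lit 8061735753) (nat_lit 1260) (nat_lit 25591788202) (nat_lit 1344) (nat_lit 38667798543) (nat_lit 163) (nat_lit 5) (nat_lit 178) (nat_lit 5) (nat_lit 179) (nat_lit 5) (nat_lit 415) (nat_lit 409) (nat_lit 121)) (XT.lf (nat_lit 84) (nat_lit 6510129067) (nat_lit 0) (nat_lit 3296097318) (nat_lit 1344) (nat_lit 63647454447) (nat_lit 164) (nat_lit 5) (nat_lit 163) (nat_lit 5) (nat_lit 179) (nat_lit 5) (nat_lit 416) (nat_lit 409) (nat_lit 120))) (XT.nd (nat_lit 94) (nat_lit 0) (nat_lit 0) (XT.lf (nat_lit 0) (nat_lit 12132462636)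 (nat_lit 1260) (nat_lit 34784301334) (nat_lit 1344) (nat_lit 27687364453) (nat_lit 164) (nat_lit 5) (nat_lit 179) (nat_lit 5) (nat_lit 180) (nat_lit 5) (nat_lit 417) (nat_lit 409) (nat_lit 119)) (XT.lf (nat_lit 0) (nat_lit 14560674834) (nat_lit 1260) (nat_lit 1693210430) (nat_lit 1344) (nat_lit 59534239319) (nat_lit 164) (nat_lit 5) (nat_lit 179) (nat_lit 5) (nat_lit 180) (nat_lit 5) (nat_lit 418) (nat_lit 409) (nat_lit 118))))))))
noncomputable def xc240 : XT := (XT.nd (nat_lit 2538) (nat_lit 0) (nat_lit 0) (XT.nd (nat_lit 1222) (nat_lit 3864) (nat_lit 0) (XT.nd (nat_lit 564) (nat_lit 1596) (nat_lit 0) (XT.nd (nat_lit 282) (nat_lit 0) (nat_lit 84) (XT.nd (nat_lit 94) (nat_lit 0) (nat_lit 0) (XT.lf (nat_lit 0) (nat_lit 17529348756) (nat_lit 1260) (nat_lit 44113673360) (nat_lit 1344) (nat_lit 15350590838) (nat_lit 165) (nat_lit 5) (nat_lit 180) (nat_lit 5) (nat_lit 181) (nat_lit 5) (nat_lit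 419) (nat_lit 409) (nat_lit 117)) (XT.nd (nat_lit 94) (nat_lit 0) (nat_lit 84) (XT.lf (nat_lit 0) (nat_lit 20764858143) (nat_lit 1260) (nat_lit 9871164055) (nat_lit 1344) (nat_lit 47593911283) (nat_lit 165) (nat_lit 5) (nat_lit 180) (nat_lit 5) (nat_lit 181) (nat_lit 5) (nat_lit 420) (nat_lit 409) (nat_lit 116)) (XT.lf (nat_lit 0) (nat_lit 24361000845) (nat_lit 1260) (nat_lit 53607060404) (nat_lit 1344) (nat_lit 1527376073) (nat_lit 166) (nat_lit 5) (nat_lit 181) (nat_lit 5) (nat_lit 182) (nat_lit 5) (nat_lit 421) (nat_lit 409) (nat_lit 115)))) (XT.nd (nat_lit 94) (nat_lit 0) (nat_lit 0) (XT.lf (nat_lit 0) (nat_lit 28468621815) (nat_lit 1260) (nat_lit 18177483867) (nat_lit 1344) (nat_lit 34140693496) (nat_lit 166) (nat_lit 5) (nat_lit 181) (nat_lit 5) (nat_lit 182) (nat_lit 5) (nat_lit 422) (nat_lit 409) (nat_lit 114)) (XT.nd (nat_lit 94) (nat_lit 0) (nat_lit 84) (XT.lf (nat_lit 84) (nat_lit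 18679179590) (nat_lit 0) (nat_lit 14199459862) (nat_lit 1344) (nat_lit 49232888094) (nat_lit 167) (nat_lit 5) (nat_lit 166) (nat_lit 5) (nat_lit 182) (nat_lit 5) (nat_lit 423) (nat_lit 409) (nat_lit 113)) (XT.lf (nat_lit 0) (nat_lit 37790713578) (nat_lit 1260) (nat_lit 26643213305) (nat_lit 1344) (nat_lit 19030978881) (nat_lit 167) (nat_lit 5) (nat_lit 182) (nat_lit 5) (nat_lit 183) (nat_lit 5) (nat_lit 424) (nat_lit 409) (nat_lit 112))))) (XT.nd (nat_lit 282) (nat_lit 588) (nat_lit 0) (XT.nd (nat_lit 94) (nat_lit 1176) (nat_lit 0) (XT.lf (nat_lit 84) (nat_lit 11329792332) (nat_lit 0) (nat_lit 31769487815) (nat_lit 1344) (nat_lit 41752131932) (nat_lit 168) (nat_lit 5) (nat_lit 167) (nat_lit 5) (nat_lit 183) (nat_lit 5) (nat_lit 425) (nat_lit 409) (nat_lit 111)) (XT.nd (nat_lit 94) (nat_lit 1260) (nat_lit 0) (XT.lf (nat_lit 0) (nat_lit 48856475338) (nat_lit 1260) (nat_lit 35304289200) (nat_lit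 84) (nat_lit 2110068535) (nat_lit 168) (nat_lit 5) (nat_lit 183) (nat_lit 5) (nat_lit 169) (nat_lit 5) (nat_lit 426) (nat_lit 409) (nat_lit 110)) (XT.lf (nat_lit 0) (nat_lit 3819239489) (nat_lit 1260) (nat_lit 51318060672) (nat_lit 1344) (nat_lit 32585009744) (nat_lit 153) (nat_lit 5) (nat_lit 168) (nat_lit 5) (nat_lit 169) (nat_lit 5) (nat_lit 427) (nat_lit 409) (nat_lit 109)))) (XT.nd (nat_lit 188) (nat_lit 588) (nat_lit 0) (XT.nd (nat_lit 94) (nat_lit 0) (nat_lit 0) (XT.lf (nat_lit 0) (nat_lit 44839880785) (nat_lit 1260) (nat_lit 17122831865) (nat_lit 1344) (nat_lit 27243934104) (nat_lit 153) (nat_lit 5) (nat_lit 168) (nat_lit 5) (nat_lit 169) (nat_lit 5) (nat_lit 428) (nat_lit 409) (nat_lit 108)) (XT.lf (nat_lit 0) (nat_lit 69166528180) (nat_lit 1344) (nat_lit 3818642748) (nat_lit 84) (nat_lit 17745134146) (nat_lit 153) (nat_lit 5) (nat_lit 169) (nat_lit 5) (nat_lit 154) (nat_lit 5)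 (nat_lit 429) (nat_lit 409) (nat_lit 107))) (XT.nd (nat_lit 94) (nat_lit 0) (nat_lit 0) (XT.lf (nat_lit 0) (nat_lit 38527919495) (nat_lit 588) (nat_lit 38598104414) (nat_lit 672) (nat_lit 15157462830) (nat_lit 146) (nat_lit 5) (nat_lit 153) (nat_lit 5) (nat_lit 154) (nat_lit 5) (nat_lit 430) (nat_lit 409) (nat_lit 106)) (XT.lf (nat_lit 0) (nat_lit 82222869717) (nat_lit 588) (nat_lit 3139681003) (nat_lit 672) (nat_lit 8519566298) (nat_lit 146) (nat_lit 5) (nat_lit 153) (nat_lit 5) (nat_lit 154) (nat_lit 5) (nat_lit 431) (nat_lit 409) (nat_lit 105)))))) (XT.nd (nat_lit 658) (nat_lit 1512) (nat_lit 0) (XT.nd (nat_lit 282) (nat_lit 1092) (nat_lit 0) (XT.nd (nat_lit 94) (nat_lit 672) (nat_lit 0) (XT.lf (nat_lit 0) (nat_lit 32003279626) (nat_lit 588) (nat_lit 62471116601) (nat_lit 672) (nat_lit 1035463826) (nat_lit 139) (nat_lit 5) (nat_lit 146) (nat_lit 5) (nat_lit 147) (nat_lit 5) (nat_lit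 432) (nat_lit 409) (nat_lit 104)) (XT.nd (nat_lit 94) (nat_lit 588) (nat_lit 0) (XT.lf (nat_lit 0) (nat_lit 6692628976) (nat_lit 672) (nat_lit 20064908572) (nat_lit 84) (nat_lit 70422483400) (nat_lit 138) (nat_lit 5) (nat_lit 146) (nat_lit 5) (nat_lit 139) (nat_lit 5) (nat_lit 433) (nat_lit 409) (nat_lit 103)) (XT.lf (nat_lit 0) (nat_lit 14972202890) (nat_lit 672) (nat_lit 73831170665) (nat_lit 84) (nat_lit 10086392537) (nat_lit 131) (nat_lit 5) (nat_lit 139) (nat_lit 5) (nat_lit 132) (nat_lit 5) (nat_lit 434) (nat_lit 409) (nat_lit 102)))) (XT.nd (nat_lit 188) (nat_lit 504) (nat_lit 0) (XT.nd (nat_lit 94) (nat_lit 588) (nat_lit 0) (XT.lf (nat_lit 0) (nat_lit 23969424689) (nat_lit 672) (nat_lit 28964832280) (nat_lit 84) (nat_lit 47702469276) (nat_lit 131) (nat_lit 5) (nat_lit 139) (nat_lit 5) (nat_lit 132) (nat_lit 5) (nat_lit 435) (nat_lit 409) (nat_lit 101)) (XT.lf (nat_lit 0) (nat_lit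 17590467634) (nat_lit 588) (nat_lit 15814906443) (nat_lit 672) (nat_lit 69025657260) (nat_lit 124) (nat_lit 5) (nat_lit 131) (nat_lit 5) (nat_lit 132) (nat_lit 5) (nat_lit 436) (nat_lit 409) (nat_lit 100))) (XT.nd (nat_lit 94) (nat_lit 504) (nat_lit 0) (XT.lf (nat_lit 0) (nat_lit 43635007648) (nat_lit 672) (nat_lit 38352893270) (nat_lit 84) (nat_lit 22275946938) (nat_lit 124) (nat_lit 5) (nat_lit 132) (nat_lit 5) (nat_lit 125) (nat_lit 5) (nat_lit 437) (nat_lit 409) (nat_lit 99)) (XT.lf (nat_lit 0) (nat_lit 9559076587) (nat_lit 504) (nat_lit 44860658546) (nat_lit 588) (nat_lit 51724468028) (nat_lit 118) (nat_lit 5) (nat_lit 124) (nat_lit 5) (nat_lit 125) (nat_lit 5) (nat_lit 438) (nat_lit 409) (nat_lit 98))))) (XT.nd (nat_lit 282) (nat_lit 1008) (nat_lit 0) (XT.nd (nat_lit 94) (nat_lit 504) (nat_lit 0) (XT.lf (nat_lit 0) (nat_lit 59694325522) (nat_lit 504) (nat_lit 6220707012) (nat_lit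 588) (nat_lit 42154326169) (nat_lit 118) (nat_lit 5) (nat_lit 124) (nat_lit 5) (nat_lit 125) (nat_lit 5) (nat_lit 439) (nat_lit 409) (nat_lit 97)) (XT.nd (nat_lit 94) (nat_lit 0) (nat_lit 0) (XT.lf (nat_lit 0) (nat_lit 977382191) (nat_lit 504) (nat_lit 77109724920) (nat_lit 588) (nat_lit 31955204662) (nat_lit 112) (nat_lit 5) (nat_lit 118) (nat_lit 5) (nat_lit 119) (nat_lit 5) (nat_lit 440) (nat_lit 409) (nat_lit 96)) (XT.lf (nat_lit 0) (nat_lit 52738920015) (nat_lit 504) (nat_lit 38434655491) (nat_lit 588) (nat_lit 20884401381) (nat_lit 112) (nat_lit 5) (nat_lit 118) (nat_lit 5) (nat_lit 119) (nat_lit 5) (nat_lit 441) (nat_lit 409) (nat_lit 95)))) (XT.nd (nat_lit 188) (nat_lit 504) (nat_lit 0) (XT.nd (nat_lit 94) (nat_lit 504) (nat_lit 0) (XT.lf (nat_lit 0) (nat_lit 104665860295) (nat_lit 588) (nat_lit 8094545281) (nat_lit 84) (nat_lit 1373310094) (nat_lit 112) (nat_lit 5) (nat_lit 119)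 (nat_lit 5) (nat_lit 113) (nat_lit 5) (nat_lit 442) (nat_lit 409) (nat_lit 94)) (XT.lf (nat_lit 0) (nat_lit 3069023420) (nat_lit 504) (nat_lit 71110109619) (nat_lit 84) (nat_lit 42067256841) (nat_lit 106) (nat_lit 5) (nat_lit 112) (nat_lit 5) (nat_lit 107) (nat_lit 5) (nat_lit 443) (nat_lit 409) (nat_lit 93))) (XT.nd (nat_lit 94) (nat_lit 504) (nat_lit 0) (XT.lf (nat_lit 0) (nat_lit 15874029390) (nat_lit 504) (nat_lit 18384849445) (nat_lit 84) (nat_lit 84158284140) (nat_lit 106) (nat_lit 5) (nat_lit 112) (nat_lit 5) (nat_lit 107) (nat_lit 5) (nat_lit 444) (nat_lit 409) (nat_lit 92)) (XT.lf (nat_lit 0) (nat_lit 29484554202) (nat_lit 588) (nat_lit 84075095358) (nat_lit 84) (nat_lit 7080768987) (nat_lit 100) (nat_lit 5) (nat_lit 107) (nat_lit 5) (nat_lit 101) (nat_lit 5) (nat_lit 445) (nat_lit 409) (nat_lit 91))))))) (XT.nd (nat_lit 57152) (nat_lit 0) (nat_lit 2604) (XT.nd (nat_lit 56494)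 (nat_lit 0) (nat_lit 5292) (XT.nd (nat_lit 56118) (nat_lit 0) (nat_lit 5124) (XT.nd (nat_lit 55930) (nat_lit 0) (nat_lit 5124) (XT.lf (nat_lit 0) (nat_lit 44029858196) (nat_lit 588) (nat_lit 29725228800) (nat_lit 84) (nat_lit 49159491220) (nat_lit 100) (nat_lit 5) (nat_lit 107) (nat_lit 5) (nat_lit 101) (nat_lit 5) (nat_lit 446) (nat_lit 409) (nat_lit 90)) (XT.nd (nat_lit 94) (nat_lit 0) (nat_lit 0) (XT.lf (nat_lit 0) (nat_lit 733202331) (nat_lit 0) (nat_lit 733202331) (nat_lit 1260) (nat_lit 32554501723) (nat_lit 161) (nat_lit 5) (nat_lit 161) (nat_lit 3) (nat_lit 176) (nat_lit 3) (nat_lit 410) (nat_lit 410) (nat_lit 125)) (XT.lf (nat_lit 0) (nat_lit 3266531073) (nat_lit 1260) (nat_lit 37584526649) (nat_lit 1344) (nat_lit 28202666326) (nat_lit 161) (nat_lit 5) (nat_lit 176) (nat_lit 3) (nat_lit 177) (nat_lit 5) (nat_lit 411) (nat_lit 410) (nat_lit 124)))) (XT.nd (nat_lit 188) (nat_lit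 0) (nat_lit 84) (XT.nd (nat_lit 94) (nat_lit 0) (nat_lit 84) (XT.lf (nat_lit 0) (nat_lit 3624269372) (nat_lit 1260) (nat_lit 7738714737) (nat_lit 1344) (nat_lit 58732589345) (nat_lit 161) (nat_lit 5) (nat_lit 176) (nat_lit 3) (nat_lit 177) (nat_lit 5) (nat_lit 412) (nat_lit 410) (nat_lit 123)) (XT.lf (nat_lit 0) (nat_lit 4402720789) (nat_lit 1260) (nat_lit 47886905641) (nat_lit 1344) (nat_lit 18866753394) (nat_lit 162) (nat_lit 5) (nat_lit 177) (nat_lit 5) (nat_lit 178) (nat_lit 5) (nat_lit 413) (nat_lit 410) (nat_lit 122))) (XT.nd (nat_lit 94) (nat_lit 0) (nat_lit 84) (XT.lf (nat_lit 0) (nat_lit 5395465211) (nat_lit 1260) (nat_lit 16993683726) (nat_lit 1344) (nat_lit 49854134148) (nat_lit 162) (nat_lit 5) (nat_lit 177) (nat_lit 5) (nat_lit 178) (nat_lit 5) (nat_lit 414) (nat_lit 410) (nat_lit 121)) (XT.lf (nat_lit 0) (nat_lit 6645141865) (nat_lit 1260) (nat_lit 58319588250) (nat_lit 1344)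 (nat_lit 8391249691) (nat_lit 163) (nat_lit 5) (nat_lit 178) (nat_lit 5) (nat_lit 179) (nat_lit 5) (nat_lit 415) (nat_lit 410) (nat_lit 120))))) (XT.nd (nat_lit 282) (nat_lit 0) (nat_lit 84) (XT.nd (nat_lit 94) (nat_lit 0) (nat_lit 0) (XT.lf (nat_lit 0) (nat_lit 8326827592) (nat_lit 1260) (nat_lit 26344849647) (nat_lit 1344) (nat_lit 39818545458) (nat_lit 163) (nat_lit 5) (nat_lit 178) (nat_lit 5) (nat_lit 179) (nat_lit 5) (nat_lit 416) (nat_lit 410) (nat_lit 119)) (XT.nd (nat_lit 94) (nat_lit 0) (nat_lit 84) (XT.lf (nat_lit 84) (nat_lit 6719981099) (nat_lit 0) (nat_lit 3403134804) (nat_lit 1344) (nat_lit 65533453223) (nat_lit 164) (nat_lit 5) (nat_lit 163) (nat_lit 5) (nat_lit 179) (nat_lit 5) (nat_lit 417) (nat_lit 410) (nat_lit 118)) (XT.lf (nat_lit 0) (nat_lit 12518401893) (nat_lit 1260) (nat_lit 35812928744) (nat_lit 1344) (nat_lit 28510222822) (nat_lit 164) (nat_lit 5) (nat_lit 179)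 (nat_lit 5) (nat_lit 180) (nat_lit 5) (nat_lit 418) (nat_lit 410) (nat_lit 117)))) (XT.nd (nat_lit 188) (nat_lit 0) (nat_lit 84) (XT.nd (nat_lit 94) (nat_lit 0) (nat_lit 84) (XT.lf (nat_lit 0) (nat_lit 15018820688) (nat_lit 1260) (nat_lit 1729539141) (nat_lit 1344) (nat_lit 61312730029) (nat_lit 164) (nat_lit 5) (nat_lit 179) (nat_lit 5) (nat_lit 180) (nat_lit 5) (nat_lit 419) (nat_lit 410) (nat_lit 116)) (XT.lf (nat_lit 0) (nat_lit 18076008761) (nat_lit 1260) (nat_lit 45422032326) (nat_lit 1344) (nat_lit 15804719302) (nat_lit 165) (nat_lit 5) (nat_lit 180) (nat_lit 5) (nat_lit 181) (nat_lit 5) (nat_lit 420) (nat_lit 410) (nat_lit 115))) (XT.nd (nat_lit 94) (nat_lit 0) (nat_lit 84) (XT.lf (nat_lit 0) (nat_lit 21407978201) (nat_lit 1260) (nat_lit 10152686127) (nat_lit 1344) (nat_lit 49015525455) (nat_lit 165) (nat_lit 5) (nat_lit 180) (nat_lit 5) (nat_lit 181) (nat_lit 5) (nat_lit 421)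 (nat_lit 410) (nat_lit 114)) (XT.lf (nat_lit 0) (nat_lit 25111506147) (nat_lit 1260) (nat_lit 55200124919) (nat_lit 1344) (nat_lit 1568043707) (nat_lit 166) (nat_lit 5) (nat_lit 181) (nat_lit 5) (nat_lit 182) (nat_lit 5) (nat_lit 422) (nat_lit 410) (nat_lit 113)))))) (XT.nd (nat_lit 658) (nat_lit 1848) (nat_lit 0) (XT.nd (nat_lit 282) (nat_lit 1092) (nat_lit 0) (XT.nd (nat_lit 94) (nat_lit 0) (nat_lit 0) (XT.lf (nat_lit 0) (nat_lit 29341782680) (nat_lit 1260) (nat_lit 18708102269) (nat_lit 1344) (nat_lit 35159910758) (nat_lit 166) (nat_lit 5) (nat_lit 181) (nat_lit 5) (nat_lit 182) (nat_lit 5) (nat_lit 423) (nat_lit 410) (nat_lit 112)) (XT.nd (nat_lit 94) (nat_lit 0) (nat_lit 84) (XT.lf (nat_lit 84) (nat_lit 19254116915) (nat_lit 0) (nat_lit 14629567535) (nat_lit 1344) (nat_lit 50690594970) (nat_lit 167) (nat_lit 5) (nat_lit 166) (nat_lit 5) (nat_lit 182) (nat_lit 5) (nat_lit 424) (nat_lit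 410) (nat_lit 111)) (XT.lf (nat_lit 0) (nat_lit 38942538065) (nat_lit 1260) (nat_lit 27427756763) (nat_lit 1344) (nat_lit 19597982611) (nat_lit 167) (nat_lit 5) (nat_lit 182) (nat_lit 5) (nat_lit 183) (nat_lit 5) (nat_lit 425) (nat_lit 410) (nat_lit 110)))) (XT.nd (nat_lit 188) (nat_lit 1176) (nat_lit 0) (XT.nd (nat_lit 94) (nat_lit 0) (nat_lit 84) (XT.lf (nat_lit 84) (nat_lit 11684294407) (nat_lit 0) (nat_lit 32725680374) (nat_lit 1344) (nat_lit 42986416712) (nat_lit 168) (nat_lit 5) (nat_lit 167) (nat_lit 5) (nat_lit 183) (nat_lit 5) (nat_lit 426) (nat_lit 410) (nat_lit 109)) (XT.lf (nat_lit 0) (nat_lit 50339340816) (nat_lit 1260) (nat_lit 36348659498) (nat_lit 84) (nat_lit 2170412069) (nat_lit 168) (nat_lit 5) (nat_lit 183) (nat_lit 5) (nat_lit 169) (nat_lit 5) (nat_lit 427) (nat_lit 410) (nat_lit 108))) (XT.nd (nat_lit 94) (nat_lit 0) (nat_lit 0) (XT.lf (nat_lit 0) (nat_lit 3948430362)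 (nat_lit 1260) (nat_lit 52859800365) (nat_lit 1344) (nat_lit 33545214472) (nat_lit 153) (nat_lit 5) (nat_lit 168) (nat_lit 5) (nat_lit 169) (nat_lit 5) (nat_lit 428) (nat_lit 410) (nat_lit 107)) (XT.lf (nat_lit 0) (nat_lit 46199265256) (nat_lit 1260) (nat_lit 17638650678) (nat_lit 1344) (nat_lit 28044411774) (nat_lit 153) (nat_lit 5) (nat_lit 168) (nat_lit 5) (nat_lit 169) (nat_lit 5) (nat_lit 429) (nat_lit 410) (nat_lit 106))))) (XT.nd (nat_lit 282) (nat_lit 1260) (nat_lit 0) (XT.nd (nat_lit 94) (nat_lit 588) (nat_lit 0) (XT.lf (nat_lit 0) (nat_lit 71257350620) (nat_lit 1344) (nat_lit 3918903964) (nat_lit 84) (nat_lit 18275456891) (nat_lit 153) (nat_lit 5) (nat_lit 169) (nat_lit 5) (nat_lit 154) (nat_lit 5) (nat_lit 430) (nat_lit 410) (nat_lit 105)) (XT.nd (nat_lit 94) (nat_lit 0) (nat_lit 0) (XT.lf (nat_lit 0) (nat_lit 39697914969) (nat_lit 588) (nat_lit 39757391377) (nat_lit 672) (nat_lit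 15596192804) (nat_lit 146) (nat_lit 5) (nat_lit 153) (nat_lit 5) (nat_lit 154) (nat_lit 5) (nat_lit 431) (nat_lit 410) (nat_lit 104)) (XT.lf (nat_lit 0) (nat_lit 84703301332) (nat_lit 588) (nat_lit 3235176124) (nat_lit 672) (nat_lit 8759625218) (nat_lit 146) (nat_lit 5) (nat_lit 153) (nat_lit 5) (nat_lit 154) (nat_lit 5) (nat_lit 432) (nat_lit 410) (nat_lit 103)))) (XT.nd (nat_lit 188) (nat_lit 588) (nat_lit 0) (XT.nd (nat_lit 94) (nat_lit 84) (nat_lit 0) (XT.lf (nat_lit 0) (nat_lit 32977474367) (nat_lit 588) (nat_lit 64345888931) (nat_lit 672) (nat_lit 1051324920) (nat_lit 139) (nat_lit 5) (nat_lit 146) (nat_lit 5) (nat_lit 147) (nat_lit 5) (nat_lit 433) (nat_lit 410) (nat_lit 102)) (XT.lf (nat_lit 0) (nat_lit 6907879845) (nat_lit 672) (nat_lit 20652857916) (nat_lit 84) (nat_lit 72534225543) (nat_lit 138) (nat_lit 5) (nat_lit 146) (nat_lit 5) (nat_lit 139) (nat_lit 5) (nat_lit 434) (nat_lit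 410) (nat_lit 101))) (XT.nd (nat_lit 94) (nat_lit 0) (nat_lit 0) (XT.lf (nat_lit 0) (nat_lit 15435549594) (nat_lit 672) (nat_lit 76031793079) (nat_lit 84) (nat_lit 10388667573) (nat_lit 131) (nat_lit 5) (nat_lit 139) (nat_lit 5) (nat_lit 132) (nat_lit 5) (nat_lit 435) (nat_lit 410) (nat_lit 100)) (XT.lf (nat_lit 0) (nat_lit 24702275019) (nat_lit 672) (nat_lit 29819881417) (nat_lit 84) (nat_lit 49133235840) (nat_lit 131) (nat_lit 5) (nat_lit 139) (nat_lit 5) (nat_lit 132) (nat_lit 5) (nat_lit 436) (nat_lit 410) (nat_lit 99))))))))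
noncomputable def xc241 : XT := (XT.nd (nat_lit 58468) (nat_lit 0) (nat_lit 504) (XT.nd (nat_lit 57152) (nat_lit 0) (nat_lit 5208) (XT.nd (nat_lit 564) (nat_lit 1008) (nat_lit 0) (XT.nd (nat_lit 282) (nat_lit 504) (nat_lit 0) (XT.nd (nat_lit 94) (nat_lit 504) (nat_lit 0) (XT.lf (nat_lit 0) (nat_lit 18131941261) (nat_lit 588) (nat_lit 16289092895) (nat_lit 672) (nat_lit 71082501088) (nat_lit 124) (nat_lit 5) (nat_lit 131) (nat_lit 5) (nat_lit 132) (nat_lit 5) (nat_lit 437) (nat_lit 410) (nat_lit 98)) (XT.nd (nat_lit 94) (nat_lit 504) (nat_lit 0) (XT.lf (nat_lit 0) (nat_lit 44957165998) (nat_lit 672) (nat_lit 39489709074) (nat_lit 84) (nat_lit 22944473553) (nat_lit 124) (nat_lit 5) (nat_lit 132) (nat_lit 5) (nat_lit 125) (nat_lit 5) (nat_lit 438) (nat_lit 410) (nat_lit 97)) (XT.lf (nat_lit 0) (nat_lit 9859484869) (nat_lit 504) (nat_lit 46205699726) (nat_lit 588) (nat_lit 53262938138) (nat_lit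 118) (nat_lit 5) (nat_lit 124) (nat_lit 5) (nat_lit 125) (nat_lit 5) (nat_lit 439) (nat_lit 410) (nat_lit 96)))) (XT.nd (nat_lit 94) (nat_lit 504) (nat_lit 0) (XT.lf (nat_lit 0) (nat_lit 61498394108) (nat_lit 504) (nat_lit 6406572322) (nat_lit 588) (nat_lit 43406078352) (nat_lit 118) (nat_lit 5) (nat_lit 124) (nat_lit 5) (nat_lit 125) (nat_lit 5) (nat_lit 440) (nat_lit 410) (nat_lit 95)) (XT.nd (nat_lit 94) (nat_lit 0) (nat_lit 0) (XT.lf (nat_lit 0) (nat_lit 1020196302) (nat_lit 504) (nat_lit 79421780117) (nat_lit 588) (nat_lit 32901217419) (nat_lit 112) (nat_lit 5) (nat_lit 118) (nat_lit 5) (nat_lit 119) (nat_lit 5) (nat_lit 441) (nat_lit 410) (nat_lit 94)) (XT.lf (nat_lit 0) (nat_lit 54334187271) (nat_lit 504) (nat_lit 39586494620) (nat_lit 588) (nat_lit 21498658294) (nat_lit 112) (nat_lit 5) (nat_lit 118) (nat_lit 5) (nat_lit 119) (nat_lit 5) (nat_lit 442) (nat_lit 410) (nat_lit 93)))))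 (XT.nd (nat_lit 282) (nat_lit 504) (nat_lit 0) (XT.nd (nat_lit 94) (nat_lit 504) (nat_lit 0) (XT.lf (nat_lit 0) (nat_lit 107817399852) (nat_lit 588) (nat_lit 8324309675) (nat_lit 84) (nat_lit 1415652220) (nat_lit 112) (nat_lit 5) (nat_lit 119) (nat_lit 5) (nat_lit 113) (nat_lit 5) (nat_lit 443) (nat_lit 410) (nat_lit 92)) (XT.nd (nat_lit 94) (nat_lit 0) (nat_lit 0) (XT.lf (nat_lit 0) (nat_lit 3172575468) (nat_lit 504) (nat_lit 73230223178) (nat_lit 84) (nat_lit 43330621070) (nat_lit 106) (nat_lit 5) (nat_lit 112) (nat_lit 5) (nat_lit 107) (nat_lit 5) (nat_lit 444) (nat_lit 410) (nat_lit 91)) (XT.lf (nat_lit 0) (nat_lit 16361397210) (nat_lit 504) (nat_lit 18923589366) (nat_lit 84) (nat_lit 86684339968) (nat_lit 106) (nat_lit 5) (nat_lit 112) (nat_lit 5) (nat_lit 107) (nat_lit 5) (nat_lit 445) (nat_lit 410) (nat_lit 90)))) (XT.nd (nat_lit 56118) (nat_lit 0) (nat_lit 5124) (XT.nd (nat_lit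 56024) (nat_lit 0) (nat_lit 5124) (XT.lf (nat_lit 0) (nat_lit 30380051672) (nat_lit 588) (nat_lit 86584340143) (nat_lit 84) (nat_lit 7294894044) (nat_lit 100) (nat_lit 5) (nat_lit 107) (nat_lit 5) (nat_lit 101) (nat_lit 5) (nat_lit 446) (nat_lit 410) (nat_lit 89)) (XT.lf (nat_lit 0) (nat_lit 761751239) (nat_lit 0) (nat_lit 761751239) (nat_lit 1260) (nat_lit 33517614132) (nat_lit 161) (nat_lit 5) (nat_lit 161) (nat_lit 3) (nat_lit 176) (nat_lit 3) (nat_lit 411) (nat_lit 411) (nat_lit 123))) (XT.nd (nat_lit 94) (nat_lit 0) (nat_lit 0) (XT.lf (nat_lit 0) (nat_lit 3389852612) (nat_lit 1260) (nat_lit 38698406538) (nat_lit 1344) (nat_lit 29036270647) (nat_lit 161) (nat_lit 5) (nat_lit 176) (nat_lit 3) (nat_lit 177) (nat_lit 5) (nat_lit 412) (nat_lit 411) (nat_lit 122)) (XT.lf (nat_lit 0) (nat_lit 3757585422) (nat_lit 1260) (nat_lit 7957618014) (nat_lit 1344) (nat_lit 60482454725) (nat_lit 161)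 (nat_lit 5) (nat_lit 176) (nat_lit 3) (nat_lit 177) (nat_lit 5) (nat_lit 413) (nat_lit 411) (nat_lit 121)))))) (XT.nd (nat_lit 658) (nat_lit 0) (nat_lit 252) (XT.nd (nat_lit 282) (nat_lit 0) (nat_lit 84) (XT.nd (nat_lit 94) (nat_lit 0) (nat_lit 0) (XT.lf (nat_lit 0) (nat_lit 4558695936) (nat_lit 1260) (nat_lit 49309516649) (nat_lit 1344) (nat_lit 19422098278) (nat_lit 162) (nat_lit 5) (nat_lit 177) (nat_lit 5) (nat_lit 178) (nat_lit 5) (nat_lit 414) (nat_lit 411) (nat_lit 120)) (XT.nd (nat_lit 94) (nat_lit 0) (nat_lit 84) (XT.lf (nat_lit 0) (nat_lit 5580526762) (nat_lit 1260) (nat_lit 17489905732) (nat_lit 1344) (nat_lit 51339410874) (nat_lit 162) (nat_lit 5) (nat_lit 177) (nat_lit 5) (nat_lit 178) (nat_lit 5) (nat_lit 415) (nat_lit 411) (nat_lit 119)) (XT.lf (nat_lit 0) (nat_lit 6867059001) (nat_lit 1260) (nat_lit 60054911625) (nat_lit 1344) (nat_lit 8633970637) (nat_lit 163) (nat_lit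 5) (nat_lit 178) (nat_lit 5) (nat_lit 179) (nat_lit 5) (nat_lit 416) (nat_lit 411) (nat_lit 118)))) (XT.nd (nat_lit 188) (nat_lit 0) (nat_lit 84) (XT.nd (nat_lit 94) (nat_lit 0) (nat_lit 0) (XT.lf (nat_lit 0) (nat_lit 8598538128) (nat_lit 1260) (nat_lit 27121346329) (nat_lit 1344) (nat_lit 41004347896) (nat_lit 163) (nat_lit 5) (nat_lit 178) (nat_lit 5) (nat_lit 179) (nat_lit 5) (nat_lit 417) (nat_lit 411) (nat_lit 117)) (XT.lf (nat_lit 84) (nat_lit 6935293567) (nat_lit 0) (nat_lit 3512915308) (nat_lit 1344) (nat_lit 67477376644) (nat_lit 164) (nat_lit 5) (nat_lit 163) (nat_lit 5) (nat_lit 179) (nat_lit 5) (nat_lit 418) (nat_lit 411) (nat_lit 116))) (XT.nd (nat_lit 94) (nat_lit 0) (nat_lit 0) (XT.lf (nat_lit 0) (nat_lit 12914658425) (nat_lit 1260) (nat_lit 36873270390) (nat_lit 1344) (nat_lit 29358212546) (nat_lit 164) (nat_lit 5) (nat_lit 179) (nat_lit 5) (nat_lit 180) (nat_lit 5) (nat_lit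 419) (nat_lit 411) (nat_lit 115)) (XT.lf (nat_lit 0) (nat_lit 15489486741) (nat_lit 1260) (nat_lit 1767788213) (nat_lit 1344) (nat_lit 63145008084) (nat_lit 164) (nat_lit 5) (nat_lit 179) (nat_lit 5) (nat_lit 180) (nat_lit 5) (nat_lit 420) (nat_lit 411) (nat_lit 114))))) (XT.nd (nat_lit 282) (nat_lit 0) (nat_lit 84) (XT.nd (nat_lit 94) (nat_lit 0) (nat_lit 0) (XT.lf (nat_lit 0) (nat_lit 18637875737) (nat_lit 1260) (nat_lit 46770506063) (nat_lit 1344) (nat_lit 16272838389) (nat_lit 165) (nat_lit 5) (nat_lit 180) (nat_lit 5) (nat_lit 181) (nat_lit 5) (nat_lit 421) (nat_lit 411) (nat_lit 113)) (XT.nd (nat_lit 94) (nat_lit 0) (nat_lit 84) (XT.lf (nat_lit 0) (nat_lit 22069233773) (nat_lit 1260) (nat_lit 10443492698) (nat_lit 1344) (nat_lit 50480144139) (nat_lit 165) (nat_lit 5) (nat_lit 180) (nat_lit 5) (nat_lit 181) (nat_lit 5) (nat_lit 422) (nat_lit 411) (nat_lit 112)) (XT.lf (nat_lit 0)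 (nat_lit 25883397167) (nat_lit 1260) (nat_lit 56841850886) (nat_lit 1344) (nat_lit 1610227210) (nat_lit 166) (nat_lit 5) (nat_lit 181) (nat_lit 5) (nat_lit 182) (nat_lit 5) (nat_lit 423) (nat_lit 411) (nat_lit 111)))) (XT.nd (nat_lit 188) (nat_lit 0) (nat_lit 84) (XT.nd (nat_lit 94) (nat_lit 0) (nat_lit 0) (XT.lf (nat_lit 0) (nat_lit 30240041826) (nat_lit 1260) (nat_lit 19255483415) (nat_lit 1344) (nat_lit 36209991763) (nat_lit 166) (nat_lit 5) (nat_lit 181) (nat_lit 5) (nat_lit 182) (nat_lit 5) (nat_lit 424) (nat_lit 411) (nat_lit 110)) (XT.lf (nat_lit 84) (nat_lit 19845466444) (nat_lit 0) (nat_lit 15072341711) (nat_lit 1344) (nat_lit 52193139791) (nat_lit 167) (nat_lit 5) (nat_lit 166) (nat_lit 5) (nat_lit 182) (nat_lit 5) (nat_lit 425) (nat_lit 411) (nat_lit 109))) (XT.nd (nat_lit 94) (nat_lit 0) (nat_lit 0) (XT.lf (nat_lit 0) (nat_lit 40127878096) (nat_lit 1260) (nat_lit 28236683403)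 (nat_lit 1344) (nat_lit 20182221800) (nat_lit 167) (nat_lit 5) (nat_lit 182) (nat_lit 5) (nat_lit 183) (nat_lit 5) (nat_lit 426) (nat_lit 411) (nat_lit 108)) (XT.lf (nat_lit 84) (nat_lit 12048592968) (nat_lit 0) (nat_lit 33710380302) (nat_lit 1344) (nat_lit 44258779334) (nat_lit 168) (nat_lit 5) (nat_lit 167) (nat_lit 5) (nat_lit 183) (nat_lit 5) (nat_lit 427) (nat_lit 411) (nat_lit 107))))))) (XT.nd (nat_lit 1316) (nat_lit 1008) (nat_lit 0) (XT.nd (nat_lit 658) (nat_lit 1764) (nat_lit 0) (XT.nd (nat_lit 282) (nat_lit 1176) (nat_lit 0) (XT.nd (nat_lit 94) (nat_lit 1260) (nat_lit 0) (XT.lf (nat_lit 0) (nat_lit 51865706561) (nat_lit 1260) (nat_lit 37425208096) (nat_lit 84) (nat_lit 2232735740) (nat_lit 168) (nat_lit 5) (nat_lit 183) (nat_lit 5) (nat_lit 169) (nat_lit 5) (nat_lit 428) (nat_lit 411) (nat_lit 106)) (XT.nd (nat_lit 94) (nat_lit 0) (nat_lit 0) (XT.lf (nat_lit 0) (nat_lit 4080658076)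 (nat_lit 1260) (nat_lit 54447666082) (nat_lit 1344) (nat_lit 34535221048) (nat_lit 153) (nat_lit 5) (nat_lit 168) (nat_lit 5) (nat_lit 169) (nat_lit 5) (nat_lit 429) (nat_lit 411) (nat_lit 105)) (XT.lf (nat_lit 0) (nat_lit 47598616808) (nat_lit 1260) (nat_lit 18169821564) (nat_lit 1344) (nat_lit 28869870479) (nat_lit 153) (nat_lit 5) (nat_lit 168) (nat_lit 5) (nat_lit 169) (nat_lit 5) (nat_lit 430) (nat_lit 411) (nat_lit 104)))) (XT.nd (nat_lit 188) (nat_lit 588) (nat_lit 0) (XT.nd (nat_lit 94) (nat_lit 588) (nat_lit 0) (XT.lf (nat_lit 0) (nat_lit 73409989221) (nat_lit 1344) (nat_lit 4022993785) (nat_lit 84) (nat_lit 18821805922) (nat_lit 153) (nat_lit 5) (nat_lit 169) (nat_lit 5) (nat_lit 154) (nat_lit 5) (nat_lit 431) (nat_lit 411) (nat_lit 103)) (XT.lf (nat_lit 0) (nat_lit 40902197586) (nat_lit 588) (nat_lit 40951379808) (nat_lit 672) (nat_lit 16049002793) (nat_lit 146) (nat_lit 5)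 (nat_lit 153) (nat_lit 5) (nat_lit 154) (nat_lit 5) (nat_lit 432) (nat_lit 411) (nat_lit 102))) (XT.nd (nat_lit 94) (nat_lit 588) (nat_lit 0) (XT.lf (nat_lit 0) (nat_lit 87257356846) (nat_lit 588) (nat_lit 3333461203) (nat_lit 672) (nat_lit 9007777280) (nat_lit 146) (nat_lit 5) (nat_lit 153) (nat_lit 5) (nat_lit 154) (nat_lit 5) (nat_lit 433) (nat_lit 411) (nat_lit 101)) (XT.lf (nat_lit 0) (nat_lit 33980085762) (nat_lit 588) (nat_lit 66276867760) (nat_lit 672) (nat_lit 1068534550) (nat_lit 139) (nat_lit 5) (nat_lit 146) (nat_lit 5) (nat_lit 147) (nat_lit 5) (nat_lit 434) (nat_lit 411) (nat_lit 100))))) (XT.nd (nat_lit 282) (nat_lit 1092) (nat_lit 0) (XT.nd (nat_lit 94) (nat_lit 588) (nat_lit 0) (XT.lf (nat_lit 0) (nat_lit 7128757488) (nat_lit 672) (nat_lit 21259249278) (nat_lit 84) (nat_lit 74709373471) (nat_lit 138) (nat_lit 5) (nat_lit 146) (nat_lit 5) (nat_lit 139) (nat_lit 5) (nat_lit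 435) (nat_lit 411) (nat_lit 99)) (XT.nd (nat_lit 94) (nat_lit 0) (nat_lit 0) (XT.lf (nat_lit 0) (nat_lit 15911982674) (nat_lit 672) (nat_lit 78299255773) (nat_lit 84) (nat_lit 10700029042) (nat_lit 131) (nat_lit 5) (nat_lit 139) (nat_lit 5) (nat_lit 132) (nat_lit 5) (nat_lit 436) (nat_lit 411) (nat_lit 98)) (XT.lf (nat_lit 0) (nat_lit 25456320543) (nat_lit 672) (nat_lit 30701379706) (nat_lit 84) (nat_lit 50606943053) (nat_lit 131) (nat_lit 5) (nat_lit 139) (nat_lit 5) (nat_lit 132) (nat_lit 5) (nat_lit 437) (nat_lit 411) (nat_lit 97)))) (XT.nd (nat_lit 188) (nat_lit 504) (nat_lit 0) (XT.nd (nat_lit 94) (nat_lit 0) (nat_lit 0) (XT.lf (nat_lit 0) (nat_lit 18688869239) (nat_lit 588) (nat_lit 16777519909) (nat_lit 672) (nat_lit 73201849634) (nat_lit 124) (nat_lit 5) (nat_lit 131) (nat_lit 5) (nat_lit 132) (nat_lit 5) (nat_lit 438) (nat_lit 411) (nat_lit 96)) (XT.lf (nat_lit 0) (nat_lit 46318236638)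 (nat_lit 672) (nat_lit 40661419864) (nat_lit 84) (nat_lit 23633041718) (nat_lit 124) (nat_lit 5) (nat_lit 132) (nat_lit 5) (nat_lit 125) (nat_lit 5) (nat_lit 439) (nat_lit 411) (nat_lit 95))) (XT.nd (nat_lit 94) (nat_lit 0) (nat_lit 0) (XT.lf (nat_lit 0) (nat_lit 10168122638) (nat_lit 504) (nat_lit 47591136834) (nat_lit 588) (nat_lit 54848323757) (nat_lit 118) (nat_lit 5) (nat_lit 124) (nat_lit 5) (nat_lit 125) (nat_lit 5) (nat_lit 440) (nat_lit 411) (nat_lit 94)) (XT.lf (nat_lit 0) (nat_lit 63355824788) (nat_lit 504) (nat_lit 6598056984) (nat_lit 588) (nat_lit 44696122328) (nat_lit 118) (nat_lit 5) (nat_lit 124) (nat_lit 5) (nat_lit 125) (nat_lit 5) (nat_lit 441) (nat_lit 411) (nat_lit 93)))))) (XT.nd (nat_lit 56682) (nat_lit 0) (nat_lit 4620) (XT.nd (nat_lit 282) (nat_lit 504) (nat_lit 0) (XT.nd (nat_lit 94) (nat_lit 0) (nat_lit 0) (XT.lf (nat_lit 0) (nat_lit 1063520303) (nat_lit 504)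 (nat_lit 81803267952) (nat_lit 588) (nat_lit 33876336341) (nat_lit 112) (nat_lit 5) (nat_lit 118) (nat_lit 5) (nat_lit 119) (nat_lit 5) (nat_lit 442) (nat_lit 411) (nat_lit 92)) (XT.nd (nat_lit 94) (nat_lit 0) (nat_lit 0) (XT.lf (nat_lit 0) (nat_lit 55976560571) (nat_lit 504) (nat_lit 40772957839) (nat_lit 588) (nat_lit 22132047556) (nat_lit 112) (nat_lit 5) (nat_lit 118) (nat_lit 5) (nat_lit 119) (nat_lit 5) (nat_lit 443) (nat_lit 411) (nat_lit 91)) (XT.lf (nat_lit 0) (nat_lit 111062821789) (nat_lit 588) (nat_lit 8561717384) (nat_lit 84) (nat_lit 1459199008) (nat_lit 112) (nat_lit 5) (nat_lit 119) (nat_lit 5) (nat_lit 113) (nat_lit 5) (nat_lit 444) (nat_lit 411) (nat_lit 90)))) (XT.nd (nat_lit 56212) (nat_lit 0) (nat_lit 4620) (XT.nd (nat_lit 94) (nat_lit 0) (nat_lit 0) (XT.lf (nat_lit 0) (nat_lit 3278575002) (nat_lit 504) (nat_lit 75414697289) (nat_lit 84) (nat_lit 44631808929) (nat_lit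 106) (nat_lit 5) (nat_lit 112) (nat_lit 5) (nat_lit 107) (nat_lit 5) (nat_lit 445) (nat_lit 411) (nat_lit 89)) (XT.lf (nat_lit 0) (nat_lit 16862746184) (nat_lit 504) (nat_lit 19479226576) (nat_lit 84) (nat_lit 89286102427) (nat_lit 106) (nat_lit 5) (nat_lit 112) (nat_lit 5) (nat_lit 107) (nat_lit 5) (nat_lit 446) (nat_lit 411) (nat_lit 88))) (XT.nd (nat_lit 94) (nat_lit 0) (nat_lit 0) (XT.lf (nat_lit 0) (nat_lit 790780456) (nat_lit 0) (nat_lit 790780456) (nat_lit 1260) (nat_lit 34510396168) (nat_lit 161) (nat_lit 5) (nat_lit 161) (nat_lit 3) (nat_lit 176) (nat_lit 3) (nat_lit 412) (nat_lit 412) (nat_lit 121)) (XT.lf (nat_lit 0) (nat_lit 3515420005) (nat_lit 1260) (nat_lit 39846486729) (nat_lit 1344) (nat_lit 29895599252) (nat_lit 161) (nat_lit 5) (nat_lit 176) (nat_lit 3) (nat_lit 177) (nat_lit 5) (nat_lit 413) (nat_lit 412) (nat_lit 120))))) (XT.nd (nat_lit 282) (nat_lit 0) (nat_lit 168)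 (XT.nd (nat_lit 94) (nat_lit 0) (nat_lit 84) (XT.lf (nat_lit 0) (nat_lit 3893489503) (nat_lit 1260) (nat_lit 8183849463) (nat_lit 1344) (nat_lit 62285511363) (nat_lit 161) (nat_lit 5) (nat_lit 176) (nat_lit 3) (nat_lit 177) (nat_lit 5) (nat_lit 414) (nat_lit 412) (nat_lit 119)) (XT.nd (nat_lit 94) (nat_lit 0) (nat_lit 0) (XT.lf (nat_lit 0) (nat_lit 4717978750) (nat_lit 1260) (nat_lit 50775609423) (nat_lit 1344) (nat_lit 19994715306) (nat_lit 162) (nat_lit 5) (nat_lit 177) (nat_lit 5) (nat_lit 178) (nat_lit 5) (nat_lit 415) (nat_lit 412) (nat_lit 118)) (XT.lf (nat_lit 0) (nat_lit 5769808523) (nat_lit 1260) (nat_lit 18001794433) (nat_lit 1344) (nat_lit 52869839879) (nat_lit 162) (nat_lit 5) (nat_lit 177) (nat_lit 5) (nat_lit 178) (nat_lit 5) (nat_lit 416) (nat_lit 412) (nat_lit 117)))) (XT.nd (nat_lit 188) (nat_lit 0) (nat_lit 0) (XT.nd (nat_lit 94) (nat_lit 0) (nat_lit 0) (XT.lf (nat_lit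 0) (nat_lit 7094338449) (nat_lit 1260) (nat_lit 61843113528) (nat_lit 1344) (nat_lit 8884490798) (nat_lit 163) (nat_lit 5) (nat_lit 178) (nat_lit 5) (nat_lit 179) (nat_lit 5) (nat_lit 417) (nat_lit 412) (nat_lit 116)) (XT.lf (nat_lit 0) (nat_lit 8877142503) (nat_lit 1260) (nat_lit 27921932888) (nat_lit 1344) (nat_lit 42226226917) (nat_lit 163) (nat_lit 5) (nat_lit 178) (nat_lit 5) (nat_lit 179) (nat_lit 5) (nat_lit 418) (nat_lit 412) (nat_lit 115))) (XT.nd (nat_lit 94) (nat_lit 0) (nat_lit 84) (XT.lf (nat_lit 84) (nat_lit 7156278226) (nat_lit 0) (nat_lit 3625547994) (nat_lit 1344) (nat_lit 69480885260) (nat_lit 164) (nat_lit 5) (nat_lit 163) (nat_lit 5) (nat_lit 179) (nat_lit 5) (nat_lit 419) (nat_lit 412) (nat_lit 114)) (XT.lf (nat_lit 0) (nat_lit 13321614131) (nat_lit 1260) (nat_lit 37966228597) (nat_lit 1344) (nat_lit 30232061985) (nat_lit 164) (nat_lit 5) (nat_lit 179) (nat_lit 5)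 (nat_lit 180) (nat_lit 5) (nat_lit 420) (nat_lit 412) (nat_lit 113))))))))
noncomputable def xc242 : XT := (XT.nd (nat_lit 58656) (nat_lit 0) (nat_lit 1512) (XT.nd (nat_lit 1222) (nat_lit 3360) (nat_lit 0) (XT.nd (nat_lit 564) (nat_lit 1512) (nat_lit 0) (XT.nd (nat_lit 282) (nat_lit 0) (nat_lit 168) (XT.nd (nat_lit 94) (nat_lit 0) (nat_lit 84) (XT.lf (nat_lit 0) (nat_lit 15973118871) (nat_lit 1260) (nat_lit 1807967583) (nat_lit 1344) (nat_lit 65032662271) (nat_lit 164) (nat_lit 5) (nat_lit 179) (nat_lit 5) (nat_lit 180) (nat_lit 5) (nat_lit 421) (nat_lit 412) (nat_lit 112)) (XT.nd (nat_lit 94) (nat_lit 0) (nat_lit 0) (XT.lf (nat_lit 0) (nat_lit 19215474364) (nat_lit 1260) (nat_lit 48160248417) (nat_lit 1344) (nat_lit 16755346765) (nat_lit 165) (nat_lit 5) (nat_lit 180) (nat_lit 5) (nat_lit 181) (nat_lit 5) (nat_lit 422) (nat_lit 412) (nat_lit 111)) (XT.lf (nat_lit 0) (nat_lit 22749235403)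 (nat_lit 1260) (nat_lit 10743814151) (nat_lit 1344) (nat_lit 51989037030) (nat_lit 165) (nat_lit 5) (nat_lit 180) (nat_lit 5) (nat_lit 181) (nat_lit 5) (nat_lit 423) (nat_lit 412) (nat_lit 110)))) (XT.nd (nat_lit 94) (nat_lit 0) (nat_lit 0) (XT.lf (nat_lit 0) (nat_lit 26677380311) (nat_lit 1260) (nat_lit 58533648235) (nat_lit 1344) (nat_lit 1653955076) (nat_lit 166) (nat_lit 5) (nat_lit 181) (nat_lit 5) (nat_lit 182) (nat_lit 5) (nat_lit 424) (nat_lit 412) (nat_lit 109)) (XT.nd (nat_lit 94) (nat_lit 0) (nat_lit 0) (XT.lf (nat_lit 0) (nat_lit 31164215147) (nat_lit 1260) (nat_lit 19820081725) (nat_lit 1344) (nat_lit 37291845933) (nat_lit 166) (nat_lit 5) (nat_lit 181) (nat_lit 5) (nat_lit 182) (nat_lit 5) (nat_lit 425) (nat_lit 412) (nat_lit 108)) (XT.lf (nat_lit 84) (nat_lit 20453768529) (nat_lit 0) (nat_lit 15528175974) (nat_lit 1344) (nat_lit 53741804162) (nat_lit 167) (nat_lit 5) (nat_lit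 166) (nat_lit 5) (nat_lit 182) (nat_lit 5) (nat_lit 426) (nat_lit 412) (nat_lit 107))))) (XT.nd (nat_lit 282) (nat_lit 1764) (nat_lit 0) (XT.nd (nat_lit 94) (nat_lit 0) (nat_lit 0) (XT.lf (nat_lit 0) (nat_lit 41347798791) (nat_lit 1260) (nat_lit 29070676107) (nat_lit 1344) (nat_lit 20784200577) (nat_lit 167) (nat_lit 5) (nat_lit 182) (nat_lit 5) (nat_lit 183) (nat_lit 5) (nat_lit 427) (nat_lit 412) (nat_lit 106)) (XT.nd (nat_lit 94) (nat_lit 0) (nat_lit 84) (XT.lf (nat_lit 84) (nat_lit 12423030047) (nat_lit 0) (nat_lit 34724453062) (nat_lit 1344) (nat_lit 45570301900) (nat_lit 168) (nat_lit 5) (nat_lit 167) (nat_lit 5) (nat_lit 183) (nat_lit 5) (nat_lit 428) (nat_lit 412) (nat_lit 105)) (XT.lf (nat_lit 0) (nat_lit 53436934162) (nat_lit 1260) (nat_lit 38534851711) (nat_lit 84) (nat_lit 2297089204) (nat_lit 168) (nat_lit 5) (nat_lit 183) (nat_lit 5) (nat_lit 169) (nat_lit 5) (nat_lit 429)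 (nat_lit 412) (nat_lit 104)))) (XT.nd (nat_lit 188) (nat_lit 588) (nat_lit 0) (XT.nd (nat_lit 94) (nat_lit 0) (nat_lit 0) (XT.lf (nat_lit 0) (nat_lit 4216061890) (nat_lit 1260) (nat_lit 56083048846) (nat_lit 1344) (nat_lit 35555866371) (nat_lit 153) (nat_lit 5) (nat_lit 168) (nat_lit 5) (nat_lit 169) (nat_lit 5) (nat_lit 430) (nat_lit 412) (nat_lit 103)) (XT.lf (nat_lit 0) (nat_lit 49039181208) (nat_lit 1260) (nat_lit 18716812115) (nat_lit 1344) (nat_lit 29721004157) (nat_lit 153) (nat_lit 5) (nat_lit 168) (nat_lit 5) (nat_lit 169) (nat_lit 5) (nat_lit 431) (nat_lit 412) (nat_lit 102))) (XT.nd (nat_lit 94) (nat_lit 588) (nat_lit 0) (XT.lf (nat_lit 0) (nat_lit 75626350622) (nat_lit 1344) (nat_lit 4130979952) (nat_lit 84) (nat_lit 19384655334) (nat_lit 153) (nat_lit 5) (nat_lit 169) (nat_lit 5) (nat_lit 154) (nat_lit 5) (nat_lit 432) (nat_lit 412) (nat_lit 101)) (XT.lf (nat_lit 0) (nat_lit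 42141842615) (nat_lit 588) (nat_lit 42181115179) (nat_lit 672) (nat_lit 16516262495) (nat_lit 146) (nat_lit 5) (nat_lit 153) (nat_lit 5) (nat_lit 154) (nat_lit 5) (nat_lit 433) (nat_lit 412) (nat_lit 100)))))) (XT.nd (nat_lit 658) (nat_lit 1512) (nat_lit 0) (XT.nd (nat_lit 282) (nat_lit 1176) (nat_lit 0) (XT.nd (nat_lit 94) (nat_lit 672) (nat_lit 0) (XT.lf (nat_lit 0) (nat_lit 89887290271) (nat_lit 588) (nat_lit 3434624239) (nat_lit 672) (nat_lit 9264214110) (nat_lit 146) (nat_lit 5) (nat_lit 153) (nat_lit 5) (nat_lit 154) (nat_lit 5) (nat_lit 434) (nat_lit 412) (nat_lit 99)) (XT.nd (nat_lit 94) (nat_lit 84) (nat_lit 0) (XT.lf (nat_lit 0) (nat_lit 35012012761) (nat_lit 588) (nat_lit 68265741387) (nat_lit 672) (nat_lit 1087083077) (nat_lit 139) (nat_lit 5) (nat_lit 146) (nat_lit 5) (nat_lit 147) (nat_lit 5) (nat_lit 435) (nat_lit 412) (nat_lit 98)) (XT.lf (nat_lit 0) (nat_lit 7355478396)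 (nat_lit 672) (nat_lit 21884589792) (nat_lit 84) (nat_lit 76949826286) (nat_lit 138) (nat_lit 5) (nat_lit 146) (nat_lit 5) (nat_lit 139) (nat_lit 5) (nat_lit 436) (nat_lit 412) (nat_lit 97)))) (XT.nd (nat_lit 188) (nat_lit 588) (nat_lit 0) (XT.nd (nat_lit 94) (nat_lit 0) (nat_lit 0) (XT.lf (nat_lit 0) (nat_lit 16401941449) (nat_lit 672) (nat_lit 80635516791) (nat_lit 84) (nat_lit 11020748494) (nat_lit 131) (nat_lit 5) (nat_lit 139) (nat_lit 5) (nat_lit 132) (nat_lit 5) (nat_lit 437) (nat_lit 412) (nat_lit 96)) (XT.lf (nat_lit 0) (nat_lit 26232242485) (nat_lit 672) (nat_lit 31610074831) (nat_lit 84) (nat_lit 52124878122) (nat_lit 131) (nat_lit 5) (nat_lit 139) (nat_lit 5) (nat_lit 132) (nat_lit 5) (nat_lit 438) (nat_lit 412) (nat_lit 95))) (XT.nd (nat_lit 94) (nat_lit 0) (nat_lit 0) (XT.lf (nat_lit 0) (nat_lit 19261760541) (nat_lit 588) (nat_lit 17280613842) (nat_lit 672) (nat_lit 75385532150)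 (nat_lit 124) (nat_lit 5) (nat_lit 131) (nat_lit 5) (nat_lit 132) (nat_lit 5) (nat_lit 439) (nat_lit 412) (nat_lit 94)) (XT.lf (nat_lit 0) (nat_lit 47719430133) (nat_lit 672) (nat_lit 41869027110) (nat_lit 84) (nat_lit 24342253497) (nat_lit 124) (nat_lit 5) (nat_lit 132) (nat_lit 5) (nat_lit 125) (nat_lit 5) (nat_lit 440) (nat_lit 412) (nat_lit 93))))) (XT.nd (nat_lit 282) (nat_lit 504) (nat_lit 0) (XT.nd (nat_lit 94) (nat_lit 504) (nat_lit 0) (XT.lf (nat_lit 0) (nat_lit 10485281713) (nat_lit 504) (nat_lit 49018179184) (nat_lit 588) (nat_lit 56481988639) (nat_lit 118) (nat_lit 5) (nat_lit 124) (nat_lit 5) (nat_lit 125) (nat_lit 5) (nat_lit 441) (nat_lit 412) (nat_lit 92)) (XT.nd (nat_lit 94) (nat_lit 504) (nat_lit 0) (XT.lf (nat_lit 0) (nat_lit 65268262052) (nat_lit 504) (nat_lit 6795327086) (nat_lit 588) (nat_lit 46025564415) (nat_lit 118) (nat_lit 5) (nat_lit 124) (nat_lit 5) (nat_lit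 125) (nat_lit 5) (nat_lit 442) (nat_lit 412) (nat_lit 91)) (XT.lf (nat_lit 0) (nat_lit 1107413952) (nat_lit 504) (nat_lit 84256267331) (nat_lit 588) (nat_lit 34881392949) (nat_lit 112) (nat_lit 5) (nat_lit 118) (nat_lit 5) (nat_lit 119) (nat_lit 5) (nat_lit 443) (nat_lit 412) (nat_lit 90)))) (XT.nd (nat_lit 188) (nat_lit 504) (nat_lit 0) (XT.nd (nat_lit 94) (nat_lit 0) (nat_lit 0) (XT.lf (nat_lit 0) (nat_lit 57667496262) (nat_lit 504) (nat_lit 41995079915) (nat_lit 588) (nat_lit 22785102690) (nat_lit 112) (nat_lit 5) (nat_lit 118) (nat_lit 5) (nat_lit 119) (nat_lit 5) (nat_lit 444) (nat_lit 412) (nat_lit 89)) (XT.lf (nat_lit 0) (nat_lit 114404980684) (nat_lit 588) (nat_lit 8806954634) (nat_lit 84) (nat_lit 1503990362) (nat_lit 112) (nat_lit 5) (nat_lit 119) (nat_lit 5) (nat_lit 113) (nat_lit 5) (nat_lit 445) (nat_lit 412) (nat_lit 88))) (XT.nd (nat_lit 56212) (nat_lit 0) (nat_lit 4620)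 (XT.lf (nat_lit 0) (nat_lit 3387133279) (nat_lit 504) (nat_lit 77665419304) (nat_lit 84) (nat_lit 45971959566) (nat_lit 106) (nat_lit 5) (nat_lit 112) (nat_lit 5) (nat_lit 107) (nat_lit 5) (nat_lit 446) (nat_lit 412) (nat_lit 87)) (XT.lf (nat_lit 0) (nat_lit 820325982) (nat_lit 0) (nat_lit 820325982) (nat_lit 1260) (nat_lit 35533693360) (nat_lit 161) (nat_lit 5) (nat_lit 161) (nat_lit 3) (nat_lit 176) (nat_lit 3) (nat_lit 413) (nat_lit 413) (nat_lit 119))))))) (XT.nd (nat_lit 1316) (nat_lit 3108) (nat_lit 0) (XT.nd (nat_lit 658) (nat_lit 0) (nat_lit 252) (XT.nd (nat_lit 282) (nat_lit 0) (nat_lit 84) (XT.nd (nat_lit 94) (nat_lit 0) (nat_lit 0) (XT.lf (nat_lit 0) (nat_lit 3643384079) (nat_lit 1260) (nat_lit 41029748232) (nat_lit 1344) (nat_lit 30781382760) (nat_lit 161) (nat_lit 5) (nat_lit 176) (nat_lit 3) (nat_lit 177) (nat_lit 5) (nat_lit 414) (nat_lit 413) (nat_lit 118)) (XT.nd (nat_lit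 94) (nat_lit 0) (nat_lit 84) (XT.lf (nat_lit 0) (nat_lit 4032140279) (nat_lit 1260) (nat_lit 8417585239) (nat_lit 1344) (nat_lit 64143315082) (nat_lit 161) (nat_lit 5) (nat_lit 176) (nat_lit 3) (nat_lit 177) (nat_lit 5) (nat_lit 415) (nat_lit 413) (nat_lit 117)) (XT.lf (nat_lit 0) (nat_lit 4880747198) (nat_lit 1260) (nat_lit 52286442298) (nat_lit 1344) (nat_lit 20585087521) (nat_lit 162) (nat_lit 5) (nat_lit 177) (nat_lit 5) (nat_lit 178) (nat_lit 5) (nat_lit 416) (nat_lit 413) (nat_lit 116)))) (XT.nd (nat_lit 188) (nat_lit 0) (nat_lit 84) (XT.nd (nat_lit 94) (nat_lit 0) (nat_lit 84) (XT.lf (nat_lit 0) (nat_lit 5963513541) (nat_lit 1260) (nat_lit 18529775054) (nat_lit 1344) (nat_lit 54446741635) (nat_lit 162) (nat_lit 5) (nat_lit 177) (nat_lit 5) (nat_lit 178) (nat_lit 5) (nat_lit 417) (nat_lit 413) (nat_lit 115)) (XT.lf (nat_lit 0) (nat_lit 7327215429) (nat_lit 1260) (nat_lit 63685733313)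 (nat_lit 1344) (nat_lit 9143014439) (nat_lit 163) (nat_lit 5) (nat_lit 178) (nat_lit 5) (nat_lit 179) (nat_lit 5) (nat_lit 418) (nat_lit 413) (nat_lit 114))) (XT.nd (nat_lit 94) (nat_lit 0) (nat_lit 0) (XT.lf (nat_lit 0) (nat_lit 9162919716) (nat_lit 1260) (nat_lit 28747286388) (nat_lit 1344) (nat_lit 43485235974) (nat_lit 163) (nat_lit 5) (nat_lit 178) (nat_lit 5) (nat_lit 179) (nat_lit 5) (nat_lit 419) (nat_lit 413) (nat_lit 113)) (XT.lf (nat_lit 84) (nat_lit 7383150427) (nat_lit 0) (nat_lit 3741143754) (nat_lit 1344) (nat_lit 71545693868) (nat_lit 164) (nat_lit 5) (nat_lit 163) (nat_lit 5) (nat_lit 179) (nat_lit 5) (nat_lit 420) (nat_lit 413) (nat_lit 112))))) (XT.nd (nat_lit 282) (nat_lit 0) (nat_lit 84) (XT.nd (nat_lit 94) (nat_lit 0) (nat_lit 0) (XT.lf (nat_lit 0) (nat_lit 13739658213) (nat_lit 1260) (nat_lit 39092735574) (nat_lit 1344) (nat_lit 31132522819) (nat_lit 164) (nat_lit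 5) (nat_lit 179) (nat_lit 5) (nat_lit 180) (nat_lit 5) (nat_lit 421) (nat_lit 413) (nat_lit 111)) (XT.nd (nat_lit 94) (nat_lit 0) (nat_lit 84) (XT.lf (nat_lit 0) (nat_lit 16470172299) (nat_lit 1260) (nat_lit 1850090221) (nat_lit 1344) (nat_lit 66977330464) (nat_lit 164) (nat_lit 5) (nat_lit 179) (nat_lit 5) (nat_lit 180) (nat_lit 5) (nat_lit 422) (nat_lit 413) (nat_lit 110)) (XT.lf (nat_lit 0) (nat_lit 19809341135) (nat_lit 1260) (nat_lit 49592450697) (nat_lit 1344) (nat_lit 17252656262) (nat_lit 165) (nat_lit 5) (nat_lit 180) (nat_lit 5) (nat_lit 181) (nat_lit 5) (nat_lit 423) (nat_lit 413) (nat_lit 109)))) (XT.nd (nat_lit 188) (nat_lit 0) (nat_lit 84) (XT.nd (nat_lit 94) (nat_lit 0) (nat_lit 84) (XT.lf (nat_lit 0) (nat_lit 23448608135) (nat_lit 1260) (nat_lit 11053890544) (nat_lit 1344) (nat_lit 53543513087) (nat_lit 165) (nat_lit 5) (nat_lit 180) (nat_lit 5) (nat_lit 181) (nat_lit 5)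 (nat_lit 424) (nat_lit 413) (nat_lit 108)) (XT.lf (nat_lit 0) (nat_lit 27494179455) (nat_lit 1260) (nat_lit 60276972058) (nat_lit 1344) (nat_lit 1699257629) (nat_lit 166) (nat_lit 5) (nat_lit 181) (nat_lit 5) (nat_lit 182) (nat_lit 5) (nat_lit 425) (nat_lit 413) (nat_lit 107))) (XT.nd (nat_lit 94) (nat_lit 0) (nat_lit 0) (XT.lf (nat_lit 0) (nat_lit 32115139402) (nat_lit 1260) (nat_lit 20402368038) (nat_lit 1344) (nat_lit 38406410923) (nat_lit 166) (nat_lit 5) (nat_lit 181) (nat_lit 5) (nat_lit 182) (nat_lit 5) (nat_lit 426) (nat_lit 413) (nat_lit 106)) (XT.lf (nat_lit 84) (nat_lit 21079576977) (nat_lit 0) (nat_lit 15997474935) (nat_lit 1344) (nat_lit 55337911786) (nat_lit 167) (nat_lit 5) (nat_lit 166) (nat_lit 5) (nat_lit 182) (nat_lit 5) (nat_lit 427) (nat_lit 413) (nat_lit 105)))))) (XT.nd (nat_lit 658) (nat_lit 1848) (nat_lit 0) (XT.nd (nat_lit 282) (nat_lit 1764) (nat_lit 0) (XT.nd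 (nat_lit 94) (nat_lit 0) (nat_lit 0) (XT.lf (nat_lit 0) (nat_lit 42603393800) (nat_lit 1260) (nat_lit 29930441034) (nat_lit 1344) (nat_lit 21404438936) (nat_lit 167) (nat_lit 5) (nat_lit 182) (nat_lit 5) (nat_lit 183) (nat_lit 5) (nat_lit 428) (nat_lit 413) (nat_lit 104)) (XT.nd (nat_lit 94) (nat_lit 0) (nat_lit 84) (XT.lf (nat_lit 84) (nat_lit 12807955174) (nat_lit 0) (nat_lit 35768789492) (nat_lit 1344) (nat_lit 46922102432) (nat_lit 168) (nat_lit 5) (nat_lit 167) (nat_lit 5) (nat_lit 183) (nat_lit 5) (nat_lit 429) (nat_lit 413) (nat_lit 103)) (XT.lf (nat_lit 0) (nat_lit 55054422812) (nat_lit 1260) (nat_lit 39678537353) (nat_lit 84) (nat_lit 2363524164) (nat_lit 168) (nat_lit 5) (nat_lit 183) (nat_lit 5) (nat_lit 169) (nat_lit 5) (nat_lit 430) (nat_lit 413) (nat_lit 102)))) (XT.nd (nat_lit 188) (nat_lit 588) (nat_lit 0) (XT.nd (nat_lit 94) (nat_lit 0) (nat_lit 0) (XT.lf (nat_lit 0) (nat_lit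 4354782481) (nat_lit 1260) (nat_lit 57767380996) (nat_lit 1344) (nat_lit 36608015725) (nat_lit 153) (nat_lit 5) (nat_lit 168) (nat_lit 5) (nat_lit 169) (nat_lit 5) (nat_lit 431) (nat_lit 413) (nat_lit 101)) (XT.lf (nat_lit 0) (nat_lit 50522238910) (nat_lit 1260) (nat_lit 19280103551) (nat_lit 1344) (nat_lit 30598530751) (nat_lit 153) (nat_lit 5) (nat_lit 168) (nat_lit 5) (nat_lit 169) (nat_lit 5) (nat_lit 432) (nat_lit 413) (nat_lit 100))) (XT.nd (nat_lit 94) (nat_lit 588) (nat_lit 0) (XT.lf (nat_lit 0) (nat_lit 77908395665) (nat_lit 1344) (nat_lit 4242934945) (nat_lit 84) (nat_lit 19964493829) (nat_lit 153) (nat_lit 5) (nat_lit 169) (nat_lit 5) (nat_lit 154) (nat_lit 5) (nat_lit 433) (nat_lit 413) (nat_lit 99)) (XT.lf (nat_lit 0) (nat_lit 43417954902) (nat_lit 588) (nat_lit 43447674071) (nat_lit 672) (nat_lit 16998355721) (nat_lit 146) (nat_lit 5) (nat_lit 153) (nat_lit 5) (nat_lit 154)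 (nat_lit 5) (nat_lit 434) (nat_lit 413) (nat_lit 98))))) (XT.nd (nat_lit 282) (nat_lit 1176) (nat_lit 0) (XT.nd (nat_lit 94) (nat_lit 672) (nat_lit 0) (XT.lf (nat_lit 0) (nat_lit 92595420638) (nat_lit 588) (nat_lit 3538755624) (nat_lit 672) (nat_lit 9529136020) (nat_lit 146) (nat_lit 5) (nat_lit 153) (nat_lit 5) (nat_lit 154) (nat_lit 5) (nat_lit 435) (nat_lit 413) (nat_lit 97)) (XT.nd (nat_lit 94) (nat_lit 84) (nat_lit 0) (XT.lf (nat_lit 0) (nat_lit 36074178617) (nat_lit 588) (nat_lit 70314248640) (nat_lit 672) (nat_lit 1106963445) (nat_lit 139) (nat_lit 5) (nat_lit 146) (nat_lit 5) (nat_lit 147) (nat_lit 5) (nat_lit 436) (nat_lit 413) (nat_lit 96)) (XT.lf (nat_lit 0) (nat_lit 7588262820) (nat_lit 672) (nat_lit 22529404454) (nat_lit 84) (nat_lit 79257540238) (nat_lit 138) (nat_lit 5) (nat_lit 146) (nat_lit 5) (nat_lit 139) (nat_lit 5) (nat_lit 437) (nat_lit 413) (nat_lit 95)))) (XT.nd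 (nat_lit 188) (nat_lit 588) (nat_lit 0) (XT.nd (nat_lit 94) (nat_lit 0) (nat_lit 0) (XT.lf (nat_lit 0) (nat_lit 16905875736) (nat_lit 672) (nat_lit 83042595629) (nat_lit 84) (nat_lit 11351105685) (nat_lit 131) (nat_lit 5) (nat_lit 139) (nat_lit 5) (nat_lit 132) (nat_lit 5) (nat_lit 438) (nat_lit 413) (nat_lit 94)) (XT.lf (nat_lit 0) (nat_lit 27030739898) (nat_lit 672) (nat_lit 32546739535) (nat_lit 84) (nat_lit 53688366928) (nat_lit 131) (nat_lit 5) (nat_lit 139) (nat_lit 5) (nat_lit 132) (nat_lit 5) (nat_lit 439) (nat_lit 413) (nat_lit 93))) (XT.nd (nat_lit 94) (nat_lit 0) (nat_lit 0) (XT.lf (nat_lit 0) (nat_lit 19851136804) (nat_lit 588) (nat_lit 17798813891) (nat_lit 672) (nat_lit 77635435401) (nat_lit 124) (nat_lit 5) (nat_lit 131) (nat_lit 5) (nat_lit 132) (nat_lit 5) (nat_lit 440) (nat_lit 413) (nat_lit 92)) (XT.lf (nat_lit 0) (nat_lit 49161990881) (nat_lit 672) (nat_lit 43113564932)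 (nat_lit 84) (nat_lit 25072728971) (nat_lit 124) (nat_lit 5) (nat_lit 132) (nat_lit 5) (nat_lit 125) (nat_lit 5) (nat_lit 441) (nat_lit 413) (nat_lit 91))))))))
noncomputable def xc243 : XT := (XT.nd (nat_lit 58844) (nat_lit 0) (nat_lit 0) (XT.nd (nat_lit 57528) (nat_lit 0) (nat_lit 2856) (XT.nd (nat_lit 56870) (nat_lit 0) (nat_lit 4116) (XT.nd (nat_lit 282) (nat_lit 0) (nat_lit 0) (XT.nd (nat_lit 94) (nat_lit 504) (nat_lit 0) (XT.lf (nat_lit 0) (nat_lit 10811260087) (nat_lit 504) (nat_lit 50488072514) (nat_lit 588) (nat_lit 58165339966) (nat_lit 118) (nat_lit 5) (nat_lit 124) (nat_lit 5) (nat_lit 125) (nat_lit 5) (nat_lit 442) (nat_lit 413) (nat_lit 90)) (XT.nd (nat_lit 94) (nat_lit 504) (nat_lit 0) (XT.lf (nat_lit 0) (nat_lit 67237397217) (nat_lit 504) (nat_lit 6998553845) (nat_lit 588) (nat_lit 47395546559) (nat_lit 118) (nat_lit 5) (nat_lit 124) (nat_lit 5) (nat_lit 125) (nat_lit 5)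 (nat_lit 443) (nat_lit 413) (nat_lit 89)) (XT.lf (nat_lit 0) (nat_lit 1151936249) (nat_lit 504) (nat_lit 86782919759) (nat_lit 588) (nat_lit 35917246104) (nat_lit 112) (nat_lit 5) (nat_lit 118) (nat_lit 5) (nat_lit 119) (nat_lit 5) (nat_lit 444) (nat_lit 413) (nat_lit 88)))) (XT.nd (nat_lit 56400) (nat_lit 0) (nat_lit 4116) (XT.nd (nat_lit 94) (nat_lit 0) (nat_lit 0) (XT.lf (nat_lit 0) (nat_lit 59408491905) (nat_lit 504) (nat_lit 43253926883) (nat_lit 588) (nat_lit 23458375543) (nat_lit 112) (nat_lit 5) (nat_lit 118) (nat_lit 5) (nat_lit 119) (nat_lit 5) (nat_lit 445) (nat_lit 413) (nat_lit 87)) (XT.lf (nat_lit 0) (nat_lit 117846814561) (nat_lit 588) (nat_lit 9060215709) (nat_lit 84) (nat_lit 1550067169) (nat_lit 112) (nat_lit 5) (nat_lit 119) (nat_lit 5) (nat_lit 113) (nat_lit 5) (nat_lit 446) (nat_lit 413) (nat_lit 86))) (XT.nd (nat_lit 94) (nat_lit 0) (nat_lit 0) (XT.lf (nat_lit 0)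 (nat_lit 850423661) (nat_lit 0) (nat_lit 850423661) (nat_lit 1260) (nat_lit 36588379161) (nat_lit 161) (nat_lit 5) (nat_lit 161) (nat_lit 3) (nat_lit 176) (nat_lit 3) (nat_lit 414) (nat_lit 414) (nat_lit 117)) (XT.lf (nat_lit 0) (nat_lit 3773895399) (nat_lit 1260) (nat_lit 42249204069) (nat_lit 1344) (nat_lit 31694376066) (nat_lit 161) (nat_lit 5) (nat_lit 176) (nat_lit 3) (nat_lit 177) (nat_lit 5) (nat_lit 415) (nat_lit 414) (nat_lit 116))))) (XT.nd (nat_lit 282) (nat_lit 0) (nat_lit 168) (XT.nd (nat_lit 94) (nat_lit 0) (nat_lit 84) (XT.lf (nat_lit 0) (nat_lit 4173696524) (nat_lit 1260) (nat_lit 8659009291) (nat_lit 1344) (nat_lit 66057470674) (nat_lit 161) (nat_lit 5) (nat_lit 176) (nat_lit 3) (nat_lit 177) (nat_lit 5) (nat_lit 416) (nat_lit 414) (nat_lit 115)) (XT.nd (nat_lit 94) (nat_lit 0) (nat_lit 0) (XT.lf (nat_lit 0) (nat_lit 5047180063) (nat_lit 1260) (nat_lit 53843314002) (nat_lit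 1344) (nat_lit 21193714476) (nat_lit 162) (nat_lit 5) (nat_lit 177) (nat_lit 5) (nat_lit 178) (nat_lit 5) (nat_lit 417) (nat_lit 414) (nat_lit 114)) (XT.lf (nat_lit 0) (nat_lit 6161846568) (nat_lit 1260) (nat_lit 19074288145) (nat_lit 1344) (nat_lit 56071478184) (nat_lit 162) (nat_lit 5) (nat_lit 177) (nat_lit 5) (nat_lit 178) (nat_lit 5) (nat_lit 418) (nat_lit 414) (nat_lit 113)))) (XT.nd (nat_lit 188) (nat_lit 0) (nat_lit 0) (XT.nd (nat_lit 94) (nat_lit 0) (nat_lit 0) (XT.lf (nat_lit 0) (nat_lit 7565927949) (nat_lit 1260) (nat_lit 65584359209) (nat_lit 1344) (nat_lit 9409753658) (nat_lit 163) (nat_lit 5) (nat_lit 178) (nat_lit 5) (nat_lit 179) (nat_lit 5) (nat_lit 419) (nat_lit 414) (nat_lit 112)) (XT.lf (nat_lit 0) (nat_lit 9456152994) (nat_lit 1260) (nat_lit 29598106821) (nat_lit 1344) (nat_lit 44782461778) (nat_lit 163) (nat_lit 5) (nat_lit 178) (nat_lit 5) (nat_lit 179) (nat_lit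 5) (nat_lit 420) (nat_lit 414) (nat_lit 111))) (XT.nd (nat_lit 94) (nat_lit 0) (nat_lit 84) (XT.lf (nat_lit 84) (nat_lit 7616129391) (nat_lit 0) (nat_lit 3859815357) (nat_lit 1344) (nat_lit 73673572885) (nat_lit 164) (nat_lit 5) (nat_lit 163) (nat_lit 5) (nat_lit 179) (nat_lit 5) (nat_lit 421) (nat_lit 414) (nat_lit 110)) (XT.lf (nat_lit 0) (nat_lit 14169187631) (nat_lit 1260) (nat_lit 40253754157) (nat_lit 1344) (nat_lit 32060370664) (nat_lit 164) (nat_lit 5) (nat_lit 179) (nat_lit 5) (nat_lit 180) (nat_lit 5) (nat_lit 422) (nat_lit 414) (nat_lit 109)))))) (XT.nd (nat_lit 658) (nat_lit 1512) (nat_lit 0) (XT.nd (nat_lit 282) (nat_lit 0) (nat_lit 168) (XT.nd (nat_lit 94) (nat_lit 0) (nat_lit 84) (XT.lf (nat_lit 0) (nat_lit 16981112101) (nat_lit 1260) (nat_lit 1894172069) (nat_lit 1344) (nat_lit 68980701019) (nat_lit 164) (nat_lit 5) (nat_lit 179) (nat_lit 5) (nat_lit 180) (nat_lit 5) (nat_lit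 423) (nat_lit 414) (nat_lit 108)) (XT.nd (nat_lit 94) (nat_lit 0) (nat_lit 0) (XT.lf (nat_lit 0) (nat_lit 20420024932) (nat_lit 1260) (nat_lit 51068342634) (nat_lit 1344) (nat_lit 17765192208) (nat_lit 165) (nat_lit 5) (nat_lit 180) (nat_lit 5) (nat_lit 181) (nat_lit 5) (nat_lit 424) (nat_lit 414) (nat_lit 107)) (XT.lf (nat_lit 0) (nat_lit 24167992169) (nat_lit 1260) (nat_lit 11373971742) (nat_lit 1344) (nat_lit 55144921642) (nat_lit 165) (nat_lit 5) (nat_lit 180) (nat_lit 5) (nat_lit 181) (nat_lit 5) (nat_lit 425) (nat_lit 414) (nat_lit 106)))) (XT.nd (nat_lit 188) (nat_lit 0) (nat_lit 0) (XT.nd (nat_lit 94) (nat_lit 0) (nat_lit 0) (XT.lf (nat_lit 0) (nat_lit 28334536684) (nat_lit 1260) (nat_lit 62073323804) (nat_lit 1344) (nat_lit 1746167020) (nat_lit 166) (nat_lit 5) (nat_lit 181) (nat_lit 5) (nat_lit 182) (nat_lit 5) (nat_lit 426) (nat_lit 414) (nat_lit 105)) (XT.lf (nat_lit 0) (nat_lit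 33093673046) (nat_lit 1260) (nat_lit 21002829937) (nat_lit 1344) (nat_lit 39554653408) (nat_lit 166) (nat_lit 5) (nat_lit 181) (nat_lit 5) (nat_lit 182) (nat_lit 5) (nat_lit 427) (nat_lit 414) (nat_lit 104))) (XT.nd (nat_lit 94) (nat_lit 0) (nat_lit 84) (XT.lf (nat_lit 84) (nat_lit 21723459614) (nat_lit 0) (nat_lit 16480654610) (nat_lit 1344) (nat_lit 56982829514) (nat_lit 167) (nat_lit 5) (nat_lit 166) (nat_lit 5) (nat_lit 182) (nat_lit 5) (nat_lit 428) (nat_lit 414) (nat_lit 103)) (XT.lf (nat_lit 0) (nat_lit 43895786352) (nat_lit 1260) (nat_lit 30816708156) (nat_lit 1344) (nat_lit 22043473170) (nat_lit 167) (nat_lit 5) (nat_lit 182) (nat_lit 5) (nat_lit 183) (nat_lit 5) (nat_lit 429) (nat_lit 414) (nat_lit 102))))) (XT.nd (nat_lit 282) (nat_lit 588) (nat_lit 0) (XT.nd (nat_lit 94) (nat_lit 1176) (nat_lit 0) (XT.lf (nat_lit 84) (nat_lit 13203725760) (nat_lit 0) (nat_lit 36844306601) (nat_lit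 1344) (nat_lit 48315335753) (nat_lit 168) (nat_lit 5) (nat_lit 167) (nat_lit 5) (nat_lit 183) (nat_lit 5) (nat_lit 430) (nat_lit 414) (nat_lit 101)) (XT.nd (nat_lit 94) (nat_lit 1260) (nat_lit 0) (XT.lf (nat_lit 0) (nat_lit 56719610615) (nat_lit 1260) (nat_lit 40857243074) (nat_lit 84) (nat_lit 2432094404) (nat_lit 168) (nat_lit 5) (nat_lit 183) (nat_lit 5) (nat_lit 169) (nat_lit 5) (nat_lit 431) (nat_lit 414) (nat_lit 100)) (XT.lf (nat_lit 0) (nat_lit 4496962136) (nat_lit 1260) (nat_lit 59502137447) (nat_lit 1344) (nat_lit 37692563448) (nat_lit 153) (nat_lit 5) (nat_lit 168) (nat_lit 5) (nat_lit 169) (nat_lit 5) (nat_lit 432) (nat_lit 414) (nat_lit 99)))) (XT.nd (nat_lit 188) (nat_lit 588) (nat_lit 0) (XT.nd (nat_lit 94) (nat_lit 0) (nat_lit 0) (XT.lf (nat_lit 0) (nat_lit 52049106253) (nat_lit 1260) (nat_lit 19860191144) (nat_lit 1344) (nat_lit 31503192743) (nat_lit 153) (nat_lit 5) (nat_lit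 168) (nat_lit 5) (nat_lit 169) (nat_lit 5) (nat_lit 433) (nat_lit 414) (nat_lit 98)) (XT.lf (nat_lit 0) (nat_lit 80258141194) (nat_lit 1344) (nat_lit 4358935968) (nat_lit 84) (nat_lit 20561825133) (nat_lit 153) (nat_lit 5) (nat_lit 169) (nat_lit 5) (nat_lit 154) (nat_lit 5) (nat_lit 434) (nat_lit 414) (nat_lit 97))) (XT.nd (nat_lit 94) (nat_lit 0) (nat_lit 0) (XT.lf (nat_lit 0) (nat_lit 44731669918) (nat_lit 588) (nat_lit 44752165126) (nat_lit 672) (nat_lit 17495680651) (nat_lit 146) (nat_lit 5) (nat_lit 153) (nat_lit 5) (nat_lit 154) (nat_lit 5) (nat_lit 435) (nat_lit 414) (nat_lit 96)) (XT.lf (nat_lit 0) (nat_lit 95384134101) (nat_lit 588) (nat_lit 3645948227) (nat_lit 672) (nat_lit 9802752100) (nat_lit 146) (nat_lit 5) (nat_lit 153) (nat_lit 5) (nat_lit 154) (nat_lit 5) (nat_lit 436) (nat_lit 414) (nat_lit 95))))))) (XT.nd (nat_lit 57622) (nat_lit 0) (nat_lit 4200) (XT.nd (nat_lit 658)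 (nat_lit 504) (nat_lit 0) (XT.nd (nat_lit 282) (nat_lit 1092) (nat_lit 0) (XT.nd (nat_lit 94) (nat_lit 672) (nat_lit 0) (XT.lf (nat_lit 0) (nat_lit 37167531767) (nat_lit 588) (nat_lit 72424180399) (nat_lit 672) (nat_lit 1128171101) (nat_lit 139) (nat_lit 5) (nat_lit 146) (nat_lit 5) (nat_lit 147) (nat_lit 5) (nat_lit 437) (nat_lit 414) (nat_lit 94)) (XT.nd (nat_lit 94) (nat_lit 588) (nat_lit 0) (XT.lf (nat_lit 0) (nat_lit 7827335035) (nat_lit 672) (nat_lit 23194236506) (nat_lit 84) (nat_lit 81634530432) (nat_lit 138) (nat_lit 5) (nat_lit 146) (nat_lit 5) (nat_lit 139) (nat_lit 5) (nat_lit 438) (nat_lit 414) (nat_lit 93)) (XT.lf (nat_lit 0) (nat_lit 17424246318) (nat_lit 672) (nat_lit 85522574915) (nat_lit 84) (nat_lit 11691388818) (nat_lit 131) (nat_lit 5) (nat_lit 139) (nat_lit 5) (nat_lit 132) (nat_lit 5) (nat_lit 439) (nat_lit 414) (nat_lit 92)))) (XT.nd (nat_lit 188) (nat_lit 504)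 (nat_lit 0) (XT.nd (nat_lit 94) (nat_lit 588) (nat_lit 0) (XT.lf (nat_lit 0) (nat_lit 27852530358) (nat_lit 672) (nat_lit 33512172224) (nat_lit 84) (nat_lit 55298775181) (nat_lit 131) (nat_lit 5) (nat_lit 139) (nat_lit 5) (nat_lit 132) (nat_lit 5) (nat_lit 440) (nat_lit 414) (nat_lit 91)) (XT.lf (nat_lit 0) (nat_lit 20457532862) (nat_lit 588) (nat_lit 18332572477) (nat_lit 672) (nat_lit 79953505237) (nat_lit 124) (nat_lit 5) (nat_lit 131) (nat_lit 5) (nat_lit 132) (nat_lit 5) (nat_lit 441) (nat_lit 414) (nat_lit 90))) (XT.nd (nat_lit 94) (nat_lit 504) (nat_lit 0) (XT.lf (nat_lit 0) (nat_lit 50647198278) (nat_lit 672) (nat_lit 44396100930) (nat_lit 84) (nat_lit 25825106777) (nat_lit 124) (nat_lit 5) (nat_lit 132) (nat_lit 5) (nat_lit 125) (nat_lit 5) (nat_lit 442) (nat_lit 414) (nat_lit 89)) (XT.lf (nat_lit 0) (nat_lit 11146362261) (nat_lit 504) (nat_lit 52002100073) (nat_lit 588) (nat_lit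 59899829496) (nat_lit 118) (nat_lit 5) (nat_lit 124) (nat_lit 5) (nat_lit 125) (nat_lit 5) (nat_lit 443) (nat_lit 414) (nat_lit 88))))) (XT.nd (nat_lit 56588) (nat_lit 0) (nat_lit 4116) (XT.nd (nat_lit 94) (nat_lit 504) (nat_lit 0) (XT.lf (nat_lit 0) (nat_lit 69264969980) (nat_lit 504) (nat_lit 7207913746) (nat_lit 588) (nat_lit 48807247258) (nat_lit 118) (nat_lit 5) (nat_lit 124) (nat_lit 5) (nat_lit 125) (nat_lit 5) (nat_lit 444) (nat_lit 414) (nat_lit 87)) (XT.nd (nat_lit 94) (nat_lit 0) (nat_lit 0) (XT.lf (nat_lit 0) (nat_lit 1197145555) (nat_lit 504) (nat_lit 89385431207) (nat_lit 588) (nat_lit 36984782684) (nat_lit 112) (nat_lit 5) (nat_lit 118) (nat_lit 5) (nat_lit 119) (nat_lit 5) (nat_lit 445) (nat_lit 414) (nat_lit 86)) (XT.lf (nat_lit 0) (nat_lit 61201087651) (nat_lit 504) (nat_lit 44550596976) (nat_lit 588) (nat_lit 24152436709) (nat_lit 112) (nat_lit 5) (nat_lit 118) (nat_lit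 5) (nat_lit 119) (nat_lit 5) (nat_lit 446) (nat_lit 414) (nat_lit 85)))) (XT.nd (nat_lit 188) (nat_lit 0) (nat_lit 0) (XT.nd (nat_lit 94) (nat_lit 0) (nat_lit 0) (XT.lf (nat_lit 0) (nat_lit 881109242) (nat_lit 0) (nat_lit 881109242) (nat_lit 1260) (nat_lit 37675355637) (nat_lit 161) (nat_lit 5) (nat_lit 161) (nat_lit 3) (nat_lit 176) (nat_lit 3) (nat_lit 415) (nat_lit 415) (nat_lit 115)) (XT.lf (nat_lit 0) (nat_lit 3907104530) (nat_lit 1260) (nat_lit 43505900090) (nat_lit 1344) (nat_lit 32635358940) (nat_lit 161) (nat_lit 5) (nat_lit 176) (nat_lit 3) (nat_lit 177) (nat_lit 5) (nat_lit 416) (nat_lit 415) (nat_lit 114))) (XT.nd (nat_lit 94) (nat_lit 0) (nat_lit 84) (XT.lf (nat_lit 0) (nat_lit 4318317389) (nat_lit 1260) (nat_lit 8908313452) (nat_lit 1344) (nat_lit 68029633233) (nat_lit 161) (nat_lit 5) (nat_lit 176) (nat_lit 3) (nat_lit 177) (nat_lit 5) (nat_lit 417) (nat_lit 415) (nat_lit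 113)) (XT.lf (nat_lit 0) (nat_lit 5217457233) (nat_lit 1260) (nat_lit 55447564722) (nat_lit 1344) (nat_lit 21821112609) (nat_lit 162) (nat_lit 5) (nat_lit 177) (nat_lit 5) (nat_lit 178) (nat_lit 5) (nat_lit 418) (nat_lit 415) (nat_lit 112)))))) (XT.nd (nat_lit 658) (nat_lit 0) (nat_lit 252) (XT.nd (nat_lit 282) (nat_lit 0) (nat_lit 84) (XT.nd (nat_lit 94) (nat_lit 0) (nat_lit 84) (XT.lf (nat_lit 0) (nat_lit 6365014361) (nat_lit 1260) (nat_lit 19635789897) (nat_lit 1344) (nat_lit 57745454277) (nat_lit 162) (nat_lit 5) (nat_lit 177) (nat_lit 5) (nat_lit 178) (nat_lit 5) (nat_lit 419) (nat_lit 415) (nat_lit 111)) (XT.nd (nat_lit 94) (nat_lit 0) (nat_lit 0) (XT.lf (nat_lit 0) (nat_lit 7810717133) (nat_lit 1260) (nat_lit 67540629636) (nat_lit 1344) (nat_lit 9684928525) (nat_lit 163) (nat_lit 5) (nat_lit 178) (nat_lit 5) (nat_lit 179) (nat_lit 5) (nat_lit 420) (nat_lit 415) (nat_lit 110)) (XT.lf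 (nat_lit 0) (nat_lit 9757130152) (nat_lit 1260) (nat_lit 30475117648) (nat_lit 1344) (nat_lit 46119025201) (nat_lit 163) (nat_lit 5) (nat_lit 178) (nat_lit 5) (nat_lit 179) (nat_lit 5) (nat_lit 421) (nat_lit 415) (nat_lit 109)))) (XT.nd (nat_lit 188) (nat_lit 0) (nat_lit 84) (XT.nd (nat_lit 94) (nat_lit 0) (nat_lit 84) (XT.lf (nat_lit 84) (nat_lit 7855438470) (nat_lit 0) (nat_lit 3981677580) (nat_lit 1344) (nat_lit 75866349777) (nat_lit 164) (nat_lit 5) (nat_lit 163) (nat_lit 5) (nat_lit 179) (nat_lit 5) (nat_lit 422) (nat_lit 415) (nat_lit 108)) (XT.lf (nat_lit 0) (nat_lit 14610607564) (nat_lit 1260) (nat_lit 41450278570) (nat_lit 1344) (nat_lit 33016405707) (nat_lit 164) (nat_lit 5) (nat_lit 179) (nat_lit 5) (nat_lit 180) (nat_lit 5) (nat_lit 423) (nat_lit 415) (nat_lit 107))) (XT.nd (nat_lit 94) (nat_lit 0) (nat_lit 84) (XT.lf (nat_lit 0) (nat_lit 17506413720) (nat_lit 1260) (nat_lit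 1940231977) (nat_lit 1344) (nat_lit 71044514208) (nat_lit 164) (nat_lit 5) (nat_lit 179) (nat_lit 5) (nat_lit 180) (nat_lit 5) (nat_lit 424) (nat_lit 415) (nat_lit 106)) (XT.lf (nat_lit 0) (nat_lit 21048087612) (nat_lit 1260) (nat_lit 52589193380) (nat_lit 1344) (nat_lit 18293393764) (nat_lit 165) (nat_lit 5) (nat_lit 180) (nat_lit 5) (nat_lit 181) (nat_lit 5) (nat_lit 425) (nat_lit 415) (nat_lit 105))))) (XT.nd (nat_lit 282) (nat_lit 0) (nat_lit 84) (XT.nd (nat_lit 94) (nat_lit 0) (nat_lit 84) (XT.lf (nat_lit 0) (nat_lit 24908043518) (nat_lit 1260) (nat_lit 11704317561) (nat_lit 1344) (nat_lit 56794653553) (nat_lit 165) (nat_lit 5) (nat_lit 180) (nat_lit 5) (nat_lit 181) (nat_lit 5) (nat_lit 426) (nat_lit 415) (nat_lit 104)) (XT.nd (nat_lit 94) (nat_lit 0) (nat_lit 0) (XT.lf (nat_lit 0) (nat_lit 29199213038) (nat_lit 1260) (nat_lit 63924252506) (nat_lit 1344) (nat_lit 1794717232) (nat_lit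 166) (nat_lit 5) (nat_lit 181) (nat_lit 5) (nat_lit 182) (nat_lit 5) (nat_lit 427) (nat_lit 415) (nat_lit 103)) (XT.lf (nat_lit 0) (nat_lit 34100697076) (nat_lit 1260) (nat_lit 21621972105) (nat_lit 1344) (nat_lit 40737569905) (nat_lit 166) (nat_lit 5) (nat_lit 181) (nat_lit 5) (nat_lit 182) (nat_lit 5) (nat_lit 428) (nat_lit 415) (nat_lit 102)))) (XT.nd (nat_lit 188) (nat_lit 0) (nat_lit 84) (XT.nd (nat_lit 94) (nat_lit 0) (nat_lit 84) (XT.lf (nat_lit 84) (nat_lit 22385998851) (nat_lit 0) (nat_lit 16978142801) (nat_lit 1344) (nat_lit 58677968442) (nat_lit 167) (nat_lit 5) (nat_lit 166) (nat_lit 5) (nat_lit 182) (nat_lit 5) (nat_lit 429) (nat_lit 415) (nat_lit 101)) (XT.lf (nat_lit 0) (nat_lit 45226130335) (nat_lit 1260) (nat_lit 31730231826) (nat_lit 1344) (nat_lit 22701856323) (nat_lit 167) (nat_lit 5) (nat_lit 182) (nat_lit 5) (nat_lit 183) (nat_lit 5) (nat_lit 430) (nat_lit 415) (nat_lit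 100))) (XT.nd (nat_lit 94) (nat_lit 0) (nat_lit 84) (XT.lf (nat_lit 84) (nat_lit 13610707484) (nat_lit 0) (nat_lit 37951948387) (nat_lit 1344) (nat_lit 49751194400) (nat_lit 168) (nat_lit 5) (nat_lit 167) (nat_lit 5) (nat_lit 183) (nat_lit 5) (nat_lit 431) (nat_lit 415) (nat_lit 99)) (XT.lf (nat_lit 0) (nat_lit 58433975932) (nat_lit 1260) (nat_lit 42071978747) (nat_lit 84) (nat_lit 2502855818) (nat_lit 168) (nat_lit 5) (nat_lit 183) (nat_lit 5) (nat_lit 169) (nat_lit 5) (nat_lit 432) (nat_lit 415) (nat_lit 98))))))))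
noncomputable def xc244 : XT := (XT.nd (nat_lit 59032) (nat_lit 0) (nat_lit 0) (XT.nd (nat_lit 57716) (nat_lit 0) (nat_lit 3612) (XT.nd (nat_lit 564) (nat_lit 1764) (nat_lit 0) (XT.nd (nat_lit 282) (nat_lit 1176) (nat_lit 0) (XT.nd (nat_lit 94) (nat_lit 0) (nat_lit 0) (XT.lf (nat_lit 0) (nat_lit 4642744956) (nat_lit 1260) (nat_lit 61288836994) (nat_lit 1344) (nat_lit 38810433623) (nat_lit 153) (nat_lit 5) (nat_lit 168) (nat_lit 5) (nat_lit 169) (nat_lit 5) (nat_lit 433) (nat_lit 415) (nat_lit 97)) (XT.nd (nat_lit 94) (nat_lit 0) (nat_lit 0) (XT.lf (nat_lit 0) (nat_lit 53621136680) (nat_lit 1260) (nat_lit 20457584668) (nat_lit 1344) (nat_lit 32435757721) (nat_lit 153) (nat_lit 5) (nat_lit 168) (nat_lit 5) (nat_lit 169) (nat_lit 5) (nat_lit 434) (nat_lit 415) (nat_lit 96)) (XT.lf (nat_lit 0) (nat_lit 82677661903) (nat_lit 1344) (nat_lit 4479064943) (nat_lit 84) (nat_lit 21177168424) (nat_lit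 153) (nat_lit 5) (nat_lit 169) (nat_lit 5) (nat_lit 154) (nat_lit 5) (nat_lit 435) (nat_lit 415) (nat_lit 95)))) (XT.nd (nat_lit 94) (nat_lit 588) (nat_lit 0) (XT.lf (nat_lit 0) (nat_lit 46084154814) (nat_lit 588) (nat_lit 46095730016) (nat_lit 672) (nat_lit 18008650099) (nat_lit 146) (nat_lit 5) (nat_lit 153) (nat_lit 5) (nat_lit 154) (nat_lit 5) (nat_lit 436) (nat_lit 415) (nat_lit 94)) (XT.nd (nat_lit 94) (nat_lit 588) (nat_lit 0) (XT.lf (nat_lit 0) (nat_lit 98255886084) (nat_lit 588) (nat_lit 3756297486) (nat_lit 672) (nat_lit 10085280321) (nat_lit 146) (nat_lit 5) (nat_lit 153) (nat_lit 5) (nat_lit 154) (nat_lit 5) (nat_lit 437) (nat_lit 415) (nat_lit 93)) (XT.lf (nat_lit 0) (nat_lit 38293046730) (nat_lit 588) (nat_lit 74597381162) (nat_lit 672) (nat_lit 1150703907) (nat_lit 139) (nat_lit 5) (nat_lit 146) (nat_lit 5) (nat_lit 147) (nat_lit 5) (nat_lit 438) (nat_lit 415) (nat_lit 92)))))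 (XT.nd (nat_lit 282) (nat_lit 1092) (nat_lit 0) (XT.nd (nat_lit 94) (nat_lit 588) (nat_lit 0) (XT.lf (nat_lit 0) (nat_lit 8072923613) (nat_lit 672) (nat_lit 23879647839) (nat_lit 84) (nat_lit 84082872582) (nat_lit 138) (nat_lit 5) (nat_lit 146) (nat_lit 5) (nat_lit 139) (nat_lit 5) (nat_lit 439) (nat_lit 415) (nat_lit 91)) (XT.nd (nat_lit 94) (nat_lit 0) (nat_lit 0) (XT.lf (nat_lit 0) (nat_lit 17957525418) (nat_lit 672) (nat_lit 88077602165) (nat_lit 84) (nat_lit 12041894798) (nat_lit 131) (nat_lit 5) (nat_lit 139) (nat_lit 5) (nat_lit 132) (nat_lit 5) (nat_lit 440) (nat_lit 415) (nat_lit 90)) (XT.lf (nat_lit 0) (nat_lit 28698350648) (nat_lit 672) (nat_lit 34507197587) (nat_lit 84) (nat_lit 56957509616) (nat_lit 131) (nat_lit 5) (nat_lit 139) (nat_lit 5) (nat_lit 132) (nat_lit 5) (nat_lit 441) (nat_lit 415) (nat_lit 89)))) (XT.nd (nat_lit 188) (nat_lit 504) (nat_lit 0) (XT.nd (nat_lit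 94) (nat_lit 0) (nat_lit 0) (XT.lf (nat_lit 0) (nat_lit 21081497280) (nat_lit 588) (nat_lit 18882355636) (nat_lit 672) (nat_lit 82341748224) (nat_lit 124) (nat_lit 5) (nat_lit 131) (nat_lit 5) (nat_lit 132) (nat_lit 5) (nat_lit 442) (nat_lit 415) (nat_lit 88)) (XT.lf (nat_lit 0) (nat_lit 52176367899) (nat_lit 672) (nat_lit 45717737045) (nat_lit 84) (nat_lit 26600044669) (nat_lit 124) (nat_lit 5) (nat_lit 132) (nat_lit 5) (nat_lit 125) (nat_lit 5) (nat_lit 443) (nat_lit 415) (nat_lit 87))) (XT.nd (nat_lit 94) (nat_lit 0) (nat_lit 0) (XT.lf (nat_lit 0) (nat_lit 11490899582) (nat_lit 504) (nat_lit 53561583741) (nat_lit 588) (nat_lit 61686954771) (nat_lit 118) (nat_lit 5) (nat_lit 124) (nat_lit 5) (nat_lit 125) (nat_lit 5) (nat_lit 444) (nat_lit 415) (nat_lit 86)) (XT.lf (nat_lit 0) (nat_lit 71352770005) (nat_lit 504) (nat_lit 7423588698) (nat_lit 588) (nat_lit 50261882530) (nat_lit 118) (nat_lit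 5) (nat_lit 124) (nat_lit 5) (nat_lit 125) (nat_lit 5) (nat_lit 445) (nat_lit 415) (nat_lit 85)))))) (XT.nd (nat_lit 658) (nat_lit 0) (nat_lit 168) (XT.nd (nat_lit 282) (nat_lit 0) (nat_lit 84) (XT.nd (nat_lit 94) (nat_lit 0) (nat_lit 0) (XT.lf (nat_lit 0) (nat_lit 912418447) (nat_lit 0) (nat_lit 912418447) (nat_lit 1260) (nat_lit 38795554190) (nat_lit 161) (nat_lit 5) (nat_lit 161) (nat_lit 3) (nat_lit 176) (nat_lit 3) (nat_lit 416) (nat_lit 416) (nat_lit 113)) (XT.nd (nat_lit 94) (nat_lit 0) (nat_lit 0) (XT.lf (nat_lit 0) (nat_lit 4043162296) (nat_lit 1260) (nat_lit 44800915813) (nat_lit 1344) (nat_lit 33605136639) (nat_lit 161) (nat_lit 5) (nat_lit 176) (nat_lit 3) (nat_lit 177) (nat_lit 5) (nat_lit 417) (nat_lit 416) (nat_lit 112)) (XT.lf (nat_lit 0) (nat_lit 4466162669) (nat_lit 1260) (nat_lit 9165697535) (nat_lit 1344) (nat_lit 70061509542) (nat_lit 161) (nat_lit 5) (nat_lit 176)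 (nat_lit 3) (nat_lit 177) (nat_lit 5) (nat_lit 418) (nat_lit 416) (nat_lit 111)))) (XT.nd (nat_lit 188) (nat_lit 0) (nat_lit 84) (XT.nd (nat_lit 94) (nat_lit 0) (nat_lit 0) (XT.lf (nat_lit 0) (nat_lit 5391759975) (nat_lit 1260) (nat_lit 57100577205) (nat_lit 1344) (nat_lit 22467815645) (nat_lit 162) (nat_lit 5) (nat_lit 177) (nat_lit 5) (nat_lit 178) (nat_lit 5) (nat_lit 419) (nat_lit 416) (nat_lit 110)) (XT.lf (nat_lit 0) (nat_lit 6573225981) (nat_lit 1260) (nat_lit 20214752469) (nat_lit 1344) (nat_lit 59470118543) (nat_lit 162) (nat_lit 5) (nat_lit 177) (nat_lit 5) (nat_lit 178) (nat_lit 5) (nat_lit 420) (nat_lit 416) (nat_lit 109))) (XT.nd (nat_lit 94) (nat_lit 0) (nat_lit 0) (XT.lf (nat_lit 0) (nat_lit 8061827548) (nat_lit 1260) (nat_lit 69556234567) (nat_lit 1344) (nat_lit 9968767225) (nat_lit 163) (nat_lit 5) (nat_lit 178) (nat_lit 5) (nat_lit 179) (nat_lit 5) (nat_lit 421) (nat_lit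 416) (nat_lit 108)) (XT.lf (nat_lit 0) (nat_lit 10066143961) (nat_lit 1260) (nat_lit 31379066364) (nat_lit 1344) (nat_lit 47496082213) (nat_lit 163) (nat_lit 5) (nat_lit 178) (nat_lit 5) (nat_lit 179) (nat_lit 5) (nat_lit 422) (nat_lit 416) (nat_lit 107))))) (XT.nd (nat_lit 282) (nat_lit 0) (nat_lit 168) (XT.nd (nat_lit 94) (nat_lit 0) (nat_lit 84) (XT.lf (nat_lit 84) (nat_lit 8101305410) (nat_lit 0) (nat_lit 4106847356) (nat_lit 1344) (nat_lit 78125910546) (nat_lit 164) (nat_lit 5) (nat_lit 163) (nat_lit 5) (nat_lit 179) (nat_lit 5) (nat_lit 423) (nat_lit 416) (nat_lit 106)) (XT.nd (nat_lit 94) (nat_lit 0) (nat_lit 0) (XT.lf (nat_lit 0) (nat_lit 15064331864) (nat_lit 1260) (nat_lit 42683335224) (nat_lit 1344) (nat_lit 34001453372) (nat_lit 164) (nat_lit 5) (nat_lit 179) (nat_lit 5) (nat_lit 180) (nat_lit 5) (nat_lit 424) (nat_lit 416) (nat_lit 105)) (XT.lf (nat_lit 0) (nat_lit 18046563485)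 (nat_lit 1260) (nat_lit 1988291651) (nat_lit 1344) (nat_lit 73170563706) (nat_lit 164) (nat_lit 5) (nat_lit 179) (nat_lit 5) (nat_lit 180) (nat_lit 5) (nat_lit 425) (nat_lit 416) (nat_lit 104)))) (XT.nd (nat_lit 188) (nat_lit 0) (nat_lit 84) (XT.nd (nat_lit 94) (nat_lit 0) (nat_lit 0) (XT.lf (nat_lit 0) (nat_lit 21694104594) (nat_lit 1260) (nat_lit 54156312548) (nat_lit 1344) (nat_lit 18837714277) (nat_lit 165) (nat_lit 5) (nat_lit 180) (nat_lit 5) (nat_lit 181) (nat_lit 5) (nat_lit 426) (nat_lit 416) (nat_lit 103)) (XT.lf (nat_lit 0) (nat_lit 25669434681) (nat_lit 1260) (nat_lit 12045197929) (nat_lit 1344) (nat_lit 58494142384) (nat_lit 165) (nat_lit 5) (nat_lit 180) (nat_lit 5) (nat_lit 181) (nat_lit 5) (nat_lit 427) (nat_lit 416) (nat_lit 102))) (XT.nd (nat_lit 94) (nat_lit 0) (nat_lit 0) (XT.lf (nat_lit 0) (nat_lit 30088989273) (nat_lit 1260) (nat_lit 65831356071) (nat_lit 1344) (nat_lit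 1844944084) (nat_lit 166) (nat_lit 5) (nat_lit 181) (nat_lit 5) (nat_lit 182) (nat_lit 5) (nat_lit 428) (nat_lit 416) (nat_lit 101)) (XT.lf (nat_lit 0) (nat_lit 35137115894) (nat_lit 1260) (nat_lit 22260316696) (nat_lit 1344) (nat_lit 41956187618) (nat_lit 166) (nat_lit 5) (nat_lit 181) (nat_lit 5) (nat_lit 182) (nat_lit 5) (nat_lit 429) (nat_lit 416) (nat_lit 100))))))) (XT.nd (nat_lit 1316) (nat_lit 504) (nat_lit 0) (XT.nd (nat_lit 658) (nat_lit 2436) (nat_lit 0) (XT.nd (nat_lit 282) (nat_lit 1092) (nat_lit 0) (XT.nd (nat_lit 94) (nat_lit 0) (nat_lit 84) (XT.lf (nat_lit 84) (nat_lit 23067792265) (nat_lit 0) (nat_lit 17490379489) (nat_lit 1344) (nat_lit 60424785056) (nat_lit 167) (nat_lit 5) (nat_lit 166) (nat_lit 5) (nat_lit 182) (nat_lit 5) (nat_lit 430) (nat_lit 416) (nat_lit 99)) (XT.nd (nat_lit 94) (nat_lit 0) (nat_lit 0) (XT.lf (nat_lit 0) (nat_lit 46595611381) (nat_lit 1260) (nat_lit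 32671791364) (nat_lit 1344) (nat_lit 23380158650) (nat_lit 167) (nat_lit 5) (nat_lit 182) (nat_lit 5) (nat_lit 183) (nat_lit 5) (nat_lit 431) (nat_lit 416) (nat_lit 98)) (XT.lf (nat_lit 84) (nat_lit 14029274680) (nat_lit 0) (nat_lit 39092686675) (nat_lit 1344) (nat_lit 51230909583) (nat_lit 168) (nat_lit 5) (nat_lit 167) (nat_lit 5) (nat_lit 183) (nat_lit 5) (nat_lit 432) (nat_lit 416) (nat_lit 97)))) (XT.nd (nat_lit 188) (nat_lit 0) (nat_lit 0) (XT.nd (nat_lit 94) (nat_lit 1260) (nat_lit 0) (XT.lf (nat_lit 0) (nat_lit 60199038757) (nat_lit 1260) (nat_lit 43323786880) (nat_lit 84) (nat_lit 2575866445) (nat_lit 168) (nat_lit 5) (nat_lit 183) (nat_lit 5) (nat_lit 169) (nat_lit 5) (nat_lit 433) (nat_lit 416) (nat_lit 96)) (XT.lf (nat_lit 0) (nat_lit 4792277052) (nat_lit 1260) (nat_lit 63129043648) (nat_lit 1344) (nat_lit 39962580802) (nat_lit 153) (nat_lit 5) (nat_lit 168) (nat_lit 5) (nat_lit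 169) (nat_lit 5) (nat_lit 434) (nat_lit 416) (nat_lit 95))) (XT.nd (nat_lit 94) (nat_lit 0) (nat_lit 0) (XT.lf (nat_lit 0) (nat_lit 55239721991) (nat_lit 1260) (nat_lit 21072808853) (nat_lit 1344) (nat_lit 33397018967) (nat_lit 153) (nat_lit 5) (nat_lit 168) (nat_lit 5) (nat_lit 169) (nat_lit 5) (nat_lit 435) (nat_lit 416) (nat_lit 94)) (XT.lf (nat_lit 0) (nat_lit 85169092215) (nat_lit 1344) (nat_lit 4603408515) (nat_lit 84) (nat_lit 21811058778) (nat_lit 153) (nat_lit 5) (nat_lit 169) (nat_lit 5) (nat_lit 154) (nat_lit 5) (nat_lit 436) (nat_lit 416) (nat_lit 93))))) (XT.nd (nat_lit 282) (nat_lit 1260) (nat_lit 0) (XT.nd (nat_lit 94) (nat_lit 588) (nat_lit 0) (XT.lf (nat_lit 0) (nat_lit 47476609517) (nat_lit 588) (nat_lit 47479544452) (nat_lit 672) (nat_lit 18537691795) (nat_lit 146) (nat_lit 5) (nat_lit 153) (nat_lit 5) (nat_lit 154) (nat_lit 5) (nat_lit 437) (nat_lit 416) (nat_lit 92))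 (XT.nd (nat_lit 94) (nat_lit 588) (nat_lit 0) (XT.lf (nat_lit 0) (nat_lit 101213203500) (nat_lit 588) (nat_lit 3869901494) (nat_lit 672) (nat_lit 10376947656) (nat_lit 146) (nat_lit 5) (nat_lit 153) (nat_lit 5) (nat_lit 154) (nat_lit 5) (nat_lit 438) (nat_lit 416) (nat_lit 91)) (XT.lf (nat_lit 0) (nat_lit 39451725029) (nat_lit 588) (nat_lit 76835750661) (nat_lit 672) (nat_lit 1174562072) (nat_lit 139) (nat_lit 5) (nat_lit 146) (nat_lit 5) (nat_lit 147) (nat_lit 5) (nat_lit 439) (nat_lit 416) (nat_lit 90)))) (XT.nd (nat_lit 188) (nat_lit 588) (nat_lit 0) (XT.nd (nat_lit 94) (nat_lit 588) (nat_lit 0) (XT.lf (nat_lit 0) (nat_lit 8325261691) (nat_lit 672) (nat_lit 24586219419) (nat_lit 84) (nat_lit 86604704821) (nat_lit 138) (nat_lit 5) (nat_lit 146) (nat_lit 5) (nat_lit 139) (nat_lit 5) (nat_lit 440) (nat_lit 416) (nat_lit 89)) (XT.lf (nat_lit 0) (nat_lit 18506197180) (nat_lit 672) (nat_lit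 90709891586) (nat_lit 84) (nat_lit 12402929487) (nat_lit 131) (nat_lit 5) (nat_lit 139) (nat_lit 5) (nat_lit 132) (nat_lit 5) (nat_lit 441) (nat_lit 416) (nat_lit 88))) (XT.nd (nat_lit 94) (nat_lit 588) (nat_lit 0) (XT.lf (nat_lit 0) (nat_lit 29568957478) (nat_lit 672) (nat_lit 35532667258) (nat_lit 84) (nat_lit 58666019220) (nat_lit 131) (nat_lit 5) (nat_lit 139) (nat_lit 5) (nat_lit 132) (nat_lit 5) (nat_lit 442) (nat_lit 416) (nat_lit 87)) (XT.lf (nat_lit 0) (nat_lit 21723592904) (nat_lit 588) (nat_lit 19448643427) (nat_lit 672) (nat_lit 84802233332) (nat_lit 124) (nat_lit 5) (nat_lit 131) (nat_lit 5) (nat_lit 132) (nat_lit 5) (nat_lit 443) (nat_lit 416) (nat_lit 86)))))) (XT.nd (nat_lit 57246) (nat_lit 0) (nat_lit 3780) (XT.nd (nat_lit 56870) (nat_lit 0) (nat_lit 3612) (XT.nd (nat_lit 94) (nat_lit 504) (nat_lit 0) (XT.lf (nat_lit 0) (nat_lit 53750852708) (nat_lit 672) (nat_lit 47079610458)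 (nat_lit 84) (nat_lit 27398220096) (nat_lit 124) (nat_lit 5) (nat_lit 132) (nat_lit 5) (nat_lit 125) (nat_lit 5) (nat_lit 444) (nat_lit 416) (nat_lit 85)) (XT.nd (nat_lit 56682) (nat_lit 0) (nat_lit 3612) (XT.lf (nat_lit 0) (nat_lit 11845190575) (nat_lit 504) (nat_lit 55167885176) (nat_lit 588) (nat_lit 63528260361) (nat_lit 118) (nat_lit 5) (nat_lit 124) (nat_lit 5) (nat_lit 125) (nat_lit 5) (nat_lit 445) (nat_lit 416) (nat_lit 84)) (XT.lf (nat_lit 0) (nat_lit 944387030) (nat_lit 0) (nat_lit 944387030) (nat_lit 1260) (nat_lit 39949936306) (nat_lit 161) (nat_lit 5) (nat_lit 161) (nat_lit 3) (nat_lit 176) (nat_lit 3) (nat_lit 417) (nat_lit 417) (nat_lit 111)))) (XT.nd (nat_lit 188) (nat_lit 0) (nat_lit 84) (XT.nd (nat_lit 94) (nat_lit 0) (nat_lit 0) (XT.lf (nat_lit 0) (nat_lit 4182220036) (nat_lit 1260) (nat_lit 46135365306) (nat_lit 1344) (nat_lit 34604540555) (nat_lit 161) (nat_lit 5)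 (nat_lit 176) (nat_lit 3) (nat_lit 177) (nat_lit 5) (nat_lit 418) (nat_lit 417) (nat_lit 110)) (XT.lf (nat_lit 0) (nat_lit 4617393055) (nat_lit 1260) (nat_lit 9431369451) (nat_lit 1344) (nat_lit 72154859505) (nat_lit 161) (nat_lit 5) (nat_lit 176) (nat_lit 3) (nat_lit 177) (nat_lit 5) (nat_lit 419) (nat_lit 417) (nat_lit 109))) (XT.nd (nat_lit 94) (nat_lit 0) (nat_lit 0) (XT.lf (nat_lit 0) (nat_lit 5570271210) (nat_lit 1260) (nat_lit 58803777895) (nat_lit 1344) (nat_lit 23134375006) (nat_lit 162) (nat_lit 5) (nat_lit 177) (nat_lit 5) (nat_lit 178) (nat_lit 5) (nat_lit 420) (nat_lit 417) (nat_lit 108)) (XT.lf (nat_lit 0) (nat_lit 6786693087) (nat_lit 1260) (nat_lit 20811664338) (nat_lit 1344) (nat_lit 61246964712) (nat_lit 162) (nat_lit 5) (nat_lit 177) (nat_lit 5) (nat_lit 178) (nat_lit 5) (nat_lit 421) (nat_lit 417) (nat_lit 107))))) (XT.nd (nat_lit 282) (nat_lit 0) (nat_lit 84) (XT.nd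 (nat_lit 94) (nat_lit 0) (nat_lit 0) (XT.lf (nat_lit 0) (nat_lit 8319507525) (nat_lit 1260) (nat_lit 71632916930) (nat_lit 1344) (nat_lit 10261506219) (nat_lit 163) (nat_lit 5) (nat_lit 178) (nat_lit 5) (nat_lit 179) (nat_lit 5) (nat_lit 422) (nat_lit 417) (nat_lit 106)) (XT.nd (nat_lit 94) (nat_lit 0) (nat_lit 0) (XT.lf (nat_lit 0) (nat_lit 10383492503) (nat_lit 1260) (nat_lit 32310725079) (nat_lit 1344) (nat_lit 48914824851) (nat_lit 163) (nat_lit 5) (nat_lit 178) (nat_lit 5) (nat_lit 179) (nat_lit 5) (nat_lit 423) (nat_lit 417) (nat_lit 105)) (XT.lf (nat_lit 84) (nat_lit 8353962620) (nat_lit 0) (nat_lit 4235443906) (nat_lit 1344) (nat_lit 80454201271) (nat_lit 164) (nat_lit 5) (nat_lit 163) (nat_lit 5) (nat_lit 179) (nat_lit 5) (nat_lit 424) (nat_lit 417) (nat_lit 104)))) (XT.nd (nat_lit 188) (nat_lit 0) (nat_lit 84) (XT.nd (nat_lit 94) (nat_lit 0) (nat_lit 0) (XT.lf (nat_lit 0) (nat_lit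 15530783523) (nat_lit 1260) (nat_lit 43953983547) (nat_lit 1344) (nat_lit 35016365004) (nat_lit 164) (nat_lit 5) (nat_lit 179) (nat_lit 5) (nat_lit 180) (nat_lit 5) (nat_lit 425) (nat_lit 417) (nat_lit 103)) (XT.lf (nat_lit 0) (nat_lit 18602059129) (nat_lit 1260) (nat_lit 2038375612) (nat_lit 1344) (nat_lit 75360698122) (nat_lit 164) (nat_lit 5) (nat_lit 179) (nat_lit 5) (nat_lit 180) (nat_lit 5) (nat_lit 426) (nat_lit 417) (nat_lit 102))) (XT.nd (nat_lit 94) (nat_lit 0) (nat_lit 0) (XT.lf (nat_lit 0) (nat_lit 22358665458) (nat_lit 1260) (nat_lit 55771051285) (nat_lit 1344) (nat_lit 19398621651) (nat_lit 165) (nat_lit 5) (nat_lit 180) (nat_lit 5) (nat_lit 181) (nat_lit 5) (nat_lit 427) (nat_lit 417) (nat_lit 101)) (XT.lf (nat_lit 0) (nat_lit 26452855320) (nat_lit 1260) (nat_lit 12396893052) (nat_lit 1344) (nat_lit 60244865631) (nat_lit 165) (nat_lit 5) (nat_lit 180) (nat_lit 5) (nat_lit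 181) (nat_lit 5) (nat_lit 428) (nat_lit 417) (nat_lit 100))))))))
noncomputable def xc245 : XT := (XT.nd (nat_lit 59126) (nat_lit 0) (nat_lit 504) (XT.nd (nat_lit 1222) (nat_lit 1680) (nat_lit 0) (XT.nd (nat_lit 564) (nat_lit 2352) (nat_lit 0) (XT.nd (nat_lit 282) (nat_lit 0) (nat_lit 84) (XT.nd (nat_lit 94) (nat_lit 0) (nat_lit 0) (XT.lf (nat_lit 0) (nat_lit 31004666627) (nat_lit 1260) (nat_lit 67796282606) (nat_lit 1344) (nat_lit 1896885237) (nat_lit 166) (nat_lit 5) (nat_lit 181) (nat_lit 5) (nat_lit 182) (nat_lit 5) (nat_lit 429) (nat_lit 417) (nat_lit 99)) (XT.nd (nat_lit 94) (nat_lit 0) (nat_lit 0) (XT.lf (nat_lit 0) (nat_lit 36203858183) (nat_lit 1260) (nat_lit 22918403723) (nat_lit 1344) (nat_lit 43211565316) (nat_lit 166) (nat_lit 5) (nat_lit 181) (nat_lit 5) (nat_lit 182) (nat_lit 5) (nat_lit 430) (nat_lit 417) (nat_lit 98)) (XT.lf (nat_lit 84) (nat_lit 23769453189) (nat_lit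 0) (nat_lit 18017817243) (nat_lit 1344) (nat_lit 62224782410) (nat_lit 167) (nat_lit 5) (nat_lit 166) (nat_lit 5) (nat_lit 182) (nat_lit 5) (nat_lit 431) (nat_lit 417) (nat_lit 97)))) (XT.nd (nat_lit 94) (nat_lit 0) (nat_lit 0) (XT.lf (nat_lit 0) (nat_lit 48005447991) (nat_lit 1260) (nat_lit 33642191673) (nat_lit 1344) (nat_lit 24078968101) (nat_lit 167) (nat_lit 5) (nat_lit 182) (nat_lit 5) (nat_lit 183) (nat_lit 5) (nat_lit 432) (nat_lit 417) (nat_lit 96)) (XT.nd (nat_lit 94) (nat_lit 0) (nat_lit 84) (XT.lf (nat_lit 84) (nat_lit 14459810731) (nat_lit 0) (nat_lit 40267521979) (nat_lit 1344) (nat_lit 52755752180) (nat_lit 168) (nat_lit 5) (nat_lit 167) (nat_lit 5) (nat_lit 183) (nat_lit 5) (nat_lit 433) (nat_lit 417) (nat_lit 95)) (XT.lf (nat_lit 0) (nat_lit 62016362118) (nat_lit 1260) (nat_lit 44613743460) (nat_lit 84) (nat_lit 2651186506) (nat_lit 168) (nat_lit 5) (nat_lit 183) (nat_lit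 5) (nat_lit 169) (nat_lit 5) (nat_lit 434) (nat_lit 417) (nat_lit 94))))) (XT.nd (nat_lit 282) (nat_lit 1260) (nat_lit 0) (XT.nd (nat_lit 94) (nat_lit 0) (nat_lit 0) (XT.lf (nat_lit 0) (nat_lit 4945706733) (nat_lit 1260) (nat_lit 65024368011) (nat_lit 1344) (nat_lit 41149990765) (nat_lit 153) (nat_lit 5) (nat_lit 168) (nat_lit 5) (nat_lit 169) (nat_lit 5) (nat_lit 435) (nat_lit 417) (nat_lit 93)) (XT.nd (nat_lit 94) (nat_lit 0) (nat_lit 0) (XT.lf (nat_lit 0) (nat_lit 56906293621) (nat_lit 1260) (nat_lit 21706403850) (nat_lit 1344) (nat_lit 34387796079) (nat_lit 153) (nat_lit 5) (nat_lit 168) (nat_lit 5) (nat_lit 169) (nat_lit 5) (nat_lit 436) (nat_lit 417) (nat_lit 92)) (XT.lf (nat_lit 0) (nat_lit 87734628224) (nat_lit 1344) (nat_lit 4732058065) (nat_lit 84) (nat_lit 22464047626) (nat_lit 153) (nat_lit 5) (nat_lit 169) (nat_lit 5) (nat_lit 154) (nat_lit 5) (nat_lit 437) (nat_lit 417) (nat_lit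 91)))) (XT.nd (nat_lit 188) (nat_lit 672) (nat_lit 0) (XT.nd (nat_lit 94) (nat_lit 0) (nat_lit 0) (XT.lf (nat_lit 0) (nat_lit 48910267835) (nat_lit 588) (nat_lit 48904819217) (nat_lit 672) (nat_lit 19083248689) (nat_lit 146) (nat_lit 5) (nat_lit 153) (nat_lit 5) (nat_lit 154) (nat_lit 5) (nat_lit 438) (nat_lit 417) (nat_lit 90)) (XT.lf (nat_lit 0) (nat_lit 104258687015) (nat_lit 588) (nat_lit 3986861093) (nat_lit 672) (nat_lit 10677990203) (nat_lit 146) (nat_lit 5) (nat_lit 153) (nat_lit 5) (nat_lit 154) (nat_lit 5) (nat_lit 439) (nat_lit 417) (nat_lit 89))) (XT.nd (nat_lit 94) (nat_lit 84) (nat_lit 0) (XT.lf (nat_lit 0) (nat_lit 40644596130) (nat_lit 588) (nat_lit 79141245524) (nat_lit 672) (nat_lit 1199748078) (nat_lit 139) (nat_lit 5) (nat_lit 146) (nat_lit 5) (nat_lit 147) (nat_lit 5) (nat_lit 440) (nat_lit 417) (nat_lit 88)) (XT.lf (nat_lit 0) (nat_lit 8584587238) (nat_lit 672) (nat_lit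 25314551732) (nat_lit 84) (nat_lit 89202229567) (nat_lit 138) (nat_lit 5) (nat_lit 146) (nat_lit 5) (nat_lit 139) (nat_lit 5) (nat_lit 441) (nat_lit 417) (nat_lit 87)))))) (XT.nd (nat_lit 57246) (nat_lit 0) (nat_lit 3612) (XT.nd (nat_lit 282) (nat_lit 504) (nat_lit 0) (XT.nd (nat_lit 94) (nat_lit 588) (nat_lit 0) (XT.lf (nat_lit 0) (nat_lit 19070758154) (nat_lit 672) (nat_lit 93421725948) (nat_lit 84) (nat_lit 12774807969) (nat_lit 131) (nat_lit 5) (nat_lit 139) (nat_lit 5) (nat_lit 132) (nat_lit 5) (nat_lit 442) (nat_lit 417) (nat_lit 86)) (XT.nd (nat_lit 94) (nat_lit 588) (nat_lit 0) (XT.lf (nat_lit 0) (nat_lit 30465128200) (nat_lit 672) (nat_lit 36589460494) (nat_lit 84) (nat_lit 60425796494) (nat_lit 131) (nat_lit 5) (nat_lit 139) (nat_lit 5) (nat_lit 132) (nat_lit 5) (nat_lit 443) (nat_lit 417) (nat_lit 85)) (XT.lf (nat_lit 0) (nat_lit 22384397406) (nat_lit 588) (nat_lit 20031930349)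 (nat_lit 672) (nat_lit 87337093678) (nat_lit 124) (nat_lit 5) (nat_lit 131) (nat_lit 5) (nat_lit 132) (nat_lit 5) (nat_lit 444) (nat_lit 417) (nat_lit 84)))) (XT.nd (nat_lit 56776) (nat_lit 0) (nat_lit 3612) (XT.nd (nat_lit 94) (nat_lit 504) (nat_lit 0) (XT.lf (nat_lit 0) (nat_lit 55372044301) (nat_lit 672) (nat_lit 48482894522) (nat_lit 84) (nat_lit 28220330792) (nat_lit 124) (nat_lit 5) (nat_lit 132) (nat_lit 5) (nat_lit 125) (nat_lit 5) (nat_lit 445) (nat_lit 417) (nat_lit 83)) (XT.lf (nat_lit 0) (nat_lit 12209561284) (nat_lit 504) (nat_lit 56822407000) (nat_lit 588) (nat_lit 65425339151) (nat_lit 118) (nat_lit 5) (nat_lit 124) (nat_lit 5) (nat_lit 125) (nat_lit 5) (nat_lit 446) (nat_lit 417) (nat_lit 82))) (XT.nd (nat_lit 94) (nat_lit 0) (nat_lit 0) (XT.lf (nat_lit 0) (nat_lit 977050839) (nat_lit 0) (nat_lit 977050839) (nat_lit 1260) (nat_lit 41139494335) (nat_lit 161) (nat_lit 5)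 (nat_lit 161) (nat_lit 3) (nat_lit 176) (nat_lit 3) (nat_lit 418) (nat_lit 418) (nat_lit 109)) (XT.lf (nat_lit 0) (nat_lit 4324429848) (nat_lit 1260) (nat_lit 47510398100) (nat_lit 1344) (nat_lit 35634428885) (nat_lit 161) (nat_lit 5) (nat_lit 176) (nat_lit 3) (nat_lit 177) (nat_lit 5) (nat_lit 419) (nat_lit 418) (nat_lit 108))))) (XT.nd (nat_lit 282) (nat_lit 0) (nat_lit 168) (XT.nd (nat_lit 94) (nat_lit 0) (nat_lit 84) (XT.lf (nat_lit 0) (nat_lit 4772170390) (nat_lit 1260) (nat_lit 9705545326) (nat_lit 1344) (nat_lit 74311497633) (nat_lit 161) (nat_lit 5) (nat_lit 176) (nat_lit 3) (nat_lit 177) (nat_lit 5) (nat_lit 420) (nat_lit 418) (nat_lit 107)) (XT.nd (nat_lit 94) (nat_lit 0) (nat_lit 0) (XT.lf (nat_lit 0) (nat_lit 5753175780) (nat_lit 1260) (nat_lit 60558638120) (nat_lit 1344) (nat_lit 23821360249) (nat_lit 162) (nat_lit 5) (nat_lit 177) (nat_lit 5) (nat_lit 178) (nat_lit 5) (nat_lit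 421) (nat_lit 418) (nat_lit 106)) (XT.lf (nat_lit 0) (nat_lit 7005630222) (nat_lit 1260) (nat_lit 21427030664) (nat_lit 1344) (nat_lit 63077532870) (nat_lit 162) (nat_lit 5) (nat_lit 177) (nat_lit 5) (nat_lit 178) (nat_lit 5) (nat_lit 422) (nat_lit 418) (nat_lit 105)))) (XT.nd (nat_lit 188) (nat_lit 0) (nat_lit 0) (XT.nd (nat_lit 94) (nat_lit 0) (nat_lit 0) (XT.lf (nat_lit 0) (nat_lit 8584009472) (nat_lit 1260) (nat_lit 73772474074) (nat_lit 1344) (nat_lit 10563390407) (nat_lit 163) (nat_lit 5) (nat_lit 178) (nat_lit 5) (nat_lit 179) (nat_lit 5) (nat_lit 423) (nat_lit 418) (nat_lit 104)) (XT.lf (nat_lit 0) (nat_lit 10709479532) (nat_lit 1260) (nat_lit 33270891138) (nat_lit 1344) (nat_lit 50376482220) (nat_lit 163) (nat_lit 5) (nat_lit 178) (nat_lit 5) (nat_lit 179) (nat_lit 5) (nat_lit 424) (nat_lit 418) (nat_lit 103))) (XT.nd (nat_lit 94) (nat_lit 0) (nat_lit 84) (XT.lf (nat_lit 84) (nat_lit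 8613647431) (nat_lit 0) (nat_lit 4367588879) (nat_lit 1344) (nat_lit 82853229712) (nat_lit 164) (nat_lit 5) (nat_lit 163) (nat_lit 5) (nat_lit 179) (nat_lit 5) (nat_lit 425) (nat_lit 418) (nat_lit 102)) (XT.lf (nat_lit 0) (nat_lit 16010395125) (nat_lit 1260) (nat_lit 45263316851) (nat_lit 1344) (nat_lit 36062018581) (nat_lit 164) (nat_lit 5) (nat_lit 179) (nat_lit 5) (nat_lit 180) (nat_lit 5) (nat_lit 426) (nat_lit 418) (nat_lit 101))))))) (XT.nd (nat_lit 1316) (nat_lit 1848) (nat_lit 0) (XT.nd (nat_lit 658) (nat_lit 1512) (nat_lit 0) (XT.nd (nat_lit 282) (nat_lit 0) (nat_lit 168) (XT.nd (nat_lit 94) (nat_lit 0) (nat_lit 84) (XT.lf (nat_lit 0) (nat_lit 19173410318) (nat_lit 1260) (nat_lit 2090511149) (nat_lit 1344) (nat_lit 77616822587) (nat_lit 164) (nat_lit 5) (nat_lit 179) (nat_lit 5) (nat_lit 180) (nat_lit 5) (nat_lit 427) (nat_lit 418) (nat_lit 100)) (XT.nd (nat_lit 94) (nat_lit 0)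 (nat_lit 0) (XT.lf (nat_lit 0) (nat_lit 23042374546) (nat_lit 1260) (nat_lit 57434803391) (nat_lit 1344) (nat_lit 19976598724) (nat_lit 165) (nat_lit 5) (nat_lit 180) (nat_lit 5) (nat_lit 181) (nat_lit 5) (nat_lit 428) (nat_lit 418) (nat_lit 99)) (XT.lf (nat_lit 0) (nat_lit 27259012945) (nat_lit 1260) (nat_lit 12759693599) (nat_lit 1344) (nat_lit 62048345992) (nat_lit 165) (nat_lit 5) (nat_lit 180) (nat_lit 5) (nat_lit 181) (nat_lit 5) (nat_lit 429) (nat_lit 418) (nat_lit 98)))) (XT.nd (nat_lit 188) (nat_lit 0) (nat_lit 0) (XT.nd (nat_lit 94) (nat_lit 0) (nat_lit 0) (XT.lf (nat_lit 0) (nat_lit 31947067608) (nat_lit 1260) (nat_lit 69820731789) (nat_lit 1344) (nat_lit 1950580211) (nat_lit 166) (nat_lit 5) (nat_lit 181) (nat_lit 5) (nat_lit 182) (nat_lit 5) (nat_lit 430) (nat_lit 418) (nat_lit 97)) (XT.lf (nat_lit 0) (nat_lit 37301877794) (nat_lit 1260) (nat_lit 23596791470) (nat_lit 1344)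 (nat_lit 44504794233) (nat_lit 166) (nat_lit 5) (nat_lit 181) (nat_lit 5) (nat_lit 182) (nat_lit 5) (nat_lit 431) (nat_lit 418) (nat_lit 96))) (XT.nd (nat_lit 94) (nat_lit 0) (nat_lit 84) (XT.lf (nat_lit 84) (nat_lit 24491611302) (nat_lit 0) (nat_lit 18560921624) (nat_lit 1344) (nat_lit 64079511370) (nat_lit 167) (nat_lit 5) (nat_lit 166) (nat_lit 5) (nat_lit 182) (nat_lit 5) (nat_lit 432) (nat_lit 418) (nat_lit 95)) (XT.lf (nat_lit 0) (nat_lit 49456892672) (nat_lit 1260) (nat_lit 34642263877) (nat_lit 1344) (nat_lit 24798890817) (nat_lit 167) (nat_lit 5) (nat_lit 182) (nat_lit 5) (nat_lit 183) (nat_lit 5) (nat_lit 433) (nat_lit 418) (nat_lit 94))))) (XT.nd (nat_lit 282) (nat_lit 588) (nat_lit 0) (XT.nd (nat_lit 94) (nat_lit 1176) (nat_lit 0) (XT.lf (nat_lit 84) (nat_lit 14902708466) (nat_lit 0) (nat_lit 41477484395) (nat_lit 1344) (nat_lit 54327033766) (nat_lit 168) (nat_lit 5) (nat_lit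 167) (nat_lit 5) (nat_lit 183) (nat_lit 5) (nat_lit 434) (nat_lit 418) (nat_lit 93)) (XT.nd (nat_lit 94) (nat_lit 1260) (nat_lit 0) (XT.lf (nat_lit 0) (nat_lit 63887553517) (nat_lit 1260) (nat_lit 45942958830) (nat_lit 84) (nat_lit 2728878448) (nat_lit 168) (nat_lit 5) (nat_lit 183) (nat_lit 5) (nat_lit 169) (nat_lit 5) (nat_lit 435) (nat_lit 418) (nat_lit 92)) (XT.lf (nat_lit 0) (nat_lit 5103184702) (nat_lit 1260) (nat_lit 66976468693) (nat_lit 1344) (nat_lit 42373681305) (nat_lit 153) (nat_lit 5) (nat_lit 168) (nat_lit 5) (nat_lit 169) (nat_lit 5) (nat_lit 436) (nat_lit 418) (nat_lit 91)))) (XT.nd (nat_lit 188) (nat_lit 588) (nat_lit 0) (XT.nd (nat_lit 94) (nat_lit 0) (nat_lit 0) (XT.lf (nat_lit 0) (nat_lit 58622323951) (nat_lit 1260) (nat_lit 22358925715) (nat_lit 1344) (nat_lit 35408935609) (nat_lit 153) (nat_lit 5) (nat_lit 168) (nat_lit 5) (nat_lit 169) (nat_lit 5) (nat_lit 437)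 (nat_lit 418) (nat_lit 90)) (XT.lf (nat_lit 0) (nat_lit 90376529682) (nat_lit 1344) (nat_lit 4865109725) (nat_lit 84) (nat_lit 23136703228) (nat_lit 153) (nat_lit 5) (nat_lit 169) (nat_lit 5) (nat_lit 154) (nat_lit 5) (nat_lit 438) (nat_lit 418) (nat_lit 89))) (XT.nd (nat_lit 94) (nat_lit 0) (nat_lit 0) (XT.lf (nat_lit 0) (nat_lit 50386398599) (nat_lit 588) (nat_lit 50372801224) (nat_lit 672) (nat_lit 19645779274) (nat_lit 146) (nat_lit 5) (nat_lit 153) (nat_lit 5) (nat_lit 154) (nat_lit 5) (nat_lit 439) (nat_lit 418) (nat_lit 88)) (XT.lf (nat_lit 0) (nat_lit 107395013381) (nat_lit 588) (nat_lit 4107279966) (nat_lit 672) (nat_lit 10988653330) (nat_lit 146) (nat_lit 5) (nat_lit 153) (nat_lit 5) (nat_lit 154) (nat_lit 5) (nat_lit 440) (nat_lit 418) (nat_lit 87)))))) (XT.nd (nat_lit 57340) (nat_lit 0) (nat_lit 3108) (XT.nd (nat_lit 282) (nat_lit 588) (nat_lit 0) (XT.nd (nat_lit 94) (nat_lit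 672) (nat_lit 0) (XT.lf (nat_lit 0) (nat_lit 41872718395) (nat_lit 588) (nat_lit 81515880989) (nat_lit 672) (nat_lit 1226266624) (nat_lit 139) (nat_lit 5) (nat_lit 146) (nat_lit 5) (nat_lit 147) (nat_lit 5) (nat_lit 441) (nat_lit 418) (nat_lit 86)) (XT.nd (nat_lit 94) (nat_lit 588) (nat_lit 0) (XT.lf (nat_lit 0) (nat_lit 8851143327) (nat_lit 672) (nat_lit 26065265247) (nat_lit 84) (nat_lit 91877715438) (nat_lit 138) (nat_lit 5) (nat_lit 146) (nat_lit 5) (nat_lit 139) (nat_lit 5) (nat_lit 442) (nat_lit 418) (nat_lit 85)) (XT.lf (nat_lit 0) (nat_lit 19651717791) (nat_lit 672) (nat_lit 96215458521) (nat_lit 84) (nat_lit 13157854826) (nat_lit 131) (nat_lit 5) (nat_lit 139) (nat_lit 5) (nat_lit 132) (nat_lit 5) (nat_lit 443) (nat_lit 418) (nat_lit 84)))) (XT.nd (nat_lit 188) (nat_lit 0) (nat_lit 0) (XT.nd (nat_lit 94) (nat_lit 588) (nat_lit 0) (XT.lf (nat_lit 0) (nat_lit 31387661553) (nat_lit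 672) (nat_lit 37678484886) (nat_lit 84) (nat_lit 62238378756) (nat_lit 131) (nat_lit 5) (nat_lit 139) (nat_lit 5) (nat_lit 132) (nat_lit 5) (nat_lit 444) (nat_lit 418) (nat_lit 83)) (XT.lf (nat_lit 0) (nat_lit 23064503855) (nat_lit 588) (nat_lit 20632725775) (nat_lit 672) (nat_lit 89948528334) (nat_lit 124) (nat_lit 5) (nat_lit 131) (nat_lit 5) (nat_lit 132) (nat_lit 5) (nat_lit 445) (nat_lit 418) (nat_lit 82))) (XT.nd (nat_lit 56776) (nat_lit 0) (nat_lit 3108) (XT.lf (nat_lit 0) (nat_lit 57041374177) (nat_lit 672) (nat_lit 49928799730) (nat_lit 84) (nat_lit 29067095390) (nat_lit 124) (nat_lit 5) (nat_lit 132) (nat_lit 5) (nat_lit 125) (nat_lit 5) (nat_lit 446) (nat_lit 418) (nat_lit 81)) (XT.lf (nat_lit 0) (nat_lit 1010445877) (nat_lit 0) (nat_lit 1010445877) (nat_lit 1260) (nat_lit 42365252301) (nat_lit 161) (nat_lit 5) (nat_lit 161) (nat_lit 3) (nat_lit 176) (nat_lit 3) (nat_lit 419)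 (nat_lit 419) (nat_lit 107))))) (XT.nd (nat_lit 282) (nat_lit 0) (nat_lit 84) (XT.nd (nat_lit 94) (nat_lit 0) (nat_lit 0) (XT.lf (nat_lit 0) (nat_lit 4469944824) (nat_lit 1260) (nat_lit 48927200132) (nat_lit 1344) (nat_lit 36695687328) (nat_lit 161) (nat_lit 5) (nat_lit 176) (nat_lit 3) (nat_lit 177) (nat_lit 5) (nat_lit 420) (nat_lit 419) (nat_lit 106)) (XT.nd (nat_lit 94) (nat_lit 0) (nat_lit 84) (XT.lf (nat_lit 0) (nat_lit 4930657911) (nat_lit 1260) (nat_lit 9988449635) (nat_lit 1344) (nat_lit 76533294577) (nat_lit 161) (nat_lit 5) (nat_lit 176) (nat_lit 3) (nat_lit 177) (nat_lit 5) (nat_lit 421) (nat_lit 419) (nat_lit 105)) (XT.lf (nat_lit 0) (nat_lit 5940660707) (nat_lit 1260) (nat_lit 62366675319) (nat_lit 1344) (nat_lit 24529359519) (nat_lit 162) (nat_lit 5) (nat_lit 177) (nat_lit 5) (nat_lit 178) (nat_lit 5) (nat_lit 422) (nat_lit 419) (nat_lit 104)))) (XT.nd (nat_lit 188) (nat_lit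 0) (nat_lit 84) (XT.nd (nat_lit 94) (nat_lit 0) (nat_lit 84) (XT.lf (nat_lit 0) (nat_lit 7230255103) (nat_lit 1260) (nat_lit 22061373676) (nat_lit 1344) (nat_lit 64963410762) (nat_lit 162) (nat_lit 5) (nat_lit 177) (nat_lit 5) (nat_lit 178) (nat_lit 5) (nat_lit 423) (nat_lit 419) (nat_lit 103)) (XT.lf (nat_lit 0) (nat_lit 8855590197) (nat_lit 1260) (nat_lit 75976759273) (nat_lit 1344) (nat_lit 10874673307) (nat_lit 163) (nat_lit 5) (nat_lit 178) (nat_lit 5) (nat_lit 179) (nat_lit 5) (nat_lit 424) (nat_lit 419) (nat_lit 102))) (XT.nd (nat_lit 94) (nat_lit 0) (nat_lit 0) (XT.lf (nat_lit 0) (nat_lit 11044414831) (nat_lit 1260) (nat_lit 34260387753) (nat_lit 1344) (nat_lit 51882321529) (nat_lit 163) (nat_lit 5) (nat_lit 178) (nat_lit 5) (nat_lit 179) (nat_lit 5) (nat_lit 425) (nat_lit 419) (nat_lit 101)) (XT.lf (nat_lit 84) (nat_lit 8880602364) (nat_lit 0) (nat_lit 4503406493) (nat_lit 1344)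 (nat_lit 85325066968) (nat_lit 164) (nat_lit 5) (nat_lit 163) (nat_lit 5) (nat_lit 179) (nat_lit 5) (nat_lit 426) (nat_lit 419) (nat_lit 100))))))))
noncomputable def xc246 : XT := (XT.nd (nat_lit 59314) (nat_lit 0) (nat_lit 588) (XT.nd (nat_lit 1222) (nat_lit 2436) (nat_lit 0) (XT.nd (nat_lit 564) (nat_lit 924) (nat_lit 0) (XT.nd (nat_lit 282) (nat_lit 0) (nat_lit 84) (XT.nd (nat_lit 94) (nat_lit 0) (nat_lit 0) (XT.lf (nat_lit 0) (nat_lit 16503609323) (nat_lit 1260) (nat_lit 46612463219) (nat_lit 1344) (nat_lit 37139319450) (nat_lit 164) (nat_lit 5) (nat_lit 179) (nat_lit 5) (nat_lit 180) (nat_lit 5) (nat_lit 427) (nat_lit 419) (nat_lit 99)) (XT.nd (nat_lit 94) (nat_lit 0) (nat_lit 84) (XT.lf (nat_lit 0) (nat_lit 19761139175) (nat_lit 1260) (nat_lit 2144728292) (nat_lit 1344) (nat_lit 79940900383) (nat_lit 164) (nat_lit 5) (nat_lit 179) (nat_lit 5) (nat_lit 180) (nat_lit 5) (nat_lit 428)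 (nat_lit 419) (nat_lit 98)) (XT.lf (nat_lit 0) (nat_lit 23745851574) (nat_lit 1260) (nat_lit 59149006478) (nat_lit 1344) (nat_lit 20572143668) (nat_lit 165) (nat_lit 5) (nat_lit 180) (nat_lit 5) (nat_lit 181) (nat_lit 5) (nat_lit 429) (nat_lit 419) (nat_lit 97)))) (XT.nd (nat_lit 94) (nat_lit 0) (nat_lit 84) (XT.lf (nat_lit 0) (nat_lit 28088633616) (nat_lit 1260) (nat_lit 13133900897) (nat_lit 1344) (nat_lit 63906152665) (nat_lit 165) (nat_lit 5) (nat_lit 180) (nat_lit 5) (nat_lit 181) (nat_lit 5) (nat_lit 430) (nat_lit 419) (nat_lit 96)) (XT.nd (nat_lit 94) (nat_lit 0) (nat_lit 0) (XT.lf (nat_lit 0) (nat_lit 32917036788) (nat_lit 1260) (nat_lit 71906456302) (nat_lit 1344) (nat_lit 2006070392) (nat_lit 166) (nat_lit 5) (nat_lit 181) (nat_lit 5) (nat_lit 182) (nat_lit 5) (nat_lit 431) (nat_lit 419) (nat_lit 95)) (XT.lf (nat_lit 0) (nat_lit 38432154664) (nat_lit 1260) (nat_lit 24296056922)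 (nat_lit 1344) (nat_lit 45836999007) (nat_lit 166) (nat_lit 5) (nat_lit 181) (nat_lit 5) (nat_lit 182) (nat_lit 5) (nat_lit 432) (nat_lit 419) (nat_lit 94))))) (XT.nd (nat_lit 282) (nat_lit 1092) (nat_lit 0) (XT.nd (nat_lit 94) (nat_lit 0) (nat_lit 84) (XT.lf (nat_lit 84) (nat_lit 25234913244) (nat_lit 0) (nat_lit 19120171616) (nat_lit 1344) (nat_lit 65990571880) (nat_lit 167) (nat_lit 5) (nat_lit 166) (nat_lit 5) (nat_lit 182) (nat_lit 5) (nat_lit 433) (nat_lit 419) (nat_lit 93)) (XT.nd (nat_lit 94) (nat_lit 0) (nat_lit 0) (XT.lf (nat_lit 0) (nat_lit 50951233104) (nat_lit 1260) (nat_lit 35672865995) (nat_lit 1344) (nat_lit 25540551644) (nat_lit 167) (nat_lit 5) (nat_lit 182) (nat_lit 5) (nat_lit 183) (nat_lit 5) (nat_lit 434) (nat_lit 419) (nat_lit 92)) (XT.lf (nat_lit 84) (nat_lit 15358370560) (nat_lit 0) (nat_lit 42723634505) (nat_lit 1344) (nat_lit 55946107687) (nat_lit 168) (nat_lit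 5) (nat_lit 167) (nat_lit 5) (nat_lit 183) (nat_lit 5) (nat_lit 435) (nat_lit 419) (nat_lit 91)))) (XT.nd (nat_lit 188) (nat_lit 0) (nat_lit 0) (XT.nd (nat_lit 94) (nat_lit 1260) (nat_lit 0) (XT.lf (nat_lit 0) (nat_lit 65814266403) (nat_lit 1260) (nat_lit 47312578603) (nat_lit 84) (nat_lit 2809006982) (nat_lit 168) (nat_lit 5) (nat_lit 183) (nat_lit 5) (nat_lit 169) (nat_lit 5) (nat_lit 436) (nat_lit 419) (nat_lit 90)) (XT.lf (nat_lit 0) (nat_lit 5264864245) (nat_lit 1260) (nat_lit 68987053772) (nat_lit 1344) (nat_lit 43634703054) (nat_lit 153) (nat_lit 5) (nat_lit 168) (nat_lit 5) (nat_lit 169) (nat_lit 5) (nat_lit 437) (nat_lit 419) (nat_lit 89))) (XT.nd (nat_lit 94) (nat_lit 0) (nat_lit 0) (XT.lf (nat_lit 0) (nat_lit 60389327652) (nat_lit 1260) (nat_lit 23030946902) (nat_lit 1344) (nat_lit 36461311745) (nat_lit 153) (nat_lit 5) (nat_lit 168) (nat_lit 5) (nat_lit 169) (nat_lit 5) (nat_lit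 438) (nat_lit 419) (nat_lit 88)) (XT.lf (nat_lit 0) (nat_lit 93097122028) (nat_lit 1344) (nat_lit 5002664410) (nat_lit 84) (nat_lit 23829611162) (nat_lit 153) (nat_lit 5) (nat_lit 169) (nat_lit 5) (nat_lit 154) (nat_lit 5) (nat_lit 439) (nat_lit 419) (nat_lit 87)))))) (XT.nd (nat_lit 57434) (nat_lit 0) (nat_lit 3108) (XT.nd (nat_lit 282) (nat_lit 1260) (nat_lit 0) (XT.nd (nat_lit 94) (nat_lit 588) (nat_lit 0) (XT.lf (nat_lit 0) (nat_lit 51906306824) (nat_lit 588) (nat_lit 51884774620) (nat_lit 672) (nat_lit 20225757915) (nat_lit 146) (nat_lit 5) (nat_lit 153) (nat_lit 5) (nat_lit 154) (nat_lit 5) (nat_lit 440) (nat_lit 419) (nat_lit 86)) (XT.nd (nat_lit 94) (nat_lit 588) (nat_lit 0) (XT.lf (nat_lit 0) (nat_lit 110624937829) (nat_lit 588) (nat_lit 4231264733) (nat_lit 672) (nat_lit 11309191826) (nat_lit 146) (nat_lit 5) (nat_lit 153) (nat_lit 5) (nat_lit 154) (nat_lit 5) (nat_lit 441) (nat_lit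 419) (nat_lit 85)) (XT.lf (nat_lit 0) (nat_lit 43137180068) (nat_lit 588) (nat_lit 83961732665) (nat_lit 672) (nat_lit 1254124568) (nat_lit 139) (nat_lit 5) (nat_lit 146) (nat_lit 5) (nat_lit 147) (nat_lit 5) (nat_lit 442) (nat_lit 419) (nat_lit 84)))) (XT.nd (nat_lit 188) (nat_lit 588) (nat_lit 0) (XT.nd (nat_lit 94) (nat_lit 588) (nat_lit 0) (XT.lf (nat_lit 0) (nat_lit 9125178401) (nat_lit 672) (nat_lit 26839000906) (nat_lit 84) (nat_lit 94633499238) (nat_lit 138) (nat_lit 5) (nat_lit 146) (nat_lit 5) (nat_lit 139) (nat_lit 5) (nat_lit 443) (nat_lit 419) (nat_lit 83)) (XT.lf (nat_lit 0) (nat_lit 20249598942) (nat_lit 672) (nat_lit 99093515070) (nat_lit 84) (nat_lit 13552404420) (nat_lit 131) (nat_lit 5) (nat_lit 139) (nat_lit 5) (nat_lit 132) (nat_lit 5) (nat_lit 444) (nat_lit 419) (nat_lit 82))) (XT.nd (nat_lit 94) (nat_lit 588) (nat_lit 0) (XT.lf (nat_lit 0) (nat_lit 32337378407) (nat_lit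 672) (nat_lit 38800677096) (nat_lit 84) (nat_lit 64105349486) (nat_lit 131) (nat_lit 5) (nat_lit 139) (nat_lit 5) (nat_lit 132) (nat_lit 5) (nat_lit 445) (nat_lit 419) (nat_lit 81)) (XT.lf (nat_lit 0) (nat_lit 23764521284) (nat_lit 588) (nat_lit 21251554391) (nat_lit 672) (nat_lit 92638804191) (nat_lit 124) (nat_lit 5) (nat_lit 131) (nat_lit 5) (nat_lit 132) (nat_lit 5) (nat_lit 446) (nat_lit 419) (nat_lit 80))))) (XT.nd (nat_lit 282) (nat_lit 0) (nat_lit 84) (XT.nd (nat_lit 94) (nat_lit 0) (nat_lit 0) (XT.lf (nat_lit 0) (nat_lit 1044608355) (nat_lit 0) (nat_lit 1044608355) (nat_lit 1260) (nat_lit 43628266743) (nat_lit 161) (nat_lit 5) (nat_lit 161) (nat_lit 3) (nat_lit 176) (nat_lit 3) (nat_lit 420) (nat_lit 420) (nat_lit 105)) (XT.nd (nat_lit 94) (nat_lit 0) (nat_lit 0) (XT.lf (nat_lit 0) (nat_lit 4618919294) (nat_lit 1260) (nat_lit 50386994728) (nat_lit 1344) (nat_lit 37789229807) (nat_lit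 161) (nat_lit 5) (nat_lit 176) (nat_lit 3) (nat_lit 177) (nat_lit 5) (nat_lit 421) (nat_lit 420) (nat_lit 104)) (XT.lf (nat_lit 0) (nat_lit 5093020489) (nat_lit 1260) (nat_lit 10280315350) (nat_lit 1344) (nat_lit 78822178715) (nat_lit 161) (nat_lit 5) (nat_lit 176) (nat_lit 3) (nat_lit 177) (nat_lit 5) (nat_lit 422) (nat_lit 420) (nat_lit 103)))) (XT.nd (nat_lit 188) (nat_lit 0) (nat_lit 84) (XT.nd (nat_lit 94) (nat_lit 0) (nat_lit 0) (XT.lf (nat_lit 0) (nat_lit 6132915454) (nat_lit 1260) (nat_lit 64229454308) (nat_lit 1344) (nat_lit 25258980019) (nat_lit 162) (nat_lit 5) (nat_lit 177) (nat_lit 5) (nat_lit 178) (nat_lit 5) (nat_lit 423) (nat_lit 420) (nat_lit 102)) (XT.lf (nat_lit 0) (nat_lit 7460788898) (nat_lit 1260) (nat_lit 22715233071) (nat_lit 1344) (nat_lit 66906235138) (nat_lit 162) (nat_lit 5) (nat_lit 177) (nat_lit 5) (nat_lit 178) (nat_lit 5) (nat_lit 424) (nat_lit 420) (nat_lit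 101))) (XT.nd (nat_lit 94) (nat_lit 0) (nat_lit 0) (XT.lf (nat_lit 0) (nat_lit 9134511217) (nat_lit 1260) (nat_lit 78247683294) (nat_lit 1344) (nat_lit 11195617237) (nat_lit 163) (nat_lit 5) (nat_lit 178) (nat_lit 5) (nat_lit 179) (nat_lit 5) (nat_lit 425) (nat_lit 420) (nat_lit 100)) (XT.lf (nat_lit 0) (nat_lit 11388614571) (nat_lit 1260) (nat_lit 35280064670) (nat_lit 1344) (nat_lit 53433649166) (nat_lit 163) (nat_lit 5) (nat_lit 178) (nat_lit 5) (nat_lit 179) (nat_lit 5) (nat_lit 426) (nat_lit 420) (nat_lit 99))))))) (XT.nd (nat_lit 1316) (nat_lit 1848) (nat_lit 0) (XT.nd (nat_lit 658) (nat_lit 840) (nat_lit 0) (XT.nd (nat_lit 282) (nat_lit 0) (nat_lit 168) (XT.nd (nat_lit 94) (nat_lit 0) (nat_lit 84) (XT.lf (nat_lit 84) (nat_lit 9155075398) (nat_lit 0) (nat_lit 4643023673) (nat_lit 1344) (nat_lit 87871849202) (nat_lit 164) (nat_lit 5) (nat_lit 163) (nat_lit 5) (nat_lit 179) (nat_lit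 5) (nat_lit 427) (nat_lit 420) (nat_lit 98)) (XT.nd (nat_lit 94) (nat_lit 0) (nat_lit 0) (XT.lf (nat_lit 0) (nat_lit 17010879300) (nat_lit 1260) (nat_lit 48002586445) (nat_lit 1344) (nat_lit 38249201090) (nat_lit 164) (nat_lit 5) (nat_lit 179) (nat_lit 5) (nat_lit 180) (nat_lit 5) (nat_lit 428) (nat_lit 420) (nat_lit 97)) (XT.lf (nat_lit 0) (nat_lit 20365780824) (nat_lit 1260) (nat_lit 2201059780) (nat_lit 1344) (nat_lit 82334954634) (nat_lit 164) (nat_lit 5) (nat_lit 179) (nat_lit 5) (nat_lit 180) (nat_lit 5) (nat_lit 429) (nat_lit 420) (nat_lit 96)))) (XT.nd (nat_lit 188) (nat_lit 0) (nat_lit 84) (XT.nd (nat_lit 94) (nat_lit 0) (nat_lit 0) (XT.lf (nat_lit 0) (nat_lit 24469732250) (nat_lit 1260) (nat_lit 60915143168) (nat_lit 1344) (nat_lit 21185770399) (nat_lit 165) (nat_lit 5) (nat_lit 180) (nat_lit 5) (nat_lit 181) (nat_lit 5) (nat_lit 430) (nat_lit 420) (nat_lit 95)) (XT.lf (nat_lit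 0) (nat_lit 28942462653) (nat_lit 1260) (nat_lit 13519827144) (nat_lit 1344) (nat_lit 65819902702) (nat_lit 165) (nat_lit 5) (nat_lit 180) (nat_lit 5) (nat_lit 181) (nat_lit 5) (nat_lit 431) (nat_lit 420) (nat_lit 94))) (XT.nd (nat_lit 94) (nat_lit 0) (nat_lit 0) (XT.lf (nat_lit 0) (nat_lit 33915441615) (nat_lit 1260) (nat_lit 74055263299) (nat_lit 1344) (nat_lit 2063399054) (nat_lit 166) (nat_lit 5) (nat_lit 181) (nat_lit 5) (nat_lit 182) (nat_lit 5) (nat_lit 432) (nat_lit 420) (nat_lit 93)) (XT.lf (nat_lit 0) (nat_lit 39595695735) (nat_lit 1260) (nat_lit 25016796211) (nat_lit 1344) (nat_lit 47209338637) (nat_lit 166) (nat_lit 5) (nat_lit 181) (nat_lit 5) (nat_lit 182) (nat_lit 5) (nat_lit 433) (nat_lit 420) (nat_lit 92))))) (XT.nd (nat_lit 282) (nat_lit 1092) (nat_lit 0) (XT.nd (nat_lit 94) (nat_lit 0) (nat_lit 84) (XT.lf (nat_lit 84) (nat_lit 26000023233) (nat_lit 0) (nat_lit 19696060056)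 (nat_lit 1344) (nat_lit 67959614297) (nat_lit 167) (nat_lit 5) (nat_lit 166) (nat_lit 5) (nat_lit 182) (nat_lit 5) (nat_lit 434) (nat_lit 420) (nat_lit 91)) (XT.nd (nat_lit 94) (nat_lit 0) (nat_lit 0) (XT.lf (nat_lit 0) (nat_lit 52489793334) (nat_lit 1260) (nat_lit 36734883629) (nat_lit 1344) (nat_lit 26304594664) (nat_lit 167) (nat_lit 5) (nat_lit 182) (nat_lit 5) (nat_lit 183) (nat_lit 5) (nat_lit 435) (nat_lit 420) (nat_lit 90)) (XT.lf (nat_lit 84) (nat_lit 15827209941) (nat_lit 0) (nat_lit 44007064322) (nat_lit 1344) (nat_lit 57614370180) (nat_lit 168) (nat_lit 5) (nat_lit 167) (nat_lit 5) (nat_lit 183) (nat_lit 5) (nat_lit 436) (nat_lit 420) (nat_lit 89)))) (XT.nd (nat_lit 188) (nat_lit 0) (nat_lit 0) (XT.nd (nat_lit 94) (nat_lit 1260) (nat_lit 0) (XT.lf (nat_lit 0) (nat_lit 67798201683) (nat_lit 1260) (nat_lit 48723784605) (nat_lit 84) (nat_lit 2891639129) (nat_lit 168) (nat_lit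 5) (nat_lit 183) (nat_lit 5) (nat_lit 169) (nat_lit 5) (nat_lit 437) (nat_lit 420) (nat_lit 88)) (XT.lf (nat_lit 0) (nat_lit 5430901417) (nat_lit 1260) (nat_lit 71057882295) (nat_lit 1344) (nat_lit 44934140327) (nat_lit 153) (nat_lit 5) (nat_lit 168) (nat_lit 5) (nat_lit 169) (nat_lit 5) (nat_lit 438) (nat_lit 420) (nat_lit 87))) (XT.nd (nat_lit 94) (nat_lit 0) (nat_lit 0) (XT.lf (nat_lit 0) (nat_lit 62208863059) (nat_lit 1260) (nat_lit 23723056775) (nat_lit 1344) (nat_lit 37545827002) (nat_lit 153) (nat_lit 5) (nat_lit 168) (nat_lit 5) (nat_lit 169) (nat_lit 5) (nat_lit 439) (nat_lit 420) (nat_lit 86)) (XT.lf (nat_lit 0) (nat_lit 95898798491) (nat_lit 1344) (nat_lit 5144827849) (nat_lit 84) (nat_lit 24543374827) (nat_lit 153) (nat_lit 5) (nat_lit 169) (nat_lit 5) (nat_lit 154) (nat_lit 5) (nat_lit 440) (nat_lit 420) (nat_lit 85)))))) (XT.nd (nat_lit 57528) (nat_lit 0) (nat_lit 2520) (XT.nd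 (nat_lit 282) (nat_lit 672) (nat_lit 0) (XT.nd (nat_lit 94) (nat_lit 588) (nat_lit 0) (XT.lf (nat_lit 0) (nat_lit 53471334909) (nat_lit 588) (nat_lit 53442061905) (nat_lit 672) (nat_lit 20823675211) (nat_lit 146) (nat_lit 5) (nat_lit 153) (nat_lit 5) (nat_lit 154) (nat_lit 5) (nat_lit 441) (nat_lit 420) (nat_lit 84)) (XT.nd (nat_lit 94) (nat_lit 588) (nat_lit 0) (XT.lf (nat_lit 0) (nat_lit 113951296527) (nat_lit 588) (nat_lit 4358925050) (nat_lit 672) (nat_lit 11639870065) (nat_lit 146) (nat_lit 5) (nat_lit 153) (nat_lit 5) (nat_lit 154) (nat_lit 5) (nat_lit 442) (nat_lit 420) (nat_lit 83)) (XT.lf (nat_lit 0) (nat_lit 44439100278) (nat_lit 588) (nat_lit 86480938351) (nat_lit 672) (nat_lit 1283330871) (nat_lit 139) (nat_lit 5) (nat_lit 146) (nat_lit 5) (nat_lit 147) (nat_lit 5) (nat_lit 443) (nat_lit 420) (nat_lit 82)))) (XT.nd (nat_lit 188) (nat_lit 0) (nat_lit 0) (XT.nd (nat_lit 94) (nat_lit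 588) (nat_lit 0) (XT.lf (nat_lit 0) (nat_lit 9406946548) (nat_lit 672) (nat_lit 27636420628) (nat_lit 84) (nat_lit 97471987991) (nat_lit 138) (nat_lit 5) (nat_lit 146) (nat_lit 5) (nat_lit 139) (nat_lit 5) (nat_lit 444) (nat_lit 420) (nat_lit 81)) (XT.lf (nat_lit 0) (nat_lit 20864938374) (nat_lit 672) (nat_lit 102058395924) (nat_lit 84) (nat_lit 13958801181) (nat_lit 131) (nat_lit 5) (nat_lit 139) (nat_lit 5) (nat_lit 132) (nat_lit 5) (nat_lit 445) (nat_lit 420) (nat_lit 80))) (XT.nd (nat_lit 56964) (nat_lit 0) (nat_lit 2520) (XT.lf (nat_lit 0) (nat_lit 33315122540) (nat_lit 672) (nat_lit 39957003624) (nat_lit 84) (nat_lit 66028339707) (nat_lit 131) (nat_lit 5) (nat_lit 139) (nat_lit 5) (nat_lit 132) (nat_lit 5) (nat_lit 446) (nat_lit 420) (nat_lit 79)) (XT.lf (nat_lit 0) (nat_lit 1079574754) (nat_lit 0) (nat_lit 1079574754) (nat_lit 1260) (nat_lit 44929627586) (nat_lit 161) (nat_lit 5)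 (nat_lit 161) (nat_lit 3) (nat_lit 176) (nat_lit 3) (nat_lit 421) (nat_lit 421) (nat_lit 103))))) (XT.nd (nat_lit 282) (nat_lit 0) (nat_lit 84) (XT.nd (nat_lit 94) (nat_lit 0) (nat_lit 0) (XT.lf (nat_lit 0) (nat_lit 4771509048) (nat_lit 1260) (nat_lit 51891043623) (nat_lit 1344) (nat_lit 38915999226) (nat_lit 161) (nat_lit 5) (nat_lit 176) (nat_lit 3) (nat_lit 177) (nat_lit 5) (nat_lit 422) (nat_lit 421) (nat_lit 102)) (XT.nd (nat_lit 94) (nat_lit 0) (nat_lit 84) (XT.lf (nat_lit 0) (nat_lit 5259424865) (nat_lit 1260) (nat_lit 10581384086) (nat_lit 1344) (nat_lit 81180137790) (nat_lit 161) (nat_lit 5) (nat_lit 176) (nat_lit 3) (nat_lit 177) (nat_lit 5) (nat_lit 423) (nat_lit 421) (nat_lit 101)) (XT.lf (nat_lit 0) (nat_lit 6330132182) (nat_lit 1260) (nat_lit 66148588602) (nat_lit 1344) (nat_lit 26010848500) (nat_lit 162) (nat_lit 5) (nat_lit 177) (nat_lit 5) (nat_lit 178) (nat_lit 5) (nat_lit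 424) (nat_lit 421) (nat_lit 100)))) (XT.nd (nat_lit 188) (nat_lit 0) (nat_lit 84) (XT.nd (nat_lit 94) (nat_lit 0) (nat_lit 84) (XT.lf (nat_lit 0) (nat_lit 7697456511) (nat_lit 1260) (nat_lit 23389166437) (nat_lit 1344) (nat_lit 68907693144) (nat_lit 162) (nat_lit 5) (nat_lit 177) (nat_lit 5) (nat_lit 178) (nat_lit 5) (nat_lit 425) (nat_lit 421) (nat_lit 99)) (XT.lf (nat_lit 0) (nat_lit 9421039072) (nat_lit 1260) (nat_lit 80587216011) (nat_lit 1344) (nat_lit 11526493512) (nat_lit 163) (nat_lit 5) (nat_lit 178) (nat_lit 5) (nat_lit 179) (nat_lit 5) (nat_lit 426) (nat_lit 421) (nat_lit 98))) (XT.nd (nat_lit 94) (nat_lit 0) (nat_lit 0) (XT.lf (nat_lit 0) (nat_lit 11742401668) (nat_lit 1260) (nat_lit 36330798861) (nat_lit 1344) (nat_lit 55031811804) (nat_lit 163) (nat_lit 5) (nat_lit 178) (nat_lit 5) (nat_lit 179) (nat_lit 5) (nat_lit 427) (nat_lit 421) (nat_lit 97)) (XT.lf (nat_lit 84) (nat_lit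 9437320236) (nat_lit 0) (nat_lit 4786570190) (nat_lit 1344) (nat_lit 90495779420) (nat_lit 164) (nat_lit 5) (nat_lit 163) (nat_lit 5) (nat_lit 179) (nat_lit 5) (nat_lit 428) (nat_lit 421) (nat_lit 96))))))))
noncomputable def xc247 : XT := (XT.nd (nat_lit 59596) (nat_lit 0) (nat_lit 588) (XT.nd (nat_lit 1316) (nat_lit 1260) (nat_lit 0) (XT.nd (nat_lit 658) (nat_lit 1512) (nat_lit 0) (XT.nd (nat_lit 282) (nat_lit 0) (nat_lit 84) (XT.nd (nat_lit 94) (nat_lit 0) (nat_lit 0) (XT.lf (nat_lit 0) (nat_lit 17532669245) (nat_lit 1260) (nat_lit 49434886989) (nat_lit 1344) (nat_lit 39392625898) (nat_lit 164) (nat_lit 5) (nat_lit 179) (nat_lit 5) (nat_lit 180) (nat_lit 5) (nat_lit 429) (nat_lit 421) (nat_lit 95)) (XT.nd (nat_lit 94) (nat_lit 0) (nat_lit 84) (XT.lf (nat_lit 0) (nat_lit 20987883924) (nat_lit 1260) (nat_lit 2259541041) (nat_lit 1344) (nat_lit 84801070045) (nat_lit 164) (nat_lit 5) (nat_lit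 179) (nat_lit 5) (nat_lit 180) (nat_lit 5) (nat_lit 430) (nat_lit 421) (nat_lit 94)) (XT.lf (nat_lit 0) (nat_lit 25214668905) (nat_lit 1260) (nat_lit 62734742337) (nat_lit 1344) (nat_lit 21818009003) (nat_lit 165) (nat_lit 5) (nat_lit 180) (nat_lit 5) (nat_lit 181) (nat_lit 5) (nat_lit 431) (nat_lit 421) (nat_lit 93)))) (XT.nd (nat_lit 188) (nat_lit 0) (nat_lit 84) (XT.nd (nat_lit 94) (nat_lit 0) (nat_lit 84) (XT.lf (nat_lit 0) (nat_lit 29821265356) (nat_lit 1260) (nat_lit 13917795621) (nat_lit 1344) (nat_lit 67791262397) (nat_lit 165) (nat_lit 5) (nat_lit 180) (nat_lit 5) (nat_lit 181) (nat_lit 5) (nat_lit 432) (nat_lit 421) (nat_lit 92)) (XT.lf (nat_lit 0) (nat_lit 34943173243) (nat_lit 1260) (nat_lit 76269015937) (nat_lit 1344) (nat_lit 2122611375) (nat_lit 166) (nat_lit 5) (nat_lit 181) (nat_lit 5) (nat_lit 182) (nat_lit 5) (nat_lit 433) (nat_lit 421) (nat_lit 91))) (XT.nd (nat_lit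 94) (nat_lit 0) (nat_lit 0) (XT.lf (nat_lit 0) (nat_lit 40793535907) (nat_lit 1260) (nat_lit 25759625087) (nat_lit 1344) (nat_lit 48623007485) (nat_lit 166) (nat_lit 5) (nat_lit 181) (nat_lit 5) (nat_lit 182) (nat_lit 5) (nat_lit 434) (nat_lit 421) (nat_lit 90)) (XT.lf (nat_lit 84) (nat_lit 26787623695) (nat_lit 0) (nat_lit 20289094078) (nat_lit 1344) (nat_lit 69988340761) (nat_lit 167) (nat_lit 5) (nat_lit 166) (nat_lit 5) (nat_lit 182) (nat_lit 5) (nat_lit 435) (nat_lit 421) (nat_lit 89))))) (XT.nd (nat_lit 282) (nat_lit 1764) (nat_lit 0) (XT.nd (nat_lit 94) (nat_lit 0) (nat_lit 0) (XT.lf (nat_lit 0) (nat_lit 54073934995) (nat_lit 1260) (nat_lit 37829230688) (nat_lit 1344) (nat_lit 27091683743) (nat_lit 167) (nat_lit 5) (nat_lit 182) (nat_lit 5) (nat_lit 183) (nat_lit 5) (nat_lit 436) (nat_lit 421) (nat_lit 88)) (XT.nd (nat_lit 94) (nat_lit 0) (nat_lit 84) (XT.lf (nat_lit 84) (nat_lit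 16309650204) (nat_lit 0) (nat_lit 45328898255) (nat_lit 1344) (nat_lit 59333261519) (nat_lit 168) (nat_lit 5) (nat_lit 167) (nat_lit 5) (nat_lit 183) (nat_lit 5) (nat_lit 437) (nat_lit 421) (nat_lit 87)) (XT.lf (nat_lit 0) (nat_lit 69841109263) (nat_lit 1260) (nat_lit 50177795856) (nat_lit 84) (nat_lit 2976844272) (nat_lit 168) (nat_lit 5) (nat_lit 183) (nat_lit 5) (nat_lit 169) (nat_lit 5) (nat_lit 438) (nat_lit 421) (nat_lit 86)))) (XT.nd (nat_lit 188) (nat_lit 588) (nat_lit 0) (XT.nd (nat_lit 94) (nat_lit 0) (nat_lit 0) (XT.lf (nat_lit 0) (nat_lit 5601455234) (nat_lit 1260) (nat_lit 73190765817) (nat_lit 1344) (nat_lit 46273112017) (nat_lit 153) (nat_lit 5) (nat_lit 168) (nat_lit 5) (nat_lit 169) (nat_lit 5) (nat_lit 439) (nat_lit 421) (nat_lit 85)) (XT.lf (nat_lit 0) (nat_lit 64082533586) (nat_lit 1260) (nat_lit 24435862122) (nat_lit 1344) (nat_lit 38663412958) (nat_lit 153) (nat_lit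 5) (nat_lit 168) (nat_lit 5) (nat_lit 169) (nat_lit 5) (nat_lit 440) (nat_lit 421) (nat_lit 84))) (XT.nd (nat_lit 94) (nat_lit 588) (nat_lit 0) (XT.lf (nat_lit 0) (nat_lit 98784022226) (nat_lit 1344) (nat_lit 5291710631) (nat_lit 84) (nat_lit 25278615962) (nat_lit 153) (nat_lit 5) (nat_lit 169) (nat_lit 5) (nat_lit 154) (nat_lit 5) (nat_lit 441) (nat_lit 421) (nat_lit 83)) (XT.lf (nat_lit 0) (nat_lit 55082863852) (nat_lit 588) (nat_lit 55046025097) (nat_lit 672) (nat_lit 21440038366) (nat_lit 146) (nat_lit 5) (nat_lit 153) (nat_lit 5) (nat_lit 154) (nat_lit 5) (nat_lit 442) (nat_lit 421) (nat_lit 82)))))) (XT.nd (nat_lit 57622) (nat_lit 0) (nat_lit 2604) (XT.nd (nat_lit 282) (nat_lit 588) (nat_lit 0) (XT.nd (nat_lit 94) (nat_lit 672) (nat_lit 0) (XT.lf (nat_lit 0) (nat_lit 117377009108) (nat_lit 588) (nat_lit 4490373710) (nat_lit 672) (nat_lit 11980962185) (nat_lit 146) (nat_lit 5) (nat_lit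 153) (nat_lit 5) (nat_lit 154) (nat_lit 5) (nat_lit 443) (nat_lit 421) (nat_lit 81)) (XT.nd (nat_lit 94) (nat_lit 84) (nat_lit 0) (XT.lf (nat_lit 0) (nat_lit 45779630067) (nat_lit 588) (nat_lit 89075699903) (nat_lit 672) (nat_lit 1313896559) (nat_lit 139) (nat_lit 5) (nat_lit 146) (nat_lit 5) (nat_lit 147) (nat_lit 5) (nat_lit 444) (nat_lit 421) (nat_lit 80)) (XT.lf (nat_lit 0) (nat_lit 9696707773) (nat_lit 672) (nat_lit 28458207841) (nat_lit 84) (nat_lit 100395661039) (nat_lit 138) (nat_lit 5) (nat_lit 146) (nat_lit 5) (nat_lit 139) (nat_lit 5) (nat_lit 445) (nat_lit 421) (nat_lit 79)))) (XT.nd (nat_lit 57152) (nat_lit 0) (nat_lit 2520) (XT.nd (nat_lit 57058) (nat_lit 0) (nat_lit 2520) (XT.lf (nat_lit 0) (nat_lit 21498287283) (nat_lit 672) (nat_lit 105112678107) (nat_lit 84) (nat_lit 14377399913) (nat_lit 131) (nat_lit 5) (nat_lit 139) (nat_lit 5) (nat_lit 132) (nat_lit 5) (nat_lit 446)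 (nat_lit 421) (nat_lit 78)) (XT.lf (nat_lit 0) (nat_lit 1115381874) (nat_lit 0) (nat_lit 1115381874) (nat_lit 1260) (nat_lit 46270459048) (nat_lit 161) (nat_lit 5) (nat_lit 161) (nat_lit 3) (nat_lit 176) (nat_lit 3) (nat_lit 422) (nat_lit 422) (nat_lit 101))) (XT.nd (nat_lit 94) (nat_lit 0) (nat_lit 0) (XT.lf (nat_lit 0) (nat_lit 4927871564) (nat_lit 1260) (nat_lit 53440648015) (nat_lit 1344) (nat_lit 40076968245) (nat_lit 161) (nat_lit 5) (nat_lit 176) (nat_lit 3) (nat_lit 177) (nat_lit 5) (nat_lit 423) (nat_lit 422) (nat_lit 100)) (XT.lf (nat_lit 0) (nat_lit 5430039888) (nat_lit 1260) (nat_lit 10891906271) (nat_lit 1344) (nat_lit 83609220605) (nat_lit 161) (nat_lit 5) (nat_lit 176) (nat_lit 3) (nat_lit 177) (nat_lit 5) (nat_lit 424) (nat_lit 422) (nat_lit 99))))) (XT.nd (nat_lit 282) (nat_lit 0) (nat_lit 84) (XT.nd (nat_lit 94) (nat_lit 0) (nat_lit 0) (XT.lf (nat_lit 0) (nat_lit 6532505998)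 (nat_lit 1260) (nat_lit 68125741768) (nat_lit 1344) (nat_lit 26785611772) (nat_lit 162) (nat_lit 5) (nat_lit 177) (nat_lit 5) (nat_lit 178) (nat_lit 5) (nat_lit 425) (nat_lit 422) (nat_lit 98)) (XT.nd (nat_lit 94) (nat_lit 0) (nat_lit 84) (XT.lf (nat_lit 0) (nat_lit 7940486857) (nat_lit 1260) (nat_lit 24083749690) (nat_lit 1344) (nat_lit 70969523760) (nat_lit 162) (nat_lit 5) (nat_lit 177) (nat_lit 5) (nat_lit 178) (nat_lit 5) (nat_lit 426) (nat_lit 422) (nat_lit 97)) (XT.lf (nat_lit 0) (nat_lit 9715445642) (nat_lit 1260) (nat_lit 82997388075) (nat_lit 1344) (nat_lit 11867582650) (nat_lit 163) (nat_lit 5) (nat_lit 178) (nat_lit 5) (nat_lit 179) (nat_lit 5) (nat_lit 427) (nat_lit 422) (nat_lit 96)))) (XT.nd (nat_lit 188) (nat_lit 0) (nat_lit 84) (XT.nd (nat_lit 94) (nat_lit 0) (nat_lit 0) (XT.lf (nat_lit 0) (nat_lit 12106106143) (nat_lit 1260) (nat_lit 37413495237) (nat_lit 1344) (nat_lit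 56678197549) (nat_lit 163) (nat_lit 5) (nat_lit 178) (nat_lit 5) (nat_lit 179) (nat_lit 5) (nat_lit 428) (nat_lit 422) (nat_lit 95)) (XT.lf (nat_lit 84) (nat_lit 9727596573) (nat_lit 0) (nat_lit 4934178802) (nat_lit 1344) (nat_lit 93199129324) (nat_lit 164) (nat_lit 5) (nat_lit 163) (nat_lit 5) (nat_lit 179) (nat_lit 5) (nat_lit 429) (nat_lit 422) (nat_lit 94))) (XT.nd (nat_lit 94) (nat_lit 0) (nat_lit 0) (XT.lf (nat_lit 0) (nat_lit 18069454832) (nat_lit 1260) (nat_lit 50910602984) (nat_lit 1344) (nat_lit 40570586008) (nat_lit 164) (nat_lit 5) (nat_lit 179) (nat_lit 5) (nat_lit 180) (nat_lit 5) (nat_lit 430) (nat_lit 422) (nat_lit 93)) (XT.lf (nat_lit 0) (nat_lit 21628011228) (nat_lit 1260) (nat_lit 2320210171) (nat_lit 1344) (nat_lit 87341394703) (nat_lit 164) (nat_lit 5) (nat_lit 179) (nat_lit 5) (nat_lit 180) (nat_lit 5) (nat_lit 431) (nat_lit 422) (nat_lit 92))))))) (XT.nd (nat_lit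 1316) (nat_lit 84) (nat_lit 0) (XT.nd (nat_lit 658) (nat_lit 2184) (nat_lit 0) (XT.nd (nat_lit 282) (nat_lit 0) (nat_lit 84) (XT.nd (nat_lit 94) (nat_lit 0) (nat_lit 0) (XT.lf (nat_lit 0) (nat_lit 25981331131) (nat_lit 1260) (nat_lit 64609380396) (nat_lit 1344) (nat_lit 22469406180) (nat_lit 165) (nat_lit 5) (nat_lit 180) (nat_lit 5) (nat_lit 181) (nat_lit 5) (nat_lit 432) (nat_lit 422) (nat_lit 91)) (XT.nd (nat_lit 94) (nat_lit 0) (nat_lit 84) (XT.lf (nat_lit 0) (nat_lit 30725827742) (nat_lit 1260) (nat_lit 14328140936) (nat_lit 1344) (nat_lit 69821948722) (nat_lit 165) (nat_lit 5) (nat_lit 180) (nat_lit 5) (nat_lit 181) (nat_lit 5) (nat_lit 433) (nat_lit 422) (nat_lit 90)) (XT.lf (nat_lit 0) (nat_lit 36001147373) (nat_lit 1260) (nat_lit 78549634949) (nat_lit 1344) (nat_lit 2183754462) (nat_lit 166) (nat_lit 5) (nat_lit 181) (nat_lit 5) (nat_lit 182) (nat_lit 5) (nat_lit 434) (nat_lit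 422) (nat_lit 89)))) (XT.nd (nat_lit 188) (nat_lit 0) (nat_lit 84) (XT.nd (nat_lit 94) (nat_lit 0) (nat_lit 0) (XT.lf (nat_lit 0) (nat_lit 42026739006) (nat_lit 1260) (nat_lit 26525179406) (nat_lit 1344) (nat_lit 50079236298) (nat_lit 166) (nat_lit 5) (nat_lit 181) (nat_lit 5) (nat_lit 182) (nat_lit 5) (nat_lit 435) (nat_lit 422) (nat_lit 88)) (XT.lf (nat_lit 84) (nat_lit 27598415914) (nat_lit 0) (nat_lit 20899795575) (nat_lit 1344) (nat_lit 72078506616) (nat_lit 167) (nat_lit 5) (nat_lit 166) (nat_lit 5) (nat_lit 182) (nat_lit 5) (nat_lit 436) (nat_lit 422) (nat_lit 87))) (XT.nd (nat_lit 94) (nat_lit 0) (nat_lit 0) (XT.lf (nat_lit 0) (nat_lit 55705058561) (nat_lit 1260) (nat_lit 38956850138) (nat_lit 1344) (nat_lit 27902503103) (nat_lit 167) (nat_lit 5) (nat_lit 182) (nat_lit 5) (nat_lit 183) (nat_lit 5) (nat_lit 437) (nat_lit 422) (nat_lit 86)) (XT.lf (nat_lit 84) (nat_lit 16806126029)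 (nat_lit 0) (nat_lit 46690294095) (nat_lit 1344) (nat_lit 61104267220) (nat_lit 168) (nat_lit 5) (nat_lit 167) (nat_lit 5) (nat_lit 183) (nat_lit 5) (nat_lit 438) (nat_lit 422) (nat_lit 85))))) (XT.nd (nat_lit 282) (nat_lit 1176) (nat_lit 0) (XT.nd (nat_lit 94) (nat_lit 1260) (nat_lit 0) (XT.lf (nat_lit 0) (nat_lit 71944789642) (nat_lit 1260) (nat_lit 51675869588) (nat_lit 84) (nat_lit 3064694204) (nat_lit 168) (nat_lit 5) (nat_lit 183) (nat_lit 5) (nat_lit 169) (nat_lit 5) (nat_lit 439) (nat_lit 422) (nat_lit 84)) (XT.nd (nat_lit 94) (nat_lit 0) (nat_lit 0) (XT.lf (nat_lit 0) (nat_lit 5776687857) (nat_lit 1260) (nat_lit 75387569999) (nat_lit 1344) (nat_lit 47652772509) (nat_lit 153) (nat_lit 5) (nat_lit 168) (nat_lit 5) (nat_lit 169) (nat_lit 5) (nat_lit 440) (nat_lit 422) (nat_lit 83)) (XT.lf (nat_lit 0) (nat_lit 66011989172) (nat_lit 1260) (nat_lit 25169987702) (nat_lit 1344) (nat_lit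 39815031008) (nat_lit 153) (nat_lit 5) (nat_lit 168) (nat_lit 5) (nat_lit 169) (nat_lit 5) (nat_lit 441) (nat_lit 422) (nat_lit 82)))) (XT.nd (nat_lit 188) (nat_lit 588) (nat_lit 0) (XT.nd (nat_lit 94) (nat_lit 588) (nat_lit 0) (XT.lf (nat_lit 0) (nat_lit 101755328529) (nat_lit 1344) (nat_lit 5443428249) (nat_lit 84) (nat_lit 26035975186) (nat_lit 153) (nat_lit 5) (nat_lit 169) (nat_lit 5) (nat_lit 154) (nat_lit 5) (nat_lit 442) (nat_lit 422) (nat_lit 81)) (XT.lf (nat_lit 0) (nat_lit 56742314511) (nat_lit 588) (nat_lit 56698066926) (nat_lit 672) (nat_lit 22075371572) (nat_lit 146) (nat_lit 5) (nat_lit 153) (nat_lit 5) (nat_lit 154) (nat_lit 5) (nat_lit 443) (nat_lit 422) (nat_lit 80))) (XT.nd (nat_lit 94) (nat_lit 588) (nat_lit 0) (XT.lf (nat_lit 0) (nat_lit 120905081268) (nat_lit 588) (nat_lit 4625726742) (nat_lit 672) (nat_lit 12332752269) (nat_lit 146) (nat_lit 5) (nat_lit 153) (nat_lit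 5) (nat_lit 154) (nat_lit 5) (nat_lit 444) (nat_lit 422) (nat_lit 79)) (XT.lf (nat_lit 0) (nat_lit 47159953440) (nat_lit 588) (nat_lit 91748285163) (nat_lit 672) (nat_lit 1345834675) (nat_lit 139) (nat_lit 5) (nat_lit 146) (nat_lit 5) (nat_lit 147) (nat_lit 5) (nat_lit 445) (nat_lit 422) (nat_lit 78)))))) (XT.nd (nat_lit 57716) (nat_lit 0) (nat_lit 2100) (XT.nd (nat_lit 57340) (nat_lit 0) (nat_lit 1932) (XT.nd (nat_lit 57152) (nat_lit 0) (nat_lit 1932) (XT.lf (nat_lit 0) (nat_lit 9994728271) (nat_lit 672) (nat_lit 29305068031) (nat_lit 84) (nat_lit 103407072211) (nat_lit 138) (nat_lit 5) (nat_lit 146) (nat_lit 5) (nat_lit 139) (nat_lit 5) (nat_lit 446) (nat_lit 422) (nat_lit 77)) (XT.nd (nat_lit 94) (nat_lit 0) (nat_lit 0) (XT.lf (nat_lit 0) (nat_lit 1152066893) (nat_lit 0) (nat_lit 1152066893) (nat_lit 1260) (nat_lit 47651920575) (nat_lit 161) (nat_lit 5) (nat_lit 161) (nat_lit 3) (nat_lit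 176) (nat_lit 3) (nat_lit 423) (nat_lit 423) (nat_lit 99)) (XT.lf (nat_lit 0) (nat_lit 5088166232) (nat_lit 1260) (nat_lit 55037149652) (nat_lit 1344) (nat_lit 41273140090) (nat_lit 161) (nat_lit 5) (nat_lit 176) (nat_lit 3) (nat_lit 177) (nat_lit 5) (nat_lit 424) (nat_lit 423) (nat_lit 98)))) (XT.nd (nat_lit 188) (nat_lit 0) (nat_lit 84) (XT.nd (nat_lit 94) (nat_lit 0) (nat_lit 84) (XT.lf (nat_lit 0) (nat_lit 5605036735) (nat_lit 1260) (nat_lit 11212141321) (nat_lit 1344) (nat_lit 86111538775) (nat_lit 161) (nat_lit 5) (nat_lit 176) (nat_lit 3) (nat_lit 177) (nat_lit 5) (nat_lit 425) (nat_lit 423) (nat_lit 97)) (XT.lf (nat_lit 0) (nat_lit 6740235208) (nat_lit 1260) (nat_lit 70162628837) (nat_lit 1344) (nat_lit 27583937234) (nat_lit 162) (nat_lit 5) (nat_lit 177) (nat_lit 5) (nat_lit 178) (nat_lit 5) (nat_lit 426) (nat_lit 423) (nat_lit 96))) (XT.nd (nat_lit 94) (nat_lit 0) (nat_lit 84)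 (XT.lf (nat_lit 0) (nat_lit 8190113142) (nat_lit 1260) (nat_lit 24799577536) (nat_lit 1344) (nat_lit 73093519288) (nat_lit 162) (nat_lit 5) (nat_lit 177) (nat_lit 5) (nat_lit 178) (nat_lit 5) (nat_lit 427) (nat_lit 423) (nat_lit 95)) (XT.lf (nat_lit 0) (nat_lit 10018008453) (nat_lit 1260) (nat_lit 85480292640) (nat_lit 1344) (nat_lit 12219174587) (nat_lit 163) (nat_lit 5) (nat_lit 178) (nat_lit 5) (nat_lit 179) (nat_lit 5) (nat_lit 428) (nat_lit 423) (nat_lit 94))))) (XT.nd (nat_lit 282) (nat_lit 0) (nat_lit 84) (XT.nd (nat_lit 94) (nat_lit 0) (nat_lit 0) (XT.lf (nat_lit 0) (nat_lit 12480065485) (nat_lit 1260) (nat_lit 38529087398) (nat_lit 1344) (nat_lit 58374237124) (nat_lit 163) (nat_lit 5) (nat_lit 178) (nat_lit 5) (nat_lit 179) (nat_lit 5) (nat_lit 429) (nat_lit 423) (nat_lit 93)) (XT.nd (nat_lit 94) (nat_lit 0) (nat_lit 84) (XT.lf (nat_lit 84) (nat_lit 10026170375) (nat_lit 0) (nat_lit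 5085985396) (nat_lit 1344) (nat_lit 95984241221) (nat_lit 164) (nat_lit 5) (nat_lit 163) (nat_lit 5) (nat_lit 179) (nat_lit 5) (nat_lit 430) (nat_lit 423) (nat_lit 92)) (XT.lf (nat_lit 0) (nat_lit 18621723707) (nat_lit 1260) (nat_lit 52431011267) (nat_lit 1344) (nat_lit 41784104128) (nat_lit 164) (nat_lit 5) (nat_lit 179) (nat_lit 5) (nat_lit 180) (nat_lit 5) (nat_lit 431) (nat_lit 423) (nat_lit 91)))) (XT.nd (nat_lit 188) (nat_lit 0) (nat_lit 84) (XT.nd (nat_lit 94) (nat_lit 0) (nat_lit 84) (XT.lf (nat_lit 0) (nat_lit 22286740138) (nat_lit 1260) (nat_lit 2383107925) (nat_lit 1344) (nat_lit 89958141923) (nat_lit 164) (nat_lit 5) (nat_lit 179) (nat_lit 5) (nat_lit 180) (nat_lit 5) (nat_lit 432) (nat_lit 423) (nat_lit 90)) (XT.lf (nat_lit 0) (nat_lit 26770406429) (nat_lit 1260) (nat_lit 66540682630) (nat_lit 1344) (nat_lit 23140525698) (nat_lit 165) (nat_lit 5) (nat_lit 180) (nat_lit 5)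 (nat_lit 181) (nat_lit 5) (nat_lit 433) (nat_lit 423) (nat_lit 89))) (XT.nd (nat_lit 94) (nat_lit 0) (nat_lit 84) (XT.lf (nat_lit 0) (nat_lit 31656957297) (nat_lit 1260) (nat_lit 14751209263) (nat_lit 1344) (nat_lit 71913730808) (nat_lit 165) (nat_lit 5) (nat_lit 180) (nat_lit 5) (nat_lit 181) (nat_lit 5) (nat_lit 434) (nat_lit 423) (nat_lit 88)) (XT.lf (nat_lit 0) (nat_lit 37090305116) (nat_lit 1260) (nat_lit 80899100275) (nat_lit 1344) (nat_lit 2246877377) (nat_lit 166) (nat_lit 5) (nat_lit 181) (nat_lit 5) (nat_lit 182) (nat_lit 5) (nat_lit 435) (nat_lit 423) (nat_lit 87))))))))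
noncomputable def xc248 : XT := (XT.nd (nat_lit 59690) (nat_lit 0) (nat_lit 588) (XT.nd (nat_lit 58374) (nat_lit 0) (nat_lit 1848) (XT.nd (nat_lit 564) (nat_lit 1176) (nat_lit 0) (XT.nd (nat_lit 282) (nat_lit 1092) (nat_lit 0) (XT.nd (nat_lit 94) (nat_lit 0) (nat_lit 0) (XT.lf (nat_lit 0) (nat_lit 43296398771) (nat_lit 1260) (nat_lit 27314115641) (nat_lit 1344) (nat_lit 51579293271) (nat_lit 166) (nat_lit 5) (nat_lit 181) (nat_lit 5) (nat_lit 182) (nat_lit 5) (nat_lit 436) (nat_lit 423) (nat_lit 86)) (XT.nd (nat_lit 94) (nat_lit 0) (nat_lit 84) (XT.lf (nat_lit 84) (nat_lit 28433120684) (nat_lit 0) (nat_lit 21528701662) (nat_lit 1344) (nat_lit 74231921889) (nat_lit 167) (nat_lit 5) (nat_lit 166) (nat_lit 5) (nat_lit 182) (nat_lit 5) (nat_lit 437) (nat_lit 423) (nat_lit 85)) (XT.lf (nat_lit 0) (nat_lit 57384604621) (nat_lit 1260) (nat_lit 40118714781) (nat_lit 1344) (nat_lit 28737757899)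 (nat_lit 167) (nat_lit 5) (nat_lit 182) (nat_lit 5) (nat_lit 183) (nat_lit 5) (nat_lit 438) (nat_lit 423) (nat_lit 84)))) (XT.nd (nat_lit 94) (nat_lit 1176) (nat_lit 0) (XT.lf (nat_lit 84) (nat_lit 17317083604) (nat_lit 0) (nat_lit 48092444046) (nat_lit 1344) (nat_lit 62928919277) (nat_lit 168) (nat_lit 5) (nat_lit 167) (nat_lit 5) (nat_lit 183) (nat_lit 5) (nat_lit 439) (nat_lit 423) (nat_lit 83)) (XT.nd (nat_lit 94) (nat_lit 1260) (nat_lit 0) (XT.lf (nat_lit 0) (nat_lit 74111095535) (nat_lit 1260) (nat_lit 53219302293) (nat_lit 84) (nat_lit 3155263179) (nat_lit 168) (nat_lit 5) (nat_lit 183) (nat_lit 5) (nat_lit 169) (nat_lit 5) (nat_lit 440) (nat_lit 423) (nat_lit 82)) (XT.lf (nat_lit 0) (nat_lit 5956764783) (nat_lit 1260) (nat_lit 77650216242) (nat_lit 1344) (nat_lit 49074312638) (nat_lit 153) (nat_lit 5) (nat_lit 168) (nat_lit 5) (nat_lit 169) (nat_lit 5) (nat_lit 441) (nat_lit 423)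 (nat_lit 81))))) (XT.nd (nat_lit 282) (nat_lit 588) (nat_lit 0) (XT.nd (nat_lit 94) (nat_lit 588) (nat_lit 0) (XT.lf (nat_lit 0) (nat_lit 67998927770) (nat_lit 1260) (nat_lit 25926076792) (nat_lit 1344) (nat_lit 41001673155) (nat_lit 153) (nat_lit 5) (nat_lit 168) (nat_lit 5) (nat_lit 169) (nat_lit 5) (nat_lit 442) (nat_lit 423) (nat_lit 80)) (XT.nd (nat_lit 94) (nat_lit 588) (nat_lit 0) (XT.lf (nat_lit 0) (nat_lit 104815327093) (nat_lit 1344) (nat_lit 5600101159) (nat_lit 84) (nat_lit 26816112548) (nat_lit 153) (nat_lit 5) (nat_lit 169) (nat_lit 5) (nat_lit 154) (nat_lit 5) (nat_lit 443) (nat_lit 423) (nat_lit 79)) (XT.lf (nat_lit 0) (nat_lit 58451148885) (nat_lit 588) (nat_lit 58399632061) (nat_lit 672) (nat_lit 22730216427) (nat_lit 146) (nat_lit 5) (nat_lit 153) (nat_lit 5) (nat_lit 154) (nat_lit 5) (nat_lit 444) (nat_lit 423) (nat_lit 78)))) (XT.nd (nat_lit 57340) (nat_lit 0) (nat_lit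 1848) (XT.nd (nat_lit 94) (nat_lit 588) (nat_lit 0) (XT.lf (nat_lit 0) (nat_lit 124538607433) (nat_lit 588) (nat_lit 4765103522) (nat_lit 672) (nat_lit 12695534554) (nat_lit 146) (nat_lit 5) (nat_lit 153) (nat_lit 5) (nat_lit 154) (nat_lit 5) (nat_lit 445) (nat_lit 423) (nat_lit 77)) (XT.lf (nat_lit 0) (nat_lit 48581288448) (nat_lit 588) (nat_lit 94501029941) (nat_lit 672) (nat_lit 1379160247) (nat_lit 139) (nat_lit 5) (nat_lit 146) (nat_lit 5) (nat_lit 147) (nat_lit 5) (nat_lit 446) (nat_lit 423) (nat_lit 76))) (XT.nd (nat_lit 94) (nat_lit 0) (nat_lit 0) (XT.lf (nat_lit 0) (nat_lit 1189667416) (nat_lit 0) (nat_lit 1189667416) (nat_lit 1260) (nat_lit 49075207814) (nat_lit 161) (nat_lit 5) (nat_lit 161) (nat_lit 3) (nat_lit 176) (nat_lit 3) (nat_lit 424) (nat_lit 424) (nat_lit 97)) (XT.lf (nat_lit 0) (nat_lit 5252554569) (nat_lit 1260) (nat_lit 56681931968) (nat_lit 1344) (nat_lit 42505549391)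 (nat_lit 161) (nat_lit 5) (nat_lit 176) (nat_lit 3) (nat_lit 177) (nat_lit 5) (nat_lit 425) (nat_lit 424) (nat_lit 96)))))) (XT.nd (nat_lit 658) (nat_lit 0) (nat_lit 252) (XT.nd (nat_lit 282) (nat_lit 0) (nat_lit 168) (XT.nd (nat_lit 94) (nat_lit 0) (nat_lit 84) (XT.lf (nat_lit 0) (nat_lit 5784589149) (nat_lit 1260) (nat_lit 11542357819) (nat_lit 1344) (nat_lit 88689268528) (nat_lit 161) (nat_lit 5) (nat_lit 176) (nat_lit 3) (nat_lit 177) (nat_lit 5) (nat_lit 426) (nat_lit 424) (nat_lit 95)) (XT.nd (nat_lit 94) (nat_lit 0) (nat_lit 0) (XT.lf (nat_lit 0) (nat_lit 6953521564) (nat_lit 1260) (nat_lit 72261017756) (nat_lit 1344) (nat_lit 28406513424) (nat_lit 162) (nat_lit 5) (nat_lit 177) (nat_lit 5) (nat_lit 178) (nat_lit 5) (nat_lit 427) (nat_lit 424) (nat_lit 94)) (XT.lf (nat_lit 0) (nat_lit 8446573139) (nat_lit 1260) (nat_lit 25537263943) (nat_lit 1344) (nat_lit 75281526879) (nat_lit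 162) (nat_lit 5) (nat_lit 177) (nat_lit 5) (nat_lit 178) (nat_lit 5) (nat_lit 428) (nat_lit 424) (nat_lit 93)))) (XT.nd (nat_lit 188) (nat_lit 0) (nat_lit 0) (XT.nd (nat_lit 94) (nat_lit 0) (nat_lit 0) (XT.lf (nat_lit 0) (nat_lit 10329010995) (nat_lit 1260) (nat_lit 88038087151) (nat_lit 1344) (nat_lit 12581568901) (nat_lit 163) (nat_lit 5) (nat_lit 178) (nat_lit 5) (nat_lit 179) (nat_lit 5) (nat_lit 429) (nat_lit 424) (nat_lit 92)) (XT.lf (nat_lit 0) (nat_lit 12864625011) (nat_lit 1260) (nat_lit 39678538401) (nat_lit 1344) (nat_lit 60121405088) (nat_lit 163) (nat_lit 5) (nat_lit 178) (nat_lit 5) (nat_lit 179) (nat_lit 5) (nat_lit 430) (nat_lit 424) (nat_lit 91))) (XT.nd (nat_lit 94) (nat_lit 0) (nat_lit 84) (XT.lf (nat_lit 84) (nat_lit 10333314149) (nat_lit 0) (nat_lit 5242129129) (nat_lit 1344) (nat_lit 98853529997) (nat_lit 164) (nat_lit 5) (nat_lit 163) (nat_lit 5) (nat_lit 179) (nat_lit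 5) (nat_lit 431) (nat_lit 424) (nat_lit 90)) (XT.lf (nat_lit 0) (nat_lit 19189975974) (nat_lit 1260) (nat_lit 53997428448) (nat_lit 1344) (nat_lit 43034234416) (nat_lit 164) (nat_lit 5) (nat_lit 179) (nat_lit 5) (nat_lit 180) (nat_lit 5) (nat_lit 432) (nat_lit 424) (nat_lit 89))))) (XT.nd (nat_lit 282) (nat_lit 0) (nat_lit 168) (XT.nd (nat_lit 94) (nat_lit 0) (nat_lit 84) (XT.lf (nat_lit 0) (nat_lit 22964663270) (nat_lit 1260) (nat_lit 2448277710) (nat_lit 1344) (nat_lit 92653592165) (nat_lit 164) (nat_lit 5) (nat_lit 179) (nat_lit 5) (nat_lit 180) (nat_lit 5) (nat_lit 433) (nat_lit 424) (nat_lit 88)) (XT.nd (nat_lit 94) (nat_lit 0) (nat_lit 0) (XT.lf (nat_lit 0) (nat_lit 27582600878) (nat_lit 1260) (nat_lit 68530324564) (nat_lit 1344) (nat_lit 23831948872) (nat_lit 165) (nat_lit 5) (nat_lit 180) (nat_lit 5) (nat_lit 181) (nat_lit 5) (nat_lit 434) (nat_lit 424) (nat_lit 87)) (XT.lf (nat_lit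 0) (nat_lit 32615483740) (nat_lit 1260) (nat_lit 15187358604) (nat_lit 1344) (nat_lit 74068431473) (nat_lit 165) (nat_lit 5) (nat_lit 180) (nat_lit 5) (nat_lit 181) (nat_lit 5) (nat_lit 435) (nat_lit 424) (nat_lit 86)))) (XT.nd (nat_lit 188) (nat_lit 0) (nat_lit 0) (XT.nd (nat_lit 94) (nat_lit 0) (nat_lit 0) (XT.lf (nat_lit 0) (nat_lit 38211613876) (nat_lit 1260) (nat_lit 83319452752) (nat_lit 1344) (nat_lit 2312031158) (nat_lit 166) (nat_lit 5) (nat_lit 181) (nat_lit 5) (nat_lit 182) (nat_lit 5) (nat_lit 436) (nat_lit 424) (nat_lit 85)) (XT.lf (nat_lit 0) (nat_lit 44603639866) (nat_lit 1260) (nat_lit 28127111409) (nat_lit 1344) (nat_lit 53124485137) (nat_lit 166) (nat_lit 5) (nat_lit 181) (nat_lit 5) (nat_lit 182) (nat_lit 5) (nat_lit 437) (nat_lit 424) (nat_lit 84))) (XT.nd (nat_lit 94) (nat_lit 0) (nat_lit 84) (XT.lf (nat_lit 84) (nat_lit 29292478989) (nat_lit 0) (nat_lit 22176365163)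 (nat_lit 1344) (nat_lit 76450452808) (nat_lit 167) (nat_lit 5) (nat_lit 166) (nat_lit 5) (nat_lit 182) (nat_lit 5) (nat_lit 438) (nat_lit 424) (nat_lit 83)) (XT.lf (nat_lit 0) (nat_lit 59114055195) (nat_lit 1260) (nat_lit 41315828057) (nat_lit 1344) (nat_lit 29598174831) (nat_lit 167) (nat_lit 5) (nat_lit 182) (nat_lit 5) (nat_lit 183) (nat_lit 5) (nat_lit 439) (nat_lit 424) (nat_lit 82))))))) (XT.nd (nat_lit 58562) (nat_lit 0) (nat_lit 588) (XT.nd (nat_lit 57904) (nat_lit 0) (nat_lit 1260) (XT.nd (nat_lit 282) (nat_lit 588) (nat_lit 0) (XT.nd (nat_lit 94) (nat_lit 1176) (nat_lit 0) (XT.lf (nat_lit 84) (nat_lit 17842981063) (nat_lit 0) (nat_lit 49536575769) (nat_lit 1344) (nat_lit 64808797452) (nat_lit 168) (nat_lit 5) (nat_lit 167) (nat_lit 5) (nat_lit 183) (nat_lit 5) (nat_lit 440) (nat_lit 424) (nat_lit 81)) (XT.nd (nat_lit 94) (nat_lit 1260) (nat_lit 0) (XT.lf (nat_lit 0) (nat_lit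 76341933541) (nat_lit 1260) (nat_lit 54809430818) (nat_lit 84) (nat_lit 3248627973) (nat_lit 168) (nat_lit 5) (nat_lit 183) (nat_lit 5) (nat_lit 169) (nat_lit 5) (nat_lit 441) (nat_lit 424) (nat_lit 80)) (XT.lf (nat_lit 0) (nat_lit 6141855030) (nat_lit 1260) (nat_lit 79980683368) (nat_lit 1344) (nat_lit 50538960674) (nat_lit 153) (nat_lit 5) (nat_lit 168) (nat_lit 5) (nat_lit 169) (nat_lit 5) (nat_lit 442) (nat_lit 424) (nat_lit 79)))) (XT.nd (nat_lit 188) (nat_lit 588) (nat_lit 0) (XT.nd (nat_lit 94) (nat_lit 0) (nat_lit 0) (XT.lf (nat_lit 0) (nat_lit 70045096869) (nat_lit 1260) (nat_lit 26704791755) (nat_lit 1344) (nat_lit 42224362823) (nat_lit 153) (nat_lit 5) (nat_lit 168) (nat_lit 5) (nat_lit 169) (nat_lit 5) (nat_lit 443) (nat_lit 424) (nat_lit 78)) (XT.lf (nat_lit 0) (nat_lit 107966704342) (nat_lit 1344) (nat_lit 5761854841) (nat_lit 84) (nat_lit 27619708099) (nat_lit 153) (nat_lit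 5) (nat_lit 169) (nat_lit 5) (nat_lit 154) (nat_lit 5) (nat_lit 444) (nat_lit 424) (nat_lit 77))) (XT.nd (nat_lit 94) (nat_lit 0) (nat_lit 0) (XT.lf (nat_lit 0) (nat_lit 60210871436) (nat_lit 588) (nat_lit 60152208380) (nat_lit 672) (nat_lit 23405132353) (nat_lit 146) (nat_lit 5) (nat_lit 153) (nat_lit 5) (nat_lit 154) (nat_lit 5) (nat_lit 445) (nat_lit 424) (nat_lit 76)) (XT.lf (nat_lit 0) (nat_lit 128280773504) (nat_lit 588) (nat_lit 4908626878) (nat_lit 672) (nat_lit 13069613632) (nat_lit 146) (nat_lit 5) (nat_lit 153) (nat_lit 5) (nat_lit 154) (nat_lit 5) (nat_lit 446) (nat_lit 424) (nat_lit 75))))) (XT.nd (nat_lit 282) (nat_lit 0) (nat_lit 84) (XT.nd (nat_lit 94) (nat_lit 0) (nat_lit 0) (XT.lf (nat_lit 0) (nat_lit 1228221533) (nat_lit 0) (nat_lit 1228221533) (nat_lit 1260) (nat_lit 50541553616) (nat_lit 161) (nat_lit 5) (nat_lit 161) (nat_lit 3) (nat_lit 176) (nat_lit 3) (nat_lit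 425) (nat_lit 425) (nat_lit 95)) (XT.nd (nat_lit 94) (nat_lit 0) (nat_lit 0) (XT.lf (nat_lit 0) (nat_lit 5421200441) (nat_lit 1260) (nat_lit 58376421247) (nat_lit 1344) (nat_lit 43775263048) (nat_lit 161) (nat_lit 5) (nat_lit 176) (nat_lit 3) (nat_lit 177) (nat_lit 5) (nat_lit 426) (nat_lit 425) (nat_lit 94)) (XT.lf (nat_lit 0) (nat_lit 5968873653) (nat_lit 1260) (nat_lit 11882833718) (nat_lit 1344) (nat_lit 91344652579) (nat_lit 161) (nat_lit 5) (nat_lit 176) (nat_lit 3) (nat_lit 177) (nat_lit 5) (nat_lit 427) (nat_lit 425) (nat_lit 93)))) (XT.nd (nat_lit 188) (nat_lit 0) (nat_lit 84) (XT.nd (nat_lit 94) (nat_lit 0) (nat_lit 0) (XT.lf (nat_lit 0) (nat_lit 7172570515) (nat_lit 1260) (nat_lit 74422730892) (nat_lit 1344) (nat_lit 29254050586) (nat_lit 162) (nat_lit 5) (nat_lit 177) (nat_lit 5) (nat_lit 178) (nat_lit 5) (nat_lit 428) (nat_lit 425) (nat_lit 92)) (XT.lf (nat_lit 0) (nat_lit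 8710109463) (nat_lit 1260) (nat_lit 26297442641) (nat_lit 1344) (nat_lit 77535450121) (nat_lit 162) (nat_lit 5) (nat_lit 177) (nat_lit 5) (nat_lit 178) (nat_lit 5) (nat_lit 429) (nat_lit 425) (nat_lit 91))) (XT.nd (nat_lit 94) (nat_lit 0) (nat_lit 0) (XT.lf (nat_lit 0) (nat_lit 10648743035) (nat_lit 1260) (nat_lit 90672995184) (nat_lit 1344) (nat_lit 12955075046) (nat_lit 163) (nat_lit 5) (nat_lit 178) (nat_lit 5) (nat_lit 179) (nat_lit 5) (nat_lit 430) (nat_lit 425) (nat_lit 90)) (XT.lf (nat_lit 0) (nat_lit 13260138237) (nat_lit 1260) (nat_lit 40862841561) (nat_lit 1344) (nat_lit 61921221103) (nat_lit 163) (nat_lit 5) (nat_lit 178) (nat_lit 5) (nat_lit 179) (nat_lit 5) (nat_lit 431) (nat_lit 425) (nat_lit 89)))))) (XT.nd (nat_lit 658) (nat_lit 840) (nat_lit 0) (XT.nd (nat_lit 282) (nat_lit 0) (nat_lit 168) (XT.nd (nat_lit 94) (nat_lit 0) (nat_lit 84) (XT.lf (nat_lit 84) (nat_lit 10649307223)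 (nat_lit 0) (nat_lit 5402752576) (nat_lit 1344) (nat_lit 101809485165) (nat_lit 164) (nat_lit 5) (nat_lit 163) (nat_lit 5) (nat_lit 179) (nat_lit 5) (nat_lit 432) (nat_lit 425) (nat_lit 88)) (XT.nd (nat_lit 94) (nat_lit 0) (nat_lit 0) (XT.lf (nat_lit 0) (nat_lit 19774724698) (nat_lit 1260) (nat_lit 55611212028) (nat_lit 1344) (nat_lit 44322063375) (nat_lit 164) (nat_lit 5) (nat_lit 179) (nat_lit 5) (nat_lit 180) (nat_lit 5) (nat_lit 433) (nat_lit 425) (nat_lit 87)) (XT.lf (nat_lit 0) (nat_lit 23662389037) (nat_lit 1260) (nat_lit 2515765581) (nat_lit 1344) (nat_lit 95430095004) (nat_lit 164) (nat_lit 5) (nat_lit 179) (nat_lit 5) (nat_lit 180) (nat_lit 5) (nat_lit 434) (nat_lit 425) (nat_lit 86)))) (XT.nd (nat_lit 188) (nat_lit 0) (nat_lit 84) (XT.nd (nat_lit 94) (nat_lit 0) (nat_lit 0) (XT.lf (nat_lit 0) (nat_lit 28418639801) (nat_lit 1260) (nat_lit 70580033391) (nat_lit 1344) (nat_lit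 24544275047) (nat_lit 165) (nat_lit 5) (nat_lit 180) (nat_lit 5) (nat_lit 181) (nat_lit 5) (nat_lit 435) (nat_lit 425) (nat_lit 85)) (XT.lf (nat_lit 0) (nat_lit 33602259802) (nat_lit 1260) (nat_lit 15636959061) (nat_lit 1344) (nat_lit 76287928795) (nat_lit 165) (nat_lit 5) (nat_lit 180) (nat_lit 5) (nat_lit 181) (nat_lit 5) (nat_lit 436) (nat_lit 425) (nat_lit 84))) (XT.nd (nat_lit 94) (nat_lit 0) (nat_lit 0) (XT.lf (nat_lit 0) (nat_lit 39366068246) (nat_lit 1260) (nat_lit 85812795848) (nat_lit 1344) (nat_lit 2379268858) (nat_lit 166) (nat_lit 5) (nat_lit 181) (nat_lit 5) (nat_lit 182) (nat_lit 5) (nat_lit 437) (nat_lit 425) (nat_lit 83)) (XT.lf (nat_lit 0) (nat_lit 45949618920) (nat_lit 1260) (nat_lit 28964866027) (nat_lit 1344) (nat_lit 54716158298) (nat_lit 166) (nat_lit 5) (nat_lit 181) (nat_lit 5) (nat_lit 182) (nat_lit 5) (nat_lit 438) (nat_lit 425) (nat_lit 82))))) (XT.nd (nat_lit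 282) (nat_lit 1092) (nat_lit 0) (XT.nd (nat_lit 94) (nat_lit 0) (nat_lit 84) (XT.lf (nat_lit 84) (nat_lit 30177252683) (nat_lit 0) (nat_lit 22843355101) (nat_lit 1344) (nat_lit 78736023384) (nat_lit 167) (nat_lit 5) (nat_lit 166) (nat_lit 5) (nat_lit 182) (nat_lit 5) (nat_lit 439) (nat_lit 425) (nat_lit 81)) (XT.nd (nat_lit 94) (nat_lit 0) (nat_lit 0) (XT.lf (nat_lit 0) (nat_lit 60894935080) (nat_lit 1260) (nat_lit 42549224882) (nat_lit 1344) (nat_lit 30484502766) (nat_lit 167) (nat_lit 5) (nat_lit 182) (nat_lit 5) (nat_lit 183) (nat_lit 5) (nat_lit 440) (nat_lit 425) (nat_lit 80)) (XT.lf (nat_lit 84) (nat_lit 18384288923) (nat_lit 0) (nat_lit 51023953466) (nat_lit 1344) (nat_lit 66745530595) (nat_lit 168) (nat_lit 5) (nat_lit 167) (nat_lit 5) (nat_lit 183) (nat_lit 5) (nat_lit 441) (nat_lit 425) (nat_lit 79)))) (XT.nd (nat_lit 188) (nat_lit 0) (nat_lit 0) (XT.nd (nat_lit 94) (nat_lit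 1260) (nat_lit 0) (XT.lf (nat_lit 0) (nat_lit 78639265862) (nat_lit 1260) (nat_lit 56447633486) (nat_lit 84) (nat_lit 3344867940) (nat_lit 168) (nat_lit 5) (nat_lit 183) (nat_lit 5) (nat_lit 169) (nat_lit 5) (nat_lit 442) (nat_lit 425) (nat_lit 78)) (XT.lf (nat_lit 0) (nat_lit 6332131327) (nat_lit 1260) (nat_lit 82381009364) (nat_lit 1344) (nat_lit 52047983352) (nat_lit 153) (nat_lit 5) (nat_lit 168) (nat_lit 5) (nat_lit 169) (nat_lit 5) (nat_lit 443) (nat_lit 425) (nat_lit 77))) (XT.nd (nat_lit 94) (nat_lit 0) (nat_lit 0) (XT.lf (nat_lit 0) (nat_lit 72152295062) (nat_lit 1260) (nat_lit 27506814629) (nat_lit 1344) (nat_lit 43484155705) (nat_lit 153) (nat_lit 5) (nat_lit 168) (nat_lit 5) (nat_lit 169) (nat_lit 5) (nat_lit 444) (nat_lit 425) (nat_lit 76)) (XT.lf (nat_lit 0) (nat_lit 111212225820) (nat_lit 1344) (nat_lit 5928819873) (nat_lit 84) (nat_lit 28447462482) (nat_lit 153) (nat_lit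 5) (nat_lit 169) (nat_lit 5) (nat_lit 154) (nat_lit 5) (nat_lit 445) (nat_lit 425) (nat_lit 75))))))))
noncomputable def xc249 : XT := (XT.nd (nat_lit 117312) (nat_lit 0) (nat_lit 588) (XT.nd (nat_lit 58562) (nat_lit 0) (nat_lit 588) (XT.nd (nat_lit 57904) (nat_lit 0) (nat_lit 1428) (XT.nd (nat_lit 57622) (nat_lit 0) (nat_lit 1260) (XT.nd (nat_lit 57434) (nat_lit 0) (nat_lit 1260) (XT.lf (nat_lit 0) (nat_lit 62023030441) (nat_lit 588) (nat_lit 61957328272) (nat_lit 672) (nat_lit 24100697044) (nat_lit 146) (nat_lit 5) (nat_lit 153) (nat_lit 5) (nat_lit 154) (nat_lit 5) (nat_lit 446) (nat_lit 425) (nat_lit 74)) (XT.nd (nat_lit 94) (nat_lit 0) (nat_lit 0) (XT.lf (nat_lit 0) (nat_lit 1267767861) (nat_lit 0) (nat_lit 1267767861) (nat_lit 1260) (nat_lit 52052229074) (nat_lit 161) (nat_lit 5) (nat_lit 161) (nat_lit 3) (nat_lit 176) (nat_lit 3) (nat_lit 426) (nat_lit 426) (nat_lit 93)) (XT.lf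 (nat_lit 0) (nat_lit 5594270269) (nat_lit 1260) (nat_lit 60122087830) (nat_lit 1344) (nat_lit 45083381129) (nat_lit 161) (nat_lit 5) (nat_lit 176) (nat_lit 3) (nat_lit 177) (nat_lit 5) (nat_lit 427) (nat_lit 426) (nat_lit 92)))) (XT.nd (nat_lit 94) (nat_lit 0) (nat_lit 84) (XT.lf (nat_lit 0) (nat_lit 6158069780) (nat_lit 1260) (nat_lit 12233856541) (nat_lit 1344) (nat_lit 94080002050) (nat_lit 161) (nat_lit 5) (nat_lit 176) (nat_lit 3) (nat_lit 177) (nat_lit 5) (nat_lit 428) (nat_lit 426) (nat_lit 91)) (XT.nd (nat_lit 94) (nat_lit 0) (nat_lit 0) (XT.lf (nat_lit 0) (nat_lit 7397591445) (nat_lit 1260) (nat_lit 76649646585) (nat_lit 1344) (nat_lit 30127281265) (nat_lit 162) (nat_lit 5) (nat_lit 177) (nat_lit 5) (nat_lit 178) (nat_lit 5) (nat_lit 429) (nat_lit 426) (nat_lit 90)) (XT.lf (nat_lit 0) (nat_lit 8980969849) (nat_lit 1260) (nat_lit 27080767636) (nat_lit 1344) (nat_lit 79857250675)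 (nat_lit 162) (nat_lit 5) (nat_lit 177) (nat_lit 5) (nat_lit 178) (nat_lit 5) (nat_lit 430) (nat_lit 426) (nat_lit 89))))) (XT.nd (nat_lit 282) (nat_lit 0) (nat_lit 84) (XT.nd (nat_lit 94) (nat_lit 0) (nat_lit 0) (XT.lf (nat_lit 0) (nat_lit 10977500934) (nat_lit 1260) (nat_lit 93387308348) (nat_lit 1344) (nat_lit 13340012600) (nat_lit 163) (nat_lit 5) (nat_lit 178) (nat_lit 5) (nat_lit 179) (nat_lit 5) (nat_lit 431) (nat_lit 426) (nat_lit 88)) (XT.nd (nat_lit 94) (nat_lit 0) (nat_lit 0) (XT.lf (nat_lit 0) (nat_lit 13666967246) (nat_lit 1260) (nat_lit 42083021282) (nat_lit 1344) (nat_lit 63775251234) (nat_lit 163) (nat_lit 5) (nat_lit 178) (nat_lit 5) (nat_lit 179) (nat_lit 5) (nat_lit 432) (nat_lit 426) (nat_lit 87)) (XT.lf (nat_lit 84) (nat_lit 10974436028) (nat_lit 0) (nat_lit 5568001873) (nat_lit 1344) (nat_lit 104854672980) (nat_lit 164) (nat_lit 5) (nat_lit 163) (nat_lit 5) (nat_lit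 179) (nat_lit 5) (nat_lit 433) (nat_lit 426) (nat_lit 86)))) (XT.nd (nat_lit 188) (nat_lit 0) (nat_lit 84) (XT.nd (nat_lit 94) (nat_lit 0) (nat_lit 0) (XT.lf (nat_lit 0) (nat_lit 20376496409) (nat_lit 1260) (nat_lit 57273761534) (nat_lit 1344) (nat_lit 45648710785) (nat_lit 164) (nat_lit 5) (nat_lit 179) (nat_lit 5) (nat_lit 180) (nat_lit 5) (nat_lit 434) (nat_lit 426) (nat_lit 85)) (XT.lf (nat_lit 0) (nat_lit 24380542231) (nat_lit 1260) (nat_lit 2585620243) (nat_lit 1344) (nat_lit 98290071163) (nat_lit 164) (nat_lit 5) (nat_lit 179) (nat_lit 5) (nat_lit 180) (nat_lit 5) (nat_lit 435) (nat_lit 426) (nat_lit 84))) (XT.nd (nat_lit 94) (nat_lit 0) (nat_lit 0) (XT.lf (nat_lit 0) (nat_lit 29279268461) (nat_lit 1260) (nat_lit 72691589440) (nat_lit 1344) (nat_lit 25278122111) (nat_lit 165) (nat_lit 5) (nat_lit 180) (nat_lit 5) (nat_lit 181) (nat_lit 5) (nat_lit 436) (nat_lit 426) (nat_lit 83))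 (XT.lf (nat_lit 0) (nat_lit 34618162029) (nat_lit 1260) (nat_lit 16100393122) (nat_lit 1344) (nat_lit 78574157739) (nat_lit 165) (nat_lit 5) (nat_lit 180) (nat_lit 5) (nat_lit 181) (nat_lit 5) (nat_lit 437) (nat_lit 426) (nat_lit 82)))))) (XT.nd (nat_lit 658) (nat_lit 0) (nat_lit 0) (XT.nd (nat_lit 282) (nat_lit 1092) (nat_lit 0) (XT.nd (nat_lit 94) (nat_lit 0) (nat_lit 0) (XT.lf (nat_lit 0) (nat_lit 40554690932) (nat_lit 1260) (nat_lit 88381297467) (nat_lit 1344) (nat_lit 2448645571) (nat_lit 166) (nat_lit 5) (nat_lit 181) (nat_lit 5) (nat_lit 182) (nat_lit 5) (nat_lit 438) (nat_lit 426) (nat_lit 81)) (XT.nd (nat_lit 94) (nat_lit 0) (nat_lit 0) (XT.lf (nat_lit 0) (nat_lit 47335525583) (nat_lit 1260) (nat_lit 29828101079) (nat_lit 1344) (nat_lit 56355699986) (nat_lit 166) (nat_lit 5) (nat_lit 181) (nat_lit 5) (nat_lit 182) (nat_lit 5) (nat_lit 439) (nat_lit 426) (nat_lit 80)) (XT.lf (nat_lit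 84) (nat_lit 31088225203) (nat_lit 0) (nat_lit 23530257208) (nat_lit 1344) (nat_lit 81090617038) (nat_lit 167) (nat_lit 5) (nat_lit 166) (nat_lit 5) (nat_lit 182) (nat_lit 5) (nat_lit 440) (nat_lit 426) (nat_lit 79)))) (XT.nd (nat_lit 188) (nat_lit 1176) (nat_lit 0) (XT.nd (nat_lit 94) (nat_lit 0) (nat_lit 0) (XT.lf (nat_lit 0) (nat_lit 62728813229) (nat_lit 1260) (nat_lit 43819972514) (nat_lit 1344) (nat_lit 31397513379) (nat_lit 167) (nat_lit 5) (nat_lit 182) (nat_lit 5) (nat_lit 183) (nat_lit 5) (nat_lit 441) (nat_lit 426) (nat_lit 78)) (XT.lf (nat_lit 84) (nat_lit 18941490536) (nat_lit 0) (nat_lit 52555878993) (nat_lit 1344) (nat_lit 68740798031) (nat_lit 168) (nat_lit 5) (nat_lit 167) (nat_lit 5) (nat_lit 183) (nat_lit 5) (nat_lit 442) (nat_lit 426) (nat_lit 77))) (XT.nd (nat_lit 94) (nat_lit 1260) (nat_lit 0) (XT.lf (nat_lit 0) (nat_lit 81005112058) (nat_lit 1260) (nat_lit 58135331266)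 (nat_lit 84) (nat_lit 3444065075) (nat_lit 168) (nat_lit 5) (nat_lit 183) (nat_lit 5) (nat_lit 169) (nat_lit 5) (nat_lit 443) (nat_lit 426) (nat_lit 76)) (XT.lf (nat_lit 0) (nat_lit 6527770303) (nat_lit 1260) (nat_lit 84853293160) (nat_lit 1344) (nat_lit 53602686928) (nat_lit 153) (nat_lit 5) (nat_lit 168) (nat_lit 5) (nat_lit 169) (nat_lit 5) (nat_lit 444) (nat_lit 426) (nat_lit 75))))) (XT.nd (nat_lit 57716) (nat_lit 0) (nat_lit 672) (XT.nd (nat_lit 94) (nat_lit 0) (nat_lit 0) (XT.lf (nat_lit 0) (nat_lit 74322373658) (nat_lit 1260) (nat_lit 28332847723) (nat_lit 1344) (nat_lit 44782140643) (nat_lit 153) (nat_lit 5) (nat_lit 168) (nat_lit 5) (nat_lit 169) (nat_lit 5) (nat_lit 445) (nat_lit 426) (nat_lit 74)) (XT.nd (nat_lit 57528) (nat_lit 0) (nat_lit 672) (XT.lf (nat_lit 0) (nat_lit 114554738647) (nat_lit 1344) (nat_lit 6101132000) (nat_lit 84) (nat_lit 29300097535) (nat_lit 153) (nat_lit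 5) (nat_lit 169) (nat_lit 5) (nat_lit 154) (nat_lit 5) (nat_lit 446) (nat_lit 426) (nat_lit 73)) (XT.lf (nat_lit 0) (nat_lit 1308345607) (nat_lit 0) (nat_lit 1308345607) (nat_lit 1260) (nat_lit 53608544604) (nat_lit 161) (nat_lit 5) (nat_lit 161) (nat_lit 3) (nat_lit 176) (nat_lit 3) (nat_lit 427) (nat_lit 427) (nat_lit 91)))) (XT.nd (nat_lit 188) (nat_lit 0) (nat_lit 84) (XT.nd (nat_lit 94) (nat_lit 0) (nat_lit 0) (XT.lf (nat_lit 0) (nat_lit 5771933248) (nat_lit 1260) (nat_lit 61920447369) (nat_lit 1344) (nat_lit 46431037798) (nat_lit 161) (nat_lit 5) (nat_lit 176) (nat_lit 3) (nat_lit 177) (nat_lit 5) (nat_lit 428) (nat_lit 427) (nat_lit 90)) (XT.lf (nat_lit 0) (nat_lit 6352360292) (nat_lit 1260) (nat_lit 12595723600) (nat_lit 1344) (nat_lit 96897698457) (nat_lit 161) (nat_lit 5) (nat_lit 176) (nat_lit 3) (nat_lit 177) (nat_lit 5) (nat_lit 429) (nat_lit 427) (nat_lit 89))) (XT.nd (nat_lit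 94) (nat_lit 0) (nat_lit 0) (XT.lf (nat_lit 0) (nat_lit 7628797928) (nat_lit 1260) (nat_lit 78943700755) (nat_lit 1344) (nat_lit 31026960917) (nat_lit 162) (nat_lit 5) (nat_lit 177) (nat_lit 5) (nat_lit 178) (nat_lit 5) (nat_lit 430) (nat_lit 427) (nat_lit 88)) (XT.lf (nat_lit 0) (nat_lit 9259407429) (nat_lit 1260) (nat_lit 27887913745) (nat_lit 1344) (nat_lit 82248949956) (nat_lit 162) (nat_lit 5) (nat_lit 177) (nat_lit 5) (nat_lit 178) (nat_lit 5) (nat_lit 431) (nat_lit 427) (nat_lit 87))))))) (XT.nd (nat_lit 1316) (nat_lit 0) (nat_lit 0) (XT.nd (nat_lit 658) (nat_lit 840) (nat_lit 0) (XT.nd (nat_lit 282) (nat_lit 0) (nat_lit 84) (XT.nd (nat_lit 94) (nat_lit 0) (nat_lit 0) (XT.lf (nat_lit 0) (nat_lit 11315587964) (nat_lit 1260) (nat_lit 96183388253) (nat_lit 1344) (nat_lit 13736711520) (nat_lit 163) (nat_lit 5) (nat_lit 178) (nat_lit 5) (nat_lit 179) (nat_lit 5) (nat_lit 432) (nat_lit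 427) (nat_lit 86)) (XT.nd (nat_lit 94) (nat_lit 0) (nat_lit 0) (XT.lf (nat_lit 0) (nat_lit 14085483061) (nat_lit 1260) (nat_lit 43340133915) (nat_lit 1344) (nat_lit 65685109297) (nat_lit 163) (nat_lit 5) (nat_lit 178) (nat_lit 5) (nat_lit 179) (nat_lit 5) (nat_lit 433) (nat_lit 427) (nat_lit 85)) (XT.lf (nat_lit 84) (nat_lit 11308994389) (nat_lit 0) (nat_lit 5738026867) (nat_lit 1344) (nat_lit 107991738620) (nat_lit 164) (nat_lit 5) (nat_lit 163) (nat_lit 5) (nat_lit 179) (nat_lit 5) (nat_lit 434) (nat_lit 427) (nat_lit 84)))) (XT.nd (nat_lit 188) (nat_lit 0) (nat_lit 84) (XT.nd (nat_lit 94) (nat_lit 0) (nat_lit 0) (XT.lf (nat_lit 0) (nat_lit 20995831616) (nat_lit 1260) (nat_lit 58986519714) (nat_lit 1344) (nat_lit 47015330661) (nat_lit 164) (nat_lit 5) (nat_lit 179) (nat_lit 5) (nat_lit 180) (nat_lit 5) (nat_lit 435) (nat_lit 427) (nat_lit 83)) (XT.lf (nat_lit 0) (nat_lit 25119764629)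 (nat_lit 1260) (nat_lit 2657893059) (nat_lit 1344) (nat_lit 101236014612) (nat_lit 164) (nat_lit 5) (nat_lit 179) (nat_lit 5) (nat_lit 180) (nat_lit 5) (nat_lit 436) (nat_lit 427) (nat_lit 82))) (XT.nd (nat_lit 94) (nat_lit 0) (nat_lit 0) (XT.lf (nat_lit 0) (nat_lit 30165252760) (nat_lit 1260) (nat_lit 74866827696) (nat_lit 1344) (nat_lit 26034127018) (nat_lit 165) (nat_lit 5) (nat_lit 180) (nat_lit 5) (nat_lit 181) (nat_lit 5) (nat_lit 437) (nat_lit 427) (nat_lit 81)) (XT.lf (nat_lit 0) (nat_lit 35664091595) (nat_lit 1260) (nat_lit 16578055957) (nat_lit 1344) (nat_lit 80929111834) (nat_lit 165) (nat_lit 5) (nat_lit 180) (nat_lit 5) (nat_lit 181) (nat_lit 5) (nat_lit 438) (nat_lit 427) (nat_lit 80))))) (XT.nd (nat_lit 282) (nat_lit 1092) (nat_lit 0) (XT.nd (nat_lit 94) (nat_lit 0) (nat_lit 0) (XT.lf (nat_lit 0) (nat_lit 41778533695) (nat_lit 1260) (nat_lit 91027191800) (nat_lit 1344) (nat_lit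 2520218471) (nat_lit 166) (nat_lit 5) (nat_lit 181) (nat_lit 5) (nat_lit 182) (nat_lit 5) (nat_lit 439) (nat_lit 427) (nat_lit 79)) (XT.nd (nat_lit 94) (nat_lit 0) (nat_lit 0) (XT.lf (nat_lit 0) (nat_lit 48762583618) (nat_lit 1260) (nat_lit 30717561014) (nat_lit 1344) (nat_lit 58044539464) (nat_lit 166) (nat_lit 5) (nat_lit 181) (nat_lit 5) (nat_lit 182) (nat_lit 5) (nat_lit 440) (nat_lit 427) (nat_lit 78)) (XT.lf (nat_lit 84) (nat_lit 32026202282) (nat_lit 0) (nat_lit 24237674448) (nat_lit 1344) (nat_lit 83516278289) (nat_lit 167) (nat_lit 5) (nat_lit 166) (nat_lit 5) (nat_lit 182) (nat_lit 5) (nat_lit 441) (nat_lit 427) (nat_lit 77)))) (XT.nd (nat_lit 188) (nat_lit 1176) (nat_lit 0) (XT.nd (nat_lit 94) (nat_lit 0) (nat_lit 0) (XT.lf (nat_lit 0) (nat_lit 64617304166) (nat_lit 1260) (nat_lit 45129171451) (nat_lit 1344) (nat_lit 32338001821) (nat_lit 167) (nat_lit 5) (nat_lit 182) (nat_lit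 5) (nat_lit 183) (nat_lit 5) (nat_lit 442) (nat_lit 427) (nat_lit 76)) (XT.lf (nat_lit 84) (nat_lit 19515082548) (nat_lit 0) (nat_lit 54133693002) (nat_lit 1344) (nat_lit 70796330972) (nat_lit 168) (nat_lit 5) (nat_lit 167) (nat_lit 5) (nat_lit 183) (nat_lit 5) (nat_lit 443) (nat_lit 427) (nat_lit 75))) (XT.nd (nat_lit 94) (nat_lit 1260) (nat_lit 0) (XT.lf (nat_lit 0) (nat_lit 83441550856) (nat_lit 1260) (nat_lit 59873988975) (nat_lit 84) (nat_lit 3546304075) (nat_lit 168) (nat_lit 5) (nat_lit 183) (nat_lit 5) (nat_lit 169) (nat_lit 5) (nat_lit 444) (nat_lit 427) (nat_lit 74)) (XT.lf (nat_lit 0) (nat_lit 6728952678) (nat_lit 1260) (nat_lit 87399696475) (nat_lit 1344) (nat_lit 55204418280) (nat_lit 153) (nat_lit 5) (nat_lit 168) (nat_lit 5) (nat_lit 169) (nat_lit 5) (nat_lit 445) (nat_lit 427) (nat_lit 73)))))) (XT.nd (nat_lit 58186) (nat_lit 0) (nat_lit 840) (XT.nd (nat_lit 57810) (nat_lit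 0) (nat_lit 672) (XT.nd (nat_lit 57622) (nat_lit 0) (nat_lit 672) (XT.lf (nat_lit 0) (nat_lit 76557238330) (nat_lit 1260) (nat_lit 29183614243) (nat_lit 1344) (nat_lit 46119440537) (nat_lit 153) (nat_lit 5) (nat_lit 168) (nat_lit 5) (nat_lit 169) (nat_lit 5) (nat_lit 446) (nat_lit 427) (nat_lit 72)) (XT.nd (nat_lit 94) (nat_lit 0) (nat_lit 0) (XT.lf (nat_lit 0) (nat_lit 1349994609) (nat_lit 0) (nat_lit 1349994609) (nat_lit 1260) (nat_lit 55211851048) (nat_lit 161) (nat_lit 5) (nat_lit 161) (nat_lit 3) (nat_lit 176) (nat_lit 3) (nat_lit 428) (nat_lit 428) (nat_lit 89)) (XT.lf (nat_lit 0) (nat_lit 5954361555) (nat_lit 1260) (nat_lit 63773062114) (nat_lit 1344) (nat_lit 47819402277) (nat_lit 161) (nat_lit 5) (nat_lit 176) (nat_lit 3) (nat_lit 177) (nat_lit 5) (nat_lit 429) (nat_lit 428) (nat_lit 88)))) (XT.nd (nat_lit 188) (nat_lit 0) (nat_lit 84) (XT.nd (nat_lit 94) (nat_lit 0) (nat_lit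 84) (XT.lf (nat_lit 0) (nat_lit 6551931401) (nat_lit 1260) (nat_lit 12968742225) (nat_lit 1344) (nat_lit 99800195765) (nat_lit 161) (nat_lit 5) (nat_lit 176) (nat_lit 3) (nat_lit 177) (nat_lit 5) (nat_lit 430) (nat_lit 428) (nat_lit 87)) (XT.lf (nat_lit 0) (nat_lit 7866407968) (nat_lit 1260) (nat_lit 81306888554) (nat_lit 1344) (nat_lit 31953868541) (nat_lit 162) (nat_lit 5) (nat_lit 177) (nat_lit 5) (nat_lit 178) (nat_lit 5) (nat_lit 431) (nat_lit 428) (nat_lit 86))) (XT.nd (nat_lit 94) (nat_lit 0) (nat_lit 84) (XT.lf (nat_lit 0) (nat_lit 9545681014) (nat_lit 1260) (nat_lit 28719577153) (nat_lit 1344) (nat_lit 84712630879) (nat_lit 162) (nat_lit 5) (nat_lit 177) (nat_lit 5) (nat_lit 178) (nat_lit 5) (nat_lit 432) (nat_lit 428) (nat_lit 85)) (XT.lf (nat_lit 0) (nat_lit 11663314630) (nat_lit 1260) (nat_lit 99063668537) (nat_lit 1344) (nat_lit 14145512406) (nat_lit 163) (nat_lit 5) (nat_lit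 178) (nat_lit 5) (nat_lit 179) (nat_lit 5) (nat_lit 433) (nat_lit 428) (nat_lit 84))))) (XT.nd (nat_lit 282) (nat_lit 0) (nat_lit 84) (XT.nd (nat_lit 94) (nat_lit 0) (nat_lit 0) (XT.lf (nat_lit 0) (nat_lit 14516066026) (nat_lit 1260) (nat_lit 44635268647) (nat_lit 1344) (nat_lit 67652458246) (nat_lit 163) (nat_lit 5) (nat_lit 178) (nat_lit 5) (nat_lit 179) (nat_lit 5) (nat_lit 434) (nat_lit 428) (nat_lit 83)) (XT.nd (nat_lit 94) (nat_lit 0) (nat_lit 84) (XT.lf (nat_lit 84) (nat_lit 11653283807) (nat_lit 0) (nat_lit 5912981262) (nat_lit 1344) (nat_lit 111223408443) (nat_lit 164) (nat_lit 5) (nat_lit 163) (nat_lit 5) (nat_lit 179) (nat_lit 5) (nat_lit 435) (nat_lit 428) (nat_lit 82)) (XT.lf (nat_lit 0) (nat_lit 21633285331) (nat_lit 1260) (nat_lit 60750973760) (nat_lit 1344) (nat_lit 48423112245) (nat_lit 164) (nat_lit 5) (nat_lit 179) (nat_lit 5) (nat_lit 180) (nat_lit 5) (nat_lit 436)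 (nat_lit 428) (nat_lit 81)))) (XT.nd (nat_lit 188) (nat_lit 0) (nat_lit 84) (XT.nd (nat_lit 94) (nat_lit 0) (nat_lit 84) (XT.lf (nat_lit 0) (nat_lit 25880715594) (nat_lit 1260) (nat_lit 2732638059) (nat_lit 1344) (nat_lit 104270494724) (nat_lit 164) (nat_lit 5) (nat_lit 179) (nat_lit 5) (nat_lit 180) (nat_lit 5) (nat_lit 437) (nat_lit 428) (nat_lit 80)) (XT.lf (nat_lit 0) (nat_lit 31077379959) (nat_lit 1260) (nat_lit 77107639362) (nat_lit 1344) (nat_lit 26812946326) (nat_lit 165) (nat_lit 5) (nat_lit 180) (nat_lit 5) (nat_lit 181) (nat_lit 5) (nat_lit 438) (nat_lit 428) (nat_lit 79))) (XT.nd (nat_lit 94) (nat_lit 0) (nat_lit 84) (XT.lf (nat_lit 0) (nat_lit 36740975135) (nat_lit 1260) (nat_lit 17070355729) (nat_lit 1344) (nat_lit 83354844895) (nat_lit 165) (nat_lit 5) (nat_lit 180) (nat_lit 5) (nat_lit 181) (nat_lit 5) (nat_lit 439) (nat_lit 428) (nat_lit 78)) (XT.lf (nat_lit 0) (nat_lit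 43038678314) (nat_lit 1260) (nat_lit 93752781246) (nat_lit 1344) (nat_lit 2594046849) (nat_lit 166) (nat_lit 5) (nat_lit 181) (nat_lit 5) (nat_lit 182) (nat_lit 5) (nat_lit 440) (nat_lit 428) (nat_lit 77))))))))
noncomputable def xc250 : XT := (XT.nd (nat_lit 117876) (nat_lit 0) (nat_lit 672) (XT.nd (nat_lit 58844) (nat_lit 0) (nat_lit 672) (XT.nd (nat_lit 58186) (nat_lit 0) (nat_lit 672) (XT.nd (nat_lit 282) (nat_lit 1092) (nat_lit 0) (XT.nd (nat_lit 94) (nat_lit 0) (nat_lit 0) (XT.lf (nat_lit 0) (nat_lit 50232052008) (nat_lit 1260) (nat_lit 31634013758) (nat_lit 1344) (nat_lit 59784149264) (nat_lit 166) (nat_lit 5) (nat_lit 181) (nat_lit 5) (nat_lit 182) (nat_lit 5) (nat_lit 441) (nat_lit 428) (nat_lit 76)) (XT.nd (nat_lit 94) (nat_lit 0) (nat_lit 84) (XT.lf (nat_lit 84) (nat_lit 32992012691) (nat_lit 0) (nat_lit 24966227553) (nat_lit 1344) (nat_lit 86015114493) (nat_lit 167) (nat_lit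 5) (nat_lit 166) (nat_lit 5) (nat_lit 182) (nat_lit 5) (nat_lit 442) (nat_lit 428) (nat_lit 75)) (XT.lf (nat_lit 0) (nat_lit 66562069441) (nat_lit 1260) (nat_lit 46477956351) (nat_lit 1344) (nat_lit 33306787404) (nat_lit 167) (nat_lit 5) (nat_lit 182) (nat_lit 5) (nat_lit 183) (nat_lit 5) (nat_lit 443) (nat_lit 428) (nat_lit 74)))) (XT.nd (nat_lit 94) (nat_lit 1176) (nat_lit 0) (XT.lf (nat_lit 84) (nat_lit 20105575364) (nat_lit 0) (nat_lit 55758776127) (nat_lit 1344) (nat_lit 72913913992) (nat_lit 168) (nat_lit 5) (nat_lit 167) (nat_lit 5) (nat_lit 183) (nat_lit 5) (nat_lit 444) (nat_lit 428) (nat_lit 73)) (XT.nd (nat_lit 94) (nat_lit 1260) (nat_lit 0) (XT.lf (nat_lit 0) (nat_lit 85950722009) (nat_lit 1260) (nat_lit 61665116525) (nat_lit 84) (nat_lit 3651672411) (nat_lit 168) (nat_lit 5) (nat_lit 183) (nat_lit 5) (nat_lit 169) (nat_lit 5) (nat_lit 445) (nat_lit 428) (nat_lit 72)) (XT.lf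 (nat_lit 0) (nat_lit 6935863455) (nat_lit 1260) (nat_lit 90022445707) (nat_lit 1344) (nat_lit 56854566047) (nat_lit 153) (nat_lit 5) (nat_lit 168) (nat_lit 5) (nat_lit 169) (nat_lit 5) (nat_lit 446) (nat_lit 428) (nat_lit 71))))) (XT.nd (nat_lit 282) (nat_lit 0) (nat_lit 84) (XT.nd (nat_lit 94) (nat_lit 0) (nat_lit 0) (XT.lf (nat_lit 0) (nat_lit 1392755389) (nat_lit 0) (nat_lit 1392755389) (nat_lit 1260) (nat_lit 56863540829) (nat_lit 161) (nat_lit 5) (nat_lit 161) (nat_lit 3) (nat_lit 176) (nat_lit 3) (nat_lit 429) (nat_lit 429) (nat_lit 87)) (XT.nd (nat_lit 94) (nat_lit 0) (nat_lit 0) (XT.lf (nat_lit 0) (nat_lit 6141730558) (nat_lit 1260) (nat_lit 65681542246) (nat_lit 1344) (nat_lit 49249679836) (nat_lit 161) (nat_lit 5) (nat_lit 176) (nat_lit 3) (nat_lit 177) (nat_lit 5) (nat_lit 430) (nat_lit 429) (nat_lit 86)) (XT.lf (nat_lit 0) (nat_lit 6756972990) (nat_lit 1260) (nat_lit 13353229995)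 (nat_lit 1344) (nat_lit 102790022502) (nat_lit 161) (nat_lit 5) (nat_lit 176) (nat_lit 3) (nat_lit 177) (nat_lit 5) (nat_lit 431) (nat_lit 429) (nat_lit 85)))) (XT.nd (nat_lit 188) (nat_lit 0) (nat_lit 84) (XT.nd (nat_lit 94) (nat_lit 0) (nat_lit 0) (XT.lf (nat_lit 0) (nat_lit 8110644247) (nat_lit 1260) (nat_lit 83741266081) (nat_lit 1344) (nat_lit 32908807339) (nat_lit 162) (nat_lit 5) (nat_lit 177) (nat_lit 5) (nat_lit 178) (nat_lit 5) (nat_lit 432) (nat_lit 429) (nat_lit 84)) (XT.lf (nat_lit 0) (nat_lit 9840055366) (nat_lit 1260) (nat_lit 29576475993) (nat_lit 1344) (nat_lit 87250439652) (nat_lit 162) (nat_lit 5) (nat_lit 177) (nat_lit 5) (nat_lit 178) (nat_lit 5) (nat_lit 433) (nat_lit 429) (nat_lit 83))) (XT.nd (nat_lit 94) (nat_lit 0) (nat_lit 0) (XT.lf (nat_lit 0) (nat_lit 12020998994) (nat_lit 1260) (nat_lit 102030656956) (nat_lit 1344) (nat_lit 14566766778) (nat_lit 163) (nat_lit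 5) (nat_lit 178) (nat_lit 5) (nat_lit 179) (nat_lit 5) (nat_lit 434) (nat_lit 429) (nat_lit 82)) (XT.lf (nat_lit 0) (nat_lit 14959106186) (nat_lit 1260) (nat_lit 45969548419) (nat_lit 1344) (nat_lit 69679011605) (nat_lit 163) (nat_lit 5) (nat_lit 178) (nat_lit 5) (nat_lit 179) (nat_lit 5) (nat_lit 435) (nat_lit 429) (nat_lit 81)))))) (XT.nd (nat_lit 658) (nat_lit 168) (nat_lit 0) (XT.nd (nat_lit 282) (nat_lit 0) (nat_lit 168) (XT.nd (nat_lit 94) (nat_lit 0) (nat_lit 84) (XT.lf (nat_lit 84) (nat_lit 12007613764) (nat_lit 0) (nat_lit 6093022778) (nat_lit 1344) (nat_lit 114552492319) (nat_lit 164) (nat_lit 5) (nat_lit 163) (nat_lit 5) (nat_lit 179) (nat_lit 5) (nat_lit 436) (nat_lit 429) (nat_lit 80)) (XT.nd (nat_lit 94) (nat_lit 0) (nat_lit 0) (XT.lf (nat_lit 0) (nat_lit 22289427607) (nat_lit 1260) (nat_lit 62568656573) (nat_lit 1344) (nat_lit 49873281024) (nat_lit 164) (nat_lit 5) (nat_lit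 179) (nat_lit 5) (nat_lit 180) (nat_lit 5) (nat_lit 437) (nat_lit 429) (nat_lit 79)) (XT.lf (nat_lit 0) (nat_lit 26664072708) (nat_lit 1260) (nat_lit 2809911958) (nat_lit 1344) (nat_lit 107396158508) (nat_lit 164) (nat_lit 5) (nat_lit 179) (nat_lit 5) (nat_lit 180) (nat_lit 5) (nat_lit 438) (nat_lit 429) (nat_lit 78)))) (XT.nd (nat_lit 188) (nat_lit 0) (nat_lit 84) (XT.nd (nat_lit 94) (nat_lit 0) (nat_lit 0) (XT.lf (nat_lit 0) (nat_lit 32016459409) (nat_lit 1260) (nat_lit 79415973488) (nat_lit 1344) (nat_lit 27615256761) (nat_lit 165) (nat_lit 5) (nat_lit 180) (nat_lit 5) (nat_lit 181) (nat_lit 5) (nat_lit 439) (nat_lit 429) (nat_lit 77)) (XT.lf (nat_lit 0) (nat_lit 37849765603) (nat_lit 1260) (nat_lit 17577713919) (nat_lit 1344) (nat_lit 85853472810) (nat_lit 165) (nat_lit 5) (nat_lit 180) (nat_lit 5) (nat_lit 181) (nat_lit 5) (nat_lit 440) (nat_lit 429) (nat_lit 76))) (XT.nd (nat_lit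 94) (nat_lit 0) (nat_lit 0) (XT.lf (nat_lit 0) (nat_lit 44336237578) (nat_lit 1260) (nat_lit 96560438386) (nat_lit 1344) (nat_lit 2670192154) (nat_lit 166) (nat_lit 5) (nat_lit 181) (nat_lit 5) (nat_lit 182) (nat_lit 5) (nat_lit 441) (nat_lit 429) (nat_lit 75)) (XT.lf (nat_lit 0) (nat_lit 51745226107) (nat_lit 1260) (nat_lit 32578251358) (nat_lit 1344) (nat_lit 61576046459) (nat_lit 166) (nat_lit 5) (nat_lit 181) (nat_lit 5) (nat_lit 182) (nat_lit 5) (nat_lit 442) (nat_lit 429) (nat_lit 74))))) (XT.nd (nat_lit 282) (nat_lit 420) (nat_lit 0) (XT.nd (nat_lit 94) (nat_lit 0) (nat_lit 84) (XT.lf (nat_lit 84) (nat_lit 33986508994) (nat_lit 0) (nat_lit 25716555573) (nat_lit 1344) (nat_lit 88589297644) (nat_lit 167) (nat_lit 5) (nat_lit 166) (nat_lit 5) (nat_lit 182) (nat_lit 5) (nat_lit 443) (nat_lit 429) (nat_lit 73)) (XT.nd (nat_lit 94) (nat_lit 0) (nat_lit 0) (XT.lf (nat_lit 0) (nat_lit 68564819119)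 (nat_lit 1260) (nat_lit 47867496999) (nat_lit 1344) (nat_lit 34304714306) (nat_lit 167) (nat_lit 5) (nat_lit 182) (nat_lit 5) (nat_lit 183) (nat_lit 5) (nat_lit 444) (nat_lit 429) (nat_lit 72)) (XT.lf (nat_lit 84) (nat_lit 20713493627) (nat_lit 0) (nat_lit 57432550189) (nat_lit 1344) (nat_lit 75095386544) (nat_lit 168) (nat_lit 5) (nat_lit 167) (nat_lit 5) (nat_lit 183) (nat_lit 5) (nat_lit 445) (nat_lit 429) (nat_lit 71)))) (XT.nd (nat_lit 57904) (nat_lit 0) (nat_lit 0) (XT.nd (nat_lit 57810) (nat_lit 588) (nat_lit 0) (XT.lf (nat_lit 0) (nat_lit 88534828199) (nat_lit 1260) (nat_lit 63510270211) (nat_lit 84) (nat_lit 3760260395) (nat_lit 168) (nat_lit 5) (nat_lit 183) (nat_lit 5) (nat_lit 169) (nat_lit 5) (nat_lit 446) (nat_lit 429) (nat_lit 70)) (XT.lf (nat_lit 0) (nat_lit 1436669205) (nat_lit 0) (nat_lit 1436669205) (nat_lit 1260) (nat_lit 58565049137) (nat_lit 161) (nat_lit 5) (nat_lit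 161) (nat_lit 3) (nat_lit 176) (nat_lit 3) (nat_lit 430) (nat_lit 430) (nat_lit 85))) (XT.nd (nat_lit 94) (nat_lit 0) (nat_lit 0) (XT.lf (nat_lit 0) (nat_lit 6334219024) (nat_lit 1260) (nat_lit 67647547254) (nat_lit 1344) (nat_lit 50723112817) (nat_lit 161) (nat_lit 5) (nat_lit 176) (nat_lit 3) (nat_lit 177) (nat_lit 5) (nat_lit 431) (nat_lit 430) (nat_lit 84)) (XT.lf (nat_lit 0) (nat_lit 6967678830) (nat_lit 1260) (nat_lit 13749514992) (nat_lit 1344) (nat_lit 105869783940) (nat_lit 161) (nat_lit 5) (nat_lit 176) (nat_lit 3) (nat_lit 177) (nat_lit 5) (nat_lit 432) (nat_lit 430) (nat_lit 83))))))) (XT.nd (nat_lit 59126) (nat_lit 84) (nat_lit 0) (XT.nd (nat_lit 658) (nat_lit 0) (nat_lit 252) (XT.nd (nat_lit 282) (nat_lit 0) (nat_lit 84) (XT.nd (nat_lit 94) (nat_lit 0) (nat_lit 0) (XT.lf (nat_lit 0) (nat_lit 8361734373) (nat_lit 1260) (nat_lit 86248952146) (nat_lit 1344) (nat_lit 33892605391)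 (nat_lit 162) (nat_lit 5) (nat_lit 177) (nat_lit 5) (nat_lit 178) (nat_lit 5) (nat_lit 433) (nat_lit 430) (nat_lit 82)) (XT.nd (nat_lit 94) (nat_lit 0) (nat_lit 84) (XT.lf (nat_lit 0) (nat_lit 10142801492) (nat_lit 1260) (nat_lit 30459350935) (nat_lit 1344) (nat_lit 89864587629) (nat_lit 162) (nat_lit 5) (nat_lit 177) (nat_lit 5) (nat_lit 178) (nat_lit 5) (nat_lit 434) (nat_lit 430) (nat_lit 81)) (XT.lf (nat_lit 0) (nat_lit 12388967002) (nat_lit 1260) (nat_lit 105086937550) (nat_lit 1344) (nat_lit 15000837365) (nat_lit 163) (nat_lit 5) (nat_lit 178) (nat_lit 5) (nat_lit 179) (nat_lit 5) (nat_lit 435) (nat_lit 430) (nat_lit 80)))) (XT.nd (nat_lit 188) (nat_lit 0) (nat_lit 84) (XT.nd (nat_lit 94) (nat_lit 0) (nat_lit 0) (XT.lf (nat_lit 0) (nat_lit 15415003681) (nat_lit 1260) (nat_lit 47344130877) (nat_lit 1344) (nat_lit 71766534947) (nat_lit 163) (nat_lit 5) (nat_lit 178) (nat_lit 5) (nat_lit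 179) (nat_lit 5) (nat_lit 436) (nat_lit 430) (nat_lit 79)) (XT.lf (nat_lit 84) (nat_lit 12372302014) (nat_lit 0) (nat_lit 6278313300) (nat_lit 1344) (nat_lit 117981886039) (nat_lit 164) (nat_lit 5) (nat_lit 163) (nat_lit 5) (nat_lit 179) (nat_lit 5) (nat_lit 437) (nat_lit 430) (nat_lit 78))) (XT.nd (nat_lit 94) (nat_lit 0) (nat_lit 0) (XT.lf (nat_lit 0) (nat_lit 22964844072) (nat_lit 1260) (nat_lit 64441148074) (nat_lit 1344) (nat_lit 51367099787) (nat_lit 164) (nat_lit 5) (nat_lit 179) (nat_lit 5) (nat_lit 180) (nat_lit 5) (nat_lit 438) (nat_lit 430) (nat_lit 77)) (XT.lf (nat_lit 0) (nat_lit 27470532401) (nat_lit 1260) (nat_lit 2889774174) (nat_lit 1344) (nat_lit 110615732907) (nat_lit 164) (nat_lit 5) (nat_lit 179) (nat_lit 5) (nat_lit 180) (nat_lit 5) (nat_lit 439) (nat_lit 430) (nat_lit 76))))) (XT.nd (nat_lit 282) (nat_lit 0) (nat_lit 84) (XT.nd (nat_lit 94) (nat_lit 0) (nat_lit 0)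 (XT.lf (nat_lit 0) (nat_lit 32983323302) (nat_lit 1260) (nat_lit 81793838633) (nat_lit 1344) (nat_lit 28441755792) (nat_lit 165) (nat_lit 5) (nat_lit 180) (nat_lit 5) (nat_lit 181) (nat_lit 5) (nat_lit 440) (nat_lit 430) (nat_lit 75)) (XT.nd (nat_lit 94) (nat_lit 0) (nat_lit 84) (XT.lf (nat_lit 0) (nat_lit 38991443145) (nat_lit 1260) (nat_lit 18100565668) (nat_lit 1344) (nat_lit 88427175371) (nat_lit 165) (nat_lit 5) (nat_lit 180) (nat_lit 5) (nat_lit 181) (nat_lit 5) (nat_lit 441) (nat_lit 430) (nat_lit 74)) (XT.lf (nat_lit 0) (nat_lit 45672356296) (nat_lit 1260) (nat_lit 99452608030) (nat_lit 1344) (nat_lit 2748718032) (nat_lit 166) (nat_lit 5) (nat_lit 181) (nat_lit 5) (nat_lit 182) (nat_lit 5) (nat_lit 442) (nat_lit 430) (nat_lit 73)))) (XT.nd (nat_lit 188) (nat_lit 0) (nat_lit 84) (XT.nd (nat_lit 94) (nat_lit 0) (nat_lit 0) (XT.lf (nat_lit 0) (nat_lit 53303438804) (nat_lit 1260) (nat_lit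 33551090639) (nat_lit 1344) (nat_lit 63421793983) (nat_lit 166) (nat_lit 5) (nat_lit 181) (nat_lit 5) (nat_lit 182) (nat_lit 5) (nat_lit 443) (nat_lit 430) (nat_lit 72)) (XT.lf (nat_lit 84) (nat_lit 35010568325) (nat_lit 0) (nat_lit 26489316443) (nat_lit 1344) (nat_lit 91241066229) (nat_lit 167) (nat_lit 5) (nat_lit 166) (nat_lit 5) (nat_lit 182) (nat_lit 5) (nat_lit 444) (nat_lit 430) (nat_lit 71))) (XT.nd (nat_lit 94) (nat_lit 0) (nat_lit 0) (XT.lf (nat_lit 0) (nat_lit 70627313316) (nat_lit 1260) (nat_lit 49298999294) (nat_lit 1344) (nat_lit 35332652305) (nat_lit 167) (nat_lit 5) (nat_lit 182) (nat_lit 5) (nat_lit 183) (nat_lit 5) (nat_lit 445) (nat_lit 430) (nat_lit 70)) (XT.lf (nat_lit 84) (nat_lit 21339376712) (nat_lit 0) (nat_lit 59156479451) (nat_lit 1344) (nat_lit 77342644533) (nat_lit 168) (nat_lit 5) (nat_lit 167) (nat_lit 5) (nat_lit 183) (nat_lit 5) (nat_lit 446) (nat_lit 430)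 (nat_lit 69)))))) (XT.nd (nat_lit 658) (nat_lit 0) (nat_lit 168) (XT.nd (nat_lit 282) (nat_lit 0) (nat_lit 84) (XT.nd (nat_lit 94) (nat_lit 0) (nat_lit 0) (XT.lf (nat_lit 0) (nat_lit 1481778099) (nat_lit 0) (nat_lit 1481778099) (nat_lit 1260) (nat_lit 60317855152) (nat_lit 161) (nat_lit 5) (nat_lit 161) (nat_lit 3) (nat_lit 176) (nat_lit 3) (nat_lit 431) (nat_lit 431) (nat_lit 83)) (XT.nd (nat_lit 94) (nat_lit 0) (nat_lit 0) (XT.lf (nat_lit 0) (nat_lit 6532009333) (nat_lit 1260) (nat_lit 69672787359) (nat_lit 1344) (nat_lit 52240981700) (nat_lit 161) (nat_lit 5) (nat_lit 176) (nat_lit 3) (nat_lit 177) (nat_lit 5) (nat_lit 432) (nat_lit 431) (nat_lit 82)) (XT.lf (nat_lit 0) (nat_lit 7184246804) (nat_lit 1260) (nat_lit 14157936061) (nat_lit 1344) (nat_lit 109042164350) (nat_lit 161) (nat_lit 5) (nat_lit 176) (nat_lit 3) (nat_lit 177) (nat_lit 5) (nat_lit 433) (nat_lit 431) (nat_lit 81))))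 (XT.nd (nat_lit 188) (nat_lit 0) (nat_lit 84) (XT.nd (nat_lit 94) (nat_lit 0) (nat_lit 0) (XT.lf (nat_lit 0) (nat_lit 8619911127) (nat_lit 1260) (nat_lit 88832130091) (nat_lit 1344) (nat_lit 34906116357) (nat_lit 162) (nat_lit 5) (nat_lit 177) (nat_lit 5) (nat_lit 178) (nat_lit 5) (nat_lit 434) (nat_lit 431) (nat_lit 80)) (XT.lf (nat_lit 0) (nat_lit 10454196918) (nat_lit 1260) (nat_lit 31368965813) (nat_lit 1344) (nat_lit 92557353223) (nat_lit 162) (nat_lit 5) (nat_lit 177) (nat_lit 5) (nat_lit 178) (nat_lit 5) (nat_lit 435) (nat_lit 431) (nat_lit 79))) (XT.nd (nat_lit 94) (nat_lit 0) (nat_lit 0) (XT.lf (nat_lit 0) (nat_lit 12767552818) (nat_lit 1260) (nat_lit 108235172867) (nat_lit 1344) (nat_lit 15448098403) (nat_lit 163) (nat_lit 5) (nat_lit 178) (nat_lit 5) (nat_lit 179) (nat_lit 5) (nat_lit 436) (nat_lit 431) (nat_lit 78)) (XT.lf (nat_lit 0) (nat_lit 15884169137) (nat_lit 1260) (nat_lit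 48760209356) (nat_lit 1344) (nat_lit 73916847420) (nat_lit 163) (nat_lit 5) (nat_lit 178) (nat_lit 5) (nat_lit 179) (nat_lit 5) (nat_lit 437) (nat_lit 431) (nat_lit 77))))) (XT.nd (nat_lit 282) (nat_lit 0) (nat_lit 168) (XT.nd (nat_lit 94) (nat_lit 0) (nat_lit 84) (XT.lf (nat_lit 84) (nat_lit 12747674900) (nat_lit 0) (nat_lit 6469019036) (nat_lit 1344) (nat_lit 121514573791) (nat_lit 164) (nat_lit 5) (nat_lit 163) (nat_lit 5) (nat_lit 179) (nat_lit 5) (nat_lit 438) (nat_lit 431) (nat_lit 76)) (XT.nd (nat_lit 94) (nat_lit 0) (nat_lit 0) (XT.lf (nat_lit 0) (nat_lit 23660136492) (nat_lit 1260) (nat_lit 66370076553) (nat_lit 1344) (nat_lit 52905869716) (nat_lit 164) (nat_lit 5) (nat_lit 179) (nat_lit 5) (nat_lit 180) (nat_lit 5) (nat_lit 439) (nat_lit 431) (nat_lit 75)) (XT.lf (nat_lit 0) (nat_lit 28300810604) (nat_lit 1260) (nat_lit 2972286853) (nat_lit 1344) (nat_lit 113932027162) (nat_lit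 164) (nat_lit 5) (nat_lit 179) (nat_lit 5) (nat_lit 180) (nat_lit 5) (nat_lit 440) (nat_lit 431) (nat_lit 74)))) (XT.nd (nat_lit 188) (nat_lit 0) (nat_lit 84) (XT.nd (nat_lit 94) (nat_lit 0) (nat_lit 0) (XT.lf (nat_lit 0) (nat_lit 33978827442) (nat_lit 1260) (nat_lit 84243304599) (nat_lit 1344) (nat_lit 29293162230) (nat_lit 165) (nat_lit 5) (nat_lit 180) (nat_lit 5) (nat_lit 181) (nat_lit 5) (nat_lit 441) (nat_lit 431) (nat_lit 73)) (XT.lf (nat_lit 0) (nat_lit 40167015994) (nat_lit 1260) (nat_lit 18639360120) (nat_lit 1344) (nat_lit 91078198170) (nat_lit 165) (nat_lit 5) (nat_lit 180) (nat_lit 5) (nat_lit 181) (nat_lit 5) (nat_lit 442) (nat_lit 431) (nat_lit 72))) (XT.nd (nat_lit 94) (nat_lit 0) (nat_lit 0) (XT.lf (nat_lit 0) (nat_lit 47048212338) (nat_lit 1260) (nat_lit 102431809319) (nat_lit 1344) (nat_lit 2829690379) (nat_lit 166) (nat_lit 5) (nat_lit 181) (nat_lit 5) (nat_lit 182)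 (nat_lit 5) (nat_lit 443) (nat_lit 431) (nat_lit 71)) (XT.lf (nat_lit 0) (nat_lit 54908061728) (nat_lit 1260) (nat_lit 34553373890) (nat_lit 1344) (nat_lit 65323001983) (nat_lit 166) (nat_lit 5) (nat_lit 181) (nat_lit 5) (nat_lit 182) (nat_lit 5) (nat_lit 444) (nat_lit 431) (nat_lit 70))))))))
noncomputable def xc251 : XT := (XT.nd (nat_lit 118440) (nat_lit 0) (nat_lit 0) (XT.nd (nat_lit 59220) (nat_lit 0) (nat_lit 0) (XT.nd (nat_lit 58562) (nat_lit 0) (nat_lit 168) (XT.nd (nat_lit 58186) (nat_lit 0) (nat_lit 0) (XT.nd (nat_lit 94) (nat_lit 420) (nat_lit 0) (XT.lf (nat_lit 84) (nat_lit 36065093181) (nat_lit 0) (nat_lit 27285187568) (nat_lit 1344) (nat_lit 93972727149) (nat_lit 167) (nat_lit 5) (nat_lit 166) (nat_lit 5) (nat_lit 182) (nat_lit 5) (nat_lit 445) (nat_lit 431) (nat_lit 69)) (XT.nd (nat_lit 57998) (nat_lit 504) (nat_lit 0) (XT.lf (nat_lit 0) (nat_lit 72751363767) (nat_lit 1260)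 (nat_lit 50773706274) (nat_lit 1344) (nat_lit 36391497525) (nat_lit 167) (nat_lit 5) (nat_lit 182) (nat_lit 5) (nat_lit 183) (nat_lit 5) (nat_lit 446) (nat_lit 431) (nat_lit 68)) (XT.lf (nat_lit 0) (nat_lit 1528124945) (nat_lit 0) (nat_lit 1528124945) (nat_lit 1260) (nat_lit 62123483314) (nat_lit 161) (nat_lit 5) (nat_lit 161) (nat_lit 3) (nat_lit 176) (nat_lit 3) (nat_lit 432) (nat_lit 432) (nat_lit 81)))) (XT.nd (nat_lit 188) (nat_lit 0) (nat_lit 84) (XT.nd (nat_lit 94) (nat_lit 0) (nat_lit 0) (XT.lf (nat_lit 0) (nat_lit 6735287681) (nat_lit 1260) (nat_lit 71759024978) (nat_lit 1344) (nat_lit 53804606191) (nat_lit 161) (nat_lit 5) (nat_lit 176) (nat_lit 3) (nat_lit 177) (nat_lit 5) (nat_lit 433) (nat_lit 432) (nat_lit 80)) (XT.lf (nat_lit 0) (nat_lit 7406879129) (nat_lit 1260) (nat_lit 14578843074) (nat_lit 1344) (nat_lit 112309929320) (nat_lit 161) (nat_lit 5) (nat_lit 176) (nat_lit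 3) (nat_lit 177) (nat_lit 5) (nat_lit 434) (nat_lit 432) (nat_lit 79))) (XT.nd (nat_lit 94) (nat_lit 0) (nat_lit 0) (XT.lf (nat_lit 0) (nat_lit 8885412715) (nat_lit 1260) (nat_lit 91493049674) (nat_lit 1344) (nat_lit 35950220202) (nat_lit 162) (nat_lit 5) (nat_lit 177) (nat_lit 5) (nat_lit 178) (nat_lit 5) (nat_lit 435) (nat_lit 432) (nat_lit 78)) (XT.lf (nat_lit 0) (nat_lit 10774525985) (nat_lit 1260) (nat_lit 32306108263) (nat_lit 1344) (nat_lit 95331083872) (nat_lit 162) (nat_lit 5) (nat_lit 177) (nat_lit 5) (nat_lit 178) (nat_lit 5) (nat_lit 436) (nat_lit 432) (nat_lit 77))))) (XT.nd (nat_lit 282) (nat_lit 0) (nat_lit 84) (XT.nd (nat_lit 94) (nat_lit 0) (nat_lit 0) (XT.lf (nat_lit 0) (nat_lit 13157099154) (nat_lit 1260) (nat_lit 111478106259) (nat_lit 1344) (nat_lit 15908935941) (nat_lit 163) (nat_lit 5) (nat_lit 178) (nat_lit 5) (nat_lit 179) (nat_lit 5) (nat_lit 437) (nat_lit 432)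 (nat_lit 76)) (XT.nd (nat_lit 94) (nat_lit 0) (nat_lit 0) (XT.lf (nat_lit 0) (nat_lit 16367024067) (nat_lit 1260) (nat_lit 50219013896) (nat_lit 1344) (nat_lit 76131823314) (nat_lit 163) (nat_lit 5) (nat_lit 178) (nat_lit 5) (nat_lit 179) (nat_lit 5) (nat_lit 438) (nat_lit 432) (nat_lit 75)) (XT.lf (nat_lit 84) (nat_lit 13134067655) (nat_lit 0) (nat_lit 6665310680) (nat_lit 1344) (nat_lit 125153630734) (nat_lit 164) (nat_lit 5) (nat_lit 163) (nat_lit 5) (nat_lit 179) (nat_lit 5) (nat_lit 439) (nat_lit 432) (nat_lit 74)))) (XT.nd (nat_lit 188) (nat_lit 0) (nat_lit 84) (XT.nd (nat_lit 94) (nat_lit 0) (nat_lit 0) (XT.lf (nat_lit 0) (nat_lit 24375923336) (nat_lit 1260) (nat_lit 68357120066) (nat_lit 1344) (nat_lit 54490931504) (nat_lit 164) (nat_lit 5) (nat_lit 179) (nat_lit 5) (nat_lit 180) (nat_lit 5) (nat_lit 440) (nat_lit 432) (nat_lit 73)) (XT.lf (nat_lit 0) (nat_lit 29155643417) (nat_lit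 1260) (nat_lit 3057514892) (nat_lit 1344) (nat_lit 117347935255) (nat_lit 164) (nat_lit 5) (nat_lit 179) (nat_lit 5) (nat_lit 180) (nat_lit 5) (nat_lit 441) (nat_lit 432) (nat_lit 72))) (XT.nd (nat_lit 94) (nat_lit 0) (nat_lit 0) (XT.lf (nat_lit 0) (nat_lit 35003852027) (nat_lit 1260) (nat_lit 86766504205) (nat_lit 1344) (nat_lit 30170216842) (nat_lit 165) (nat_lit 5) (nat_lit 180) (nat_lit 5) (nat_lit 181) (nat_lit 5) (nat_lit 442) (nat_lit 432) (nat_lit 71)) (XT.lf (nat_lit 0) (nat_lit 41377521388) (nat_lit 1260) (nat_lit 19194560796) (nat_lit 1344) (nat_lit 93808854548) (nat_lit 165) (nat_lit 5) (nat_lit 180) (nat_lit 5) (nat_lit 181) (nat_lit 5) (nat_lit 443) (nat_lit 432) (nat_lit 70)))))) (XT.nd (nat_lit 58562) (nat_lit 0) (nat_lit 84) (XT.nd (nat_lit 282) (nat_lit 420) (nat_lit 0) (XT.nd (nat_lit 94) (nat_lit 0) (nat_lit 0) (XT.lf (nat_lit 0) (nat_lit 48465017698) (nat_lit 1260)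 (nat_lit 105500637902) (nat_lit 1344) (nat_lit 2913177382) (nat_lit 166) (nat_lit 5) (nat_lit 181) (nat_lit 5) (nat_lit 182) (nat_lit 5) (nat_lit 444) (nat_lit 432) (nat_lit 69)) (XT.nd (nat_lit 94) (nat_lit 0) (nat_lit 0) (XT.lf (nat_lit 0) (nat_lit 56560506483) (nat_lit 1260) (nat_lit 35585969577) (nat_lit 1344) (nat_lit 67281329218) (nat_lit 166) (nat_lit 5) (nat_lit 181) (nat_lit 5) (nat_lit 182) (nat_lit 5) (nat_lit 445) (nat_lit 432) (nat_lit 68)) (XT.lf (nat_lit 84) (nat_lit 37151012237) (nat_lit 0) (nat_lit 28104866423) (nat_lit 1344) (nat_lit 96786657699) (nat_lit 167) (nat_lit 5) (nat_lit 166) (nat_lit 5) (nat_lit 182) (nat_lit 5) (nat_lit 446) (nat_lit 432) (nat_lit 67)))) (XT.nd (nat_lit 58092) (nat_lit 0) (nat_lit 0) (XT.nd (nat_lit 57998) (nat_lit 504) (nat_lit 0) (XT.lf (nat_lit 0) (nat_lit 74938835448) (nat_lit 1260) (nat_lit 52292899177) (nat_lit 1344) (nat_lit 37482173218)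 (nat_lit 167) (nat_lit 5) (nat_lit 182) (nat_lit 5) (nat_lit 183) (nat_lit 5) (nat_lit 447) (nat_lit 432) (nat_lit 66)) (XT.lf (nat_lit 0) (nat_lit 1575753502) (nat_lit 0) (nat_lit 1575753502) (nat_lit 1260) (nat_lit 63983504627) (nat_lit 161) (nat_lit 5) (nat_lit 161) (nat_lit 3) (nat_lit 176) (nat_lit 3) (nat_lit 433) (nat_lit 433) (nat_lit 79))) (XT.nd (nat_lit 94) (nat_lit 0) (nat_lit 0) (XT.lf (nat_lit 0) (nat_lit 6944244292) (nat_lit 1260) (nat_lit 73908076243) (nat_lit 1344) (nat_lit 55415346357) (nat_lit 161) (nat_lit 5) (nat_lit 176) (nat_lit 3) (nat_lit 177) (nat_lit 5) (nat_lit 434) (nat_lit 433) (nat_lit 78)) (XT.lf (nat_lit 0) (nat_lit 7635782572) (nat_lit 1260) (nat_lit 15012597216) (nat_lit 1344) (nat_lit 115675928151) (nat_lit 161) (nat_lit 5) (nat_lit 176) (nat_lit 3) (nat_lit 177) (nat_lit 5) (nat_lit 435) (nat_lit 433) (nat_lit 77))))) (XT.nd (nat_lit 282) (nat_lit 0)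 (nat_lit 84) (XT.nd (nat_lit 94) (nat_lit 0) (nat_lit 0) (XT.lf (nat_lit 0) (nat_lit 9158483018) (nat_lit 1260) (nat_lit 94234029004) (nat_lit 1344) (nat_lit 37025823946) (nat_lit 162) (nat_lit 5) (nat_lit 177) (nat_lit 5) (nat_lit 178) (nat_lit 5) (nat_lit 436) (nat_lit 433) (nat_lit 76)) (XT.nd (nat_lit 94) (nat_lit 0) (nat_lit 84) (XT.lf (nat_lit 0) (nat_lit 11104080135) (nat_lit 1260) (nat_lit 33271590385) (nat_lit 1344) (nat_lit 98188198076) (nat_lit 162) (nat_lit 5) (nat_lit 177) (nat_lit 5) (nat_lit 178) (nat_lit 5) (nat_lit 437) (nat_lit 433) (nat_lit 75)) (XT.lf (nat_lit 0) (nat_lit 13557957621) (nat_lit 1260) (nat_lit 114818564262) (nat_lit 1344) (nat_lit 16383748167) (nat_lit 163) (nat_lit 5) (nat_lit 178) (nat_lit 5) (nat_lit 179) (nat_lit 5) (nat_lit 438) (nat_lit 433) (nat_lit 74)))) (XT.nd (nat_lit 188) (nat_lit 0) (nat_lit 84) (XT.nd (nat_lit 94) (nat_lit 0) (nat_lit 0)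 (XT.lf (nat_lit 0) (nat_lit 16864001286) (nat_lit 1260) (nat_lit 51721812288) (nat_lit 1344) (nat_lit 78413393691) (nat_lit 163) (nat_lit 5) (nat_lit 178) (nat_lit 5) (nat_lit 179) (nat_lit 5) (nat_lit 439) (nat_lit 433) (nat_lit 73)) (XT.lf (nat_lit 84) (nat_lit 13531824728) (nat_lit 0) (nat_lit 6867363576) (nat_lit 1344) (nat_lit 128902225640) (nat_lit 164) (nat_lit 5) (nat_lit 163) (nat_lit 5) (nat_lit 179) (nat_lit 5) (nat_lit 440) (nat_lit 433) (nat_lit 72))) (XT.nd (nat_lit 94) (nat_lit 0) (nat_lit 0) (XT.lf (nat_lit 0) (nat_lit 25112840351) (nat_lit 1260) (nat_lit 70404007875) (nat_lit 1344) (nat_lit 56123666516) (nat_lit 164) (nat_lit 5) (nat_lit 179) (nat_lit 5) (nat_lit 180) (nat_lit 5) (nat_lit 441) (nat_lit 433) (nat_lit 71)) (XT.lf (nat_lit 0) (nat_lit 30035787782) (nat_lit 1260) (nat_lit 3145525976) (nat_lit 1344) (nat_lit 120866438426) (nat_lit 164) (nat_lit 5) (nat_lit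 179) (nat_lit 5) (nat_lit 180) (nat_lit 5) (nat_lit 442) (nat_lit 433) (nat_lit 70))))))) (XT.nd (nat_lit 59314) (nat_lit 0) (nat_lit 0) (XT.nd (nat_lit 58656) (nat_lit 0) (nat_lit 0) (XT.nd (nat_lit 282) (nat_lit 336) (nat_lit 0) (XT.nd (nat_lit 94) (nat_lit 0) (nat_lit 0) (XT.lf (nat_lit 0) (nat_lit 36059302455) (nat_lit 1260) (nat_lit 89365635130) (nat_lit 1344) (nat_lit 31073682991) (nat_lit 165) (nat_lit 5) (nat_lit 180) (nat_lit 5) (nat_lit 181) (nat_lit 5) (nat_lit 443) (nat_lit 433) (nat_lit 69)) (XT.nd (nat_lit 94) (nat_lit 0) (nat_lit 84) (XT.lf (nat_lit 0) (nat_lit 42624026512) (nat_lit 1260) (nat_lit 19766645968) (nat_lit 1344) (nat_lit 96621527605) (nat_lit 165) (nat_lit 5) (nat_lit 180) (nat_lit 5) (nat_lit 181) (nat_lit 5) (nat_lit 444) (nat_lit 433) (nat_lit 68)) (XT.lf (nat_lit 0) (nat_lit 49924019592) (nat_lit 1260) (nat_lit 108661768175) (nat_lit 1344) (nat_lit 2999249573)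 (nat_lit 166) (nat_lit 5) (nat_lit 181) (nat_lit 5) (nat_lit 182) (nat_lit 5) (nat_lit 445) (nat_lit 433) (nat_lit 67)))) (XT.nd (nat_lit 58186) (nat_lit 420) (nat_lit 0) (XT.nd (nat_lit 94) (nat_lit 0) (nat_lit 0) (XT.lf (nat_lit 0) (nat_lit 58262225912) (nat_lit 1260) (nat_lit 36649773067) (nat_lit 1344) (nat_lit 69298484503) (nat_lit 166) (nat_lit 5) (nat_lit 181) (nat_lit 5) (nat_lit 182) (nat_lit 5) (nat_lit 446) (nat_lit 433) (nat_lit 66)) (XT.lf (nat_lit 84) (nat_lit 38269281185) (nat_lit 0) (nat_lit 28949071166) (nat_lit 1344) (nat_lit 99685307610) (nat_lit 167) (nat_lit 5) (nat_lit 166) (nat_lit 5) (nat_lit 182) (nat_lit 5) (nat_lit 447) (nat_lit 433) (nat_lit 65))) (XT.nd (nat_lit 94) (nat_lit 0) (nat_lit 0) (XT.lf (nat_lit 0) (nat_lit 1624708460) (nat_lit 0) (nat_lit 1624708460) (nat_lit 1260) (nat_lit 65899538010) (nat_lit 161) (nat_lit 5) (nat_lit 161) (nat_lit 3) (nat_lit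 176) (nat_lit 3) (nat_lit 434) (nat_lit 434) (nat_lit 77)) (XT.lf (nat_lit 0) (nat_lit 7159073630) (nat_lit 1260) (nat_lit 76121812560) (nat_lit 1344) (nat_lit 57074603788) (nat_lit 161) (nat_lit 5) (nat_lit 176) (nat_lit 3) (nat_lit 177) (nat_lit 5) (nat_lit 435) (nat_lit 434) (nat_lit 76))))) (XT.nd (nat_lit 282) (nat_lit 0) (nat_lit 168) (XT.nd (nat_lit 94) (nat_lit 0) (nat_lit 84) (XT.lf (nat_lit 0) (nat_lit 7871168678) (nat_lit 1260) (nat_lit 15459571277) (nat_lit 1344) (nat_lit 119143096325) (nat_lit 161) (nat_lit 5) (nat_lit 176) (nat_lit 3) (nat_lit 177) (nat_lit 5) (nat_lit 436) (nat_lit 434) (nat_lit 75)) (XT.nd (nat_lit 94) (nat_lit 0) (nat_lit 0) (XT.lf (nat_lit 0) (nat_lit 9439371849) (nat_lit 1260) (nat_lit 97057456548) (nat_lit 1344) (nat_lit 38133862439) (nat_lit 162) (nat_lit 5) (nat_lit 177) (nat_lit 5) (nat_lit 178) (nat_lit 5) (nat_lit 437) (nat_lit 434) (nat_lit 74))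 (XT.lf (nat_lit 0) (nat_lit 11443158209) (nat_lit 1260) (nat_lit 34266249431) (nat_lit 1344) (nat_lit 101131187489) (nat_lit 162) (nat_lit 5) (nat_lit 177) (nat_lit 5) (nat_lit 178) (nat_lit 5) (nat_lit 438) (nat_lit 434) (nat_lit 73)))) (XT.nd (nat_lit 188) (nat_lit 0) (nat_lit 0) (XT.nd (nat_lit 94) (nat_lit 0) (nat_lit 0) (XT.lf (nat_lit 0) (nat_lit 13970489065) (nat_lit 1260) (nat_lit 118259459030) (nat_lit 1344) (nat_lit 16872945736) (nat_lit 163) (nat_lit 5) (nat_lit 178) (nat_lit 5) (nat_lit 179) (nat_lit 5) (nat_lit 439) (nat_lit 434) (nat_lit 72)) (XT.lf (nat_lit 0) (nat_lit 17375545320) (nat_lit 1260) (nat_lit 53269911162) (nat_lit 1344) (nat_lit 80763548049) (nat_lit 163) (nat_lit 5) (nat_lit 178) (nat_lit 5) (nat_lit 179) (nat_lit 5) (nat_lit 440) (nat_lit 434) (nat_lit 71))) (XT.nd (nat_lit 94) (nat_lit 0) (nat_lit 84) (XT.lf (nat_lit 84) (nat_lit 13941300107) (nat_lit 0)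 (nat_lit 7075357878) (nat_lit 1344) (nat_lit 132763623621) (nat_lit 164) (nat_lit 5) (nat_lit 163) (nat_lit 5) (nat_lit 179) (nat_lit 5) (nat_lit 441) (nat_lit 434) (nat_lit 70)) (XT.lf (nat_lit 0) (nat_lit 25871541156) (nat_lit 1260) (nat_lit 72512521935) (nat_lit 1344) (nat_lit 57805497980) (nat_lit 164) (nat_lit 5) (nat_lit 179) (nat_lit 5) (nat_lit 180) (nat_lit 5) (nat_lit 442) (nat_lit 434) (nat_lit 69)))))) (XT.nd (nat_lit 58750) (nat_lit 0) (nat_lit 0) (XT.nd (nat_lit 282) (nat_lit 252) (nat_lit 0) (XT.nd (nat_lit 94) (nat_lit 0) (nat_lit 84) (XT.lf (nat_lit 0) (nat_lit 30942022187) (nat_lit 1260) (nat_lit 3236390613) (nat_lit 1344) (nat_lit 124490607762) (nat_lit 164) (nat_lit 5) (nat_lit 179) (nat_lit 5) (nat_lit 180) (nat_lit 5) (nat_lit 443) (nat_lit 434) (nat_lit 68)) (XT.nd (nat_lit 94) (nat_lit 0) (nat_lit 0) (XT.lf (nat_lit 0) (nat_lit 37146110153) (nat_lit 1260) (nat_lit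 92042961803) (nat_lit 1344) (nat_lit 32004347287) (nat_lit 165) (nat_lit 5) (nat_lit 180) (nat_lit 5) (nat_lit 181) (nat_lit 5) (nat_lit 444) (nat_lit 434) (nat_lit 67)) (XT.lf (nat_lit 0) (nat_lit 43907629468) (nat_lit 1260) (nat_lit 20356109054) (nat_lit 1344) (nat_lit 99518672274) (nat_lit 165) (nat_lit 5) (nat_lit 180) (nat_lit 5) (nat_lit 181) (nat_lit 5) (nat_lit 445) (nat_lit 434) (nat_lit 66)))) (XT.nd (nat_lit 58280) (nat_lit 420) (nat_lit 0) (XT.nd (nat_lit 94) (nat_lit 0) (nat_lit 0) (XT.lf (nat_lit 0) (nat_lit 51426501573) (nat_lit 1260) (nat_lit 111917955592) (nat_lit 1344) (nat_lit 3087979884) (nat_lit 166) (nat_lit 5) (nat_lit 181) (nat_lit 5) (nat_lit 182) (nat_lit 5) (nat_lit 446) (nat_lit 434) (nat_lit 65)) (XT.lf (nat_lit 0) (nat_lit 60014715402) (nat_lit 1260) (nat_lit 37745707397) (nat_lit 1344) (nat_lit 71376228187) (nat_lit 166) (nat_lit 5) (nat_lit 181) (nat_lit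 5) (nat_lit 182) (nat_lit 5) (nat_lit 447) (nat_lit 434) (nat_lit 64))) (XT.nd (nat_lit 94) (nat_lit 0) (nat_lit 0) (XT.lf (nat_lit 0) (nat_lit 1675035493) (nat_lit 0) (nat_lit 1675035493) (nat_lit 1260) (nat_lit 67873251687) (nat_lit 161) (nat_lit 5) (nat_lit 161) (nat_lit 3) (nat_lit 176) (nat_lit 3) (nat_lit 435) (nat_lit 435) (nat_lit 75)) (XT.lf (nat_lit 0) (nat_lit 7379974605) (nat_lit 1260) (nat_lit 78402162223) (nat_lit 1344) (nat_lit 58783822805) (nat_lit 161) (nat_lit 5) (nat_lit 176) (nat_lit 3) (nat_lit 177) (nat_lit 5) (nat_lit 436) (nat_lit 435) (nat_lit 74))))) (XT.nd (nat_lit 282) (nat_lit 0) (nat_lit 168) (XT.nd (nat_lit 94) (nat_lit 0) (nat_lit 84) (XT.lf (nat_lit 0) (nat_lit 8113253998) (nat_lit 1260) (nat_lit 15920149955) (nat_lit 1344) (nat_lit 122714458053) (nat_lit 161) (nat_lit 5) (nat_lit 176) (nat_lit 3) (nat_lit 177) (nat_lit 5) (nat_lit 437) (nat_lit 435) (nat_lit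 73)) (XT.nd (nat_lit 94) (nat_lit 0) (nat_lit 0) (XT.lf (nat_lit 0) (nat_lit 9728335208) (nat_lit 1260) (nat_lit 99965793191) (nat_lit 1344) (nat_lit 39275299157) (nat_lit 162) (nat_lit 5) (nat_lit 177) (nat_lit 5) (nat_lit 178) (nat_lit 5) (nat_lit 438) (nat_lit 435) (nat_lit 72)) (XT.lf (nat_lit 0) (nat_lit 11792066745) (nat_lit 1260) (nat_lit 35290948512) (nat_lit 1344) (nat_lit 104162619080) (nat_lit 162) (nat_lit 5) (nat_lit 177) (nat_lit 5) (nat_lit 178) (nat_lit 5) (nat_lit 439) (nat_lit 435) (nat_lit 71)))) (XT.nd (nat_lit 188) (nat_lit 0) (nat_lit 0) (XT.nd (nat_lit 94) (nat_lit 0) (nat_lit 0) (XT.lf (nat_lit 0) (nat_lit 14395063927) (nat_lit 1260) (nat_lit 121803790864) (nat_lit 1344) (nat_lit 17376952115) (nat_lit 163) (nat_lit 5) (nat_lit 178) (nat_lit 5) (nat_lit 179) (nat_lit 5) (nat_lit 440) (nat_lit 435) (nat_lit 70)) (XT.lf (nat_lit 0) (nat_lit 17902112835) (nat_lit 1260)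 (nat_lit 54864657102) (nat_lit 1344) (nat_lit 83184336051) (nat_lit 163) (nat_lit 5) (nat_lit 178) (nat_lit 5) (nat_lit 179) (nat_lit 5) (nat_lit 441) (nat_lit 435) (nat_lit 69))) (XT.nd (nat_lit 94) (nat_lit 0) (nat_lit 84) (XT.lf (nat_lit 84) (nat_lit 14362857649) (nat_lit 0) (nat_lit 7289478729) (nat_lit 1344) (nat_lit 136741188954) (nat_lit 164) (nat_lit 5) (nat_lit 163) (nat_lit 5) (nat_lit 179) (nat_lit 5) (nat_lit 442) (nat_lit 435) (nat_lit 68)) (XT.lf (nat_lit 0) (nat_lit 26652697849) (nat_lit 1260) (nat_lit 74684498425) (nat_lit 1344) (nat_lit 59537892224) (nat_lit 164) (nat_lit 5) (nat_lit 179) (nat_lit 5) (nat_lit 180) (nat_lit 5) (nat_lit 443) (nat_lit 435) (nat_lit 67))))))))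
noncomputable def xc252 : XT := (XT.nd (nat_lit 118816) (nat_lit 0) (nat_lit 0) (XT.nd (nat_lit 59314) (nat_lit 0) (nat_lit 0) (XT.nd (nat_lit 58656) (nat_lit 0) (nat_lit 0) (XT.nd (nat_lit 282) (nat_lit 252) (nat_lit 0) (XT.nd (nat_lit 94) (nat_lit 0) (nat_lit 84) (XT.lf (nat_lit 0) (nat_lit 31875147376) (nat_lit 1260) (nat_lit 3330182169) (nat_lit 1344) (nat_lit 128223606872) (nat_lit 164) (nat_lit 5) (nat_lit 179) (nat_lit 5) (nat_lit 180) (nat_lit 5) (nat_lit 444) (nat_lit 435) (nat_lit 66)) (XT.nd (nat_lit 94) (nat_lit 0) (nat_lit 0) (XT.lf (nat_lit 0) (nat_lit 38265233419) (nat_lit 1260) (nat_lit 94800817363) (nat_lit 1344) (nat_lit 32963020270) (nat_lit 165) (nat_lit 5) (nat_lit 180) (nat_lit 5) (nat_lit 181) (nat_lit 5) (nat_lit 445) (nat_lit 435) (nat_lit 65)) (XT.lf (nat_lit 0) (nat_lit 45229460255) (nat_lit 1260) (nat_lit 20963459032) (nat_lit 1344) (nat_lit 102502817456) (nat_lit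 165) (nat_lit 5) (nat_lit 180) (nat_lit 5) (nat_lit 181) (nat_lit 5) (nat_lit 446) (nat_lit 435) (nat_lit 64)))) (XT.nd (nat_lit 94) (nat_lit 420) (nat_lit 0) (XT.lf (nat_lit 0) (nat_lit 52973784690) (nat_lit 1260) (nat_lit 115272039054) (nat_lit 1344) (nat_lit 3179443696) (nat_lit 166) (nat_lit 5) (nat_lit 181) (nat_lit 5) (nat_lit 182) (nat_lit 5) (nat_lit 447) (nat_lit 435) (nat_lit 63)) (XT.nd (nat_lit 58186) (nat_lit 420) (nat_lit 0) (XT.lf (nat_lit 0) (nat_lit 61819514213) (nat_lit 1260) (nat_lit 38874724051) (nat_lit 1344) (nat_lit 73516373689) (nat_lit 166) (nat_lit 5) (nat_lit 181) (nat_lit 5) (nat_lit 182) (nat_lit 5) (nat_lit 448) (nat_lit 435) (nat_lit 62)) (XT.lf (nat_lit 0) (nat_lit 1726781307) (nat_lit 0) (nat_lit 1726781307) (nat_lit 1260) (nat_lit 69906364627) (nat_lit 161) (nat_lit 5) (nat_lit 161) (nat_lit 3) (nat_lit 176) (nat_lit 3) (nat_lit 436) (nat_lit 436) (nat_lit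 73))))) (XT.nd (nat_lit 282) (nat_lit 0) (nat_lit 84) (XT.nd (nat_lit 94) (nat_lit 0) (nat_lit 0) (XT.lf (nat_lit 0) (nat_lit 7607150794) (nat_lit 1260) (nat_lit 80751112079) (nat_lit 1344) (nat_lit 60544491700) (nat_lit 161) (nat_lit 5) (nat_lit 176) (nat_lit 3) (nat_lit 177) (nat_lit 5) (nat_lit 437) (nat_lit 436) (nat_lit 72)) (XT.nd (nat_lit 94) (nat_lit 0) (nat_lit 84) (XT.lf (nat_lit 0) (nat_lit 8362260307) (nat_lit 1260) (nat_lit 16394730173) (nat_lit 1344) (nat_lit 126393128894) (nat_lit 161) (nat_lit 5) (nat_lit 176) (nat_lit 3) (nat_lit 177) (nat_lit 5) (nat_lit 438) (nat_lit 436) (nat_lit 71)) (XT.lf (nat_lit 0) (nat_lit 10025635546) (nat_lit 1260) (nat_lit 102961574363) (nat_lit 1344) (nat_lit 40451127031) (nat_lit 162) (nat_lit 5) (nat_lit 177) (nat_lit 5) (nat_lit 178) (nat_lit 5) (nat_lit 439) (nat_lit 436) (nat_lit 70)))) (XT.nd (nat_lit 188) (nat_lit 0) (nat_lit 84) (XT.nd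 (nat_lit 94) (nat_lit 0) (nat_lit 84) (XT.lf (nat_lit 0) (nat_lit 12151120283) (nat_lit 1260) (nat_lit 36346577333) (nat_lit 1344) (nat_lit 107285137360) (nat_lit 162) (nat_lit 5) (nat_lit 177) (nat_lit 5) (nat_lit 178) (nat_lit 5) (nat_lit 440) (nat_lit 436) (nat_lit 69)) (XT.lf (nat_lit 0) (nat_lit 14832062597) (nat_lit 1260) (nat_lit 125454650808) (nat_lit 1344) (nat_lit 17896203941) (nat_lit 163) (nat_lit 5) (nat_lit 178) (nat_lit 5) (nat_lit 179) (nat_lit 5) (nat_lit 441) (nat_lit 436) (nat_lit 68))) (XT.nd (nat_lit 94) (nat_lit 0) (nat_lit 0) (XT.lf (nat_lit 0) (nat_lit 18444173067) (nat_lit 1260) (nat_lit 56507437803) (nat_lit 1344) (nat_lit 85677869300) (nat_lit 163) (nat_lit 5) (nat_lit 178) (nat_lit 5) (nat_lit 179) (nat_lit 5) (nat_lit 442) (nat_lit 436) (nat_lit 67)) (XT.lf (nat_lit 84) (nat_lit 14796871419) (nat_lit 0) (nat_lit 7509916427) (nat_lit 1344) (nat_lit 140838387978)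 (nat_lit 164) (nat_lit 5) (nat_lit 163) (nat_lit 5) (nat_lit 179) (nat_lit 5) (nat_lit 443) (nat_lit 436) (nat_lit 66)))))) (XT.nd (nat_lit 58844) (nat_lit 0) (nat_lit 0) (XT.nd (nat_lit 282) (nat_lit 252) (nat_lit 0) (XT.nd (nat_lit 94) (nat_lit 0) (nat_lit 0) (XT.lf (nat_lit 0) (nat_lit 27457001622) (nat_lit 1260) (nat_lit 76921829337) (nat_lit 1344) (nat_lit 61322359940) (nat_lit 164) (nat_lit 5) (nat_lit 179) (nat_lit 5) (nat_lit 180) (nat_lit 5) (nat_lit 444) (nat_lit 436) (nat_lit 65)) (XT.nd (nat_lit 94) (nat_lit 0) (nat_lit 84) (XT.lf (nat_lit 0) (nat_lit 32835987076) (nat_lit 1260) (nat_lit 3426976915) (nat_lit 1344) (nat_lit 132068694641) (nat_lit 164) (nat_lit 5) (nat_lit 179) (nat_lit 5) (nat_lit 180) (nat_lit 5) (nat_lit 445) (nat_lit 436) (nat_lit 64)) (XT.lf (nat_lit 0) (nat_lit 39417658289) (nat_lit 1260) (nat_lit 97641605676) (nat_lit 1344) (nat_lit 33950537105) (nat_lit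 165) (nat_lit 5) (nat_lit 180) (nat_lit 5) (nat_lit 181) (nat_lit 5) (nat_lit 446) (nat_lit 436) (nat_lit 63)))) (XT.nd (nat_lit 58374) (nat_lit 336) (nat_lit 0) (XT.nd (nat_lit 94) (nat_lit 0) (nat_lit 84) (XT.lf (nat_lit 0) (nat_lit 46590681799) (nat_lit 1260) (nat_lit 21589220853) (nat_lit 1344) (nat_lit 105576568220) (nat_lit 165) (nat_lit 5) (nat_lit 180) (nat_lit 5) (nat_lit 181) (nat_lit 5) (nat_lit 447) (nat_lit 436) (nat_lit 62)) (XT.lf (nat_lit 0) (nat_lit 54567228667) (nat_lit 1260) (nat_lit 118726943363) (nat_lit 1344) (nat_lit 3273718907) (nat_lit 166) (nat_lit 5) (nat_lit 181) (nat_lit 5) (nat_lit 182) (nat_lit 5) (nat_lit 448) (nat_lit 436) (nat_lit 61))) (XT.nd (nat_lit 94) (nat_lit 0) (nat_lit 0) (XT.lf (nat_lit 0) (nat_lit 1779993690) (nat_lit 0) (nat_lit 1779993690) (nat_lit 1260) (nat_lit 72000648025) (nat_lit 161) (nat_lit 5) (nat_lit 161) (nat_lit 3) (nat_lit 176)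 (nat_lit 3) (nat_lit 437) (nat_lit 437) (nat_lit 71)) (XT.lf (nat_lit 0) (nat_lit 7840810648) (nat_lit 1260) (nat_lit 83170709246) (nat_lit 1344) (nat_lit 62358144023) (nat_lit 161) (nat_lit 5) (nat_lit 176) (nat_lit 3) (nat_lit 177) (nat_lit 5) (nat_lit 438) (nat_lit 437) (nat_lit 70))))) (XT.nd (nat_lit 282) (nat_lit 0) (nat_lit 168) (XT.nd (nat_lit 94) (nat_lit 0) (nat_lit 84) (XT.lf (nat_lit 0) (nat_lit 8618414844) (nat_lit 1260) (nat_lit 16883721403) (nat_lit 1344) (nat_lit 130182318461) (nat_lit 161) (nat_lit 5) (nat_lit 176) (nat_lit 3) (nat_lit 177) (nat_lit 5) (nat_lit 439) (nat_lit 437) (nat_lit 69)) (XT.nd (nat_lit 94) (nat_lit 0) (nat_lit 0) (XT.lf (nat_lit 0) (nat_lit 10331542025) (nat_lit 1260) (nat_lit 106047412240) (nat_lit 1344) (nat_lit 41662369297) (nat_lit 162) (nat_lit 5) (nat_lit 177) (nat_lit 5) (nat_lit 178) (nat_lit 5) (nat_lit 440) (nat_lit 437) (nat_lit 68))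 (XT.lf (nat_lit 0) (nat_lit 12520641671) (nat_lit 1260) (nat_lit 37434052950) (nat_lit 1344) (nat_lit 110501466680) (nat_lit 162) (nat_lit 5) (nat_lit 177) (nat_lit 5) (nat_lit 178) (nat_lit 5) (nat_lit 441) (nat_lit 437) (nat_lit 67)))) (XT.nd (nat_lit 188) (nat_lit 0) (nat_lit 0) (XT.nd (nat_lit 94) (nat_lit 0) (nat_lit 0) (XT.lf (nat_lit 0) (nat_lit 15281875783) (nat_lit 1260) (nat_lit 129215223331) (nat_lit 1344) (nat_lit 18431151387) (nat_lit 163) (nat_lit 5) (nat_lit 178) (nat_lit 5) (nat_lit 179) (nat_lit 5) (nat_lit 442) (nat_lit 437) (nat_lit 66)) (XT.lf (nat_lit 0) (nat_lit 19002208267) (nat_lit 1260) (nat_lit 58199683267) (nat_lit 1344) (nat_lit 88246323173) (nat_lit 163) (nat_lit 5) (nat_lit 178) (nat_lit 5) (nat_lit 179) (nat_lit 5) (nat_lit 443) (nat_lit 437) (nat_lit 65))) (XT.nd (nat_lit 94) (nat_lit 0) (nat_lit 84) (XT.lf (nat_lit 84) (nat_lit 15243726040) (nat_lit 0)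 (nat_lit 7736866607) (nat_lit 1344) (nat_lit 145058792097) (nat_lit 164) (nat_lit 5) (nat_lit 163) (nat_lit 5) (nat_lit 179) (nat_lit 5) (nat_lit 444) (nat_lit 437) (nat_lit 64)) (XT.lf (nat_lit 0) (nat_lit 28285163398) (nat_lit 1260) (nat_lit 79226464101) (nat_lit 1344) (nat_lit 63160457498) (nat_lit 164) (nat_lit 5) (nat_lit 179) (nat_lit 5) (nat_lit 180) (nat_lit 5) (nat_lit 445) (nat_lit 437) (nat_lit 63))))))) (XT.nd (nat_lit 59502) (nat_lit 0) (nat_lit 0) (XT.nd (nat_lit 58844) (nat_lit 0) (nat_lit 84) (XT.nd (nat_lit 282) (nat_lit 252) (nat_lit 0) (XT.nd (nat_lit 94) (nat_lit 0) (nat_lit 84) (XT.lf (nat_lit 0) (nat_lit 33825388753) (nat_lit 1260) (nat_lit 3526854071) (nat_lit 1344) (nat_lit 136029228062) (nat_lit 164) (nat_lit 5) (nat_lit 179) (nat_lit 5) (nat_lit 180) (nat_lit 5) (nat_lit 446) (nat_lit 437) (nat_lit 62)) (XT.nd (nat_lit 94) (nat_lit 0) (nat_lit 0) (XT.lf (nat_lit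 0) (nat_lit 40604399432) (nat_lit 1260) (nat_lit 100567803410) (nat_lit 1344) (nat_lit 34967758305) (nat_lit 165) (nat_lit 5) (nat_lit 180) (nat_lit 5) (nat_lit 181) (nat_lit 5) (nat_lit 447) (nat_lit 437) (nat_lit 61)) (XT.lf (nat_lit 0) (nat_lit 47992490985) (nat_lit 1260) (nat_lit 22233935889) (nat_lit 1344) (nat_lit 108742608070) (nat_lit 165) (nat_lit 5) (nat_lit 180) (nat_lit 5) (nat_lit 181) (nat_lit 5) (nat_lit 448) (nat_lit 437) (nat_lit 60)))) (XT.nd (nat_lit 58374) (nat_lit 0) (nat_lit 0) (XT.nd (nat_lit 58280) (nat_lit 420) (nat_lit 0) (XT.lf (nat_lit 0) (nat_lit 56208233119) (nat_lit 1260) (nat_lit 122285681759) (nat_lit 1344) (nat_lit 3370885983) (nat_lit 166) (nat_lit 5) (nat_lit 181) (nat_lit 5) (nat_lit 182) (nat_lit 5) (nat_lit 449) (nat_lit 437) (nat_lit 59)) (XT.lf (nat_lit 0) (nat_lit 1834721566) (nat_lit 0) (nat_lit 1834721566) (nat_lit 1260) (nat_lit 74157926829)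 (nat_lit 161) (nat_lit 5) (nat_lit 161) (nat_lit 3) (nat_lit 176) (nat_lit 3) (nat_lit 438) (nat_lit 438) (nat_lit 69))) (XT.nd (nat_lit 94) (nat_lit 0) (nat_lit 0) (XT.lf (nat_lit 0) (nat_lit 8081167713) (nat_lit 1260) (nat_lit 85663062878) (nat_lit 1344) (nat_lit 64226359898) (nat_lit 161) (nat_lit 5) (nat_lit 176) (nat_lit 3) (nat_lit 177) (nat_lit 5) (nat_lit 439) (nat_lit 438) (nat_lit 68)) (XT.lf (nat_lit 0) (nat_lit 8881950538) (nat_lit 1260) (nat_lit 17387546010) (nat_lit 1344) (nat_lit 134085333213) (nat_lit 161) (nat_lit 5) (nat_lit 176) (nat_lit 3) (nat_lit 177) (nat_lit 5) (nat_lit 440) (nat_lit 438) (nat_lit 67))))) (XT.nd (nat_lit 282) (nat_lit 0) (nat_lit 84) (XT.nd (nat_lit 94) (nat_lit 0) (nat_lit 0) (XT.lf (nat_lit 0) (nat_lit 10646330791) (nat_lit 1260) (nat_lit 109225998002) (nat_lit 1344) (nat_lit 42910080374) (nat_lit 162) (nat_lit 5) (nat_lit 177) (nat_lit 5) (nat_lit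 178) (nat_lit 5) (nat_lit 441) (nat_lit 438) (nat_lit 66)) (XT.nd (nat_lit 94) (nat_lit 0) (nat_lit 84) (XT.lf (nat_lit 0) (nat_lit 12900962382) (nat_lit 1260) (nat_lit 38554320553) (nat_lit 1344) (nat_lit 113814413591) (nat_lit 162) (nat_lit 5) (nat_lit 177) (nat_lit 5) (nat_lit 178) (nat_lit 5) (nat_lit 442) (nat_lit 438) (nat_lit 65)) (XT.lf (nat_lit 0) (nat_lit 15744904880) (nat_lit 1260) (nat_lit 133088789089) (nat_lit 1344) (nat_lit 18982258544) (nat_lit 163) (nat_lit 5) (nat_lit 178) (nat_lit 5) (nat_lit 179) (nat_lit 5) (nat_lit 443) (nat_lit 438) (nat_lit 64)))) (XT.nd (nat_lit 188) (nat_lit 0) (nat_lit 84) (XT.nd (nat_lit 94) (nat_lit 0) (nat_lit 0) (XT.lf (nat_lit 0) (nat_lit 19576714149) (nat_lit 1260) (nat_lit 59942867024) (nat_lit 1344) (nat_lit 90891938708) (nat_lit 163) (nat_lit 5) (nat_lit 178) (nat_lit 5) (nat_lit 179) (nat_lit 5) (nat_lit 444) (nat_lit 438) (nat_lit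 63)) (XT.lf (nat_lit 84) (nat_lit 15703817044) (nat_lit 0) (nat_lit 7970530422) (nat_lit 1344) (nat_lit 149406080867) (nat_lit 164) (nat_lit 5) (nat_lit 163) (nat_lit 5) (nat_lit 179) (nat_lit 5) (nat_lit 445) (nat_lit 438) (nat_lit 62))) (XT.nd (nat_lit 94) (nat_lit 0) (nat_lit 0) (XT.lf (nat_lit 0) (nat_lit 29137914480) (nat_lit 1260) (nat_lit 81600411275) (nat_lit 1344) (nat_lit 65053788293) (nat_lit 164) (nat_lit 5) (nat_lit 179) (nat_lit 5) (nat_lit 180) (nat_lit 5) (nat_lit 446) (nat_lit 438) (nat_lit 61)) (XT.lf (nat_lit 0) (nat_lit 34844224377) (nat_lit 1260) (nat_lit 3629895859) (nat_lit 1344) (nat_lit 140108665167) (nat_lit 164) (nat_lit 5) (nat_lit 179) (nat_lit 5) (nat_lit 180) (nat_lit 5) (nat_lit 447) (nat_lit 438) (nat_lit 60)))))) (XT.nd (nat_lit 58938) (nat_lit 0) (nat_lit 168) (XT.nd (nat_lit 58562) (nat_lit 0) (nat_lit 0) (XT.nd (nat_lit 94) (nat_lit 336) (nat_lit 0)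 (XT.lf (nat_lit 0) (nat_lit 41826501058) (nat_lit 1260) (nat_lit 103581962183) (nat_lit 1344) (nat_lit 36015570475) (nat_lit 165) (nat_lit 5) (nat_lit 180) (nat_lit 5) (nat_lit 181) (nat_lit 5) (nat_lit 448) (nat_lit 438) (nat_lit 59)) (XT.nd (nat_lit 58374) (nat_lit 336) (nat_lit 0) (XT.lf (nat_lit 0) (nat_lit 49436119736) (nat_lit 1260) (nat_lit 22898162384) (nat_lit 1344) (nat_lit 112003701283) (nat_lit 165) (nat_lit 5) (nat_lit 180) (nat_lit 5) (nat_lit 181) (nat_lit 5) (nat_lit 449) (nat_lit 438) (nat_lit 58)) (XT.lf (nat_lit 0) (nat_lit 1891015042) (nat_lit 0) (nat_lit 1891015042) (nat_lit 1260) (nat_lit 76380081321) (nat_lit 161) (nat_lit 5) (nat_lit 161) (nat_lit 3) (nat_lit 176) (nat_lit 3) (nat_lit 439) (nat_lit 439) (nat_lit 67)))) (XT.nd (nat_lit 188) (nat_lit 0) (nat_lit 84) (XT.nd (nat_lit 94) (nat_lit 0) (nat_lit 0) (XT.lf (nat_lit 0) (nat_lit 8328440849) (nat_lit 1260)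 (nat_lit 88230345993) (nat_lit 1344) (nat_lit 66150767392) (nat_lit 161) (nat_lit 5) (nat_lit 176) (nat_lit 3) (nat_lit 177) (nat_lit 5) (nat_lit 440) (nat_lit 439) (nat_lit 66)) (XT.lf (nat_lit 0) (nat_lit 9153106243) (nat_lit 1260) (nat_lit 17906639602) (nat_lit 1344) (nat_lit 138105579323) (nat_lit 161) (nat_lit 5) (nat_lit 176) (nat_lit 3) (nat_lit 177) (nat_lit 5) (nat_lit 441) (nat_lit 439) (nat_lit 65))) (XT.nd (nat_lit 94) (nat_lit 0) (nat_lit 0) (XT.lf (nat_lit 0) (nat_lit 10970285240) (nat_lit 1260) (nat_lit 112500104170) (nat_lit 1344) (nat_lit 44195346776) (nat_lit 162) (nat_lit 5) (nat_lit 177) (nat_lit 5) (nat_lit 178) (nat_lit 5) (nat_lit 442) (nat_lit 439) (nat_lit 64)) (XT.lf (nat_lit 0) (nat_lit 13292422832) (nat_lit 1260) (nat_lit 39708354274) (nat_lit 1344) (nat_lit 117226869291) (nat_lit 162) (nat_lit 5) (nat_lit 177) (nat_lit 5) (nat_lit 178) (nat_lit 5) (nat_lit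 443) (nat_lit 439) (nat_lit 63))))) (XT.nd (nat_lit 282) (nat_lit 0) (nat_lit 84) (XT.nd (nat_lit 94) (nat_lit 0) (nat_lit 0) (XT.lf (nat_lit 0) (nat_lit 16221562350) (nat_lit 1260) (nat_lit 137078727770) (nat_lit 1344) (nat_lit 19550003815) (nat_lit 163) (nat_lit 5) (nat_lit 178) (nat_lit 5) (nat_lit 179) (nat_lit 5) (nat_lit 444) (nat_lit 439) (nat_lit 62)) (XT.nd (nat_lit 94) (nat_lit 0) (nat_lit 0) (XT.lf (nat_lit 0) (nat_lit 20168200354) (nat_lit 1260) (nat_lit 61738507413) (nat_lit 1344) (nat_lit 93617024553) (nat_lit 163) (nat_lit 5) (nat_lit 178) (nat_lit 5) (nat_lit 179) (nat_lit 5) (nat_lit 445) (nat_lit 439) (nat_lit 61)) (XT.lf (nat_lit 84) (nat_lit 16177551240) (nat_lit 0) (nat_lit 8211114726) (nat_lit 1344) (nat_lit 153884045182) (nat_lit 164) (nat_lit 5) (nat_lit 163) (nat_lit 5) (nat_lit 179) (nat_lit 5) (nat_lit 446) (nat_lit 439) (nat_lit 60)))) (XT.nd (nat_lit 188) (nat_lit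 0) (nat_lit 84) (XT.nd (nat_lit 94) (nat_lit 0) (nat_lit 0) (XT.lf (nat_lit 0) (nat_lit 30016007216) (nat_lit 1260) (nat_lit 84045740279) (nat_lit 1344) (nat_lit 67004004138) (nat_lit 164) (nat_lit 5) (nat_lit 179) (nat_lit 5) (nat_lit 180) (nat_lit 5) (nat_lit 447) (nat_lit 439) (nat_lit 59)) (XT.lf (nat_lit 0) (nat_lit 35893391207) (nat_lit 1260) (nat_lit 3736187556) (nat_lit 1344) (nat_lit 144310568031) (nat_lit 164) (nat_lit 5) (nat_lit 179) (nat_lit 5) (nat_lit 180) (nat_lit 5) (nat_lit 448) (nat_lit 439) (nat_lit 58))) (XT.nd (nat_lit 94) (nat_lit 0) (nat_lit 0) (XT.lf (nat_lit 0) (nat_lit 43085037858) (nat_lit 1260) (nat_lit 106686710775) (nat_lit 1344) (nat_lit 37094887076) (nat_lit 165) (nat_lit 5) (nat_lit 180) (nat_lit 5) (nat_lit 181) (nat_lit 5) (nat_lit 449) (nat_lit 439) (nat_lit 57)) (XT.lf (nat_lit 0) (nat_lit 50922836114) (nat_lit 1260) (nat_lit 23582475922) (nat_lit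 1344) (nat_lit 115362695318) (nat_lit 165) (nat_lit 5) (nat_lit 180) (nat_lit 5) (nat_lit 181) (nat_lit 5) (nat_lit 450) (nat_lit 439) (nat_lit 56))))))))
noncomputable def xc253 : XT := (XT.nd (nat_lit 119380) (nat_lit 0) (nat_lit 0) (XT.nd (nat_lit 59690) (nat_lit 0) (nat_lit 0) (XT.nd (nat_lit 658) (nat_lit 0) (nat_lit 0) (XT.nd (nat_lit 282) (nat_lit 0) (nat_lit 84) (XT.nd (nat_lit 94) (nat_lit 0) (nat_lit 0) (XT.lf (nat_lit 0) (nat_lit 1948925462) (nat_lit 0) (nat_lit 1948925462) (nat_lit 1260) (nat_lit 78669048741) (nat_lit 161) (nat_lit 5) (nat_lit 161) (nat_lit 3) (nat_lit 176) (nat_lit 3) (nat_lit 440) (nat_lit 440) (nat_lit 65)) (XT.nd (nat_lit 94) (nat_lit 0) (nat_lit 0) (XT.lf (nat_lit 0) (nat_lit 8582854452) (nat_lit 1260) (nat_lit 90874797355) (nat_lit 1344) (nat_lit 68133043922) (nat_lit 161) (nat_lit 5) (nat_lit 176) (nat_lit 3) (nat_lit 177) (nat_lit 5) (nat_lit 441) (nat_lit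 440) (nat_lit 64)) (XT.lf (nat_lit 0) (nat_lit 9432126982) (nat_lit 1260) (nat_lit 18441451395) (nat_lit 1344) (nat_lit 142246565643) (nat_lit 161) (nat_lit 5) (nat_lit 176) (nat_lit 3) (nat_lit 177) (nat_lit 5) (nat_lit 442) (nat_lit 440) (nat_lit 63)))) (XT.nd (nat_lit 188) (nat_lit 0) (nat_lit 84) (XT.nd (nat_lit 94) (nat_lit 0) (nat_lit 0) (XT.lf (nat_lit 0) (nat_lit 11303696300) (nat_lit 1260) (nat_lit 115872587009) (nat_lit 1344) (nat_lit 45519288046) (nat_lit 162) (nat_lit 5) (nat_lit 177) (nat_lit 5) (nat_lit 178) (nat_lit 5) (nat_lit 443) (nat_lit 440) (nat_lit 62)) (XT.lf (nat_lit 0) (nat_lit 13695372704) (nat_lit 1260) (nat_lit 40897158023) (nat_lit 1344) (nat_lit 120741812134) (nat_lit 162) (nat_lit 5) (nat_lit 177) (nat_lit 5) (nat_lit 178) (nat_lit 5) (nat_lit 444) (nat_lit 440) (nat_lit 61))) (XT.nd (nat_lit 94) (nat_lit 0) (nat_lit 0) (XT.lf (nat_lit 0) (nat_lit 16712272115)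 (nat_lit 1260) (nat_lit 141188521038) (nat_lit 1344) (nat_lit 20134880321) (nat_lit 163) (nat_lit 5) (nat_lit 178) (nat_lit 5) (nat_lit 179) (nat_lit 5) (nat_lit 445) (nat_lit 440) (nat_lit 60)) (XT.lf (nat_lit 0) (nat_lit 20777190922) (nat_lit 1260) (nat_lit 63588168882) (nat_lit 1344) (nat_lit 96423958972) (nat_lit 163) (nat_lit 5) (nat_lit 178) (nat_lit 5) (nat_lit 179) (nat_lit 5) (nat_lit 446) (nat_lit 440) (nat_lit 59))))) (XT.nd (nat_lit 282) (nat_lit 168) (nat_lit 0) (XT.nd (nat_lit 94) (nat_lit 0) (nat_lit 84) (XT.lf (nat_lit 84) (nat_lit 16665347082) (nat_lit 0) (nat_lit 8458832267) (nat_lit 1344) (nat_lit 158496590564) (nat_lit 164) (nat_lit 5) (nat_lit 163) (nat_lit 5) (nat_lit 179) (nat_lit 5) (nat_lit 447) (nat_lit 440) (nat_lit 58)) (XT.nd (nat_lit 94) (nat_lit 0) (nat_lit 0) (XT.lf (nat_lit 0) (nat_lit 30920215684) (nat_lit 1260) (nat_lit 86564583188) (nat_lit 1344) (nat_lit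 69012806698) (nat_lit 164) (nat_lit 5) (nat_lit 179) (nat_lit 5) (nat_lit 180) (nat_lit 5) (nat_lit 448) (nat_lit 440) (nat_lit 57)) (XT.lf (nat_lit 0) (nat_lit 36973812605) (nat_lit 1260) (nat_lit 3845817552) (nat_lit 1344) (nat_lit 148638605883) (nat_lit 164) (nat_lit 5) (nat_lit 179) (nat_lit 5) (nat_lit 180) (nat_lit 5) (nat_lit 449) (nat_lit 440) (nat_lit 56)))) (XT.nd (nat_lit 58562) (nat_lit 0) (nat_lit 0) (XT.nd (nat_lit 58468) (nat_lit 336) (nat_lit 0) (XT.lf (nat_lit 0) (nat_lit 44381115970) (nat_lit 1260) (nat_lit 109884757406) (nat_lit 1344) (nat_lit 38206649219) (nat_lit 165) (nat_lit 5) (nat_lit 180) (nat_lit 5) (nat_lit 181) (nat_lit 5) (nat_lit 450) (nat_lit 440) (nat_lit 55)) (XT.lf (nat_lit 0) (nat_lit 2008505459) (nat_lit 0) (nat_lit 2008505459) (nat_lit 1260) (nat_lit 81026824963) (nat_lit 161) (nat_lit 5) (nat_lit 161) (nat_lit 3) (nat_lit 176) (nat_lit 3) (nat_lit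 441) (nat_lit 441) (nat_lit 63))) (XT.nd (nat_lit 94) (nat_lit 0) (nat_lit 0) (XT.lf (nat_lit 0) (nat_lit 8844638680) (nat_lit 1260) (nat_lit 93598723416) (nat_lit 1344) (nat_lit 70174917706) (nat_lit 161) (nat_lit 5) (nat_lit 176) (nat_lit 3) (nat_lit 177) (nat_lit 5) (nat_lit 442) (nat_lit 441) (nat_lit 62)) (XT.lf (nat_lit 0) (nat_lit 9719264183) (nat_lit 1260) (nat_lit 18992444587) (nat_lit 1344) (nat_lit 146511906754) (nat_lit 161) (nat_lit 5) (nat_lit 176) (nat_lit 3) (nat_lit 177) (nat_lit 5) (nat_lit 443) (nat_lit 441) (nat_lit 61)))))) (XT.nd (nat_lit 658) (nat_lit 84) (nat_lit 0) (XT.nd (nat_lit 282) (nat_lit 0) (nat_lit 84) (XT.nd (nat_lit 94) (nat_lit 0) (nat_lit 0) (XT.lf (nat_lit 0) (nat_lit 11646862710) (nat_lit 1260) (nat_lit 119346389007) (nat_lit 1344) (nat_lit 46883057720) (nat_lit 162) (nat_lit 5) (nat_lit 177) (nat_lit 5) (nat_lit 178) (nat_lit 5) (nat_lit 444) (nat_lit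 441) (nat_lit 60)) (XT.nd (nat_lit 94) (nat_lit 0) (nat_lit 84) (XT.lf (nat_lit 0) (nat_lit 14110171284) (nat_lit 1260) (nat_lit 42121766344) (nat_lit 1344) (nat_lit 124362310219) (nat_lit 162) (nat_lit 5) (nat_lit 177) (nat_lit 5) (nat_lit 178) (nat_lit 5) (nat_lit 445) (nat_lit 441) (nat_lit 59)) (XT.lf (nat_lit 0) (nat_lit 17217469946) (nat_lit 1260) (nat_lit 145421755550) (nat_lit 1344) (nat_lit 20737396325) (nat_lit 163) (nat_lit 5) (nat_lit 178) (nat_lit 5) (nat_lit 179) (nat_lit 5) (nat_lit 446) (nat_lit 441) (nat_lit 58)))) (XT.nd (nat_lit 188) (nat_lit 0) (nat_lit 84) (XT.nd (nat_lit 94) (nat_lit 0) (nat_lit 0) (XT.lf (nat_lit 0) (nat_lit 21404224774) (nat_lit 1260) (nat_lit 65493463348) (nat_lit 1344) (nat_lit 99315191910) (nat_lit 163) (nat_lit 5) (nat_lit 178) (nat_lit 5) (nat_lit 179) (nat_lit 5) (nat_lit 447) (nat_lit 441) (nat_lit 57)) (XT.lf (nat_lit 84) (nat_lit 17167635050)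 (nat_lit 0) (nat_lit 8713901882) (nat_lit 1344) (nat_lit 163247740545) (nat_lit 164) (nat_lit 5) (nat_lit 163) (nat_lit 5) (nat_lit 179) (nat_lit 5) (nat_lit 448) (nat_lit 441) (nat_lit 56))) (XT.nd (nat_lit 94) (nat_lit 0) (nat_lit 0) (XT.lf (nat_lit 0) (nat_lit 31851336389) (nat_lit 1260) (nat_lit 89159136576) (nat_lit 1344) (nat_lit 71081948968) (nat_lit 164) (nat_lit 5) (nat_lit 179) (nat_lit 5) (nat_lit 180) (nat_lit 5) (nat_lit 449) (nat_lit 441) (nat_lit 55)) (XT.lf (nat_lit 0) (nat_lit 38086438861) (nat_lit 1260) (nat_lit 3958877411) (nat_lit 1344) (nat_lit 153096558302) (nat_lit 164) (nat_lit 5) (nat_lit 179) (nat_lit 5) (nat_lit 180) (nat_lit 5) (nat_lit 450) (nat_lit 441) (nat_lit 54))))) (XT.nd (nat_lit 58656) (nat_lit 0) (nat_lit 0) (XT.nd (nat_lit 58468) (nat_lit 336) (nat_lit 0) (XT.lf (nat_lit 0) (nat_lit 45715873962) (nat_lit 1260) (nat_lit 113178892085) (nat_lit 1344)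 (nat_lit 39351826479) (nat_lit 165) (nat_lit 5) (nat_lit 180) (nat_lit 5) (nat_lit 181) (nat_lit 5) (nat_lit 451) (nat_lit 441) (nat_lit 53)) (XT.nd (nat_lit 94) (nat_lit 0) (nat_lit 0) (XT.lf (nat_lit 0) (nat_lit 2069809010) (nat_lit 0) (nat_lit 2069809010) (nat_lit 1260) (nat_lit 83455466228) (nat_lit 161) (nat_lit 5) (nat_lit 161) (nat_lit 3) (nat_lit 176) (nat_lit 3) (nat_lit 442) (nat_lit 442) (nat_lit 61)) (XT.lf (nat_lit 0) (nat_lit 9114029677) (nat_lit 1260) (nat_lit 96404500313) (nat_lit 1344) (nat_lit 72278169258) (nat_lit 161) (nat_lit 5) (nat_lit 176) (nat_lit 3) (nat_lit 177) (nat_lit 5) (nat_lit 443) (nat_lit 442) (nat_lit 60)))) (XT.nd (nat_lit 188) (nat_lit 0) (nat_lit 84) (XT.nd (nat_lit 94) (nat_lit 0) (nat_lit 84) (XT.lf (nat_lit 0) (nat_lit 10014775931) (nat_lit 1260) (nat_lit 19560096755) (nat_lit 1344) (nat_lit 150905326113) (nat_lit 161) (nat_lit 5) (nat_lit 176)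 (nat_lit 3) (nat_lit 177) (nat_lit 5) (nat_lit 444) (nat_lit 442) (nat_lit 59)) (XT.lf (nat_lit 0) (nat_lit 12000091309) (nat_lit 1260) (nat_lit 122924541436) (nat_lit 1344) (nat_lit 48287844327) (nat_lit 162) (nat_lit 5) (nat_lit 177) (nat_lit 5) (nat_lit 178) (nat_lit 5) (nat_lit 445) (nat_lit 442) (nat_lit 58))) (XT.nd (nat_lit 94) (nat_lit 0) (nat_lit 84) (XT.lf (nat_lit 0) (nat_lit 14537187799) (nat_lit 1260) (nat_lit 43383245313) (nat_lit 1344) (nat_lit 128091524064) (nat_lit 162) (nat_lit 5) (nat_lit 177) (nat_lit 5) (nat_lit 178) (nat_lit 5) (nat_lit 446) (nat_lit 442) (nat_lit 57)) (XT.lf (nat_lit 0) (nat_lit 17737603873) (nat_lit 1260) (nat_lit 149782126080) (nat_lit 1344) (nat_lit 21358075660) (nat_lit 163) (nat_lit 5) (nat_lit 178) (nat_lit 5) (nat_lit 179) (nat_lit 5) (nat_lit 447) (nat_lit 442) (nat_lit 56))))))) (XT.nd (nat_lit 59690) (nat_lit 0) (nat_lit 0) (XT.nd (nat_lit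 59032) (nat_lit 0) (nat_lit 0) (XT.nd (nat_lit 282) (nat_lit 168) (nat_lit 0) (XT.nd (nat_lit 94) (nat_lit 0) (nat_lit 0) (XT.lf (nat_lit 0) (nat_lit 22049856205) (nat_lit 1260) (nat_lit 67456051581) (nat_lit 1344) (nat_lit 102293247129) (nat_lit 163) (nat_lit 5) (nat_lit 178) (nat_lit 5) (nat_lit 179) (nat_lit 5) (nat_lit 448) (nat_lit 442) (nat_lit 55)) (XT.nd (nat_lit 94) (nat_lit 0) (nat_lit 84) (XT.lf (nat_lit 84) (nat_lit 17684858046) (nat_lit 0) (nat_lit 8976548693) (nat_lit 1344) (nat_lit 168141640160) (nat_lit 164) (nat_lit 5) (nat_lit 163) (nat_lit 5) (nat_lit 179) (nat_lit 5) (nat_lit 449) (nat_lit 442) (nat_lit 54)) (XT.lf (nat_lit 0) (nat_lit 32810188984) (nat_lit 1260) (nat_lit 91831663423) (nat_lit 1344) (nat_lit 73213236799) (nat_lit 164) (nat_lit 5) (nat_lit 179) (nat_lit 5) (nat_lit 180) (nat_lit 5) (nat_lit 450) (nat_lit 442) (nat_lit 53)))) (XT.nd (nat_lit 58562) (nat_lit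 252) (nat_lit 0) (XT.nd (nat_lit 94) (nat_lit 0) (nat_lit 84) (XT.lf (nat_lit 0) (nat_lit 39232248050) (nat_lit 1260) (nat_lit 4075461937) (nat_lit 1344) (nat_lit 157688318509) (nat_lit 164) (nat_lit 5) (nat_lit 179) (nat_lit 5) (nat_lit 180) (nat_lit 5) (nat_lit 451) (nat_lit 442) (nat_lit 52)) (XT.lf (nat_lit 0) (nat_lit 47090483854) (nat_lit 1260) (nat_lit 116571989036) (nat_lit 1344) (nat_lit 40531417737) (nat_lit 165) (nat_lit 5) (nat_lit 180) (nat_lit 5) (nat_lit 181) (nat_lit 5) (nat_lit 452) (nat_lit 442) (nat_lit 51))) (XT.nd (nat_lit 94) (nat_lit 0) (nat_lit 0) (XT.lf (nat_lit 0) (nat_lit 2132891485) (nat_lit 0) (nat_lit 2132891485) (nat_lit 1260) (nat_lit 85957090924) (nat_lit 161) (nat_lit 5) (nat_lit 161) (nat_lit 3) (nat_lit 176) (nat_lit 3) (nat_lit 443) (nat_lit 443) (nat_lit 59)) (XT.lf (nat_lit 0) (nat_lit 9391269812) (nat_lit 1260) (nat_lit 99294575934) (nat_lit 1344)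 (nat_lit 74444632934) (nat_lit 161) (nat_lit 5) (nat_lit 176) (nat_lit 3) (nat_lit 177) (nat_lit 5) (nat_lit 444) (nat_lit 443) (nat_lit 58))))) (XT.nd (nat_lit 282) (nat_lit 0) (nat_lit 168) (XT.nd (nat_lit 94) (nat_lit 0) (nat_lit 84) (XT.lf (nat_lit 0) (nat_lit 10318927214) (nat_lit 1260) (nat_lit 20144900251) (nat_lit 1344) (nat_lit 155430659293) (nat_lit 161) (nat_lit 5) (nat_lit 176) (nat_lit 3) (nat_lit 177) (nat_lit 5) (nat_lit 445) (nat_lit 443) (nat_lit 57)) (XT.nd (nat_lit 94) (nat_lit 0) (nat_lit 0) (XT.lf (nat_lit 0) (nat_lit 12363697327) (nat_lit 1260) (nat_lit 126610166978) (nat_lit 1344) (nat_lit 49734872413) (nat_lit 162) (nat_lit 5) (nat_lit 177) (nat_lit 5) (nat_lit 178) (nat_lit 5) (nat_lit 446) (nat_lit 443) (nat_lit 56)) (XT.lf (nat_lit 0) (nat_lit 14976801762) (nat_lit 1260) (nat_lit 44682693449) (nat_lit 1344) (nat_lit 131932709355) (nat_lit 162) (nat_lit 5) (nat_lit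 177) (nat_lit 5) (nat_lit 178) (nat_lit 5) (nat_lit 447) (nat_lit 443) (nat_lit 55)))) (XT.nd (nat_lit 188) (nat_lit 0) (nat_lit 0) (XT.nd (nat_lit 94) (nat_lit 0) (nat_lit 0) (XT.lf (nat_lit 0) (nat_lit 18273134599) (nat_lit 1260) (nat_lit 154273438730) (nat_lit 1344) (nat_lit 21997458184) (nat_lit 163) (nat_lit 5) (nat_lit 178) (nat_lit 5) (nat_lit 179) (nat_lit 5) (nat_lit 448) (nat_lit 443) (nat_lit 54)) (XT.lf (nat_lit 0) (nat_lit 22714655396) (nat_lit 1260) (nat_lit 69477644650) (nat_lit 1344) (nat_lit 105360724401) (nat_lit 163) (nat_lit 5) (nat_lit 178) (nat_lit 5) (nat_lit 179) (nat_lit 5) (nat_lit 449) (nat_lit 443) (nat_lit 53))) (XT.nd (nat_lit 94) (nat_lit 0) (nat_lit 84) (XT.lf (nat_lit 84) (nat_lit 18217471791) (nat_lit 0) (nat_lit 9247004315) (nat_lit 1344) (nat_lit 173182559550) (nat_lit 164) (nat_lit 5) (nat_lit 163) (nat_lit 5) (nat_lit 179) (nat_lit 5) (nat_lit 450)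 (nat_lit 443) (nat_lit 52)) (XT.lf (nat_lit 0) (nat_lit 33797617005) (nat_lit 1260) (nat_lit 94584495077) (nat_lit 1344) (nat_lit 75408530464) (nat_lit 164) (nat_lit 5) (nat_lit 179) (nat_lit 5) (nat_lit 180) (nat_lit 5) (nat_lit 451) (nat_lit 443) (nat_lit 51)))))) (XT.nd (nat_lit 59126) (nat_lit 0) (nat_lit 0) (XT.nd (nat_lit 58750) (nat_lit 0) (nat_lit 0) (XT.nd (nat_lit 58562) (nat_lit 252) (nat_lit 0) (XT.lf (nat_lit 0) (nat_lit 40412246901) (nat_lit 1260) (nat_lit 4195669243) (nat_lit 1344) (nat_lit 162417896764) (nat_lit 164) (nat_lit 5) (nat_lit 179) (nat_lit 5) (nat_lit 180) (nat_lit 5) (nat_lit 452) (nat_lit 443) (nat_lit 50)) (XT.nd (nat_lit 94) (nat_lit 0) (nat_lit 0) (XT.lf (nat_lit 0) (nat_lit 2197809708) (nat_lit 0) (nat_lit 2197809708) (nat_lit 1260) (nat_lit 88533881424) (nat_lit 161) (nat_lit 5) (nat_lit 161) (nat_lit 3) (nat_lit 176) (nat_lit 3) (nat_lit 444) (nat_lit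 444) (nat_lit 57)) (XT.lf (nat_lit 0) (nat_lit 9676607911) (nat_lit 1260) (nat_lit 102271472041) (nat_lit 1344) (nat_lit 76676198521) (nat_lit 161) (nat_lit 5) (nat_lit 176) (nat_lit 3) (nat_lit 177) (nat_lit 5) (nat_lit 445) (nat_lit 444) (nat_lit 56)))) (XT.nd (nat_lit 188) (nat_lit 0) (nat_lit 84) (XT.nd (nat_lit 94) (nat_lit 0) (nat_lit 84) (XT.lf (nat_lit 0) (nat_lit 10631990180) (nat_lit 1260) (nat_lit 20747362627) (nat_lit 1344) (nat_lit 160091857323) (nat_lit 161) (nat_lit 5) (nat_lit 176) (nat_lit 3) (nat_lit 177) (nat_lit 5) (nat_lit 446) (nat_lit 444) (nat_lit 55)) (XT.lf (nat_lit 0) (nat_lit 12738004682) (nat_lit 1260) (nat_lit 130406482450) (nat_lit 1344) (nat_lit 51225403603) (nat_lit 162) (nat_lit 5) (nat_lit 177) (nat_lit 5) (nat_lit 178) (nat_lit 5) (nat_lit 447) (nat_lit 444) (nat_lit 54))) (XT.nd (nat_lit 94) (nat_lit 0) (nat_lit 84) (XT.lf (nat_lit 0) (nat_lit 15429403325)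 (nat_lit 1260) (nat_lit 46021242663) (nat_lit 1344) (nat_lit 135889219780) (nat_lit 162) (nat_lit 5) (nat_lit 177) (nat_lit 5) (nat_lit 178) (nat_lit 5) (nat_lit 448) (nat_lit 444) (nat_lit 53)) (XT.lf (nat_lit 0) (nat_lit 18824535923) (nat_lit 1260) (nat_lit 158899614242) (nat_lit 1344) (nat_lit 22656100239) (nat_lit 163) (nat_lit 5) (nat_lit 178) (nat_lit 5) (nat_lit 179) (nat_lit 5) (nat_lit 449) (nat_lit 444) (nat_lit 52))))) (XT.nd (nat_lit 282) (nat_lit 168) (nat_lit 0) (XT.nd (nat_lit 94) (nat_lit 0) (nat_lit 0) (XT.lf (nat_lit 0) (nat_lit 23399208928) (nat_lit 1260) (nat_lit 71560005398) (nat_lit 1344) (nat_lit 108520301773) (nat_lit 163) (nat_lit 5) (nat_lit 178) (nat_lit 5) (nat_lit 179) (nat_lit 5) (nat_lit 450) (nat_lit 444) (nat_lit 51)) (XT.nd (nat_lit 94) (nat_lit 0) (nat_lit 84) (XT.lf (nat_lit 84) (nat_lit 18765945236) (nat_lit 0) (nat_lit 9525507066) (nat_lit 1344) (nat_lit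 178374897666) (nat_lit 164) (nat_lit 5) (nat_lit 163) (nat_lit 5) (nat_lit 179) (nat_lit 5) (nat_lit 451) (nat_lit 444) (nat_lit 50)) (XT.lf (nat_lit 0) (nat_lit 34814488631) (nat_lit 1260) (nat_lit 97420033277) (nat_lit 1344) (nat_lit 77669746281) (nat_lit 164) (nat_lit 5) (nat_lit 179) (nat_lit 5) (nat_lit 180) (nat_lit 5) (nat_lit 452) (nat_lit 444) (nat_lit 49)))) (XT.nd (nat_lit 58656) (nat_lit 0) (nat_lit 0) (XT.nd (nat_lit 58562) (nat_lit 252) (nat_lit 0) (XT.lf (nat_lit 0) (nat_lit 41627471702) (nat_lit 1260) (nat_lit 4319600823) (nat_lit 1344) (nat_lit 167289423864) (nat_lit 164) (nat_lit 5) (nat_lit 179) (nat_lit 5) (nat_lit 180) (nat_lit 5) (nat_lit 453) (nat_lit 444) (nat_lit 48)) (XT.lf (nat_lit 0) (nat_lit 2264622007) (nat_lit 0) (nat_lit 2264622007) (nat_lit 1260) (nat_lit 91188085984) (nat_lit 161) (nat_lit 5) (nat_lit 161) (nat_lit 3) (nat_lit 176) (nat_lit 3) (nat_lit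 445) (nat_lit 445) (nat_lit 55))) (XT.nd (nat_lit 94) (nat_lit 0) (nat_lit 0) (XT.lf (nat_lit 0) (nat_lit 9970299497) (nat_lit 1260) (nat_lit 105337786462) (nat_lit 1344) (nat_lit 78974812876) (nat_lit 161) (nat_lit 5) (nat_lit 176) (nat_lit 3) (nat_lit 177) (nat_lit 5) (nat_lit 446) (nat_lit 445) (nat_lit 54)) (XT.lf (nat_lit 0) (nat_lit 10954244400) (nat_lit 1260) (nat_lit 21368007059) (nat_lit 1344) (nat_lit 164892990130) (nat_lit 161) (nat_lit 5) (nat_lit 176) (nat_lit 3) (nat_lit 177) (nat_lit 5) (nat_lit 447) (nat_lit 445) (nat_lit 53))))))))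
noncomputable def xc254 : XT := (XT.nd (nat_lit 178130) (nat_lit 0) (nat_lit 0) (XT.nd (nat_lit 59690) (nat_lit 0) (nat_lit 0) (XT.nd (nat_lit 564) (nat_lit 84) (nat_lit 0) (XT.nd (nat_lit 282) (nat_lit 0) (nat_lit 84) (XT.nd (nat_lit 94) (nat_lit 0) (nat_lit 0) (XT.lf (nat_lit 0) (nat_lit 13123346289) (nat_lit 1260) (nat_lit 134316801594) (nat_lit 1344) (nat_lit 52760737696) (nat_lit 162) (nat_lit 5) (nat_lit 177) (nat_lit 5) (nat_lit 178) (nat_lit 5) (nat_lit 448) (nat_lit 445) (nat_lit 52)) (XT.nd (nat_lit 94) (nat_lit 0) (nat_lit 84) (XT.lf (nat_lit 0) (nat_lit 15895393644) (nat_lit 1260) (nat_lit 47400059234) (nat_lit 1344) (nat_lit 139964509950) (nat_lit 162) (nat_lit 5) (nat_lit 177) (nat_lit 5) (nat_lit 178) (nat_lit 5) (nat_lit 449) (nat_lit 445) (nat_lit 51)) (XT.lf (nat_lit 0) (nat_lit 19392295175) (nat_lit 1260) (nat_lit 163664691416) (nat_lit 1344) (nat_lit 23334575130) (nat_lit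 163) (nat_lit 5) (nat_lit 178) (nat_lit 5) (nat_lit 179) (nat_lit 5) (nat_lit 450) (nat_lit 445) (nat_lit 50)))) (XT.nd (nat_lit 94) (nat_lit 0) (nat_lit 0) (XT.lf (nat_lit 0) (nat_lit 24104120317) (nat_lit 1260) (nat_lit 73704949974) (nat_lit 1344) (nat_lit 111774737898) (nat_lit 163) (nat_lit 5) (nat_lit 178) (nat_lit 5) (nat_lit 179) (nat_lit 5) (nat_lit 451) (nat_lit 445) (nat_lit 49)) (XT.nd (nat_lit 94) (nat_lit 0) (nat_lit 84) (XT.lf (nat_lit 84) (nat_lit 19330760987) (nat_lit 0) (nat_lit 9812302178) (nat_lit 1344) (nat_lit 183723186098) (nat_lit 164) (nat_lit 5) (nat_lit 163) (nat_lit 5) (nat_lit 179) (nat_lit 5) (nat_lit 452) (nat_lit 445) (nat_lit 48)) (XT.lf (nat_lit 0) (nat_lit 35861697459) (nat_lit 1260) (nat_lit 100340752239) (nat_lit 1344) (nat_lit 79998858278) (nat_lit 164) (nat_lit 5) (nat_lit 179) (nat_lit 5) (nat_lit 180) (nat_lit 5) (nat_lit 453) (nat_lit 445) (nat_lit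 47))))) (XT.nd (nat_lit 58750) (nat_lit 0) (nat_lit 0) (XT.nd (nat_lit 58562) (nat_lit 252) (nat_lit 0) (XT.lf (nat_lit 0) (nat_lit 42878989221) (nat_lit 1260) (nat_lit 4447361628) (nat_lit 1344) (nat_lit 172307154744) (nat_lit 164) (nat_lit 5) (nat_lit 179) (nat_lit 5) (nat_lit 180) (nat_lit 5) (nat_lit 454) (nat_lit 445) (nat_lit 46)) (XT.nd (nat_lit 94) (nat_lit 0) (nat_lit 0) (XT.lf (nat_lit 0) (nat_lit 2333388273) (nat_lit 0) (nat_lit 2333388273) (nat_lit 1260) (nat_lit 93922020689) (nat_lit 161) (nat_lit 5) (nat_lit 161) (nat_lit 3) (nat_lit 176) (nat_lit 3) (nat_lit 446) (nat_lit 446) (nat_lit 53)) (XT.lf (nat_lit 0) (nat_lit 10272607040) (nat_lit 1260) (nat_lit 108496195351) (nat_lit 1344) (nat_lit 81342481618) (nat_lit 161) (nat_lit 5) (nat_lit 176) (nat_lit 3) (nat_lit 177) (nat_lit 5) (nat_lit 447) (nat_lit 446) (nat_lit 52)))) (XT.nd (nat_lit 188) (nat_lit 0) (nat_lit 84) (XT.nd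 (nat_lit 94) (nat_lit 0) (nat_lit 84) (XT.lf (nat_lit 0) (nat_lit 11285977127) (nat_lit 1260) (nat_lit 22007372799) (nat_lit 1344) (nat_lit 169838250082) (nat_lit 161) (nat_lit 5) (nat_lit 176) (nat_lit 3) (nat_lit 177) (nat_lit 5) (nat_lit 448) (nat_lit 446) (nat_lit 51)) (XT.lf (nat_lit 0) (nat_lit 13520064366) (nat_lit 1260) (nat_lit 138344537964) (nat_lit 1344) (nat_lit 54342213785) (nat_lit 162) (nat_lit 5) (nat_lit 177) (nat_lit 5) (nat_lit 178) (nat_lit 5) (nat_lit 449) (nat_lit 446) (nat_lit 50))) (XT.nd (nat_lit 94) (nat_lit 0) (nat_lit 84) (XT.lf (nat_lit 0) (nat_lit 16375185248) (nat_lit 1260) (nat_lit 48820344818) (nat_lit 1344) (nat_lit 144162138412) (nat_lit 162) (nat_lit 5) (nat_lit 177) (nat_lit 5) (nat_lit 178) (nat_lit 5) (nat_lit 450) (nat_lit 446) (nat_lit 49)) (XT.lf (nat_lit 0) (nat_lit 19976913663) (nat_lit 1260) (nat_lit 168572830618) (nat_lit 1344) (nat_lit 24033473618)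 (nat_lit 163) (nat_lit 5) (nat_lit 178) (nat_lit 5) (nat_lit 179) (nat_lit 5) (nat_lit 451) (nat_lit 446) (nat_lit 48)))))) (XT.nd (nat_lit 59220) (nat_lit 0) (nat_lit 0) (XT.nd (nat_lit 58844) (nat_lit 168) (nat_lit 0) (XT.nd (nat_lit 94) (nat_lit 0) (nat_lit 0) (XT.lf (nat_lit 0) (nat_lit 24830010559) (nat_lit 1260) (nat_lit 75914349406) (nat_lit 1344) (nat_lit 115126874437) (nat_lit 163) (nat_lit 5) (nat_lit 178) (nat_lit 5) (nat_lit 179) (nat_lit 5) (nat_lit 452) (nat_lit 446) (nat_lit 47)) (XT.nd (nat_lit 94) (nat_lit 0) (nat_lit 84) (XT.lf (nat_lit 84) (nat_lit 19912415737) (nat_lit 0) (nat_lit 10107642023) (nat_lit 1344) (nat_lit 189232093014) (nat_lit 164) (nat_lit 5) (nat_lit 163) (nat_lit 5) (nat_lit 179) (nat_lit 5) (nat_lit 453) (nat_lit 446) (nat_lit 46)) (XT.lf (nat_lit 0) (nat_lit 36940163304) (nat_lit 1260) (nat_lit 103349200806) (nat_lit 1344) (nat_lit 82397899913) (nat_lit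 164) (nat_lit 5) (nat_lit 179) (nat_lit 5) (nat_lit 180) (nat_lit 5) (nat_lit 454) (nat_lit 446) (nat_lit 45)))) (XT.nd (nat_lit 188) (nat_lit 0) (nat_lit 0) (XT.nd (nat_lit 94) (nat_lit 0) (nat_lit 0) (XT.lf (nat_lit 0) (nat_lit 2404170020) (nat_lit 0) (nat_lit 2404170020) (nat_lit 1260) (nat_lit 96738071475) (nat_lit 161) (nat_lit 5) (nat_lit 161) (nat_lit 3) (nat_lit 176) (nat_lit 3) (nat_lit 447) (nat_lit 447) (nat_lit 51)) (XT.lf (nat_lit 0) (nat_lit 10583800198) (nat_lit 1260) (nat_lit 111749455511) (nat_lit 1344) (nat_lit 83781270871) (nat_lit 161) (nat_lit 5) (nat_lit 176) (nat_lit 3) (nat_lit 177) (nat_lit 5) (nat_lit 448) (nat_lit 447) (nat_lit 50))) (XT.nd (nat_lit 94) (nat_lit 0) (nat_lit 84) (XT.lf (nat_lit 0) (nat_lit 11627483574) (nat_lit 1260) (nat_lit 22666015634) (nat_lit 1344) (nat_lit 174931955647) (nat_lit 161) (nat_lit 5) (nat_lit 176) (nat_lit 3) (nat_lit 177) (nat_lit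 5) (nat_lit 449) (nat_lit 447) (nat_lit 49)) (XT.lf (nat_lit 0) (nat_lit 13928510758) (nat_lit 1260) (nat_lit 142493207896) (nat_lit 1344) (nat_lit 55971211426) (nat_lit 162) (nat_lit 5) (nat_lit 177) (nat_lit 5) (nat_lit 178) (nat_lit 5) (nat_lit 450) (nat_lit 447) (nat_lit 48))))) (XT.nd (nat_lit 282) (nat_lit 84) (nat_lit 0) (XT.nd (nat_lit 94) (nat_lit 0) (nat_lit 84) (XT.lf (nat_lit 0) (nat_lit 16869202418) (nat_lit 1260) (nat_lit 50283337487) (nat_lit 1344) (nat_lit 148485770746) (nat_lit 162) (nat_lit 5) (nat_lit 177) (nat_lit 5) (nat_lit 178) (nat_lit 5) (nat_lit 451) (nat_lit 447) (nat_lit 47)) (XT.nd (nat_lit 94) (nat_lit 0) (nat_lit 0) (XT.lf (nat_lit 0) (nat_lit 20578907124) (nat_lit 1260) (nat_lit 173628317413) (nat_lit 1344) (nat_lit 24753404430) (nat_lit 163) (nat_lit 5) (nat_lit 178) (nat_lit 5) (nat_lit 179) (nat_lit 5) (nat_lit 452) (nat_lit 447) (nat_lit 46)) (XT.lf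 (nat_lit 0) (nat_lit 25577518693) (nat_lit 1260) (nat_lit 78190131223) (nat_lit 1344) (nat_lit 118579638538) (nat_lit 163) (nat_lit 5) (nat_lit 178) (nat_lit 5) (nat_lit 179) (nat_lit 5) (nat_lit 453) (nat_lit 447) (nat_lit 45)))) (XT.nd (nat_lit 58750) (nat_lit 168) (nat_lit 0) (XT.nd (nat_lit 94) (nat_lit 0) (nat_lit 84) (XT.lf (nat_lit 84) (nat_lit 20511420710) (nat_lit 0) (nat_lit 10411786337) (nat_lit 1344) (nat_lit 194906427217) (nat_lit 164) (nat_lit 5) (nat_lit 163) (nat_lit 5) (nat_lit 179) (nat_lit 5) (nat_lit 454) (nat_lit 447) (nat_lit 44)) (XT.lf (nat_lit 0) (nat_lit 38050833016) (nat_lit 1260) (nat_lit 106448004665) (nat_lit 1344) (nat_lit 84868965846) (nat_lit 164) (nat_lit 5) (nat_lit 179) (nat_lit 5) (nat_lit 180) (nat_lit 5) (nat_lit 455) (nat_lit 447) (nat_lit 43))) (XT.nd (nat_lit 94) (nat_lit 0) (nat_lit 0) (XT.lf (nat_lit 0) (nat_lit 2477030438) (nat_lit 0) (nat_lit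 2477030438) (nat_lit 1260) (nat_lit 99638696195) (nat_lit 161) (nat_lit 5) (nat_lit 161) (nat_lit 3) (nat_lit 176) (nat_lit 3) (nat_lit 448) (nat_lit 448) (nat_lit 49)) (XT.lf (nat_lit 0) (nat_lit 10904156081) (nat_lit 1260) (nat_lit 115100406798) (nat_lit 1344) (nat_lit 86293309058) (nat_lit 161) (nat_lit 5) (nat_lit 176) (nat_lit 3) (nat_lit 177) (nat_lit 5) (nat_lit 449) (nat_lit 448) (nat_lit 48))))))) (XT.nd (nat_lit 118628) (nat_lit 0) (nat_lit 0) (XT.nd (nat_lit 59314) (nat_lit 0) (nat_lit 0) (XT.nd (nat_lit 282) (nat_lit 0) (nat_lit 0) (XT.nd (nat_lit 94) (nat_lit 0) (nat_lit 84) (XT.lf (nat_lit 0) (nat_lit 11979067185) (nat_lit 1260) (nat_lit 23344508357) (nat_lit 1344) (nat_lit 180178555152) (nat_lit 161) (nat_lit 5) (nat_lit 176) (nat_lit 3) (nat_lit 177) (nat_lit 5) (nat_lit 450) (nat_lit 448) (nat_lit 47)) (XT.nd (nat_lit 94) (nat_lit 0) (nat_lit 0) (XT.lf (nat_lit 0) (nat_lit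 14349047258) (nat_lit 1260) (nat_lit 146766433574) (nat_lit 1344) (nat_lit 57649151828) (nat_lit 162) (nat_lit 5) (nat_lit 177) (nat_lit 5) (nat_lit 178) (nat_lit 5) (nat_lit 451) (nat_lit 448) (nat_lit 46)) (XT.lf (nat_lit 0) (nat_lit 17377881576) (nat_lit 1260) (nat_lit 51790312797) (nat_lit 1344) (nat_lit 152939182761) (nat_lit 162) (nat_lit 5) (nat_lit 177) (nat_lit 5) (nat_lit 178) (nat_lit 5) (nat_lit 452) (nat_lit 448) (nat_lit 45)))) (XT.nd (nat_lit 188) (nat_lit 168) (nat_lit 0) (XT.nd (nat_lit 94) (nat_lit 0) (nat_lit 0) (XT.lf (nat_lit 0) (nat_lit 21198806199) (nat_lit 1260) (nat_lit 178835566290) (nat_lit 1344) (nat_lit 25494994785) (nat_lit 163) (nat_lit 5) (nat_lit 178) (nat_lit 5) (nat_lit 179) (nat_lit 5) (nat_lit 453) (nat_lit 448) (nat_lit 44)) (XT.lf (nat_lit 0) (nat_lit 26347302372) (nat_lit 1260) (nat_lit 80534281136) (nat_lit 1344) (nat_lit 122136045385) (nat_lit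 163) (nat_lit 5) (nat_lit 178) (nat_lit 5) (nat_lit 179) (nat_lit 5) (nat_lit 454) (nat_lit 448) (nat_lit 43))) (XT.nd (nat_lit 58750) (nat_lit 168) (nat_lit 0) (XT.lf (nat_lit 84) (nat_lit 21128302120) (nat_lit 0) (nat_lit 10725002452) (nat_lit 1344) (nat_lit 200751142338) (nat_lit 164) (nat_lit 5) (nat_lit 163) (nat_lit 5) (nat_lit 179) (nat_lit 5) (nat_lit 455) (nat_lit 448) (nat_lit 42)) (XT.lf (nat_lit 0) (nat_lit 2552034458) (nat_lit 0) (nat_lit 2552034458) (nat_lit 1260) (nat_lit 102626426763) (nat_lit 161) (nat_lit 5) (nat_lit 161) (nat_lit 3) (nat_lit 176) (nat_lit 3) (nat_lit 449) (nat_lit 449) (nat_lit 47))))) (XT.nd (nat_lit 282) (nat_lit 0) (nat_lit 84) (XT.nd (nat_lit 94) (nat_lit 0) (nat_lit 0) (XT.lf (nat_lit 0) (nat_lit 11233959505) (nat_lit 1260) (nat_lit 118551974588) (nat_lit 1344) (nat_lit 88880788753) (nat_lit 161) (nat_lit 5) (nat_lit 176) (nat_lit 3) (nat_lit 177)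 (nat_lit 5) (nat_lit 450) (nat_lit 449) (nat_lit 46)) (XT.nd (nat_lit 94) (nat_lit 0) (nat_lit 84) (XT.lf (nat_lit 0) (nat_lit 12341039920) (nat_lit 1260) (nat_lit 24043441264) (nat_lit 1344) (nat_lit 185582630664) (nat_lit 161) (nat_lit 5) (nat_lit 176) (nat_lit 3) (nat_lit 177) (nat_lit 5) (nat_lit 451) (nat_lit 449) (nat_lit 45)) (XT.lf (nat_lit 0) (nat_lit 14782045943) (nat_lit 1260) (nat_lit 151167946178) (nat_lit 1344) (nat_lit 59377499094) (nat_lit 162) (nat_lit 5) (nat_lit 177) (nat_lit 5) (nat_lit 178) (nat_lit 5) (nat_lit 452) (nat_lit 449) (nat_lit 44)))) (XT.nd (nat_lit 188) (nat_lit 0) (nat_lit 84) (XT.nd (nat_lit 94) (nat_lit 0) (nat_lit 84) (XT.lf (nat_lit 0) (nat_lit 17901671680) (nat_lit 1260) (nat_lit 53342584897) (nat_lit 1344) (nat_lit 157526263789) (nat_lit 162) (nat_lit 5) (nat_lit 177) (nat_lit 5) (nat_lit 178) (nat_lit 5) (nat_lit 453) (nat_lit 449) (nat_lit 43))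 (XT.lf (nat_lit 0) (nat_lit 21837156907) (nat_lit 1260) (nat_lit 184199124518) (nat_lit 1344) (nat_lit 26258890930) (nat_lit 163) (nat_lit 5) (nat_lit 178) (nat_lit 5) (nat_lit 179) (nat_lit 5) (nat_lit 454) (nat_lit 449) (nat_lit 42))) (XT.nd (nat_lit 94) (nat_lit 0) (nat_lit 0) (XT.lf (nat_lit 0) (nat_lit 27140038454) (nat_lit 1260) (nat_lit 82948844753) (nat_lit 1344) (nat_lit 125799200826) (nat_lit 163) (nat_lit 5) (nat_lit 178) (nat_lit 5) (nat_lit 179) (nat_lit 5) (nat_lit 455) (nat_lit 449) (nat_lit 41)) (XT.lf (nat_lit 84) (nat_lit 21763601640) (nat_lit 0) (nat_lit 11047565538) (nat_lit 1344) (nat_lit 206771341143) (nat_lit 164) (nat_lit 5) (nat_lit 163) (nat_lit 5) (nat_lit 179) (nat_lit 5) (nat_lit 456) (nat_lit 449) (nat_lit 40)))))) (XT.nd (nat_lit 658) (nat_lit 0) (nat_lit 0) (XT.nd (nat_lit 282) (nat_lit 0) (nat_lit 84) (XT.nd (nat_lit 94) (nat_lit 0) (nat_lit 0) (XT.lf (nat_lit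 0) (nat_lit 2629248812) (nat_lit 0) (nat_lit 2629248812) (nat_lit 1260) (nat_lit 105703871354) (nat_lit 161) (nat_lit 5) (nat_lit 161) (nat_lit 3) (nat_lit 176) (nat_lit 3) (nat_lit 450) (nat_lit 450) (nat_lit 45)) (XT.nd (nat_lit 94) (nat_lit 0) (nat_lit 0) (XT.lf (nat_lit 0) (nat_lit 11573503261) (nat_lit 1260) (nat_lit 122107172328) (nat_lit 1344) (nat_lit 91545968588) (nat_lit 161) (nat_lit 5) (nat_lit 176) (nat_lit 3) (nat_lit 177) (nat_lit 5) (nat_lit 451) (nat_lit 450) (nat_lit 44)) (XT.lf (nat_lit 0) (nat_lit 12713722546) (nat_lit 1260) (nat_lit 24763422659) (nat_lit 1344) (nat_lit 191148901984) (nat_lit 161) (nat_lit 5) (nat_lit 176) (nat_lit 3) (nat_lit 177) (nat_lit 5) (nat_lit 452) (nat_lit 450) (nat_lit 43)))) (XT.nd (nat_lit 188) (nat_lit 0) (nat_lit 84) (XT.nd (nat_lit 94) (nat_lit 0) (nat_lit 0) (XT.lf (nat_lit 0) (nat_lit 15227889513) (nat_lit 1260) (nat_lit 155701589142)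 (nat_lit 1344) (nat_lit 61157761489) (nat_lit 162) (nat_lit 5) (nat_lit 177) (nat_lit 5) (nat_lit 178) (nat_lit 5) (nat_lit 453) (nat_lit 450) (nat_lit 42)) (XT.lf (nat_lit 0) (nat_lit 18441034638) (nat_lit 1260) (nat_lit 54941507665) (nat_lit 1344) (nat_lit 162251020074) (nat_lit 162) (nat_lit 5) (nat_lit 177) (nat_lit 5) (nat_lit 178) (nat_lit 5) (nat_lit 454) (nat_lit 450) (nat_lit 41))) (XT.nd (nat_lit 94) (nat_lit 0) (nat_lit 0) (XT.lf (nat_lit 0) (nat_lit 22494521140) (nat_lit 1260) (nat_lit 189723676101) (nat_lit 1344) (nat_lit 27045758706) (nat_lit 163) (nat_lit 5) (nat_lit 178) (nat_lit 5) (nat_lit 179) (nat_lit 5) (nat_lit 455) (nat_lit 450) (nat_lit 40)) (XT.lf (nat_lit 0) (nat_lit 27956423614) (nat_lit 1260) (nat_lit 85435929365) (nat_lit 1344) (nat_lit 129572304081) (nat_lit 163) (nat_lit 5) (nat_lit 178) (nat_lit 5) (nat_lit 179) (nat_lit 5) (nat_lit 456) (nat_lit 450) (nat_lit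 39))))) (XT.nd (nat_lit 58938) (nat_lit 0) (nat_lit 0) (XT.nd (nat_lit 58750) (nat_lit 168) (nat_lit 0) (XT.lf (nat_lit 84) (nat_lit 22417876883) (nat_lit 0) (nat_lit 11379758847) (nat_lit 1344) (nat_lit 212972279977) (nat_lit 164) (nat_lit 5) (nat_lit 163) (nat_lit 5) (nat_lit 179) (nat_lit 5) (nat_lit 457) (nat_lit 450) (nat_lit 38)) (XT.nd (nat_lit 94) (nat_lit 0) (nat_lit 0) (XT.lf (nat_lit 0) (nat_lit 2708742093) (nat_lit 0) (nat_lit 2708742093) (nat_lit 1260) (nat_lit 108873716676) (nat_lit 161) (nat_lit 5) (nat_lit 161) (nat_lit 3) (nat_lit 176) (nat_lit 3) (nat_lit 451) (nat_lit 451) (nat_lit 43)) (XT.lf (nat_lit 0) (nat_lit 11923088385) (nat_lit 1260) (nat_lit 125769104155) (nat_lit 1344) (nat_lit 94291175218) (nat_lit 161) (nat_lit 5) (nat_lit 176) (nat_lit 3) (nat_lit 177) (nat_lit 5) (nat_lit 452) (nat_lit 451) (nat_lit 42)))) (XT.nd (nat_lit 188) (nat_lit 0) (nat_lit 84) (XT.nd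 (nat_lit 94) (nat_lit 0) (nat_lit 84) (XT.lf (nat_lit 0) (nat_lit 13097444928) (nat_lit 1260) (nat_lit 25505079375) (nat_lit 1344) (nat_lit 196882230765) (nat_lit 161) (nat_lit 5) (nat_lit 176) (nat_lit 3) (nat_lit 177) (nat_lit 5) (nat_lit 453) (nat_lit 451) (nat_lit 41)) (XT.lf (nat_lit 0) (nat_lit 15686971642) (nat_lit 1260) (nat_lit 160371321498) (nat_lit 1344) (nat_lit 62991492753) (nat_lit 162) (nat_lit 5) (nat_lit 177) (nat_lit 5) (nat_lit 178) (nat_lit 5) (nat_lit 454) (nat_lit 451) (nat_lit 40))) (XT.nd (nat_lit 94) (nat_lit 0) (nat_lit 84) (XT.lf (nat_lit 0) (nat_lit 18996445720) (nat_lit 1260) (nat_lit 56588475887) (nat_lit 1344) (nat_lit 167117578267) (nat_lit 162) (nat_lit 5) (nat_lit 177) (nat_lit 5) (nat_lit 178) (nat_lit 5) (nat_lit 455) (nat_lit 451) (nat_lit 39)) (XT.lf (nat_lit 0) (nat_lit 23171477168) (nat_lit 1260) (nat_lit 195414045869) (nat_lit 1344) (nat_lit 27856284118)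 (nat_lit 163) (nat_lit 5) (nat_lit 178) (nat_lit 5) (nat_lit 179) (nat_lit 5) (nat_lit 456) (nat_lit 451) (nat_lit 38))))))))
noncomputable def xc255 : XT := (XT.nd (nat_lit 237538) (nat_lit 0) (nat_lit 0) (XT.nd (nat_lit 118722) (nat_lit 0) (nat_lit 0) (XT.nd (nat_lit 59314) (nat_lit 0) (nat_lit 0) (XT.nd (nat_lit 58938) (nat_lit 0) (nat_lit 0) (XT.nd (nat_lit 94) (nat_lit 168) (nat_lit 0) (XT.lf (nat_lit 0) (nat_lit 28797174957) (nat_lit 1260) (nat_lit 87997705776) (nat_lit 1344) (nat_lit 133458650535) (nat_lit 163) (nat_lit 5) (nat_lit 178) (nat_lit 5) (nat_lit 179) (nat_lit 5) (nat_lit 457) (nat_lit 451) (nat_lit 37)) (XT.nd (nat_lit 58750) (nat_lit 168) (nat_lit 0) (XT.lf (nat_lit 84) (nat_lit 23091701900) (nat_lit 0) (nat_lit 11721873964) (nat_lit 1344) (nat_lit 219359373346) (nat_lit 164) (nat_lit 5) (nat_lit 163) (nat_lit 5) (nat_lit 179) (nat_lit 5) (nat_lit 458) (nat_lit 451)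 (nat_lit 36)) (XT.lf (nat_lit 0) (nat_lit 2790584822) (nat_lit 0) (nat_lit 2790584822) (nat_lit 1260) (nat_lit 112138730308) (nat_lit 161) (nat_lit 5) (nat_lit 161) (nat_lit 3) (nat_lit 176) (nat_lit 3) (nat_lit 452) (nat_lit 452) (nat_lit 41)))) (XT.nd (nat_lit 188) (nat_lit 0) (nat_lit 84) (XT.nd (nat_lit 94) (nat_lit 0) (nat_lit 0) (XT.lf (nat_lit 0) (nat_lit 12283024441) (nat_lit 1260) (nat_lit 129540967606) (nat_lit 1344) (nat_lit 97118805350) (nat_lit 161) (nat_lit 5) (nat_lit 176) (nat_lit 3) (nat_lit 177) (nat_lit 5) (nat_lit 453) (nat_lit 452) (nat_lit 40)) (XT.lf (nat_lit 0) (nat_lit 13492546338) (nat_lit 1260) (nat_lit 26269057316) (nat_lit 1344) (nat_lit 202787624751) (nat_lit 161) (nat_lit 5) (nat_lit 176) (nat_lit 3) (nat_lit 177) (nat_lit 5) (nat_lit 454) (nat_lit 452) (nat_lit 39))) (XT.nd (nat_lit 94) (nat_lit 0) (nat_lit 0) (XT.lf (nat_lit 0) (nat_lit 16159697338) (nat_lit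 1260) (nat_lit 165181221329) (nat_lit 1344) (nat_lit 64880293449) (nat_lit 162) (nat_lit 5) (nat_lit 177) (nat_lit 5) (nat_lit 178) (nat_lit 5) (nat_lit 455) (nat_lit 452) (nat_lit 38)) (XT.lf (nat_lit 0) (nat_lit 19568393991) (nat_lit 1260) (nat_lit 58284926461) (nat_lit 1344) (nat_lit 172130189026) (nat_lit 162) (nat_lit 5) (nat_lit 177) (nat_lit 5) (nat_lit 178) (nat_lit 5) (nat_lit 456) (nat_lit 452) (nat_lit 37))))) (XT.nd (nat_lit 59032) (nat_lit 0) (nat_lit 0) (XT.nd (nat_lit 94) (nat_lit 168) (nat_lit 0) (XT.lf (nat_lit 0) (nat_lit 23868620158) (nat_lit 1260) (nat_lit 201275203681) (nat_lit 1344) (nat_lit 28691173934) (nat_lit 163) (nat_lit 5) (nat_lit 178) (nat_lit 5) (nat_lit 179) (nat_lit 5) (nat_lit 457) (nat_lit 452) (nat_lit 36)) (XT.nd (nat_lit 58844) (nat_lit 168) (nat_lit 0) (XT.lf (nat_lit 0) (nat_lit 29663030667) (nat_lit 1260) (nat_lit 90636410188) (nat_lit 1344) (nat_lit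 137461634607) (nat_lit 163) (nat_lit 5) (nat_lit 178) (nat_lit 5) (nat_lit 179) (nat_lit 5) (nat_lit 458) (nat_lit 452) (nat_lit 35)) (XT.lf (nat_lit 0) (nat_lit 2874849512) (nat_lit 0) (nat_lit 2874849512) (nat_lit 1260) (nat_lit 115501763111) (nat_lit 161) (nat_lit 5) (nat_lit 161) (nat_lit 3) (nat_lit 176) (nat_lit 3) (nat_lit 453) (nat_lit 453) (nat_lit 39)))) (XT.nd (nat_lit 188) (nat_lit 0) (nat_lit 84) (XT.nd (nat_lit 94) (nat_lit 0) (nat_lit 0) (XT.lf (nat_lit 0) (nat_lit 12653629797) (nat_lit 1260) (nat_lit 133426056401) (nat_lit 1344) (nat_lit 100031327824) (nat_lit 161) (nat_lit 5) (nat_lit 176) (nat_lit 3) (nat_lit 177) (nat_lit 5) (nat_lit 454) (nat_lit 453) (nat_lit 38)) (XT.lf (nat_lit 0) (nat_lit 13899375760) (nat_lit 1260) (nat_lit 27056022012) (nat_lit 1344) (nat_lit 208870242147) (nat_lit 161) (nat_lit 5) (nat_lit 176) (nat_lit 3) (nat_lit 177) (nat_lit 5) (nat_lit 455)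 (nat_lit 453) (nat_lit 37))) (XT.nd (nat_lit 94) (nat_lit 0) (nat_lit 0) (XT.lf (nat_lit 0) (nat_lit 16646483306) (nat_lit 1260) (nat_lit 170135489325) (nat_lit 1344) (nat_lit 66825812360) (nat_lit 162) (nat_lit 5) (nat_lit 177) (nat_lit 5) (nat_lit 178) (nat_lit 5) (nat_lit 456) (nat_lit 453) (nat_lit 36)) (XT.lf (nat_lit 0) (nat_lit 20157382750) (nat_lit 1260) (nat_lit 60032339649) (nat_lit 1344) (nat_lit 177293230724) (nat_lit 162) (nat_lit 5) (nat_lit 177) (nat_lit 5) (nat_lit 178) (nat_lit 5) (nat_lit 457) (nat_lit 453) (nat_lit 35)))))) (XT.nd (nat_lit 59408) (nat_lit 0) (nat_lit 0) (XT.nd (nat_lit 59032) (nat_lit 0) (nat_lit 0) (XT.nd (nat_lit 94) (nat_lit 168) (nat_lit 0) (XT.lf (nat_lit 0) (nat_lit 24586562705) (nat_lit 1260) (nat_lit 207312268762) (nat_lit 1344) (nat_lit 29551156294) (nat_lit 163) (nat_lit 5) (nat_lit 178) (nat_lit 5) (nat_lit 179) (nat_lit 5) (nat_lit 458) (nat_lit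 453) (nat_lit 34)) (XT.nd (nat_lit 58844) (nat_lit 168) (nat_lit 0) (XT.lf (nat_lit 0) (nat_lit 30554750657) (nat_lit 1260) (nat_lit 93354346154) (nat_lit 1344) (nat_lit 141584752715) (nat_lit 163) (nat_lit 5) (nat_lit 178) (nat_lit 5) (nat_lit 179) (nat_lit 5) (nat_lit 459) (nat_lit 453) (nat_lit 33)) (XT.lf (nat_lit 0) (nat_lit 2961610734) (nat_lit 0) (nat_lit 2961610734) (nat_lit 1260) (nat_lit 118965751714) (nat_lit 161) (nat_lit 5) (nat_lit 161) (nat_lit 3) (nat_lit 176) (nat_lit 3) (nat_lit 454) (nat_lit 454) (nat_lit 37)))) (XT.nd (nat_lit 188) (nat_lit 0) (nat_lit 84) (XT.nd (nat_lit 94) (nat_lit 0) (nat_lit 0) (XT.lf (nat_lit 0) (nat_lit 13035231926) (nat_lit 1260) (nat_lit 137427763313) (nat_lit 1344) (nat_lit 103031285769) (nat_lit 161) (nat_lit 5) (nat_lit 176) (nat_lit 3) (nat_lit 177) (nat_lit 5) (nat_lit 455) (nat_lit 454) (nat_lit 36)) (XT.lf (nat_lit 0) (nat_lit 14318292213)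 (nat_lit 1260) (nat_lit 27866659198) (nat_lit 1344) (nat_lit 215135396121) (nat_lit 161) (nat_lit 5) (nat_lit 176) (nat_lit 3) (nat_lit 177) (nat_lit 5) (nat_lit 456) (nat_lit 454) (nat_lit 35))) (XT.nd (nat_lit 94) (nat_lit 0) (nat_lit 0) (XT.lf (nat_lit 0) (nat_lit 17147758329) (nat_lit 1260) (nat_lit 175238452446) (nat_lit 1344) (nat_lit 68829747922) (nat_lit 162) (nat_lit 5) (nat_lit 177) (nat_lit 5) (nat_lit 178) (nat_lit 5) (nat_lit 457) (nat_lit 454) (nat_lit 34)) (XT.lf (nat_lit 0) (nat_lit 20763929984) (nat_lit 1260) (nat_lit 61832240364) (nat_lit 1344) (nat_lit 182611213268) (nat_lit 162) (nat_lit 5) (nat_lit 177) (nat_lit 5) (nat_lit 178) (nat_lit 5) (nat_lit 458) (nat_lit 454) (nat_lit 33))))) (XT.nd (nat_lit 59032) (nat_lit 0) (nat_lit 0) (XT.nd (nat_lit 94) (nat_lit 168) (nat_lit 0) (XT.lf (nat_lit 0) (nat_lit 25325935383) (nat_lit 1260) (nat_lit 213530514164) (nat_lit 1344)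 (nat_lit 30436981342) (nat_lit 163) (nat_lit 5) (nat_lit 178) (nat_lit 5) (nat_lit 179) (nat_lit 5) (nat_lit 459) (nat_lit 454) (nat_lit 32)) (XT.nd (nat_lit 58844) (nat_lit 168) (nat_lit 0) (XT.lf (nat_lit 0) (nat_lit 31473117251) (nat_lit 1260) (nat_lit 96153886577) (nat_lit 1344) (nat_lit 145831606325) (nat_lit 163) (nat_lit 5) (nat_lit 178) (nat_lit 5) (nat_lit 179) (nat_lit 5) (nat_lit 460) (nat_lit 454) (nat_lit 31)) (XT.lf (nat_lit 0) (nat_lit 3050945188) (nat_lit 0) (nat_lit 3050945188) (nat_lit 1260) (nat_lit 122533721070) (nat_lit 161) (nat_lit 5) (nat_lit 161) (nat_lit 3) (nat_lit 176) (nat_lit 3) (nat_lit 455) (nat_lit 455) (nat_lit 35)))) (XT.nd (nat_lit 188) (nat_lit 0) (nat_lit 84) (XT.nd (nat_lit 94) (nat_lit 0) (nat_lit 0) (XT.lf (nat_lit 0) (nat_lit 13428167700) (nat_lit 1260) (nat_lit 141549583130) (nat_lit 1344) (nat_lit 106121298818) (nat_lit 161) (nat_lit 5) (nat_lit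 176) (nat_lit 3) (nat_lit 177) (nat_lit 5) (nat_lit 456) (nat_lit 455) (nat_lit 34)) (XT.lf (nat_lit 0) (nat_lit 14749665072) (nat_lit 1260) (nat_lit 28701675398) (nat_lit 1344) (nat_lit 221588559437) (nat_lit 161) (nat_lit 5) (nat_lit 176) (nat_lit 3) (nat_lit 177) (nat_lit 5) (nat_lit 457) (nat_lit 455) (nat_lit 33))) (XT.nd (nat_lit 94) (nat_lit 0) (nat_lit 0) (XT.lf (nat_lit 0) (nat_lit 17663963653) (nat_lit 1260) (nat_lit 180494567695) (nat_lit 1344) (nat_lit 70893849702) (nat_lit 162) (nat_lit 5) (nat_lit 177) (nat_lit 5) (nat_lit 178) (nat_lit 5) (nat_lit 458) (nat_lit 455) (nat_lit 32)) (XT.lf (nat_lit 0) (nat_lit 21388568829) (nat_lit 1260) (nat_lit 63686199493) (nat_lit 1344) (nat_lit 188088782038) (nat_lit 162) (nat_lit 5) (nat_lit 177) (nat_lit 5) (nat_lit 178) (nat_lit 5) (nat_lit 459) (nat_lit 455) (nat_lit 31))))))) (XT.nd (nat_lit 237256) (nat_lit 0) (nat_lit 0) (XT.nd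 (nat_lit 118440) (nat_lit 0) (nat_lit 0) (XT.nd (nat_lit 59126) (nat_lit 0) (nat_lit 0) (XT.nd (nat_lit 58938) (nat_lit 168) (nat_lit 0) (XT.lf (nat_lit 0) (nat_lit 26087387303) (nat_lit 1260) (nat_lit 219935371374) (nat_lit 1344) (nat_lit 31349421877) (nat_lit 163) (nat_lit 5) (nat_lit 178) (nat_lit 5) (nat_lit 179) (nat_lit 5) (nat_lit 460) (nat_lit 455) (nat_lit 30)) (XT.nd (nat_lit 94) (nat_lit 0) (nat_lit 0) (XT.lf (nat_lit 0) (nat_lit 3142931769) (nat_lit 0) (nat_lit 3142931769) (nat_lit 1260) (nat_lit 126208787093) (nat_lit 161) (nat_lit 5) (nat_lit 161) (nat_lit 3) (nat_lit 176) (nat_lit 3) (nat_lit 456) (nat_lit 456) (nat_lit 33)) (XT.lf (nat_lit 0) (nat_lit 13832783694) (nat_lit 1260) (nat_lit 145795115696) (nat_lit 1344) (nat_lit 109304065386) (nat_lit 161) (nat_lit 5) (nat_lit 176) (nat_lit 3) (nat_lit 177) (nat_lit 5) (nat_lit 457) (nat_lit 456) (nat_lit 32)))) (XT.nd (nat_lit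 188) (nat_lit 0) (nat_lit 0) (XT.nd (nat_lit 94) (nat_lit 0) (nat_lit 84) (XT.lf (nat_lit 0) (nat_lit 15193874406) (nat_lit 1260) (nat_lit 29561798546) (nat_lit 1344) (nat_lit 228235369234) (nat_lit 161) (nat_lit 5) (nat_lit 176) (nat_lit 3) (nat_lit 177) (nat_lit 5) (nat_lit 458) (nat_lit 456) (nat_lit 31)) (XT.lf (nat_lit 0) (nat_lit 18195553383) (nat_lit 1260) (nat_lit 185908426005) (nat_lit 1344) (nat_lit 73019919923) (nat_lit 162) (nat_lit 5) (nat_lit 177) (nat_lit 5) (nat_lit 178) (nat_lit 5) (nat_lit 459) (nat_lit 456) (nat_lit 30))) (XT.nd (nat_lit 59032) (nat_lit 84) (nat_lit 0) (XT.lf (nat_lit 0) (nat_lit 22031848051) (nat_lit 1260) (nat_lit 65595835263) (nat_lit 1344) (nat_lit 193730721935) (nat_lit 162) (nat_lit 5) (nat_lit 177) (nat_lit 5) (nat_lit 178) (nat_lit 5) (nat_lit 460) (nat_lit 456) (nat_lit 29)) (XT.lf (nat_lit 0) (nat_lit 3237651643) (nat_lit 0) (nat_lit 3237651643)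 (nat_lit 1260) (nat_lit 129994159379) (nat_lit 161) (nat_lit 5) (nat_lit 161) (nat_lit 3) (nat_lit 176) (nat_lit 3) (nat_lit 457) (nat_lit 457) (nat_lit 31))))) (XT.nd (nat_lit 59314) (nat_lit 0) (nat_lit 0) (XT.nd (nat_lit 94) (nat_lit 0) (nat_lit 0) (XT.lf (nat_lit 0) (nat_lit 14249436508) (nat_lit 1260) (nat_lit 150168069056) (nat_lit 1344) (nat_lit 112582365031) (nat_lit 161) (nat_lit 5) (nat_lit 176) (nat_lit 3) (nat_lit 177) (nat_lit 5) (nat_lit 458) (nat_lit 457) (nat_lit 30)) (XT.nd (nat_lit 94) (nat_lit 0) (nat_lit 84) (XT.lf (nat_lit 0) (nat_lit 15651311321) (nat_lit 1260) (nat_lit 30447778609) (nat_lit 1344) (nat_lit 235081631945) (nat_lit 161) (nat_lit 5) (nat_lit 176) (nat_lit 3) (nat_lit 177) (nat_lit 5) (nat_lit 459) (nat_lit 457) (nat_lit 29)) (XT.lf (nat_lit 0) (nat_lit 18742994894) (nat_lit 1260) (nat_lit 191484756247) (nat_lit 1344) (nat_lit 75209815032) (nat_lit 162)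 (nat_lit 5) (nat_lit 177) (nat_lit 5) (nat_lit 178) (nat_lit 5) (nat_lit 460) (nat_lit 457) (nat_lit 28)))) (XT.nd (nat_lit 188) (nat_lit 0) (nat_lit 0) (XT.nd (nat_lit 94) (nat_lit 0) (nat_lit 0) (XT.lf (nat_lit 0) (nat_lit 3335188320) (nat_lit 0) (nat_lit 3335188320) (nat_lit 1260) (nat_lit 133893144000) (nat_lit 161) (nat_lit 5) (nat_lit 161) (nat_lit 3) (nat_lit 176) (nat_lit 3) (nat_lit 458) (nat_lit 458) (nat_lit 29)) (XT.lf (nat_lit 0) (nat_lit 14678493082) (nat_lit 1260) (nat_lit 154672262687) (nat_lit 1344) (nat_lit 115959060870) (nat_lit 161) (nat_lit 5) (nat_lit 176) (nat_lit 3) (nat_lit 177) (nat_lit 5) (nat_lit 459) (nat_lit 458) (nat_lit 28))) (XT.nd (nat_lit 59220) (nat_lit 0) (nat_lit 0) (XT.lf (nat_lit 0) (nat_lit 16122378309) (nat_lit 1260) (nat_lit 31360388238) (nat_lit 1344) (nat_lit 242133328367) (nat_lit 161) (nat_lit 5) (nat_lit 176) (nat_lit 3) (nat_lit 177) (nat_lit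 5) (nat_lit 460) (nat_lit 458) (nat_lit 27)) (XT.lf (nat_lit 0) (nat_lit 3435627726) (nat_lit 0) (nat_lit 3435627726) (nat_lit 1260) (nat_lit 137909146388) (nat_lit 161) (nat_lit 5) (nat_lit 161) (nat_lit 3) (nat_lit 176) (nat_lit 3) (nat_lit 459) (nat_lit 459) (nat_lit 27)))))) (XT.nd (nat_lit 178412) (nat_lit 0) (nat_lit 0) (XT.nd (nat_lit 119004) (nat_lit 0) (nat_lit 0) (XT.nd (nat_lit 59314) (nat_lit 0) (nat_lit 0) (XT.lf (nat_lit 0) (nat_lit 15120331028) (nat_lit 1260) (nat_lit 159311630831) (nat_lit 1344) (nat_lit 119437102078) (nat_lit 161) (nat_lit 5) (nat_lit 176) (nat_lit 3) (nat_lit 177) (nat_lit 5) (nat_lit 460) (nat_lit 459) (nat_lit 26)) (XT.nd (nat_lit 470) (nat_lit 0) (nat_lit 168) (XT.lf (nat_lit 0) (nat_lit 3539058286) (nat_lit 0) (nat_lit 3539058286) (nat_lit 1260) (nat_lit 142045674307) (nat_lit 161) (nat_lit 5) (nat_lit 161) (nat_lit 3) (nat_lit 176) (nat_lit 3) (nat_lit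 460) (nat_lit 460) (nat_lit 25)) (XT.lf (nat_lit 0) (nat_lit 30249926378) (nat_lit 1260) (nat_lit 254960635956) (nat_lit 1344) (nat_lit 36339577041) (nat_lit 163) (nat_lit 5) (nat_lit 178) (nat_lit 5) (nat_lit 179) (nat_lit 5) (nat_lit 465) (nat_lit 460) (nat_lit 20)))) (XT.nd (nat_lit 59220) (nat_lit 84) (nat_lit 0) (XT.nd (nat_lit 94) (nat_lit 0) (nat_lit 0) (XT.lf (nat_lit 0) (nat_lit 21101114317) (nat_lit 1260) (nat_lit 215514436293) (nat_lit 1344) (nat_lit 84646763165) (nat_lit 162) (nat_lit 5) (nat_lit 177) (nat_lit 5) (nat_lit 178) (nat_lit 5) (nat_lit 464) (nat_lit 461) (nat_lit 20)) (XT.lf (nat_lit 0) (nat_lit 25548213372) (nat_lit 1260) (nat_lit 76039296670) (nat_lit 1344) (nat_lit 224583763618) (nat_lit 162) (nat_lit 5) (nat_lit 177) (nat_lit 5) (nat_lit 178) (nat_lit 5) (nat_lit 465) (nat_lit 461) (nat_lit 19))) (XT.nd (nat_lit 94) (nat_lit 0) (nat_lit 0) (XT.lf (nat_lit 0)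 (nat_lit 16526476532) (nat_lit 1260) (nat_lit 174081919047) (nat_lit 1344) (nat_lit 130510135125) (nat_lit 161) (nat_lit 5) (nat_lit 176) (nat_lit 3) (nat_lit 177) (nat_lit 5) (nat_lit 463) (nat_lit 462) (nat_lit 20)) (XT.lf (nat_lit 0) (nat_lit 18151415963) (nat_lit 1260) (nat_lit 35293407548) (nat_lit 1344) (nat_lit 272520466618) (nat_lit 161) (nat_lit 5) (nat_lit 176) (nat_lit 3) (nat_lit 177) (nat_lit 5) (nat_lit 464) (nat_lit 462) (nat_lit 19))))) (XT.nd (nat_lit 59314) (nat_lit 0) (nat_lit 0) (XT.nd (nat_lit 59126) (nat_lit 84) (nat_lit 0) (XT.lf (nat_lit 0) (nat_lit 21735319627) (nat_lit 1260) (nat_lit 221979182927) (nat_lit 1344) (nat_lit 87185643342) (nat_lit 162) (nat_lit 5) (nat_lit 177) (nat_lit 5) (nat_lit 178) (nat_lit 5) (nat_lit 465) (nat_lit 462) (nat_lit 18)) (XT.nd (nat_lit 94) (nat_lit 0) (nat_lit 0) (XT.lf (nat_lit 0) (nat_lit 3868220244) (nat_lit 0) (nat_lit 3868220244)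 (nat_lit 1260) (nat_lit 155215088790) (nat_lit 161) (nat_lit 5) (nat_lit 161) (nat_lit 3) (nat_lit 176) (nat_lit 3) (nat_lit 463) (nat_lit 463) (nat_lit 19)) (XT.lf (nat_lit 0) (nat_lit 17023441644) (nat_lit 1260) (nat_lit 179303745299) (nat_lit 1344) (nat_lit 134424862422) (nat_lit 161) (nat_lit 5) (nat_lit 176) (nat_lit 3) (nat_lit 177) (nat_lit 5) (nat_lit 464) (nat_lit 463) (nat_lit 18)))) (XT.nd (nat_lit 59314) (nat_lit 0) (nat_lit 0) (XT.nd (nat_lit 59220) (nat_lit 0) (nat_lit 0) (XT.lf (nat_lit 0) (nat_lit 18697095156) (nat_lit 1260) (nat_lit 36351596842) (nat_lit 1344) (nat_lit 280695520659) (nat_lit 161) (nat_lit 5) (nat_lit 176) (nat_lit 3) (nat_lit 177) (nat_lit 5) (nat_lit 465) (nat_lit 463) (nat_lit 17)) (XT.lf (nat_lit 0) (nat_lit 3984552402) (nat_lit 0) (nat_lit 3984552402) (nat_lit 1260) (nat_lit 159870952182) (nat_lit 161) (nat_lit 5) (nat_lit 161) (nat_lit 3) (nat_lit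 176) (nat_lit 3) (nat_lit 464) (nat_lit 464) (nat_lit 17))) (XT.nd (nat_lit 59314) (nat_lit 0) (nat_lit 0) (XT.lf (nat_lit 0) (nat_lit 17535248499) (nat_lit 1260) (nat_lit 184682262579) (nat_lit 1344) (nat_lit 138457064646) (nat_lit 161) (nat_lit 5) (nat_lit 176) (nat_lit 3) (nat_lit 177) (nat_lit 5) (nat_lit 465) (nat_lit 464) (nat_lit 16)) (XT.lf (nat_lit 0) (nat_lit 4104358133) (nat_lit 0) (nat_lit 4104358133) (nat_lit 1260) (nat_lit 164666525302) (nat_lit 161) (nat_lit 5) (nat_lit 161) (nat_lit 3) (nat_lit 176) (nat_lit 3) (nat_lit 465) (nat_lit 465) (nat_lit 15))))))))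

set_option maxRecDepth 10000000 in
noncomputable def Tp : PT := (PT.nd (nat_lit 3980900) (PT.nd (nat_lit 3150598) (PT.nd (nat_lit 2379986) (PT.nd (nat_lit 1727814) (PT.nd (nat_lit 1194364) pc0 pc1) (PT.nd (nat_lit 355790) pc2 pc3)) (PT.nd (nat_lit 473478) (PT.nd (nat_lit 237162) pc4 pc5) (PT.nd (nat_lit 177566) pc6 pc7))) (PT.nd (nat_lit 474230) (PT.nd (nat_lit 294690) (PT.nd (nat_lit 176156) pc8 pc9) (PT.nd (nat_lit 61476) pc10 pc11)) (PT.nd (nat_lit 234812) (PT.nd (nat_lit 117594) pc12 pc13) (PT.nd (nat_lit 60630) pc14 pc15)))) (PT.nd (nat_lit 533356) (PT.nd (nat_lit 295912) (PT.nd (nat_lit 176062) (PT.nd (nat_lit 115996) pc16 pc17) (PT.nd (nat_lit 59972) pc18 pc19)) (PT.nd (nat_lit 119098) (PT.nd (nat_lit 59596) pc20 pc21) (PT.nd (nat_lit 59220) pc22 pc23))) (PT.nd (nat_lit 238760) (PT.nd (nat_lit 117500) (PT.nd (nat_lit 58844) pc24 pc25) (PT.nd (nat_lit 60254) pc26 pc27)) (PT.nd (nat_lit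 290272) (PT.nd (nat_lit 118346) pc28 pc29) (PT.nd (nat_lit 177660) pc30 pc31)))))

set_option maxRecDepth 10000000 in
noncomputable def Tx : XT := (XT.nd (nat_lit 14870330) (nat_lit 0) (nat_lit 252) XT.nil (XT.nd (nat_lit 12754484) (nat_lit 0) (nat_lit 0) (XT.nd (nat_lit 4921088) (nat_lit 0) (nat_lit 840) (XT.nd (nat_lit 3256818) (nat_lit 0) (nat_lit 252) (XT.nd (nat_lit 2251864) (nat_lit 0) (nat_lit 0) (XT.nd (nat_lit 1601384) (nat_lit 0) (nat_lit 0) (XT.nd (nat_lit 1127248) (nat_lit 0) (nat_lit 0) (XT.nd (nat_lit 828234) (nat_lit 0) (nat_lit 0) (XT.nd (nat_lit 534014) (nat_lit 0) (nat_lit 0) (XT.nd (nat_lit 355978) (nat_lit 0) (nat_lit 0) xc0 xc1) (XT.nd (nat_lit 176062) (nat_lit 0) (nat_lit 0) xc2 xc3)) (XT.nd (nat_lit 178036) (nat_lit 0) (nat_lit 0) (XT.nd (nat_lit 61288) (nat_lit 0) (nat_lit 0) xc4 xc5) (XT.nd (nat_lit 60536) (nat_lit 0) (nat_lit 0) xc6 xc7))) (XT.nd (nat_lit 293092)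 (nat_lit 0) (nat_lit 0) (XT.nd (nat_lit 174464) (nat_lit 0) (nat_lit 0) (XT.nd (nat_lit 114868) (nat_lit 0) (nat_lit 0) xc8 xc9) (XT.nd (nat_lit 59408) (nat_lit 0) (nat_lit 0) xc10 xc11)) (XT.nd (nat_lit 117406) (nat_lit 0) (nat_lit 0) (XT.nd (nat_lit 58844) (nat_lit 0) (nat_lit 0) xc12 xc13) (XT.nd (nat_lit 5170) (nat_lit 0) (nat_lit 0) xc14 xc15)))) (XT.nd (nat_lit 355414) (nat_lit 0) (nat_lit 0) (XT.nd (nat_lit 178976) (nat_lit 0) (nat_lit 0) (XT.nd (nat_lit 116090) (nat_lit 0) (nat_lit 0) (XT.nd (nat_lit 58186) (nat_lit 0) (nat_lit 0) xc16 xc17) (XT.nd (nat_lit 57622) (nat_lit 0) (nat_lit 0) xc18 xc19)) (XT.nd (nat_lit 114398) (nat_lit 0) (nat_lit 0) (XT.nd (nat_lit 57340) (nat_lit 0) (nat_lit 0) xc20 xc21) (XT.nd (nat_lit 56776) (nat_lit 0) (nat_lit 168) xc22 xc23))) (XT.nd (nat_lit 173618) (nat_lit 0) (nat_lit 0) (XT.nd (nat_lit 61758) (nat_lit 0) (nat_lit 0) (XT.nd (nat_lit 56400)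 (nat_lit 0) (nat_lit 0) xc24 xc25) (XT.nd (nat_lit 55930) (nat_lit 0) (nat_lit 0) xc26 xc27)) (XT.nd (nat_lit 60818) (nat_lit 0) (nat_lit 0) (XT.nd (nat_lit 5170) (nat_lit 84) (nat_lit 0) xc28 xc29) (XT.nd (nat_lit 5170) (nat_lit 0) (nat_lit 0) xc30 xc31))))) (XT.nd (nat_lit 532510) (nat_lit 0) (nat_lit 84) (XT.nd (nat_lit 292622) (nat_lit 0) (nat_lit 84) (XT.nd (nat_lit 121636) (nat_lit 0) (nat_lit 0) (XT.nd (nat_lit 60818) (nat_lit 0) (nat_lit 0) (XT.nd (nat_lit 55648) (nat_lit 0) (nat_lit 252) xc32 xc33) (XT.nd (nat_lit 55554) (nat_lit 0) (nat_lit 84) xc34 xc35)) (XT.nd (nat_lit 110638) (nat_lit 0) (nat_lit 84) (XT.nd (nat_lit 55366) (nat_lit 0) (nat_lit 84) xc36 xc37) (XT.nd (nat_lit 5170) (nat_lit 420) (nat_lit 0) xc38 xc39))) (XT.nd (nat_lit 120226) (nat_lit 0) (nat_lit 0) (XT.nd (nat_lit 60160) (nat_lit 0) (nat_lit 0) (XT.nd (nat_lit 5170) (nat_lit 252) (nat_lit 0) xc40 xc41) (XT.nd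 (nat_lit 5170) (nat_lit 168) (nat_lit 0) xc42 xc43)) (XT.nd (nat_lit 59878) (nat_lit 0) (nat_lit 0) (XT.nd (nat_lit 5170) (nat_lit 0) (nat_lit 0) xc44 xc45) (XT.nd (nat_lit 54520) (nat_lit 0) (nat_lit 1092) xc46 xc47)))) (XT.nd (nat_lit 237444) (nat_lit 0) (nat_lit 0) (XT.nd (nat_lit 119098) (nat_lit 0) (nat_lit 0) (XT.nd (nat_lit 59596) (nat_lit 0) (nat_lit 0) (XT.nd (nat_lit 54426) (nat_lit 0) (nat_lit 840) xc48 xc49) (XT.nd (nat_lit 54238) (nat_lit 0) (nat_lit 840) xc50 xc51)) (XT.nd (nat_lit 59220) (nat_lit 0) (nat_lit 0) (XT.nd (nat_lit 54050) (nat_lit 0) (nat_lit 840) xc52 xc53) (XT.nd (nat_lit 53862) (nat_lit 0) (nat_lit 1092) xc54 xc55))) (XT.nd (nat_lit 117688) (nat_lit 0) (nat_lit 84) (XT.nd (nat_lit 58844) (nat_lit 0) (nat_lit 84) (XT.nd (nat_lit 53674) (nat_lit 0) (nat_lit 1176) xc56 xc57) (XT.nd (nat_lit 53580) (nat_lit 0) (nat_lit 1428) xc58 xc59)) (XT.nd (nat_lit 58750)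 (nat_lit 0) (nat_lit 0) (XT.nd (nat_lit 53486) (nat_lit 0) (nat_lit 2016) xc60 xc61) (XT.nd (nat_lit 5170) (nat_lit 84) (nat_lit 0) xc62 xc63)))))) (XT.nd (nat_lit 826824) (nat_lit 0) (nat_lit 252) (XT.nd (nat_lit 415856) (nat_lit 0) (nat_lit 84) (XT.nd (nat_lit 232650) (nat_lit 0) (nat_lit 84) (XT.nd (nat_lit 116654) (nat_lit 0) (nat_lit 0) (XT.nd (nat_lit 58374) (nat_lit 0) (nat_lit 0) (XT.nd (nat_lit 5170) (nat_lit 84) (nat_lit 0) xc64 xc65) (XT.nd (nat_lit 5170) (nat_lit 336) (nat_lit 0) xc66 xc67)) (XT.nd (nat_lit 57998) (nat_lit 0) (nat_lit 0) (XT.nd (nat_lit 5170) (nat_lit 588) (nat_lit 0) xc68 xc69) (XT.nd (nat_lit 5170) (nat_lit 1260) (nat_lit 0) xc70 xc71))) (XT.nd (nat_lit 68150) (nat_lit 0) (nat_lit 0) (XT.nd (nat_lit 10340) (nat_lit 0) (nat_lit 0) (XT.nd (nat_lit 5170) (nat_lit 2268) (nat_lit 0) xc72 xc73) (XT.nd (nat_lit 52546) (nat_lit 0) (nat_lit 336) xc74 xc75)) (XT.nd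 (nat_lit 57528) (nat_lit 0) (nat_lit 0) (XT.nd (nat_lit 52358) (nat_lit 0) (nat_lit 924) xc76 xc77) (XT.nd (nat_lit 52264) (nat_lit 0) (nat_lit 2268) xc78 xc79)))) (XT.nd (nat_lit 181702) (nat_lit 0) (nat_lit 84) (XT.nd (nat_lit 114398) (nat_lit 0) (nat_lit 0) (XT.nd (nat_lit 57246) (nat_lit 0) (nat_lit 0) (XT.nd (nat_lit 5170) (nat_lit 0) (nat_lit 0) xc80 xc81) (XT.nd (nat_lit 5170) (nat_lit 504) (nat_lit 0) xc82 xc83)) (XT.nd (nat_lit 56870) (nat_lit 0) (nat_lit 336) (XT.nd (nat_lit 5170) (nat_lit 1680) (nat_lit 0) xc84 xc85) (XT.nd (nat_lit 5170) (nat_lit 4116) (nat_lit 0) xc86 xc87))) (XT.nd (nat_lit 114304) (nat_lit 0) (nat_lit 0) (XT.nd (nat_lit 57058) (nat_lit 0) (nat_lit 0) (XT.nd (nat_lit 51888) (nat_lit 0) (nat_lit 1176) xc88 xc89) (XT.nd (nat_lit 51982) (nat_lit 0) (nat_lit 3192) xc90 xc91)) (XT.nd (nat_lit 57434) (nat_lit 0) (nat_lit 0) (XT.nd (nat_lit 5170) (nat_lit 168) (nat_lit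 0) xc92 xc93) (XT.nd (nat_lit 5170) (nat_lit 756) (nat_lit 0) xc94 xc95))))) (XT.nd (nat_lit 416044) (nat_lit 0) (nat_lit 168) (XT.nd (nat_lit 183582) (nat_lit 0) (nat_lit 84) (XT.nd (nat_lit 67962) (nat_lit 0) (nat_lit 84) (XT.nd (nat_lit 57528) (nat_lit 0) (nat_lit 168) (XT.nd (nat_lit 5170) (nat_lit 1680) (nat_lit 0) xc96 xc97) (XT.nd (nat_lit 5170) (nat_lit 3444) (nat_lit 0) xc98 xc99)) (XT.nd (nat_lit 57716) (nat_lit 0) (nat_lit 0) (XT.nd (nat_lit 52546) (nat_lit 0) (nat_lit 672) xc100 xc101) (XT.nd (nat_lit 52640) (nat_lit 0) (nat_lit 1428) xc102 xc103))) (XT.nd (nat_lit 115996) (nat_lit 0) (nat_lit 0) (XT.nd (nat_lit 57904) (nat_lit 0) (nat_lit 0) (XT.nd (nat_lit 52734) (nat_lit 0) (nat_lit 2688) xc104 xc105) (XT.nd (nat_lit 52828) (nat_lit 0) (nat_lit 4536) xc106 xc107)) (XT.nd (nat_lit 58092) (nat_lit 0) (nat_lit 0) (XT.nd (nat_lit 5170) (nat_lit 252) (nat_lit 0) xc108 xc109)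 (XT.nd (nat_lit 5170) (nat_lit 840) (nat_lit 0) xc110 xc111)))) (XT.nd (nat_lit 185932) (nat_lit 0) (nat_lit 0) (XT.nd (nat_lit 116936) (nat_lit 0) (nat_lit 0) (XT.nd (nat_lit 58374) (nat_lit 0) (nat_lit 0) (XT.nd (nat_lit 5170) (nat_lit 1344) (nat_lit 0) xc112 xc113) (XT.nd (nat_lit 5170) (nat_lit 2100) (nat_lit 0) xc114 xc115)) (XT.nd (nat_lit 58562) (nat_lit 0) (nat_lit 168) (XT.nd (nat_lit 5170) (nat_lit 3192) (nat_lit 0) xc116 xc117) (XT.nd (nat_lit 5170) (nat_lit 4200) (nat_lit 0) xc118 xc119))) (XT.nd (nat_lit 117500) (nat_lit 0) (nat_lit 168) (XT.nd (nat_lit 58656) (nat_lit 0) (nat_lit 0) (XT.nd (nat_lit 53486) (nat_lit 0) (nat_lit 420) xc120 xc121) (XT.nd (nat_lit 53580) (nat_lit 0) (nat_lit 588) xc122 xc123)) (XT.nd (nat_lit 58938) (nat_lit 0) (nat_lit 0) (XT.nd (nat_lit 53674) (nat_lit 0) (nat_lit 756) xc124 xc125) (XT.nd (nat_lit 53768) (nat_lit 0) (nat_lit 924) xc126 xc127)))))))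 (XT.nd (nat_lit 2130698) (nat_lit 0) (nat_lit 756) (XT.nd (nat_lit 1006270) (nat_lit 0) (nat_lit 588) (XT.nd (nat_lit 475264) (nat_lit 0) (nat_lit 252) (XT.nd (nat_lit 236880) (nat_lit 0) (nat_lit 84) (XT.nd (nat_lit 118252) (nat_lit 0) (nat_lit 0) (XT.nd (nat_lit 59032) (nat_lit 0) (nat_lit 0) (XT.nd (nat_lit 53862) (nat_lit 0) (nat_lit 1176) xc128 xc129) (XT.nd (nat_lit 53956) (nat_lit 0) (nat_lit 1344) xc130 xc131)) (XT.nd (nat_lit 59220) (nat_lit 0) (nat_lit 84) (XT.nd (nat_lit 54050) (nat_lit 0) (nat_lit 1344) xc132 xc133) (XT.nd (nat_lit 54144) (nat_lit 0) (nat_lit 1260) xc134 xc135))) (XT.nd (nat_lit 119004) (nat_lit 0) (nat_lit 0) (XT.nd (nat_lit 59408) (nat_lit 0) (nat_lit 0) (XT.nd (nat_lit 54238) (nat_lit 0) (nat_lit 1260) xc136 xc137) (XT.nd (nat_lit 54332) (nat_lit 0) (nat_lit 1260) xc138 xc139)) (XT.nd (nat_lit 59596) (nat_lit 0) (nat_lit 168) (XT.nd (nat_lit 54426) (nat_lit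 0) (nat_lit 1092) xc140 xc141) (XT.nd (nat_lit 54520) (nat_lit 0) (nat_lit 672) xc142 xc143)))) (XT.nd (nat_lit 289614) (nat_lit 0) (nat_lit 168) (XT.nd (nat_lit 119756) (nat_lit 0) (nat_lit 84) (XT.nd (nat_lit 59784) (nat_lit 0) (nat_lit 84) (XT.nd (nat_lit 54614) (nat_lit 0) (nat_lit 504) xc144 xc145) (XT.nd (nat_lit 54708) (nat_lit 0) (nat_lit 84) xc146 xc147)) (XT.nd (nat_lit 109698) (nat_lit 0) (nat_lit 0) (XT.nd (nat_lit 54802) (nat_lit 0) (nat_lit 0) xc148 xc149) (XT.nd (nat_lit 5170) (nat_lit 3612) (nat_lit 0) xc150 xc151))) (XT.nd (nat_lit 120508) (nat_lit 0) (nat_lit 0) (XT.nd (nat_lit 60160) (nat_lit 0) (nat_lit 0) (XT.nd (nat_lit 5170) (nat_lit 2268) (nat_lit 0) xc152 xc153) (XT.nd (nat_lit 5170) (nat_lit 1512) (nat_lit 0) xc154 xc155)) (XT.nd (nat_lit 60442) (nat_lit 0) (nat_lit 0) (XT.nd (nat_lit 5170) (nat_lit 924) (nat_lit 0) xc156 xc157) (XT.nd (nat_lit 5170) (nat_lit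 252) (nat_lit 0) xc158 xc159))))) (XT.nd (nat_lit 535424) (nat_lit 0) (nat_lit 168) (XT.nd (nat_lit 292434) (nat_lit 0) (nat_lit 0) (XT.nd (nat_lit 120978) (nat_lit 0) (nat_lit 0) (XT.nd (nat_lit 60442) (nat_lit 0) (nat_lit 0) (XT.nd (nat_lit 55272) (nat_lit 0) (nat_lit 2688) xc160 xc161) (XT.nd (nat_lit 55272) (nat_lit 0) (nat_lit 1344) xc162 xc163)) (XT.nd (nat_lit 60536) (nat_lit 0) (nat_lit 0) (XT.nd (nat_lit 55366) (nat_lit 0) (nat_lit 588) xc164 xc165) (XT.nd (nat_lit 55366) (nat_lit 0) (nat_lit 0) xc166 xc167))) (XT.nd (nat_lit 121448) (nat_lit 0) (nat_lit 0) (XT.nd (nat_lit 60630) (nat_lit 0) (nat_lit 0) (XT.nd (nat_lit 5170) (nat_lit 3360) (nat_lit 0) xc168 xc169) (XT.nd (nat_lit 5170) (nat_lit 1848) (nat_lit 0) xc170 xc171)) (XT.nd (nat_lit 60724) (nat_lit 0) (nat_lit 0) (XT.nd (nat_lit 5170) (nat_lit 588) (nat_lit 0) xc172 xc173) (XT.nd (nat_lit 55554) (nat_lit 0) (nat_lit 2940)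 xc174 xc175)))) (XT.nd (nat_lit 294126) (nat_lit 0) (nat_lit 0) (XT.nd (nat_lit 121730) (nat_lit 0) (nat_lit 0) (XT.nd (nat_lit 60818) (nat_lit 0) (nat_lit 0) (XT.nd (nat_lit 55648) (nat_lit 0) (nat_lit 1176) xc176 xc177) (XT.nd (nat_lit 55648) (nat_lit 0) (nat_lit 168) xc178 xc179)) (XT.nd (nat_lit 111390) (nat_lit 0) (nat_lit 0) (XT.nd (nat_lit 55648) (nat_lit 0) (nat_lit 0) xc180 xc181) (XT.nd (nat_lit 5170) (nat_lit 1932) (nat_lit 0) xc182 xc183))) (XT.nd (nat_lit 122012) (nat_lit 0) (nat_lit 0) (XT.nd (nat_lit 60912) (nat_lit 0) (nat_lit 0) (XT.nd (nat_lit 5170) (nat_lit 588) (nat_lit 0) xc184 xc185) (XT.nd (nat_lit 55836) (nat_lit 0) (nat_lit 2520) xc186 xc187)) (XT.nd (nat_lit 61100) (nat_lit 0) (nat_lit 0) (XT.nd (nat_lit 55836) (nat_lit 0) (nat_lit 756) xc188 xc189) (XT.nd (nat_lit 55836) (nat_lit 0) (nat_lit 0) xc190 xc191)))))) (XT.nd (nat_lit 1309420) (nat_lit 0) (nat_lit 2520)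 (XT.nd (nat_lit 593798) (nat_lit 0) (nat_lit 1008) (XT.nd (nat_lit 244870) (nat_lit 0) (nat_lit 0) (XT.nd (nat_lit 122388) (nat_lit 0) (nat_lit 0) (XT.nd (nat_lit 61100) (nat_lit 0) (nat_lit 168) (XT.nd (nat_lit 5170) (nat_lit 2772) (nat_lit 0) xc192 xc193) (XT.nd (nat_lit 5170) (nat_lit 840) (nat_lit 0) xc194 xc195)) (XT.nd (nat_lit 61194) (nat_lit 0) (nat_lit 0) (XT.nd (nat_lit 56024) (nat_lit 0) (nat_lit 2520) xc196 xc197) (XT.nd (nat_lit 56024) (nat_lit 0) (nat_lit 588) xc198 xc199))) (XT.nd (nat_lit 173430) (nat_lit 0) (nat_lit 168) (XT.nd (nat_lit 112048) (nat_lit 0) (nat_lit 168) (XT.nd (nat_lit 56024) (nat_lit 0) (nat_lit 0) xc200 xc201) (XT.nd (nat_lit 5170) (nat_lit 2016) (nat_lit 0) xc202 xc203)) (XT.nd (nat_lit 61382) (nat_lit 0) (nat_lit 588) (XT.nd (nat_lit 5264) (nat_lit 168) (nat_lit 0) xc204 xc205) (XT.nd (nat_lit 56964) (nat_lit 0) (nat_lit 0) xc206 xc207)))) (XT.nd (nat_lit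 302962) (nat_lit 0) (nat_lit 504) (XT.nd (nat_lit 124926) (nat_lit 0) (nat_lit 168) (XT.nd (nat_lit 62322) (nat_lit 0) (nat_lit 0) (XT.nd (nat_lit 5170) (nat_lit 2184) (nat_lit 0) xc208 xc209) (XT.nd (nat_lit 57340) (nat_lit 0) (nat_lit 924) xc210 xc211)) (XT.nd (nat_lit 115056) (nat_lit 0) (nat_lit 252) (XT.nd (nat_lit 57434) (nat_lit 0) (nat_lit 252) xc212 xc213) (XT.nd (nat_lit 57716) (nat_lit 0) (nat_lit 756) xc214 xc215))) (XT.nd (nat_lit 231898) (nat_lit 0) (nat_lit 420) (XT.nd (nat_lit 115714) (nat_lit 0) (nat_lit 168) (XT.nd (nat_lit 57810) (nat_lit 0) (nat_lit 168) xc216 xc217) (XT.nd (nat_lit 57998) (nat_lit 0) (nat_lit 0) xc218 xc219)) (XT.nd (nat_lit 63544) (nat_lit 0) (nat_lit 336) (XT.nd (nat_lit 5170) (nat_lit 840) (nat_lit 0) xc220 xc221) (XT.nd (nat_lit 58468) (nat_lit 0) (nat_lit 252) xc222 xc223))))) (XT.nd (nat_lit 1067276) (nat_lit 0) (nat_lit 4032) (XT.nd (nat_lit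 473948) (nat_lit 0) (nat_lit 1680) (XT.nd (nat_lit 235846) (nat_lit 0) (nat_lit 924) (XT.nd (nat_lit 117594) (nat_lit 0) (nat_lit 252) (XT.nd (nat_lit 58750) (nat_lit 0) (nat_lit 252) xc224 xc225) (XT.nd (nat_lit 59032) (nat_lit 0) (nat_lit 420) xc226 xc227)) (XT.nd (nat_lit 118722) (nat_lit 0) (nat_lit 336) (XT.nd (nat_lit 59314) (nat_lit 0) (nat_lit 0) xc228 xc229) (XT.nd (nat_lit 59596) (nat_lit 0) (nat_lit 0) xc230 xc231))) (XT.nd (nat_lit 239982) (nat_lit 0) (nat_lit 672) (XT.nd (nat_lit 119662) (nat_lit 0) (nat_lit 336) (XT.nd (nat_lit 59784) (nat_lit 0) (nat_lit 0) xc232 xc233) (XT.nd (nat_lit 60066) (nat_lit 0) (nat_lit 336) xc234 xc235)) (XT.nd (nat_lit 176156) (nat_lit 0) (nat_lit 840) (XT.nd (nat_lit 115526) (nat_lit 0) (nat_lit 504) xc236 xc237) (XT.nd (nat_lit 60630) (nat_lit 0) (nat_lit 0) xc238 xc239)))) (XT.nd (nat_lit 831994) (nat_lit 0) (nat_lit 3276) (XT.nd (nat_lit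 357200) (nat_lit 0) (nat_lit 1512) (XT.nd (nat_lit 178130) (nat_lit 0) (nat_lit 504) (XT.nd (nat_lit 61006) (nat_lit 0) (nat_lit 0) xc240 xc241) (XT.nd (nat_lit 61288) (nat_lit 0) (nat_lit 504) xc242 xc243)) (XT.nd (nat_lit 236692) (nat_lit 0) (nat_lit 504) (XT.nd (nat_lit 118252) (nat_lit 0) (nat_lit 0) xc244 xc245) (XT.nd (nat_lit 118816) (nat_lit 0) (nat_lit 588) xc246 xc247))) (XT.nd (nat_lit 712520) (nat_lit 0) (nat_lit 1848) (XT.nd (nat_lit 297040) (nat_lit 0) (nat_lit 1176) (XT.nd (nat_lit 119568) (nat_lit 0) (nat_lit 588) xc248 xc249) (XT.nd (nat_lit 178318) (nat_lit 0) (nat_lit 672) xc250 xc251)) (XT.nd (nat_lit 593516) (nat_lit 0) (nat_lit 0) (XT.nd (nat_lit 296194) (nat_lit 0) (nat_lit 0) xc252 xc253) (XT.nd (nat_lit 356730) (nat_lit 0) (nat_lit 0) xc254 xc255)))))))) XT.nil))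

set_option maxRecDepth 10000000 in
noncomputable def Te : XT := XT.nil

set_option maxRecDepth 10000000 in
noncomputable def Tz : ZL := (ZL.cons (nat_lit 84) (nat_lit 3) (nat_lit 92681202083883696299) (ZL.cons (nat_lit 168) (nat_lit 6) (nat_lit 182942007893172546468) (ZL.cons (nat_lit 252) (nat_lit 3) (nat_lit 90263623729873985653) (ZL.cons (nat_lit 336) (nat_lit 6) (nat_lit 178194260612057043540) (ZL.cons (nat_lit 420) (nat_lit 6) (nat_lit 175941008817902751688) (ZL.cons (nat_lit 504) (nat_lit 3) (nat_lit 87933626414131828123) (ZL.cons (nat_lit 588) (nat_lit 6) (nat_lit 173620159469923831076) (ZL.cons (nat_lit 672) (nat_lit 6) (nat_lit 171451017057404067214) (ZL.cons (nat_lit 756) (nat_lit 3) (nat_lit 85689704650236453296) (ZL.cons (nat_lit 840) (nat_lit 6) (nat_lit 169216800372508710436) (ZL.cons (nat_lit 924) (nat_lit 6) (nat_lit 167130443027744671946) (ZL.cons (nat_lit 1008) (nat_lit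 3) (nat_lit 83530460466818374507) (ZL.cons (nat_lit 1092) (nat_lit 6) (nat_lit 164981494962637712304) (ZL.cons (nat_lit 1176) (nat_lit 6) (nat_lit 162976705485362183670) (ZL.cons (nat_lit 1260) (nat_lit 3) (nat_lit 81454604153308313713) (ZL.cons (nat_lit 1344) (nat_lit 6) (nat_lit 161044800744014485468) (ZL.cons (nat_lit 1428) (nat_lit 6) (nat_lit 160911772323768389178) (ZL.cons (nat_lit 1512) (nat_lit 6) (nat_lit 158987441681680800076) (ZL.cons (nat_lit 1596) (nat_lit 3) (nat_lit 79460955220090130015) (ZL.cons (nat_lit 1680) (nat_lit 6) (nat_lit 157134534926394754456) (ZL.cons (nat_lit 1764) (nat_lit 6) (nat_lit 157005381120330583298) (ZL.cons (nat_lit 1848) (nat_lit 6) (nat_lit 155160509726949587420) (ZL.cons (nat_lit 1932) (nat_lit 3) (nat_lit 77548443581192978154) (ZL.cons (nat_lit 2016) (nat_lit 6) (nat_lit 153385684236489657934) (ZL.cons (nat_lit 2100) (nat_lit 6) (nat_lit 153260292191767161666)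 (ZL.cons (nat_lit 2184) (nat_lit 6) (nat_lit 151679353830561072568) (ZL.cons (nat_lit 2268) (nat_lit 6) (nat_lit 151493991416752299450) (ZL.cons (nat_lit 2352) (nat_lit 3) (nat_lit 75716110968296717147) (ZL.cons (nat_lit 2436) (nat_lit 6) (nat_lit 149796441467732133376) (ZL.cons (nat_lit 2520) (nat_lit 6) (nat_lit 149674701618486991370) (ZL.cons (nat_lit 2604) (nat_lit 6) (nat_lit 148166159048634704074) (ZL.cons (nat_lit 2688) (nat_lit 6) (nat_lit 147986195540082497164) (ZL.cons (nat_lit 2772) (nat_lit 3) (nat_lit 73963112585498110157) (ZL.cons (nat_lit 2856) (nat_lit 6) (nat_lit 146365228307719209886) (ZL.cons (nat_lit 2940) (nat_lit 6) (nat_lit 146247034279325868132) (ZL.cons (nat_lit 3024) (nat_lit 6) (nat_lit 144810383542262054820) (ZL.cons (nat_lit 3108) (nat_lit 6) (nat_lit 144635661689298747140) (ZL.cons (nat_lit 3192) (nat_lit 3) (nat_lit 72288719014995841118) (ZL.cons (nat_lit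 3276) (nat_lit 6) (nat_lit 143320302641488787850) (ZL.cons (nat_lit 3360) (nat_lit 6) (nat_lit 143090699405447843348) (ZL.cons (nat_lit 3444) (nat_lit 6) (nat_lit 142975947921570812518) (ZL.cons (nat_lit 3528) (nat_lit 6) (nat_lit 141610797460729015190) (ZL.cons (nat_lit 3612) (nat_lit 6) (nat_lit 141441164593774347538) (ZL.cons (nat_lit 3696) (nat_lit 3) (nat_lit 70692318384602190806) (ZL.cons (nat_lit 3780) (nat_lit 6) (nat_lit 140194662736938139420) (ZL.cons (nat_lit 3864) (nat_lit 6) (nat_lit 139971746973791591358) (ZL.cons (nat_lit 3948) (nat_lit 6) (nat_lit 139860337766143988610) (ZL.cons (nat_lit 4032) (nat_lit 6) (nat_lit 138841057834802000704) (ZL.cons (nat_lit 4116) (nat_lit 6) (nat_lit 138566411104478869722) (ZL.cons (nat_lit 4200) (nat_lit 6) (nat_lit 138401719000639386564) (ZL.cons (nat_lit 4284) (nat_lit 3) (nat_lit 69173418808780874871) (ZL.cons (nat_lit 4368) (nat_lit 6)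 (nat_lit 137223929022455229766) (ZL.cons (nat_lit 4452) (nat_lit 6) (nat_lit 137007505951439163688) (ZL.cons (nat_lit 4536) (nat_lit 6) (nat_lit 136899341672169646456) (ZL.cons (nat_lit 4620) (nat_lit 6) (nat_lit 135943127685124728506) (ZL.cons (nat_lit 4704) (nat_lit 6) (nat_lit 135676480374131397456) (ZL.cons (nat_lit 4788) (nat_lit 6) (nat_lit 135516585127685297304) (ZL.cons (nat_lit 4872) (nat_lit 3) (nat_lit 67731651115746708447) (ZL.cons (nat_lit 4956) (nat_lit 6) (nat_lit 134722887945687756764) (ZL.cons (nat_lit 5040) (nat_lit 6) (nat_lit 134407479236658246130) (ZL.cons (nat_lit 5124) (nat_lit 6) (nat_lit 134197359750234881006) (ZL.cons (nat_lit 5208) (nat_lit 6) (nat_lit 134092345886866417676) (ZL.cons (nat_lit 5292) (nat_lit 6) (nat_lit 133199393703074344820) (ZL.cons (nat_lit 5376) (nat_lit 6) (nat_lit 132940512818614800112) (ZL.cons (nat_lit 5460) (nat_lit 6) (nat_lit 132785274715269071810)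 (ZL.cons (nat_lit 5544) (nat_lit 3) (nat_lit 66366771874046244445) (ZL.cons (nat_lit 5628) (nat_lit 6) (nat_lit 132051168164661027984) (ZL.cons (nat_lit 5712) (nat_lit 6) (nat_lit 131744946117059561348) (ZL.cons (nat_lit 5796) (nat_lit 6) (nat_lit 131540946615677653462) (ZL.cons (nat_lit 5880) (nat_lit 6) (nat_lit 131438991408523805570) (ZL.cons (nat_lit 5964) (nat_lit 6) (nat_lit 130961799317549779132) (ZL.cons (nat_lit 6048) (nat_lit 6) (nat_lit 130609614975635766934) (ZL.cons (nat_lit 6132) (nat_lit 6) (nat_lit 130358274311111937120) (ZL.cons (nat_lit 6216) (nat_lit 6) (nat_lit 130207557705921909644) (ZL.cons (nat_lit 6300) (nat_lit 3) (nat_lit 65078666732972322336) (ZL.cons (nat_lit 6384) (nat_lit 6) (nat_lit 129533527357423726176) (ZL.cons (nat_lit 6468) (nat_lit 6) (nat_lit 129236224398587350800) (ZL.cons (nat_lit 6552) (nat_lit 6) (nat_lit 129038166630255401396) (ZL.cons (nat_lit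 6636) (nat_lit 6) (nat_lit 128939180992241956840) (ZL.cons (nat_lit 6720) (nat_lit 6) (nat_lit 128515742991689079034) (ZL.cons (nat_lit 6804) (nat_lit 6) (nat_lit 128173816446141494380) (ZL.cons (nat_lit 6888) (nat_lit 6) (nat_lit 127929796383496999414) (ZL.cons (nat_lit 6972) (nat_lit 6) (nat_lit 127783469582341632930) (ZL.cons (nat_lit 7056) (nat_lit 3) (nat_lit 63867354092152726673) (ZL.cons (nat_lit 7140) (nat_lit 6) (nat_lit 127555372552287008832) (ZL.cons (nat_lit 7224) (nat_lit 6) (nat_lit 127170122136146017106) (ZL.cons (nat_lit 7308) (nat_lit 6) (nat_lit 126881478486790312862) (ZL.cons (nat_lit 7392) (nat_lit 6) (nat_lit 126689189391322400816) (ZL.cons (nat_lit 7476) (nat_lit 6) (nat_lit 126593086830144299304) (ZL.cons (nat_lit 7560) (nat_lit 6) (nat_lit 126224264454155291866) (ZL.cons (nat_lit 7644) (nat_lit 6) (nat_lit 125892296934206180550) (ZL.cons (nat_lit 7728) (nat_lit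 6) (nat_lit 125655384252027059226) (ZL.cons (nat_lit 7812) (nat_lit 6) (nat_lit 125513319396536412152) (ZL.cons (nat_lit 7896) (nat_lit 3) (nat_lit 62732989116697245112) (ZL.cons (nat_lit 7980) (nat_lit 6) (nat_lit 125335416922583113172) (ZL.cons (nat_lit 8064) (nat_lit 6) (nat_lit 124961387392349140624) (ZL.cons (nat_lit 8148) (nat_lit 6) (nat_lit 124681150839576612228) (ZL.cons (nat_lit 8232) (nat_lit 6) (nat_lit 124494462397374755876) (ZL.cons (nat_lit 8316) (nat_lit 6) (nat_lit 124401158939920288386) (ZL.cons (nat_lit 8400) (nat_lit 6) (nat_lit 124502802878537816010) (ZL.cons (nat_lit 8484) (nat_lit 6) (nat_lit 124087936445114657800) (ZL.cons (nat_lit 8568) (nat_lit 6) (nat_lit 123765637882057268172) (ZL.cons (nat_lit 8652) (nat_lit 6) (nat_lit 123535625569262004748) (ZL.cons (nat_lit 8736) (nat_lit 6) (nat_lit 123397698525096327980) (ZL.cons (nat_lit 8820) (nat_lit 3) (nat_lit 61675868115391891209)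 (ZL.cons (nat_lit 8904) (nat_lit 6) (nat_lit 123725694795184797698) (ZL.cons (nat_lit 8988) (nat_lit 6) (nat_lit 123271180882937187386) (ZL.cons (nat_lit 9072) (nat_lit 6) (nat_lit 122908045416690612096) (ZL.cons (nat_lit 9156) (nat_lit 6) (nat_lit 122635971093610487440) (ZL.cons (nat_lit 9240) (nat_lit 6) (nat_lit 122454720178851403600) (ZL.cons (nat_lit 9324) (nat_lit 6) (nat_lit 122364134297827648760) (ZL.cons (nat_lit 9408) (nat_lit 6) (nat_lit 122510407035908030626) (ZL.cons (nat_lit 9492) (nat_lit 6) (nat_lit 122107624090837003234) (ZL.cons (nat_lit 9576) (nat_lit 6) (nat_lit 121794712864567692916) (ZL.cons (nat_lit 9660) (nat_lit 6) (nat_lit 121571399939523747844) (ZL.cons (nat_lit 9744) (nat_lit 6) (nat_lit 121437490187906585932) (ZL.cons (nat_lit 9828) (nat_lit 3) (nat_lit 60696433300597688327) (ZL.cons (nat_lit 9912) (nat_lit 6) (nat_lit 121804950150180268830) (ZL.cons (nat_lit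 9996) (nat_lit 6) (nat_lit 121363674507221423868) (ZL.cons (nat_lit 10080) (nat_lit 6) (nat_lit 121011115802127661448) (ZL.cons (nat_lit 10164) (nat_lit 6) (nat_lit 120746965973894530714) (ZL.cons (nat_lit 10248) (nat_lit 6) (nat_lit 120570994211992507570) (ZL.cons (nat_lit 10332) (nat_lit 6) (nat_lit 120483046754687891220) (ZL.cons (nat_lit 10416) (nat_lit 6) (nat_lit 121154193807115887458) (ZL.cons (nat_lit 10500) (nat_lit 6) (nat_lit 120675546612809646794) (ZL.cons (nat_lit 10584) (nat_lit 6) (nat_lit 120284495209828066804) (ZL.cons (nat_lit 10668) (nat_lit 6) (nat_lit 119980697902770483968) (ZL.cons (nat_lit 10752) (nat_lit 6) (nat_lit 119763889237679275162) (ZL.cons (nat_lit 10836) (nat_lit 6) (nat_lit 119633879770089797580) (ZL.cons (nat_lit 10920) (nat_lit 3) (nat_lit 59795277949748195254) (ZL.cons (nat_lit 11004) (nat_lit 6) (nat_lit 120557569384667548696) (ZL.cons (nat_lit 11088)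 (nat_lit 6) (nat_lit 120042639130800729680) (ZL.cons (nat_lit 11172) (nat_lit 6) (nat_lit 119614216176471753988) (ZL.cons (nat_lit 11256) (nat_lit 6) (nat_lit 119271926171526353582) (ZL.cons (nat_lit 11340) (nat_lit 6) (nat_lit 119015470027610692674) (ZL.cons (nat_lit 11424) (nat_lit 6) (nat_lit 118844623656832029430) (ZL.cons (nat_lit 11508) (nat_lit 6) (nat_lit 118759237775953761126) (ZL.cons (nat_lit 11592) (nat_lit 6) (nat_lit 120014555560524375358) (ZL.cons (nat_lit 11676) (nat_lit 6) (nat_lit 119464399035239519108) (ZL.cons (nat_lit 11760) (nat_lit 6) (nat_lit 118999693021349965064) (ZL.cons (nat_lit 11844) (nat_lit 6) (nat_lit 118620031465057168956) (ZL.cons (nat_lit 11928) (nat_lit 6) (nat_lit 118325082623253690478) (ZL.cons (nat_lit 12012) (nat_lit 6) (nat_lit 118114588773650575132) (ZL.cons (nat_lit 12096) (nat_lit 6) (nat_lit 117988365989583121166) (ZL.cons (nat_lit 12180) (nat_lit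 3) (nat_lit 58973151989649129967) (ZL.cons (nat_lit 12264) (nat_lit 6) (nat_lit 118940321067790087802) (ZL.cons (nat_lit 12348) (nat_lit 6) (nat_lit 118440388782482496524) (ZL.cons (nat_lit 12432) (nat_lit 6) (nat_lit 118024444166629122064) (ZL.cons (nat_lit 12516) (nat_lit 6) (nat_lit 117692123773478247884) (ZL.cons (nat_lit 12600) (nat_lit 6) (nat_lit 117443137225987314968) (ZL.cons (nat_lit 12684) (nat_lit 6) (nat_lit 117277266963095408900) (ZL.cons (nat_lit 12768) (nat_lit 6) (nat_lit 117194368049621362006) (ZL.cons (nat_lit 12852) (nat_lit 6) (nat_lit 118469947296247868300) (ZL.cons (nat_lit 12936) (nat_lit 6) (nat_lit 117935814747427619514) (ZL.cons (nat_lit 13020) (nat_lit 6) (nat_lit 117484643860156207820) (ZL.cons (nat_lit 13104) (nat_lit 6) (nat_lit 117116040407444755288) (ZL.cons (nat_lit 13188) (nat_lit 6) (nat_lit 116829682308606426670) (ZL.cons (nat_lit 13272) (nat_lit 6)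 (nat_lit 116625319347826703032) (ZL.cons (nat_lit 13356) (nat_lit 6) (nat_lit 116502772955528204036) (ZL.cons (nat_lit 13440) (nat_lit 3) (nat_lit 58230968026169509187) (ZL.cons (nat_lit 13524) (nat_lit 6) (nat_lit 116600694684562950272) (ZL.cons (nat_lit 13608) (nat_lit 6) (nat_lit 116652354546737245160) (ZL.cons (nat_lit 13692) (nat_lit 6) (nat_lit 116755719410771229948) (ZL.cons (nat_lit 13776) (nat_lit 6) (nat_lit 116910879595478138218) (ZL.cons (nat_lit 13860) (nat_lit 6) (nat_lit 117117970677718393482) (ZL.cons (nat_lit 13944) (nat_lit 6) (nat_lit 117377173610864827030) (ZL.cons (nat_lit 14028) (nat_lit 6) (nat_lit 117688714882917275552) (ZL.cons (nat_lit 14112) (nat_lit 6) (nat_lit 118052866714404716914) (ZL.cons (nat_lit 14196) (nat_lit 6) (nat_lit 117485530026251790934) (ZL.cons (nat_lit 14280) (nat_lit 6) (nat_lit 117000158875467721732) (ZL.cons (nat_lit 14364) (nat_lit 6) (nat_lit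 116596329151338231966) (ZL.cons (nat_lit 14448) (nat_lit 6) (nat_lit 116273687992939324996) (ZL.cons (nat_lit 14532) (nat_lit 6) (nat_lit 116031953480812205656) (ZL.cons (nat_lit 14616) (nat_lit 6) (nat_lit 115870914390625889090) (ZL.cons (nat_lit 14700) (nat_lit 6) (nat_lit 115790430008612251326) (ZL.cons (nat_lit 14784) (nat_lit 3) (nat_lit 57900137579438091228) (ZL.cons (nat_lit 14868) (nat_lit 6) (nat_lit 115826486813082844396) (ZL.cons (nat_lit 14952) (nat_lit 6) (nat_lit 115905144679090001078) (ZL.cons (nat_lit 15036) (nat_lit 6) (nat_lit 116036317487071833516) (ZL.cons (nat_lit 15120) (nat_lit 6) (nat_lit 116220119854045024868) (ZL.cons (nat_lit 15204) (nat_lit 6) (nat_lit 116456712384019551702) (ZL.cons (nat_lit 15288) (nat_lit 6) (nat_lit 116746301808332284968) (ZL.cons (nat_lit 15372) (nat_lit 6) (nat_lit 117089141166286022202) (ZL.cons (nat_lit 15456) (nat_lit 6) (nat_lit 116570565876169275806)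 (ZL.cons (nat_lit 15540) (nat_lit 6) (nat_lit 116132535888527128532) (ZL.cons (nat_lit 15624) (nat_lit 6) (nat_lit 115774668458710184328) (ZL.cons (nat_lit 15708) (nat_lit 6) (nat_lit 115496650887022486636) (ZL.cons (nat_lit 15792) (nat_lit 6) (nat_lit 115298240245488774368) (ZL.cons (nat_lit 15876) (nat_lit 6) (nat_lit 115179263165587319034) (ZL.cons (nat_lit 15960) (nat_lit 3) (nat_lit 57569807843381433466) (ZL.cons (nat_lit 16044) (nat_lit 6) (nat_lit 115074828685432256164) (ZL.cons (nat_lit 16128) (nat_lit 6) (nat_lit 115128038343471779898) (ZL.cons (nat_lit 16212) (nat_lit 6) (nat_lit 115234504153426784230) (ZL.cons (nat_lit 16296) (nat_lit 6) (nat_lit 115394319143674899750) (ZL.cons (nat_lit 16380) (nat_lit 6) (nat_lit 115607622958382362672) (ZL.cons (nat_lit 16464) (nat_lit 6) (nat_lit 115874601979523189224) (ZL.cons (nat_lit 16548) (nat_lit 6) (nat_lit 116195489489737211202) (ZL.cons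 (nat_lit 16632) (nat_lit 6) (nat_lit 115724255362762386734) (ZL.cons (nat_lit 16716) (nat_lit 6) (nat_lit 115332187669432785022) (ZL.cons (nat_lit 16800) (nat_lit 6) (nat_lit 115018943826327050096) (ZL.cons (nat_lit 16884) (nat_lit 6) (nat_lit 114784250125232759476) (ZL.cons (nat_lit 16968) (nat_lit 6) (nat_lit 114627901493983908440) (ZL.cons (nat_lit 17052) (nat_lit 6) (nat_lit 114549761317271638768) (ZL.cons (nat_lit 17136) (nat_lit 3) (nat_lit 57198361687565125900) (ZL.cons (nat_lit 17220) (nat_lit 6) (nat_lit 114423721378963113594) (ZL.cons (nat_lit 17304) (nat_lit 6) (nat_lit 114504738980950484978) (ZL.cons (nat_lit 17388) (nat_lit 6) (nat_lit 114639846973171772392) (ZL.cons (nat_lit 17472) (nat_lit 6) (nat_lit 114829163411154159482) (ZL.cons (nat_lit 17556) (nat_lit 6) (nat_lit 115072853717027922122) (ZL.cons (nat_lit 17640) (nat_lit 6) (nat_lit 115371130824070037386) (ZL.cons (nat_lit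 17724) (nat_lit 6) (nat_lit 114945858991407758480) (ZL.cons (nat_lit 17808) (nat_lit 6) (nat_lit 114598414884789366046) (ZL.cons (nat_lit 17892) (nat_lit 6) (nat_lit 114328494912277038192) (ZL.cons (nat_lit 17976) (nat_lit 6) (nat_lit 114135863221467608804) (ZL.cons (nat_lit 18060) (nat_lit 6) (nat_lit 114020351493407943430) (ZL.cons (nat_lit 18144) (nat_lit 3) (nat_lit 56990929397760062930) (ZL.cons (nat_lit 18228) (nat_lit 6) (nat_lit 113791578362973654792) (ZL.cons (nat_lit 18312) (nat_lit 6) (nat_lit 113846384310754364236) (ZL.cons (nat_lit 18396) (nat_lit 6) (nat_lit 113956044095008018702) (ZL.cons (nat_lit 18480) (nat_lit 6) (nat_lit 114120653534963577686) (ZL.cons (nat_lit 18564) (nat_lit 6) (nat_lit 114340356464112264494) (ZL.cons (nat_lit 18648) (nat_lit 6) (nat_lit 114615344855887315846) (ZL.cons (nat_lit 18732) (nat_lit 6) (nat_lit 114234696609936246218) (ZL.cons (nat_lit 18816)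 (nat_lit 6) (nat_lit 113930576373911260856) (ZL.cons (nat_lit 18900) (nat_lit 6) (nat_lit 113702718411683794234) (ZL.cons (nat_lit 18984) (nat_lit 6) (nat_lit 113550923624063550508) (ZL.cons (nat_lit 19068) (nat_lit 6) (nat_lit 113475059374828337236) (ZL.cons (nat_lit 19152) (nat_lit 3) (nat_lit 56615528468764133531) (ZL.cons (nat_lit 19236) (nat_lit 6) (nat_lit 113258864881476114712) (ZL.cons (nat_lit 19320) (nat_lit 6) (nat_lit 113342313011523107238) (ZL.cons (nat_lit 19404) (nat_lit 6) (nat_lit 113481474243511033274) (ZL.cons (nat_lit 19488) (nat_lit 6) (nat_lit 113676470174632891976) (ZL.cons (nat_lit 19572) (nat_lit 6) (nat_lit 113927471189682867496) (ZL.cons (nat_lit 19656) (nat_lit 6) (nat_lit 113590146814325204940) (ZL.cons (nat_lit 19740) (nat_lit 6) (nat_lit 113328088588585080810) (ZL.cons (nat_lit 19824) (nat_lit 6) (nat_lit 113141067529546799850) (ZL.cons (nat_lit 19908) (nat_lit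 6) (nat_lit 113028920220751008226) (ZL.cons (nat_lit 19992) (nat_lit 3) (nat_lit 56495774334701806262) (ZL.cons (nat_lit 20076) (nat_lit 6) (nat_lit 112741667326624134054) (ZL.cons (nat_lit 20160) (nat_lit 6) (nat_lit 112798117452838264786) (ZL.cons (nat_lit 20244) (nat_lit 6) (nat_lit 112911067030619528882) (ZL.cons (nat_lit 20328) (nat_lit 6) (nat_lit 113080614753773754636) (ZL.cons (nat_lit 20412) (nat_lit 6) (nat_lit 113306908770796902050) (ZL.cons (nat_lit 20496) (nat_lit 6) (nat_lit 113011646405724100726) (ZL.cons (nat_lit 20580) (nat_lit 6) (nat_lit 112790425083173162258) (ZL.cons (nat_lit 20664) (nat_lit 6) (nat_lit 112643051502959333400) (ZL.cons (nat_lit 20748) (nat_lit 6) (nat_lit 112569396892051359346) (ZL.cons (nat_lit 20832) (nat_lit 3) (nat_lit 56147169863002431139) (ZL.cons (nat_lit 20916) (nat_lit 6) (nat_lit 112322981908271145360) (ZL.cons (nat_lit 21000) (nat_lit 6)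 (nat_lit 112408933482219547662) (ZL.cons (nat_lit 21084) (nat_lit 6) (nat_lit 112552269551167111476) (ZL.cons (nat_lit 21168) (nat_lit 6) (nat_lit 112753115360222625942) (ZL.cons (nat_lit 21252) (nat_lit 6) (nat_lit 112498689898339010280) (ZL.cons (nat_lit 21336) (nat_lit 6) (nat_lit 112317116054612523914) (ZL.cons (nat_lit 21420) (nat_lit 6) (nat_lit 112208235172286512626) (ZL.cons (nat_lit 21504) (nat_lit 3) (nat_lit 56085976056362967137) (ZL.cons (nat_lit 21588) (nat_lit 6) (nat_lit 111916491210841059246) (ZL.cons (nat_lit 21672) (nat_lit 6) (nat_lit 111974634840841613898) (ZL.cons (nat_lit 21756) (nat_lit 6) (nat_lit 112090972905956315918) (ZL.cons (nat_lit 21840) (nat_lit 6) (nat_lit 112265607060805168444) (ZL.cons (nat_lit 21924) (nat_lit 6) (nat_lit 112050829077746004884) (ZL.cons (nat_lit 22008) (nat_lit 6) (nat_lit 111907747931907336088) (ZL.cons (nat_lit 22092) (nat_lit 6) (nat_lit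 111836238600928720502) (ZL.cons (nat_lit 22176) (nat_lit 3) (nat_lit 55789145087250854158) (ZL.cons (nat_lit 22260) (nat_lit 6) (nat_lit 111607791622235979886) (ZL.cons (nat_lit 22344) (nat_lit 6) (nat_lit 111696321743402834256) (ZL.cons (nat_lit 22428) (nat_lit 6) (nat_lit 111843957894418824988) (ZL.cons (nat_lit 22512) (nat_lit 6) (nat_lit 111667672609247478998) (ZL.cons (nat_lit 22596) (nat_lit 6) (nat_lit 111561963014756205904) (ZL.cons (nat_lit 22680) (nat_lit 3) (nat_lit 55763368371669084335) (ZL.cons (nat_lit 22764) (nat_lit 6) (nat_lit 111308083283784446526) (ZL.cons (nat_lit 22848) (nat_lit 6) (nat_lit 111367971222685017814) (ZL.cons (nat_lit 22932) (nat_lit 6) (nat_lit 111487799429753160896) (ZL.cons (nat_lit 23016) (nat_lit 6) (nat_lit 111348885695929210608) (ZL.cons (nat_lit 23100) (nat_lit 6) (nat_lit 111279459160998515866) (ZL.cons (nat_lit 23184) (nat_lit 3) (nat_lit 55537623972207290219)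 (ZL.cons (nat_lit 23268) (nat_lit 6) (nat_lit 111105634435580880156) (ZL.cons (nat_lit 23352) (nat_lit 6) (nat_lit 111196820460382740156) (ZL.cons (nat_lit 23436) (nat_lit 6) (nat_lit 111094189786119368220) (ZL.cons (nat_lit 23520) (nat_lit 3) (nat_lit 55529994761303355356) (ZL.cons (nat_lit 23604) (nat_lit 6) (nat_lit 110909082155771592420) (ZL.cons (nat_lit 23688) (nat_lit 6) (nat_lit 110970766732839180850) (ZL.cons (nat_lit 23772) (nat_lit 6) (nat_lit 110903362329993846148) (ZL.cons (nat_lit 23856) (nat_lit 3) (nat_lit 55389071319273320818) (ZL.cons (nat_lit 23940) (nat_lit 6) (nat_lit 110809440724447930348) (ZL.cons (nat_lit 24024) (nat_lit 3) (nat_lit 55388118292557626577) (ZL.cons (nat_lit 24108) (nat_lit 6) (nat_lit 110712701470735637072) (ZL.cons (nat_lit 24192) (nat_lit 1) (nat_lit 18446744073709551617) ZL.nil))))))))))))))))))))))))))))))))))))))))))))))))))))))))))))))))))))))))))))))))))))))))))))))))))))))))))))))))))))))))))))))))))))))))))))))))))))))))))))))))))))))))))))))))))))))))))))))))))))))))))))))))))))))))))))))))))))))))))))))))))))))))))))))))))))))))))))))))))))))))))))))))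

noncomputable def vl : XL := ⟨(nat_lit 0), (nat_lit 84), (nat_lit 53607395), (nat_lit 168), (nat_lit 297650193), (nat_lit 168), (nat_lit 297650193), (nat_lit 1), (nat_lit 4), (nat_lit 2), (nat_lit 5), (nat_lit 2), (nat_lit 4), (nat_lit 0), (nat_lit 0), (nat_lit 0)⟩

noncomputable def cp0 : Nat := (nat_lit 15673111970209169326086166892078528584319009272660190089671003512665800704)

noncomputable def cp1 : Nat := (nat_lit 1063776164488376479449260022057983128070457172646488330314516448218047239976209365932610355530410610821159909437370253710740563951616512501333727492771691908281618819396400922348703550370979360549247127253073799586994767103078568421474497721053973852178457912806241512421716051198739003734802897450134886060126604342368886730353698532915157418370502996087164168294573111344675901119771999644805052968930632438439288222275852592394979114005248676863032483275781302560361019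2720255028316620585445496875294669443952647714189685877014140509360761125033593957104837385430266411762160921726824889556371826719097894698945938122804569888638424080896732057741033064166716199494055287346639832462422476816027221861086296547184792942976911163998861283119045000622407492350350230092347174460009552437393050467984563732670314984585784325906928064852967888800588654727959439442880018237672214579714491128883518258547593855783671551566338559656392514760200004740868850064105175856060876327771631443366089152819815851608144779419788638269858225170348579813978761320486674307952311830313092133804396611479431013791950672339399928001583618233308623592863022451073704716263393551483824540921714413270889140136305951021633800252362494845515973893408366787087665670861970544707507440263459706823040317509319374920941061342651617680852687834037191199536488316878979931978377875977659811820485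2266278139803217803342326588621952881696301911034385050978628073691622767543092158912888117234356899045311300345368285878843262216076586023405620377543099749393888467983447432301374318440960720452053520226510704932014638181578642917204373553840844752238228189580023447486116799754194683644798425454557598670485607912622306191882830464257260196115266833738466162896418927243446603631672212400207319583673740730957271972125152132212333553154450261901051838149444065252547353585852928036993575960427229326205765141278745987466719238644805303742722767621468523403091535783421757409215128080324463042689126358787631802169362068251253943233802340306279200796759344318274755939407883936656237218193826633374783286681946163091518161893957746082960267295701277432199666968327249828916579631718139461922680072797445563010929770073078920102895732150900588977443423451087029854255949380818564683318178483021903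8183721521603361853797450534620368717599581079236913725078090113850502659214747246121841743452107345410415748711136913558906837878350620870202172216908604372266634993687866349303696664818404445404192315571102316631056548666815266078015597856797903884584737437249860800948607548106146391750292728329393534846168313558725896786565553786927595450107039123216966912593211849285417939819960829102347017124487699912302514493593839971474572373347561978521012790350904010017804414507227715521950628978800905865308221020794338539689379725582773077081528735815125617952254558634738954011150976096881992831236100153130537629164874703665210590665320400803895275995758390777134875165635088224598082665172091280794590515613102806176904209580695854285831584639540955090344012782630216447427277855805194883786765193429465997697492712268680667066994724297127091243742979717969128293471663381252171400292749132044646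3837337641570208039681223947130995226112241319709481467209037754492545205161843391304359182255774725745923731250303398068549072003514121336903398749259717114951311239534704418148623229650366196980784970954317150797210223125172955274109681519587445982496819241386413407765085568854448264058858939956917621417671648758843448191032200668280847920771348776759027270763547736132788854875574100969476527230141302191715995380259431840911835890094954805448578630010704070118352500459450742921030150516841902190576239959113167245668117324546012582902946754421593543839671865281988499404563010044557885953695378340997105040784913400915728971057789867036164474712447052146594401663874111978627256277850626794739605790303574861136304583651582862413502740805107387381358610272015168563871338628986983218079022573387349484112526031789569782147422061575654578537140129885148848949604607515059947252543287492204780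4114107127276578778906686182144290620917643192347348855800461584319860513750672464451449749870561344800308759235185140908830991417713177736855244144653611048632451819408081251574786652070109881106887835448056315591853959053359711672093319722574506690758923273983619252886639991206082351536225333360021600796321763566919095994647588873163996507268388333195874351206403304991461832720684615628431615897316602936333050184115442892077266884881102623197393302448370010230115834622359753917755778398977608969939952235347978566059211390612556932168863849421368072823379307512579462715697224957840348405377416996993911873578866116573192411328554208614992972908994976768662759869400242342153665730362406124091004578364768399452054364528293722867577607137941716715949652041097113994104689354680820677550423671177148248715711553230227294535029037245995795067977952719617887032771816376330941909054992507294681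6084312036665260912643156722885181921364915329587397903195945084247649810806628082690124414988830597162470408613537288966760234724334342125486985018544349999849577056630295474840542901324891511896790230754376484037868553927902763692281231530760459933003713295794577604884666547150402723586538683300838344460891512993749445226207098530820542435214278572545811798141404075523992324107272360731893670474653842904713104877835461830378122065724161803908908450877500096823963315882457244182005590396568463759282707430414456554219640078499185140566097830210514912125035517370317607808256816928872416899083089896115897607438312422277755343007361012584725083887644923962998265416951690873958506849145161512611613318931050783987013525855112504320718451620796449574349850265040836135576981992168291273180602187071745825588340646992785612629391949644890872932500538425392170228104929892965300900339302627647860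3763126187474156440058822009414401497800053473969653935645324277226427030619057404236092214863599972844761689870749454511544730147470233499603780794244406733983821770435978838222482488555865008886355134408492808858617043886286808710710058548844437206904895884492629958819220906682570275796512542361228153293734797078974621054745659979041418889890892875386121055669660799814382501174497487450321532564384613975282395566883626396932427083060714372817144900389115949641837795636669794771605346934203793724469327592787464972773422932714219176833883616827037508112617164867941940281713201519957442059353583387688043384000586724177472299732966869877943761733719043412333842715442619279250600080704569975948191570148665870709745001564146519966820097799070170941381006861634162190316982101492048176490133880116180720306416812882049542648924250804986153770401107599939152656273459522098091086988386755602809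74711091542763478943618075806367661661463626139498327310971604833342843764847607027475320480013801232886080450310194547497071181472032536700326665169261811553982358787930304484980639273062443920456541703649727171562275804502944485483071150105054068535244941330342759477391764544843630181701918410098832529171670884177421003386610351749280303238674533662339784389746758475925956395519930501803577750248746904306694270901586204877667716929748565869548764640908626246979580753588554634193908947488341510357584370116100622442390521331557192400109568)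

noncomputable def rc0 : Nat := (nat_lit 1063776164488376479449260022057983128070457172646488330314516448218047239976209365932610355530410610821159909437370253710740563951616512501333727492771691908281618819396400922348703550370979360549247127253073799586994767103078568421474497721053973852178457912806241512421716051198739003734802897450134886060126604342368886730353698532915157418370502996087164168294573111344675901119771999644805052968930632438439288222275852592394979114005248676863032483275781302560361019272025502831662058544549687529466944395264771418968587701414050936076112503359395710483738543026641176216092172682488955637182671909789469894593812280456988863842408089673205774103306416671619949405528734663983246242247681602722186108629654718479294297691116399886128311904500062240749235035023009234717446000955243739305046798456373267031498458578432590692806485296788880058865472795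9439442880018237672214579714491128883518258547593855783671551566338559656392514760200004740868850064105175856060876327771631443366089152819815851608144779419788638269858225170348579813978761320486674307952311830313092133804396611479431013791950672339399928001583618233308623592863022451073704716263393551483824540921714413270889140136305951021633800252362494845515973893408366787087665670861970544707507440263459706823040317509319374920941061342651617680852687834037191199536488316878979931978377875977659811820485226627813980321780334232658862195288169630191103438505097862807369162276754309215891288811723435689904531130034536828587884326221607658602340562037754309974939388846798344743230137431844096072045205352022651070493201463818157864291720437355384084475223822818958002344748611679975419468364479842545455759867048560791262230619188283046425726019611526683373846616289641892724344660363167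2212400207319583673740730957271972125152132212333553154450261901051838149444065252547353585852928036993575960427229326205765141278745987466719238644805303742722767621468523403091535783421757409215128080324463042689126358787631802169362068251253943233802340306279200796759344318274755939407883936656237218193826633374783286681946163091518161893957746082960267295701277432199666968327249828916579631718139461922680072797445563010929770073078920102895732150900588977443423451087029854255949380818564683318178483021903818372152160336185379745053462036871759958107923691372507809011385050265921474724612184174345210734541041574871113691355890683787835062087020217221690860437226663499368786634930369666481840444540419231557110231663105654866681526607801559785679790388458473743724986080094860754810614639175029272832939353484616831355872589678656555378692759545010703912321696691259321184928541793981996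0829102347017124487699912302514493593839971474572373347561978521012790350904010017804414507227715521950628978800905865308221020794338539689379725582773077081528735815125617952254558634738954011150976096881992831236100153130537629164874703665210590665320400803895275995758390777134875165635088224598082665172091280794590515613102806176904209580695854285831584639540955090344012782630216447427277855805194883786765193429465997697492712268680667066994724297127091243742979717969128293471663381252171400292749132044646383733764157020803968122394713099522611224131970948146720903775449254520516184339130435918225577472574592373125030339806854907200351412133690339874925971711495131123953470441814862322965036619698078497095431715079721022312517295527410968151958744598249681924138641340776508556885444826405885893995691762141767164875884344819103220066828084792077134877675902727076354773613278885487557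4100969476527230141302191715995380259431840911835890094954805448578630010704070118352500459450742921030150516841902190576239959113167245668117324546012582902946754421593543839671865281988499404563010044557885953695378340997105040784913400915728971057789867036164474712447052146594401663874111978627256277850626794739605790303574861136304583651582862413502740805107387381358610272015168563871338628986983218079022573387349484112526031789569782147422061575654578537140129885148848949604607515059947252543287492204780411410712727657877890668618214429062091764319234734885580046158431986051375067246445144974987056134480030875923518514090883099141771317773685524414465361104863245181940808125157478665207010988110688783544805631559185395905335971167209331972257450669075892327398361925288663999120608235153622533336002160079632176356691909599464758887316399650726838833319587435120640330499146183272068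4615628431615897316602936333050184115442892077266884881102623197393302448370010230115834622359753917755778398977608969939952235347978566059211390612556932168863849421368072823379307512579462715697224957840348405377416996993911873578866116573192411328554208614992972908994976768662759869400242342153665730362406124091004578364768399452054364528293722867577607137941716715949652041097113994104689354680820677550423671177148248715711553230227294535029037245995795067977952719617887032771816376330941909054992507294681608431203666526091264315672288518192136491532958739790319594508424764981080662808269012441498883059716247040861353728896676023472433434212548698501854434999984957705663029547484054290132489151189679023075437648403786855392790276369228123153076045993300371329579457760488466654715040272358653868330083834446089151299374944522620709853082054243521427857254581179814140407552399232410727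2360731893670474653842904713104877835461830378122065724161803908908450877500096823963315882457244182005590396568463759282707430414456554219640078499185140566097830210514912125035517370317607808256816928872416899083089896115897607438312422277755343007361012584725083887644923962998265416951690873958506849145161512611613318931050783987013525855112504320718451620796449574349850265040836135576981992168291273180602187071745825588340646992785612629391949644890872932500538425392170228104929892965300900339302627647860376312618747415644005882200941440149780005347396965393564532427722642703061905740423609221486359997284476168987074945451154473014747023349960378079424440673398382177043597883822248248855586500888635513440849280885861704388628680871071005854884443720690489588449262995881922090668257027579651254236122815329373479707897462105474565997904141888989089287538612105566966079981438250117449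748745032153256438461397528239556688362639693242708306071437281714490038911594964183779563666979477160534693420379372446932759278746497277342293271421917683388361682703750811261716486794194028171320151995744205935358338768804338400058672417747229973296686987794376173371904341233384271544261927925060008070456997594819157014866587070974500156414651996682009779907017094138100686163416219031698210149204817649013388011618072030641681288204954264892425080498615377040110759993915265627345952209809108698838675560280974711091542763478943618075806367661661463626139498327310971604833342843764847607027475320480013801232886080450310194547497071181472032536700326665169261811553982358787930304484980639273062443920456541703649727171562275804502944485483071150105054068535244941330342759477391764544843630181701918410098832529171670884177421003386610351749280303238674533662339784389746758475925956395519930501803577750248746904306694270901586204877667716929748565869548764640908626246979580753588554634193908947488341510357584370116100622442390521331557192400109568)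

end Vale.Agent.Lib.P154.Chain.D5.S0
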