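import Vale.Agent.Lib.P154.Chain.D5.R1_1

set_option linter.all false

namespace Vale.Agent.Lib.P154.Chain.D5.S2

noncomputable def pc0 : PT := (PT.nd (nat_lit 1372118) (PT.nd (nat_lit 1194364) (PT.nd (nat_lit 1134862) (PT.nd (nat_lit 245998) (PT.nd (nat_lit 245904) (PT.nd (nat_lit 186684) PT.nil (PT.lf (nat_lit 84) (nat_lit 3) (nat_lit 1) (nat_lit 1) (nat_lit 93) (nat_lit 3) (nat_lit 93))) (PT.lf (nat_lit 168) (nat_lit 6) (nat_lit 2) (nat_lit 3) (nat_lit 92) (nat_lit 4) (nat_lit 93))) (PT.nd (nat_lit 829644) (PT.lf (nat_lit 168) (nat_lit 6) (nat_lit 2) (nat_lit 1) (nat_lit 93) (nat_lit 4) (nat_lit 92)) (PT.nd (nat_lit 94) (PT.lf (nat_lit 2100) (nat_lit 6) (nat_lit 25) (nat_lit 3) (nat_lit 85) (nat_lit 18) (nat_lit 86)) (PT.lf (nat_lit 2100) (nat_lit 6) (nat_lit 25) (nat_lit 1) (nat_lit 86) (nat_lit 18) (nat_lit 85))))) (PT.nd (nat_lit 59220) (PT.nd (nat_lit 94) (PT.lf (nat_lit 2268) (nat_lit 6)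 (nat_lit 27) (nat_lit 3) (nat_lit 84) (nat_lit 19) (nat_lit 86)) (PT.nd (nat_lit 94) (PT.lf (nat_lit 2352) (nat_lit 3) (nat_lit 28) (nat_lit 1) (nat_lit 85) (nat_lit 19) (nat_lit 85)) (PT.lf (nat_lit 2268) (nat_lit 6) (nat_lit 27) (nat_lit 1) (nat_lit 86) (nat_lit 19) (nat_lit 84)))) (PT.nd (nat_lit 94) (PT.lf (nat_lit 2436) (nat_lit 6) (nat_lit 29) (nat_lit 3) (nat_lit 83) (nat_lit 20) (nat_lit 86)) (PT.nd (nat_lit 94) (PT.lf (nat_lit 2520) (nat_lit 6) (nat_lit 30) (nat_lit 3) (nat_lit 84) (nat_lit 20) (nat_lit 85)) (PT.lf (nat_lit 2520) (nat_lit 6) (nat_lit 30) (nat_lit 1) (nat_lit 85) (nat_lit 20) (nat_lit 84)))))) (PT.nd (nat_lit 118346) (PT.nd (nat_lit 59126) (PT.nd (nat_lit 59032) (PT.lf (nat_lit 2436) (nat_lit 6) (nat_lit 29) (nat_lit 1) (nat_lit 86) (nat_lit 20) (nat_lit 83)) (PT.lf (nat_lit 2688) (nat_lit 6) (nat_lit 32) (nat_lit 3) (nat_lit 83) (nat_lit 21) (nat_lit 85))) (PT.nd (nat_lit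 94) (PT.lf (nat_lit 2772) (nat_lit 3) (nat_lit 33) (nat_lit 1) (nat_lit 84) (nat_lit 21) (nat_lit 84)) (PT.nd (nat_lit 59032) (PT.lf (nat_lit 2688) (nat_lit 6) (nat_lit 32) (nat_lit 1) (nat_lit 85) (nat_lit 21) (nat_lit 83)) (PT.lf (nat_lit 2856) (nat_lit 6) (nat_lit 34) (nat_lit 3) (nat_lit 82) (nat_lit 22) (nat_lit 85))))) (PT.nd (nat_lit 59126) (PT.nd (nat_lit 94) (PT.lf (nat_lit 2940) (nat_lit 6) (nat_lit 35) (nat_lit 3) (nat_lit 83) (nat_lit 22) (nat_lit 84)) (PT.nd (nat_lit 94) (PT.lf (nat_lit 2940) (nat_lit 6) (nat_lit 35) (nat_lit 1) (nat_lit 84) (nat_lit 22) (nat_lit 83)) (PT.lf (nat_lit 2856) (nat_lit 6) (nat_lit 34) (nat_lit 1) (nat_lit 85) (nat_lit 22) (nat_lit 82)))) (PT.nd (nat_lit 94) (PT.lf (nat_lit 3024) (nat_lit 6) (nat_lit 36) (nat_lit 3) (nat_lit 81) (nat_lit 23) (nat_lit 85)) (PT.nd (nat_lit 94) (PT.lf (nat_lit 3108) (nat_lit 6) (nat_lit 37) (nat_lit 3) (nat_lit 82) (nat_lit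 23) (nat_lit 84)) (PT.lf (nat_lit 3192) (nat_lit 3) (nat_lit 38) (nat_lit 1) (nat_lit 83) (nat_lit 23) (nat_lit 83))))))) (PT.nd (nat_lit 177472) (PT.nd (nat_lit 59314) (PT.nd (nat_lit 59032) (PT.nd (nat_lit 94) (PT.lf (nat_lit 3108) (nat_lit 6) (nat_lit 37) (nat_lit 1) (nat_lit 84) (nat_lit 23) (nat_lit 82)) (PT.lf (nat_lit 3024) (nat_lit 6) (nat_lit 36) (nat_lit 1) (nat_lit 85) (nat_lit 23) (nat_lit 81))) (PT.nd (nat_lit 94) (PT.lf (nat_lit 3360) (nat_lit 6) (nat_lit 40) (nat_lit 3) (nat_lit 81) (nat_lit 24) (nat_lit 84)) (PT.nd (nat_lit 94) (PT.lf (nat_lit 3444) (nat_lit 6) (nat_lit 41) (nat_lit 3) (nat_lit 82) (nat_lit 24) (nat_lit 83)) (PT.lf (nat_lit 3444) (nat_lit 6) (nat_lit 41) (nat_lit 1) (nat_lit 83) (nat_lit 24) (nat_lit 82))))) (PT.nd (nat_lit 59126) (PT.nd (nat_lit 58938) (PT.lf (nat_lit 3360) (nat_lit 6) (nat_lit 40) (nat_lit 1) (nat_lit 84) (nat_lit 24) (nat_lit 81)) (PT.nd (nat_lit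 94) (PT.lf (nat_lit 3528) (nat_lit 6) (nat_lit 42) (nat_lit 3) (nat_lit 80) (nat_lit 25) (nat_lit 84)) (PT.lf (nat_lit 3612) (nat_lit 6) (nat_lit 43) (nat_lit 3) (nat_lit 81) (nat_lit 25) (nat_lit 83)))) (PT.nd (nat_lit 94) (PT.lf (nat_lit 3696) (nat_lit 3) (nat_lit 44) (nat_lit 1) (nat_lit 82) (nat_lit 25) (nat_lit 82)) (PT.nd (nat_lit 94) (PT.lf (nat_lit 3612) (nat_lit 6) (nat_lit 43) (nat_lit 1) (nat_lit 83) (nat_lit 25) (nat_lit 81)) (PT.lf (nat_lit 3528) (nat_lit 6) (nat_lit 42) (nat_lit 1) (nat_lit 84) (nat_lit 25) (nat_lit 80)))))) (PT.nd (nat_lit 59314) (PT.nd (nat_lit 282) (PT.nd (nat_lit 94) (PT.lf (nat_lit 3780) (nat_lit 6) (nat_lit 45) (nat_lit 3) (nat_lit 79) (nat_lit 26) (nat_lit 84)) (PT.nd (nat_lit 94) (PT.lf (nat_lit 3864) (nat_lit 6) (nat_lit 46) (nat_lit 3) (nat_lit 80) (nat_lit 26) (nat_lit 83)) (PT.lf (nat_lit 3948) (nat_lit 6) (nat_lit 47) (nat_lit 3) (nat_lit 81) (nat_lit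 26) (nat_lit 82)))) (PT.nd (nat_lit 94) (PT.lf (nat_lit 3948) (nat_lit 6) (nat_lit 47) (nat_lit 1) (nat_lit 82) (nat_lit 26) (nat_lit 81)) (PT.nd (nat_lit 94) (PT.lf (nat_lit 3864) (nat_lit 6) (nat_lit 46) (nat_lit 1) (nat_lit 83) (nat_lit 26) (nat_lit 80)) (PT.lf (nat_lit 3780) (nat_lit 6) (nat_lit 45) (nat_lit 1) (nat_lit 84) (nat_lit 26) (nat_lit 79))))) (PT.nd (nat_lit 282) (PT.nd (nat_lit 94) (PT.lf (nat_lit 4116) (nat_lit 6) (nat_lit 49) (nat_lit 3) (nat_lit 79) (nat_lit 27) (nat_lit 83)) (PT.nd (nat_lit 94) (PT.lf (nat_lit 4200) (nat_lit 6) (nat_lit 50) (nat_lit 3) (nat_lit 80) (nat_lit 27) (nat_lit 82)) (PT.lf (nat_lit 4284) (nat_lit 3) (nat_lit 51) (nat_lit 1) (nat_lit 81) (nat_lit 27) (nat_lit 81)))) (PT.nd (nat_lit 94) (PT.lf (nat_lit 4200) (nat_lit 6) (nat_lit 50) (nat_lit 1) (nat_lit 82) (nat_lit 27) (nat_lit 80)) (PT.nd (nat_lit 58844) (PT.lf (nat_lit 4116) (nat_lit 6) (nat_lit 49)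 (nat_lit 1) (nat_lit 83) (nat_lit 27) (nat_lit 79)) (PT.lf (nat_lit 4368) (nat_lit 6) (nat_lit 52) (nat_lit 3) (nat_lit 78) (nat_lit 28) (nat_lit 83))))))))
noncomputable def pc1 : PT := (PT.nd (nat_lit 178036) (PT.nd (nat_lit 59690) (PT.nd (nat_lit 59126) (PT.nd (nat_lit 188) (PT.nd (nat_lit 94) (PT.lf (nat_lit 4452) (nat_lit 6) (nat_lit 53) (nat_lit 3) (nat_lit 79) (nat_lit 28) (nat_lit 82)) (PT.lf (nat_lit 4536) (nat_lit 6) (nat_lit 54) (nat_lit 3) (nat_lit 80) (nat_lit 28) (nat_lit 81))) (PT.nd (nat_lit 94) (PT.lf (nat_lit 4536) (nat_lit 6) (nat_lit 54) (nat_lit 1) (nat_lit 81) (nat_lit 28) (nat_lit 80)) (PT.nd (nat_lit 94) (PT.lf (nat_lit 4452) (nat_lit 6) (nat_lit 53) (nat_lit 1) (nat_lit 82) (nat_lit 28) (nat_lit 79)) (PT.lf (nat_lit 4368) (nat_lit 6) (nat_lit 52) (nat_lit 1) (nat_lit 83) (nat_lit 28) (nat_lit 78))))) (PT.nd (nat_lit 282) (PT.nd (nat_lit 94) (PT.lf (nat_lit 4620) (nat_lit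 6) (nat_lit 55) (nat_lit 3) (nat_lit 77) (nat_lit 29) (nat_lit 83)) (PT.nd (nat_lit 94) (PT.lf (nat_lit 4704) (nat_lit 6) (nat_lit 56) (nat_lit 3) (nat_lit 78) (nat_lit 29) (nat_lit 82)) (PT.lf (nat_lit 4788) (nat_lit 6) (nat_lit 57) (nat_lit 3) (nat_lit 79) (nat_lit 29) (nat_lit 81)))) (PT.nd (nat_lit 94) (PT.lf (nat_lit 4872) (nat_lit 3) (nat_lit 58) (nat_lit 1) (nat_lit 80) (nat_lit 29) (nat_lit 80)) (PT.nd (nat_lit 94) (PT.lf (nat_lit 4788) (nat_lit 6) (nat_lit 57) (nat_lit 1) (nat_lit 81) (nat_lit 29) (nat_lit 79)) (PT.lf (nat_lit 4704) (nat_lit 6) (nat_lit 56) (nat_lit 1) (nat_lit 82) (nat_lit 29) (nat_lit 78)))))) (PT.nd (nat_lit 59126) (PT.nd (nat_lit 58844) (PT.nd (nat_lit 58750) (PT.lf (nat_lit 4620) (nat_lit 6) (nat_lit 55) (nat_lit 1) (nat_lit 83) (nat_lit 29) (nat_lit 77)) (PT.lf (nat_lit 5040) (nat_lit 6) (nat_lit 60) (nat_lit 3) (nat_lit 77) (nat_lit 30) (nat_lit 82))) (PT.nd (nat_lit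 94) (PT.lf (nat_lit 5124) (nat_lit 6) (nat_lit 61) (nat_lit 3) (nat_lit 78) (nat_lit 30) (nat_lit 81)) (PT.nd (nat_lit 94) (PT.lf (nat_lit 5208) (nat_lit 6) (nat_lit 62) (nat_lit 3) (nat_lit 79) (nat_lit 30) (nat_lit 80)) (PT.lf (nat_lit 5208) (nat_lit 6) (nat_lit 62) (nat_lit 1) (nat_lit 80) (nat_lit 30) (nat_lit 79))))) (PT.nd (nat_lit 58938) (PT.nd (nat_lit 94) (PT.lf (nat_lit 5124) (nat_lit 6) (nat_lit 61) (nat_lit 1) (nat_lit 81) (nat_lit 30) (nat_lit 78)) (PT.nd (nat_lit 58750) (PT.lf (nat_lit 5040) (nat_lit 6) (nat_lit 60) (nat_lit 1) (nat_lit 82) (nat_lit 30) (nat_lit 77)) (PT.lf (nat_lit 5292) (nat_lit 6) (nat_lit 63) (nat_lit 3) (nat_lit 76) (nat_lit 31) (nat_lit 82)))) (PT.nd (nat_lit 94) (PT.lf (nat_lit 5376) (nat_lit 6) (nat_lit 64) (nat_lit 3) (nat_lit 77) (nat_lit 31) (nat_lit 81)) (PT.nd (nat_lit 94) (PT.lf (nat_lit 5460) (nat_lit 6) (nat_lit 65) (nat_lit 3) (nat_lit 78) (nat_lit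 31) (nat_lit 80)) (PT.lf (nat_lit 5544) (nat_lit 3) (nat_lit 66) (nat_lit 1) (nat_lit 79) (nat_lit 31) (nat_lit 79))))))) (PT.nd (nat_lit 118158) (PT.nd (nat_lit 59032) (PT.nd (nat_lit 188) (PT.nd (nat_lit 94) (PT.lf (nat_lit 5460) (nat_lit 6) (nat_lit 65) (nat_lit 1) (nat_lit 80) (nat_lit 31) (nat_lit 78)) (PT.lf (nat_lit 5376) (nat_lit 6) (nat_lit 64) (nat_lit 1) (nat_lit 81) (nat_lit 31) (nat_lit 77))) (PT.nd (nat_lit 58656) (PT.lf (nat_lit 5292) (nat_lit 6) (nat_lit 63) (nat_lit 1) (nat_lit 82) (nat_lit 31) (nat_lit 76)) (PT.nd (nat_lit 94) (PT.lf (nat_lit 5628) (nat_lit 6) (nat_lit 67) (nat_lit 3) (nat_lit 75) (nat_lit 32) (nat_lit 82)) (PT.lf (nat_lit 5712) (nat_lit 6) (nat_lit 68) (nat_lit 3) (nat_lit 76) (nat_lit 32) (nat_lit 81))))) (PT.nd (nat_lit 282) (PT.nd (nat_lit 94) (PT.lf (nat_lit 5796) (nat_lit 6) (nat_lit 69) (nat_lit 3) (nat_lit 77) (nat_lit 32) (nat_lit 80)) (PT.nd (nat_lit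 94) (PT.lf (nat_lit 5880) (nat_lit 6) (nat_lit 70) (nat_lit 3) (nat_lit 78) (nat_lit 32) (nat_lit 79)) (PT.lf (nat_lit 5880) (nat_lit 6) (nat_lit 70) (nat_lit 1) (nat_lit 79) (nat_lit 32) (nat_lit 78)))) (PT.nd (nat_lit 94) (PT.lf (nat_lit 5796) (nat_lit 6) (nat_lit 69) (nat_lit 1) (nat_lit 80) (nat_lit 32) (nat_lit 77)) (PT.nd (nat_lit 94) (PT.lf (nat_lit 5712) (nat_lit 6) (nat_lit 68) (nat_lit 1) (nat_lit 81) (nat_lit 32) (nat_lit 76)) (PT.lf (nat_lit 5628) (nat_lit 6) (nat_lit 67) (nat_lit 1) (nat_lit 82) (nat_lit 32) (nat_lit 75)))))) (PT.nd (nat_lit 564) (PT.nd (nat_lit 282) (PT.nd (nat_lit 94) (PT.lf (nat_lit 6048) (nat_lit 6) (nat_lit 72) (nat_lit 3) (nat_lit 75) (nat_lit 33) (nat_lit 81)) (PT.nd (nat_lit 94) (PT.lf (nat_lit 6132) (nat_lit 6) (nat_lit 73) (nat_lit 3) (nat_lit 76) (nat_lit 33) (nat_lit 80)) (PT.lf (nat_lit 6216) (nat_lit 6) (nat_lit 74) (nat_lit 3) (nat_lit 77) (nat_lit 33)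 (nat_lit 79)))) (PT.nd (nat_lit 94) (PT.lf (nat_lit 6300) (nat_lit 3) (nat_lit 75) (nat_lit 1) (nat_lit 78) (nat_lit 33) (nat_lit 78)) (PT.nd (nat_lit 94) (PT.lf (nat_lit 6216) (nat_lit 6) (nat_lit 74) (nat_lit 1) (nat_lit 79) (nat_lit 33) (nat_lit 77)) (PT.lf (nat_lit 6132) (nat_lit 6) (nat_lit 73) (nat_lit 1) (nat_lit 80) (nat_lit 33) (nat_lit 76))))) (PT.nd (nat_lit 58844) (PT.nd (nat_lit 58656) (PT.lf (nat_lit 6048) (nat_lit 6) (nat_lit 72) (nat_lit 1) (nat_lit 81) (nat_lit 33) (nat_lit 75)) (PT.nd (nat_lit 94) (PT.lf (nat_lit 6384) (nat_lit 6) (nat_lit 76) (nat_lit 3) (nat_lit 74) (nat_lit 34) (nat_lit 81)) (PT.lf (nat_lit 6468) (nat_lit 6) (nat_lit 77) (nat_lit 3) (nat_lit 75) (nat_lit 34) (nat_lit 80)))) (PT.nd (nat_lit 94) (PT.lf (nat_lit 6552) (nat_lit 6) (nat_lit 78) (nat_lit 3) (nat_lit 76) (nat_lit 34) (nat_lit 79)) (PT.nd (nat_lit 94) (PT.lf (nat_lit 6636) (nat_lit 6) (nat_lit 79)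 (nat_lit 3) (nat_lit 77) (nat_lit 34) (nat_lit 78)) (PT.lf (nat_lit 6636) (nat_lit 6) (nat_lit 79) (nat_lit 1) (nat_lit 78) (nat_lit 34) (nat_lit 77))))))))
noncomputable def pc2 : PT := (PT.nd (nat_lit 177284) (PT.nd (nat_lit 59502) (PT.nd (nat_lit 58938) (PT.nd (nat_lit 188) (PT.nd (nat_lit 94) (PT.lf (nat_lit 6552) (nat_lit 6) (nat_lit 78) (nat_lit 1) (nat_lit 79) (nat_lit 34) (nat_lit 76)) (PT.lf (nat_lit 6468) (nat_lit 6) (nat_lit 77) (nat_lit 1) (nat_lit 80) (nat_lit 34) (nat_lit 75))) (PT.nd (nat_lit 58562) (PT.lf (nat_lit 6384) (nat_lit 6) (nat_lit 76) (nat_lit 1) (nat_lit 81) (nat_lit 34) (nat_lit 74)) (PT.nd (nat_lit 94) (PT.lf (nat_lit 6720) (nat_lit 6) (nat_lit 80) (nat_lit 3) (nat_lit 73) (nat_lit 35) (nat_lit 81)) (PT.lf (nat_lit 6804) (nat_lit 6) (nat_lit 81) (nat_lit 3) (nat_lit 74) (nat_lit 35) (nat_lit 80))))) (PT.nd (nat_lit 282) (PT.nd (nat_lit 94) (PT.lf (nat_lit 6888) (nat_lit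 6) (nat_lit 82) (nat_lit 3) (nat_lit 75) (nat_lit 35) (nat_lit 79)) (PT.nd (nat_lit 94) (PT.lf (nat_lit 6972) (nat_lit 6) (nat_lit 83) (nat_lit 3) (nat_lit 76) (nat_lit 35) (nat_lit 78)) (PT.lf (nat_lit 7056) (nat_lit 3) (nat_lit 84) (nat_lit 1) (nat_lit 77) (nat_lit 35) (nat_lit 77)))) (PT.nd (nat_lit 94) (PT.lf (nat_lit 6972) (nat_lit 6) (nat_lit 83) (nat_lit 1) (nat_lit 78) (nat_lit 35) (nat_lit 76)) (PT.nd (nat_lit 94) (PT.lf (nat_lit 6888) (nat_lit 6) (nat_lit 82) (nat_lit 1) (nat_lit 79) (nat_lit 35) (nat_lit 75)) (PT.lf (nat_lit 6804) (nat_lit 6) (nat_lit 81) (nat_lit 1) (nat_lit 80) (nat_lit 35) (nat_lit 74)))))) (PT.nd (nat_lit 58844) (PT.nd (nat_lit 58562) (PT.nd (nat_lit 58468) (PT.lf (nat_lit 6720) (nat_lit 6) (nat_lit 80) (nat_lit 1) (nat_lit 81) (nat_lit 35) (nat_lit 73)) (PT.lf (nat_lit 7140) (nat_lit 6) (nat_lit 85) (nat_lit 3) (nat_lit 72) (nat_lit 36) (nat_lit 81))) (PT.nd (nat_lit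 94) (PT.lf (nat_lit 7224) (nat_lit 6) (nat_lit 86) (nat_lit 3) (nat_lit 73) (nat_lit 36) (nat_lit 80)) (PT.nd (nat_lit 94) (PT.lf (nat_lit 7308) (nat_lit 6) (nat_lit 87) (nat_lit 3) (nat_lit 74) (nat_lit 36) (nat_lit 79)) (PT.lf (nat_lit 7392) (nat_lit 6) (nat_lit 88) (nat_lit 3) (nat_lit 75) (nat_lit 36) (nat_lit 78))))) (PT.nd (nat_lit 282) (PT.nd (nat_lit 94) (PT.lf (nat_lit 7476) (nat_lit 6) (nat_lit 89) (nat_lit 3) (nat_lit 76) (nat_lit 36) (nat_lit 77)) (PT.nd (nat_lit 94) (PT.lf (nat_lit 7476) (nat_lit 6) (nat_lit 89) (nat_lit 1) (nat_lit 77) (nat_lit 36) (nat_lit 76)) (PT.lf (nat_lit 7392) (nat_lit 6) (nat_lit 88) (nat_lit 1) (nat_lit 78) (nat_lit 36) (nat_lit 75)))) (PT.nd (nat_lit 94) (PT.lf (nat_lit 7308) (nat_lit 6) (nat_lit 87) (nat_lit 1) (nat_lit 79) (nat_lit 36) (nat_lit 74)) (PT.nd (nat_lit 94) (PT.lf (nat_lit 7224) (nat_lit 6) (nat_lit 86) (nat_lit 1) (nat_lit 80) (nat_lit 36)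 (nat_lit 73)) (PT.lf (nat_lit 7140) (nat_lit 6) (nat_lit 85) (nat_lit 1) (nat_lit 81) (nat_lit 36) (nat_lit 72))))))) (PT.nd (nat_lit 59408) (PT.nd (nat_lit 470) (PT.nd (nat_lit 188) (PT.nd (nat_lit 94) (PT.lf (nat_lit 7560) (nat_lit 6) (nat_lit 90) (nat_lit 3) (nat_lit 72) (nat_lit 37) (nat_lit 80)) (PT.lf (nat_lit 7644) (nat_lit 6) (nat_lit 91) (nat_lit 3) (nat_lit 73) (nat_lit 37) (nat_lit 79))) (PT.nd (nat_lit 94) (PT.lf (nat_lit 7728) (nat_lit 6) (nat_lit 92) (nat_lit 3) (nat_lit 74) (nat_lit 37) (nat_lit 78)) (PT.nd (nat_lit 94) (PT.lf (nat_lit 7812) (nat_lit 6) (nat_lit 93) (nat_lit 3) (nat_lit 75) (nat_lit 37) (nat_lit 77)) (PT.lf (nat_lit 7896) (nat_lit 3) (nat_lit 94) (nat_lit 1) (nat_lit 76) (nat_lit 37) (nat_lit 76))))) (PT.nd (nat_lit 282) (PT.nd (nat_lit 94) (PT.lf (nat_lit 7812) (nat_lit 6) (nat_lit 93) (nat_lit 1) (nat_lit 77) (nat_lit 37) (nat_lit 75)) (PT.nd (nat_lit 94) (PT.lf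 (nat_lit 7728) (nat_lit 6) (nat_lit 92) (nat_lit 1) (nat_lit 78) (nat_lit 37) (nat_lit 74)) (PT.lf (nat_lit 7644) (nat_lit 6) (nat_lit 91) (nat_lit 1) (nat_lit 79) (nat_lit 37) (nat_lit 73)))) (PT.nd (nat_lit 58468) (PT.lf (nat_lit 7560) (nat_lit 6) (nat_lit 90) (nat_lit 1) (nat_lit 80) (nat_lit 37) (nat_lit 72)) (PT.nd (nat_lit 94) (PT.lf (nat_lit 7980) (nat_lit 6) (nat_lit 95) (nat_lit 3) (nat_lit 71) (nat_lit 38) (nat_lit 80)) (PT.lf (nat_lit 8064) (nat_lit 6) (nat_lit 96) (nat_lit 3) (nat_lit 72) (nat_lit 38) (nat_lit 79)))))) (PT.nd (nat_lit 564) (PT.nd (nat_lit 282) (PT.nd (nat_lit 94) (PT.lf (nat_lit 8148) (nat_lit 6) (nat_lit 97) (nat_lit 3) (nat_lit 73) (nat_lit 38) (nat_lit 78)) (PT.nd (nat_lit 94) (PT.lf (nat_lit 8232) (nat_lit 6) (nat_lit 98) (nat_lit 3) (nat_lit 74) (nat_lit 38) (nat_lit 77)) (PT.lf (nat_lit 8316) (nat_lit 6) (nat_lit 99) (nat_lit 3) (nat_lit 75) (nat_lit 38) (nat_lit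 76)))) (PT.nd (nat_lit 94) (PT.lf (nat_lit 8316) (nat_lit 6) (nat_lit 99) (nat_lit 1) (nat_lit 76) (nat_lit 38) (nat_lit 75)) (PT.nd (nat_lit 94) (PT.lf (nat_lit 8232) (nat_lit 6) (nat_lit 98) (nat_lit 1) (nat_lit 77) (nat_lit 38) (nat_lit 74)) (PT.lf (nat_lit 8148) (nat_lit 6) (nat_lit 97) (nat_lit 1) (nat_lit 78) (nat_lit 38) (nat_lit 73))))) (PT.nd (nat_lit 58562) (PT.nd (nat_lit 94) (PT.lf (nat_lit 8064) (nat_lit 6) (nat_lit 96) (nat_lit 1) (nat_lit 79) (nat_lit 38) (nat_lit 72)) (PT.nd (nat_lit 58374) (PT.lf (nat_lit 7980) (nat_lit 6) (nat_lit 95) (nat_lit 1) (nat_lit 80) (nat_lit 38) (nat_lit 71)) (PT.lf (nat_lit 8400) (nat_lit 6) (nat_lit 100) (nat_lit 3) (nat_lit 70) (nat_lit 39) (nat_lit 80)))) (PT.nd (nat_lit 94) (PT.lf (nat_lit 8484) (nat_lit 6) (nat_lit 101) (nat_lit 3) (nat_lit 71) (nat_lit 39) (nat_lit 79)) (PT.nd (nat_lit 94) (PT.lf (nat_lit 8568) (nat_lit 6) (nat_lit 102) (nat_lit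 3) (nat_lit 72) (nat_lit 39) (nat_lit 78)) (PT.lf (nat_lit 8652) (nat_lit 6) (nat_lit 103) (nat_lit 3) (nat_lit 73) (nat_lit 39) (nat_lit 77))))))))
noncomputable def pc3 : PT := (PT.nd (nat_lit 118722) (PT.nd (nat_lit 59314) (PT.nd (nat_lit 470) (PT.nd (nat_lit 188) (PT.nd (nat_lit 94) (PT.lf (nat_lit 8736) (nat_lit 6) (nat_lit 104) (nat_lit 3) (nat_lit 74) (nat_lit 39) (nat_lit 76)) (PT.lf (nat_lit 8820) (nat_lit 3) (nat_lit 105) (nat_lit 1) (nat_lit 75) (nat_lit 39) (nat_lit 75))) (PT.nd (nat_lit 94) (PT.lf (nat_lit 8736) (nat_lit 6) (nat_lit 104) (nat_lit 1) (nat_lit 76) (nat_lit 39) (nat_lit 74)) (PT.nd (nat_lit 94) (PT.lf (nat_lit 8652) (nat_lit 6) (nat_lit 103) (nat_lit 1) (nat_lit 77) (nat_lit 39) (nat_lit 73)) (PT.lf (nat_lit 8568) (nat_lit 6) (nat_lit 102) (nat_lit 1) (nat_lit 78) (nat_lit 39) (nat_lit 72))))) (PT.nd (nat_lit 58562) (PT.nd (nat_lit 94) (PT.lf (nat_lit 8484) (nat_lit 6)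 (nat_lit 101) (nat_lit 1) (nat_lit 79) (nat_lit 39) (nat_lit 71)) (PT.nd (nat_lit 58374) (PT.lf (nat_lit 8400) (nat_lit 6) (nat_lit 100) (nat_lit 1) (nat_lit 80) (nat_lit 39) (nat_lit 70)) (PT.lf (nat_lit 8988) (nat_lit 6) (nat_lit 107) (nat_lit 3) (nat_lit 70) (nat_lit 40) (nat_lit 79)))) (PT.nd (nat_lit 94) (PT.lf (nat_lit 9072) (nat_lit 6) (nat_lit 108) (nat_lit 3) (nat_lit 71) (nat_lit 40) (nat_lit 78)) (PT.nd (nat_lit 94) (PT.lf (nat_lit 9156) (nat_lit 6) (nat_lit 109) (nat_lit 3) (nat_lit 72) (nat_lit 40) (nat_lit 77)) (PT.lf (nat_lit 9240) (nat_lit 6) (nat_lit 110) (nat_lit 3) (nat_lit 73) (nat_lit 40) (nat_lit 76)))))) (PT.nd (nat_lit 58844) (PT.nd (nat_lit 282) (PT.nd (nat_lit 94) (PT.lf (nat_lit 9324) (nat_lit 6) (nat_lit 111) (nat_lit 3) (nat_lit 74) (nat_lit 40) (nat_lit 75)) (PT.nd (nat_lit 94) (PT.lf (nat_lit 9324) (nat_lit 6) (nat_lit 111) (nat_lit 1) (nat_lit 75) (nat_lit 40) (nat_lit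 74)) (PT.lf (nat_lit 9240) (nat_lit 6) (nat_lit 110) (nat_lit 1) (nat_lit 76) (nat_lit 40) (nat_lit 73)))) (PT.nd (nat_lit 94) (PT.lf (nat_lit 9156) (nat_lit 6) (nat_lit 109) (nat_lit 1) (nat_lit 77) (nat_lit 40) (nat_lit 72)) (PT.nd (nat_lit 94) (PT.lf (nat_lit 9072) (nat_lit 6) (nat_lit 108) (nat_lit 1) (nat_lit 78) (nat_lit 40) (nat_lit 71)) (PT.lf (nat_lit 8988) (nat_lit 6) (nat_lit 107) (nat_lit 1) (nat_lit 79) (nat_lit 40) (nat_lit 70))))) (PT.nd (nat_lit 282) (PT.nd (nat_lit 94) (PT.lf (nat_lit 9408) (nat_lit 6) (nat_lit 112) (nat_lit 3) (nat_lit 69) (nat_lit 41) (nat_lit 79)) (PT.nd (nat_lit 94) (PT.lf (nat_lit 9492) (nat_lit 6) (nat_lit 113) (nat_lit 3) (nat_lit 70) (nat_lit 41) (nat_lit 78)) (PT.lf (nat_lit 9576) (nat_lit 6) (nat_lit 114) (nat_lit 3) (nat_lit 71) (nat_lit 41) (nat_lit 77)))) (PT.nd (nat_lit 94) (PT.lf (nat_lit 9660) (nat_lit 6) (nat_lit 115) (nat_lit 3) (nat_lit 72) (nat_lit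 41) (nat_lit 76)) (PT.nd (nat_lit 94) (PT.lf (nat_lit 9744) (nat_lit 6) (nat_lit 116) (nat_lit 3) (nat_lit 73) (nat_lit 41) (nat_lit 75)) (PT.lf (nat_lit 9828) (nat_lit 3) (nat_lit 117) (nat_lit 1) (nat_lit 74) (nat_lit 41) (nat_lit 74))))))) (PT.nd (nat_lit 59220) (PT.nd (nat_lit 58656) (PT.nd (nat_lit 188) (PT.nd (nat_lit 94) (PT.lf (nat_lit 9744) (nat_lit 6) (nat_lit 116) (nat_lit 1) (nat_lit 75) (nat_lit 41) (nat_lit 73)) (PT.lf (nat_lit 9660) (nat_lit 6) (nat_lit 115) (nat_lit 1) (nat_lit 76) (nat_lit 41) (nat_lit 72))) (PT.nd (nat_lit 94) (PT.lf (nat_lit 9576) (nat_lit 6) (nat_lit 114) (nat_lit 1) (nat_lit 77) (nat_lit 41) (nat_lit 71)) (PT.nd (nat_lit 94) (PT.lf (nat_lit 9492) (nat_lit 6) (nat_lit 113) (nat_lit 1) (nat_lit 78) (nat_lit 41) (nat_lit 70)) (PT.lf (nat_lit 9408) (nat_lit 6) (nat_lit 112) (nat_lit 1) (nat_lit 79) (nat_lit 41) (nat_lit 69))))) (PT.nd (nat_lit 282) (PT.nd (nat_lit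 94) (PT.lf (nat_lit 9912) (nat_lit 6) (nat_lit 118) (nat_lit 3) (nat_lit 68) (nat_lit 42) (nat_lit 79)) (PT.nd (nat_lit 94) (PT.lf (nat_lit 9996) (nat_lit 6) (nat_lit 119) (nat_lit 3) (nat_lit 69) (nat_lit 42) (nat_lit 78)) (PT.lf (nat_lit 10080) (nat_lit 6) (nat_lit 120) (nat_lit 3) (nat_lit 70) (nat_lit 42) (nat_lit 77)))) (PT.nd (nat_lit 94) (PT.lf (nat_lit 10164) (nat_lit 6) (nat_lit 121) (nat_lit 3) (nat_lit 71) (nat_lit 42) (nat_lit 76)) (PT.nd (nat_lit 94) (PT.lf (nat_lit 10248) (nat_lit 6) (nat_lit 122) (nat_lit 3) (nat_lit 72) (nat_lit 42) (nat_lit 75)) (PT.lf (nat_lit 10332) (nat_lit 6) (nat_lit 123) (nat_lit 3) (nat_lit 73) (nat_lit 42) (nat_lit 74)))))) (PT.nd (nat_lit 58656) (PT.nd (nat_lit 282) (PT.nd (nat_lit 94) (PT.lf (nat_lit 10332) (nat_lit 6) (nat_lit 123) (nat_lit 1) (nat_lit 74) (nat_lit 42) (nat_lit 73)) (PT.nd (nat_lit 94) (PT.lf (nat_lit 10248) (nat_lit 6) (nat_lit 122)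 (nat_lit 1) (nat_lit 75) (nat_lit 42) (nat_lit 72)) (PT.lf (nat_lit 10164) (nat_lit 6) (nat_lit 121) (nat_lit 1) (nat_lit 76) (nat_lit 42) (nat_lit 71)))) (PT.nd (nat_lit 94) (PT.lf (nat_lit 10080) (nat_lit 6) (nat_lit 120) (nat_lit 1) (nat_lit 77) (nat_lit 42) (nat_lit 70)) (PT.nd (nat_lit 94) (PT.lf (nat_lit 9996) (nat_lit 6) (nat_lit 119) (nat_lit 1) (nat_lit 78) (nat_lit 42) (nat_lit 69)) (PT.lf (nat_lit 9912) (nat_lit 6) (nat_lit 118) (nat_lit 1) (nat_lit 79) (nat_lit 42) (nat_lit 68))))) (PT.nd (nat_lit 282) (PT.nd (nat_lit 94) (PT.lf (nat_lit 10416) (nat_lit 6) (nat_lit 124) (nat_lit 3) (nat_lit 67) (nat_lit 43) (nat_lit 79)) (PT.nd (nat_lit 94) (PT.lf (nat_lit 10500) (nat_lit 6) (nat_lit 125) (nat_lit 3) (nat_lit 68) (nat_lit 43) (nat_lit 78)) (PT.lf (nat_lit 10584) (nat_lit 6) (nat_lit 126) (nat_lit 3) (nat_lit 69) (nat_lit 43) (nat_lit 77)))) (PT.nd (nat_lit 94) (PT.lf (nat_lit 10668)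 (nat_lit 6) (nat_lit 127) (nat_lit 3) (nat_lit 70) (nat_lit 43) (nat_lit 76)) (PT.nd (nat_lit 94) (PT.lf (nat_lit 10752) (nat_lit 6) (nat_lit 128) (nat_lit 3) (nat_lit 71) (nat_lit 43) (nat_lit 75)) (PT.lf (nat_lit 10836) (nat_lit 6) (nat_lit 129) (nat_lit 3) (nat_lit 72) (nat_lit 43) (nat_lit 74))))))))
noncomputable def pc4 : PT := (PT.nd (nat_lit 118064) (PT.nd (nat_lit 59032) (PT.nd (nat_lit 470) (PT.nd (nat_lit 188) (PT.nd (nat_lit 94) (PT.lf (nat_lit 10920) (nat_lit 3) (nat_lit 130) (nat_lit 1) (nat_lit 73) (nat_lit 43) (nat_lit 73)) (PT.lf (nat_lit 10836) (nat_lit 6) (nat_lit 129) (nat_lit 1) (nat_lit 74) (nat_lit 43) (nat_lit 72))) (PT.nd (nat_lit 94) (PT.lf (nat_lit 10752) (nat_lit 6) (nat_lit 128) (nat_lit 1) (nat_lit 75) (nat_lit 43) (nat_lit 71)) (PT.nd (nat_lit 94) (PT.lf (nat_lit 10668) (nat_lit 6) (nat_lit 127) (nat_lit 1) (nat_lit 76) (nat_lit 43) (nat_lit 70)) (PT.lf (nat_lit 10584)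 (nat_lit 6) (nat_lit 126) (nat_lit 1) (nat_lit 77) (nat_lit 43) (nat_lit 69))))) (PT.nd (nat_lit 58280) (PT.nd (nat_lit 94) (PT.lf (nat_lit 10500) (nat_lit 6) (nat_lit 125) (nat_lit 1) (nat_lit 78) (nat_lit 43) (nat_lit 68)) (PT.nd (nat_lit 58092) (PT.lf (nat_lit 10416) (nat_lit 6) (nat_lit 124) (nat_lit 1) (nat_lit 79) (nat_lit 43) (nat_lit 67)) (PT.lf (nat_lit 11004) (nat_lit 6) (nat_lit 131) (nat_lit 3) (nat_lit 66) (nat_lit 44) (nat_lit 79)))) (PT.nd (nat_lit 94) (PT.lf (nat_lit 11088) (nat_lit 6) (nat_lit 132) (nat_lit 3) (nat_lit 67) (nat_lit 44) (nat_lit 78)) (PT.nd (nat_lit 94) (PT.lf (nat_lit 11172) (nat_lit 6) (nat_lit 133) (nat_lit 3) (nat_lit 68) (nat_lit 44) (nat_lit 77)) (PT.lf (nat_lit 11256) (nat_lit 6) (nat_lit 134) (nat_lit 3) (nat_lit 69) (nat_lit 44) (nat_lit 76)))))) (PT.nd (nat_lit 470) (PT.nd (nat_lit 188) (PT.nd (nat_lit 94) (PT.lf (nat_lit 11340) (nat_lit 6) (nat_lit 135)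 (nat_lit 3) (nat_lit 70) (nat_lit 44) (nat_lit 75)) (PT.lf (nat_lit 11424) (nat_lit 6) (nat_lit 136) (nat_lit 3) (nat_lit 71) (nat_lit 44) (nat_lit 74))) (PT.nd (nat_lit 94) (PT.lf (nat_lit 11508) (nat_lit 6) (nat_lit 137) (nat_lit 3) (nat_lit 72) (nat_lit 44) (nat_lit 73)) (PT.nd (nat_lit 94) (PT.lf (nat_lit 11508) (nat_lit 6) (nat_lit 137) (nat_lit 1) (nat_lit 73) (nat_lit 44) (nat_lit 72)) (PT.lf (nat_lit 11424) (nat_lit 6) (nat_lit 136) (nat_lit 1) (nat_lit 74) (nat_lit 44) (nat_lit 71))))) (PT.nd (nat_lit 282) (PT.nd (nat_lit 94) (PT.lf (nat_lit 11340) (nat_lit 6) (nat_lit 135) (nat_lit 1) (nat_lit 75) (nat_lit 44) (nat_lit 70)) (PT.nd (nat_lit 94) (PT.lf (nat_lit 11256) (nat_lit 6) (nat_lit 134) (nat_lit 1) (nat_lit 76) (nat_lit 44) (nat_lit 69)) (PT.lf (nat_lit 11172) (nat_lit 6) (nat_lit 133) (nat_lit 1) (nat_lit 77) (nat_lit 44) (nat_lit 68)))) (PT.nd (nat_lit 94) (PT.lf (nat_lit 11088)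 (nat_lit 6) (nat_lit 132) (nat_lit 1) (nat_lit 78) (nat_lit 44) (nat_lit 67)) (PT.nd (nat_lit 58092) (PT.lf (nat_lit 11004) (nat_lit 6) (nat_lit 131) (nat_lit 1) (nat_lit 79) (nat_lit 44) (nat_lit 66)) (PT.lf (nat_lit 11676) (nat_lit 6) (nat_lit 139) (nat_lit 3) (nat_lit 66) (nat_lit 45) (nat_lit 78))))))) (PT.nd (nat_lit 1034) (PT.nd (nat_lit 470) (PT.nd (nat_lit 188) (PT.nd (nat_lit 94) (PT.lf (nat_lit 11760) (nat_lit 6) (nat_lit 140) (nat_lit 3) (nat_lit 67) (nat_lit 45) (nat_lit 77)) (PT.lf (nat_lit 11844) (nat_lit 6) (nat_lit 141) (nat_lit 3) (nat_lit 68) (nat_lit 45) (nat_lit 76))) (PT.nd (nat_lit 94) (PT.lf (nat_lit 11928) (nat_lit 6) (nat_lit 142) (nat_lit 3) (nat_lit 69) (nat_lit 45) (nat_lit 75)) (PT.nd (nat_lit 94) (PT.lf (nat_lit 12012) (nat_lit 6) (nat_lit 143) (nat_lit 3) (nat_lit 70) (nat_lit 45) (nat_lit 74)) (PT.lf (nat_lit 12096) (nat_lit 6) (nat_lit 144) (nat_lit 3) (nat_lit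 71) (nat_lit 45) (nat_lit 73))))) (PT.nd (nat_lit 282) (PT.nd (nat_lit 94) (PT.lf (nat_lit 12180) (nat_lit 3) (nat_lit 145) (nat_lit 1) (nat_lit 72) (nat_lit 45) (nat_lit 72)) (PT.nd (nat_lit 94) (PT.lf (nat_lit 12096) (nat_lit 6) (nat_lit 144) (nat_lit 1) (nat_lit 73) (nat_lit 45) (nat_lit 71)) (PT.lf (nat_lit 12012) (nat_lit 6) (nat_lit 143) (nat_lit 1) (nat_lit 74) (nat_lit 45) (nat_lit 70)))) (PT.nd (nat_lit 94) (PT.lf (nat_lit 11928) (nat_lit 6) (nat_lit 142) (nat_lit 1) (nat_lit 75) (nat_lit 45) (nat_lit 69)) (PT.nd (nat_lit 94) (PT.lf (nat_lit 11844) (nat_lit 6) (nat_lit 141) (nat_lit 1) (nat_lit 76) (nat_lit 45) (nat_lit 68)) (PT.lf (nat_lit 11760) (nat_lit 6) (nat_lit 140) (nat_lit 1) (nat_lit 77) (nat_lit 45) (nat_lit 67)))))) (PT.nd (nat_lit 58562) (PT.nd (nat_lit 58280) (PT.nd (nat_lit 58092) (PT.lf (nat_lit 11676) (nat_lit 6) (nat_lit 139) (nat_lit 1) (nat_lit 78) (nat_lit 45) (nat_lit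 66)) (PT.nd (nat_lit 94) (PT.lf (nat_lit 12264) (nat_lit 6) (nat_lit 146) (nat_lit 3) (nat_lit 65) (nat_lit 46) (nat_lit 78)) (PT.lf (nat_lit 12348) (nat_lit 6) (nat_lit 147) (nat_lit 3) (nat_lit 66) (nat_lit 46) (nat_lit 77)))) (PT.nd (nat_lit 94) (PT.lf (nat_lit 12432) (nat_lit 6) (nat_lit 148) (nat_lit 3) (nat_lit 67) (nat_lit 46) (nat_lit 76)) (PT.nd (nat_lit 94) (PT.lf (nat_lit 12516) (nat_lit 6) (nat_lit 149) (nat_lit 3) (nat_lit 68) (nat_lit 46) (nat_lit 75)) (PT.lf (nat_lit 12600) (nat_lit 6) (nat_lit 150) (nat_lit 3) (nat_lit 69) (nat_lit 46) (nat_lit 74))))) (PT.nd (nat_lit 282) (PT.nd (nat_lit 94) (PT.lf (nat_lit 12684) (nat_lit 6) (nat_lit 151) (nat_lit 3) (nat_lit 70) (nat_lit 46) (nat_lit 73)) (PT.nd (nat_lit 94) (PT.lf (nat_lit 12768) (nat_lit 6) (nat_lit 152) (nat_lit 3) (nat_lit 71) (nat_lit 46) (nat_lit 72)) (PT.lf (nat_lit 12768) (nat_lit 6) (nat_lit 152) (nat_lit 1) (nat_lit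 72) (nat_lit 46) (nat_lit 71)))) (PT.nd (nat_lit 94) (PT.lf (nat_lit 12684) (nat_lit 6) (nat_lit 151) (nat_lit 1) (nat_lit 73) (nat_lit 46) (nat_lit 70)) (PT.nd (nat_lit 94) (PT.lf (nat_lit 12600) (nat_lit 6) (nat_lit 150) (nat_lit 1) (nat_lit 74) (nat_lit 46) (nat_lit 69)) (PT.lf (nat_lit 12516) (nat_lit 6) (nat_lit 149) (nat_lit 1) (nat_lit 75) (nat_lit 46) (nat_lit 68))))))))
noncomputable def pc5 : PT := (PT.nd (nat_lit 117876) (PT.nd (nat_lit 58938) (PT.nd (nat_lit 58374) (PT.nd (nat_lit 188) (PT.nd (nat_lit 94) (PT.lf (nat_lit 12432) (nat_lit 6) (nat_lit 148) (nat_lit 1) (nat_lit 76) (nat_lit 46) (nat_lit 67)) (PT.lf (nat_lit 12348) (nat_lit 6) (nat_lit 147) (nat_lit 1) (nat_lit 77) (nat_lit 46) (nat_lit 66))) (PT.nd (nat_lit 57998) (PT.lf (nat_lit 12264) (nat_lit 6) (nat_lit 146) (nat_lit 1) (nat_lit 78) (nat_lit 46) (nat_lit 65)) (PT.nd (nat_lit 94) (PT.lf (nat_lit 12852) (nat_lit 6) (nat_lit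 153) (nat_lit 3) (nat_lit 64) (nat_lit 47) (nat_lit 78)) (PT.lf (nat_lit 12936) (nat_lit 6) (nat_lit 154) (nat_lit 3) (nat_lit 65) (nat_lit 47) (nat_lit 77))))) (PT.nd (nat_lit 282) (PT.nd (nat_lit 94) (PT.lf (nat_lit 13020) (nat_lit 6) (nat_lit 155) (nat_lit 3) (nat_lit 66) (nat_lit 47) (nat_lit 76)) (PT.nd (nat_lit 94) (PT.lf (nat_lit 13104) (nat_lit 6) (nat_lit 156) (nat_lit 3) (nat_lit 67) (nat_lit 47) (nat_lit 75)) (PT.lf (nat_lit 13188) (nat_lit 6) (nat_lit 157) (nat_lit 3) (nat_lit 68) (nat_lit 47) (nat_lit 74)))) (PT.nd (nat_lit 94) (PT.lf (nat_lit 13272) (nat_lit 6) (nat_lit 158) (nat_lit 3) (nat_lit 69) (nat_lit 47) (nat_lit 73)) (PT.nd (nat_lit 94) (PT.lf (nat_lit 13356) (nat_lit 6) (nat_lit 159) (nat_lit 3) (nat_lit 70) (nat_lit 47) (nat_lit 72)) (PT.lf (nat_lit 13440) (nat_lit 3) (nat_lit 160) (nat_lit 1) (nat_lit 71) (nat_lit 47) (nat_lit 71)))))) (PT.nd (nat_lit 564) (PT.nd (nat_lit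 282) (PT.nd (nat_lit 94) (PT.lf (nat_lit 13356) (nat_lit 6) (nat_lit 159) (nat_lit 1) (nat_lit 72) (nat_lit 47) (nat_lit 70)) (PT.nd (nat_lit 94) (PT.lf (nat_lit 13272) (nat_lit 6) (nat_lit 158) (nat_lit 1) (nat_lit 73) (nat_lit 47) (nat_lit 69)) (PT.lf (nat_lit 13188) (nat_lit 6) (nat_lit 157) (nat_lit 1) (nat_lit 74) (nat_lit 47) (nat_lit 68)))) (PT.nd (nat_lit 94) (PT.lf (nat_lit 13104) (nat_lit 6) (nat_lit 156) (nat_lit 1) (nat_lit 75) (nat_lit 47) (nat_lit 67)) (PT.nd (nat_lit 94) (PT.lf (nat_lit 13020) (nat_lit 6) (nat_lit 155) (nat_lit 1) (nat_lit 76) (nat_lit 47) (nat_lit 66)) (PT.lf (nat_lit 12936) (nat_lit 6) (nat_lit 154) (nat_lit 1) (nat_lit 77) (nat_lit 47) (nat_lit 65))))) (PT.nd (nat_lit 58092) (PT.nd (nat_lit 57904) (PT.lf (nat_lit 12852) (nat_lit 6) (nat_lit 153) (nat_lit 1) (nat_lit 78) (nat_lit 47) (nat_lit 64)) (PT.nd (nat_lit 94) (PT.lf (nat_lit 14112) (nat_lit 6) (nat_lit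 168) (nat_lit 3) (nat_lit 63) (nat_lit 48) (nat_lit 78)) (PT.lf (nat_lit 14196) (nat_lit 6) (nat_lit 169) (nat_lit 3) (nat_lit 64) (nat_lit 48) (nat_lit 77)))) (PT.nd (nat_lit 94) (PT.lf (nat_lit 14280) (nat_lit 6) (nat_lit 170) (nat_lit 3) (nat_lit 65) (nat_lit 48) (nat_lit 76)) (PT.nd (nat_lit 94) (PT.lf (nat_lit 14364) (nat_lit 6) (nat_lit 171) (nat_lit 3) (nat_lit 66) (nat_lit 48) (nat_lit 75)) (PT.lf (nat_lit 14448) (nat_lit 6) (nat_lit 172) (nat_lit 3) (nat_lit 67) (nat_lit 48) (nat_lit 74))))))) (PT.nd (nat_lit 58750) (PT.nd (nat_lit 470) (PT.nd (nat_lit 188) (PT.nd (nat_lit 94) (PT.lf (nat_lit 14532) (nat_lit 6) (nat_lit 173) (nat_lit 3) (nat_lit 68) (nat_lit 48) (nat_lit 73)) (PT.lf (nat_lit 14616) (nat_lit 6) (nat_lit 174) (nat_lit 3) (nat_lit 69) (nat_lit 48) (nat_lit 72))) (PT.nd (nat_lit 94) (PT.lf (nat_lit 14700) (nat_lit 6) (nat_lit 175) (nat_lit 3) (nat_lit 70) (nat_lit 48) (nat_lit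 71)) (PT.nd (nat_lit 94) (PT.lf (nat_lit 14700) (nat_lit 6) (nat_lit 175) (nat_lit 1) (nat_lit 71) (nat_lit 48) (nat_lit 70)) (PT.lf (nat_lit 14616) (nat_lit 6) (nat_lit 174) (nat_lit 1) (nat_lit 72) (nat_lit 48) (nat_lit 69))))) (PT.nd (nat_lit 282) (PT.nd (nat_lit 94) (PT.lf (nat_lit 14532) (nat_lit 6) (nat_lit 173) (nat_lit 1) (nat_lit 73) (nat_lit 48) (nat_lit 68)) (PT.nd (nat_lit 94) (PT.lf (nat_lit 14448) (nat_lit 6) (nat_lit 172) (nat_lit 1) (nat_lit 74) (nat_lit 48) (nat_lit 67)) (PT.lf (nat_lit 14364) (nat_lit 6) (nat_lit 171) (nat_lit 1) (nat_lit 75) (nat_lit 48) (nat_lit 66)))) (PT.nd (nat_lit 94) (PT.lf (nat_lit 14280) (nat_lit 6) (nat_lit 170) (nat_lit 1) (nat_lit 76) (nat_lit 48) (nat_lit 65)) (PT.nd (nat_lit 94) (PT.lf (nat_lit 14196) (nat_lit 6) (nat_lit 169) (nat_lit 1) (nat_lit 77) (nat_lit 48) (nat_lit 64)) (PT.lf (nat_lit 14112) (nat_lit 6) (nat_lit 168) (nat_lit 1) (nat_lit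 78) (nat_lit 48) (nat_lit 63)))))) (PT.nd (nat_lit 564) (PT.nd (nat_lit 282) (PT.nd (nat_lit 94) (PT.lf (nat_lit 14028) (nat_lit 6) (nat_lit 167) (nat_lit 3) (nat_lit 62) (nat_lit 49) (nat_lit 78)) (PT.nd (nat_lit 94) (PT.lf (nat_lit 15372) (nat_lit 6) (nat_lit 183) (nat_lit 3) (nat_lit 63) (nat_lit 49) (nat_lit 77)) (PT.lf (nat_lit 15456) (nat_lit 6) (nat_lit 184) (nat_lit 3) (nat_lit 64) (nat_lit 49) (nat_lit 76)))) (PT.nd (nat_lit 94) (PT.lf (nat_lit 15540) (nat_lit 6) (nat_lit 185) (nat_lit 3) (nat_lit 65) (nat_lit 49) (nat_lit 75)) (PT.nd (nat_lit 94) (PT.lf (nat_lit 15624) (nat_lit 6) (nat_lit 186) (nat_lit 3) (nat_lit 66) (nat_lit 49) (nat_lit 74)) (PT.lf (nat_lit 15708) (nat_lit 6) (nat_lit 187) (nat_lit 3) (nat_lit 67) (nat_lit 49) (nat_lit 73))))) (PT.nd (nat_lit 282) (PT.nd (nat_lit 94) (PT.lf (nat_lit 15792) (nat_lit 6) (nat_lit 188) (nat_lit 3) (nat_lit 68) (nat_lit 49) (nat_lit 72))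 (PT.nd (nat_lit 94) (PT.lf (nat_lit 15876) (nat_lit 6) (nat_lit 189) (nat_lit 3) (nat_lit 69) (nat_lit 49) (nat_lit 71)) (PT.lf (nat_lit 15960) (nat_lit 3) (nat_lit 190) (nat_lit 1) (nat_lit 70) (nat_lit 49) (nat_lit 70)))) (PT.nd (nat_lit 94) (PT.lf (nat_lit 15876) (nat_lit 6) (nat_lit 189) (nat_lit 1) (nat_lit 71) (nat_lit 49) (nat_lit 69)) (PT.nd (nat_lit 94) (PT.lf (nat_lit 15792) (nat_lit 6) (nat_lit 188) (nat_lit 1) (nat_lit 72) (nat_lit 49) (nat_lit 68)) (PT.lf (nat_lit 15708) (nat_lit 6) (nat_lit 187) (nat_lit 1) (nat_lit 73) (nat_lit 49) (nat_lit 67))))))))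
noncomputable def pc6 : PT := (PT.nd (nat_lit 59690) (PT.nd (nat_lit 58656) (PT.nd (nat_lit 58092) (PT.nd (nat_lit 188) (PT.nd (nat_lit 94) (PT.lf (nat_lit 15624) (nat_lit 6) (nat_lit 186) (nat_lit 1) (nat_lit 74) (nat_lit 49) (nat_lit 66)) (PT.lf (nat_lit 15540) (nat_lit 6) (nat_lit 185) (nat_lit 1) (nat_lit 75) (nat_lit 49) (nat_lit 65))) (PT.nd (nat_lit 94) (PT.lf (nat_lit 15456) (nat_lit 6) (nat_lit 184) (nat_lit 1) (nat_lit 76) (nat_lit 49) (nat_lit 64)) (PT.nd (nat_lit 94) (PT.lf (nat_lit 15372) (nat_lit 6) (nat_lit 183) (nat_lit 1) (nat_lit 77) (nat_lit 49) (nat_lit 63)) (PT.lf (nat_lit 14028) (nat_lit 6) (nat_lit 167) (nat_lit 1) (nat_lit 78) (nat_lit 49) (nat_lit 62))))) (PT.nd (nat_lit 282) (PT.nd (nat_lit 94) (PT.lf (nat_lit 13944) (nat_lit 6) (nat_lit 166) (nat_lit 3) (nat_lit 61) (nat_lit 50) (nat_lit 78)) (PT.nd (nat_lit 94) (PT.lf (nat_lit 15288) (nat_lit 6) (nat_lit 182) (nat_lit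 3) (nat_lit 62) (nat_lit 50) (nat_lit 77)) (PT.lf (nat_lit 16548) (nat_lit 6) (nat_lit 197) (nat_lit 3) (nat_lit 63) (nat_lit 50) (nat_lit 76)))) (PT.nd (nat_lit 94) (PT.lf (nat_lit 16632) (nat_lit 6) (nat_lit 198) (nat_lit 3) (nat_lit 64) (nat_lit 50) (nat_lit 75)) (PT.nd (nat_lit 94) (PT.lf (nat_lit 16716) (nat_lit 6) (nat_lit 199) (nat_lit 3) (nat_lit 65) (nat_lit 50) (nat_lit 74)) (PT.lf (nat_lit 16800) (nat_lit 6) (nat_lit 200) (nat_lit 3) (nat_lit 66) (nat_lit 50) (nat_lit 73)))))) (PT.nd (nat_lit 470) (PT.nd (nat_lit 188) (PT.nd (nat_lit 94) (PT.lf (nat_lit 16884) (nat_lit 6) (nat_lit 201) (nat_lit 3) (nat_lit 67) (nat_lit 50) (nat_lit 72)) (PT.lf (nat_lit 16968) (nat_lit 6) (nat_lit 202) (nat_lit 3) (nat_lit 68) (nat_lit 50) (nat_lit 71))) (PT.nd (nat_lit 94) (PT.lf (nat_lit 17052) (nat_lit 6) (nat_lit 203) (nat_lit 3) (nat_lit 69) (nat_lit 50) (nat_lit 70)) (PT.nd (nat_lit 94) (PT.lf (nat_lit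 17052) (nat_lit 6) (nat_lit 203) (nat_lit 1) (nat_lit 70) (nat_lit 50) (nat_lit 69)) (PT.lf (nat_lit 16968) (nat_lit 6) (nat_lit 202) (nat_lit 1) (nat_lit 71) (nat_lit 50) (nat_lit 68))))) (PT.nd (nat_lit 282) (PT.nd (nat_lit 94) (PT.lf (nat_lit 16884) (nat_lit 6) (nat_lit 201) (nat_lit 1) (nat_lit 72) (nat_lit 50) (nat_lit 67)) (PT.nd (nat_lit 94) (PT.lf (nat_lit 16800) (nat_lit 6) (nat_lit 200) (nat_lit 1) (nat_lit 73) (nat_lit 50) (nat_lit 66)) (PT.lf (nat_lit 16716) (nat_lit 6) (nat_lit 199) (nat_lit 1) (nat_lit 74) (nat_lit 50) (nat_lit 65)))) (PT.nd (nat_lit 94) (PT.lf (nat_lit 16632) (nat_lit 6) (nat_lit 198) (nat_lit 1) (nat_lit 75) (nat_lit 50) (nat_lit 64)) (PT.nd (nat_lit 94) (PT.lf (nat_lit 16548) (nat_lit 6) (nat_lit 197) (nat_lit 1) (nat_lit 76) (nat_lit 50) (nat_lit 63)) (PT.lf (nat_lit 15288) (nat_lit 6) (nat_lit 182) (nat_lit 1) (nat_lit 77) (nat_lit 50) (nat_lit 62))))))) (PT.nd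 (nat_lit 58562) (PT.nd (nat_lit 57998) (PT.nd (nat_lit 57716) (PT.nd (nat_lit 57622) (PT.lf (nat_lit 13944) (nat_lit 6) (nat_lit 166) (nat_lit 1) (nat_lit 78) (nat_lit 50) (nat_lit 61)) (PT.lf (nat_lit 13860) (nat_lit 6) (nat_lit 165) (nat_lit 3) (nat_lit 60) (nat_lit 51) (nat_lit 78))) (PT.nd (nat_lit 94) (PT.lf (nat_lit 15204) (nat_lit 6) (nat_lit 181) (nat_lit 3) (nat_lit 61) (nat_lit 51) (nat_lit 77)) (PT.nd (nat_lit 94) (PT.lf (nat_lit 16464) (nat_lit 6) (nat_lit 196) (nat_lit 3) (nat_lit 62) (nat_lit 51) (nat_lit 76)) (PT.lf (nat_lit 17640) (nat_lit 6) (nat_lit 210) (nat_lit 3) (nat_lit 63) (nat_lit 51) (nat_lit 75))))) (PT.nd (nat_lit 282) (PT.nd (nat_lit 94) (PT.lf (nat_lit 17724) (nat_lit 6) (nat_lit 211) (nat_lit 3) (nat_lit 64) (nat_lit 51) (nat_lit 74)) (PT.nd (nat_lit 94) (PT.lf (nat_lit 17808) (nat_lit 6) (nat_lit 212) (nat_lit 3) (nat_lit 65) (nat_lit 51) (nat_lit 73)) (PT.lf (nat_lit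 17892) (nat_lit 6) (nat_lit 213) (nat_lit 3) (nat_lit 66) (nat_lit 51) (nat_lit 72)))) (PT.nd (nat_lit 94) (PT.lf (nat_lit 17976) (nat_lit 6) (nat_lit 214) (nat_lit 3) (nat_lit 67) (nat_lit 51) (nat_lit 71)) (PT.nd (nat_lit 94) (PT.lf (nat_lit 18060) (nat_lit 6) (nat_lit 215) (nat_lit 3) (nat_lit 68) (nat_lit 51) (nat_lit 70)) (PT.lf (nat_lit 18144) (nat_lit 3) (nat_lit 216) (nat_lit 1) (nat_lit 69) (nat_lit 51) (nat_lit 69)))))) (PT.nd (nat_lit 564) (PT.nd (nat_lit 282) (PT.nd (nat_lit 94) (PT.lf (nat_lit 18060) (nat_lit 6) (nat_lit 215) (nat_lit 1) (nat_lit 70) (nat_lit 51) (nat_lit 68)) (PT.nd (nat_lit 94) (PT.lf (nat_lit 17976) (nat_lit 6) (nat_lit 214) (nat_lit 1) (nat_lit 71) (nat_lit 51) (nat_lit 67)) (PT.lf (nat_lit 17892) (nat_lit 6) (nat_lit 213) (nat_lit 1) (nat_lit 72) (nat_lit 51) (nat_lit 66)))) (PT.nd (nat_lit 94) (PT.lf (nat_lit 17808) (nat_lit 6) (nat_lit 212) (nat_lit 1) (nat_lit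 73) (nat_lit 51) (nat_lit 65)) (PT.nd (nat_lit 94) (PT.lf (nat_lit 17724) (nat_lit 6) (nat_lit 211) (nat_lit 1) (nat_lit 74) (nat_lit 51) (nat_lit 64)) (PT.lf (nat_lit 17640) (nat_lit 6) (nat_lit 210) (nat_lit 1) (nat_lit 75) (nat_lit 51) (nat_lit 63))))) (PT.nd (nat_lit 57716) (PT.nd (nat_lit 94) (PT.lf (nat_lit 16464) (nat_lit 6) (nat_lit 196) (nat_lit 1) (nat_lit 76) (nat_lit 51) (nat_lit 62)) (PT.nd (nat_lit 94) (PT.lf (nat_lit 15204) (nat_lit 6) (nat_lit 181) (nat_lit 1) (nat_lit 77) (nat_lit 51) (nat_lit 61)) (PT.lf (nat_lit 13860) (nat_lit 6) (nat_lit 165) (nat_lit 1) (nat_lit 78) (nat_lit 51) (nat_lit 60)))) (PT.nd (nat_lit 94) (PT.lf (nat_lit 13776) (nat_lit 6) (nat_lit 164) (nat_lit 3) (nat_lit 59) (nat_lit 52) (nat_lit 78)) (PT.nd (nat_lit 94) (PT.lf (nat_lit 15120) (nat_lit 6) (nat_lit 180) (nat_lit 3) (nat_lit 60) (nat_lit 52) (nat_lit 77)) (PT.lf (nat_lit 16380) (nat_lit 6) (nat_lit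 195) (nat_lit 3) (nat_lit 61) (nat_lit 52) (nat_lit 76))))))))
noncomputable def pc7 : PT := (PT.nd (nat_lit 59502) (PT.nd (nat_lit 1034) (PT.nd (nat_lit 470) (PT.nd (nat_lit 188) (PT.nd (nat_lit 94) (PT.lf (nat_lit 17556) (nat_lit 6) (nat_lit 209) (nat_lit 3) (nat_lit 62) (nat_lit 52) (nat_lit 75)) (PT.lf (nat_lit 18648) (nat_lit 6) (nat_lit 222) (nat_lit 3) (nat_lit 63) (nat_lit 52) (nat_lit 74))) (PT.nd (nat_lit 94) (PT.lf (nat_lit 18732) (nat_lit 6) (nat_lit 223) (nat_lit 3) (nat_lit 64) (nat_lit 52) (nat_lit 73)) (PT.nd (nat_lit 94) (PT.lf (nat_lit 18816) (nat_lit 6) (nat_lit 224) (nat_lit 3) (nat_lit 65) (nat_lit 52) (nat_lit 72)) (PT.lf (nat_lit 18900) (nat_lit 6) (nat_lit 225) (nat_lit 3) (nat_lit 66) (nat_lit 52) (nat_lit 71))))) (PT.nd (nat_lit 282) (PT.nd (nat_lit 94) (PT.lf (nat_lit 18984) (nat_lit 6) (nat_lit 226) (nat_lit 3) (nat_lit 67) (nat_lit 52) (nat_lit 70)) (PT.nd (nat_lit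 94) (PT.lf (nat_lit 19068) (nat_lit 6) (nat_lit 227) (nat_lit 3) (nat_lit 68) (nat_lit 52) (nat_lit 69)) (PT.lf (nat_lit 19068) (nat_lit 6) (nat_lit 227) (nat_lit 1) (nat_lit 69) (nat_lit 52) (nat_lit 68)))) (PT.nd (nat_lit 94) (PT.lf (nat_lit 18984) (nat_lit 6) (nat_lit 226) (nat_lit 1) (nat_lit 70) (nat_lit 52) (nat_lit 67)) (PT.nd (nat_lit 94) (PT.lf (nat_lit 18900) (nat_lit 6) (nat_lit 225) (nat_lit 1) (nat_lit 71) (nat_lit 52) (nat_lit 66)) (PT.lf (nat_lit 18816) (nat_lit 6) (nat_lit 224) (nat_lit 1) (nat_lit 72) (nat_lit 52) (nat_lit 65)))))) (PT.nd (nat_lit 57904) (PT.nd (nat_lit 282) (PT.nd (nat_lit 94) (PT.lf (nat_lit 18732) (nat_lit 6) (nat_lit 223) (nat_lit 1) (nat_lit 73) (nat_lit 52) (nat_lit 64)) (PT.nd (nat_lit 94) (PT.lf (nat_lit 18648) (nat_lit 6) (nat_lit 222) (nat_lit 1) (nat_lit 74) (nat_lit 52) (nat_lit 63)) (PT.lf (nat_lit 17556) (nat_lit 6) (nat_lit 209) (nat_lit 1) (nat_lit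 75) (nat_lit 52) (nat_lit 62)))) (PT.nd (nat_lit 94) (PT.lf (nat_lit 16380) (nat_lit 6) (nat_lit 195) (nat_lit 1) (nat_lit 76) (nat_lit 52) (nat_lit 61)) (PT.nd (nat_lit 94) (PT.lf (nat_lit 15120) (nat_lit 6) (nat_lit 180) (nat_lit 1) (nat_lit 77) (nat_lit 52) (nat_lit 60)) (PT.lf (nat_lit 13776) (nat_lit 6) (nat_lit 164) (nat_lit 1) (nat_lit 78) (nat_lit 52) (nat_lit 59))))) (PT.nd (nat_lit 282) (PT.nd (nat_lit 94) (PT.lf (nat_lit 13692) (nat_lit 6) (nat_lit 163) (nat_lit 3) (nat_lit 58) (nat_lit 53) (nat_lit 78)) (PT.nd (nat_lit 94) (PT.lf (nat_lit 15036) (nat_lit 6) (nat_lit 179) (nat_lit 3) (nat_lit 59) (nat_lit 53) (nat_lit 77)) (PT.lf (nat_lit 16296) (nat_lit 6) (nat_lit 194) (nat_lit 3) (nat_lit 60) (nat_lit 53) (nat_lit 76)))) (PT.nd (nat_lit 94) (PT.lf (nat_lit 17472) (nat_lit 6) (nat_lit 208) (nat_lit 3) (nat_lit 61) (nat_lit 53) (nat_lit 75)) (PT.nd (nat_lit 94) (PT.lf (nat_lit 18564)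 (nat_lit 6) (nat_lit 221) (nat_lit 3) (nat_lit 62) (nat_lit 53) (nat_lit 74)) (PT.lf (nat_lit 19572) (nat_lit 6) (nat_lit 233) (nat_lit 3) (nat_lit 63) (nat_lit 53) (nat_lit 73))))))) (PT.nd (nat_lit 1034) (PT.nd (nat_lit 470) (PT.nd (nat_lit 188) (PT.nd (nat_lit 94) (PT.lf (nat_lit 19656) (nat_lit 6) (nat_lit 234) (nat_lit 3) (nat_lit 64) (nat_lit 53) (nat_lit 72)) (PT.lf (nat_lit 19740) (nat_lit 6) (nat_lit 235) (nat_lit 3) (nat_lit 65) (nat_lit 53) (nat_lit 71))) (PT.nd (nat_lit 94) (PT.lf (nat_lit 19824) (nat_lit 6) (nat_lit 236) (nat_lit 3) (nat_lit 66) (nat_lit 53) (nat_lit 70)) (PT.nd (nat_lit 94) (PT.lf (nat_lit 19908) (nat_lit 6) (nat_lit 237) (nat_lit 3) (nat_lit 67) (nat_lit 53) (nat_lit 69)) (PT.lf (nat_lit 19992) (nat_lit 3) (nat_lit 238) (nat_lit 1) (nat_lit 68) (nat_lit 53) (nat_lit 68))))) (PT.nd (nat_lit 282) (PT.nd (nat_lit 94) (PT.lf (nat_lit 19908) (nat_lit 6) (nat_lit 237)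 (nat_lit 1) (nat_lit 69) (nat_lit 53) (nat_lit 67)) (PT.nd (nat_lit 94) (PT.lf (nat_lit 19824) (nat_lit 6) (nat_lit 236) (nat_lit 1) (nat_lit 70) (nat_lit 53) (nat_lit 66)) (PT.lf (nat_lit 19740) (nat_lit 6) (nat_lit 235) (nat_lit 1) (nat_lit 71) (nat_lit 53) (nat_lit 65)))) (PT.nd (nat_lit 94) (PT.lf (nat_lit 19656) (nat_lit 6) (nat_lit 234) (nat_lit 1) (nat_lit 72) (nat_lit 53) (nat_lit 64)) (PT.nd (nat_lit 94) (PT.lf (nat_lit 19572) (nat_lit 6) (nat_lit 233) (nat_lit 1) (nat_lit 73) (nat_lit 53) (nat_lit 63)) (PT.lf (nat_lit 18564) (nat_lit 6) (nat_lit 221) (nat_lit 1) (nat_lit 74) (nat_lit 53) (nat_lit 62)))))) (PT.nd (nat_lit 57810) (PT.nd (nat_lit 282) (PT.nd (nat_lit 94) (PT.lf (nat_lit 17472) (nat_lit 6) (nat_lit 208) (nat_lit 1) (nat_lit 75) (nat_lit 53) (nat_lit 61)) (PT.nd (nat_lit 94) (PT.lf (nat_lit 16296) (nat_lit 6) (nat_lit 194) (nat_lit 1) (nat_lit 76) (nat_lit 53) (nat_lit 60))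 (PT.lf (nat_lit 15036) (nat_lit 6) (nat_lit 179) (nat_lit 1) (nat_lit 77) (nat_lit 53) (nat_lit 59)))) (PT.nd (nat_lit 57340) (PT.lf (nat_lit 13692) (nat_lit 6) (nat_lit 163) (nat_lit 1) (nat_lit 78) (nat_lit 53) (nat_lit 58)) (PT.nd (nat_lit 94) (PT.lf (nat_lit 13608) (nat_lit 6) (nat_lit 162) (nat_lit 3) (nat_lit 57) (nat_lit 54) (nat_lit 78)) (PT.lf (nat_lit 14952) (nat_lit 6) (nat_lit 178) (nat_lit 3) (nat_lit 58) (nat_lit 54) (nat_lit 77))))) (PT.nd (nat_lit 282) (PT.nd (nat_lit 94) (PT.lf (nat_lit 16212) (nat_lit 6) (nat_lit 193) (nat_lit 3) (nat_lit 59) (nat_lit 54) (nat_lit 76)) (PT.nd (nat_lit 94) (PT.lf (nat_lit 17388) (nat_lit 6) (nat_lit 207) (nat_lit 3) (nat_lit 60) (nat_lit 54) (nat_lit 75)) (PT.lf (nat_lit 18480) (nat_lit 6) (nat_lit 220) (nat_lit 3) (nat_lit 61) (nat_lit 54) (nat_lit 74)))) (PT.nd (nat_lit 94) (PT.lf (nat_lit 19488) (nat_lit 6) (nat_lit 232) (nat_lit 3) (nat_lit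 62) (nat_lit 54) (nat_lit 73)) (PT.nd (nat_lit 94) (PT.lf (nat_lit 20412) (nat_lit 6) (nat_lit 243) (nat_lit 3) (nat_lit 63) (nat_lit 54) (nat_lit 72)) (PT.lf (nat_lit 20496) (nat_lit 6) (nat_lit 244) (nat_lit 3) (nat_lit 64) (nat_lit 54) (nat_lit 71))))))))
noncomputable def pc8 : PT := (PT.nd (nat_lit 59220) (PT.nd (nat_lit 1034) (PT.nd (nat_lit 470) (PT.nd (nat_lit 188) (PT.nd (nat_lit 94) (PT.lf (nat_lit 20580) (nat_lit 6) (nat_lit 245) (nat_lit 3) (nat_lit 65) (nat_lit 54) (nat_lit 70)) (PT.lf (nat_lit 20664) (nat_lit 6) (nat_lit 246) (nat_lit 3) (nat_lit 66) (nat_lit 54) (nat_lit 69))) (PT.nd (nat_lit 94) (PT.lf (nat_lit 20748) (nat_lit 6) (nat_lit 247) (nat_lit 3) (nat_lit 67) (nat_lit 54) (nat_lit 68)) (PT.nd (nat_lit 94) (PT.lf (nat_lit 20748) (nat_lit 6) (nat_lit 247) (nat_lit 1) (nat_lit 68) (nat_lit 54) (nat_lit 67)) (PT.lf (nat_lit 20664) (nat_lit 6) (nat_lit 246) (nat_lit 1) (nat_lit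 69) (nat_lit 54) (nat_lit 66))))) (PT.nd (nat_lit 282) (PT.nd (nat_lit 94) (PT.lf (nat_lit 20580) (nat_lit 6) (nat_lit 245) (nat_lit 1) (nat_lit 70) (nat_lit 54) (nat_lit 65)) (PT.nd (nat_lit 94) (PT.lf (nat_lit 20496) (nat_lit 6) (nat_lit 244) (nat_lit 1) (nat_lit 71) (nat_lit 54) (nat_lit 64)) (PT.lf (nat_lit 20412) (nat_lit 6) (nat_lit 243) (nat_lit 1) (nat_lit 72) (nat_lit 54) (nat_lit 63)))) (PT.nd (nat_lit 94) (PT.lf (nat_lit 19488) (nat_lit 6) (nat_lit 232) (nat_lit 1) (nat_lit 73) (nat_lit 54) (nat_lit 62)) (PT.nd (nat_lit 94) (PT.lf (nat_lit 18480) (nat_lit 6) (nat_lit 220) (nat_lit 1) (nat_lit 74) (nat_lit 54) (nat_lit 61)) (PT.lf (nat_lit 17388) (nat_lit 6) (nat_lit 207) (nat_lit 1) (nat_lit 75) (nat_lit 54) (nat_lit 60)))))) (PT.nd (nat_lit 57622) (PT.nd (nat_lit 188) (PT.nd (nat_lit 94) (PT.lf (nat_lit 16212) (nat_lit 6) (nat_lit 193) (nat_lit 1) (nat_lit 76) (nat_lit 54) (nat_lit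 59)) (PT.lf (nat_lit 14952) (nat_lit 6) (nat_lit 178) (nat_lit 1) (nat_lit 77) (nat_lit 54) (nat_lit 58))) (PT.nd (nat_lit 57246) (PT.lf (nat_lit 13608) (nat_lit 6) (nat_lit 162) (nat_lit 1) (nat_lit 78) (nat_lit 54) (nat_lit 57)) (PT.nd (nat_lit 94) (PT.lf (nat_lit 13524) (nat_lit 6) (nat_lit 161) (nat_lit 3) (nat_lit 56) (nat_lit 55) (nat_lit 78)) (PT.lf (nat_lit 14868) (nat_lit 6) (nat_lit 177) (nat_lit 3) (nat_lit 57) (nat_lit 55) (nat_lit 77))))) (PT.nd (nat_lit 282) (PT.nd (nat_lit 94) (PT.lf (nat_lit 16128) (nat_lit 6) (nat_lit 192) (nat_lit 3) (nat_lit 58) (nat_lit 55) (nat_lit 76)) (PT.nd (nat_lit 94) (PT.lf (nat_lit 17304) (nat_lit 6) (nat_lit 206) (nat_lit 3) (nat_lit 59) (nat_lit 55) (nat_lit 75)) (PT.lf (nat_lit 18396) (nat_lit 6) (nat_lit 219) (nat_lit 3) (nat_lit 60) (nat_lit 55) (nat_lit 74)))) (PT.nd (nat_lit 94) (PT.lf (nat_lit 19404) (nat_lit 6) (nat_lit 231) (nat_lit 3) (nat_lit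 61) (nat_lit 55) (nat_lit 73)) (PT.nd (nat_lit 94) (PT.lf (nat_lit 20328) (nat_lit 6) (nat_lit 242) (nat_lit 3) (nat_lit 62) (nat_lit 55) (nat_lit 72)) (PT.lf (nat_lit 21168) (nat_lit 6) (nat_lit 252) (nat_lit 3) (nat_lit 63) (nat_lit 55) (nat_lit 71))))))) (PT.nd (nat_lit 1034) (PT.nd (nat_lit 470) (PT.nd (nat_lit 188) (PT.nd (nat_lit 94) (PT.lf (nat_lit 21252) (nat_lit 6) (nat_lit 253) (nat_lit 3) (nat_lit 64) (nat_lit 55) (nat_lit 70)) (PT.lf (nat_lit 21336) (nat_lit 6) (nat_lit 254) (nat_lit 3) (nat_lit 65) (nat_lit 55) (nat_lit 69))) (PT.nd (nat_lit 94) (PT.lf (nat_lit 21420) (nat_lit 6) (nat_lit 255) (nat_lit 3) (nat_lit 66) (nat_lit 55) (nat_lit 68)) (PT.nd (nat_lit 94) (PT.lf (nat_lit 21504) (nat_lit 3) (nat_lit 256) (nat_lit 1) (nat_lit 67) (nat_lit 55) (nat_lit 67)) (PT.lf (nat_lit 21420) (nat_lit 6) (nat_lit 255) (nat_lit 1) (nat_lit 68) (nat_lit 55) (nat_lit 66))))) (PT.nd (nat_lit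 282) (PT.nd (nat_lit 94) (PT.lf (nat_lit 21336) (nat_lit 6) (nat_lit 254) (nat_lit 1) (nat_lit 69) (nat_lit 55) (nat_lit 65)) (PT.nd (nat_lit 94) (PT.lf (nat_lit 21252) (nat_lit 6) (nat_lit 253) (nat_lit 1) (nat_lit 70) (nat_lit 55) (nat_lit 64)) (PT.lf (nat_lit 21168) (nat_lit 6) (nat_lit 252) (nat_lit 1) (nat_lit 71) (nat_lit 55) (nat_lit 63)))) (PT.nd (nat_lit 94) (PT.lf (nat_lit 20328) (nat_lit 6) (nat_lit 242) (nat_lit 1) (nat_lit 72) (nat_lit 55) (nat_lit 62)) (PT.nd (nat_lit 94) (PT.lf (nat_lit 19404) (nat_lit 6) (nat_lit 231) (nat_lit 1) (nat_lit 73) (nat_lit 55) (nat_lit 61)) (PT.lf (nat_lit 18396) (nat_lit 6) (nat_lit 219) (nat_lit 1) (nat_lit 74) (nat_lit 55) (nat_lit 60)))))) (PT.nd (nat_lit 57622) (PT.nd (nat_lit 282) (PT.nd (nat_lit 94) (PT.lf (nat_lit 17304) (nat_lit 6) (nat_lit 206) (nat_lit 1) (nat_lit 75) (nat_lit 55) (nat_lit 59)) (PT.nd (nat_lit 94) (PT.lf (nat_lit 16128) (nat_lit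 6) (nat_lit 192) (nat_lit 1) (nat_lit 76) (nat_lit 55) (nat_lit 58)) (PT.lf (nat_lit 14868) (nat_lit 6) (nat_lit 177) (nat_lit 1) (nat_lit 77) (nat_lit 55) (nat_lit 57)))) (PT.nd (nat_lit 57152) (PT.lf (nat_lit 13524) (nat_lit 6) (nat_lit 161) (nat_lit 1) (nat_lit 78) (nat_lit 55) (nat_lit 56)) (PT.nd (nat_lit 94) (PT.lf (nat_lit 13524) (nat_lit 6) (nat_lit 161) (nat_lit 5) (nat_lit 55) (nat_lit 56) (nat_lit 78)) (PT.lf (nat_lit 14784) (nat_lit 3) (nat_lit 176) (nat_lit 3) (nat_lit 56) (nat_lit 56) (nat_lit 77))))) (PT.nd (nat_lit 282) (PT.nd (nat_lit 94) (PT.lf (nat_lit 16044) (nat_lit 6) (nat_lit 191) (nat_lit 3) (nat_lit 57) (nat_lit 56) (nat_lit 76)) (PT.nd (nat_lit 94) (PT.lf (nat_lit 17220) (nat_lit 6) (nat_lit 205) (nat_lit 3) (nat_lit 58) (nat_lit 56) (nat_lit 75)) (PT.lf (nat_lit 18312) (nat_lit 6) (nat_lit 218) (nat_lit 3) (nat_lit 59) (nat_lit 56) (nat_lit 74)))) (PT.nd (nat_lit 94)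 (PT.lf (nat_lit 19320) (nat_lit 6) (nat_lit 230) (nat_lit 3) (nat_lit 60) (nat_lit 56) (nat_lit 73)) (PT.nd (nat_lit 94) (PT.lf (nat_lit 20244) (nat_lit 6) (nat_lit 241) (nat_lit 3) (nat_lit 61) (nat_lit 56) (nat_lit 72)) (PT.lf (nat_lit 21084) (nat_lit 6) (nat_lit 251) (nat_lit 3) (nat_lit 62) (nat_lit 56) (nat_lit 71))))))))
noncomputable def pc9 : PT := (PT.nd (nat_lit 59032) (PT.nd (nat_lit 1034) (PT.nd (nat_lit 470) (PT.nd (nat_lit 188) (PT.nd (nat_lit 94) (PT.lf (nat_lit 21840) (nat_lit 6) (nat_lit 260) (nat_lit 3) (nat_lit 63) (nat_lit 56) (nat_lit 70)) (PT.lf (nat_lit 21924) (nat_lit 6) (nat_lit 261) (nat_lit 3) (nat_lit 64) (nat_lit 56) (nat_lit 69))) (PT.nd (nat_lit 94) (PT.lf (nat_lit 22008) (nat_lit 6) (nat_lit 262) (nat_lit 3) (nat_lit 65) (nat_lit 56) (nat_lit 68)) (PT.nd (nat_lit 94) (PT.lf (nat_lit 22092) (nat_lit 6) (nat_lit 263) (nat_lit 3) (nat_lit 66) (nat_lit 56) (nat_lit 67))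 (PT.lf (nat_lit 22092) (nat_lit 6) (nat_lit 263) (nat_lit 1) (nat_lit 67) (nat_lit 56) (nat_lit 66))))) (PT.nd (nat_lit 282) (PT.nd (nat_lit 94) (PT.lf (nat_lit 22008) (nat_lit 6) (nat_lit 262) (nat_lit 1) (nat_lit 68) (nat_lit 56) (nat_lit 65)) (PT.nd (nat_lit 94) (PT.lf (nat_lit 21924) (nat_lit 6) (nat_lit 261) (nat_lit 1) (nat_lit 69) (nat_lit 56) (nat_lit 64)) (PT.lf (nat_lit 21840) (nat_lit 6) (nat_lit 260) (nat_lit 1) (nat_lit 70) (nat_lit 56) (nat_lit 63)))) (PT.nd (nat_lit 94) (PT.lf (nat_lit 21084) (nat_lit 6) (nat_lit 251) (nat_lit 1) (nat_lit 71) (nat_lit 56) (nat_lit 62)) (PT.nd (nat_lit 94) (PT.lf (nat_lit 20244) (nat_lit 6) (nat_lit 241) (nat_lit 1) (nat_lit 72) (nat_lit 56) (nat_lit 61)) (PT.lf (nat_lit 19320) (nat_lit 6) (nat_lit 230) (nat_lit 1) (nat_lit 73) (nat_lit 56) (nat_lit 60)))))) (PT.nd (nat_lit 57434) (PT.nd (nat_lit 188) (PT.nd (nat_lit 94) (PT.lf (nat_lit 18312) (nat_lit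 6) (nat_lit 218) (nat_lit 1) (nat_lit 74) (nat_lit 56) (nat_lit 59)) (PT.lf (nat_lit 17220) (nat_lit 6) (nat_lit 205) (nat_lit 1) (nat_lit 75) (nat_lit 56) (nat_lit 58))) (PT.nd (nat_lit 94) (PT.lf (nat_lit 16044) (nat_lit 6) (nat_lit 191) (nat_lit 1) (nat_lit 76) (nat_lit 56) (nat_lit 57)) (PT.nd (nat_lit 94) (PT.lf (nat_lit 14784) (nat_lit 3) (nat_lit 176) (nat_lit 0) (nat_lit 77) (nat_lit 56) (nat_lit 56)) (PT.lf (nat_lit 13524) (nat_lit 6) (nat_lit 161) (nat_lit 0) (nat_lit 78) (nat_lit 56) (nat_lit 55))))) (PT.nd (nat_lit 282) (PT.nd (nat_lit 94) (PT.lf (nat_lit 13608) (nat_lit 6) (nat_lit 162) (nat_lit 5) (nat_lit 54) (nat_lit 57) (nat_lit 78)) (PT.nd (nat_lit 94) (PT.lf (nat_lit 14868) (nat_lit 6) (nat_lit 177) (nat_lit 5) (nat_lit 55) (nat_lit 57) (nat_lit 77)) (PT.lf (nat_lit 16044) (nat_lit 6) (nat_lit 191) (nat_lit 5) (nat_lit 56) (nat_lit 57) (nat_lit 76)))) (PT.nd (nat_lit 94) (PT.lf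 (nat_lit 17136) (nat_lit 3) (nat_lit 204) (nat_lit 3) (nat_lit 57) (nat_lit 57) (nat_lit 75)) (PT.nd (nat_lit 94) (PT.lf (nat_lit 18228) (nat_lit 6) (nat_lit 217) (nat_lit 3) (nat_lit 58) (nat_lit 57) (nat_lit 74)) (PT.lf (nat_lit 19236) (nat_lit 6) (nat_lit 229) (nat_lit 3) (nat_lit 59) (nat_lit 57) (nat_lit 73))))))) (PT.nd (nat_lit 1034) (PT.nd (nat_lit 470) (PT.nd (nat_lit 188) (PT.nd (nat_lit 94) (PT.lf (nat_lit 20160) (nat_lit 6) (nat_lit 240) (nat_lit 3) (nat_lit 60) (nat_lit 57) (nat_lit 72)) (PT.lf (nat_lit 21000) (nat_lit 6) (nat_lit 250) (nat_lit 3) (nat_lit 61) (nat_lit 57) (nat_lit 71))) (PT.nd (nat_lit 94) (PT.lf (nat_lit 21756) (nat_lit 6) (nat_lit 259) (nat_lit 3) (nat_lit 62) (nat_lit 57) (nat_lit 70)) (PT.nd (nat_lit 94) (PT.lf (nat_lit 22428) (nat_lit 6) (nat_lit 267) (nat_lit 3) (nat_lit 63) (nat_lit 57) (nat_lit 69)) (PT.lf (nat_lit 22512) (nat_lit 6) (nat_lit 268) (nat_lit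 3) (nat_lit 64) (nat_lit 57) (nat_lit 68))))) (PT.nd (nat_lit 282) (PT.nd (nat_lit 94) (PT.lf (nat_lit 22596) (nat_lit 6) (nat_lit 269) (nat_lit 3) (nat_lit 65) (nat_lit 57) (nat_lit 67)) (PT.nd (nat_lit 94) (PT.lf (nat_lit 22680) (nat_lit 3) (nat_lit 270) (nat_lit 1) (nat_lit 66) (nat_lit 57) (nat_lit 66)) (PT.lf (nat_lit 22596) (nat_lit 6) (nat_lit 269) (nat_lit 1) (nat_lit 67) (nat_lit 57) (nat_lit 65)))) (PT.nd (nat_lit 94) (PT.lf (nat_lit 22512) (nat_lit 6) (nat_lit 268) (nat_lit 1) (nat_lit 68) (nat_lit 57) (nat_lit 64)) (PT.nd (nat_lit 94) (PT.lf (nat_lit 22428) (nat_lit 6) (nat_lit 267) (nat_lit 1) (nat_lit 69) (nat_lit 57) (nat_lit 63)) (PT.lf (nat_lit 21756) (nat_lit 6) (nat_lit 259) (nat_lit 1) (nat_lit 70) (nat_lit 57) (nat_lit 62)))))) (PT.nd (nat_lit 564) (PT.nd (nat_lit 282) (PT.nd (nat_lit 94) (PT.lf (nat_lit 21000) (nat_lit 6) (nat_lit 250) (nat_lit 1) (nat_lit 71) (nat_lit 57)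 (nat_lit 61)) (PT.nd (nat_lit 94) (PT.lf (nat_lit 20160) (nat_lit 6) (nat_lit 240) (nat_lit 1) (nat_lit 72) (nat_lit 57) (nat_lit 60)) (PT.lf (nat_lit 19236) (nat_lit 6) (nat_lit 229) (nat_lit 1) (nat_lit 73) (nat_lit 57) (nat_lit 59)))) (PT.nd (nat_lit 94) (PT.lf (nat_lit 18228) (nat_lit 6) (nat_lit 217) (nat_lit 1) (nat_lit 74) (nat_lit 57) (nat_lit 58)) (PT.nd (nat_lit 94) (PT.lf (nat_lit 17136) (nat_lit 3) (nat_lit 204) (nat_lit 0) (nat_lit 75) (nat_lit 57) (nat_lit 57)) (PT.lf (nat_lit 16044) (nat_lit 6) (nat_lit 191) (nat_lit 0) (nat_lit 76) (nat_lit 57) (nat_lit 56))))) (PT.nd (nat_lit 57152) (PT.nd (nat_lit 94) (PT.lf (nat_lit 14868) (nat_lit 6) (nat_lit 177) (nat_lit 0) (nat_lit 77) (nat_lit 57) (nat_lit 55)) (PT.nd (nat_lit 56964) (PT.lf (nat_lit 13608) (nat_lit 6) (nat_lit 162) (nat_lit 0) (nat_lit 78) (nat_lit 57) (nat_lit 54)) (PT.lf (nat_lit 13692) (nat_lit 6) (nat_lit 163) (nat_lit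 5) (nat_lit 53) (nat_lit 58) (nat_lit 78)))) (PT.nd (nat_lit 94) (PT.lf (nat_lit 14952) (nat_lit 6) (nat_lit 178) (nat_lit 5) (nat_lit 54) (nat_lit 58) (nat_lit 77)) (PT.nd (nat_lit 94) (PT.lf (nat_lit 16128) (nat_lit 6) (nat_lit 192) (nat_lit 5) (nat_lit 55) (nat_lit 58) (nat_lit 76)) (PT.lf (nat_lit 17220) (nat_lit 6) (nat_lit 205) (nat_lit 5) (nat_lit 56) (nat_lit 58) (nat_lit 75))))))))
noncomputable def pc10 : PT := (PT.nd (nat_lit 58844) (PT.nd (nat_lit 1034) (PT.nd (nat_lit 470) (PT.nd (nat_lit 188) (PT.nd (nat_lit 94) (PT.lf (nat_lit 18228) (nat_lit 6) (nat_lit 217) (nat_lit 5) (nat_lit 57) (nat_lit 58) (nat_lit 74)) (PT.lf (nat_lit 19152) (nat_lit 3) (nat_lit 228) (nat_lit 3) (nat_lit 58) (nat_lit 58) (nat_lit 73))) (PT.nd (nat_lit 94) (PT.lf (nat_lit 20076) (nat_lit 6) (nat_lit 239) (nat_lit 3) (nat_lit 59) (nat_lit 58) (nat_lit 72)) (PT.nd (nat_lit 94) (PT.lf (nat_lit 20916) (nat_lit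 6) (nat_lit 249) (nat_lit 3) (nat_lit 60) (nat_lit 58) (nat_lit 71)) (PT.lf (nat_lit 21672) (nat_lit 6) (nat_lit 258) (nat_lit 3) (nat_lit 61) (nat_lit 58) (nat_lit 70))))) (PT.nd (nat_lit 282) (PT.nd (nat_lit 94) (PT.lf (nat_lit 22344) (nat_lit 6) (nat_lit 266) (nat_lit 3) (nat_lit 62) (nat_lit 58) (nat_lit 69)) (PT.nd (nat_lit 94) (PT.lf (nat_lit 22932) (nat_lit 6) (nat_lit 273) (nat_lit 3) (nat_lit 63) (nat_lit 58) (nat_lit 68)) (PT.lf (nat_lit 23016) (nat_lit 6) (nat_lit 274) (nat_lit 3) (nat_lit 64) (nat_lit 58) (nat_lit 67)))) (PT.nd (nat_lit 94) (PT.lf (nat_lit 23100) (nat_lit 6) (nat_lit 275) (nat_lit 3) (nat_lit 65) (nat_lit 58) (nat_lit 66)) (PT.nd (nat_lit 94) (PT.lf (nat_lit 23100) (nat_lit 6) (nat_lit 275) (nat_lit 1) (nat_lit 66) (nat_lit 58) (nat_lit 65)) (PT.lf (nat_lit 23016) (nat_lit 6) (nat_lit 274) (nat_lit 1) (nat_lit 67) (nat_lit 58) (nat_lit 64)))))) (PT.nd (nat_lit 470)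 (PT.nd (nat_lit 188) (PT.nd (nat_lit 94) (PT.lf (nat_lit 22932) (nat_lit 6) (nat_lit 273) (nat_lit 1) (nat_lit 68) (nat_lit 58) (nat_lit 63)) (PT.lf (nat_lit 22344) (nat_lit 6) (nat_lit 266) (nat_lit 1) (nat_lit 69) (nat_lit 58) (nat_lit 62))) (PT.nd (nat_lit 94) (PT.lf (nat_lit 21672) (nat_lit 6) (nat_lit 258) (nat_lit 1) (nat_lit 70) (nat_lit 58) (nat_lit 61)) (PT.nd (nat_lit 94) (PT.lf (nat_lit 20916) (nat_lit 6) (nat_lit 249) (nat_lit 1) (nat_lit 71) (nat_lit 58) (nat_lit 60)) (PT.lf (nat_lit 20076) (nat_lit 6) (nat_lit 239) (nat_lit 1) (nat_lit 72) (nat_lit 58) (nat_lit 59))))) (PT.nd (nat_lit 282) (PT.nd (nat_lit 94) (PT.lf (nat_lit 19152) (nat_lit 3) (nat_lit 228) (nat_lit 0) (nat_lit 73) (nat_lit 58) (nat_lit 58)) (PT.nd (nat_lit 94) (PT.lf (nat_lit 18228) (nat_lit 6) (nat_lit 217) (nat_lit 0) (nat_lit 74) (nat_lit 58) (nat_lit 57)) (PT.lf (nat_lit 17220) (nat_lit 6) (nat_lit 205) (nat_lit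 0) (nat_lit 75) (nat_lit 58) (nat_lit 56)))) (PT.nd (nat_lit 94) (PT.lf (nat_lit 16128) (nat_lit 6) (nat_lit 192) (nat_lit 0) (nat_lit 76) (nat_lit 58) (nat_lit 55)) (PT.nd (nat_lit 94) (PT.lf (nat_lit 14952) (nat_lit 6) (nat_lit 178) (nat_lit 0) (nat_lit 77) (nat_lit 58) (nat_lit 54)) (PT.lf (nat_lit 13692) (nat_lit 6) (nat_lit 163) (nat_lit 0) (nat_lit 78) (nat_lit 58) (nat_lit 53))))))) (PT.nd (nat_lit 1034) (PT.nd (nat_lit 470) (PT.nd (nat_lit 188) (PT.nd (nat_lit 94) (PT.lf (nat_lit 13776) (nat_lit 6) (nat_lit 164) (nat_lit 5) (nat_lit 52) (nat_lit 59) (nat_lit 78)) (PT.lf (nat_lit 15036) (nat_lit 6) (nat_lit 179) (nat_lit 5) (nat_lit 53) (nat_lit 59) (nat_lit 77))) (PT.nd (nat_lit 94) (PT.lf (nat_lit 16212) (nat_lit 6) (nat_lit 193) (nat_lit 5) (nat_lit 54) (nat_lit 59) (nat_lit 76)) (PT.nd (nat_lit 94) (PT.lf (nat_lit 17304) (nat_lit 6) (nat_lit 206) (nat_lit 5) (nat_lit 55) (nat_lit 59)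 (nat_lit 75)) (PT.lf (nat_lit 18312) (nat_lit 6) (nat_lit 218) (nat_lit 5) (nat_lit 56) (nat_lit 59) (nat_lit 74))))) (PT.nd (nat_lit 282) (PT.nd (nat_lit 94) (PT.lf (nat_lit 19236) (nat_lit 6) (nat_lit 229) (nat_lit 5) (nat_lit 57) (nat_lit 59) (nat_lit 73)) (PT.nd (nat_lit 94) (PT.lf (nat_lit 20076) (nat_lit 6) (nat_lit 239) (nat_lit 5) (nat_lit 58) (nat_lit 59) (nat_lit 72)) (PT.lf (nat_lit 20832) (nat_lit 3) (nat_lit 248) (nat_lit 3) (nat_lit 59) (nat_lit 59) (nat_lit 71)))) (PT.nd (nat_lit 94) (PT.lf (nat_lit 21588) (nat_lit 6) (nat_lit 257) (nat_lit 3) (nat_lit 60) (nat_lit 59) (nat_lit 70)) (PT.nd (nat_lit 94) (PT.lf (nat_lit 22260) (nat_lit 6) (nat_lit 265) (nat_lit 3) (nat_lit 61) (nat_lit 59) (nat_lit 69)) (PT.lf (nat_lit 22848) (nat_lit 6) (nat_lit 272) (nat_lit 3) (nat_lit 62) (nat_lit 59) (nat_lit 68)))))) (PT.nd (nat_lit 564) (PT.nd (nat_lit 282) (PT.nd (nat_lit 94) (PT.lf (nat_lit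 23352) (nat_lit 6) (nat_lit 278) (nat_lit 3) (nat_lit 63) (nat_lit 59) (nat_lit 67)) (PT.nd (nat_lit 94) (PT.lf (nat_lit 23436) (nat_lit 6) (nat_lit 279) (nat_lit 3) (nat_lit 64) (nat_lit 59) (nat_lit 66)) (PT.lf (nat_lit 23520) (nat_lit 3) (nat_lit 280) (nat_lit 1) (nat_lit 65) (nat_lit 59) (nat_lit 65)))) (PT.nd (nat_lit 94) (PT.lf (nat_lit 23436) (nat_lit 6) (nat_lit 279) (nat_lit 1) (nat_lit 66) (nat_lit 59) (nat_lit 64)) (PT.nd (nat_lit 94) (PT.lf (nat_lit 23352) (nat_lit 6) (nat_lit 278) (nat_lit 1) (nat_lit 67) (nat_lit 59) (nat_lit 63)) (PT.lf (nat_lit 22848) (nat_lit 6) (nat_lit 272) (nat_lit 1) (nat_lit 68) (nat_lit 59) (nat_lit 62))))) (PT.nd (nat_lit 282) (PT.nd (nat_lit 94) (PT.lf (nat_lit 22260) (nat_lit 6) (nat_lit 265) (nat_lit 1) (nat_lit 69) (nat_lit 59) (nat_lit 61)) (PT.nd (nat_lit 94) (PT.lf (nat_lit 21588) (nat_lit 6) (nat_lit 257) (nat_lit 1) (nat_lit 70) (nat_lit 59) (nat_lit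 60)) (PT.lf (nat_lit 20832) (nat_lit 3) (nat_lit 248) (nat_lit 0) (nat_lit 71) (nat_lit 59) (nat_lit 59)))) (PT.nd (nat_lit 94) (PT.lf (nat_lit 20076) (nat_lit 6) (nat_lit 239) (nat_lit 0) (nat_lit 72) (nat_lit 59) (nat_lit 58)) (PT.nd (nat_lit 94) (PT.lf (nat_lit 19236) (nat_lit 6) (nat_lit 229) (nat_lit 0) (nat_lit 73) (nat_lit 59) (nat_lit 57)) (PT.lf (nat_lit 18312) (nat_lit 6) (nat_lit 218) (nat_lit 0) (nat_lit 74) (nat_lit 59) (nat_lit 56))))))))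
noncomputable def pc11 : PT := (PT.nd (nat_lit 58844) (PT.nd (nat_lit 57716) (PT.nd (nat_lit 57152) (PT.nd (nat_lit 188) (PT.nd (nat_lit 94) (PT.lf (nat_lit 17304) (nat_lit 6) (nat_lit 206) (nat_lit 0) (nat_lit 75) (nat_lit 59) (nat_lit 55)) (PT.lf (nat_lit 16212) (nat_lit 6) (nat_lit 193) (nat_lit 0) (nat_lit 76) (nat_lit 59) (nat_lit 54))) (PT.nd (nat_lit 94) (PT.lf (nat_lit 15036) (nat_lit 6) (nat_lit 179) (nat_lit 0) (nat_lit 77) (nat_lit 59) (nat_lit 53)) (PT.nd (nat_lit 56776) (PT.lf (nat_lit 13776) (nat_lit 6) (nat_lit 164) (nat_lit 0) (nat_lit 78) (nat_lit 59) (nat_lit 52)) (PT.lf (nat_lit 13860) (nat_lit 6) (nat_lit 165) (nat_lit 5) (nat_lit 51) (nat_lit 60) (nat_lit 78))))) (PT.nd (nat_lit 282) (PT.nd (nat_lit 94) (PT.lf (nat_lit 15120) (nat_lit 6) (nat_lit 180) (nat_lit 5) (nat_lit 52) (nat_lit 60) (nat_lit 77)) (PT.nd (nat_lit 94) (PT.lf (nat_lit 16296) (nat_lit 6) (nat_lit 194) (nat_lit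 5) (nat_lit 53) (nat_lit 60) (nat_lit 76)) (PT.lf (nat_lit 17388) (nat_lit 6) (nat_lit 207) (nat_lit 5) (nat_lit 54) (nat_lit 60) (nat_lit 75)))) (PT.nd (nat_lit 94) (PT.lf (nat_lit 18396) (nat_lit 6) (nat_lit 219) (nat_lit 5) (nat_lit 55) (nat_lit 60) (nat_lit 74)) (PT.nd (nat_lit 94) (PT.lf (nat_lit 19320) (nat_lit 6) (nat_lit 230) (nat_lit 5) (nat_lit 56) (nat_lit 60) (nat_lit 73)) (PT.lf (nat_lit 20160) (nat_lit 6) (nat_lit 240) (nat_lit 5) (nat_lit 57) (nat_lit 60) (nat_lit 72)))))) (PT.nd (nat_lit 564) (PT.nd (nat_lit 282) (PT.nd (nat_lit 94) (PT.lf (nat_lit 20916) (nat_lit 6) (nat_lit 249) (nat_lit 5) (nat_lit 58) (nat_lit 60) (nat_lit 71)) (PT.nd (nat_lit 94) (PT.lf (nat_lit 21588) (nat_lit 6) (nat_lit 257) (nat_lit 5) (nat_lit 59) (nat_lit 60) (nat_lit 70)) (PT.lf (nat_lit 22176) (nat_lit 3) (nat_lit 264) (nat_lit 3) (nat_lit 60) (nat_lit 60) (nat_lit 69)))) (PT.nd (nat_lit 94) (PT.lf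 (nat_lit 22764) (nat_lit 6) (nat_lit 271) (nat_lit 3) (nat_lit 61) (nat_lit 60) (nat_lit 68)) (PT.nd (nat_lit 94) (PT.lf (nat_lit 23268) (nat_lit 6) (nat_lit 277) (nat_lit 3) (nat_lit 62) (nat_lit 60) (nat_lit 67)) (PT.lf (nat_lit 23688) (nat_lit 6) (nat_lit 282) (nat_lit 3) (nat_lit 63) (nat_lit 60) (nat_lit 66))))) (PT.nd (nat_lit 282) (PT.nd (nat_lit 94) (PT.lf (nat_lit 23772) (nat_lit 6) (nat_lit 283) (nat_lit 3) (nat_lit 64) (nat_lit 60) (nat_lit 65)) (PT.nd (nat_lit 94) (PT.lf (nat_lit 23772) (nat_lit 6) (nat_lit 283) (nat_lit 1) (nat_lit 65) (nat_lit 60) (nat_lit 64)) (PT.lf (nat_lit 23688) (nat_lit 6) (nat_lit 282) (nat_lit 1) (nat_lit 66) (nat_lit 60) (nat_lit 63)))) (PT.nd (nat_lit 94) (PT.lf (nat_lit 23268) (nat_lit 6) (nat_lit 277) (nat_lit 1) (nat_lit 67) (nat_lit 60) (nat_lit 62)) (PT.nd (nat_lit 94) (PT.lf (nat_lit 22764) (nat_lit 6) (nat_lit 271) (nat_lit 1) (nat_lit 68) (nat_lit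 60) (nat_lit 61)) (PT.lf (nat_lit 22176) (nat_lit 3) (nat_lit 264) (nat_lit 0) (nat_lit 69) (nat_lit 60) (nat_lit 60))))))) (PT.nd (nat_lit 57622) (PT.nd (nat_lit 470) (PT.nd (nat_lit 188) (PT.nd (nat_lit 94) (PT.lf (nat_lit 21588) (nat_lit 6) (nat_lit 257) (nat_lit 0) (nat_lit 70) (nat_lit 60) (nat_lit 59)) (PT.lf (nat_lit 20916) (nat_lit 6) (nat_lit 249) (nat_lit 0) (nat_lit 71) (nat_lit 60) (nat_lit 58))) (PT.nd (nat_lit 94) (PT.lf (nat_lit 20160) (nat_lit 6) (nat_lit 240) (nat_lit 0) (nat_lit 72) (nat_lit 60) (nat_lit 57)) (PT.nd (nat_lit 94) (PT.lf (nat_lit 19320) (nat_lit 6) (nat_lit 230) (nat_lit 0) (nat_lit 73) (nat_lit 60) (nat_lit 56)) (PT.lf (nat_lit 18396) (nat_lit 6) (nat_lit 219) (nat_lit 0) (nat_lit 74) (nat_lit 60) (nat_lit 55))))) (PT.nd (nat_lit 282) (PT.nd (nat_lit 94) (PT.lf (nat_lit 17388) (nat_lit 6) (nat_lit 207) (nat_lit 0) (nat_lit 75) (nat_lit 60) (nat_lit 54)) (PT.nd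 (nat_lit 94) (PT.lf (nat_lit 16296) (nat_lit 6) (nat_lit 194) (nat_lit 0) (nat_lit 76) (nat_lit 60) (nat_lit 53)) (PT.lf (nat_lit 15120) (nat_lit 6) (nat_lit 180) (nat_lit 0) (nat_lit 77) (nat_lit 60) (nat_lit 52)))) (PT.nd (nat_lit 56682) (PT.lf (nat_lit 13860) (nat_lit 6) (nat_lit 165) (nat_lit 0) (nat_lit 78) (nat_lit 60) (nat_lit 51)) (PT.nd (nat_lit 94) (PT.lf (nat_lit 13944) (nat_lit 6) (nat_lit 166) (nat_lit 5) (nat_lit 50) (nat_lit 61) (nat_lit 78)) (PT.lf (nat_lit 15204) (nat_lit 6) (nat_lit 181) (nat_lit 5) (nat_lit 51) (nat_lit 61) (nat_lit 77)))))) (PT.nd (nat_lit 564) (PT.nd (nat_lit 282) (PT.nd (nat_lit 94) (PT.lf (nat_lit 16380) (nat_lit 6) (nat_lit 195) (nat_lit 5) (nat_lit 52) (nat_lit 61) (nat_lit 76)) (PT.nd (nat_lit 94) (PT.lf (nat_lit 17472) (nat_lit 6) (nat_lit 208) (nat_lit 5) (nat_lit 53) (nat_lit 61) (nat_lit 75)) (PT.lf (nat_lit 18480) (nat_lit 6) (nat_lit 220) (nat_lit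 5) (nat_lit 54) (nat_lit 61) (nat_lit 74)))) (PT.nd (nat_lit 94) (PT.lf (nat_lit 19404) (nat_lit 6) (nat_lit 231) (nat_lit 5) (nat_lit 55) (nat_lit 61) (nat_lit 73)) (PT.nd (nat_lit 94) (PT.lf (nat_lit 20244) (nat_lit 6) (nat_lit 241) (nat_lit 5) (nat_lit 56) (nat_lit 61) (nat_lit 72)) (PT.lf (nat_lit 21000) (nat_lit 6) (nat_lit 250) (nat_lit 5) (nat_lit 57) (nat_lit 61) (nat_lit 71))))) (PT.nd (nat_lit 282) (PT.nd (nat_lit 94) (PT.lf (nat_lit 21672) (nat_lit 6) (nat_lit 258) (nat_lit 5) (nat_lit 58) (nat_lit 61) (nat_lit 70)) (PT.nd (nat_lit 94) (PT.lf (nat_lit 22260) (nat_lit 6) (nat_lit 265) (nat_lit 5) (nat_lit 59) (nat_lit 61) (nat_lit 69)) (PT.lf (nat_lit 22764) (nat_lit 6) (nat_lit 271) (nat_lit 5) (nat_lit 60) (nat_lit 61) (nat_lit 68)))) (PT.nd (nat_lit 94) (PT.lf (nat_lit 23184) (nat_lit 3) (nat_lit 276) (nat_lit 3) (nat_lit 61) (nat_lit 61) (nat_lit 67)) (PT.nd (nat_lit 94) (PT.lf (nat_lit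 23604) (nat_lit 6) (nat_lit 281) (nat_lit 3) (nat_lit 62) (nat_lit 61) (nat_lit 66)) (PT.lf (nat_lit 23940) (nat_lit 6) (nat_lit 285) (nat_lit 3) (nat_lit 63) (nat_lit 61) (nat_lit 65))))))))
noncomputable def pc12 : PT := (PT.nd (nat_lit 58562) (PT.nd (nat_lit 1034) (PT.nd (nat_lit 470) (PT.nd (nat_lit 188) (PT.nd (nat_lit 94) (PT.lf (nat_lit 24024) (nat_lit 3) (nat_lit 286) (nat_lit 1) (nat_lit 64) (nat_lit 61) (nat_lit 64)) (PT.lf (nat_lit 23940) (nat_lit 6) (nat_lit 285) (nat_lit 1) (nat_lit 65) (nat_lit 61) (nat_lit 63))) (PT.nd (nat_lit 94) (PT.lf (nat_lit 23604) (nat_lit 6) (nat_lit 281) (nat_lit 1) (nat_lit 66) (nat_lit 61) (nat_lit 62)) (PT.nd (nat_lit 94) (PT.lf (nat_lit 23184) (nat_lit 3) (nat_lit 276) (nat_lit 0) (nat_lit 67) (nat_lit 61) (nat_lit 61)) (PT.lf (nat_lit 22764) (nat_lit 6) (nat_lit 271) (nat_lit 0) (nat_lit 68) (nat_lit 61) (nat_lit 60))))) (PT.nd (nat_lit 282) (PT.nd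 (nat_lit 94) (PT.lf (nat_lit 22260) (nat_lit 6) (nat_lit 265) (nat_lit 0) (nat_lit 69) (nat_lit 61) (nat_lit 59)) (PT.nd (nat_lit 94) (PT.lf (nat_lit 21672) (nat_lit 6) (nat_lit 258) (nat_lit 0) (nat_lit 70) (nat_lit 61) (nat_lit 58)) (PT.lf (nat_lit 21000) (nat_lit 6) (nat_lit 250) (nat_lit 0) (nat_lit 71) (nat_lit 61) (nat_lit 57)))) (PT.nd (nat_lit 94) (PT.lf (nat_lit 20244) (nat_lit 6) (nat_lit 241) (nat_lit 0) (nat_lit 72) (nat_lit 61) (nat_lit 56)) (PT.nd (nat_lit 94) (PT.lf (nat_lit 19404) (nat_lit 6) (nat_lit 231) (nat_lit 0) (nat_lit 73) (nat_lit 61) (nat_lit 55)) (PT.lf (nat_lit 18480) (nat_lit 6) (nat_lit 220) (nat_lit 0) (nat_lit 74) (nat_lit 61) (nat_lit 54)))))) (PT.nd (nat_lit 56964) (PT.nd (nat_lit 188) (PT.nd (nat_lit 94) (PT.lf (nat_lit 17472) (nat_lit 6) (nat_lit 208) (nat_lit 0) (nat_lit 75) (nat_lit 61) (nat_lit 53)) (PT.lf (nat_lit 16380) (nat_lit 6) (nat_lit 195) (nat_lit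 0) (nat_lit 76) (nat_lit 61) (nat_lit 52))) (PT.nd (nat_lit 94) (PT.lf (nat_lit 15204) (nat_lit 6) (nat_lit 181) (nat_lit 0) (nat_lit 77) (nat_lit 61) (nat_lit 51)) (PT.nd (nat_lit 56588) (PT.lf (nat_lit 13944) (nat_lit 6) (nat_lit 166) (nat_lit 0) (nat_lit 78) (nat_lit 61) (nat_lit 50)) (PT.lf (nat_lit 14028) (nat_lit 6) (nat_lit 167) (nat_lit 5) (nat_lit 49) (nat_lit 62) (nat_lit 78))))) (PT.nd (nat_lit 282) (PT.nd (nat_lit 94) (PT.lf (nat_lit 15288) (nat_lit 6) (nat_lit 182) (nat_lit 5) (nat_lit 50) (nat_lit 62) (nat_lit 77)) (PT.nd (nat_lit 94) (PT.lf (nat_lit 16464) (nat_lit 6) (nat_lit 196) (nat_lit 5) (nat_lit 51) (nat_lit 62) (nat_lit 76)) (PT.lf (nat_lit 17556) (nat_lit 6) (nat_lit 209) (nat_lit 5) (nat_lit 52) (nat_lit 62) (nat_lit 75)))) (PT.nd (nat_lit 94) (PT.lf (nat_lit 18564) (nat_lit 6) (nat_lit 221) (nat_lit 5) (nat_lit 53) (nat_lit 62) (nat_lit 74)) (PT.nd (nat_lit 94) (PT.lf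 (nat_lit 19488) (nat_lit 6) (nat_lit 232) (nat_lit 5) (nat_lit 54) (nat_lit 62) (nat_lit 73)) (PT.lf (nat_lit 20328) (nat_lit 6) (nat_lit 242) (nat_lit 5) (nat_lit 55) (nat_lit 62) (nat_lit 72))))))) (PT.nd (nat_lit 1034) (PT.nd (nat_lit 470) (PT.nd (nat_lit 188) (PT.nd (nat_lit 94) (PT.lf (nat_lit 21084) (nat_lit 6) (nat_lit 251) (nat_lit 5) (nat_lit 56) (nat_lit 62) (nat_lit 71)) (PT.lf (nat_lit 21756) (nat_lit 6) (nat_lit 259) (nat_lit 5) (nat_lit 57) (nat_lit 62) (nat_lit 70))) (PT.nd (nat_lit 94) (PT.lf (nat_lit 22344) (nat_lit 6) (nat_lit 266) (nat_lit 5) (nat_lit 58) (nat_lit 62) (nat_lit 69)) (PT.nd (nat_lit 94) (PT.lf (nat_lit 22848) (nat_lit 6) (nat_lit 272) (nat_lit 5) (nat_lit 59) (nat_lit 62) (nat_lit 68)) (PT.lf (nat_lit 23268) (nat_lit 6) (nat_lit 277) (nat_lit 5) (nat_lit 60) (nat_lit 62) (nat_lit 67))))) (PT.nd (nat_lit 282) (PT.nd (nat_lit 94) (PT.lf (nat_lit 23604) (nat_lit 6)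 (nat_lit 281) (nat_lit 5) (nat_lit 61) (nat_lit 62) (nat_lit 66)) (PT.nd (nat_lit 94) (PT.lf (nat_lit 23856) (nat_lit 3) (nat_lit 284) (nat_lit 3) (nat_lit 62) (nat_lit 62) (nat_lit 65)) (PT.lf (nat_lit 24108) (nat_lit 6) (nat_lit 287) (nat_lit 3) (nat_lit 63) (nat_lit 62) (nat_lit 64)))) (PT.nd (nat_lit 94) (PT.lf (nat_lit 24108) (nat_lit 6) (nat_lit 287) (nat_lit 1) (nat_lit 64) (nat_lit 62) (nat_lit 63)) (PT.nd (nat_lit 94) (PT.lf (nat_lit 23856) (nat_lit 3) (nat_lit 284) (nat_lit 0) (nat_lit 65) (nat_lit 62) (nat_lit 62)) (PT.lf (nat_lit 23604) (nat_lit 6) (nat_lit 281) (nat_lit 0) (nat_lit 66) (nat_lit 62) (nat_lit 61)))))) (PT.nd (nat_lit 564) (PT.nd (nat_lit 282) (PT.nd (nat_lit 94) (PT.lf (nat_lit 23268) (nat_lit 6) (nat_lit 277) (nat_lit 0) (nat_lit 67) (nat_lit 62) (nat_lit 60)) (PT.nd (nat_lit 94) (PT.lf (nat_lit 22848) (nat_lit 6) (nat_lit 272) (nat_lit 0) (nat_lit 68) (nat_lit 62)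 (nat_lit 59)) (PT.lf (nat_lit 22344) (nat_lit 6) (nat_lit 266) (nat_lit 0) (nat_lit 69) (nat_lit 62) (nat_lit 58)))) (PT.nd (nat_lit 94) (PT.lf (nat_lit 21756) (nat_lit 6) (nat_lit 259) (nat_lit 0) (nat_lit 70) (nat_lit 62) (nat_lit 57)) (PT.nd (nat_lit 94) (PT.lf (nat_lit 21084) (nat_lit 6) (nat_lit 251) (nat_lit 0) (nat_lit 71) (nat_lit 62) (nat_lit 56)) (PT.lf (nat_lit 20328) (nat_lit 6) (nat_lit 242) (nat_lit 0) (nat_lit 72) (nat_lit 62) (nat_lit 55))))) (PT.nd (nat_lit 282) (PT.nd (nat_lit 94) (PT.lf (nat_lit 19488) (nat_lit 6) (nat_lit 232) (nat_lit 0) (nat_lit 73) (nat_lit 62) (nat_lit 54)) (PT.nd (nat_lit 94) (PT.lf (nat_lit 18564) (nat_lit 6) (nat_lit 221) (nat_lit 0) (nat_lit 74) (nat_lit 62) (nat_lit 53)) (PT.lf (nat_lit 17556) (nat_lit 6) (nat_lit 209) (nat_lit 0) (nat_lit 75) (nat_lit 62) (nat_lit 52)))) (PT.nd (nat_lit 94) (PT.lf (nat_lit 16464) (nat_lit 6) (nat_lit 196) (nat_lit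 0) (nat_lit 76) (nat_lit 62) (nat_lit 51)) (PT.nd (nat_lit 94) (PT.lf (nat_lit 15288) (nat_lit 6) (nat_lit 182) (nat_lit 0) (nat_lit 77) (nat_lit 62) (nat_lit 50)) (PT.lf (nat_lit 14028) (nat_lit 6) (nat_lit 167) (nat_lit 0) (nat_lit 78) (nat_lit 62) (nat_lit 49))))))))
noncomputable def pc13 : PT := (PT.nd (nat_lit 2162) (PT.nd (nat_lit 1034) (PT.nd (nat_lit 470) (PT.nd (nat_lit 188) (PT.nd (nat_lit 94) (PT.lf (nat_lit 14112) (nat_lit 6) (nat_lit 168) (nat_lit 5) (nat_lit 48) (nat_lit 63) (nat_lit 78)) (PT.lf (nat_lit 15372) (nat_lit 6) (nat_lit 183) (nat_lit 5) (nat_lit 49) (nat_lit 63) (nat_lit 77))) (PT.nd (nat_lit 94) (PT.lf (nat_lit 16548) (nat_lit 6) (nat_lit 197) (nat_lit 5) (nat_lit 50) (nat_lit 63) (nat_lit 76)) (PT.nd (nat_lit 94) (PT.lf (nat_lit 17640) (nat_lit 6) (nat_lit 210) (nat_lit 5) (nat_lit 51) (nat_lit 63) (nat_lit 75)) (PT.lf (nat_lit 18648) (nat_lit 6) (nat_lit 222) (nat_lit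 5) (nat_lit 52) (nat_lit 63) (nat_lit 74))))) (PT.nd (nat_lit 282) (PT.nd (nat_lit 94) (PT.lf (nat_lit 19572) (nat_lit 6) (nat_lit 233) (nat_lit 5) (nat_lit 53) (nat_lit 63) (nat_lit 73)) (PT.nd (nat_lit 94) (PT.lf (nat_lit 20412) (nat_lit 6) (nat_lit 243) (nat_lit 5) (nat_lit 54) (nat_lit 63) (nat_lit 72)) (PT.lf (nat_lit 21168) (nat_lit 6) (nat_lit 252) (nat_lit 5) (nat_lit 55) (nat_lit 63) (nat_lit 71)))) (PT.nd (nat_lit 94) (PT.lf (nat_lit 21840) (nat_lit 6) (nat_lit 260) (nat_lit 5) (nat_lit 56) (nat_lit 63) (nat_lit 70)) (PT.nd (nat_lit 94) (PT.lf (nat_lit 22428) (nat_lit 6) (nat_lit 267) (nat_lit 5) (nat_lit 57) (nat_lit 63) (nat_lit 69)) (PT.lf (nat_lit 22932) (nat_lit 6) (nat_lit 273) (nat_lit 5) (nat_lit 58) (nat_lit 63) (nat_lit 68)))))) (PT.nd (nat_lit 564) (PT.nd (nat_lit 282) (PT.nd (nat_lit 94) (PT.lf (nat_lit 23352) (nat_lit 6) (nat_lit 278) (nat_lit 5) (nat_lit 59) (nat_lit 63)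 (nat_lit 67)) (PT.nd (nat_lit 94) (PT.lf (nat_lit 23688) (nat_lit 6) (nat_lit 282) (nat_lit 5) (nat_lit 60) (nat_lit 63) (nat_lit 66)) (PT.lf (nat_lit 23940) (nat_lit 6) (nat_lit 285) (nat_lit 5) (nat_lit 61) (nat_lit 63) (nat_lit 65)))) (PT.nd (nat_lit 94) (PT.lf (nat_lit 24108) (nat_lit 6) (nat_lit 287) (nat_lit 5) (nat_lit 62) (nat_lit 63) (nat_lit 64)) (PT.nd (nat_lit 94) (PT.lf (nat_lit 24192) (nat_lit 1) (nat_lit 288) (nat_lit 0) (nat_lit 63) (nat_lit 63) (nat_lit 63)) (PT.lf (nat_lit 24108) (nat_lit 6) (nat_lit 287) (nat_lit 0) (nat_lit 64) (nat_lit 63) (nat_lit 62))))) (PT.nd (nat_lit 282) (PT.nd (nat_lit 94) (PT.lf (nat_lit 23940) (nat_lit 6) (nat_lit 285) (nat_lit 0) (nat_lit 65) (nat_lit 63) (nat_lit 61)) (PT.nd (nat_lit 94) (PT.lf (nat_lit 23688) (nat_lit 6) (nat_lit 282) (nat_lit 0) (nat_lit 66) (nat_lit 63) (nat_lit 60)) (PT.lf (nat_lit 23352) (nat_lit 6) (nat_lit 278) (nat_lit 0)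 (nat_lit 67) (nat_lit 63) (nat_lit 59)))) (PT.nd (nat_lit 94) (PT.lf (nat_lit 22932) (nat_lit 6) (nat_lit 273) (nat_lit 0) (nat_lit 68) (nat_lit 63) (nat_lit 58)) (PT.nd (nat_lit 94) (PT.lf (nat_lit 22428) (nat_lit 6) (nat_lit 267) (nat_lit 0) (nat_lit 69) (nat_lit 63) (nat_lit 57)) (PT.lf (nat_lit 21840) (nat_lit 6) (nat_lit 260) (nat_lit 0) (nat_lit 70) (nat_lit 63) (nat_lit 56))))))) (PT.nd (nat_lit 57340) (PT.nd (nat_lit 470) (PT.nd (nat_lit 188) (PT.nd (nat_lit 94) (PT.lf (nat_lit 21168) (nat_lit 6) (nat_lit 252) (nat_lit 0) (nat_lit 71) (nat_lit 63) (nat_lit 55)) (PT.lf (nat_lit 20412) (nat_lit 6) (nat_lit 243) (nat_lit 0) (nat_lit 72) (nat_lit 63) (nat_lit 54))) (PT.nd (nat_lit 94) (PT.lf (nat_lit 19572) (nat_lit 6) (nat_lit 233) (nat_lit 0) (nat_lit 73) (nat_lit 63) (nat_lit 53)) (PT.nd (nat_lit 94) (PT.lf (nat_lit 18648) (nat_lit 6) (nat_lit 222) (nat_lit 0) (nat_lit 74) (nat_lit 63) (nat_lit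 52)) (PT.lf (nat_lit 17640) (nat_lit 6) (nat_lit 210) (nat_lit 0) (nat_lit 75) (nat_lit 63) (nat_lit 51))))) (PT.nd (nat_lit 56588) (PT.nd (nat_lit 94) (PT.lf (nat_lit 16548) (nat_lit 6) (nat_lit 197) (nat_lit 0) (nat_lit 76) (nat_lit 63) (nat_lit 50)) (PT.nd (nat_lit 94) (PT.lf (nat_lit 15372) (nat_lit 6) (nat_lit 183) (nat_lit 0) (nat_lit 77) (nat_lit 63) (nat_lit 49)) (PT.lf (nat_lit 14112) (nat_lit 6) (nat_lit 168) (nat_lit 0) (nat_lit 78) (nat_lit 63) (nat_lit 48)))) (PT.nd (nat_lit 94) (PT.lf (nat_lit 12852) (nat_lit 6) (nat_lit 153) (nat_lit 5) (nat_lit 47) (nat_lit 64) (nat_lit 78)) (PT.nd (nat_lit 94) (PT.lf (nat_lit 14196) (nat_lit 6) (nat_lit 169) (nat_lit 5) (nat_lit 48) (nat_lit 64) (nat_lit 77)) (PT.lf (nat_lit 15456) (nat_lit 6) (nat_lit 184) (nat_lit 5) (nat_lit 49) (nat_lit 64) (nat_lit 76)))))) (PT.nd (nat_lit 564) (PT.nd (nat_lit 282) (PT.nd (nat_lit 94) (PT.lf (nat_lit 16632)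 (nat_lit 6) (nat_lit 198) (nat_lit 5) (nat_lit 50) (nat_lit 64) (nat_lit 75)) (PT.nd (nat_lit 94) (PT.lf (nat_lit 17724) (nat_lit 6) (nat_lit 211) (nat_lit 5) (nat_lit 51) (nat_lit 64) (nat_lit 74)) (PT.lf (nat_lit 18732) (nat_lit 6) (nat_lit 223) (nat_lit 5) (nat_lit 52) (nat_lit 64) (nat_lit 73)))) (PT.nd (nat_lit 94) (PT.lf (nat_lit 19656) (nat_lit 6) (nat_lit 234) (nat_lit 5) (nat_lit 53) (nat_lit 64) (nat_lit 72)) (PT.nd (nat_lit 94) (PT.lf (nat_lit 20496) (nat_lit 6) (nat_lit 244) (nat_lit 5) (nat_lit 54) (nat_lit 64) (nat_lit 71)) (PT.lf (nat_lit 21252) (nat_lit 6) (nat_lit 253) (nat_lit 5) (nat_lit 55) (nat_lit 64) (nat_lit 70))))) (PT.nd (nat_lit 282) (PT.nd (nat_lit 94) (PT.lf (nat_lit 21924) (nat_lit 6) (nat_lit 261) (nat_lit 5) (nat_lit 56) (nat_lit 64) (nat_lit 69)) (PT.nd (nat_lit 94) (PT.lf (nat_lit 22512) (nat_lit 6) (nat_lit 268) (nat_lit 5) (nat_lit 57) (nat_lit 64) (nat_lit 68))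 (PT.lf (nat_lit 23016) (nat_lit 6) (nat_lit 274) (nat_lit 5) (nat_lit 58) (nat_lit 64) (nat_lit 67)))) (PT.nd (nat_lit 94) (PT.lf (nat_lit 23436) (nat_lit 6) (nat_lit 279) (nat_lit 5) (nat_lit 59) (nat_lit 64) (nat_lit 66)) (PT.nd (nat_lit 94) (PT.lf (nat_lit 23772) (nat_lit 6) (nat_lit 283) (nat_lit 5) (nat_lit 60) (nat_lit 64) (nat_lit 65)) (PT.lf (nat_lit 24024) (nat_lit 3) (nat_lit 286) (nat_lit 4) (nat_lit 61) (nat_lit 64) (nat_lit 64))))))))
noncomputable def pc14 : PT := (PT.nd (nat_lit 58280) (PT.nd (nat_lit 1034) (PT.nd (nat_lit 470) (PT.nd (nat_lit 188) (PT.nd (nat_lit 94) (PT.lf (nat_lit 24108) (nat_lit 6) (nat_lit 287) (nat_lit 4) (nat_lit 62) (nat_lit 64) (nat_lit 63)) (PT.lf (nat_lit 24108) (nat_lit 6) (nat_lit 287) (nat_lit 2) (nat_lit 63) (nat_lit 64) (nat_lit 62))) (PT.nd (nat_lit 94) (PT.lf (nat_lit 24024) (nat_lit 3) (nat_lit 286) (nat_lit 0) (nat_lit 64) (nat_lit 64) (nat_lit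 61)) (PT.nd (nat_lit 94) (PT.lf (nat_lit 23772) (nat_lit 6) (nat_lit 283) (nat_lit 0) (nat_lit 65) (nat_lit 64) (nat_lit 60)) (PT.lf (nat_lit 23436) (nat_lit 6) (nat_lit 279) (nat_lit 0) (nat_lit 66) (nat_lit 64) (nat_lit 59))))) (PT.nd (nat_lit 282) (PT.nd (nat_lit 94) (PT.lf (nat_lit 23016) (nat_lit 6) (nat_lit 274) (nat_lit 0) (nat_lit 67) (nat_lit 64) (nat_lit 58)) (PT.nd (nat_lit 94) (PT.lf (nat_lit 22512) (nat_lit 6) (nat_lit 268) (nat_lit 0) (nat_lit 68) (nat_lit 64) (nat_lit 57)) (PT.lf (nat_lit 21924) (nat_lit 6) (nat_lit 261) (nat_lit 0) (nat_lit 69) (nat_lit 64) (nat_lit 56)))) (PT.nd (nat_lit 94) (PT.lf (nat_lit 21252) (nat_lit 6) (nat_lit 253) (nat_lit 0) (nat_lit 70) (nat_lit 64) (nat_lit 55)) (PT.nd (nat_lit 94) (PT.lf (nat_lit 20496) (nat_lit 6) (nat_lit 244) (nat_lit 0) (nat_lit 71) (nat_lit 64) (nat_lit 54)) (PT.lf (nat_lit 19656) (nat_lit 6) (nat_lit 234) (nat_lit 0) (nat_lit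 72) (nat_lit 64) (nat_lit 53)))))) (PT.nd (nat_lit 470) (PT.nd (nat_lit 188) (PT.nd (nat_lit 94) (PT.lf (nat_lit 18732) (nat_lit 6) (nat_lit 223) (nat_lit 0) (nat_lit 73) (nat_lit 64) (nat_lit 52)) (PT.lf (nat_lit 17724) (nat_lit 6) (nat_lit 211) (nat_lit 0) (nat_lit 74) (nat_lit 64) (nat_lit 51))) (PT.nd (nat_lit 94) (PT.lf (nat_lit 16632) (nat_lit 6) (nat_lit 198) (nat_lit 0) (nat_lit 75) (nat_lit 64) (nat_lit 50)) (PT.nd (nat_lit 94) (PT.lf (nat_lit 15456) (nat_lit 6) (nat_lit 184) (nat_lit 0) (nat_lit 76) (nat_lit 64) (nat_lit 49)) (PT.lf (nat_lit 14196) (nat_lit 6) (nat_lit 169) (nat_lit 0) (nat_lit 77) (nat_lit 64) (nat_lit 48))))) (PT.nd (nat_lit 56494) (PT.nd (nat_lit 56306) (PT.lf (nat_lit 12852) (nat_lit 6) (nat_lit 153) (nat_lit 0) (nat_lit 78) (nat_lit 64) (nat_lit 47)) (PT.nd (nat_lit 94) (PT.lf (nat_lit 12264) (nat_lit 6) (nat_lit 146) (nat_lit 5) (nat_lit 46) (nat_lit 65) (nat_lit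 78)) (PT.lf (nat_lit 12936) (nat_lit 6) (nat_lit 154) (nat_lit 5) (nat_lit 47) (nat_lit 65) (nat_lit 77)))) (PT.nd (nat_lit 94) (PT.lf (nat_lit 14280) (nat_lit 6) (nat_lit 170) (nat_lit 5) (nat_lit 48) (nat_lit 65) (nat_lit 76)) (PT.nd (nat_lit 94) (PT.lf (nat_lit 15540) (nat_lit 6) (nat_lit 185) (nat_lit 5) (nat_lit 49) (nat_lit 65) (nat_lit 75)) (PT.lf (nat_lit 16716) (nat_lit 6) (nat_lit 199) (nat_lit 5) (nat_lit 50) (nat_lit 65) (nat_lit 74))))))) (PT.nd (nat_lit 1034) (PT.nd (nat_lit 470) (PT.nd (nat_lit 188) (PT.nd (nat_lit 94) (PT.lf (nat_lit 17808) (nat_lit 6) (nat_lit 212) (nat_lit 5) (nat_lit 51) (nat_lit 65) (nat_lit 73)) (PT.lf (nat_lit 18816) (nat_lit 6) (nat_lit 224) (nat_lit 5) (nat_lit 52) (nat_lit 65) (nat_lit 72))) (PT.nd (nat_lit 94) (PT.lf (nat_lit 19740) (nat_lit 6) (nat_lit 235) (nat_lit 5) (nat_lit 53) (nat_lit 65) (nat_lit 71)) (PT.nd (nat_lit 94) (PT.lf (nat_lit 20580)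 (nat_lit 6) (nat_lit 245) (nat_lit 5) (nat_lit 54) (nat_lit 65) (nat_lit 70)) (PT.lf (nat_lit 21336) (nat_lit 6) (nat_lit 254) (nat_lit 5) (nat_lit 55) (nat_lit 65) (nat_lit 69))))) (PT.nd (nat_lit 282) (PT.nd (nat_lit 94) (PT.lf (nat_lit 22008) (nat_lit 6) (nat_lit 262) (nat_lit 5) (nat_lit 56) (nat_lit 65) (nat_lit 68)) (PT.nd (nat_lit 94) (PT.lf (nat_lit 22596) (nat_lit 6) (nat_lit 269) (nat_lit 5) (nat_lit 57) (nat_lit 65) (nat_lit 67)) (PT.lf (nat_lit 23100) (nat_lit 6) (nat_lit 275) (nat_lit 5) (nat_lit 58) (nat_lit 65) (nat_lit 66)))) (PT.nd (nat_lit 94) (PT.lf (nat_lit 23520) (nat_lit 3) (nat_lit 280) (nat_lit 4) (nat_lit 59) (nat_lit 65) (nat_lit 65)) (PT.nd (nat_lit 94) (PT.lf (nat_lit 23772) (nat_lit 6) (nat_lit 283) (nat_lit 4) (nat_lit 60) (nat_lit 65) (nat_lit 64)) (PT.lf (nat_lit 23940) (nat_lit 6) (nat_lit 285) (nat_lit 4) (nat_lit 61) (nat_lit 65) (nat_lit 63)))))) (PT.nd (nat_lit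 564) (PT.nd (nat_lit 282) (PT.nd (nat_lit 94) (PT.lf (nat_lit 23856) (nat_lit 3) (nat_lit 284) (nat_lit 2) (nat_lit 62) (nat_lit 65) (nat_lit 62)) (PT.nd (nat_lit 94) (PT.lf (nat_lit 23940) (nat_lit 6) (nat_lit 285) (nat_lit 2) (nat_lit 63) (nat_lit 65) (nat_lit 61)) (PT.lf (nat_lit 23772) (nat_lit 6) (nat_lit 283) (nat_lit 2) (nat_lit 64) (nat_lit 65) (nat_lit 60)))) (PT.nd (nat_lit 94) (PT.lf (nat_lit 23520) (nat_lit 3) (nat_lit 280) (nat_lit 0) (nat_lit 65) (nat_lit 65) (nat_lit 59)) (PT.nd (nat_lit 94) (PT.lf (nat_lit 23100) (nat_lit 6) (nat_lit 275) (nat_lit 0) (nat_lit 66) (nat_lit 65) (nat_lit 58)) (PT.lf (nat_lit 22596) (nat_lit 6) (nat_lit 269) (nat_lit 0) (nat_lit 67) (nat_lit 65) (nat_lit 57))))) (PT.nd (nat_lit 282) (PT.nd (nat_lit 94) (PT.lf (nat_lit 22008) (nat_lit 6) (nat_lit 262) (nat_lit 0) (nat_lit 68) (nat_lit 65) (nat_lit 56)) (PT.nd (nat_lit 94) (PT.lf (nat_lit 21336) (nat_lit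 6) (nat_lit 254) (nat_lit 0) (nat_lit 69) (nat_lit 65) (nat_lit 55)) (PT.lf (nat_lit 20580) (nat_lit 6) (nat_lit 245) (nat_lit 0) (nat_lit 70) (nat_lit 65) (nat_lit 54)))) (PT.nd (nat_lit 94) (PT.lf (nat_lit 19740) (nat_lit 6) (nat_lit 235) (nat_lit 0) (nat_lit 71) (nat_lit 65) (nat_lit 53)) (PT.nd (nat_lit 94) (PT.lf (nat_lit 18816) (nat_lit 6) (nat_lit 224) (nat_lit 0) (nat_lit 72) (nat_lit 65) (nat_lit 52)) (PT.lf (nat_lit 17808) (nat_lit 6) (nat_lit 212) (nat_lit 0) (nat_lit 73) (nat_lit 65) (nat_lit 51))))))))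
noncomputable def pc15 : PT := (PT.nd (nat_lit 58186) (PT.nd (nat_lit 57058) (PT.nd (nat_lit 56494) (PT.nd (nat_lit 188) (PT.nd (nat_lit 94) (PT.lf (nat_lit 16716) (nat_lit 6) (nat_lit 199) (nat_lit 0) (nat_lit 74) (nat_lit 65) (nat_lit 50)) (PT.lf (nat_lit 15540) (nat_lit 6) (nat_lit 185) (nat_lit 0) (nat_lit 75) (nat_lit 65) (nat_lit 49))) (PT.nd (nat_lit 94) (PT.lf (nat_lit 14280) (nat_lit 6) (nat_lit 170) (nat_lit 0) (nat_lit 76) (nat_lit 65) (nat_lit 48)) (PT.nd (nat_lit 94) (PT.lf (nat_lit 12936) (nat_lit 6) (nat_lit 154) (nat_lit 0) (nat_lit 77) (nat_lit 65) (nat_lit 47)) (PT.lf (nat_lit 12264) (nat_lit 6) (nat_lit 146) (nat_lit 0) (nat_lit 78) (nat_lit 65) (nat_lit 46))))) (PT.nd (nat_lit 282) (PT.nd (nat_lit 94) (PT.lf (nat_lit 11004) (nat_lit 6) (nat_lit 131) (nat_lit 5) (nat_lit 44) (nat_lit 66) (nat_lit 79)) (PT.nd (nat_lit 94) (PT.lf (nat_lit 11676) (nat_lit 6) (nat_lit 139) (nat_lit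 5) (nat_lit 45) (nat_lit 66) (nat_lit 78)) (PT.lf (nat_lit 12348) (nat_lit 6) (nat_lit 147) (nat_lit 5) (nat_lit 46) (nat_lit 66) (nat_lit 77)))) (PT.nd (nat_lit 94) (PT.lf (nat_lit 13020) (nat_lit 6) (nat_lit 155) (nat_lit 5) (nat_lit 47) (nat_lit 66) (nat_lit 76)) (PT.nd (nat_lit 94) (PT.lf (nat_lit 14364) (nat_lit 6) (nat_lit 171) (nat_lit 5) (nat_lit 48) (nat_lit 66) (nat_lit 75)) (PT.lf (nat_lit 15624) (nat_lit 6) (nat_lit 186) (nat_lit 5) (nat_lit 49) (nat_lit 66) (nat_lit 74)))))) (PT.nd (nat_lit 564) (PT.nd (nat_lit 282) (PT.nd (nat_lit 94) (PT.lf (nat_lit 16800) (nat_lit 6) (nat_lit 200) (nat_lit 5) (nat_lit 50) (nat_lit 66) (nat_lit 73)) (PT.nd (nat_lit 94) (PT.lf (nat_lit 17892) (nat_lit 6) (nat_lit 213) (nat_lit 5) (nat_lit 51) (nat_lit 66) (nat_lit 72)) (PT.lf (nat_lit 18900) (nat_lit 6) (nat_lit 225) (nat_lit 5) (nat_lit 52) (nat_lit 66) (nat_lit 71)))) (PT.nd (nat_lit 94) (PT.lf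 (nat_lit 19824) (nat_lit 6) (nat_lit 236) (nat_lit 5) (nat_lit 53) (nat_lit 66) (nat_lit 70)) (PT.nd (nat_lit 94) (PT.lf (nat_lit 20664) (nat_lit 6) (nat_lit 246) (nat_lit 5) (nat_lit 54) (nat_lit 66) (nat_lit 69)) (PT.lf (nat_lit 21420) (nat_lit 6) (nat_lit 255) (nat_lit 5) (nat_lit 55) (nat_lit 66) (nat_lit 68))))) (PT.nd (nat_lit 282) (PT.nd (nat_lit 94) (PT.lf (nat_lit 22092) (nat_lit 6) (nat_lit 263) (nat_lit 5) (nat_lit 56) (nat_lit 66) (nat_lit 67)) (PT.nd (nat_lit 94) (PT.lf (nat_lit 22680) (nat_lit 3) (nat_lit 270) (nat_lit 4) (nat_lit 57) (nat_lit 66) (nat_lit 66)) (PT.lf (nat_lit 23100) (nat_lit 6) (nat_lit 275) (nat_lit 4) (nat_lit 58) (nat_lit 66) (nat_lit 65)))) (PT.nd (nat_lit 94) (PT.lf (nat_lit 23436) (nat_lit 6) (nat_lit 279) (nat_lit 4) (nat_lit 59) (nat_lit 66) (nat_lit 64)) (PT.nd (nat_lit 94) (PT.lf (nat_lit 23688) (nat_lit 6) (nat_lit 282) (nat_lit 4) (nat_lit 60) (nat_lit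 66) (nat_lit 63)) (PT.lf (nat_lit 23604) (nat_lit 6) (nat_lit 281) (nat_lit 4) (nat_lit 61) (nat_lit 66) (nat_lit 62))))))) (PT.nd (nat_lit 1034) (PT.nd (nat_lit 470) (PT.nd (nat_lit 188) (PT.nd (nat_lit 94) (PT.lf (nat_lit 23604) (nat_lit 6) (nat_lit 281) (nat_lit 2) (nat_lit 62) (nat_lit 66) (nat_lit 61)) (PT.lf (nat_lit 23688) (nat_lit 6) (nat_lit 282) (nat_lit 2) (nat_lit 63) (nat_lit 66) (nat_lit 60))) (PT.nd (nat_lit 94) (PT.lf (nat_lit 23436) (nat_lit 6) (nat_lit 279) (nat_lit 2) (nat_lit 64) (nat_lit 66) (nat_lit 59)) (PT.nd (nat_lit 94) (PT.lf (nat_lit 23100) (nat_lit 6) (nat_lit 275) (nat_lit 2) (nat_lit 65) (nat_lit 66) (nat_lit 58)) (PT.lf (nat_lit 22680) (nat_lit 3) (nat_lit 270) (nat_lit 0) (nat_lit 66) (nat_lit 66) (nat_lit 57))))) (PT.nd (nat_lit 282) (PT.nd (nat_lit 94) (PT.lf (nat_lit 22092) (nat_lit 6) (nat_lit 263) (nat_lit 0) (nat_lit 67) (nat_lit 66) (nat_lit 56)) (PT.nd (nat_lit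 94) (PT.lf (nat_lit 21420) (nat_lit 6) (nat_lit 255) (nat_lit 0) (nat_lit 68) (nat_lit 66) (nat_lit 55)) (PT.lf (nat_lit 20664) (nat_lit 6) (nat_lit 246) (nat_lit 0) (nat_lit 69) (nat_lit 66) (nat_lit 54)))) (PT.nd (nat_lit 94) (PT.lf (nat_lit 19824) (nat_lit 6) (nat_lit 236) (nat_lit 0) (nat_lit 70) (nat_lit 66) (nat_lit 53)) (PT.nd (nat_lit 94) (PT.lf (nat_lit 18900) (nat_lit 6) (nat_lit 225) (nat_lit 0) (nat_lit 71) (nat_lit 66) (nat_lit 52)) (PT.lf (nat_lit 17892) (nat_lit 6) (nat_lit 213) (nat_lit 0) (nat_lit 72) (nat_lit 66) (nat_lit 51)))))) (PT.nd (nat_lit 564) (PT.nd (nat_lit 282) (PT.nd (nat_lit 94) (PT.lf (nat_lit 16800) (nat_lit 6) (nat_lit 200) (nat_lit 0) (nat_lit 73) (nat_lit 66) (nat_lit 50)) (PT.nd (nat_lit 94) (PT.lf (nat_lit 15624) (nat_lit 6) (nat_lit 186) (nat_lit 0) (nat_lit 74) (nat_lit 66) (nat_lit 49)) (PT.lf (nat_lit 14364) (nat_lit 6) (nat_lit 171) (nat_lit 0) (nat_lit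 75) (nat_lit 66) (nat_lit 48)))) (PT.nd (nat_lit 94) (PT.lf (nat_lit 13020) (nat_lit 6) (nat_lit 155) (nat_lit 0) (nat_lit 76) (nat_lit 66) (nat_lit 47)) (PT.nd (nat_lit 94) (PT.lf (nat_lit 12348) (nat_lit 6) (nat_lit 147) (nat_lit 0) (nat_lit 77) (nat_lit 66) (nat_lit 46)) (PT.lf (nat_lit 11676) (nat_lit 6) (nat_lit 139) (nat_lit 0) (nat_lit 78) (nat_lit 66) (nat_lit 45))))) (PT.nd (nat_lit 56118) (PT.nd (nat_lit 55930) (PT.lf (nat_lit 11004) (nat_lit 6) (nat_lit 131) (nat_lit 0) (nat_lit 79) (nat_lit 66) (nat_lit 44)) (PT.nd (nat_lit 94) (PT.lf (nat_lit 10416) (nat_lit 6) (nat_lit 124) (nat_lit 5) (nat_lit 43) (nat_lit 67) (nat_lit 79)) (PT.lf (nat_lit 11088) (nat_lit 6) (nat_lit 132) (nat_lit 5) (nat_lit 44) (nat_lit 67) (nat_lit 78)))) (PT.nd (nat_lit 94) (PT.lf (nat_lit 11760) (nat_lit 6) (nat_lit 140) (nat_lit 5) (nat_lit 45) (nat_lit 67) (nat_lit 77)) (PT.nd (nat_lit 94) (PT.lf (nat_lit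 12432) (nat_lit 6) (nat_lit 148) (nat_lit 5) (nat_lit 46) (nat_lit 67) (nat_lit 76)) (PT.lf (nat_lit 13104) (nat_lit 6) (nat_lit 156) (nat_lit 5) (nat_lit 47) (nat_lit 67) (nat_lit 75))))))))
noncomputable def pc16 : PT := (PT.nd (nat_lit 2068) (PT.nd (nat_lit 1034) (PT.nd (nat_lit 470) (PT.nd (nat_lit 188) (PT.nd (nat_lit 94) (PT.lf (nat_lit 14448) (nat_lit 6) (nat_lit 172) (nat_lit 5) (nat_lit 48) (nat_lit 67) (nat_lit 74)) (PT.lf (nat_lit 15708) (nat_lit 6) (nat_lit 187) (nat_lit 5) (nat_lit 49) (nat_lit 67) (nat_lit 73))) (PT.nd (nat_lit 94) (PT.lf (nat_lit 16884) (nat_lit 6) (nat_lit 201) (nat_lit 5) (nat_lit 50) (nat_lit 67) (nat_lit 72)) (PT.nd (nat_lit 94) (PT.lf (nat_lit 17976) (nat_lit 6) (nat_lit 214) (nat_lit 5) (nat_lit 51) (nat_lit 67) (nat_lit 71)) (PT.lf (nat_lit 18984) (nat_lit 6) (nat_lit 226) (nat_lit 5) (nat_lit 52) (nat_lit 67) (nat_lit 70))))) (PT.nd (nat_lit 282) (PT.nd (nat_lit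 94) (PT.lf (nat_lit 19908) (nat_lit 6) (nat_lit 237) (nat_lit 5) (nat_lit 53) (nat_lit 67) (nat_lit 69)) (PT.nd (nat_lit 94) (PT.lf (nat_lit 20748) (nat_lit 6) (nat_lit 247) (nat_lit 5) (nat_lit 54) (nat_lit 67) (nat_lit 68)) (PT.lf (nat_lit 21504) (nat_lit 3) (nat_lit 256) (nat_lit 4) (nat_lit 55) (nat_lit 67) (nat_lit 67)))) (PT.nd (nat_lit 94) (PT.lf (nat_lit 22092) (nat_lit 6) (nat_lit 263) (nat_lit 4) (nat_lit 56) (nat_lit 67) (nat_lit 66)) (PT.nd (nat_lit 94) (PT.lf (nat_lit 22596) (nat_lit 6) (nat_lit 269) (nat_lit 4) (nat_lit 57) (nat_lit 67) (nat_lit 65)) (PT.lf (nat_lit 23016) (nat_lit 6) (nat_lit 274) (nat_lit 4) (nat_lit 58) (nat_lit 67) (nat_lit 64)))))) (PT.nd (nat_lit 470) (PT.nd (nat_lit 188) (PT.nd (nat_lit 94) (PT.lf (nat_lit 23352) (nat_lit 6) (nat_lit 278) (nat_lit 4) (nat_lit 59) (nat_lit 67) (nat_lit 63)) (PT.lf (nat_lit 23268) (nat_lit 6) (nat_lit 277) (nat_lit 4) (nat_lit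 60) (nat_lit 67) (nat_lit 62))) (PT.nd (nat_lit 94) (PT.lf (nat_lit 23184) (nat_lit 3) (nat_lit 276) (nat_lit 2) (nat_lit 61) (nat_lit 67) (nat_lit 61)) (PT.nd (nat_lit 94) (PT.lf (nat_lit 23268) (nat_lit 6) (nat_lit 277) (nat_lit 2) (nat_lit 62) (nat_lit 67) (nat_lit 60)) (PT.lf (nat_lit 23352) (nat_lit 6) (nat_lit 278) (nat_lit 2) (nat_lit 63) (nat_lit 67) (nat_lit 59))))) (PT.nd (nat_lit 282) (PT.nd (nat_lit 94) (PT.lf (nat_lit 23016) (nat_lit 6) (nat_lit 274) (nat_lit 2) (nat_lit 64) (nat_lit 67) (nat_lit 58)) (PT.nd (nat_lit 94) (PT.lf (nat_lit 22596) (nat_lit 6) (nat_lit 269) (nat_lit 2) (nat_lit 65) (nat_lit 67) (nat_lit 57)) (PT.lf (nat_lit 22092) (nat_lit 6) (nat_lit 263) (nat_lit 2) (nat_lit 66) (nat_lit 67) (nat_lit 56)))) (PT.nd (nat_lit 94) (PT.lf (nat_lit 21504) (nat_lit 3) (nat_lit 256) (nat_lit 0) (nat_lit 67) (nat_lit 67) (nat_lit 55)) (PT.nd (nat_lit 94) (PT.lf (nat_lit 20748)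 (nat_lit 6) (nat_lit 247) (nat_lit 0) (nat_lit 68) (nat_lit 67) (nat_lit 54)) (PT.lf (nat_lit 19908) (nat_lit 6) (nat_lit 237) (nat_lit 0) (nat_lit 69) (nat_lit 67) (nat_lit 53))))))) (PT.nd (nat_lit 56776) (PT.nd (nat_lit 470) (PT.nd (nat_lit 188) (PT.nd (nat_lit 94) (PT.lf (nat_lit 18984) (nat_lit 6) (nat_lit 226) (nat_lit 0) (nat_lit 70) (nat_lit 67) (nat_lit 52)) (PT.lf (nat_lit 17976) (nat_lit 6) (nat_lit 214) (nat_lit 0) (nat_lit 71) (nat_lit 67) (nat_lit 51))) (PT.nd (nat_lit 94) (PT.lf (nat_lit 16884) (nat_lit 6) (nat_lit 201) (nat_lit 0) (nat_lit 72) (nat_lit 67) (nat_lit 50)) (PT.nd (nat_lit 94) (PT.lf (nat_lit 15708) (nat_lit 6) (nat_lit 187) (nat_lit 0) (nat_lit 73) (nat_lit 67) (nat_lit 49)) (PT.lf (nat_lit 14448) (nat_lit 6) (nat_lit 172) (nat_lit 0) (nat_lit 74) (nat_lit 67) (nat_lit 48))))) (PT.nd (nat_lit 282) (PT.nd (nat_lit 94) (PT.lf (nat_lit 13104) (nat_lit 6) (nat_lit 156)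 (nat_lit 0) (nat_lit 75) (nat_lit 67) (nat_lit 47)) (PT.nd (nat_lit 94) (PT.lf (nat_lit 12432) (nat_lit 6) (nat_lit 148) (nat_lit 0) (nat_lit 76) (nat_lit 67) (nat_lit 46)) (PT.lf (nat_lit 11760) (nat_lit 6) (nat_lit 140) (nat_lit 0) (nat_lit 77) (nat_lit 67) (nat_lit 45)))) (PT.nd (nat_lit 94) (PT.lf (nat_lit 11088) (nat_lit 6) (nat_lit 132) (nat_lit 0) (nat_lit 78) (nat_lit 67) (nat_lit 44)) (PT.nd (nat_lit 55836) (PT.lf (nat_lit 10416) (nat_lit 6) (nat_lit 124) (nat_lit 0) (nat_lit 79) (nat_lit 67) (nat_lit 43)) (PT.lf (nat_lit 9912) (nat_lit 6) (nat_lit 118) (nat_lit 5) (nat_lit 42) (nat_lit 68) (nat_lit 79)))))) (PT.nd (nat_lit 564) (PT.nd (nat_lit 282) (PT.nd (nat_lit 94) (PT.lf (nat_lit 10500) (nat_lit 6) (nat_lit 125) (nat_lit 5) (nat_lit 43) (nat_lit 68) (nat_lit 78)) (PT.nd (nat_lit 94) (PT.lf (nat_lit 11172) (nat_lit 6) (nat_lit 133) (nat_lit 5) (nat_lit 44) (nat_lit 68) (nat_lit 77))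 (PT.lf (nat_lit 11844) (nat_lit 6) (nat_lit 141) (nat_lit 5) (nat_lit 45) (nat_lit 68) (nat_lit 76)))) (PT.nd (nat_lit 94) (PT.lf (nat_lit 12516) (nat_lit 6) (nat_lit 149) (nat_lit 5) (nat_lit 46) (nat_lit 68) (nat_lit 75)) (PT.nd (nat_lit 94) (PT.lf (nat_lit 13188) (nat_lit 6) (nat_lit 157) (nat_lit 5) (nat_lit 47) (nat_lit 68) (nat_lit 74)) (PT.lf (nat_lit 14532) (nat_lit 6) (nat_lit 173) (nat_lit 5) (nat_lit 48) (nat_lit 68) (nat_lit 73))))) (PT.nd (nat_lit 282) (PT.nd (nat_lit 94) (PT.lf (nat_lit 15792) (nat_lit 6) (nat_lit 188) (nat_lit 5) (nat_lit 49) (nat_lit 68) (nat_lit 72)) (PT.nd (nat_lit 94) (PT.lf (nat_lit 16968) (nat_lit 6) (nat_lit 202) (nat_lit 5) (nat_lit 50) (nat_lit 68) (nat_lit 71)) (PT.lf (nat_lit 18060) (nat_lit 6) (nat_lit 215) (nat_lit 5) (nat_lit 51) (nat_lit 68) (nat_lit 70)))) (PT.nd (nat_lit 94) (PT.lf (nat_lit 19068) (nat_lit 6) (nat_lit 227) (nat_lit 5) (nat_lit 52)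 (nat_lit 68) (nat_lit 69)) (PT.nd (nat_lit 94) (PT.lf (nat_lit 19992) (nat_lit 3) (nat_lit 238) (nat_lit 4) (nat_lit 53) (nat_lit 68) (nat_lit 68)) (PT.lf (nat_lit 20748) (nat_lit 6) (nat_lit 247) (nat_lit 4) (nat_lit 54) (nat_lit 68) (nat_lit 67))))))))
noncomputable def pc17 : PT := (PT.nd (nat_lit 2068) (PT.nd (nat_lit 1034) (PT.nd (nat_lit 470) (PT.nd (nat_lit 188) (PT.nd (nat_lit 94) (PT.lf (nat_lit 21420) (nat_lit 6) (nat_lit 255) (nat_lit 4) (nat_lit 55) (nat_lit 68) (nat_lit 66)) (PT.lf (nat_lit 22008) (nat_lit 6) (nat_lit 262) (nat_lit 4) (nat_lit 56) (nat_lit 68) (nat_lit 65))) (PT.nd (nat_lit 94) (PT.lf (nat_lit 22512) (nat_lit 6) (nat_lit 268) (nat_lit 4) (nat_lit 57) (nat_lit 68) (nat_lit 64)) (PT.nd (nat_lit 94) (PT.lf (nat_lit 22932) (nat_lit 6) (nat_lit 273) (nat_lit 4) (nat_lit 58) (nat_lit 68) (nat_lit 63)) (PT.lf (nat_lit 22848) (nat_lit 6) (nat_lit 272) (nat_lit 4) (nat_lit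 59) (nat_lit 68) (nat_lit 62))))) (PT.nd (nat_lit 282) (PT.nd (nat_lit 94) (PT.lf (nat_lit 22764) (nat_lit 6) (nat_lit 271) (nat_lit 4) (nat_lit 60) (nat_lit 68) (nat_lit 61)) (PT.nd (nat_lit 94) (PT.lf (nat_lit 22764) (nat_lit 6) (nat_lit 271) (nat_lit 2) (nat_lit 61) (nat_lit 68) (nat_lit 60)) (PT.lf (nat_lit 22848) (nat_lit 6) (nat_lit 272) (nat_lit 2) (nat_lit 62) (nat_lit 68) (nat_lit 59)))) (PT.nd (nat_lit 94) (PT.lf (nat_lit 22932) (nat_lit 6) (nat_lit 273) (nat_lit 2) (nat_lit 63) (nat_lit 68) (nat_lit 58)) (PT.nd (nat_lit 94) (PT.lf (nat_lit 22512) (nat_lit 6) (nat_lit 268) (nat_lit 2) (nat_lit 64) (nat_lit 68) (nat_lit 57)) (PT.lf (nat_lit 22008) (nat_lit 6) (nat_lit 262) (nat_lit 2) (nat_lit 65) (nat_lit 68) (nat_lit 56)))))) (PT.nd (nat_lit 470) (PT.nd (nat_lit 188) (PT.nd (nat_lit 94) (PT.lf (nat_lit 21420) (nat_lit 6) (nat_lit 255) (nat_lit 2) (nat_lit 66) (nat_lit 68) (nat_lit 55))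 (PT.lf (nat_lit 20748) (nat_lit 6) (nat_lit 247) (nat_lit 2) (nat_lit 67) (nat_lit 68) (nat_lit 54))) (PT.nd (nat_lit 94) (PT.lf (nat_lit 19992) (nat_lit 3) (nat_lit 238) (nat_lit 0) (nat_lit 68) (nat_lit 68) (nat_lit 53)) (PT.nd (nat_lit 94) (PT.lf (nat_lit 19068) (nat_lit 6) (nat_lit 227) (nat_lit 0) (nat_lit 69) (nat_lit 68) (nat_lit 52)) (PT.lf (nat_lit 18060) (nat_lit 6) (nat_lit 215) (nat_lit 0) (nat_lit 70) (nat_lit 68) (nat_lit 51))))) (PT.nd (nat_lit 282) (PT.nd (nat_lit 94) (PT.lf (nat_lit 16968) (nat_lit 6) (nat_lit 202) (nat_lit 0) (nat_lit 71) (nat_lit 68) (nat_lit 50)) (PT.nd (nat_lit 94) (PT.lf (nat_lit 15792) (nat_lit 6) (nat_lit 188) (nat_lit 0) (nat_lit 72) (nat_lit 68) (nat_lit 49)) (PT.lf (nat_lit 14532) (nat_lit 6) (nat_lit 173) (nat_lit 0) (nat_lit 73) (nat_lit 68) (nat_lit 48)))) (PT.nd (nat_lit 94) (PT.lf (nat_lit 13188) (nat_lit 6) (nat_lit 157) (nat_lit 0) (nat_lit 74)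 (nat_lit 68) (nat_lit 47)) (PT.nd (nat_lit 94) (PT.lf (nat_lit 12516) (nat_lit 6) (nat_lit 149) (nat_lit 0) (nat_lit 75) (nat_lit 68) (nat_lit 46)) (PT.lf (nat_lit 11844) (nat_lit 6) (nat_lit 141) (nat_lit 0) (nat_lit 76) (nat_lit 68) (nat_lit 45))))))) (PT.nd (nat_lit 56682) (PT.nd (nat_lit 56118) (PT.nd (nat_lit 188) (PT.nd (nat_lit 94) (PT.lf (nat_lit 11172) (nat_lit 6) (nat_lit 133) (nat_lit 0) (nat_lit 77) (nat_lit 68) (nat_lit 44)) (PT.lf (nat_lit 10500) (nat_lit 6) (nat_lit 125) (nat_lit 0) (nat_lit 78) (nat_lit 68) (nat_lit 43))) (PT.nd (nat_lit 55742) (PT.lf (nat_lit 9912) (nat_lit 6) (nat_lit 118) (nat_lit 0) (nat_lit 79) (nat_lit 68) (nat_lit 42)) (PT.nd (nat_lit 94) (PT.lf (nat_lit 9408) (nat_lit 6) (nat_lit 112) (nat_lit 5) (nat_lit 41) (nat_lit 69) (nat_lit 79)) (PT.lf (nat_lit 9996) (nat_lit 6) (nat_lit 119) (nat_lit 5) (nat_lit 42) (nat_lit 69) (nat_lit 78))))) (PT.nd (nat_lit 282)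 (PT.nd (nat_lit 94) (PT.lf (nat_lit 10584) (nat_lit 6) (nat_lit 126) (nat_lit 5) (nat_lit 43) (nat_lit 69) (nat_lit 77)) (PT.nd (nat_lit 94) (PT.lf (nat_lit 11256) (nat_lit 6) (nat_lit 134) (nat_lit 5) (nat_lit 44) (nat_lit 69) (nat_lit 76)) (PT.lf (nat_lit 11928) (nat_lit 6) (nat_lit 142) (nat_lit 5) (nat_lit 45) (nat_lit 69) (nat_lit 75)))) (PT.nd (nat_lit 94) (PT.lf (nat_lit 12600) (nat_lit 6) (nat_lit 150) (nat_lit 5) (nat_lit 46) (nat_lit 69) (nat_lit 74)) (PT.nd (nat_lit 94) (PT.lf (nat_lit 13272) (nat_lit 6) (nat_lit 158) (nat_lit 5) (nat_lit 47) (nat_lit 69) (nat_lit 73)) (PT.lf (nat_lit 14616) (nat_lit 6) (nat_lit 174) (nat_lit 5) (nat_lit 48) (nat_lit 69) (nat_lit 72)))))) (PT.nd (nat_lit 564) (PT.nd (nat_lit 282) (PT.nd (nat_lit 94) (PT.lf (nat_lit 15876) (nat_lit 6) (nat_lit 189) (nat_lit 5) (nat_lit 49) (nat_lit 69) (nat_lit 71)) (PT.nd (nat_lit 94) (PT.lf (nat_lit 17052) (nat_lit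 6) (nat_lit 203) (nat_lit 5) (nat_lit 50) (nat_lit 69) (nat_lit 70)) (PT.lf (nat_lit 18144) (nat_lit 3) (nat_lit 216) (nat_lit 4) (nat_lit 51) (nat_lit 69) (nat_lit 69)))) (PT.nd (nat_lit 94) (PT.lf (nat_lit 19068) (nat_lit 6) (nat_lit 227) (nat_lit 4) (nat_lit 52) (nat_lit 69) (nat_lit 68)) (PT.nd (nat_lit 94) (PT.lf (nat_lit 19908) (nat_lit 6) (nat_lit 237) (nat_lit 4) (nat_lit 53) (nat_lit 69) (nat_lit 67)) (PT.lf (nat_lit 20664) (nat_lit 6) (nat_lit 246) (nat_lit 4) (nat_lit 54) (nat_lit 69) (nat_lit 66))))) (PT.nd (nat_lit 282) (PT.nd (nat_lit 94) (PT.lf (nat_lit 21336) (nat_lit 6) (nat_lit 254) (nat_lit 4) (nat_lit 55) (nat_lit 69) (nat_lit 65)) (PT.nd (nat_lit 94) (PT.lf (nat_lit 21924) (nat_lit 6) (nat_lit 261) (nat_lit 4) (nat_lit 56) (nat_lit 69) (nat_lit 64)) (PT.lf (nat_lit 22428) (nat_lit 6) (nat_lit 267) (nat_lit 4) (nat_lit 57) (nat_lit 69) (nat_lit 63)))) (PT.nd (nat_lit 94) (PT.lf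 (nat_lit 22344) (nat_lit 6) (nat_lit 266) (nat_lit 4) (nat_lit 58) (nat_lit 69) (nat_lit 62)) (PT.nd (nat_lit 94) (PT.lf (nat_lit 22260) (nat_lit 6) (nat_lit 265) (nat_lit 4) (nat_lit 59) (nat_lit 69) (nat_lit 61)) (PT.lf (nat_lit 22176) (nat_lit 3) (nat_lit 264) (nat_lit 2) (nat_lit 60) (nat_lit 69) (nat_lit 60))))))))
noncomputable def pc18 : PT := (PT.nd (nat_lit 57528) (PT.nd (nat_lit 1034) (PT.nd (nat_lit 470) (PT.nd (nat_lit 188) (PT.nd (nat_lit 94) (PT.lf (nat_lit 22260) (nat_lit 6) (nat_lit 265) (nat_lit 2) (nat_lit 61) (nat_lit 69) (nat_lit 59)) (PT.lf (nat_lit 22344) (nat_lit 6) (nat_lit 266) (nat_lit 2) (nat_lit 62) (nat_lit 69) (nat_lit 58))) (PT.nd (nat_lit 94) (PT.lf (nat_lit 22428) (nat_lit 6) (nat_lit 267) (nat_lit 2) (nat_lit 63) (nat_lit 69) (nat_lit 57)) (PT.nd (nat_lit 94) (PT.lf (nat_lit 21924) (nat_lit 6) (nat_lit 261) (nat_lit 2) (nat_lit 64) (nat_lit 69) (nat_lit 56)) (PT.lf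 (nat_lit 21336) (nat_lit 6) (nat_lit 254) (nat_lit 2) (nat_lit 65) (nat_lit 69) (nat_lit 55))))) (PT.nd (nat_lit 282) (PT.nd (nat_lit 94) (PT.lf (nat_lit 20664) (nat_lit 6) (nat_lit 246) (nat_lit 2) (nat_lit 66) (nat_lit 69) (nat_lit 54)) (PT.nd (nat_lit 94) (PT.lf (nat_lit 19908) (nat_lit 6) (nat_lit 237) (nat_lit 2) (nat_lit 67) (nat_lit 69) (nat_lit 53)) (PT.lf (nat_lit 19068) (nat_lit 6) (nat_lit 227) (nat_lit 2) (nat_lit 68) (nat_lit 69) (nat_lit 52)))) (PT.nd (nat_lit 94) (PT.lf (nat_lit 18144) (nat_lit 3) (nat_lit 216) (nat_lit 0) (nat_lit 69) (nat_lit 69) (nat_lit 51)) (PT.nd (nat_lit 94) (PT.lf (nat_lit 17052) (nat_lit 6) (nat_lit 203) (nat_lit 0) (nat_lit 70) (nat_lit 69) (nat_lit 50)) (PT.lf (nat_lit 15876) (nat_lit 6) (nat_lit 189) (nat_lit 0) (nat_lit 71) (nat_lit 69) (nat_lit 49)))))) (PT.nd (nat_lit 470) (PT.nd (nat_lit 188) (PT.nd (nat_lit 94) (PT.lf (nat_lit 14616) (nat_lit 6)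 (nat_lit 174) (nat_lit 0) (nat_lit 72) (nat_lit 69) (nat_lit 48)) (PT.lf (nat_lit 13272) (nat_lit 6) (nat_lit 158) (nat_lit 0) (nat_lit 73) (nat_lit 69) (nat_lit 47))) (PT.nd (nat_lit 94) (PT.lf (nat_lit 12600) (nat_lit 6) (nat_lit 150) (nat_lit 0) (nat_lit 74) (nat_lit 69) (nat_lit 46)) (PT.nd (nat_lit 94) (PT.lf (nat_lit 11928) (nat_lit 6) (nat_lit 142) (nat_lit 0) (nat_lit 75) (nat_lit 69) (nat_lit 45)) (PT.lf (nat_lit 11256) (nat_lit 6) (nat_lit 134) (nat_lit 0) (nat_lit 76) (nat_lit 69) (nat_lit 44))))) (PT.nd (nat_lit 55742) (PT.nd (nat_lit 94) (PT.lf (nat_lit 10584) (nat_lit 6) (nat_lit 126) (nat_lit 0) (nat_lit 77) (nat_lit 69) (nat_lit 43)) (PT.nd (nat_lit 94) (PT.lf (nat_lit 9996) (nat_lit 6) (nat_lit 119) (nat_lit 0) (nat_lit 78) (nat_lit 69) (nat_lit 42)) (PT.lf (nat_lit 9408) (nat_lit 6) (nat_lit 112) (nat_lit 0) (nat_lit 79) (nat_lit 69) (nat_lit 41)))) (PT.nd (nat_lit 94) (PT.lf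 (nat_lit 8400) (nat_lit 6) (nat_lit 100) (nat_lit 5) (nat_lit 39) (nat_lit 70) (nat_lit 80)) (PT.nd (nat_lit 94) (PT.lf (nat_lit 8988) (nat_lit 6) (nat_lit 107) (nat_lit 5) (nat_lit 40) (nat_lit 70) (nat_lit 79)) (PT.lf (nat_lit 9492) (nat_lit 6) (nat_lit 113) (nat_lit 5) (nat_lit 41) (nat_lit 70) (nat_lit 78))))))) (PT.nd (nat_lit 1034) (PT.nd (nat_lit 470) (PT.nd (nat_lit 188) (PT.nd (nat_lit 94) (PT.lf (nat_lit 10080) (nat_lit 6) (nat_lit 120) (nat_lit 5) (nat_lit 42) (nat_lit 70) (nat_lit 77)) (PT.lf (nat_lit 10668) (nat_lit 6) (nat_lit 127) (nat_lit 5) (nat_lit 43) (nat_lit 70) (nat_lit 76))) (PT.nd (nat_lit 94) (PT.lf (nat_lit 11340) (nat_lit 6) (nat_lit 135) (nat_lit 5) (nat_lit 44) (nat_lit 70) (nat_lit 75)) (PT.nd (nat_lit 94) (PT.lf (nat_lit 12012) (nat_lit 6) (nat_lit 143) (nat_lit 5) (nat_lit 45) (nat_lit 70) (nat_lit 74)) (PT.lf (nat_lit 12684) (nat_lit 6) (nat_lit 151) (nat_lit 5)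 (nat_lit 46) (nat_lit 70) (nat_lit 73))))) (PT.nd (nat_lit 282) (PT.nd (nat_lit 94) (PT.lf (nat_lit 13356) (nat_lit 6) (nat_lit 159) (nat_lit 5) (nat_lit 47) (nat_lit 70) (nat_lit 72)) (PT.nd (nat_lit 94) (PT.lf (nat_lit 14700) (nat_lit 6) (nat_lit 175) (nat_lit 5) (nat_lit 48) (nat_lit 70) (nat_lit 71)) (PT.lf (nat_lit 15960) (nat_lit 3) (nat_lit 190) (nat_lit 4) (nat_lit 49) (nat_lit 70) (nat_lit 70)))) (PT.nd (nat_lit 94) (PT.lf (nat_lit 17052) (nat_lit 6) (nat_lit 203) (nat_lit 4) (nat_lit 50) (nat_lit 70) (nat_lit 69)) (PT.nd (nat_lit 94) (PT.lf (nat_lit 18060) (nat_lit 6) (nat_lit 215) (nat_lit 4) (nat_lit 51) (nat_lit 70) (nat_lit 68)) (PT.lf (nat_lit 18984) (nat_lit 6) (nat_lit 226) (nat_lit 4) (nat_lit 52) (nat_lit 70) (nat_lit 67)))))) (PT.nd (nat_lit 564) (PT.nd (nat_lit 282) (PT.nd (nat_lit 94) (PT.lf (nat_lit 19824) (nat_lit 6) (nat_lit 236) (nat_lit 4) (nat_lit 53) (nat_lit 70) (nat_lit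 66)) (PT.nd (nat_lit 94) (PT.lf (nat_lit 20580) (nat_lit 6) (nat_lit 245) (nat_lit 4) (nat_lit 54) (nat_lit 70) (nat_lit 65)) (PT.lf (nat_lit 21252) (nat_lit 6) (nat_lit 253) (nat_lit 4) (nat_lit 55) (nat_lit 70) (nat_lit 64)))) (PT.nd (nat_lit 94) (PT.lf (nat_lit 21840) (nat_lit 6) (nat_lit 260) (nat_lit 4) (nat_lit 56) (nat_lit 70) (nat_lit 63)) (PT.nd (nat_lit 94) (PT.lf (nat_lit 21756) (nat_lit 6) (nat_lit 259) (nat_lit 4) (nat_lit 57) (nat_lit 70) (nat_lit 62)) (PT.lf (nat_lit 21672) (nat_lit 6) (nat_lit 258) (nat_lit 4) (nat_lit 58) (nat_lit 70) (nat_lit 61))))) (PT.nd (nat_lit 282) (PT.nd (nat_lit 94) (PT.lf (nat_lit 21588) (nat_lit 6) (nat_lit 257) (nat_lit 4) (nat_lit 59) (nat_lit 70) (nat_lit 60)) (PT.nd (nat_lit 94) (PT.lf (nat_lit 21588) (nat_lit 6) (nat_lit 257) (nat_lit 2) (nat_lit 60) (nat_lit 70) (nat_lit 59)) (PT.lf (nat_lit 21672) (nat_lit 6) (nat_lit 258) (nat_lit 2) (nat_lit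 61) (nat_lit 70) (nat_lit 58)))) (PT.nd (nat_lit 94) (PT.lf (nat_lit 21756) (nat_lit 6) (nat_lit 259) (nat_lit 2) (nat_lit 62) (nat_lit 70) (nat_lit 57)) (PT.nd (nat_lit 94) (PT.lf (nat_lit 21840) (nat_lit 6) (nat_lit 260) (nat_lit 2) (nat_lit 63) (nat_lit 70) (nat_lit 56)) (PT.lf (nat_lit 21252) (nat_lit 6) (nat_lit 253) (nat_lit 2) (nat_lit 64) (nat_lit 70) (nat_lit 55))))))))
noncomputable def pc19 : PT := (PT.nd (nat_lit 57434) (PT.nd (nat_lit 1034) (PT.nd (nat_lit 470) (PT.nd (nat_lit 188) (PT.nd (nat_lit 94) (PT.lf (nat_lit 20580) (nat_lit 6) (nat_lit 245) (nat_lit 2) (nat_lit 65) (nat_lit 70) (nat_lit 54)) (PT.lf (nat_lit 19824) (nat_lit 6) (nat_lit 236) (nat_lit 2) (nat_lit 66) (nat_lit 70) (nat_lit 53))) (PT.nd (nat_lit 94) (PT.lf (nat_lit 18984) (nat_lit 6) (nat_lit 226) (nat_lit 2) (nat_lit 67) (nat_lit 70) (nat_lit 52)) (PT.nd (nat_lit 94) (PT.lf (nat_lit 18060) (nat_lit 6) (nat_lit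 215) (nat_lit 2) (nat_lit 68) (nat_lit 70) (nat_lit 51)) (PT.lf (nat_lit 17052) (nat_lit 6) (nat_lit 203) (nat_lit 2) (nat_lit 69) (nat_lit 70) (nat_lit 50))))) (PT.nd (nat_lit 282) (PT.nd (nat_lit 94) (PT.lf (nat_lit 15960) (nat_lit 3) (nat_lit 190) (nat_lit 0) (nat_lit 70) (nat_lit 70) (nat_lit 49)) (PT.nd (nat_lit 94) (PT.lf (nat_lit 14700) (nat_lit 6) (nat_lit 175) (nat_lit 0) (nat_lit 71) (nat_lit 70) (nat_lit 48)) (PT.lf (nat_lit 13356) (nat_lit 6) (nat_lit 159) (nat_lit 0) (nat_lit 72) (nat_lit 70) (nat_lit 47)))) (PT.nd (nat_lit 94) (PT.lf (nat_lit 12684) (nat_lit 6) (nat_lit 151) (nat_lit 0) (nat_lit 73) (nat_lit 70) (nat_lit 46)) (PT.nd (nat_lit 94) (PT.lf (nat_lit 12012) (nat_lit 6) (nat_lit 143) (nat_lit 0) (nat_lit 74) (nat_lit 70) (nat_lit 45)) (PT.lf (nat_lit 11340) (nat_lit 6) (nat_lit 135) (nat_lit 0) (nat_lit 75) (nat_lit 70) (nat_lit 44)))))) (PT.nd (nat_lit 55836) (PT.nd (nat_lit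 282) (PT.nd (nat_lit 94) (PT.lf (nat_lit 10668) (nat_lit 6) (nat_lit 127) (nat_lit 0) (nat_lit 76) (nat_lit 70) (nat_lit 43)) (PT.nd (nat_lit 94) (PT.lf (nat_lit 10080) (nat_lit 6) (nat_lit 120) (nat_lit 0) (nat_lit 77) (nat_lit 70) (nat_lit 42)) (PT.lf (nat_lit 9492) (nat_lit 6) (nat_lit 113) (nat_lit 0) (nat_lit 78) (nat_lit 70) (nat_lit 41)))) (PT.nd (nat_lit 94) (PT.lf (nat_lit 8988) (nat_lit 6) (nat_lit 107) (nat_lit 0) (nat_lit 79) (nat_lit 70) (nat_lit 40)) (PT.nd (nat_lit 55366) (PT.lf (nat_lit 8400) (nat_lit 6) (nat_lit 100) (nat_lit 0) (nat_lit 80) (nat_lit 70) (nat_lit 39)) (PT.lf (nat_lit 7980) (nat_lit 6) (nat_lit 95) (nat_lit 5) (nat_lit 38) (nat_lit 71) (nat_lit 80))))) (PT.nd (nat_lit 282) (PT.nd (nat_lit 94) (PT.lf (nat_lit 8484) (nat_lit 6) (nat_lit 101) (nat_lit 5) (nat_lit 39) (nat_lit 71) (nat_lit 79)) (PT.nd (nat_lit 94) (PT.lf (nat_lit 9072) (nat_lit 6) (nat_lit 108) (nat_lit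 5) (nat_lit 40) (nat_lit 71) (nat_lit 78)) (PT.lf (nat_lit 9576) (nat_lit 6) (nat_lit 114) (nat_lit 5) (nat_lit 41) (nat_lit 71) (nat_lit 77)))) (PT.nd (nat_lit 94) (PT.lf (nat_lit 10164) (nat_lit 6) (nat_lit 121) (nat_lit 5) (nat_lit 42) (nat_lit 71) (nat_lit 76)) (PT.nd (nat_lit 94) (PT.lf (nat_lit 10752) (nat_lit 6) (nat_lit 128) (nat_lit 5) (nat_lit 43) (nat_lit 71) (nat_lit 75)) (PT.lf (nat_lit 11424) (nat_lit 6) (nat_lit 136) (nat_lit 5) (nat_lit 44) (nat_lit 71) (nat_lit 74))))))) (PT.nd (nat_lit 1034) (PT.nd (nat_lit 470) (PT.nd (nat_lit 188) (PT.nd (nat_lit 94) (PT.lf (nat_lit 12096) (nat_lit 6) (nat_lit 144) (nat_lit 5) (nat_lit 45) (nat_lit 71) (nat_lit 73)) (PT.lf (nat_lit 12768) (nat_lit 6) (nat_lit 152) (nat_lit 5) (nat_lit 46) (nat_lit 71) (nat_lit 72))) (PT.nd (nat_lit 94) (PT.lf (nat_lit 13440) (nat_lit 3) (nat_lit 160) (nat_lit 4) (nat_lit 47) (nat_lit 71) (nat_lit 71)) (PT.nd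 (nat_lit 94) (PT.lf (nat_lit 14700) (nat_lit 6) (nat_lit 175) (nat_lit 4) (nat_lit 48) (nat_lit 71) (nat_lit 70)) (PT.lf (nat_lit 15876) (nat_lit 6) (nat_lit 189) (nat_lit 4) (nat_lit 49) (nat_lit 71) (nat_lit 69))))) (PT.nd (nat_lit 282) (PT.nd (nat_lit 94) (PT.lf (nat_lit 16968) (nat_lit 6) (nat_lit 202) (nat_lit 4) (nat_lit 50) (nat_lit 71) (nat_lit 68)) (PT.nd (nat_lit 94) (PT.lf (nat_lit 17976) (nat_lit 6) (nat_lit 214) (nat_lit 4) (nat_lit 51) (nat_lit 71) (nat_lit 67)) (PT.lf (nat_lit 18900) (nat_lit 6) (nat_lit 225) (nat_lit 4) (nat_lit 52) (nat_lit 71) (nat_lit 66)))) (PT.nd (nat_lit 94) (PT.lf (nat_lit 19740) (nat_lit 6) (nat_lit 235) (nat_lit 4) (nat_lit 53) (nat_lit 71) (nat_lit 65)) (PT.nd (nat_lit 94) (PT.lf (nat_lit 20496) (nat_lit 6) (nat_lit 244) (nat_lit 4) (nat_lit 54) (nat_lit 71) (nat_lit 64)) (PT.lf (nat_lit 21168) (nat_lit 6) (nat_lit 252) (nat_lit 4) (nat_lit 55) (nat_lit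 71) (nat_lit 63)))))) (PT.nd (nat_lit 564) (PT.nd (nat_lit 282) (PT.nd (nat_lit 94) (PT.lf (nat_lit 21084) (nat_lit 6) (nat_lit 251) (nat_lit 4) (nat_lit 56) (nat_lit 71) (nat_lit 62)) (PT.nd (nat_lit 94) (PT.lf (nat_lit 21000) (nat_lit 6) (nat_lit 250) (nat_lit 4) (nat_lit 57) (nat_lit 71) (nat_lit 61)) (PT.lf (nat_lit 20916) (nat_lit 6) (nat_lit 249) (nat_lit 4) (nat_lit 58) (nat_lit 71) (nat_lit 60)))) (PT.nd (nat_lit 94) (PT.lf (nat_lit 20832) (nat_lit 3) (nat_lit 248) (nat_lit 2) (nat_lit 59) (nat_lit 71) (nat_lit 59)) (PT.nd (nat_lit 94) (PT.lf (nat_lit 20916) (nat_lit 6) (nat_lit 249) (nat_lit 2) (nat_lit 60) (nat_lit 71) (nat_lit 58)) (PT.lf (nat_lit 21000) (nat_lit 6) (nat_lit 250) (nat_lit 2) (nat_lit 61) (nat_lit 71) (nat_lit 57))))) (PT.nd (nat_lit 282) (PT.nd (nat_lit 94) (PT.lf (nat_lit 21084) (nat_lit 6) (nat_lit 251) (nat_lit 2) (nat_lit 62) (nat_lit 71) (nat_lit 56)) (PT.nd (nat_lit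 94) (PT.lf (nat_lit 21168) (nat_lit 6) (nat_lit 252) (nat_lit 2) (nat_lit 63) (nat_lit 71) (nat_lit 55)) (PT.lf (nat_lit 20496) (nat_lit 6) (nat_lit 244) (nat_lit 2) (nat_lit 64) (nat_lit 71) (nat_lit 54)))) (PT.nd (nat_lit 94) (PT.lf (nat_lit 19740) (nat_lit 6) (nat_lit 235) (nat_lit 2) (nat_lit 65) (nat_lit 71) (nat_lit 53)) (PT.nd (nat_lit 94) (PT.lf (nat_lit 18900) (nat_lit 6) (nat_lit 225) (nat_lit 2) (nat_lit 66) (nat_lit 71) (nat_lit 52)) (PT.lf (nat_lit 17976) (nat_lit 6) (nat_lit 214) (nat_lit 2) (nat_lit 67) (nat_lit 71) (nat_lit 51))))))))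
noncomputable def pc20 : PT := (PT.nd (nat_lit 57152) (PT.nd (nat_lit 1034) (PT.nd (nat_lit 470) (PT.nd (nat_lit 188) (PT.nd (nat_lit 94) (PT.lf (nat_lit 16968) (nat_lit 6) (nat_lit 202) (nat_lit 2) (nat_lit 68) (nat_lit 71) (nat_lit 50)) (PT.lf (nat_lit 15876) (nat_lit 6) (nat_lit 189) (nat_lit 2) (nat_lit 69) (nat_lit 71) (nat_lit 49))) (PT.nd (nat_lit 94) (PT.lf (nat_lit 14700) (nat_lit 6) (nat_lit 175) (nat_lit 2) (nat_lit 70) (nat_lit 71) (nat_lit 48)) (PT.nd (nat_lit 94) (PT.lf (nat_lit 13440) (nat_lit 3) (nat_lit 160) (nat_lit 0) (nat_lit 71) (nat_lit 71) (nat_lit 47)) (PT.lf (nat_lit 12768) (nat_lit 6) (nat_lit 152) (nat_lit 0) (nat_lit 72) (nat_lit 71) (nat_lit 46))))) (PT.nd (nat_lit 282) (PT.nd (nat_lit 94) (PT.lf (nat_lit 12096) (nat_lit 6) (nat_lit 144) (nat_lit 0) (nat_lit 73) (nat_lit 71) (nat_lit 45)) (PT.nd (nat_lit 94) (PT.lf (nat_lit 11424) (nat_lit 6) (nat_lit 136) (nat_lit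 0) (nat_lit 74) (nat_lit 71) (nat_lit 44)) (PT.lf (nat_lit 10752) (nat_lit 6) (nat_lit 128) (nat_lit 0) (nat_lit 75) (nat_lit 71) (nat_lit 43)))) (PT.nd (nat_lit 94) (PT.lf (nat_lit 10164) (nat_lit 6) (nat_lit 121) (nat_lit 0) (nat_lit 76) (nat_lit 71) (nat_lit 42)) (PT.nd (nat_lit 94) (PT.lf (nat_lit 9576) (nat_lit 6) (nat_lit 114) (nat_lit 0) (nat_lit 77) (nat_lit 71) (nat_lit 41)) (PT.lf (nat_lit 9072) (nat_lit 6) (nat_lit 108) (nat_lit 0) (nat_lit 78) (nat_lit 71) (nat_lit 40)))))) (PT.nd (nat_lit 55554) (PT.nd (nat_lit 55272) (PT.nd (nat_lit 94) (PT.lf (nat_lit 8484) (nat_lit 6) (nat_lit 101) (nat_lit 0) (nat_lit 79) (nat_lit 71) (nat_lit 39)) (PT.lf (nat_lit 7980) (nat_lit 6) (nat_lit 95) (nat_lit 0) (nat_lit 80) (nat_lit 71) (nat_lit 38))) (PT.nd (nat_lit 94) (PT.lf (nat_lit 7140) (nat_lit 6) (nat_lit 85) (nat_lit 5) (nat_lit 36) (nat_lit 72) (nat_lit 81)) (PT.nd (nat_lit 94) (PT.lf (nat_lit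 7560) (nat_lit 6) (nat_lit 90) (nat_lit 5) (nat_lit 37) (nat_lit 72) (nat_lit 80)) (PT.lf (nat_lit 8064) (nat_lit 6) (nat_lit 96) (nat_lit 5) (nat_lit 38) (nat_lit 72) (nat_lit 79))))) (PT.nd (nat_lit 282) (PT.nd (nat_lit 94) (PT.lf (nat_lit 8568) (nat_lit 6) (nat_lit 102) (nat_lit 5) (nat_lit 39) (nat_lit 72) (nat_lit 78)) (PT.nd (nat_lit 94) (PT.lf (nat_lit 9156) (nat_lit 6) (nat_lit 109) (nat_lit 5) (nat_lit 40) (nat_lit 72) (nat_lit 77)) (PT.lf (nat_lit 9660) (nat_lit 6) (nat_lit 115) (nat_lit 5) (nat_lit 41) (nat_lit 72) (nat_lit 76)))) (PT.nd (nat_lit 94) (PT.lf (nat_lit 10248) (nat_lit 6) (nat_lit 122) (nat_lit 5) (nat_lit 42) (nat_lit 72) (nat_lit 75)) (PT.nd (nat_lit 94) (PT.lf (nat_lit 10836) (nat_lit 6) (nat_lit 129) (nat_lit 5) (nat_lit 43) (nat_lit 72) (nat_lit 74)) (PT.lf (nat_lit 11508) (nat_lit 6) (nat_lit 137) (nat_lit 5) (nat_lit 44) (nat_lit 72) (nat_lit 73))))))) (PT.nd (nat_lit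 1034) (PT.nd (nat_lit 470) (PT.nd (nat_lit 188) (PT.nd (nat_lit 94) (PT.lf (nat_lit 12180) (nat_lit 3) (nat_lit 145) (nat_lit 4) (nat_lit 45) (nat_lit 72) (nat_lit 72)) (PT.lf (nat_lit 12768) (nat_lit 6) (nat_lit 152) (nat_lit 4) (nat_lit 46) (nat_lit 72) (nat_lit 71))) (PT.nd (nat_lit 94) (PT.lf (nat_lit 13356) (nat_lit 6) (nat_lit 159) (nat_lit 4) (nat_lit 47) (nat_lit 72) (nat_lit 70)) (PT.nd (nat_lit 94) (PT.lf (nat_lit 14616) (nat_lit 6) (nat_lit 174) (nat_lit 4) (nat_lit 48) (nat_lit 72) (nat_lit 69)) (PT.lf (nat_lit 15792) (nat_lit 6) (nat_lit 188) (nat_lit 4) (nat_lit 49) (nat_lit 72) (nat_lit 68))))) (PT.nd (nat_lit 282) (PT.nd (nat_lit 94) (PT.lf (nat_lit 16884) (nat_lit 6) (nat_lit 201) (nat_lit 4) (nat_lit 50) (nat_lit 72) (nat_lit 67)) (PT.nd (nat_lit 94) (PT.lf (nat_lit 17892) (nat_lit 6) (nat_lit 213) (nat_lit 4) (nat_lit 51) (nat_lit 72) (nat_lit 66)) (PT.lf (nat_lit 18816) (nat_lit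 6) (nat_lit 224) (nat_lit 4) (nat_lit 52) (nat_lit 72) (nat_lit 65)))) (PT.nd (nat_lit 94) (PT.lf (nat_lit 19656) (nat_lit 6) (nat_lit 234) (nat_lit 4) (nat_lit 53) (nat_lit 72) (nat_lit 64)) (PT.nd (nat_lit 94) (PT.lf (nat_lit 20412) (nat_lit 6) (nat_lit 243) (nat_lit 4) (nat_lit 54) (nat_lit 72) (nat_lit 63)) (PT.lf (nat_lit 20328) (nat_lit 6) (nat_lit 242) (nat_lit 4) (nat_lit 55) (nat_lit 72) (nat_lit 62)))))) (PT.nd (nat_lit 564) (PT.nd (nat_lit 282) (PT.nd (nat_lit 94) (PT.lf (nat_lit 20244) (nat_lit 6) (nat_lit 241) (nat_lit 4) (nat_lit 56) (nat_lit 72) (nat_lit 61)) (PT.nd (nat_lit 94) (PT.lf (nat_lit 20160) (nat_lit 6) (nat_lit 240) (nat_lit 4) (nat_lit 57) (nat_lit 72) (nat_lit 60)) (PT.lf (nat_lit 20076) (nat_lit 6) (nat_lit 239) (nat_lit 4) (nat_lit 58) (nat_lit 72) (nat_lit 59)))) (PT.nd (nat_lit 94) (PT.lf (nat_lit 20076) (nat_lit 6) (nat_lit 239) (nat_lit 2) (nat_lit 59) (nat_lit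 72) (nat_lit 58)) (PT.nd (nat_lit 94) (PT.lf (nat_lit 20160) (nat_lit 6) (nat_lit 240) (nat_lit 2) (nat_lit 60) (nat_lit 72) (nat_lit 57)) (PT.lf (nat_lit 20244) (nat_lit 6) (nat_lit 241) (nat_lit 2) (nat_lit 61) (nat_lit 72) (nat_lit 56))))) (PT.nd (nat_lit 282) (PT.nd (nat_lit 94) (PT.lf (nat_lit 20328) (nat_lit 6) (nat_lit 242) (nat_lit 2) (nat_lit 62) (nat_lit 72) (nat_lit 55)) (PT.nd (nat_lit 94) (PT.lf (nat_lit 20412) (nat_lit 6) (nat_lit 243) (nat_lit 2) (nat_lit 63) (nat_lit 72) (nat_lit 54)) (PT.lf (nat_lit 19656) (nat_lit 6) (nat_lit 234) (nat_lit 2) (nat_lit 64) (nat_lit 72) (nat_lit 53)))) (PT.nd (nat_lit 94) (PT.lf (nat_lit 18816) (nat_lit 6) (nat_lit 224) (nat_lit 2) (nat_lit 65) (nat_lit 72) (nat_lit 52)) (PT.nd (nat_lit 94) (PT.lf (nat_lit 17892) (nat_lit 6) (nat_lit 213) (nat_lit 2) (nat_lit 66) (nat_lit 72) (nat_lit 51)) (PT.lf (nat_lit 16884) (nat_lit 6) (nat_lit 201) (nat_lit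 2) (nat_lit 67) (nat_lit 72) (nat_lit 50))))))))
noncomputable def pc21 : PT := (PT.nd (nat_lit 57058) (PT.nd (nat_lit 1034) (PT.nd (nat_lit 470) (PT.nd (nat_lit 188) (PT.nd (nat_lit 94) (PT.lf (nat_lit 15792) (nat_lit 6) (nat_lit 188) (nat_lit 2) (nat_lit 68) (nat_lit 72) (nat_lit 49)) (PT.lf (nat_lit 14616) (nat_lit 6) (nat_lit 174) (nat_lit 2) (nat_lit 69) (nat_lit 72) (nat_lit 48))) (PT.nd (nat_lit 94) (PT.lf (nat_lit 13356) (nat_lit 6) (nat_lit 159) (nat_lit 2) (nat_lit 70) (nat_lit 72) (nat_lit 47)) (PT.nd (nat_lit 94) (PT.lf (nat_lit 12768) (nat_lit 6) (nat_lit 152) (nat_lit 2) (nat_lit 71) (nat_lit 72) (nat_lit 46)) (PT.lf (nat_lit 12180) (nat_lit 3) (nat_lit 145) (nat_lit 0) (nat_lit 72) (nat_lit 72) (nat_lit 45))))) (PT.nd (nat_lit 282) (PT.nd (nat_lit 94) (PT.lf (nat_lit 11508) (nat_lit 6) (nat_lit 137) (nat_lit 0) (nat_lit 73) (nat_lit 72) (nat_lit 44)) (PT.nd (nat_lit 94) (PT.lf (nat_lit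 10836) (nat_lit 6) (nat_lit 129) (nat_lit 0) (nat_lit 74) (nat_lit 72) (nat_lit 43)) (PT.lf (nat_lit 10248) (nat_lit 6) (nat_lit 122) (nat_lit 0) (nat_lit 75) (nat_lit 72) (nat_lit 42)))) (PT.nd (nat_lit 94) (PT.lf (nat_lit 9660) (nat_lit 6) (nat_lit 115) (nat_lit 0) (nat_lit 76) (nat_lit 72) (nat_lit 41)) (PT.nd (nat_lit 94) (PT.lf (nat_lit 9156) (nat_lit 6) (nat_lit 109) (nat_lit 0) (nat_lit 77) (nat_lit 72) (nat_lit 40)) (PT.lf (nat_lit 8568) (nat_lit 6) (nat_lit 102) (nat_lit 0) (nat_lit 78) (nat_lit 72) (nat_lit 39)))))) (PT.nd (nat_lit 55460) (PT.nd (nat_lit 55178) (PT.nd (nat_lit 94) (PT.lf (nat_lit 8064) (nat_lit 6) (nat_lit 96) (nat_lit 0) (nat_lit 79) (nat_lit 72) (nat_lit 38)) (PT.nd (nat_lit 94) (PT.lf (nat_lit 7560) (nat_lit 6) (nat_lit 90) (nat_lit 0) (nat_lit 80) (nat_lit 72) (nat_lit 37)) (PT.lf (nat_lit 7140) (nat_lit 6) (nat_lit 85) (nat_lit 0) (nat_lit 81) (nat_lit 72) (nat_lit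 36)))) (PT.nd (nat_lit 94) (PT.lf (nat_lit 6720) (nat_lit 6) (nat_lit 80) (nat_lit 5) (nat_lit 35) (nat_lit 73) (nat_lit 81)) (PT.nd (nat_lit 94) (PT.lf (nat_lit 7224) (nat_lit 6) (nat_lit 86) (nat_lit 5) (nat_lit 36) (nat_lit 73) (nat_lit 80)) (PT.lf (nat_lit 7644) (nat_lit 6) (nat_lit 91) (nat_lit 5) (nat_lit 37) (nat_lit 73) (nat_lit 79))))) (PT.nd (nat_lit 282) (PT.nd (nat_lit 94) (PT.lf (nat_lit 8148) (nat_lit 6) (nat_lit 97) (nat_lit 5) (nat_lit 38) (nat_lit 73) (nat_lit 78)) (PT.nd (nat_lit 94) (PT.lf (nat_lit 8652) (nat_lit 6) (nat_lit 103) (nat_lit 5) (nat_lit 39) (nat_lit 73) (nat_lit 77)) (PT.lf (nat_lit 9240) (nat_lit 6) (nat_lit 110) (nat_lit 5) (nat_lit 40) (nat_lit 73) (nat_lit 76)))) (PT.nd (nat_lit 94) (PT.lf (nat_lit 9744) (nat_lit 6) (nat_lit 116) (nat_lit 5) (nat_lit 41) (nat_lit 73) (nat_lit 75)) (PT.nd (nat_lit 94) (PT.lf (nat_lit 10332) (nat_lit 6) (nat_lit 123) (nat_lit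 5) (nat_lit 42) (nat_lit 73) (nat_lit 74)) (PT.lf (nat_lit 10920) (nat_lit 3) (nat_lit 130) (nat_lit 4) (nat_lit 43) (nat_lit 73) (nat_lit 73))))))) (PT.nd (nat_lit 1034) (PT.nd (nat_lit 470) (PT.nd (nat_lit 188) (PT.nd (nat_lit 94) (PT.lf (nat_lit 11508) (nat_lit 6) (nat_lit 137) (nat_lit 4) (nat_lit 44) (nat_lit 73) (nat_lit 72)) (PT.lf (nat_lit 12096) (nat_lit 6) (nat_lit 144) (nat_lit 4) (nat_lit 45) (nat_lit 73) (nat_lit 71))) (PT.nd (nat_lit 94) (PT.lf (nat_lit 12684) (nat_lit 6) (nat_lit 151) (nat_lit 4) (nat_lit 46) (nat_lit 73) (nat_lit 70)) (PT.nd (nat_lit 94) (PT.lf (nat_lit 13272) (nat_lit 6) (nat_lit 158) (nat_lit 4) (nat_lit 47) (nat_lit 73) (nat_lit 69)) (PT.lf (nat_lit 14532) (nat_lit 6) (nat_lit 173) (nat_lit 4) (nat_lit 48) (nat_lit 73) (nat_lit 68))))) (PT.nd (nat_lit 282) (PT.nd (nat_lit 94) (PT.lf (nat_lit 15708) (nat_lit 6) (nat_lit 187) (nat_lit 4) (nat_lit 49) (nat_lit 73)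 (nat_lit 67)) (PT.nd (nat_lit 94) (PT.lf (nat_lit 16800) (nat_lit 6) (nat_lit 200) (nat_lit 4) (nat_lit 50) (nat_lit 73) (nat_lit 66)) (PT.lf (nat_lit 17808) (nat_lit 6) (nat_lit 212) (nat_lit 4) (nat_lit 51) (nat_lit 73) (nat_lit 65)))) (PT.nd (nat_lit 94) (PT.lf (nat_lit 18732) (nat_lit 6) (nat_lit 223) (nat_lit 4) (nat_lit 52) (nat_lit 73) (nat_lit 64)) (PT.nd (nat_lit 94) (PT.lf (nat_lit 19572) (nat_lit 6) (nat_lit 233) (nat_lit 4) (nat_lit 53) (nat_lit 73) (nat_lit 63)) (PT.lf (nat_lit 19488) (nat_lit 6) (nat_lit 232) (nat_lit 4) (nat_lit 54) (nat_lit 73) (nat_lit 62)))))) (PT.nd (nat_lit 564) (PT.nd (nat_lit 282) (PT.nd (nat_lit 94) (PT.lf (nat_lit 19404) (nat_lit 6) (nat_lit 231) (nat_lit 4) (nat_lit 55) (nat_lit 73) (nat_lit 61)) (PT.nd (nat_lit 94) (PT.lf (nat_lit 19320) (nat_lit 6) (nat_lit 230) (nat_lit 4) (nat_lit 56) (nat_lit 73) (nat_lit 60)) (PT.lf (nat_lit 19236) (nat_lit 6) (nat_lit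 229) (nat_lit 4) (nat_lit 57) (nat_lit 73) (nat_lit 59)))) (PT.nd (nat_lit 94) (PT.lf (nat_lit 19152) (nat_lit 3) (nat_lit 228) (nat_lit 2) (nat_lit 58) (nat_lit 73) (nat_lit 58)) (PT.nd (nat_lit 94) (PT.lf (nat_lit 19236) (nat_lit 6) (nat_lit 229) (nat_lit 2) (nat_lit 59) (nat_lit 73) (nat_lit 57)) (PT.lf (nat_lit 19320) (nat_lit 6) (nat_lit 230) (nat_lit 2) (nat_lit 60) (nat_lit 73) (nat_lit 56))))) (PT.nd (nat_lit 282) (PT.nd (nat_lit 94) (PT.lf (nat_lit 19404) (nat_lit 6) (nat_lit 231) (nat_lit 2) (nat_lit 61) (nat_lit 73) (nat_lit 55)) (PT.nd (nat_lit 94) (PT.lf (nat_lit 19488) (nat_lit 6) (nat_lit 232) (nat_lit 2) (nat_lit 62) (nat_lit 73) (nat_lit 54)) (PT.lf (nat_lit 19572) (nat_lit 6) (nat_lit 233) (nat_lit 2) (nat_lit 63) (nat_lit 73) (nat_lit 53)))) (PT.nd (nat_lit 94) (PT.lf (nat_lit 18732) (nat_lit 6) (nat_lit 223) (nat_lit 2) (nat_lit 64) (nat_lit 73) (nat_lit 52)) (PT.nd (nat_lit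 94) (PT.lf (nat_lit 17808) (nat_lit 6) (nat_lit 212) (nat_lit 2) (nat_lit 65) (nat_lit 73) (nat_lit 51)) (PT.lf (nat_lit 16800) (nat_lit 6) (nat_lit 200) (nat_lit 2) (nat_lit 66) (nat_lit 73) (nat_lit 50))))))))
noncomputable def pc22 : PT := (PT.nd (nat_lit 56870) (PT.nd (nat_lit 1034) (PT.nd (nat_lit 470) (PT.nd (nat_lit 188) (PT.nd (nat_lit 94) (PT.lf (nat_lit 15708) (nat_lit 6) (nat_lit 187) (nat_lit 2) (nat_lit 67) (nat_lit 73) (nat_lit 49)) (PT.lf (nat_lit 14532) (nat_lit 6) (nat_lit 173) (nat_lit 2) (nat_lit 68) (nat_lit 73) (nat_lit 48))) (PT.nd (nat_lit 94) (PT.lf (nat_lit 13272) (nat_lit 6) (nat_lit 158) (nat_lit 2) (nat_lit 69) (nat_lit 73) (nat_lit 47)) (PT.nd (nat_lit 94) (PT.lf (nat_lit 12684) (nat_lit 6) (nat_lit 151) (nat_lit 2) (nat_lit 70) (nat_lit 73) (nat_lit 46)) (PT.lf (nat_lit 12096) (nat_lit 6) (nat_lit 144) (nat_lit 2) (nat_lit 71) (nat_lit 73) (nat_lit 45))))) (PT.nd (nat_lit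 282) (PT.nd (nat_lit 94) (PT.lf (nat_lit 11508) (nat_lit 6) (nat_lit 137) (nat_lit 2) (nat_lit 72) (nat_lit 73) (nat_lit 44)) (PT.nd (nat_lit 94) (PT.lf (nat_lit 10920) (nat_lit 3) (nat_lit 130) (nat_lit 0) (nat_lit 73) (nat_lit 73) (nat_lit 43)) (PT.lf (nat_lit 10332) (nat_lit 6) (nat_lit 123) (nat_lit 0) (nat_lit 74) (nat_lit 73) (nat_lit 42)))) (PT.nd (nat_lit 94) (PT.lf (nat_lit 9744) (nat_lit 6) (nat_lit 116) (nat_lit 0) (nat_lit 75) (nat_lit 73) (nat_lit 41)) (PT.nd (nat_lit 94) (PT.lf (nat_lit 9240) (nat_lit 6) (nat_lit 110) (nat_lit 0) (nat_lit 76) (nat_lit 73) (nat_lit 40)) (PT.lf (nat_lit 8652) (nat_lit 6) (nat_lit 103) (nat_lit 0) (nat_lit 77) (nat_lit 73) (nat_lit 39)))))) (PT.nd (nat_lit 55272) (PT.nd (nat_lit 188) (PT.nd (nat_lit 94) (PT.lf (nat_lit 8148) (nat_lit 6) (nat_lit 97) (nat_lit 0) (nat_lit 78) (nat_lit 73) (nat_lit 38)) (PT.lf (nat_lit 7644) (nat_lit 6) (nat_lit 91) (nat_lit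 0) (nat_lit 79) (nat_lit 73) (nat_lit 37))) (PT.nd (nat_lit 94) (PT.lf (nat_lit 7224) (nat_lit 6) (nat_lit 86) (nat_lit 0) (nat_lit 80) (nat_lit 73) (nat_lit 36)) (PT.nd (nat_lit 54896) (PT.lf (nat_lit 6720) (nat_lit 6) (nat_lit 80) (nat_lit 0) (nat_lit 81) (nat_lit 73) (nat_lit 35)) (PT.lf (nat_lit 6384) (nat_lit 6) (nat_lit 76) (nat_lit 5) (nat_lit 34) (nat_lit 74) (nat_lit 81))))) (PT.nd (nat_lit 282) (PT.nd (nat_lit 94) (PT.lf (nat_lit 6804) (nat_lit 6) (nat_lit 81) (nat_lit 5) (nat_lit 35) (nat_lit 74) (nat_lit 80)) (PT.nd (nat_lit 94) (PT.lf (nat_lit 7308) (nat_lit 6) (nat_lit 87) (nat_lit 5) (nat_lit 36) (nat_lit 74) (nat_lit 79)) (PT.lf (nat_lit 7728) (nat_lit 6) (nat_lit 92) (nat_lit 5) (nat_lit 37) (nat_lit 74) (nat_lit 78)))) (PT.nd (nat_lit 94) (PT.lf (nat_lit 8232) (nat_lit 6) (nat_lit 98) (nat_lit 5) (nat_lit 38) (nat_lit 74) (nat_lit 77)) (PT.nd (nat_lit 94) (PT.lf (nat_lit 8736)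 (nat_lit 6) (nat_lit 104) (nat_lit 5) (nat_lit 39) (nat_lit 74) (nat_lit 76)) (PT.lf (nat_lit 9324) (nat_lit 6) (nat_lit 111) (nat_lit 5) (nat_lit 40) (nat_lit 74) (nat_lit 75))))))) (PT.nd (nat_lit 1034) (PT.nd (nat_lit 470) (PT.nd (nat_lit 188) (PT.nd (nat_lit 94) (PT.lf (nat_lit 9828) (nat_lit 3) (nat_lit 117) (nat_lit 4) (nat_lit 41) (nat_lit 74) (nat_lit 74)) (PT.lf (nat_lit 10332) (nat_lit 6) (nat_lit 123) (nat_lit 4) (nat_lit 42) (nat_lit 74) (nat_lit 73))) (PT.nd (nat_lit 94) (PT.lf (nat_lit 10836) (nat_lit 6) (nat_lit 129) (nat_lit 4) (nat_lit 43) (nat_lit 74) (nat_lit 72)) (PT.nd (nat_lit 94) (PT.lf (nat_lit 11424) (nat_lit 6) (nat_lit 136) (nat_lit 4) (nat_lit 44) (nat_lit 74) (nat_lit 71)) (PT.lf (nat_lit 12012) (nat_lit 6) (nat_lit 143) (nat_lit 4) (nat_lit 45) (nat_lit 74) (nat_lit 70))))) (PT.nd (nat_lit 282) (PT.nd (nat_lit 94) (PT.lf (nat_lit 12600) (nat_lit 6) (nat_lit 150) (nat_lit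 4) (nat_lit 46) (nat_lit 74) (nat_lit 69)) (PT.nd (nat_lit 94) (PT.lf (nat_lit 13188) (nat_lit 6) (nat_lit 157) (nat_lit 4) (nat_lit 47) (nat_lit 74) (nat_lit 68)) (PT.lf (nat_lit 14448) (nat_lit 6) (nat_lit 172) (nat_lit 4) (nat_lit 48) (nat_lit 74) (nat_lit 67)))) (PT.nd (nat_lit 94) (PT.lf (nat_lit 15624) (nat_lit 6) (nat_lit 186) (nat_lit 4) (nat_lit 49) (nat_lit 74) (nat_lit 66)) (PT.nd (nat_lit 94) (PT.lf (nat_lit 16716) (nat_lit 6) (nat_lit 199) (nat_lit 4) (nat_lit 50) (nat_lit 74) (nat_lit 65)) (PT.lf (nat_lit 17724) (nat_lit 6) (nat_lit 211) (nat_lit 4) (nat_lit 51) (nat_lit 74) (nat_lit 64)))))) (PT.nd (nat_lit 564) (PT.nd (nat_lit 282) (PT.nd (nat_lit 94) (PT.lf (nat_lit 18648) (nat_lit 6) (nat_lit 222) (nat_lit 4) (nat_lit 52) (nat_lit 74) (nat_lit 63)) (PT.nd (nat_lit 94) (PT.lf (nat_lit 18564) (nat_lit 6) (nat_lit 221) (nat_lit 4) (nat_lit 53) (nat_lit 74) (nat_lit 62)) (PT.lf (nat_lit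 18480) (nat_lit 6) (nat_lit 220) (nat_lit 4) (nat_lit 54) (nat_lit 74) (nat_lit 61)))) (PT.nd (nat_lit 94) (PT.lf (nat_lit 18396) (nat_lit 6) (nat_lit 219) (nat_lit 4) (nat_lit 55) (nat_lit 74) (nat_lit 60)) (PT.nd (nat_lit 94) (PT.lf (nat_lit 18312) (nat_lit 6) (nat_lit 218) (nat_lit 4) (nat_lit 56) (nat_lit 74) (nat_lit 59)) (PT.lf (nat_lit 18228) (nat_lit 6) (nat_lit 217) (nat_lit 4) (nat_lit 57) (nat_lit 74) (nat_lit 58))))) (PT.nd (nat_lit 282) (PT.nd (nat_lit 94) (PT.lf (nat_lit 18228) (nat_lit 6) (nat_lit 217) (nat_lit 2) (nat_lit 58) (nat_lit 74) (nat_lit 57)) (PT.nd (nat_lit 94) (PT.lf (nat_lit 18312) (nat_lit 6) (nat_lit 218) (nat_lit 2) (nat_lit 59) (nat_lit 74) (nat_lit 56)) (PT.lf (nat_lit 18396) (nat_lit 6) (nat_lit 219) (nat_lit 2) (nat_lit 60) (nat_lit 74) (nat_lit 55)))) (PT.nd (nat_lit 94) (PT.lf (nat_lit 18480) (nat_lit 6) (nat_lit 220) (nat_lit 2) (nat_lit 61) (nat_lit 74) (nat_lit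 54)) (PT.nd (nat_lit 94) (PT.lf (nat_lit 18564) (nat_lit 6) (nat_lit 221) (nat_lit 2) (nat_lit 62) (nat_lit 74) (nat_lit 53)) (PT.lf (nat_lit 18648) (nat_lit 6) (nat_lit 222) (nat_lit 2) (nat_lit 63) (nat_lit 74) (nat_lit 52))))))))
noncomputable def pc23 : PT := (PT.nd (nat_lit 56776) (PT.nd (nat_lit 1034) (PT.nd (nat_lit 470) (PT.nd (nat_lit 188) (PT.nd (nat_lit 94) (PT.lf (nat_lit 17724) (nat_lit 6) (nat_lit 211) (nat_lit 2) (nat_lit 64) (nat_lit 74) (nat_lit 51)) (PT.lf (nat_lit 16716) (nat_lit 6) (nat_lit 199) (nat_lit 2) (nat_lit 65) (nat_lit 74) (nat_lit 50))) (PT.nd (nat_lit 94) (PT.lf (nat_lit 15624) (nat_lit 6) (nat_lit 186) (nat_lit 2) (nat_lit 66) (nat_lit 74) (nat_lit 49)) (PT.nd (nat_lit 94) (PT.lf (nat_lit 14448) (nat_lit 6) (nat_lit 172) (nat_lit 2) (nat_lit 67) (nat_lit 74) (nat_lit 48)) (PT.lf (nat_lit 13188) (nat_lit 6) (nat_lit 157) (nat_lit 2) (nat_lit 68) (nat_lit 74) (nat_lit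 47))))) (PT.nd (nat_lit 282) (PT.nd (nat_lit 94) (PT.lf (nat_lit 12600) (nat_lit 6) (nat_lit 150) (nat_lit 2) (nat_lit 69) (nat_lit 74) (nat_lit 46)) (PT.nd (nat_lit 94) (PT.lf (nat_lit 12012) (nat_lit 6) (nat_lit 143) (nat_lit 2) (nat_lit 70) (nat_lit 74) (nat_lit 45)) (PT.lf (nat_lit 11424) (nat_lit 6) (nat_lit 136) (nat_lit 2) (nat_lit 71) (nat_lit 74) (nat_lit 44)))) (PT.nd (nat_lit 94) (PT.lf (nat_lit 10836) (nat_lit 6) (nat_lit 129) (nat_lit 2) (nat_lit 72) (nat_lit 74) (nat_lit 43)) (PT.nd (nat_lit 94) (PT.lf (nat_lit 10332) (nat_lit 6) (nat_lit 123) (nat_lit 2) (nat_lit 73) (nat_lit 74) (nat_lit 42)) (PT.lf (nat_lit 9828) (nat_lit 3) (nat_lit 117) (nat_lit 0) (nat_lit 74) (nat_lit 74) (nat_lit 41)))))) (PT.nd (nat_lit 564) (PT.nd (nat_lit 282) (PT.nd (nat_lit 94) (PT.lf (nat_lit 9324) (nat_lit 6) (nat_lit 111) (nat_lit 0) (nat_lit 75) (nat_lit 74) (nat_lit 40)) (PT.nd (nat_lit 94) (PT.lf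 (nat_lit 8736) (nat_lit 6) (nat_lit 104) (nat_lit 0) (nat_lit 76) (nat_lit 74) (nat_lit 39)) (PT.lf (nat_lit 8232) (nat_lit 6) (nat_lit 98) (nat_lit 0) (nat_lit 77) (nat_lit 74) (nat_lit 38)))) (PT.nd (nat_lit 94) (PT.lf (nat_lit 7728) (nat_lit 6) (nat_lit 92) (nat_lit 0) (nat_lit 78) (nat_lit 74) (nat_lit 37)) (PT.nd (nat_lit 94) (PT.lf (nat_lit 7308) (nat_lit 6) (nat_lit 87) (nat_lit 0) (nat_lit 79) (nat_lit 74) (nat_lit 36)) (PT.lf (nat_lit 6804) (nat_lit 6) (nat_lit 81) (nat_lit 0) (nat_lit 80) (nat_lit 74) (nat_lit 35))))) (PT.nd (nat_lit 54896) (PT.nd (nat_lit 54708) (PT.lf (nat_lit 6384) (nat_lit 6) (nat_lit 76) (nat_lit 0) (nat_lit 81) (nat_lit 74) (nat_lit 34)) (PT.nd (nat_lit 94) (PT.lf (nat_lit 5628) (nat_lit 6) (nat_lit 67) (nat_lit 5) (nat_lit 32) (nat_lit 75) (nat_lit 82)) (PT.lf (nat_lit 6048) (nat_lit 6) (nat_lit 72) (nat_lit 5) (nat_lit 33) (nat_lit 75) (nat_lit 81)))) (PT.nd (nat_lit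 94) (PT.lf (nat_lit 6468) (nat_lit 6) (nat_lit 77) (nat_lit 5) (nat_lit 34) (nat_lit 75) (nat_lit 80)) (PT.nd (nat_lit 94) (PT.lf (nat_lit 6888) (nat_lit 6) (nat_lit 82) (nat_lit 5) (nat_lit 35) (nat_lit 75) (nat_lit 79)) (PT.lf (nat_lit 7392) (nat_lit 6) (nat_lit 88) (nat_lit 5) (nat_lit 36) (nat_lit 75) (nat_lit 78))))))) (PT.nd (nat_lit 1034) (PT.nd (nat_lit 470) (PT.nd (nat_lit 188) (PT.nd (nat_lit 94) (PT.lf (nat_lit 7812) (nat_lit 6) (nat_lit 93) (nat_lit 5) (nat_lit 37) (nat_lit 75) (nat_lit 77)) (PT.lf (nat_lit 8316) (nat_lit 6) (nat_lit 99) (nat_lit 5) (nat_lit 38) (nat_lit 75) (nat_lit 76))) (PT.nd (nat_lit 94) (PT.lf (nat_lit 8820) (nat_lit 3) (nat_lit 105) (nat_lit 4) (nat_lit 39) (nat_lit 75) (nat_lit 75)) (PT.nd (nat_lit 94) (PT.lf (nat_lit 9324) (nat_lit 6) (nat_lit 111) (nat_lit 4) (nat_lit 40) (nat_lit 75) (nat_lit 74)) (PT.lf (nat_lit 9744) (nat_lit 6) (nat_lit 116) (nat_lit 4)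 (nat_lit 41) (nat_lit 75) (nat_lit 73))))) (PT.nd (nat_lit 282) (PT.nd (nat_lit 94) (PT.lf (nat_lit 10248) (nat_lit 6) (nat_lit 122) (nat_lit 4) (nat_lit 42) (nat_lit 75) (nat_lit 72)) (PT.nd (nat_lit 94) (PT.lf (nat_lit 10752) (nat_lit 6) (nat_lit 128) (nat_lit 4) (nat_lit 43) (nat_lit 75) (nat_lit 71)) (PT.lf (nat_lit 11340) (nat_lit 6) (nat_lit 135) (nat_lit 4) (nat_lit 44) (nat_lit 75) (nat_lit 70)))) (PT.nd (nat_lit 94) (PT.lf (nat_lit 11928) (nat_lit 6) (nat_lit 142) (nat_lit 4) (nat_lit 45) (nat_lit 75) (nat_lit 69)) (PT.nd (nat_lit 94) (PT.lf (nat_lit 12516) (nat_lit 6) (nat_lit 149) (nat_lit 4) (nat_lit 46) (nat_lit 75) (nat_lit 68)) (PT.lf (nat_lit 13104) (nat_lit 6) (nat_lit 156) (nat_lit 4) (nat_lit 47) (nat_lit 75) (nat_lit 67)))))) (PT.nd (nat_lit 564) (PT.nd (nat_lit 282) (PT.nd (nat_lit 94) (PT.lf (nat_lit 14364) (nat_lit 6) (nat_lit 171) (nat_lit 4) (nat_lit 48) (nat_lit 75) (nat_lit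 66)) (PT.nd (nat_lit 94) (PT.lf (nat_lit 15540) (nat_lit 6) (nat_lit 185) (nat_lit 4) (nat_lit 49) (nat_lit 75) (nat_lit 65)) (PT.lf (nat_lit 16632) (nat_lit 6) (nat_lit 198) (nat_lit 4) (nat_lit 50) (nat_lit 75) (nat_lit 64)))) (PT.nd (nat_lit 94) (PT.lf (nat_lit 17640) (nat_lit 6) (nat_lit 210) (nat_lit 4) (nat_lit 51) (nat_lit 75) (nat_lit 63)) (PT.nd (nat_lit 94) (PT.lf (nat_lit 17556) (nat_lit 6) (nat_lit 209) (nat_lit 4) (nat_lit 52) (nat_lit 75) (nat_lit 62)) (PT.lf (nat_lit 17472) (nat_lit 6) (nat_lit 208) (nat_lit 4) (nat_lit 53) (nat_lit 75) (nat_lit 61))))) (PT.nd (nat_lit 282) (PT.nd (nat_lit 94) (PT.lf (nat_lit 17388) (nat_lit 6) (nat_lit 207) (nat_lit 4) (nat_lit 54) (nat_lit 75) (nat_lit 60)) (PT.nd (nat_lit 94) (PT.lf (nat_lit 17304) (nat_lit 6) (nat_lit 206) (nat_lit 4) (nat_lit 55) (nat_lit 75) (nat_lit 59)) (PT.lf (nat_lit 17220) (nat_lit 6) (nat_lit 205) (nat_lit 4) (nat_lit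 56) (nat_lit 75) (nat_lit 58)))) (PT.nd (nat_lit 94) (PT.lf (nat_lit 17136) (nat_lit 3) (nat_lit 204) (nat_lit 2) (nat_lit 57) (nat_lit 75) (nat_lit 57)) (PT.nd (nat_lit 94) (PT.lf (nat_lit 17220) (nat_lit 6) (nat_lit 205) (nat_lit 2) (nat_lit 58) (nat_lit 75) (nat_lit 56)) (PT.lf (nat_lit 17304) (nat_lit 6) (nat_lit 206) (nat_lit 2) (nat_lit 59) (nat_lit 75) (nat_lit 55))))))))
noncomputable def pc24 : PT := (PT.nd (nat_lit 2068) (PT.nd (nat_lit 1034) (PT.nd (nat_lit 470) (PT.nd (nat_lit 188) (PT.nd (nat_lit 94) (PT.lf (nat_lit 17388) (nat_lit 6) (nat_lit 207) (nat_lit 2) (nat_lit 60) (nat_lit 75) (nat_lit 54)) (PT.lf (nat_lit 17472) (nat_lit 6) (nat_lit 208) (nat_lit 2) (nat_lit 61) (nat_lit 75) (nat_lit 53))) (PT.nd (nat_lit 94) (PT.lf (nat_lit 17556) (nat_lit 6) (nat_lit 209) (nat_lit 2) (nat_lit 62) (nat_lit 75) (nat_lit 52)) (PT.nd (nat_lit 94) (PT.lf (nat_lit 17640) (nat_lit 6) (nat_lit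 210) (nat_lit 2) (nat_lit 63) (nat_lit 75) (nat_lit 51)) (PT.lf (nat_lit 16632) (nat_lit 6) (nat_lit 198) (nat_lit 2) (nat_lit 64) (nat_lit 75) (nat_lit 50))))) (PT.nd (nat_lit 282) (PT.nd (nat_lit 94) (PT.lf (nat_lit 15540) (nat_lit 6) (nat_lit 185) (nat_lit 2) (nat_lit 65) (nat_lit 75) (nat_lit 49)) (PT.nd (nat_lit 94) (PT.lf (nat_lit 14364) (nat_lit 6) (nat_lit 171) (nat_lit 2) (nat_lit 66) (nat_lit 75) (nat_lit 48)) (PT.lf (nat_lit 13104) (nat_lit 6) (nat_lit 156) (nat_lit 2) (nat_lit 67) (nat_lit 75) (nat_lit 47)))) (PT.nd (nat_lit 94) (PT.lf (nat_lit 12516) (nat_lit 6) (nat_lit 149) (nat_lit 2) (nat_lit 68) (nat_lit 75) (nat_lit 46)) (PT.nd (nat_lit 94) (PT.lf (nat_lit 11928) (nat_lit 6) (nat_lit 142) (nat_lit 2) (nat_lit 69) (nat_lit 75) (nat_lit 45)) (PT.lf (nat_lit 11340) (nat_lit 6) (nat_lit 135) (nat_lit 2) (nat_lit 70) (nat_lit 75) (nat_lit 44)))))) (PT.nd (nat_lit 470) (PT.nd (nat_lit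 188) (PT.nd (nat_lit 94) (PT.lf (nat_lit 10752) (nat_lit 6) (nat_lit 128) (nat_lit 2) (nat_lit 71) (nat_lit 75) (nat_lit 43)) (PT.lf (nat_lit 10248) (nat_lit 6) (nat_lit 122) (nat_lit 2) (nat_lit 72) (nat_lit 75) (nat_lit 42))) (PT.nd (nat_lit 94) (PT.lf (nat_lit 9744) (nat_lit 6) (nat_lit 116) (nat_lit 2) (nat_lit 73) (nat_lit 75) (nat_lit 41)) (PT.nd (nat_lit 94) (PT.lf (nat_lit 9324) (nat_lit 6) (nat_lit 111) (nat_lit 2) (nat_lit 74) (nat_lit 75) (nat_lit 40)) (PT.lf (nat_lit 8820) (nat_lit 3) (nat_lit 105) (nat_lit 0) (nat_lit 75) (nat_lit 75) (nat_lit 39))))) (PT.nd (nat_lit 282) (PT.nd (nat_lit 94) (PT.lf (nat_lit 8316) (nat_lit 6) (nat_lit 99) (nat_lit 0) (nat_lit 76) (nat_lit 75) (nat_lit 38)) (PT.nd (nat_lit 94) (PT.lf (nat_lit 7812) (nat_lit 6) (nat_lit 93) (nat_lit 0) (nat_lit 77) (nat_lit 75) (nat_lit 37)) (PT.lf (nat_lit 7392) (nat_lit 6) (nat_lit 88) (nat_lit 0) (nat_lit 78) (nat_lit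 75) (nat_lit 36)))) (PT.nd (nat_lit 94) (PT.lf (nat_lit 6888) (nat_lit 6) (nat_lit 82) (nat_lit 0) (nat_lit 79) (nat_lit 75) (nat_lit 35)) (PT.nd (nat_lit 94) (PT.lf (nat_lit 6468) (nat_lit 6) (nat_lit 77) (nat_lit 0) (nat_lit 80) (nat_lit 75) (nat_lit 34)) (PT.lf (nat_lit 6048) (nat_lit 6) (nat_lit 72) (nat_lit 0) (nat_lit 81) (nat_lit 75) (nat_lit 33))))))) (PT.nd (nat_lit 55460) (PT.nd (nat_lit 54896) (PT.nd (nat_lit 54614) (PT.nd (nat_lit 54520) (PT.lf (nat_lit 5628) (nat_lit 6) (nat_lit 67) (nat_lit 0) (nat_lit 82) (nat_lit 75) (nat_lit 32)) (PT.lf (nat_lit 5292) (nat_lit 6) (nat_lit 63) (nat_lit 5) (nat_lit 31) (nat_lit 76) (nat_lit 82))) (PT.nd (nat_lit 94) (PT.lf (nat_lit 5712) (nat_lit 6) (nat_lit 68) (nat_lit 5) (nat_lit 32) (nat_lit 76) (nat_lit 81)) (PT.nd (nat_lit 94) (PT.lf (nat_lit 6132) (nat_lit 6) (nat_lit 73) (nat_lit 5) (nat_lit 33) (nat_lit 76) (nat_lit 80)) (PT.lf (nat_lit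 6552) (nat_lit 6) (nat_lit 78) (nat_lit 5) (nat_lit 34) (nat_lit 76) (nat_lit 79))))) (PT.nd (nat_lit 282) (PT.nd (nat_lit 94) (PT.lf (nat_lit 6972) (nat_lit 6) (nat_lit 83) (nat_lit 5) (nat_lit 35) (nat_lit 76) (nat_lit 78)) (PT.nd (nat_lit 94) (PT.lf (nat_lit 7476) (nat_lit 6) (nat_lit 89) (nat_lit 5) (nat_lit 36) (nat_lit 76) (nat_lit 77)) (PT.lf (nat_lit 7896) (nat_lit 3) (nat_lit 94) (nat_lit 4) (nat_lit 37) (nat_lit 76) (nat_lit 76)))) (PT.nd (nat_lit 94) (PT.lf (nat_lit 8316) (nat_lit 6) (nat_lit 99) (nat_lit 4) (nat_lit 38) (nat_lit 76) (nat_lit 75)) (PT.nd (nat_lit 94) (PT.lf (nat_lit 8736) (nat_lit 6) (nat_lit 104) (nat_lit 4) (nat_lit 39) (nat_lit 76) (nat_lit 74)) (PT.lf (nat_lit 9240) (nat_lit 6) (nat_lit 110) (nat_lit 4) (nat_lit 40) (nat_lit 76) (nat_lit 73)))))) (PT.nd (nat_lit 564) (PT.nd (nat_lit 282) (PT.nd (nat_lit 94) (PT.lf (nat_lit 9660) (nat_lit 6) (nat_lit 115) (nat_lit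 4) (nat_lit 41) (nat_lit 76) (nat_lit 72)) (PT.nd (nat_lit 94) (PT.lf (nat_lit 10164) (nat_lit 6) (nat_lit 121) (nat_lit 4) (nat_lit 42) (nat_lit 76) (nat_lit 71)) (PT.lf (nat_lit 10668) (nat_lit 6) (nat_lit 127) (nat_lit 4) (nat_lit 43) (nat_lit 76) (nat_lit 70)))) (PT.nd (nat_lit 94) (PT.lf (nat_lit 11256) (nat_lit 6) (nat_lit 134) (nat_lit 4) (nat_lit 44) (nat_lit 76) (nat_lit 69)) (PT.nd (nat_lit 94) (PT.lf (nat_lit 11844) (nat_lit 6) (nat_lit 141) (nat_lit 4) (nat_lit 45) (nat_lit 76) (nat_lit 68)) (PT.lf (nat_lit 12432) (nat_lit 6) (nat_lit 148) (nat_lit 4) (nat_lit 46) (nat_lit 76) (nat_lit 67))))) (PT.nd (nat_lit 282) (PT.nd (nat_lit 94) (PT.lf (nat_lit 13020) (nat_lit 6) (nat_lit 155) (nat_lit 4) (nat_lit 47) (nat_lit 76) (nat_lit 66)) (PT.nd (nat_lit 94) (PT.lf (nat_lit 14280) (nat_lit 6) (nat_lit 170) (nat_lit 4) (nat_lit 48) (nat_lit 76) (nat_lit 65)) (PT.lf (nat_lit 15456) (nat_lit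 6) (nat_lit 184) (nat_lit 4) (nat_lit 49) (nat_lit 76) (nat_lit 64)))) (PT.nd (nat_lit 94) (PT.lf (nat_lit 16548) (nat_lit 6) (nat_lit 197) (nat_lit 4) (nat_lit 50) (nat_lit 76) (nat_lit 63)) (PT.nd (nat_lit 94) (PT.lf (nat_lit 16464) (nat_lit 6) (nat_lit 196) (nat_lit 4) (nat_lit 51) (nat_lit 76) (nat_lit 62)) (PT.lf (nat_lit 16380) (nat_lit 6) (nat_lit 195) (nat_lit 4) (nat_lit 52) (nat_lit 76) (nat_lit 61))))))))
noncomputable def pc25 : PT := (PT.nd (nat_lit 2162) (PT.nd (nat_lit 1034) (PT.nd (nat_lit 470) (PT.nd (nat_lit 188) (PT.nd (nat_lit 94) (PT.lf (nat_lit 16296) (nat_lit 6) (nat_lit 194) (nat_lit 4) (nat_lit 53) (nat_lit 76) (nat_lit 60)) (PT.lf (nat_lit 16212) (nat_lit 6) (nat_lit 193) (nat_lit 4) (nat_lit 54) (nat_lit 76) (nat_lit 59))) (PT.nd (nat_lit 94) (PT.lf (nat_lit 16128) (nat_lit 6) (nat_lit 192) (nat_lit 4) (nat_lit 55) (nat_lit 76) (nat_lit 58)) (PT.nd (nat_lit 94) (PT.lf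 (nat_lit 16044) (nat_lit 6) (nat_lit 191) (nat_lit 4) (nat_lit 56) (nat_lit 76) (nat_lit 57)) (PT.lf (nat_lit 16044) (nat_lit 6) (nat_lit 191) (nat_lit 2) (nat_lit 57) (nat_lit 76) (nat_lit 56))))) (PT.nd (nat_lit 282) (PT.nd (nat_lit 94) (PT.lf (nat_lit 16128) (nat_lit 6) (nat_lit 192) (nat_lit 2) (nat_lit 58) (nat_lit 76) (nat_lit 55)) (PT.nd (nat_lit 94) (PT.lf (nat_lit 16212) (nat_lit 6) (nat_lit 193) (nat_lit 2) (nat_lit 59) (nat_lit 76) (nat_lit 54)) (PT.lf (nat_lit 16296) (nat_lit 6) (nat_lit 194) (nat_lit 2) (nat_lit 60) (nat_lit 76) (nat_lit 53)))) (PT.nd (nat_lit 94) (PT.lf (nat_lit 16380) (nat_lit 6) (nat_lit 195) (nat_lit 2) (nat_lit 61) (nat_lit 76) (nat_lit 52)) (PT.nd (nat_lit 94) (PT.lf (nat_lit 16464) (nat_lit 6) (nat_lit 196) (nat_lit 2) (nat_lit 62) (nat_lit 76) (nat_lit 51)) (PT.lf (nat_lit 16548) (nat_lit 6) (nat_lit 197) (nat_lit 2) (nat_lit 63) (nat_lit 76) (nat_lit 50))))))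 (PT.nd (nat_lit 564) (PT.nd (nat_lit 282) (PT.nd (nat_lit 94) (PT.lf (nat_lit 15456) (nat_lit 6) (nat_lit 184) (nat_lit 2) (nat_lit 64) (nat_lit 76) (nat_lit 49)) (PT.nd (nat_lit 94) (PT.lf (nat_lit 14280) (nat_lit 6) (nat_lit 170) (nat_lit 2) (nat_lit 65) (nat_lit 76) (nat_lit 48)) (PT.lf (nat_lit 13020) (nat_lit 6) (nat_lit 155) (nat_lit 2) (nat_lit 66) (nat_lit 76) (nat_lit 47)))) (PT.nd (nat_lit 94) (PT.lf (nat_lit 12432) (nat_lit 6) (nat_lit 148) (nat_lit 2) (nat_lit 67) (nat_lit 76) (nat_lit 46)) (PT.nd (nat_lit 94) (PT.lf (nat_lit 11844) (nat_lit 6) (nat_lit 141) (nat_lit 2) (nat_lit 68) (nat_lit 76) (nat_lit 45)) (PT.lf (nat_lit 11256) (nat_lit 6) (nat_lit 134) (nat_lit 2) (nat_lit 69) (nat_lit 76) (nat_lit 44))))) (PT.nd (nat_lit 282) (PT.nd (nat_lit 94) (PT.lf (nat_lit 10668) (nat_lit 6) (nat_lit 127) (nat_lit 2) (nat_lit 70) (nat_lit 76) (nat_lit 43)) (PT.nd (nat_lit 94) (PT.lf (nat_lit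 10164) (nat_lit 6) (nat_lit 121) (nat_lit 2) (nat_lit 71) (nat_lit 76) (nat_lit 42)) (PT.lf (nat_lit 9660) (nat_lit 6) (nat_lit 115) (nat_lit 2) (nat_lit 72) (nat_lit 76) (nat_lit 41)))) (PT.nd (nat_lit 94) (PT.lf (nat_lit 9240) (nat_lit 6) (nat_lit 110) (nat_lit 2) (nat_lit 73) (nat_lit 76) (nat_lit 40)) (PT.nd (nat_lit 94) (PT.lf (nat_lit 8736) (nat_lit 6) (nat_lit 104) (nat_lit 2) (nat_lit 74) (nat_lit 76) (nat_lit 39)) (PT.lf (nat_lit 8316) (nat_lit 6) (nat_lit 99) (nat_lit 2) (nat_lit 75) (nat_lit 76) (nat_lit 38))))))) (PT.nd (nat_lit 55272) (PT.nd (nat_lit 470) (PT.nd (nat_lit 188) (PT.nd (nat_lit 94) (PT.lf (nat_lit 7896) (nat_lit 3) (nat_lit 94) (nat_lit 0) (nat_lit 76) (nat_lit 76) (nat_lit 37)) (PT.lf (nat_lit 7476) (nat_lit 6) (nat_lit 89) (nat_lit 0) (nat_lit 77) (nat_lit 76) (nat_lit 36))) (PT.nd (nat_lit 94) (PT.lf (nat_lit 6972) (nat_lit 6) (nat_lit 83) (nat_lit 0) (nat_lit 78)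 (nat_lit 76) (nat_lit 35)) (PT.nd (nat_lit 94) (PT.lf (nat_lit 6552) (nat_lit 6) (nat_lit 78) (nat_lit 0) (nat_lit 79) (nat_lit 76) (nat_lit 34)) (PT.lf (nat_lit 6132) (nat_lit 6) (nat_lit 73) (nat_lit 0) (nat_lit 80) (nat_lit 76) (nat_lit 33))))) (PT.nd (nat_lit 54520) (PT.nd (nat_lit 94) (PT.lf (nat_lit 5712) (nat_lit 6) (nat_lit 68) (nat_lit 0) (nat_lit 81) (nat_lit 76) (nat_lit 32)) (PT.nd (nat_lit 54332) (PT.lf (nat_lit 5292) (nat_lit 6) (nat_lit 63) (nat_lit 0) (nat_lit 82) (nat_lit 76) (nat_lit 31)) (PT.lf (nat_lit 4620) (nat_lit 6) (nat_lit 55) (nat_lit 5) (nat_lit 29) (nat_lit 77) (nat_lit 83)))) (PT.nd (nat_lit 94) (PT.lf (nat_lit 5040) (nat_lit 6) (nat_lit 60) (nat_lit 5) (nat_lit 30) (nat_lit 77) (nat_lit 82)) (PT.nd (nat_lit 94) (PT.lf (nat_lit 5376) (nat_lit 6) (nat_lit 64) (nat_lit 5) (nat_lit 31) (nat_lit 77) (nat_lit 81)) (PT.lf (nat_lit 5796) (nat_lit 6) (nat_lit 69) (nat_lit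 5) (nat_lit 32) (nat_lit 77) (nat_lit 80)))))) (PT.nd (nat_lit 564) (PT.nd (nat_lit 282) (PT.nd (nat_lit 94) (PT.lf (nat_lit 6216) (nat_lit 6) (nat_lit 74) (nat_lit 5) (nat_lit 33) (nat_lit 77) (nat_lit 79)) (PT.nd (nat_lit 94) (PT.lf (nat_lit 6636) (nat_lit 6) (nat_lit 79) (nat_lit 5) (nat_lit 34) (nat_lit 77) (nat_lit 78)) (PT.lf (nat_lit 7056) (nat_lit 3) (nat_lit 84) (nat_lit 4) (nat_lit 35) (nat_lit 77) (nat_lit 77)))) (PT.nd (nat_lit 94) (PT.lf (nat_lit 7476) (nat_lit 6) (nat_lit 89) (nat_lit 4) (nat_lit 36) (nat_lit 77) (nat_lit 76)) (PT.nd (nat_lit 94) (PT.lf (nat_lit 7812) (nat_lit 6) (nat_lit 93) (nat_lit 4) (nat_lit 37) (nat_lit 77) (nat_lit 75)) (PT.lf (nat_lit 8232) (nat_lit 6) (nat_lit 98) (nat_lit 4) (nat_lit 38) (nat_lit 77) (nat_lit 74))))) (PT.nd (nat_lit 282) (PT.nd (nat_lit 94) (PT.lf (nat_lit 8652) (nat_lit 6) (nat_lit 103) (nat_lit 4) (nat_lit 39) (nat_lit 77) (nat_lit 73))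 (PT.nd (nat_lit 94) (PT.lf (nat_lit 9156) (nat_lit 6) (nat_lit 109) (nat_lit 4) (nat_lit 40) (nat_lit 77) (nat_lit 72)) (PT.lf (nat_lit 9576) (nat_lit 6) (nat_lit 114) (nat_lit 4) (nat_lit 41) (nat_lit 77) (nat_lit 71)))) (PT.nd (nat_lit 94) (PT.lf (nat_lit 10080) (nat_lit 6) (nat_lit 120) (nat_lit 4) (nat_lit 42) (nat_lit 77) (nat_lit 70)) (PT.nd (nat_lit 94) (PT.lf (nat_lit 10584) (nat_lit 6) (nat_lit 126) (nat_lit 4) (nat_lit 43) (nat_lit 77) (nat_lit 69)) (PT.lf (nat_lit 11172) (nat_lit 6) (nat_lit 133) (nat_lit 4) (nat_lit 44) (nat_lit 77) (nat_lit 68))))))))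
noncomputable def pc26 : PT := (PT.nd (nat_lit 2068) (PT.nd (nat_lit 1034) (PT.nd (nat_lit 470) (PT.nd (nat_lit 188) (PT.nd (nat_lit 94) (PT.lf (nat_lit 11760) (nat_lit 6) (nat_lit 140) (nat_lit 4) (nat_lit 45) (nat_lit 77) (nat_lit 67)) (PT.lf (nat_lit 12348) (nat_lit 6) (nat_lit 147) (nat_lit 4) (nat_lit 46) (nat_lit 77) (nat_lit 66))) (PT.nd (nat_lit 94) (PT.lf (nat_lit 12936) (nat_lit 6) (nat_lit 154) (nat_lit 4) (nat_lit 47) (nat_lit 77) (nat_lit 65)) (PT.nd (nat_lit 94) (PT.lf (nat_lit 14196) (nat_lit 6) (nat_lit 169) (nat_lit 4) (nat_lit 48) (nat_lit 77) (nat_lit 64)) (PT.lf (nat_lit 15372) (nat_lit 6) (nat_lit 183) (nat_lit 4) (nat_lit 49) (nat_lit 77) (nat_lit 63))))) (PT.nd (nat_lit 282) (PT.nd (nat_lit 94) (PT.lf (nat_lit 15288) (nat_lit 6) (nat_lit 182) (nat_lit 4) (nat_lit 50) (nat_lit 77) (nat_lit 62)) (PT.nd (nat_lit 94) (PT.lf (nat_lit 15204) (nat_lit 6) (nat_lit 181) (nat_lit 4)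 (nat_lit 51) (nat_lit 77) (nat_lit 61)) (PT.lf (nat_lit 15120) (nat_lit 6) (nat_lit 180) (nat_lit 4) (nat_lit 52) (nat_lit 77) (nat_lit 60)))) (PT.nd (nat_lit 94) (PT.lf (nat_lit 15036) (nat_lit 6) (nat_lit 179) (nat_lit 4) (nat_lit 53) (nat_lit 77) (nat_lit 59)) (PT.nd (nat_lit 94) (PT.lf (nat_lit 14952) (nat_lit 6) (nat_lit 178) (nat_lit 4) (nat_lit 54) (nat_lit 77) (nat_lit 58)) (PT.lf (nat_lit 14868) (nat_lit 6) (nat_lit 177) (nat_lit 4) (nat_lit 55) (nat_lit 77) (nat_lit 57)))))) (PT.nd (nat_lit 470) (PT.nd (nat_lit 188) (PT.nd (nat_lit 94) (PT.lf (nat_lit 14784) (nat_lit 3) (nat_lit 176) (nat_lit 2) (nat_lit 56) (nat_lit 77) (nat_lit 56)) (PT.lf (nat_lit 14868) (nat_lit 6) (nat_lit 177) (nat_lit 2) (nat_lit 57) (nat_lit 77) (nat_lit 55))) (PT.nd (nat_lit 94) (PT.lf (nat_lit 14952) (nat_lit 6) (nat_lit 178) (nat_lit 2) (nat_lit 58) (nat_lit 77) (nat_lit 54)) (PT.nd (nat_lit 94) (PT.lf (nat_lit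 15036) (nat_lit 6) (nat_lit 179) (nat_lit 2) (nat_lit 59) (nat_lit 77) (nat_lit 53)) (PT.lf (nat_lit 15120) (nat_lit 6) (nat_lit 180) (nat_lit 2) (nat_lit 60) (nat_lit 77) (nat_lit 52))))) (PT.nd (nat_lit 282) (PT.nd (nat_lit 94) (PT.lf (nat_lit 15204) (nat_lit 6) (nat_lit 181) (nat_lit 2) (nat_lit 61) (nat_lit 77) (nat_lit 51)) (PT.nd (nat_lit 94) (PT.lf (nat_lit 15288) (nat_lit 6) (nat_lit 182) (nat_lit 2) (nat_lit 62) (nat_lit 77) (nat_lit 50)) (PT.lf (nat_lit 15372) (nat_lit 6) (nat_lit 183) (nat_lit 2) (nat_lit 63) (nat_lit 77) (nat_lit 49)))) (PT.nd (nat_lit 94) (PT.lf (nat_lit 14196) (nat_lit 6) (nat_lit 169) (nat_lit 2) (nat_lit 64) (nat_lit 77) (nat_lit 48)) (PT.nd (nat_lit 94) (PT.lf (nat_lit 12936) (nat_lit 6) (nat_lit 154) (nat_lit 2) (nat_lit 65) (nat_lit 77) (nat_lit 47)) (PT.lf (nat_lit 12348) (nat_lit 6) (nat_lit 147) (nat_lit 2) (nat_lit 66) (nat_lit 77) (nat_lit 46))))))) (PT.nd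 (nat_lit 1034) (PT.nd (nat_lit 470) (PT.nd (nat_lit 188) (PT.nd (nat_lit 94) (PT.lf (nat_lit 11760) (nat_lit 6) (nat_lit 140) (nat_lit 2) (nat_lit 67) (nat_lit 77) (nat_lit 45)) (PT.lf (nat_lit 11172) (nat_lit 6) (nat_lit 133) (nat_lit 2) (nat_lit 68) (nat_lit 77) (nat_lit 44))) (PT.nd (nat_lit 94) (PT.lf (nat_lit 10584) (nat_lit 6) (nat_lit 126) (nat_lit 2) (nat_lit 69) (nat_lit 77) (nat_lit 43)) (PT.nd (nat_lit 94) (PT.lf (nat_lit 10080) (nat_lit 6) (nat_lit 120) (nat_lit 2) (nat_lit 70) (nat_lit 77) (nat_lit 42)) (PT.lf (nat_lit 9576) (nat_lit 6) (nat_lit 114) (nat_lit 2) (nat_lit 71) (nat_lit 77) (nat_lit 41))))) (PT.nd (nat_lit 282) (PT.nd (nat_lit 94) (PT.lf (nat_lit 9156) (nat_lit 6) (nat_lit 109) (nat_lit 2) (nat_lit 72) (nat_lit 77) (nat_lit 40)) (PT.nd (nat_lit 94) (PT.lf (nat_lit 8652) (nat_lit 6) (nat_lit 103) (nat_lit 2) (nat_lit 73) (nat_lit 77) (nat_lit 39)) (PT.lf (nat_lit 8232)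 (nat_lit 6) (nat_lit 98) (nat_lit 2) (nat_lit 74) (nat_lit 77) (nat_lit 38)))) (PT.nd (nat_lit 94) (PT.lf (nat_lit 7812) (nat_lit 6) (nat_lit 93) (nat_lit 2) (nat_lit 75) (nat_lit 77) (nat_lit 37)) (PT.nd (nat_lit 94) (PT.lf (nat_lit 7476) (nat_lit 6) (nat_lit 89) (nat_lit 2) (nat_lit 76) (nat_lit 77) (nat_lit 36)) (PT.lf (nat_lit 7056) (nat_lit 3) (nat_lit 84) (nat_lit 0) (nat_lit 77) (nat_lit 77) (nat_lit 35)))))) (PT.nd (nat_lit 54614) (PT.nd (nat_lit 282) (PT.nd (nat_lit 94) (PT.lf (nat_lit 6636) (nat_lit 6) (nat_lit 79) (nat_lit 0) (nat_lit 78) (nat_lit 77) (nat_lit 34)) (PT.nd (nat_lit 94) (PT.lf (nat_lit 6216) (nat_lit 6) (nat_lit 74) (nat_lit 0) (nat_lit 79) (nat_lit 77) (nat_lit 33)) (PT.lf (nat_lit 5796) (nat_lit 6) (nat_lit 69) (nat_lit 0) (nat_lit 80) (nat_lit 77) (nat_lit 32)))) (PT.nd (nat_lit 94) (PT.lf (nat_lit 5376) (nat_lit 6) (nat_lit 64) (nat_lit 0) (nat_lit 81) (nat_lit 77)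 (nat_lit 31)) (PT.nd (nat_lit 94) (PT.lf (nat_lit 5040) (nat_lit 6) (nat_lit 60) (nat_lit 0) (nat_lit 82) (nat_lit 77) (nat_lit 30)) (PT.lf (nat_lit 4620) (nat_lit 6) (nat_lit 55) (nat_lit 0) (nat_lit 83) (nat_lit 77) (nat_lit 29))))) (PT.nd (nat_lit 282) (PT.nd (nat_lit 94) (PT.lf (nat_lit 4368) (nat_lit 6) (nat_lit 52) (nat_lit 5) (nat_lit 28) (nat_lit 78) (nat_lit 83)) (PT.nd (nat_lit 94) (PT.lf (nat_lit 4704) (nat_lit 6) (nat_lit 56) (nat_lit 5) (nat_lit 29) (nat_lit 78) (nat_lit 82)) (PT.lf (nat_lit 5124) (nat_lit 6) (nat_lit 61) (nat_lit 5) (nat_lit 30) (nat_lit 78) (nat_lit 81)))) (PT.nd (nat_lit 94) (PT.lf (nat_lit 5460) (nat_lit 6) (nat_lit 65) (nat_lit 5) (nat_lit 31) (nat_lit 78) (nat_lit 80)) (PT.nd (nat_lit 94) (PT.lf (nat_lit 5880) (nat_lit 6) (nat_lit 70) (nat_lit 5) (nat_lit 32) (nat_lit 78) (nat_lit 79)) (PT.lf (nat_lit 6300) (nat_lit 3) (nat_lit 75) (nat_lit 4) (nat_lit 33) (nat_lit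 78) (nat_lit 78))))))))
noncomputable def pc27 : PT := (PT.nd (nat_lit 2162) (PT.nd (nat_lit 1034) (PT.nd (nat_lit 470) (PT.nd (nat_lit 188) (PT.nd (nat_lit 94) (PT.lf (nat_lit 6636) (nat_lit 6) (nat_lit 79) (nat_lit 4) (nat_lit 34) (nat_lit 78) (nat_lit 77)) (PT.lf (nat_lit 6972) (nat_lit 6) (nat_lit 83) (nat_lit 4) (nat_lit 35) (nat_lit 78) (nat_lit 76))) (PT.nd (nat_lit 94) (PT.lf (nat_lit 7392) (nat_lit 6) (nat_lit 88) (nat_lit 4) (nat_lit 36) (nat_lit 78) (nat_lit 75)) (PT.nd (nat_lit 94) (PT.lf (nat_lit 7728) (nat_lit 6) (nat_lit 92) (nat_lit 4) (nat_lit 37) (nat_lit 78) (nat_lit 74)) (PT.lf (nat_lit 8148) (nat_lit 6) (nat_lit 97) (nat_lit 4) (nat_lit 38) (nat_lit 78) (nat_lit 73))))) (PT.nd (nat_lit 282) (PT.nd (nat_lit 94) (PT.lf (nat_lit 8568) (nat_lit 6) (nat_lit 102) (nat_lit 4) (nat_lit 39) (nat_lit 78) (nat_lit 72)) (PT.nd (nat_lit 94) (PT.lf (nat_lit 9072) (nat_lit 6) (nat_lit 108)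 (nat_lit 4) (nat_lit 40) (nat_lit 78) (nat_lit 71)) (PT.lf (nat_lit 9492) (nat_lit 6) (nat_lit 113) (nat_lit 4) (nat_lit 41) (nat_lit 78) (nat_lit 70)))) (PT.nd (nat_lit 94) (PT.lf (nat_lit 9996) (nat_lit 6) (nat_lit 119) (nat_lit 4) (nat_lit 42) (nat_lit 78) (nat_lit 69)) (PT.nd (nat_lit 94) (PT.lf (nat_lit 10500) (nat_lit 6) (nat_lit 125) (nat_lit 4) (nat_lit 43) (nat_lit 78) (nat_lit 68)) (PT.lf (nat_lit 11088) (nat_lit 6) (nat_lit 132) (nat_lit 4) (nat_lit 44) (nat_lit 78) (nat_lit 67)))))) (PT.nd (nat_lit 564) (PT.nd (nat_lit 282) (PT.nd (nat_lit 94) (PT.lf (nat_lit 11676) (nat_lit 6) (nat_lit 139) (nat_lit 4) (nat_lit 45) (nat_lit 78) (nat_lit 66)) (PT.nd (nat_lit 94) (PT.lf (nat_lit 12264) (nat_lit 6) (nat_lit 146) (nat_lit 4) (nat_lit 46) (nat_lit 78) (nat_lit 65)) (PT.lf (nat_lit 12852) (nat_lit 6) (nat_lit 153) (nat_lit 4) (nat_lit 47) (nat_lit 78) (nat_lit 64)))) (PT.nd (nat_lit 94)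 (PT.lf (nat_lit 14112) (nat_lit 6) (nat_lit 168) (nat_lit 4) (nat_lit 48) (nat_lit 78) (nat_lit 63)) (PT.nd (nat_lit 94) (PT.lf (nat_lit 14028) (nat_lit 6) (nat_lit 167) (nat_lit 4) (nat_lit 49) (nat_lit 78) (nat_lit 62)) (PT.lf (nat_lit 13944) (nat_lit 6) (nat_lit 166) (nat_lit 4) (nat_lit 50) (nat_lit 78) (nat_lit 61))))) (PT.nd (nat_lit 282) (PT.nd (nat_lit 94) (PT.lf (nat_lit 13860) (nat_lit 6) (nat_lit 165) (nat_lit 4) (nat_lit 51) (nat_lit 78) (nat_lit 60)) (PT.nd (nat_lit 94) (PT.lf (nat_lit 13776) (nat_lit 6) (nat_lit 164) (nat_lit 4) (nat_lit 52) (nat_lit 78) (nat_lit 59)) (PT.lf (nat_lit 13692) (nat_lit 6) (nat_lit 163) (nat_lit 4) (nat_lit 53) (nat_lit 78) (nat_lit 58)))) (PT.nd (nat_lit 94) (PT.lf (nat_lit 13608) (nat_lit 6) (nat_lit 162) (nat_lit 4) (nat_lit 54) (nat_lit 78) (nat_lit 57)) (PT.nd (nat_lit 94) (PT.lf (nat_lit 13524) (nat_lit 6) (nat_lit 161) (nat_lit 4) (nat_lit 55)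 (nat_lit 78) (nat_lit 56)) (PT.lf (nat_lit 13524) (nat_lit 6) (nat_lit 161) (nat_lit 2) (nat_lit 56) (nat_lit 78) (nat_lit 55))))))) (PT.nd (nat_lit 1034) (PT.nd (nat_lit 470) (PT.nd (nat_lit 188) (PT.nd (nat_lit 94) (PT.lf (nat_lit 13608) (nat_lit 6) (nat_lit 162) (nat_lit 2) (nat_lit 57) (nat_lit 78) (nat_lit 54)) (PT.lf (nat_lit 13692) (nat_lit 6) (nat_lit 163) (nat_lit 2) (nat_lit 58) (nat_lit 78) (nat_lit 53))) (PT.nd (nat_lit 94) (PT.lf (nat_lit 13776) (nat_lit 6) (nat_lit 164) (nat_lit 2) (nat_lit 59) (nat_lit 78) (nat_lit 52)) (PT.nd (nat_lit 94) (PT.lf (nat_lit 13860) (nat_lit 6) (nat_lit 165) (nat_lit 2) (nat_lit 60) (nat_lit 78) (nat_lit 51)) (PT.lf (nat_lit 13944) (nat_lit 6) (nat_lit 166) (nat_lit 2) (nat_lit 61) (nat_lit 78) (nat_lit 50))))) (PT.nd (nat_lit 282) (PT.nd (nat_lit 94) (PT.lf (nat_lit 14028) (nat_lit 6) (nat_lit 167) (nat_lit 2) (nat_lit 62) (nat_lit 78) (nat_lit 49))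 (PT.nd (nat_lit 94) (PT.lf (nat_lit 14112) (nat_lit 6) (nat_lit 168) (nat_lit 2) (nat_lit 63) (nat_lit 78) (nat_lit 48)) (PT.lf (nat_lit 12852) (nat_lit 6) (nat_lit 153) (nat_lit 2) (nat_lit 64) (nat_lit 78) (nat_lit 47)))) (PT.nd (nat_lit 94) (PT.lf (nat_lit 12264) (nat_lit 6) (nat_lit 146) (nat_lit 2) (nat_lit 65) (nat_lit 78) (nat_lit 46)) (PT.nd (nat_lit 94) (PT.lf (nat_lit 11676) (nat_lit 6) (nat_lit 139) (nat_lit 2) (nat_lit 66) (nat_lit 78) (nat_lit 45)) (PT.lf (nat_lit 11088) (nat_lit 6) (nat_lit 132) (nat_lit 2) (nat_lit 67) (nat_lit 78) (nat_lit 44)))))) (PT.nd (nat_lit 564) (PT.nd (nat_lit 282) (PT.nd (nat_lit 94) (PT.lf (nat_lit 10500) (nat_lit 6) (nat_lit 125) (nat_lit 2) (nat_lit 68) (nat_lit 78) (nat_lit 43)) (PT.nd (nat_lit 94) (PT.lf (nat_lit 9996) (nat_lit 6) (nat_lit 119) (nat_lit 2) (nat_lit 69) (nat_lit 78) (nat_lit 42)) (PT.lf (nat_lit 9492) (nat_lit 6) (nat_lit 113) (nat_lit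 2) (nat_lit 70) (nat_lit 78) (nat_lit 41)))) (PT.nd (nat_lit 94) (PT.lf (nat_lit 9072) (nat_lit 6) (nat_lit 108) (nat_lit 2) (nat_lit 71) (nat_lit 78) (nat_lit 40)) (PT.nd (nat_lit 94) (PT.lf (nat_lit 8568) (nat_lit 6) (nat_lit 102) (nat_lit 2) (nat_lit 72) (nat_lit 78) (nat_lit 39)) (PT.lf (nat_lit 8148) (nat_lit 6) (nat_lit 97) (nat_lit 2) (nat_lit 73) (nat_lit 78) (nat_lit 38))))) (PT.nd (nat_lit 282) (PT.nd (nat_lit 94) (PT.lf (nat_lit 7728) (nat_lit 6) (nat_lit 92) (nat_lit 2) (nat_lit 74) (nat_lit 78) (nat_lit 37)) (PT.nd (nat_lit 94) (PT.lf (nat_lit 7392) (nat_lit 6) (nat_lit 88) (nat_lit 2) (nat_lit 75) (nat_lit 78) (nat_lit 36)) (PT.lf (nat_lit 6972) (nat_lit 6) (nat_lit 83) (nat_lit 2) (nat_lit 76) (nat_lit 78) (nat_lit 35)))) (PT.nd (nat_lit 94) (PT.lf (nat_lit 6636) (nat_lit 6) (nat_lit 79) (nat_lit 2) (nat_lit 77) (nat_lit 78) (nat_lit 34)) (PT.nd (nat_lit 94) (PT.lf (nat_lit 6300)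 (nat_lit 3) (nat_lit 75) (nat_lit 0) (nat_lit 78) (nat_lit 78) (nat_lit 33)) (PT.lf (nat_lit 5880) (nat_lit 6) (nat_lit 70) (nat_lit 0) (nat_lit 79) (nat_lit 78) (nat_lit 32))))))))
noncomputable def pc28 : PT := (PT.nd (nat_lit 55930) (PT.nd (nat_lit 54896) (PT.nd (nat_lit 54332) (PT.nd (nat_lit 188) (PT.nd (nat_lit 94) (PT.lf (nat_lit 5460) (nat_lit 6) (nat_lit 65) (nat_lit 0) (nat_lit 80) (nat_lit 78) (nat_lit 31)) (PT.lf (nat_lit 5124) (nat_lit 6) (nat_lit 61) (nat_lit 0) (nat_lit 81) (nat_lit 78) (nat_lit 30))) (PT.nd (nat_lit 94) (PT.lf (nat_lit 4704) (nat_lit 6) (nat_lit 56) (nat_lit 0) (nat_lit 82) (nat_lit 78) (nat_lit 29)) (PT.nd (nat_lit 53956) (PT.lf (nat_lit 4368) (nat_lit 6) (nat_lit 52) (nat_lit 0) (nat_lit 83) (nat_lit 78) (nat_lit 28)) (PT.lf (nat_lit 3780) (nat_lit 6) (nat_lit 45) (nat_lit 5) (nat_lit 26) (nat_lit 79) (nat_lit 84))))) (PT.nd (nat_lit 282) (PT.nd (nat_lit 94) (PT.lf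 (nat_lit 4116) (nat_lit 6) (nat_lit 49) (nat_lit 5) (nat_lit 27) (nat_lit 79) (nat_lit 83)) (PT.nd (nat_lit 94) (PT.lf (nat_lit 4452) (nat_lit 6) (nat_lit 53) (nat_lit 5) (nat_lit 28) (nat_lit 79) (nat_lit 82)) (PT.lf (nat_lit 4788) (nat_lit 6) (nat_lit 57) (nat_lit 5) (nat_lit 29) (nat_lit 79) (nat_lit 81)))) (PT.nd (nat_lit 94) (PT.lf (nat_lit 5208) (nat_lit 6) (nat_lit 62) (nat_lit 5) (nat_lit 30) (nat_lit 79) (nat_lit 80)) (PT.nd (nat_lit 94) (PT.lf (nat_lit 5544) (nat_lit 3) (nat_lit 66) (nat_lit 4) (nat_lit 31) (nat_lit 79) (nat_lit 79)) (PT.lf (nat_lit 5880) (nat_lit 6) (nat_lit 70) (nat_lit 4) (nat_lit 32) (nat_lit 79) (nat_lit 78)))))) (PT.nd (nat_lit 470) (PT.nd (nat_lit 188) (PT.nd (nat_lit 94) (PT.lf (nat_lit 6216) (nat_lit 6) (nat_lit 74) (nat_lit 4) (nat_lit 33) (nat_lit 79) (nat_lit 77)) (PT.lf (nat_lit 6552) (nat_lit 6) (nat_lit 78) (nat_lit 4) (nat_lit 34) (nat_lit 79) (nat_lit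 76))) (PT.nd (nat_lit 94) (PT.lf (nat_lit 6888) (nat_lit 6) (nat_lit 82) (nat_lit 4) (nat_lit 35) (nat_lit 79) (nat_lit 75)) (PT.nd (nat_lit 94) (PT.lf (nat_lit 7308) (nat_lit 6) (nat_lit 87) (nat_lit 4) (nat_lit 36) (nat_lit 79) (nat_lit 74)) (PT.lf (nat_lit 7644) (nat_lit 6) (nat_lit 91) (nat_lit 4) (nat_lit 37) (nat_lit 79) (nat_lit 73))))) (PT.nd (nat_lit 282) (PT.nd (nat_lit 94) (PT.lf (nat_lit 8064) (nat_lit 6) (nat_lit 96) (nat_lit 4) (nat_lit 38) (nat_lit 79) (nat_lit 72)) (PT.nd (nat_lit 94) (PT.lf (nat_lit 8484) (nat_lit 6) (nat_lit 101) (nat_lit 4) (nat_lit 39) (nat_lit 79) (nat_lit 71)) (PT.lf (nat_lit 8988) (nat_lit 6) (nat_lit 107) (nat_lit 4) (nat_lit 40) (nat_lit 79) (nat_lit 70)))) (PT.nd (nat_lit 94) (PT.lf (nat_lit 9408) (nat_lit 6) (nat_lit 112) (nat_lit 4) (nat_lit 41) (nat_lit 79) (nat_lit 69)) (PT.nd (nat_lit 94) (PT.lf (nat_lit 9912) (nat_lit 6) (nat_lit 118) (nat_lit 4)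 (nat_lit 42) (nat_lit 79) (nat_lit 68)) (PT.lf (nat_lit 10416) (nat_lit 6) (nat_lit 124) (nat_lit 4) (nat_lit 43) (nat_lit 79) (nat_lit 67))))))) (PT.nd (nat_lit 3008) (PT.nd (nat_lit 2444) (PT.nd (nat_lit 2162) (PT.nd (nat_lit 2068) (PT.lf (nat_lit 11004) (nat_lit 6) (nat_lit 131) (nat_lit 4) (nat_lit 44) (nat_lit 79) (nat_lit 66)) (PT.lf (nat_lit 11004) (nat_lit 6) (nat_lit 131) (nat_lit 2) (nat_lit 66) (nat_lit 79) (nat_lit 44))) (PT.nd (nat_lit 94) (PT.lf (nat_lit 10416) (nat_lit 6) (nat_lit 124) (nat_lit 2) (nat_lit 67) (nat_lit 79) (nat_lit 43)) (PT.nd (nat_lit 94) (PT.lf (nat_lit 9912) (nat_lit 6) (nat_lit 118) (nat_lit 2) (nat_lit 68) (nat_lit 79) (nat_lit 42)) (PT.lf (nat_lit 9408) (nat_lit 6) (nat_lit 112) (nat_lit 2) (nat_lit 69) (nat_lit 79) (nat_lit 41))))) (PT.nd (nat_lit 282) (PT.nd (nat_lit 94) (PT.lf (nat_lit 8988) (nat_lit 6) (nat_lit 107) (nat_lit 2) (nat_lit 70) (nat_lit 79)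 (nat_lit 40)) (PT.nd (nat_lit 94) (PT.lf (nat_lit 8484) (nat_lit 6) (nat_lit 101) (nat_lit 2) (nat_lit 71) (nat_lit 79) (nat_lit 39)) (PT.lf (nat_lit 8064) (nat_lit 6) (nat_lit 96) (nat_lit 2) (nat_lit 72) (nat_lit 79) (nat_lit 38)))) (PT.nd (nat_lit 94) (PT.lf (nat_lit 7644) (nat_lit 6) (nat_lit 91) (nat_lit 2) (nat_lit 73) (nat_lit 79) (nat_lit 37)) (PT.nd (nat_lit 94) (PT.lf (nat_lit 7308) (nat_lit 6) (nat_lit 87) (nat_lit 2) (nat_lit 74) (nat_lit 79) (nat_lit 36)) (PT.lf (nat_lit 6888) (nat_lit 6) (nat_lit 82) (nat_lit 2) (nat_lit 75) (nat_lit 79) (nat_lit 35)))))) (PT.nd (nat_lit 564) (PT.nd (nat_lit 282) (PT.nd (nat_lit 94) (PT.lf (nat_lit 6552) (nat_lit 6) (nat_lit 78) (nat_lit 2) (nat_lit 76) (nat_lit 79) (nat_lit 34)) (PT.nd (nat_lit 94) (PT.lf (nat_lit 6216) (nat_lit 6) (nat_lit 74) (nat_lit 2) (nat_lit 77) (nat_lit 79) (nat_lit 33)) (PT.lf (nat_lit 5880) (nat_lit 6) (nat_lit 70) (nat_lit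 2) (nat_lit 78) (nat_lit 79) (nat_lit 32)))) (PT.nd (nat_lit 94) (PT.lf (nat_lit 5544) (nat_lit 3) (nat_lit 66) (nat_lit 0) (nat_lit 79) (nat_lit 79) (nat_lit 31)) (PT.nd (nat_lit 94) (PT.lf (nat_lit 5208) (nat_lit 6) (nat_lit 62) (nat_lit 0) (nat_lit 80) (nat_lit 79) (nat_lit 30)) (PT.lf (nat_lit 4788) (nat_lit 6) (nat_lit 57) (nat_lit 0) (nat_lit 81) (nat_lit 79) (nat_lit 29))))) (PT.nd (nat_lit 53956) (PT.nd (nat_lit 94) (PT.lf (nat_lit 4452) (nat_lit 6) (nat_lit 53) (nat_lit 0) (nat_lit 82) (nat_lit 79) (nat_lit 28)) (PT.nd (nat_lit 94) (PT.lf (nat_lit 4116) (nat_lit 6) (nat_lit 49) (nat_lit 0) (nat_lit 83) (nat_lit 79) (nat_lit 27)) (PT.lf (nat_lit 3780) (nat_lit 6) (nat_lit 45) (nat_lit 0) (nat_lit 84) (nat_lit 79) (nat_lit 26)))) (PT.nd (nat_lit 94) (PT.lf (nat_lit 3528) (nat_lit 6) (nat_lit 42) (nat_lit 5) (nat_lit 25) (nat_lit 80) (nat_lit 84)) (PT.nd (nat_lit 94) (PT.lf (nat_lit 3864)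 (nat_lit 6) (nat_lit 46) (nat_lit 5) (nat_lit 26) (nat_lit 80) (nat_lit 83)) (PT.lf (nat_lit 4200) (nat_lit 6) (nat_lit 50) (nat_lit 5) (nat_lit 27) (nat_lit 80) (nat_lit 82))))))))
noncomputable def pc29 : PT := (PT.nd (nat_lit 4982) (PT.nd (nat_lit 1034) (PT.nd (nat_lit 470) (PT.nd (nat_lit 188) (PT.nd (nat_lit 94) (PT.lf (nat_lit 4536) (nat_lit 6) (nat_lit 54) (nat_lit 5) (nat_lit 28) (nat_lit 80) (nat_lit 81)) (PT.lf (nat_lit 4872) (nat_lit 3) (nat_lit 58) (nat_lit 4) (nat_lit 29) (nat_lit 80) (nat_lit 80))) (PT.nd (nat_lit 94) (PT.lf (nat_lit 5208) (nat_lit 6) (nat_lit 62) (nat_lit 4) (nat_lit 30) (nat_lit 80) (nat_lit 79)) (PT.nd (nat_lit 94) (PT.lf (nat_lit 5460) (nat_lit 6) (nat_lit 65) (nat_lit 4) (nat_lit 31) (nat_lit 80) (nat_lit 78)) (PT.lf (nat_lit 5796) (nat_lit 6) (nat_lit 69) (nat_lit 4) (nat_lit 32) (nat_lit 80) (nat_lit 77))))) (PT.nd (nat_lit 282) (PT.nd (nat_lit 94) (PT.lf (nat_lit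 6132) (nat_lit 6) (nat_lit 73) (nat_lit 4) (nat_lit 33) (nat_lit 80) (nat_lit 76)) (PT.nd (nat_lit 94) (PT.lf (nat_lit 6468) (nat_lit 6) (nat_lit 77) (nat_lit 4) (nat_lit 34) (nat_lit 80) (nat_lit 75)) (PT.lf (nat_lit 6804) (nat_lit 6) (nat_lit 81) (nat_lit 4) (nat_lit 35) (nat_lit 80) (nat_lit 74)))) (PT.nd (nat_lit 94) (PT.lf (nat_lit 7224) (nat_lit 6) (nat_lit 86) (nat_lit 4) (nat_lit 36) (nat_lit 80) (nat_lit 73)) (PT.nd (nat_lit 94) (PT.lf (nat_lit 7560) (nat_lit 6) (nat_lit 90) (nat_lit 4) (nat_lit 37) (nat_lit 80) (nat_lit 72)) (PT.lf (nat_lit 7980) (nat_lit 6) (nat_lit 95) (nat_lit 4) (nat_lit 38) (nat_lit 80) (nat_lit 71)))))) (PT.nd (nat_lit 3384) (PT.nd (nat_lit 3102) (PT.nd (nat_lit 2914) (PT.lf (nat_lit 8400) (nat_lit 6) (nat_lit 100) (nat_lit 4) (nat_lit 39) (nat_lit 80) (nat_lit 70)) (PT.nd (nat_lit 94) (PT.lf (nat_lit 8400) (nat_lit 6) (nat_lit 100) (nat_lit 2) (nat_lit 70) (nat_lit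 80) (nat_lit 39)) (PT.lf (nat_lit 7980) (nat_lit 6) (nat_lit 95) (nat_lit 2) (nat_lit 71) (nat_lit 80) (nat_lit 38)))) (PT.nd (nat_lit 94) (PT.lf (nat_lit 7560) (nat_lit 6) (nat_lit 90) (nat_lit 2) (nat_lit 72) (nat_lit 80) (nat_lit 37)) (PT.nd (nat_lit 94) (PT.lf (nat_lit 7224) (nat_lit 6) (nat_lit 86) (nat_lit 2) (nat_lit 73) (nat_lit 80) (nat_lit 36)) (PT.lf (nat_lit 6804) (nat_lit 6) (nat_lit 81) (nat_lit 2) (nat_lit 74) (nat_lit 80) (nat_lit 35))))) (PT.nd (nat_lit 282) (PT.nd (nat_lit 94) (PT.lf (nat_lit 6468) (nat_lit 6) (nat_lit 77) (nat_lit 2) (nat_lit 75) (nat_lit 80) (nat_lit 34)) (PT.nd (nat_lit 94) (PT.lf (nat_lit 6132) (nat_lit 6) (nat_lit 73) (nat_lit 2) (nat_lit 76) (nat_lit 80) (nat_lit 33)) (PT.lf (nat_lit 5796) (nat_lit 6) (nat_lit 69) (nat_lit 2) (nat_lit 77) (nat_lit 80) (nat_lit 32)))) (PT.nd (nat_lit 94) (PT.lf (nat_lit 5460) (nat_lit 6) (nat_lit 65) (nat_lit 2) (nat_lit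 78) (nat_lit 80) (nat_lit 31)) (PT.nd (nat_lit 94) (PT.lf (nat_lit 5208) (nat_lit 6) (nat_lit 62) (nat_lit 2) (nat_lit 79) (nat_lit 80) (nat_lit 30)) (PT.lf (nat_lit 4872) (nat_lit 3) (nat_lit 58) (nat_lit 0) (nat_lit 80) (nat_lit 80) (nat_lit 29))))))) (PT.nd (nat_lit 54520) (PT.nd (nat_lit 53956) (PT.nd (nat_lit 188) (PT.nd (nat_lit 94) (PT.lf (nat_lit 4536) (nat_lit 6) (nat_lit 54) (nat_lit 0) (nat_lit 81) (nat_lit 80) (nat_lit 28)) (PT.lf (nat_lit 4200) (nat_lit 6) (nat_lit 50) (nat_lit 0) (nat_lit 82) (nat_lit 80) (nat_lit 27))) (PT.nd (nat_lit 94) (PT.lf (nat_lit 3864) (nat_lit 6) (nat_lit 46) (nat_lit 0) (nat_lit 83) (nat_lit 80) (nat_lit 26)) (PT.nd (nat_lit 53580) (PT.lf (nat_lit 3528) (nat_lit 6) (nat_lit 42) (nat_lit 0) (nat_lit 84) (nat_lit 80) (nat_lit 25)) (PT.lf (nat_lit 3024) (nat_lit 6) (nat_lit 36) (nat_lit 5) (nat_lit 23) (nat_lit 81) (nat_lit 85))))) (PT.nd (nat_lit 282) (PT.nd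 (nat_lit 94) (PT.lf (nat_lit 3360) (nat_lit 6) (nat_lit 40) (nat_lit 5) (nat_lit 24) (nat_lit 81) (nat_lit 84)) (PT.nd (nat_lit 94) (PT.lf (nat_lit 3612) (nat_lit 6) (nat_lit 43) (nat_lit 5) (nat_lit 25) (nat_lit 81) (nat_lit 83)) (PT.lf (nat_lit 3948) (nat_lit 6) (nat_lit 47) (nat_lit 5) (nat_lit 26) (nat_lit 81) (nat_lit 82)))) (PT.nd (nat_lit 94) (PT.lf (nat_lit 4284) (nat_lit 3) (nat_lit 51) (nat_lit 4) (nat_lit 27) (nat_lit 81) (nat_lit 81)) (PT.nd (nat_lit 94) (PT.lf (nat_lit 4536) (nat_lit 6) (nat_lit 54) (nat_lit 4) (nat_lit 28) (nat_lit 81) (nat_lit 80)) (PT.lf (nat_lit 4788) (nat_lit 6) (nat_lit 57) (nat_lit 4) (nat_lit 29) (nat_lit 81) (nat_lit 79)))))) (PT.nd (nat_lit 564) (PT.nd (nat_lit 282) (PT.nd (nat_lit 94) (PT.lf (nat_lit 5124) (nat_lit 6) (nat_lit 61) (nat_lit 4) (nat_lit 30) (nat_lit 81) (nat_lit 78)) (PT.nd (nat_lit 94) (PT.lf (nat_lit 5376) (nat_lit 6) (nat_lit 64) (nat_lit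 4) (nat_lit 31) (nat_lit 81) (nat_lit 77)) (PT.lf (nat_lit 5712) (nat_lit 6) (nat_lit 68) (nat_lit 4) (nat_lit 32) (nat_lit 81) (nat_lit 76)))) (PT.nd (nat_lit 94) (PT.lf (nat_lit 6048) (nat_lit 6) (nat_lit 72) (nat_lit 4) (nat_lit 33) (nat_lit 81) (nat_lit 75)) (PT.nd (nat_lit 94) (PT.lf (nat_lit 6384) (nat_lit 6) (nat_lit 76) (nat_lit 4) (nat_lit 34) (nat_lit 81) (nat_lit 74)) (PT.lf (nat_lit 6720) (nat_lit 6) (nat_lit 80) (nat_lit 4) (nat_lit 35) (nat_lit 81) (nat_lit 73))))) (PT.nd (nat_lit 3572) (PT.nd (nat_lit 3384) (PT.lf (nat_lit 7140) (nat_lit 6) (nat_lit 85) (nat_lit 4) (nat_lit 36) (nat_lit 81) (nat_lit 72)) (PT.nd (nat_lit 94) (PT.lf (nat_lit 7140) (nat_lit 6) (nat_lit 85) (nat_lit 2) (nat_lit 72) (nat_lit 81) (nat_lit 36)) (PT.lf (nat_lit 6720) (nat_lit 6) (nat_lit 80) (nat_lit 2) (nat_lit 73) (nat_lit 81) (nat_lit 35)))) (PT.nd (nat_lit 94) (PT.lf (nat_lit 6384) (nat_lit 6) (nat_lit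 76) (nat_lit 2) (nat_lit 74) (nat_lit 81) (nat_lit 34)) (PT.nd (nat_lit 94) (PT.lf (nat_lit 6048) (nat_lit 6) (nat_lit 72) (nat_lit 2) (nat_lit 75) (nat_lit 81) (nat_lit 33)) (PT.lf (nat_lit 5712) (nat_lit 6) (nat_lit 68) (nat_lit 2) (nat_lit 76) (nat_lit 81) (nat_lit 32))))))))
noncomputable def pc30 : PT := (PT.nd (nat_lit 59314) (PT.nd (nat_lit 54332) (PT.nd (nat_lit 470) (PT.nd (nat_lit 188) (PT.nd (nat_lit 94) (PT.lf (nat_lit 5376) (nat_lit 6) (nat_lit 64) (nat_lit 2) (nat_lit 77) (nat_lit 81) (nat_lit 31)) (PT.lf (nat_lit 5124) (nat_lit 6) (nat_lit 61) (nat_lit 2) (nat_lit 78) (nat_lit 81) (nat_lit 30))) (PT.nd (nat_lit 94) (PT.lf (nat_lit 4788) (nat_lit 6) (nat_lit 57) (nat_lit 2) (nat_lit 79) (nat_lit 81) (nat_lit 29)) (PT.nd (nat_lit 94) (PT.lf (nat_lit 4536) (nat_lit 6) (nat_lit 54) (nat_lit 2) (nat_lit 80) (nat_lit 81) (nat_lit 28)) (PT.lf (nat_lit 4284) (nat_lit 3) (nat_lit 51) (nat_lit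 0) (nat_lit 81) (nat_lit 81) (nat_lit 27))))) (PT.nd (nat_lit 282) (PT.nd (nat_lit 94) (PT.lf (nat_lit 3948) (nat_lit 6) (nat_lit 47) (nat_lit 0) (nat_lit 82) (nat_lit 81) (nat_lit 26)) (PT.nd (nat_lit 94) (PT.lf (nat_lit 3612) (nat_lit 6) (nat_lit 43) (nat_lit 0) (nat_lit 83) (nat_lit 81) (nat_lit 25)) (PT.lf (nat_lit 3360) (nat_lit 6) (nat_lit 40) (nat_lit 0) (nat_lit 84) (nat_lit 81) (nat_lit 24)))) (PT.nd (nat_lit 53392) (PT.lf (nat_lit 3024) (nat_lit 6) (nat_lit 36) (nat_lit 0) (nat_lit 85) (nat_lit 81) (nat_lit 23)) (PT.nd (nat_lit 94) (PT.lf (nat_lit 2856) (nat_lit 6) (nat_lit 34) (nat_lit 5) (nat_lit 22) (nat_lit 82) (nat_lit 85)) (PT.lf (nat_lit 3108) (nat_lit 6) (nat_lit 37) (nat_lit 5) (nat_lit 23) (nat_lit 82) (nat_lit 84)))))) (PT.nd (nat_lit 470) (PT.nd (nat_lit 188) (PT.nd (nat_lit 94) (PT.lf (nat_lit 3444) (nat_lit 6) (nat_lit 41) (nat_lit 5) (nat_lit 24) (nat_lit 82) (nat_lit 83))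 (PT.lf (nat_lit 3696) (nat_lit 3) (nat_lit 44) (nat_lit 4) (nat_lit 25) (nat_lit 82) (nat_lit 82))) (PT.nd (nat_lit 94) (PT.lf (nat_lit 3948) (nat_lit 6) (nat_lit 47) (nat_lit 4) (nat_lit 26) (nat_lit 82) (nat_lit 81)) (PT.nd (nat_lit 94) (PT.lf (nat_lit 4200) (nat_lit 6) (nat_lit 50) (nat_lit 4) (nat_lit 27) (nat_lit 82) (nat_lit 80)) (PT.lf (nat_lit 4452) (nat_lit 6) (nat_lit 53) (nat_lit 4) (nat_lit 28) (nat_lit 82) (nat_lit 79))))) (PT.nd (nat_lit 282) (PT.nd (nat_lit 94) (PT.lf (nat_lit 4704) (nat_lit 6) (nat_lit 56) (nat_lit 4) (nat_lit 29) (nat_lit 82) (nat_lit 78)) (PT.nd (nat_lit 94) (PT.lf (nat_lit 5040) (nat_lit 6) (nat_lit 60) (nat_lit 4) (nat_lit 30) (nat_lit 82) (nat_lit 77)) (PT.lf (nat_lit 5292) (nat_lit 6) (nat_lit 63) (nat_lit 4) (nat_lit 31) (nat_lit 82) (nat_lit 76)))) (PT.nd (nat_lit 4042) (PT.lf (nat_lit 5628) (nat_lit 6) (nat_lit 67) (nat_lit 4) (nat_lit 32) (nat_lit 82)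 (nat_lit 75)) (PT.nd (nat_lit 94) (PT.lf (nat_lit 5628) (nat_lit 6) (nat_lit 67) (nat_lit 2) (nat_lit 75) (nat_lit 82) (nat_lit 32)) (PT.lf (nat_lit 5292) (nat_lit 6) (nat_lit 63) (nat_lit 2) (nat_lit 76) (nat_lit 82) (nat_lit 31))))))) (PT.nd (nat_lit 54144) (PT.nd (nat_lit 470) (PT.nd (nat_lit 188) (PT.nd (nat_lit 94) (PT.lf (nat_lit 5040) (nat_lit 6) (nat_lit 60) (nat_lit 2) (nat_lit 77) (nat_lit 82) (nat_lit 30)) (PT.lf (nat_lit 4704) (nat_lit 6) (nat_lit 56) (nat_lit 2) (nat_lit 78) (nat_lit 82) (nat_lit 29))) (PT.nd (nat_lit 94) (PT.lf (nat_lit 4452) (nat_lit 6) (nat_lit 53) (nat_lit 2) (nat_lit 79) (nat_lit 82) (nat_lit 28)) (PT.nd (nat_lit 94) (PT.lf (nat_lit 4200) (nat_lit 6) (nat_lit 50) (nat_lit 2) (nat_lit 80) (nat_lit 82) (nat_lit 27)) (PT.lf (nat_lit 3948) (nat_lit 6) (nat_lit 47) (nat_lit 2) (nat_lit 81) (nat_lit 82) (nat_lit 26))))) (PT.nd (nat_lit 282) (PT.nd (nat_lit 94) (PT.lf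 (nat_lit 3696) (nat_lit 3) (nat_lit 44) (nat_lit 0) (nat_lit 82) (nat_lit 82) (nat_lit 25)) (PT.nd (nat_lit 94) (PT.lf (nat_lit 3444) (nat_lit 6) (nat_lit 41) (nat_lit 0) (nat_lit 83) (nat_lit 82) (nat_lit 24)) (PT.lf (nat_lit 3108) (nat_lit 6) (nat_lit 37) (nat_lit 0) (nat_lit 84) (nat_lit 82) (nat_lit 23)))) (PT.nd (nat_lit 53204) (PT.lf (nat_lit 2856) (nat_lit 6) (nat_lit 34) (nat_lit 0) (nat_lit 85) (nat_lit 82) (nat_lit 22)) (PT.nd (nat_lit 94) (PT.lf (nat_lit 2436) (nat_lit 6) (nat_lit 29) (nat_lit 5) (nat_lit 20) (nat_lit 83) (nat_lit 86)) (PT.lf (nat_lit 2688) (nat_lit 6) (nat_lit 32) (nat_lit 5) (nat_lit 21) (nat_lit 83) (nat_lit 85)))))) (PT.nd (nat_lit 564) (PT.nd (nat_lit 282) (PT.nd (nat_lit 94) (PT.lf (nat_lit 2940) (nat_lit 6) (nat_lit 35) (nat_lit 5) (nat_lit 22) (nat_lit 83) (nat_lit 84)) (PT.nd (nat_lit 94) (PT.lf (nat_lit 3192) (nat_lit 3) (nat_lit 38) (nat_lit 4) (nat_lit 23)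 (nat_lit 83) (nat_lit 83)) (PT.lf (nat_lit 3444) (nat_lit 6) (nat_lit 41) (nat_lit 4) (nat_lit 24) (nat_lit 83) (nat_lit 82)))) (PT.nd (nat_lit 94) (PT.lf (nat_lit 3612) (nat_lit 6) (nat_lit 43) (nat_lit 4) (nat_lit 25) (nat_lit 83) (nat_lit 81)) (PT.nd (nat_lit 94) (PT.lf (nat_lit 3864) (nat_lit 6) (nat_lit 46) (nat_lit 4) (nat_lit 26) (nat_lit 83) (nat_lit 80)) (PT.lf (nat_lit 4116) (nat_lit 6) (nat_lit 49) (nat_lit 4) (nat_lit 27) (nat_lit 83) (nat_lit 79))))) (PT.nd (nat_lit 4700) (PT.nd (nat_lit 94) (PT.lf (nat_lit 4368) (nat_lit 6) (nat_lit 52) (nat_lit 4) (nat_lit 28) (nat_lit 83) (nat_lit 78)) (PT.nd (nat_lit 4512) (PT.lf (nat_lit 4620) (nat_lit 6) (nat_lit 55) (nat_lit 4) (nat_lit 29) (nat_lit 83) (nat_lit 77)) (PT.lf (nat_lit 4620) (nat_lit 6) (nat_lit 55) (nat_lit 2) (nat_lit 77) (nat_lit 83) (nat_lit 29)))) (PT.nd (nat_lit 94) (PT.lf (nat_lit 4368) (nat_lit 6) (nat_lit 52) (nat_lit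 2) (nat_lit 78) (nat_lit 83) (nat_lit 28)) (PT.nd (nat_lit 94) (PT.lf (nat_lit 4116) (nat_lit 6) (nat_lit 49) (nat_lit 2) (nat_lit 79) (nat_lit 83) (nat_lit 27)) (PT.lf (nat_lit 3864) (nat_lit 6) (nat_lit 46) (nat_lit 2) (nat_lit 80) (nat_lit 83) (nat_lit 26))))))))
noncomputable def pc31 : PT := (PT.nd (nat_lit 112800) (PT.nd (nat_lit 53956) (PT.nd (nat_lit 470) (PT.nd (nat_lit 188) (PT.nd (nat_lit 94) (PT.lf (nat_lit 3612) (nat_lit 6) (nat_lit 43) (nat_lit 2) (nat_lit 81) (nat_lit 83) (nat_lit 25)) (PT.lf (nat_lit 3444) (nat_lit 6) (nat_lit 41) (nat_lit 2) (nat_lit 82) (nat_lit 83) (nat_lit 24))) (PT.nd (nat_lit 94) (PT.lf (nat_lit 3192) (nat_lit 3) (nat_lit 38) (nat_lit 0) (nat_lit 83) (nat_lit 83) (nat_lit 23)) (PT.nd (nat_lit 94) (PT.lf (nat_lit 2940) (nat_lit 6) (nat_lit 35) (nat_lit 0) (nat_lit 84) (nat_lit 83) (nat_lit 22)) (PT.lf (nat_lit 2688) (nat_lit 6) (nat_lit 32) (nat_lit 0) (nat_lit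 85) (nat_lit 83) (nat_lit 21))))) (PT.nd (nat_lit 53204) (PT.nd (nat_lit 53016) (PT.lf (nat_lit 2436) (nat_lit 6) (nat_lit 29) (nat_lit 0) (nat_lit 86) (nat_lit 83) (nat_lit 20)) (PT.nd (nat_lit 94) (PT.lf (nat_lit 2268) (nat_lit 6) (nat_lit 27) (nat_lit 5) (nat_lit 19) (nat_lit 84) (nat_lit 86)) (PT.lf (nat_lit 2520) (nat_lit 6) (nat_lit 30) (nat_lit 5) (nat_lit 20) (nat_lit 84) (nat_lit 85)))) (PT.nd (nat_lit 94) (PT.lf (nat_lit 2772) (nat_lit 3) (nat_lit 33) (nat_lit 4) (nat_lit 21) (nat_lit 84) (nat_lit 84)) (PT.nd (nat_lit 94) (PT.lf (nat_lit 2940) (nat_lit 6) (nat_lit 35) (nat_lit 4) (nat_lit 22) (nat_lit 84) (nat_lit 83)) (PT.lf (nat_lit 3108) (nat_lit 6) (nat_lit 37) (nat_lit 4) (nat_lit 23) (nat_lit 84) (nat_lit 82)))))) (PT.nd (nat_lit 5452) (PT.nd (nat_lit 5170) (PT.nd (nat_lit 94) (PT.lf (nat_lit 3360) (nat_lit 6) (nat_lit 40) (nat_lit 4) (nat_lit 24) (nat_lit 84) (nat_lit 81)) (PT.nd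 (nat_lit 94) (PT.lf (nat_lit 3528) (nat_lit 6) (nat_lit 42) (nat_lit 4) (nat_lit 25) (nat_lit 84) (nat_lit 80)) (PT.lf (nat_lit 3780) (nat_lit 6) (nat_lit 45) (nat_lit 4) (nat_lit 26) (nat_lit 84) (nat_lit 79)))) (PT.nd (nat_lit 94) (PT.lf (nat_lit 3780) (nat_lit 6) (nat_lit 45) (nat_lit 2) (nat_lit 79) (nat_lit 84) (nat_lit 26)) (PT.nd (nat_lit 94) (PT.lf (nat_lit 3528) (nat_lit 6) (nat_lit 42) (nat_lit 2) (nat_lit 80) (nat_lit 84) (nat_lit 25)) (PT.lf (nat_lit 3360) (nat_lit 6) (nat_lit 40) (nat_lit 2) (nat_lit 81) (nat_lit 84) (nat_lit 24))))) (PT.nd (nat_lit 282) (PT.nd (nat_lit 94) (PT.lf (nat_lit 3108) (nat_lit 6) (nat_lit 37) (nat_lit 2) (nat_lit 82) (nat_lit 84) (nat_lit 23)) (PT.nd (nat_lit 94) (PT.lf (nat_lit 2940) (nat_lit 6) (nat_lit 35) (nat_lit 2) (nat_lit 83) (nat_lit 84) (nat_lit 22)) (PT.lf (nat_lit 2772) (nat_lit 3) (nat_lit 33) (nat_lit 0) (nat_lit 84) (nat_lit 84) (nat_lit 21))))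 (PT.nd (nat_lit 94) (PT.lf (nat_lit 2520) (nat_lit 6) (nat_lit 30) (nat_lit 0) (nat_lit 85) (nat_lit 84) (nat_lit 20)) (PT.nd (nat_lit 52922) (PT.lf (nat_lit 2268) (nat_lit 6) (nat_lit 27) (nat_lit 0) (nat_lit 86) (nat_lit 84) (nat_lit 19)) (PT.lf (nat_lit 2100) (nat_lit 6) (nat_lit 25) (nat_lit 5) (nat_lit 18) (nat_lit 85) (nat_lit 86))))))) (PT.nd (nat_lit 59220) (PT.nd (nat_lit 5828) (PT.nd (nat_lit 188) (PT.nd (nat_lit 94) (PT.lf (nat_lit 2352) (nat_lit 3) (nat_lit 28) (nat_lit 4) (nat_lit 19) (nat_lit 85) (nat_lit 85)) (PT.lf (nat_lit 2520) (nat_lit 6) (nat_lit 30) (nat_lit 4) (nat_lit 20) (nat_lit 85) (nat_lit 84))) (PT.nd (nat_lit 94) (PT.lf (nat_lit 2688) (nat_lit 6) (nat_lit 32) (nat_lit 4) (nat_lit 21) (nat_lit 85) (nat_lit 83)) (PT.nd (nat_lit 94) (PT.lf (nat_lit 2856) (nat_lit 6) (nat_lit 34) (nat_lit 4) (nat_lit 22) (nat_lit 85) (nat_lit 82)) (PT.lf (nat_lit 3024) (nat_lit 6) (nat_lit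 36) (nat_lit 4) (nat_lit 23) (nat_lit 85) (nat_lit 81))))) (PT.nd (nat_lit 282) (PT.nd (nat_lit 94) (PT.lf (nat_lit 3024) (nat_lit 6) (nat_lit 36) (nat_lit 2) (nat_lit 81) (nat_lit 85) (nat_lit 23)) (PT.nd (nat_lit 94) (PT.lf (nat_lit 2856) (nat_lit 6) (nat_lit 34) (nat_lit 2) (nat_lit 82) (nat_lit 85) (nat_lit 22)) (PT.lf (nat_lit 2688) (nat_lit 6) (nat_lit 32) (nat_lit 2) (nat_lit 83) (nat_lit 85) (nat_lit 21)))) (PT.nd (nat_lit 94) (PT.lf (nat_lit 2520) (nat_lit 6) (nat_lit 30) (nat_lit 2) (nat_lit 84) (nat_lit 85) (nat_lit 20)) (PT.nd (nat_lit 94) (PT.lf (nat_lit 2352) (nat_lit 3) (nat_lit 28) (nat_lit 0) (nat_lit 85) (nat_lit 85) (nat_lit 19)) (PT.lf (nat_lit 2100) (nat_lit 6) (nat_lit 25) (nat_lit 0) (nat_lit 86) (nat_lit 85) (nat_lit 18)))))) (PT.nd (nat_lit 354568) (PT.nd (nat_lit 6110) (PT.nd (nat_lit 94) (PT.lf (nat_lit 2100) (nat_lit 6) (nat_lit 25) (nat_lit 4) (nat_lit 18) (nat_lit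 86) (nat_lit 85)) (PT.nd (nat_lit 94) (PT.lf (nat_lit 2268) (nat_lit 6) (nat_lit 27) (nat_lit 4) (nat_lit 19) (nat_lit 86) (nat_lit 84)) (PT.lf (nat_lit 2436) (nat_lit 6) (nat_lit 29) (nat_lit 4) (nat_lit 20) (nat_lit 86) (nat_lit 83)))) (PT.nd (nat_lit 94) (PT.lf (nat_lit 2436) (nat_lit 6) (nat_lit 29) (nat_lit 2) (nat_lit 83) (nat_lit 86) (nat_lit 20)) (PT.nd (nat_lit 94) (PT.lf (nat_lit 2268) (nat_lit 6) (nat_lit 27) (nat_lit 2) (nat_lit 84) (nat_lit 86) (nat_lit 19)) (PT.lf (nat_lit 2100) (nat_lit 6) (nat_lit 25) (nat_lit 2) (nat_lit 85) (nat_lit 86) (nat_lit 18))))) (PT.nd (nat_lit 59314) (PT.nd (nat_lit 8366) (PT.lf (nat_lit 168) (nat_lit 6) (nat_lit 2) (nat_lit 5) (nat_lit 4) (nat_lit 92) (nat_lit 93)) (PT.nd (nat_lit 50854) (PT.lf (nat_lit 168) (nat_lit 6) (nat_lit 2) (nat_lit 0) (nat_lit 93) (nat_lit 92) (nat_lit 4)) (PT.lf (nat_lit 84) (nat_lit 3) (nat_lit 1) (nat_lit 4) (nat_lit 3) (nat_lit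 93) (nat_lit 93)))) (PT.nd (nat_lit 8272) (PT.lf (nat_lit 168) (nat_lit 6) (nat_lit 2) (nat_lit 4) (nat_lit 4) (nat_lit 93) (nat_lit 92)) (PT.nd (nat_lit 94) (PT.lf (nat_lit 168) (nat_lit 6) (nat_lit 2) (nat_lit 2) (nat_lit 92) (nat_lit 93) (nat_lit 4)) (PT.lf (nat_lit 84) (nat_lit 3) (nat_lit 1) (nat_lit 0) (nat_lit 93) (nat_lit 93) (nat_lit 3))))))))
noncomputable def xc0 : XT := (XT.nd (nat_lit 237162) (nat_lit 0) (nat_lit 0) (XT.nd (nat_lit 177378) (nat_lit 0) (nat_lit 0) (XT.nd (nat_lit 59502) (nat_lit 0) (nat_lit 0) (XT.nd (nat_lit 59126) (nat_lit 0) (nat_lit 84) (XT.nd (nat_lit 94) (nat_lit 84) (nat_lit 0) (XT.lf (nat_lit 0) (nat_lit 157486837) (nat_lit 168) (nat_lit 3529110670) (nat_lit 168) (nat_lit 3529110670) (nat_lit 28) (nat_lit 4) (nat_lit 30) (nat_lit 5) (nat_lit 30) (nat_lit 4) (nat_lit 387) (nat_lit 279) (nat_lit 279)) (XT.nd (nat_lit 94) (nat_lit 84) (nat_lit 0) (XT.lf (nat_lit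 0) (nat_lit 7465687595) (nat_lit 168) (nat_lit 3892445929) (nat_lit 168) (nat_lit 3373537189) (nat_lit 28) (nat_lit 4) (nat_lit 30) (nat_lit 5) (nat_lit 30) (nat_lit 4) (nat_lit 388) (nat_lit 279) (nat_lit 278)) (XT.lf (nat_lit 0) (nat_lit 329514231) (nat_lit 252) (nat_lit 353789742) (nat_lit 84) (nat_lit 14360095652) (nat_lit 27) (nat_lit 5) (nat_lit 30) (nat_lit 5) (nat_lit 28) (nat_lit 4) (nat_lit 389) (nat_lit 279) (nat_lit 277)))) (XT.nd (nat_lit 188) (nat_lit 168) (nat_lit 0) (XT.nd (nat_lit 94) (nat_lit 0) (nat_lit 0) (XT.lf (nat_lit 0) (nat_lit 104287166) (nat_lit 252) (nat_lit 6721070184) (nat_lit 0) (nat_lit 104287166) (nat_lit 30) (nat_lit 5) (nat_lit 33) (nat_lit 4) (nat_lit 30) (nat_lit 4) (nat_lit 385) (nat_lit 280) (nat_lit 280)) (XT.lf (nat_lit 0) (nat_lit 4020780911) (nat_lit 252) (nat_lit 6633434278) (nat_lit 0) (nat_lit 3486304908) (nat_lit 30) (nat_lit 5) (nat_lit 33) (nat_lit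 4) (nat_lit 30) (nat_lit 4) (nat_lit 386) (nat_lit 280) (nat_lit 279))) (XT.nd (nat_lit 94) (nat_lit 0) (nat_lit 0) (XT.lf (nat_lit 0) (nat_lit 244961275) (nat_lit 168) (nat_lit 7620570343) (nat_lit 168) (nat_lit 6567185600) (nat_lit 28) (nat_lit 4) (nat_lit 30) (nat_lit 5) (nat_lit 30) (nat_lit 4) (nat_lit 387) (nat_lit 280) (nat_lit 278)) (XT.lf (nat_lit 0) (nat_lit 7327701993) (nat_lit 168) (nat_lit 4481856097) (nat_lit 168) (nat_lit 2924676462) (nat_lit 28) (nat_lit 4) (nat_lit 30) (nat_lit 5) (nat_lit 30) (nat_lit 4) (nat_lit 388) (nat_lit 280) (nat_lit 277))))) (XT.nd (nat_lit 59032) (nat_lit 0) (nat_lit 0) (XT.nd (nat_lit 58844) (nat_lit 0) (nat_lit 252) (XT.nd (nat_lit 58750) (nat_lit 0) (nat_lit 672) (XT.lf (nat_lit 0) (nat_lit 729468471) (nat_lit 252) (nat_lit 565479893) (nat_lit 84) (nat_lit 13752123655) (nat_lit 27) (nat_lit 5) (nat_lit 30) (nat_lit 5) (nat_lit 28) (nat_lit 4) (nat_lit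 389) (nat_lit 280) (nat_lit 276)) (XT.lf (nat_lit 0) (nat_lit 3321091159) (nat_lit 252) (nat_lit 17705561) (nat_lit 0) (nat_lit 3321091159) (nat_lit 35) (nat_lit 5) (nat_lit 38) (nat_lit 4) (nat_lit 35) (nat_lit 4) (nat_lit 383) (nat_lit 281) (nat_lit 281))) (XT.nd (nat_lit 94) (nat_lit 252) (nat_lit 0) (XT.lf (nat_lit 0) (nat_lit 7046719533) (nat_lit 168) (nat_lit 3552663709) (nat_lit 168) (nat_lit 2985638119) (nat_lit 33) (nat_lit 4) (nat_lit 35) (nat_lit 5) (nat_lit 35) (nat_lit 4) (nat_lit 384) (nat_lit 281) (nat_lit 280)) (XT.lf (nat_lit 0) (nat_lit 344039910) (nat_lit 168) (nat_lit 375948160) (nat_lit 252) (nat_lit 13140511643) (nat_lit 30) (nat_lit 5) (nat_lit 32) (nat_lit 5) (nat_lit 33) (nat_lit 4) (nat_lit 385) (nat_lit 281) (nat_lit 279)))) (XT.nd (nat_lit 188) (nat_lit 84) (nat_lit 0) (XT.nd (nat_lit 94) (nat_lit 168) (nat_lit 0) (XT.lf (nat_lit 0) (nat_lit 4487114408) (nat_lit 252)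 (nat_lit 6772786074) (nat_lit 0) (nat_lit 2883219383) (nat_lit 30) (nat_lit 5) (nat_lit 33) (nat_lit 4) (nat_lit 30) (nat_lit 4) (nat_lit 386) (nat_lit 281) (nat_lit 278)) (XT.lf (nat_lit 0) (nat_lit 34862902) (nat_lit 168) (nat_lit 8254723981) (nat_lit 168) (nat_lit 6147034064) (nat_lit 28) (nat_lit 4) (nat_lit 30) (nat_lit 5) (nat_lit 30) (nat_lit 4) (nat_lit 387) (nat_lit 281) (nat_lit 277))) (XT.nd (nat_lit 94) (nat_lit 84) (nat_lit 0) (XT.lf (nat_lit 0) (nat_lit 7051610219) (nat_lit 168) (nat_lit 5142282712) (nat_lit 168) (nat_lit 2545471539) (nat_lit 28) (nat_lit 4) (nat_lit 30) (nat_lit 5) (nat_lit 30) (nat_lit 4) (nat_lit 388) (nat_lit 281) (nat_lit 276)) (XT.lf (nat_lit 0) (nat_lit 1062295489) (nat_lit 252) (nat_lit 915226333) (nat_lit 84) (nat_lit 13075772699) (nat_lit 27) (nat_lit 5) (nat_lit 30) (nat_lit 5) (nat_lit 28) (nat_lit 4) (nat_lit 389) (nat_lit 281) (nat_lit 275)))))) (XT.nd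 (nat_lit 752) (nat_lit 84) (nat_lit 0) (XT.nd (nat_lit 376) (nat_lit 420) (nat_lit 0) (XT.nd (nat_lit 188) (nat_lit 168) (nat_lit 0) (XT.nd (nat_lit 94) (nat_lit 252) (nat_lit 0) (XT.lf (nat_lit 0) (nat_lit 5990397049) (nat_lit 252) (nat_lit 208350495) (nat_lit 252) (nat_lit 208350495) (nat_lit 38) (nat_lit 4) (nat_lit 41) (nat_lit 5) (nat_lit 41) (nat_lit 4) (nat_lit 381) (nat_lit 282) (nat_lit 282)) (XT.lf (nat_lit 0) (nat_lit 3367452471) (nat_lit 252) (nat_lit 6911970880) (nat_lit 0) (nat_lit 2783416113) (nat_lit 35) (nat_lit 5) (nat_lit 38) (nat_lit 4) (nat_lit 35) (nat_lit 4) (nat_lit 382) (nat_lit 282) (nat_lit 281))) (XT.nd (nat_lit 94) (nat_lit 168) (nat_lit 0) (XT.lf (nat_lit 0) (nat_lit 7184314417) (nat_lit 252) (nat_lit 103506085) (nat_lit 0) (nat_lit 6033252468) (nat_lit 35) (nat_lit 5) (nat_lit 38) (nat_lit 4) (nat_lit 35) (nat_lit 4) (nat_lit 383) (nat_lit 282) (nat_lit 280)) (XT.lf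 (nat_lit 0) (nat_lit 6909841983) (nat_lit 168) (nat_lit 4189673861) (nat_lit 168) (nat_lit 2488101629) (nat_lit 33) (nat_lit 4) (nat_lit 35) (nat_lit 5) (nat_lit 35) (nat_lit 4) (nat_lit 384) (nat_lit 282) (nat_lit 279)))) (XT.nd (nat_lit 188) (nat_lit 168) (nat_lit 0) (XT.nd (nat_lit 94) (nat_lit 0) (nat_lit 0) (XT.lf (nat_lit 0) (nat_lit 129285579) (nat_lit 168) (nat_lit 1035903490) (nat_lit 252) (nat_lit 12699078762) (nat_lit 30) (nat_lit 5) (nat_lit 32) (nat_lit 5) (nat_lit 33) (nat_lit 4) (nat_lit 385) (nat_lit 282) (nat_lit 278)) (XT.lf (nat_lit 0) (nat_lit 4885712876) (nat_lit 252) (nat_lit 7051611430) (nat_lit 0) (nat_lit 2210997367) (nat_lit 30) (nat_lit 5) (nat_lit 33) (nat_lit 4) (nat_lit 30) (nat_lit 4) (nat_lit 386) (nat_lit 282) (nat_lit 277))) (XT.nd (nat_lit 94) (nat_lit 168) (nat_lit 0) (XT.lf (nat_lit 0) (nat_lit 8648764172) (nat_lit 252) (nat_lit 309348386) (nat_lit 0) (nat_lit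 5484927408) (nat_lit 30) (nat_lit 5) (nat_lit 33) (nat_lit 4) (nat_lit 30) (nat_lit 4) (nat_lit 387) (nat_lit 282) (nat_lit 276)) (XT.lf (nat_lit 0) (nat_lit 6637171027) (nat_lit 168) (nat_lit 5874302846) (nat_lit 168) (nat_lit 2235591076) (nat_lit 28) (nat_lit 4) (nat_lit 30) (nat_lit 5) (nat_lit 30) (nat_lit 4) (nat_lit 388) (nat_lit 282) (nat_lit 275))))) (XT.nd (nat_lit 58656) (nat_lit 0) (nat_lit 420) (XT.nd (nat_lit 58468) (nat_lit 0) (nat_lit 840) (XT.nd (nat_lit 58374) (nat_lit 0) (nat_lit 1176) (XT.lf (nat_lit 0) (nat_lit 1328286106) (nat_lit 252) (nat_lit 1403334666) (nat_lit 84) (nat_lit 12330451797) (nat_lit 27) (nat_lit 5) (nat_lit 30) (nat_lit 5) (nat_lit 28) (nat_lit 4) (nat_lit 389) (nat_lit 282) (nat_lit 274)) (XT.lf (nat_lit 0) (nat_lit 2575209223) (nat_lit 252) (nat_lit 1018248769) (nat_lit 0) (nat_lit 2575209223) (nat_lit 41) (nat_lit 5) (nat_lit 44) (nat_lit 4) (nat_lit 41)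 (nat_lit 4) (nat_lit 379) (nat_lit 283) (nat_lit 283))) (XT.nd (nat_lit 94) (nat_lit 84) (nat_lit 0) (XT.lf (nat_lit 0) (nat_lit 4881916881) (nat_lit 252) (nat_lit 4154787574) (nat_lit 252) (nat_lit 3535183402) (nat_lit 38) (nat_lit 4) (nat_lit 41) (nat_lit 5) (nat_lit 41) (nat_lit 4) (nat_lit 380) (nat_lit 283) (nat_lit 282)) (XT.lf (nat_lit 0) (nat_lit 156697650) (nat_lit 336) (nat_lit 903065391) (nat_lit 84) (nat_lit 11755683198) (nat_lit 37) (nat_lit 5) (nat_lit 41) (nat_lit 5) (nat_lit 38) (nat_lit 4) (nat_lit 381) (nat_lit 283) (nat_lit 281)))) (XT.nd (nat_lit 188) (nat_lit 252) (nat_lit 0) (XT.nd (nat_lit 94) (nat_lit 0) (nat_lit 0) (XT.lf (nat_lit 0) (nat_lit 3883944274) (nat_lit 252) (nat_lit 7050203653) (nat_lit 0) (nat_lit 2131324876) (nat_lit 35) (nat_lit 5) (nat_lit 38) (nat_lit 4) (nat_lit 35) (nat_lit 4) (nat_lit 382) (nat_lit 283) (nat_lit 280)) (XT.lf (nat_lit 0) (nat_lit 7660122474)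 (nat_lit 252) (nat_lit 307850471) (nat_lit 0) (nat_lit 5356992793) (nat_lit 35) (nat_lit 5) (nat_lit 38) (nat_lit 4) (nat_lit 35) (nat_lit 4) (nat_lit 383) (nat_lit 283) (nat_lit 279))) (XT.nd (nat_lit 94) (nat_lit 84) (nat_lit 0) (XT.lf (nat_lit 0) (nat_lit 6635967283) (nat_lit 168) (nat_lit 4897225183) (nat_lit 168) (nat_lit 2059619500) (nat_lit 33) (nat_lit 4) (nat_lit 35) (nat_lit 5) (nat_lit 35) (nat_lit 4) (nat_lit 384) (nat_lit 283) (nat_lit 278)) (XT.lf (nat_lit 0) (nat_lit 1544686216) (nat_lit 252) (nat_lit 220801403) (nat_lit 84) (nat_lit 12105105467) (nat_lit 32) (nat_lit 5) (nat_lit 35) (nat_lit 5) (nat_lit 33) (nat_lit 4) (nat_lit 385) (nat_lit 283) (nat_lit 277))))))) (XT.nd (nat_lit 59596) (nat_lit 0) (nat_lit 0) (XT.nd (nat_lit 58844) (nat_lit 0) (nat_lit 84) (XT.nd (nat_lit 58468) (nat_lit 0) (nat_lit 924) (XT.nd (nat_lit 188) (nat_lit 252) (nat_lit 0) (XT.nd (nat_lit 94) (nat_lit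 0) (nat_lit 0) (XT.lf (nat_lit 0) (nat_lit 5216924604) (nat_lit 252) (nat_lit 7470153980) (nat_lit 0) (nat_lit 1469051482) (nat_lit 30) (nat_lit 5) (nat_lit 33) (nat_lit 4) (nat_lit 30) (nat_lit 4) (nat_lit 386) (nat_lit 283) (nat_lit 276)) (XT.lf (nat_lit 0) (nat_lit 8942028274) (nat_lit 252) (nat_lit 790711938) (nat_lit 0) (nat_lit 4719280146) (nat_lit 30) (nat_lit 5) (nat_lit 33) (nat_lit 4) (nat_lit 30) (nat_lit 4) (nat_lit 387) (nat_lit 283) (nat_lit 275))) (XT.nd (nat_lit 94) (nat_lit 84) (nat_lit 0) (XT.lf (nat_lit 0) (nat_lit 6084022287) (nat_lit 168) (nat_lit 6678556127) (nat_lit 168) (nat_lit 1994764305) (nat_lit 28) (nat_lit 4) (nat_lit 30) (nat_lit 5) (nat_lit 30) (nat_lit 4) (nat_lit 388) (nat_lit 283) (nat_lit 274)) (XT.lf (nat_lit 0) (nat_lit 1527672741) (nat_lit 252) (nat_lit 2030231394) (nat_lit 84) (nat_lit 11515509698) (nat_lit 27) (nat_lit 5) (nat_lit 30) (nat_lit 5) (nat_lit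 28) (nat_lit 4) (nat_lit 389) (nat_lit 283) (nat_lit 273)))) (XT.nd (nat_lit 188) (nat_lit 252) (nat_lit 0) (XT.nd (nat_lit 94) (nat_lit 252) (nat_lit 0) (XT.lf (nat_lit 0) (nat_lit 4197510550) (nat_lit 252) (nat_lit 873796693) (nat_lit 252) (nat_lit 873796693) (nat_lit 44) (nat_lit 4) (nat_lit 47) (nat_lit 5) (nat_lit 47) (nat_lit 4) (nat_lit 377) (nat_lit 284) (nat_lit 284)) (XT.lf (nat_lit 0) (nat_lit 1977547668) (nat_lit 252) (nat_lit 8793935038) (nat_lit 0) (nat_lit 1339355370) (nat_lit 41) (nat_lit 5) (nat_lit 44) (nat_lit 4) (nat_lit 41) (nat_lit 4) (nat_lit 378) (nat_lit 284) (nat_lit 283))) (XT.nd (nat_lit 94) (nat_lit 252) (nat_lit 0) (XT.lf (nat_lit 0) (nat_lit 5746228020) (nat_lit 252) (nat_lit 2103990142) (nat_lit 0) (nat_lit 4488431550) (nat_lit 41) (nat_lit 5) (nat_lit 44) (nat_lit 4) (nat_lit 41) (nat_lit 4) (nat_lit 379) (nat_lit 284) (nat_lit 282)) (XT.lf (nat_lit 0) (nat_lit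 4746250131) (nat_lit 252) (nat_lit 4843811512) (nat_lit 252) (nat_lit 2984457592) (nat_lit 38) (nat_lit 4) (nat_lit 41) (nat_lit 5) (nat_lit 41) (nat_lit 4) (nat_lit 380) (nat_lit 284) (nat_lit 281))))) (XT.nd (nat_lit 376) (nat_lit 420) (nat_lit 0) (XT.nd (nat_lit 188) (nat_lit 168) (nat_lit 0) (XT.nd (nat_lit 94) (nat_lit 168) (nat_lit 0) (XT.lf (nat_lit 0) (nat_lit 655661127) (nat_lit 336) (nat_lit 1112398189) (nat_lit 84) (nat_lit 11051130038) (nat_lit 37) (nat_lit 5) (nat_lit 41) (nat_lit 5) (nat_lit 38) (nat_lit 4) (nat_lit 381) (nat_lit 284) (nat_lit 280)) (XT.lf (nat_lit 0) (nat_lit 4333342826) (nat_lit 252) (nat_lit 7326789984) (nat_lit 0) (nat_lit 1410608972) (nat_lit 35) (nat_lit 5) (nat_lit 38) (nat_lit 4) (nat_lit 35) (nat_lit 4) (nat_lit 382) (nat_lit 284) (nat_lit 279))) (XT.nd (nat_lit 94) (nat_lit 168) (nat_lit 0) (XT.lf (nat_lit 0) (nat_lit 8070022242) (nat_lit 252) (nat_lit 648622835)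 (nat_lit 0) (nat_lit 4612812386) (nat_lit 35) (nat_lit 5) (nat_lit 38) (nat_lit 4) (nat_lit 35) (nat_lit 4) (nat_lit 383) (nat_lit 284) (nat_lit 278)) (XT.lf (nat_lit 0) (nat_lit 6224856123) (nat_lit 168) (nat_lit 5675935925) (nat_lit 168) (nat_lit 1699817330) (nat_lit 33) (nat_lit 4) (nat_lit 35) (nat_lit 5) (nat_lit 35) (nat_lit 4) (nat_lit 384) (nat_lit 284) (nat_lit 277)))) (XT.nd (nat_lit 188) (nat_lit 168) (nat_lit 0) (XT.nd (nat_lit 94) (nat_lit 168) (nat_lit 0) (XT.lf (nat_lit 0) (nat_lit 1859233387) (nat_lit 252) (nat_lit 705669711) (nat_lit 84) (nat_lit 11314565236) (nat_lit 32) (nat_lit 5) (nat_lit 35) (nat_lit 5) (nat_lit 33) (nat_lit 4) (nat_lit 385) (nat_lit 284) (nat_lit 276)) (XT.lf (nat_lit 0) (nat_lit 5481039002) (nat_lit 252) (nat_lit 8028779441) (nat_lit 0) (nat_lit 656733425) (nat_lit 30) (nat_lit 5) (nat_lit 33) (nat_lit 4) (nat_lit 30) (nat_lit 4) (nat_lit 386) (nat_lit 284)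 (nat_lit 275))) (XT.nd (nat_lit 94) (nat_lit 168) (nat_lit 0) (XT.lf (nat_lit 0) (nat_lit 9169300315) (nat_lit 252) (nat_lit 1410328663) (nat_lit 0) (nat_lit 3883951044) (nat_lit 30) (nat_lit 5) (nat_lit 33) (nat_lit 4) (nat_lit 30) (nat_lit 4) (nat_lit 387) (nat_lit 284) (nat_lit 274)) (XT.lf (nat_lit 0) (nat_lit 5391680664) (nat_lit 168) (nat_lit 7555745302) (nat_lit 168) (nat_lit 1822780793) (nat_lit 28) (nat_lit 4) (nat_lit 30) (nat_lit 5) (nat_lit 30) (nat_lit 4) (nat_lit 388) (nat_lit 284) (nat_lit 273)))))) (XT.nd (nat_lit 58656) (nat_lit 0) (nat_lit 0) (XT.nd (nat_lit 58280) (nat_lit 0) (nat_lit 840) (XT.nd (nat_lit 58092) (nat_lit 0) (nat_lit 1428) (XT.nd (nat_lit 57998) (nat_lit 0) (nat_lit 1680) (XT.lf (nat_lit 0) (nat_lit 1660629614) (nat_lit 252) (nat_lit 2796464291) (nat_lit 84) (nat_lit 10630234316) (nat_lit 27) (nat_lit 5) (nat_lit 30) (nat_lit 5) (nat_lit 28) (nat_lit 4) (nat_lit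 389) (nat_lit 284) (nat_lit 272)) (XT.lf (nat_lit 0) (nat_lit 1561653853) (nat_lit 336) (nat_lit 2611316092) (nat_lit 0) (nat_lit 1561653853) (nat_lit 47) (nat_lit 5) (nat_lit 51) (nat_lit 4) (nat_lit 47) (nat_lit 4) (nat_lit 375) (nat_lit 285) (nat_lit 285))) (XT.nd (nat_lit 94) (nat_lit 0) (nat_lit 0) (XT.lf (nat_lit 0) (nat_lit 1466411644) (nat_lit 252) (nat_lit 5443687904) (nat_lit 252) (nat_lit 4766629695) (nat_lit 44) (nat_lit 4) (nat_lit 47) (nat_lit 5) (nat_lit 47) (nat_lit 4) (nat_lit 376) (nat_lit 285) (nat_lit 284)) (XT.lf (nat_lit 0) (nat_lit 8328841950) (nat_lit 252) (nat_lit 2448538715) (nat_lit 252) (nat_lit 1114142440) (nat_lit 44) (nat_lit 4) (nat_lit 47) (nat_lit 5) (nat_lit 47) (nat_lit 4) (nat_lit 377) (nat_lit 285) (nat_lit 283)))) (XT.nd (nat_lit 188) (nat_lit 336) (nat_lit 0) (XT.nd (nat_lit 94) (nat_lit 0) (nat_lit 0) (XT.lf (nat_lit 0) (nat_lit 2548848807) (nat_lit 252)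 (nat_lit 8930945023) (nat_lit 0) (nat_lit 633714269) (nat_lit 41) (nat_lit 5) (nat_lit 44) (nat_lit 4) (nat_lit 41) (nat_lit 4) (nat_lit 378) (nat_lit 285) (nat_lit 282)) (XT.lf (nat_lit 0) (nat_lit 6276380883) (nat_lit 252) (nat_lit 2306526927) (nat_lit 0) (nat_lit 3759688897) (nat_lit 41) (nat_lit 5) (nat_lit 44) (nat_lit 4) (nat_lit 41) (nat_lit 4) (nat_lit 379) (nat_lit 285) (nat_lit 281))) (XT.nd (nat_lit 94) (nat_lit 84) (nat_lit 0) (XT.lf (nat_lit 0) (nat_lit 4474798087) (nat_lit 252) (nat_lit 5602857274) (nat_lit 252) (nat_lit 2502128930) (nat_lit 38) (nat_lit 4) (nat_lit 41) (nat_lit 5) (nat_lit 41) (nat_lit 4) (nat_lit 380) (nat_lit 285) (nat_lit 280)) (XT.lf (nat_lit 0) (nat_lit 1088756764) (nat_lit 336) (nat_lit 1457577704) (nat_lit 84) (nat_lit 10279214397) (nat_lit 37) (nat_lit 5) (nat_lit 41) (nat_lit 5) (nat_lit 38) (nat_lit 4) (nat_lit 381) (nat_lit 285) (nat_lit 279))))) (XT.nd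 (nat_lit 376) (nat_lit 420) (nat_lit 0) (XT.nd (nat_lit 188) (nat_lit 252) (nat_lit 0) (XT.nd (nat_lit 94) (nat_lit 0) (nat_lit 0) (XT.lf (nat_lit 0) (nat_lit 4716040803) (nat_lit 252) (nat_lit 7741971551) (nat_lit 0) (nat_lit 620638650) (nat_lit 35) (nat_lit 5) (nat_lit 38) (nat_lit 4) (nat_lit 35) (nat_lit 4) (nat_lit 382) (nat_lit 285) (nat_lit 278)) (XT.lf (nat_lit 0) (nat_lit 8414371886) (nat_lit 252) (nat_lit 1126120938) (nat_lit 0) (nat_lit 3800060993) (nat_lit 35) (nat_lit 5) (nat_lit 38) (nat_lit 4) (nat_lit 35) (nat_lit 4) (nat_lit 383) (nat_lit 285) (nat_lit 277))) (XT.nd (nat_lit 94) (nat_lit 84) (nat_lit 0) (XT.lf (nat_lit 0) (nat_lit 5676149281) (nat_lit 168) (nat_lit 6526486514) (nat_lit 168) (nat_lit 1408380728) (nat_lit 33) (nat_lit 4) (nat_lit 35) (nat_lit 5) (nat_lit 35) (nat_lit 4) (nat_lit 384) (nat_lit 285) (nat_lit 276)) (XT.lf (nat_lit 0) (nat_lit 2107862659) (nat_lit 252)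 (nat_lit 1328265842) (nat_lit 84) (nat_lit 10454810114) (nat_lit 32) (nat_lit 5) (nat_lit 35) (nat_lit 5) (nat_lit 33) (nat_lit 4) (nat_lit 385) (nat_lit 285) (nat_lit 275)))) (XT.nd (nat_lit 188) (nat_lit 252) (nat_lit 0) (XT.nd (nat_lit 94) (nat_lit 0) (nat_lit 0) (XT.lf (nat_lit 0) (nat_lit 5449331364) (nat_lit 168) (nat_lit 231177705) (nat_lit 252) (nat_lit 8499020447) (nat_lit 30) (nat_lit 5) (nat_lit 32) (nat_lit 5) (nat_lit 33) (nat_lit 4) (nat_lit 386) (nat_lit 285) (nat_lit 274)) (XT.lf (nat_lit 0) (nat_lit 9330778883) (nat_lit 252) (nat_lit 2168739972) (nat_lit 0) (nat_lit 2978210202) (nat_lit 30) (nat_lit 5) (nat_lit 33) (nat_lit 4) (nat_lit 30) (nat_lit 4) (nat_lit 387) (nat_lit 285) (nat_lit 273))) (XT.nd (nat_lit 94) (nat_lit 84) (nat_lit 0) (XT.lf (nat_lit 0) (nat_lit 4559541200) (nat_lit 168) (nat_lit 8506636846) (nat_lit 168) (nat_lit 1719490264) (nat_lit 28) (nat_lit 4) (nat_lit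 30) (nat_lit 5) (nat_lit 30) (nat_lit 4) (nat_lit 388) (nat_lit 285) (nat_lit 272)) (XT.lf (nat_lit 0) (nat_lit 1727272902) (nat_lit 252) (nat_lit 3702702881) (nat_lit 84) (nat_lit 9673852110) (nat_lit 27) (nat_lit 5) (nat_lit 30) (nat_lit 5) (nat_lit 28) (nat_lit 4) (nat_lit 389) (nat_lit 285) (nat_lit 271))))))))
noncomputable def xc1 : XT := (XT.nd (nat_lit 60442) (nat_lit 0) (nat_lit 0) (XT.nd (nat_lit 1410) (nat_lit 252) (nat_lit 0) (XT.nd (nat_lit 658) (nat_lit 924) (nat_lit 0) (XT.nd (nat_lit 282) (nat_lit 504) (nat_lit 0) (XT.nd (nat_lit 94) (nat_lit 336) (nat_lit 0) (XT.lf (nat_lit 0) (nat_lit 1964427285) (nat_lit 252) (nat_lit 1786228014) (nat_lit 252) (nat_lit 1786228014) (nat_lit 51) (nat_lit 4) (nat_lit 54) (nat_lit 5) (nat_lit 54) (nat_lit 4) (nat_lit 373) (nat_lit 286) (nat_lit 286)) (XT.nd (nat_lit 94) (nat_lit 252) (nat_lit 0) (XT.lf (nat_lit 0) (nat_lit 84777884) (nat_lit 336)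 (nat_lit 546191947) (nat_lit 84) (nat_lit 10638715686) (nat_lit 50) (nat_lit 5) (nat_lit 54) (nat_lit 5) (nat_lit 51) (nat_lit 4) (nat_lit 374) (nat_lit 286) (nat_lit 285)) (XT.lf (nat_lit 0) (nat_lit 3777772106) (nat_lit 336) (nat_lit 5289466574) (nat_lit 0) (nat_lit 2403343943) (nat_lit 47) (nat_lit 5) (nat_lit 51) (nat_lit 4) (nat_lit 47) (nat_lit 4) (nat_lit 375) (nat_lit 286) (nat_lit 284)))) (XT.nd (nat_lit 188) (nat_lit 252) (nat_lit 0) (XT.nd (nat_lit 94) (nat_lit 0) (nat_lit 0) (XT.lf (nat_lit 0) (nat_lit 1332067967) (nat_lit 252) (nat_lit 6189548711) (nat_lit 252) (nat_lit 4157782480) (nat_lit 44) (nat_lit 4) (nat_lit 47) (nat_lit 5) (nat_lit 47) (nat_lit 4) (nat_lit 376) (nat_lit 286) (nat_lit 283)) (XT.lf (nat_lit 0) (nat_lit 8130246669) (nat_lit 252) (nat_lit 3217590899) (nat_lit 252) (nat_lit 547632371) (nat_lit 44) (nat_lit 4) (nat_lit 47) (nat_lit 5) (nat_lit 47) (nat_lit 4) (nat_lit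 377) (nat_lit 286) (nat_lit 282))) (XT.nd (nat_lit 94) (nat_lit 0) (nat_lit 0) (XT.lf (nat_lit 0) (nat_lit 2912352120) (nat_lit 168) (nat_lit 142778333) (nat_lit 252) (nat_lit 9063678850) (nat_lit 41) (nat_lit 5) (nat_lit 43) (nat_lit 5) (nat_lit 44) (nat_lit 4) (nat_lit 378) (nat_lit 286) (nat_lit 281)) (XT.lf (nat_lit 0) (nat_lit 6741340276) (nat_lit 252) (nat_lit 2644284867) (nat_lit 0) (nat_lit 2963553722) (nat_lit 41) (nat_lit 5) (nat_lit 44) (nat_lit 4) (nat_lit 41) (nat_lit 4) (nat_lit 379) (nat_lit 286) (nat_lit 280))))) (XT.nd (nat_lit 376) (nat_lit 420) (nat_lit 0) (XT.nd (nat_lit 188) (nat_lit 168) (nat_lit 0) (XT.nd (nat_lit 94) (nat_lit 84) (nat_lit 0) (XT.lf (nat_lit 0) (nat_lit 4067323558) (nat_lit 252) (nat_lit 6432588106) (nat_lit 252) (nat_lit 2087775961) (nat_lit 38) (nat_lit 4) (nat_lit 41) (nat_lit 5) (nat_lit 41) (nat_lit 4) (nat_lit 380) (nat_lit 286) (nat_lit 279)) (XT.lf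 (nat_lit 0) (nat_lit 1456362993) (nat_lit 336) (nat_lit 1938905548) (nat_lit 84) (nat_lit 9439261785) (nat_lit 37) (nat_lit 5) (nat_lit 41) (nat_lit 5) (nat_lit 38) (nat_lit 4) (nat_lit 381) (nat_lit 286) (nat_lit 278))) (XT.nd (nat_lit 94) (nat_lit 0) (nat_lit 0) (XT.lf (nat_lit 0) (nat_lit 4790680026) (nat_lit 168) (nat_lit 244038424) (nat_lit 252) (nat_lit 8054418556) (nat_lit 35) (nat_lit 5) (nat_lit 37) (nat_lit 5) (nat_lit 38) (nat_lit 4) (nat_lit 382) (nat_lit 286) (nat_lit 277)) (XT.lf (nat_lit 0) (nat_lit 8693472295) (nat_lit 252) (nat_lit 1740762013) (nat_lit 0) (nat_lit 2918028442) (nat_lit 35) (nat_lit 5) (nat_lit 38) (nat_lit 4) (nat_lit 35) (nat_lit 4) (nat_lit 383) (nat_lit 286) (nat_lit 276)))) (XT.nd (nat_lit 188) (nat_lit 168) (nat_lit 0) (XT.nd (nat_lit 94) (nat_lit 84) (nat_lit 0) (XT.lf (nat_lit 0) (nat_lit 4989367304) (nat_lit 168) (nat_lit 7449620150) (nat_lit 168) (nat_lit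 1185055041) (nat_lit 33) (nat_lit 4) (nat_lit 35) (nat_lit 5) (nat_lit 35) (nat_lit 4) (nat_lit 384) (nat_lit 286) (nat_lit 275)) (XT.lf (nat_lit 0) (nat_lit 2290791281) (nat_lit 252) (nat_lit 2089133812) (nat_lit 84) (nat_lit 9525088858) (nat_lit 32) (nat_lit 5) (nat_lit 35) (nat_lit 5) (nat_lit 33) (nat_lit 4) (nat_lit 385) (nat_lit 286) (nat_lit 274))) (XT.nd (nat_lit 94) (nat_lit 0) (nat_lit 0) (XT.lf (nat_lit 0) (nat_lit 4614984932) (nat_lit 168) (nat_lit 1205443018) (nat_lit 252) (nat_lit 8374498836) (nat_lit 30) (nat_lit 5) (nat_lit 32) (nat_lit 5) (nat_lit 33) (nat_lit 4) (nat_lit 386) (nat_lit 286) (nat_lit 273)) (XT.lf (nat_lit 0) (nat_lit 9426605076) (nat_lit 252) (nat_lit 3066608557) (nat_lit 0) (nat_lit 2001266196) (nat_lit 30) (nat_lit 5) (nat_lit 33) (nat_lit 4) (nat_lit 30) (nat_lit 4) (nat_lit 387) (nat_lit 286) (nat_lit 272)))))) (XT.nd (nat_lit 58280) (nat_lit 0) (nat_lit 504)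 (XT.nd (nat_lit 57904) (nat_lit 0) (nat_lit 1428) (XT.nd (nat_lit 57716) (nat_lit 0) (nat_lit 2268) (XT.nd (nat_lit 94) (nat_lit 84) (nat_lit 0) (XT.lf (nat_lit 0) (nat_lit 3586876783) (nat_lit 168) (nat_lit 9532061636) (nat_lit 168) (nat_lit 1684802465) (nat_lit 28) (nat_lit 4) (nat_lit 30) (nat_lit 5) (nat_lit 30) (nat_lit 4) (nat_lit 388) (nat_lit 286) (nat_lit 271)) (XT.lf (nat_lit 0) (nat_lit 1727660836) (nat_lit 252) (nat_lit 4749739023) (nat_lit 84) (nat_lit 8645527407) (nat_lit 27) (nat_lit 5) (nat_lit 30) (nat_lit 5) (nat_lit 28) (nat_lit 4) (nat_lit 389) (nat_lit 286) (nat_lit 270))) (XT.nd (nat_lit 94) (nat_lit 0) (nat_lit 0) (XT.lf (nat_lit 0) (nat_lit 373019112) (nat_lit 336) (nat_lit 4605286982) (nat_lit 0) (nat_lit 373019112) (nat_lit 54) (nat_lit 5) (nat_lit 58) (nat_lit 4) (nat_lit 54) (nat_lit 4) (nat_lit 371) (nat_lit 287) (nat_lit 287)) (XT.lf (nat_lit 0) (nat_lit 4441024664)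 (nat_lit 336) (nat_lit 2743146587) (nat_lit 0) (nat_lit 3701184878) (nat_lit 54) (nat_lit 5) (nat_lit 58) (nat_lit 4) (nat_lit 54) (nat_lit 4) (nat_lit 372) (nat_lit 287) (nat_lit 286)))) (XT.nd (nat_lit 188) (nat_lit 504) (nat_lit 0) (XT.nd (nat_lit 94) (nat_lit 84) (nat_lit 0) (XT.lf (nat_lit 0) (nat_lit 3863387615) (nat_lit 252) (nat_lit 4334922911) (nat_lit 252) (nat_lit 2876792072) (nat_lit 51) (nat_lit 4) (nat_lit 54) (nat_lit 5) (nat_lit 54) (nat_lit 4) (nat_lit 373) (nat_lit 287) (nat_lit 285)) (XT.lf (nat_lit 0) (nat_lit 724814698) (nat_lit 336) (nat_lit 684126957) (nat_lit 84) (nat_lit 9863188649) (nat_lit 50) (nat_lit 5) (nat_lit 54) (nat_lit 5) (nat_lit 51) (nat_lit 4) (nat_lit 374) (nat_lit 287) (nat_lit 284))) (XT.nd (nat_lit 94) (nat_lit 252) (nat_lit 0) (XT.lf (nat_lit 0) (nat_lit 4367309007) (nat_lit 336) (nat_lit 5490028145) (nat_lit 0) (nat_lit 1617251723) (nat_lit 47) (nat_lit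 5) (nat_lit 51) (nat_lit 4) (nat_lit 47) (nat_lit 4) (nat_lit 375) (nat_lit 287) (nat_lit 283)) (XT.lf (nat_lit 0) (nat_lit 1063263225) (nat_lit 252) (nat_lit 7004863838) (nat_lit 252) (nat_lit 3616614256) (nat_lit 44) (nat_lit 4) (nat_lit 47) (nat_lit 5) (nat_lit 47) (nat_lit 4) (nat_lit 376) (nat_lit 287) (nat_lit 282))))) (XT.nd (nat_lit 376) (nat_lit 420) (nat_lit 0) (XT.nd (nat_lit 188) (nat_lit 252) (nat_lit 0) (XT.nd (nat_lit 94) (nat_lit 252) (nat_lit 0) (XT.lf (nat_lit 0) (nat_lit 7799061730) (nat_lit 252) (nat_lit 4055421928) (nat_lit 252) (nat_lit 47568173) (nat_lit 44) (nat_lit 4) (nat_lit 47) (nat_lit 5) (nat_lit 47) (nat_lit 4) (nat_lit 377) (nat_lit 287) (nat_lit 281)) (XT.lf (nat_lit 0) (nat_lit 2500355519) (nat_lit 168) (nat_lit 1001992620) (nat_lit 252) (nat_lit 8624232787) (nat_lit 41) (nat_lit 5) (nat_lit 43) (nat_lit 5) (nat_lit 44) (nat_lit 4) (nat_lit 378) (nat_lit 287) (nat_lit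 280))) (XT.nd (nat_lit 94) (nat_lit 252) (nat_lit 0) (XT.lf (nat_lit 0) (nat_lit 7141512472) (nat_lit 252) (nat_lit 3117559091) (nat_lit 0) (nat_lit 2099330373) (nat_lit 41) (nat_lit 5) (nat_lit 44) (nat_lit 4) (nat_lit 41) (nat_lit 4) (nat_lit 379) (nat_lit 287) (nat_lit 279)) (XT.lf (nat_lit 0) (nat_lit 3523470499) (nat_lit 252) (nat_lit 7333729013) (nat_lit 252) (nat_lit 1741036631) (nat_lit 38) (nat_lit 4) (nat_lit 41) (nat_lit 5) (nat_lit 41) (nat_lit 4) (nat_lit 380) (nat_lit 287) (nat_lit 278)))) (XT.nd (nat_lit 188) (nat_lit 168) (nat_lit 0) (XT.nd (nat_lit 94) (nat_lit 168) (nat_lit 0) (XT.lf (nat_lit 0) (nat_lit 1758801025) (nat_lit 336) (nat_lit 2556802301) (nat_lit 84) (nat_lit 8530538263) (nat_lit 37) (nat_lit 5) (nat_lit 41) (nat_lit 5) (nat_lit 38) (nat_lit 4) (nat_lit 381) (nat_lit 287) (nat_lit 277)) (XT.lf (nat_lit 0) (nat_lit 4100913637) (nat_lit 168) (nat_lit 1193170481) (nat_lit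 252) (nat_lit 7807991936) (nat_lit 35) (nat_lit 5) (nat_lit 37) (nat_lit 5) (nat_lit 38) (nat_lit 4) (nat_lit 382) (nat_lit 287) (nat_lit 276))) (XT.nd (nat_lit 94) (nat_lit 168) (nat_lit 0) (XT.lf (nat_lit 0) (nat_lit 8907567343) (nat_lit 252) (nat_lit 2493083123) (nat_lit 0) (nat_lit 1965944026) (nat_lit 35) (nat_lit 5) (nat_lit 38) (nat_lit 4) (nat_lit 35) (nat_lit 4) (nat_lit 383) (nat_lit 287) (nat_lit 275)) (XT.lf (nat_lit 0) (nat_lit 4163910092) (nat_lit 168) (nat_lit 8446143453) (nat_lit 168) (nat_lit 1029645130) (nat_lit 33) (nat_lit 4) (nat_lit 35) (nat_lit 5) (nat_lit 35) (nat_lit 4) (nat_lit 384) (nat_lit 287) (nat_lit 274))))))) (XT.nd (nat_lit 58844) (nat_lit 0) (nat_lit 0) (XT.nd (nat_lit 58092) (nat_lit 0) (nat_lit 1176) (XT.nd (nat_lit 376) (nat_lit 84) (nat_lit 0) (XT.nd (nat_lit 188) (nat_lit 168) (nat_lit 0) (XT.nd (nat_lit 94) (nat_lit 168) (nat_lit 0) (XT.lf (nat_lit 0) (nat_lit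 2408179093) (nat_lit 252) (nat_lit 2988938457) (nat_lit 84) (nat_lit 8524589091) (nat_lit 32) (nat_lit 5) (nat_lit 35) (nat_lit 5) (nat_lit 33) (nat_lit 4) (nat_lit 385) (nat_lit 287) (nat_lit 273)) (XT.lf (nat_lit 0) (nat_lit 3640635810) (nat_lit 168) (nat_lit 2253843531) (nat_lit 252) (nat_lit 8318470949) (nat_lit 30) (nat_lit 5) (nat_lit 32) (nat_lit 5) (nat_lit 33) (nat_lit 4) (nat_lit 386) (nat_lit 287) (nat_lit 272))) (XT.nd (nat_lit 94) (nat_lit 168) (nat_lit 0) (XT.lf (nat_lit 0) (nat_lit 9456862625) (nat_lit 252) (nat_lit 4104718962) (nat_lit 0) (nat_lit 952265387) (nat_lit 30) (nat_lit 5) (nat_lit 33) (nat_lit 4) (nat_lit 30) (nat_lit 4) (nat_lit 387) (nat_lit 287) (nat_lit 271)) (XT.lf (nat_lit 0) (nat_lit 2472837511) (nat_lit 168) (nat_lit 10632915673) (nat_lit 168) (nat_lit 1718687084) (nat_lit 28) (nat_lit 4) (nat_lit 30) (nat_lit 5) (nat_lit 30) (nat_lit 4) (nat_lit 388) (nat_lit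 287) (nat_lit 270)))) (XT.nd (nat_lit 57528) (nat_lit 0) (nat_lit 2268) (XT.nd (nat_lit 57434) (nat_lit 0) (nat_lit 2940) (XT.lf (nat_lit 0) (nat_lit 1661793757) (nat_lit 252) (nat_lit 5938487602) (nat_lit 84) (nat_lit 7544361669) (nat_lit 27) (nat_lit 5) (nat_lit 30) (nat_lit 5) (nat_lit 28) (nat_lit 4) (nat_lit 389) (nat_lit 287) (nat_lit 269)) (XT.lf (nat_lit 0) (nat_lit 2322737380) (nat_lit 336) (nat_lit 530859136) (nat_lit 0) (nat_lit 2322737380) (nat_lit 62) (nat_lit 5) (nat_lit 66) (nat_lit 4) (nat_lit 62) (nat_lit 4) (nat_lit 369) (nat_lit 288) (nat_lit 288))) (XT.nd (nat_lit 94) (nat_lit 336) (nat_lit 0) (XT.lf (nat_lit 0) (nat_lit 5482915412) (nat_lit 336) (nat_lit 2913484433) (nat_lit 336) (nat_lit 2128588405) (nat_lit 58) (nat_lit 4) (nat_lit 62) (nat_lit 5) (nat_lit 62) (nat_lit 4) (nat_lit 370) (nat_lit 288) (nat_lit 287)) (XT.lf (nat_lit 0) (nat_lit 1426941472) (nat_lit 252) (nat_lit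 38020340) (nat_lit 336) (nat_lit 9239034242) (nat_lit 54) (nat_lit 5) (nat_lit 57) (nat_lit 5) (nat_lit 58) (nat_lit 4) (nat_lit 371) (nat_lit 288) (nat_lit 286))))) (XT.nd (nat_lit 376) (nat_lit 504) (nat_lit 0) (XT.nd (nat_lit 188) (nat_lit 336) (nat_lit 0) (XT.nd (nat_lit 94) (nat_lit 252) (nat_lit 0) (XT.lf (nat_lit 0) (nat_lit 5117372228) (nat_lit 336) (nat_lit 2873451190) (nat_lit 0) (nat_lit 2897206410) (nat_lit 54) (nat_lit 5) (nat_lit 58) (nat_lit 4) (nat_lit 54) (nat_lit 4) (nat_lit 372) (nat_lit 288) (nat_lit 285)) (XT.lf (nat_lit 0) (nat_lit 3666929545) (nat_lit 252) (nat_lit 5164858956) (nat_lit 252) (nat_lit 2247323183) (nat_lit 51) (nat_lit 4) (nat_lit 54) (nat_lit 5) (nat_lit 54) (nat_lit 4) (nat_lit 373) (nat_lit 288) (nat_lit 284))) (XT.nd (nat_lit 94) (nat_lit 252) (nat_lit 0) (XT.lf (nat_lit 0) (nat_lit 1301172971) (nat_lit 336) (nat_lit 953212849) (nat_lit 84) (nat_lit 9022843333)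 (nat_lit 50) (nat_lit 5) (nat_lit 54) (nat_lit 5) (nat_lit 51) (nat_lit 4) (nat_lit 374) (nat_lit 288) (nat_lit 283)) (XT.lf (nat_lit 0) (nat_lit 4892433538) (nat_lit 336) (nat_lit 5824492143) (nat_lit 0) (nat_lit 764344171) (nat_lit 47) (nat_lit 5) (nat_lit 51) (nat_lit 4) (nat_lit 47) (nat_lit 4) (nat_lit 375) (nat_lit 288) (nat_lit 282)))) (XT.nd (nat_lit 188) (nat_lit 168) (nat_lit 0) (XT.nd (nat_lit 94) (nat_lit 84) (nat_lit 0) (XT.lf (nat_lit 0) (nat_lit 659762540) (nat_lit 252) (nat_lit 7890345698) (nat_lit 252) (nat_lit 3142652158) (nat_lit 44) (nat_lit 4) (nat_lit 47) (nat_lit 5) (nat_lit 47) (nat_lit 4) (nat_lit 376) (nat_lit 288) (nat_lit 281)) (XT.lf (nat_lit 0) (nat_lit 378945348) (nat_lit 336) (nat_lit 4579991932) (nat_lit 84) (nat_lit 6952225794) (nat_lit 43) (nat_lit 5) (nat_lit 47) (nat_lit 5) (nat_lit 44) (nat_lit 4) (nat_lit 377) (nat_lit 288) (nat_lit 280))) (XT.nd (nat_lit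 94) (nat_lit 0) (nat_lit 0) (XT.lf (nat_lit 0) (nat_lit 1952612549) (nat_lit 168) (nat_lit 1932067202) (nat_lit 252) (nat_lit 8252336394) (nat_lit 41) (nat_lit 5) (nat_lit 43) (nat_lit 5) (nat_lit 44) (nat_lit 4) (nat_lit 378) (nat_lit 288) (nat_lit 279)) (XT.lf (nat_lit 0) (nat_lit 7477247138) (nat_lit 252) (nat_lit 3726763138) (nat_lit 0) (nat_lit 1166263703) (nat_lit 41) (nat_lit 5) (nat_lit 44) (nat_lit 4) (nat_lit 41) (nat_lit 4) (nat_lit 379) (nat_lit 288) (nat_lit 278)))))) (XT.nd (nat_lit 752) (nat_lit 252) (nat_lit 0) (XT.nd (nat_lit 376) (nat_lit 420) (nat_lit 0) (XT.nd (nat_lit 188) (nat_lit 168) (nat_lit 0) (XT.nd (nat_lit 94) (nat_lit 84) (nat_lit 0) (XT.lf (nat_lit 0) (nat_lit 2842763697) (nat_lit 252) (nat_lit 8307067401) (nat_lit 252) (nat_lit 1461607963) (nat_lit 38) (nat_lit 4) (nat_lit 41) (nat_lit 5) (nat_lit 41) (nat_lit 4) (nat_lit 380) (nat_lit 288) (nat_lit 277)) (XT.lf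 (nat_lit 0) (nat_lit 1996335126) (nat_lit 336) (nat_lit 3311807871) (nat_lit 84) (nat_lit 7552249801) (nat_lit 37) (nat_lit 5) (nat_lit 41) (nat_lit 5) (nat_lit 38) (nat_lit 4) (nat_lit 381) (nat_lit 288) (nat_lit 276))) (XT.nd (nat_lit 94) (nat_lit 0) (nat_lit 0) (XT.lf (nat_lit 0) (nat_lit 3273044811) (nat_lit 168) (nat_lit 2215234933) (nat_lit 252) (nat_lit 7629382248) (nat_lit 35) (nat_lit 5) (nat_lit 37) (nat_lit 5) (nat_lit 38) (nat_lit 4) (nat_lit 382) (nat_lit 288) (nat_lit 275)) (XT.lf (nat_lit 0) (nat_lit 9056844103) (nat_lit 252) (nat_lit 3383741638) (nat_lit 0) (nat_lit 942975825) (nat_lit 35) (nat_lit 5) (nat_lit 38) (nat_lit 4) (nat_lit 35) (nat_lit 4) (nat_lit 383) (nat_lit 288) (nat_lit 274)))) (XT.nd (nat_lit 188) (nat_lit 168) (nat_lit 0) (XT.nd (nat_lit 94) (nat_lit 84) (nat_lit 0) (XT.lf (nat_lit 0) (nat_lit 3199056370) (nat_lit 168) (nat_lit 9516927173) (nat_lit 168) (nat_lit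 942015201) (nat_lit 33) (nat_lit 4) (nat_lit 35) (nat_lit 5) (nat_lit 35) (nat_lit 4) (nat_lit 384) (nat_lit 288) (nat_lit 273)) (XT.lf (nat_lit 0) (nat_lit 2460128666) (nat_lit 252) (nat_lit 4028466015) (nat_lit 84) (nat_lit 7452436590) (nat_lit 32) (nat_lit 5) (nat_lit 35) (nat_lit 5) (nat_lit 33) (nat_lit 4) (nat_lit 385) (nat_lit 288) (nat_lit 272))) (XT.nd (nat_lit 94) (nat_lit 0) (nat_lit 0) (XT.lf (nat_lit 0) (nat_lit 2525432626) (nat_lit 168) (nat_lit 3377295322) (nat_lit 252) (nat_lit 8330887827) (nat_lit 30) (nat_lit 5) (nat_lit 32) (nat_lit 5) (nat_lit 33) (nat_lit 4) (nat_lit 386) (nat_lit 288) (nat_lit 271)) (XT.lf (nat_lit 0) (nat_lit 9250155415) (nat_lit 168) (nat_lit 173086366) (nat_lit 252) (nat_lit 5112555719) (nat_lit 30) (nat_lit 5) (nat_lit 32) (nat_lit 5) (nat_lit 33) (nat_lit 4) (nat_lit 387) (nat_lit 288) (nat_lit 270))))) (XT.nd (nat_lit 57528) (nat_lit 0) (nat_lit 2268)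 (XT.nd (nat_lit 57340) (nat_lit 0) (nat_lit 2940) (XT.nd (nat_lit 94) (nat_lit 84) (nat_lit 0) (XT.lf (nat_lit 0) (nat_lit 1216449953) (nat_lit 168) (nat_lit 11810160870) (nat_lit 168) (nat_lit 1821173731) (nat_lit 28) (nat_lit 4) (nat_lit 30) (nat_lit 5) (nat_lit 30) (nat_lit 4) (nat_lit 388) (nat_lit 288) (nat_lit 269)) (XT.lf (nat_lit 0) (nat_lit 1529614109) (nat_lit 252) (nat_lit 7269987332) (nat_lit 84) (nat_lit 6369392713) (nat_lit 27) (nat_lit 5) (nat_lit 30) (nat_lit 5) (nat_lit 28) (nat_lit 4) (nat_lit 389) (nat_lit 288) (nat_lit 268))) (XT.nd (nat_lit 94) (nat_lit 336) (nat_lit 0) (XT.lf (nat_lit 0) (nat_lit 3198478827) (nat_lit 336) (nat_lit 906844031) (nat_lit 336) (nat_lit 906844031) (nat_lit 66) (nat_lit 4) (nat_lit 70) (nat_lit 5) (nat_lit 70) (nat_lit 4) (nat_lit 367) (nat_lit 289) (nat_lit 289)) (XT.lf (nat_lit 0) (nat_lit 1779026646) (nat_lit 336) (nat_lit 7436861834) (nat_lit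 0) (nat_lit 970583736) (nat_lit 62) (nat_lit 5) (nat_lit 66) (nat_lit 4) (nat_lit 62) (nat_lit 4) (nat_lit 368) (nat_lit 289) (nat_lit 288)))) (XT.nd (nat_lit 188) (nat_lit 336) (nat_lit 0) (XT.nd (nat_lit 94) (nat_lit 336) (nat_lit 0) (XT.lf (nat_lit 0) (nat_lit 5411101016) (nat_lit 336) (nat_lit 1125144682) (nat_lit 0) (nat_lit 3817762079) (nat_lit 62) (nat_lit 5) (nat_lit 66) (nat_lit 4) (nat_lit 62) (nat_lit 4) (nat_lit 369) (nat_lit 289) (nat_lit 287)) (XT.lf (nat_lit 0) (nat_lit 5355422110) (nat_lit 336) (nat_lit 3763808881) (nat_lit 336) (nat_lit 1408434965) (nat_lit 58) (nat_lit 4) (nat_lit 62) (nat_lit 5) (nat_lit 62) (nat_lit 4) (nat_lit 370) (nat_lit 289) (nat_lit 286))) (XT.nd (nat_lit 94) (nat_lit 0) (nat_lit 0) (XT.lf (nat_lit 0) (nat_lit 1224038467) (nat_lit 252) (nat_lit 903671960) (nat_lit 336) (nat_lit 8580106995) (nat_lit 54) (nat_lit 5) (nat_lit 57) (nat_lit 5) (nat_lit 58)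 (nat_lit 4) (nat_lit 371) (nat_lit 289) (nat_lit 285)) (XT.lf (nat_lit 0) (nat_lit 5730818555) (nat_lit 336) (nat_lit 3134174253) (nat_lit 0) (nat_lit 2028386754) (nat_lit 54) (nat_lit 5) (nat_lit 58) (nat_lit 4) (nat_lit 54) (nat_lit 4) (nat_lit 372) (nat_lit 289) (nat_lit 284))))))))
noncomputable def xc2 : XT := (XT.nd (nat_lit 59878) (nat_lit 0) (nat_lit 0) (XT.nd (nat_lit 1410) (nat_lit 252) (nat_lit 0) (XT.nd (nat_lit 658) (nat_lit 924) (nat_lit 0) (XT.nd (nat_lit 282) (nat_lit 504) (nat_lit 0) (XT.nd (nat_lit 94) (nat_lit 336) (nat_lit 0) (XT.lf (nat_lit 0) (nat_lit 3339308697) (nat_lit 252) (nat_lit 6062989348) (nat_lit 252) (nat_lit 1683499338) (nat_lit 51) (nat_lit 4) (nat_lit 54) (nat_lit 5) (nat_lit 54) (nat_lit 4) (nat_lit 373) (nat_lit 289) (nat_lit 283)) (XT.nd (nat_lit 94) (nat_lit 252) (nat_lit 0) (XT.lf (nat_lit 0) (nat_lit 1814356319) (nat_lit 336) (nat_lit 1353684747) (nat_lit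 84) (nat_lit 8116945453) (nat_lit 50) (nat_lit 5) (nat_lit 54) (nat_lit 5) (nat_lit 51) (nat_lit 4) (nat_lit 374) (nat_lit 289) (nat_lit 282)) (XT.lf (nat_lit 0) (nat_lit 5195904025) (nat_lit 252) (nat_lit 159231147) (nat_lit 336) (nat_lit 6135450299) (nat_lit 47) (nat_lit 5) (nat_lit 50) (nat_lit 5) (nat_lit 51) (nat_lit 4) (nat_lit 375) (nat_lit 289) (nat_lit 281)))) (XT.nd (nat_lit 188) (nat_lit 168) (nat_lit 0) (XT.nd (nat_lit 94) (nat_lit 84) (nat_lit 0) (XT.lf (nat_lit 0) (nat_lit 121213339) (nat_lit 252) (nat_lit 8846768012) (nat_lit 252) (nat_lit 2735482044) (nat_lit 44) (nat_lit 4) (nat_lit 47) (nat_lit 5) (nat_lit 47) (nat_lit 4) (nat_lit 376) (nat_lit 289) (nat_lit 280)) (XT.lf (nat_lit 0) (nat_lit 740181664) (nat_lit 336) (nat_lit 5192753546) (nat_lit 84) (nat_lit 5989993179) (nat_lit 43) (nat_lit 5) (nat_lit 47) (nat_lit 5) (nat_lit 44) (nat_lit 4) (nat_lit 377) (nat_lit 289) (nat_lit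 279))) (XT.nd (nat_lit 94) (nat_lit 0) (nat_lit 0) (XT.lf (nat_lit 0) (nat_lit 1268644599) (nat_lit 168) (nat_lit 2933814768) (nat_lit 252) (nat_lit 7947664712) (nat_lit 41) (nat_lit 5) (nat_lit 43) (nat_lit 5) (nat_lit 44) (nat_lit 4) (nat_lit 378) (nat_lit 289) (nat_lit 278)) (XT.lf (nat_lit 0) (nat_lit 7748837634) (nat_lit 252) (nat_lit 4472429324) (nat_lit 0) (nat_lit 163538411) (nat_lit 41) (nat_lit 5) (nat_lit 44) (nat_lit 4) (nat_lit 41) (nat_lit 4) (nat_lit 379) (nat_lit 289) (nat_lit 277))))) (XT.nd (nat_lit 376) (nat_lit 420) (nat_lit 0) (XT.nd (nat_lit 188) (nat_lit 168) (nat_lit 0) (XT.nd (nat_lit 94) (nat_lit 84) (nat_lit 0) (XT.lf (nat_lit 0) (nat_lit 2024608361) (nat_lit 252) (nat_lit 9353453760) (nat_lit 252) (nat_lit 1249245797) (nat_lit 38) (nat_lit 4) (nat_lit 41) (nat_lit 5) (nat_lit 41) (nat_lit 4) (nat_lit 380) (nat_lit 289) (nat_lit 276)) (XT.lf (nat_lit 0) (nat_lit 2169172849)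 (nat_lit 336) (nat_lit 4204581972) (nat_lit 84) (nat_lit 6503541584) (nat_lit 37) (nat_lit 5) (nat_lit 41) (nat_lit 5) (nat_lit 38) (nat_lit 4) (nat_lit 381) (nat_lit 289) (nat_lit 275))) (XT.nd (nat_lit 94) (nat_lit 0) (nat_lit 0) (XT.lf (nat_lit 0) (nat_lit 2306350167) (nat_lit 168) (nat_lit 3311124846) (nat_lit 252) (nat_lit 7518433428) (nat_lit 35) (nat_lit 5) (nat_lit 37) (nat_lit 5) (nat_lit 38) (nat_lit 4) (nat_lit 382) (nat_lit 289) (nat_lit 274)) (XT.lf (nat_lit 0) (nat_lit 8988130417) (nat_lit 168) (nat_lit 154790535) (nat_lit 252) (nat_lit 4260213208) (nat_lit 35) (nat_lit 5) (nat_lit 37) (nat_lit 5) (nat_lit 38) (nat_lit 4) (nat_lit 383) (nat_lit 289) (nat_lit 273)))) (XT.nd (nat_lit 188) (nat_lit 168) (nat_lit 0) (XT.nd (nat_lit 94) (nat_lit 84) (nat_lit 0) (XT.lf (nat_lit 0) (nat_lit 2093963063) (nat_lit 168) (nat_lit 10662906946) (nat_lit 168) (nat_lit 922088682) (nat_lit 33) (nat_lit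 4) (nat_lit 35) (nat_lit 5) (nat_lit 35) (nat_lit 4) (nat_lit 384) (nat_lit 289) (nat_lit 272)) (XT.lf (nat_lit 0) (nat_lit 2446685395) (nat_lit 252) (nat_lit 5208624811) (nat_lit 84) (nat_lit 6307694521) (nat_lit 32) (nat_lit 5) (nat_lit 35) (nat_lit 5) (nat_lit 33) (nat_lit 4) (nat_lit 385) (nat_lit 289) (nat_lit 271))) (XT.nd (nat_lit 94) (nat_lit 0) (nat_lit 0) (XT.lf (nat_lit 0) (nat_lit 1268400929) (nat_lit 168) (nat_lit 4576780048) (nat_lit 252) (nat_lit 8411760322) (nat_lit 30) (nat_lit 5) (nat_lit 32) (nat_lit 5) (nat_lit 33) (nat_lit 4) (nat_lit 386) (nat_lit 289) (nat_lit 270)) (XT.lf (nat_lit 0) (nat_lit 7941293207) (nat_lit 168) (nat_lit 1392815666) (nat_lit 252) (nat_lit 5225989842) (nat_lit 30) (nat_lit 5) (nat_lit 32) (nat_lit 5) (nat_lit 33) (nat_lit 4) (nat_lit 387) (nat_lit 289) (nat_lit 269)))))) (XT.nd (nat_lit 57716) (nat_lit 0) (nat_lit 1176) (XT.nd (nat_lit 57340) (nat_lit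 0) (nat_lit 2604) (XT.nd (nat_lit 57152) (nat_lit 0) (nat_lit 3612) (XT.nd (nat_lit 94) (nat_lit 252) (nat_lit 0) (XT.lf (nat_lit 0) (nat_lit 12883204976) (nat_lit 252) (nat_lit 179805229) (nat_lit 0) (nat_lit 1810731046) (nat_lit 30) (nat_lit 5) (nat_lit 33) (nat_lit 4) (nat_lit 30) (nat_lit 4) (nat_lit 388) (nat_lit 289) (nat_lit 268)) (XT.lf (nat_lit 0) (nat_lit 1331006396) (nat_lit 252) (nat_lit 8745401658) (nat_lit 84) (nat_lit 5119593868) (nat_lit 27) (nat_lit 5) (nat_lit 30) (nat_lit 5) (nat_lit 28) (nat_lit 4) (nat_lit 389) (nat_lit 289) (nat_lit 267))) (XT.nd (nat_lit 94) (nat_lit 0) (nat_lit 0) (XT.lf (nat_lit 0) (nat_lit 867600130) (nat_lit 420) (nat_lit 3122679911) (nat_lit 0) (nat_lit 867600130) (nat_lit 70) (nat_lit 5) (nat_lit 75) (nat_lit 4) (nat_lit 70) (nat_lit 4) (nat_lit 365) (nat_lit 290) (nat_lit 290)) (XT.lf (nat_lit 0) (nat_lit 5338702737) (nat_lit 420) (nat_lit 48274897)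 (nat_lit 0) (nat_lit 4481025655) (nat_lit 70) (nat_lit 5) (nat_lit 75) (nat_lit 4) (nat_lit 70) (nat_lit 4) (nat_lit 366) (nat_lit 290) (nat_lit 289)))) (XT.nd (nat_lit 188) (nat_lit 336) (nat_lit 0) (XT.nd (nat_lit 94) (nat_lit 336) (nat_lit 0) (XT.lf (nat_lit 0) (nat_lit 6334978702) (nat_lit 336) (nat_lit 2690535734) (nat_lit 336) (nat_lit 1000162456) (nat_lit 66) (nat_lit 4) (nat_lit 70) (nat_lit 5) (nat_lit 70) (nat_lit 4) (nat_lit 367) (nat_lit 290) (nat_lit 288)) (XT.lf (nat_lit 0) (nat_lit 2524805036) (nat_lit 336) (nat_lit 7565617446) (nat_lit 0) (nat_lit 98769903) (nat_lit 62) (nat_lit 5) (nat_lit 66) (nat_lit 4) (nat_lit 62) (nat_lit 4) (nat_lit 368) (nat_lit 290) (nat_lit 287))) (XT.nd (nat_lit 94) (nat_lit 336) (nat_lit 0) (XT.lf (nat_lit 0) (nat_lit 6115309840) (nat_lit 336) (nat_lit 1315479333) (nat_lit 0) (nat_lit 2927239728) (nat_lit 62) (nat_lit 5) (nat_lit 66) (nat_lit 4) (nat_lit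 62) (nat_lit 4) (nat_lit 369) (nat_lit 290) (nat_lit 286)) (XT.lf (nat_lit 0) (nat_lit 5100324104) (nat_lit 336) (nat_lit 4680304752) (nat_lit 336) (nat_lit 752394854) (nat_lit 58) (nat_lit 4) (nat_lit 62) (nat_lit 5) (nat_lit 62) (nat_lit 4) (nat_lit 370) (nat_lit 290) (nat_lit 285))))) (XT.nd (nat_lit 376) (nat_lit 756) (nat_lit 0) (XT.nd (nat_lit 188) (nat_lit 336) (nat_lit 0) (XT.nd (nat_lit 94) (nat_lit 0) (nat_lit 0) (XT.lf (nat_lit 0) (nat_lit 890723662) (nat_lit 252) (nat_lit 1836825408) (nat_lit 336) (nat_lit 7986788207) (nat_lit 54) (nat_lit 5) (nat_lit 57) (nat_lit 5) (nat_lit 58) (nat_lit 4) (nat_lit 371) (nat_lit 290) (nat_lit 284)) (XT.lf (nat_lit 0) (nat_lit 6281899666) (nat_lit 336) (nat_lit 3525543593) (nat_lit 0) (nat_lit 1093966747) (nat_lit 54) (nat_lit 5) (nat_lit 58) (nat_lit 4) (nat_lit 54) (nat_lit 4) (nat_lit 372) (nat_lit 290) (nat_lit 283))) (XT.nd (nat_lit 94) (nat_lit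 84) (nat_lit 0) (XT.lf (nat_lit 0) (nat_lit 2880238801) (nat_lit 252) (nat_lit 7030098862) (nat_lit 252) (nat_lit 1184827876) (nat_lit 51) (nat_lit 4) (nat_lit 54) (nat_lit 5) (nat_lit 54) (nat_lit 4) (nat_lit 373) (nat_lit 290) (nat_lit 282)) (XT.lf (nat_lit 0) (nat_lit 2264813154) (nat_lit 336) (nat_lit 1885892579) (nat_lit 84) (nat_lit 7144703449) (nat_lit 50) (nat_lit 5) (nat_lit 54) (nat_lit 5) (nat_lit 51) (nat_lit 4) (nat_lit 374) (nat_lit 290) (nat_lit 281)))) (XT.nd (nat_lit 188) (nat_lit 504) (nat_lit 0) (XT.nd (nat_lit 94) (nat_lit 0) (nat_lit 0) (XT.lf (nat_lit 0) (nat_lit 4594706168) (nat_lit 252) (nat_lit 1167743893) (nat_lit 336) (nat_lit 5739894855) (nat_lit 47) (nat_lit 5) (nat_lit 50) (nat_lit 5) (nat_lit 51) (nat_lit 4) (nat_lit 375) (nat_lit 290) (nat_lit 280)) (XT.lf (nat_lit 0) (nat_lit 9327425914) (nat_lit 336) (nat_lit 542066762) (nat_lit 0) (nat_lit 1847207560) (nat_lit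 47) (nat_lit 5) (nat_lit 51) (nat_lit 4) (nat_lit 47) (nat_lit 4) (nat_lit 376) (nat_lit 290) (nat_lit 279))) (XT.nd (nat_lit 94) (nat_lit 168) (nat_lit 0) (XT.lf (nat_lit 0) (nat_lit 1037384646) (nat_lit 336) (nat_lit 5941353113) (nat_lit 84) (nat_lit 4958634020) (nat_lit 43) (nat_lit 5) (nat_lit 47) (nat_lit 5) (nat_lit 44) (nat_lit 4) (nat_lit 377) (nat_lit 290) (nat_lit 278)) (XT.lf (nat_lit 0) (nat_lit 447854027) (nat_lit 168) (nat_lit 4008110629) (nat_lit 252) (nat_lit 7709951523) (nat_lit 41) (nat_lit 5) (nat_lit 43) (nat_lit 5) (nat_lit 44) (nat_lit 4) (nat_lit 378) (nat_lit 290) (nat_lit 277))))))) (XT.nd (nat_lit 58280) (nat_lit 0) (nat_lit 672) (XT.nd (nat_lit 752) (nat_lit 420) (nat_lit 0) (XT.nd (nat_lit 376) (nat_lit 252) (nat_lit 0) (XT.nd (nat_lit 188) (nat_lit 252) (nat_lit 0) (XT.nd (nat_lit 94) (nat_lit 252) (nat_lit 0) (XT.lf (nat_lit 0) (nat_lit 7037613197) (nat_lit 168) (nat_lit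 927826914) (nat_lit 252) (nat_lit 4436301126) (nat_lit 41) (nat_lit 5) (nat_lit 43) (nat_lit 5) (nat_lit 44) (nat_lit 4) (nat_lit 379) (nat_lit 290) (nat_lit 276)) (XT.lf (nat_lit 0) (nat_lit 1068289597) (nat_lit 252) (nat_lit 10473802407) (nat_lit 252) (nat_lit 1103764572) (nat_lit 38) (nat_lit 4) (nat_lit 41) (nat_lit 5) (nat_lit 41) (nat_lit 4) (nat_lit 380) (nat_lit 290) (nat_lit 275))) (XT.nd (nat_lit 94) (nat_lit 168) (nat_lit 0) (XT.lf (nat_lit 0) (nat_lit 2277465217) (nat_lit 336) (nat_lit 5235904698) (nat_lit 84) (nat_lit 5383497264) (nat_lit 37) (nat_lit 5) (nat_lit 41) (nat_lit 5) (nat_lit 38) (nat_lit 4) (nat_lit 381) (nat_lit 290) (nat_lit 274)) (XT.lf (nat_lit 0) (nat_lit 1199985021) (nat_lit 168) (nat_lit 4481797794) (nat_lit 252) (nat_lit 7475048530) (nat_lit 35) (nat_lit 5) (nat_lit 37) (nat_lit 5) (nat_lit 38) (nat_lit 4) (nat_lit 382) (nat_lit 290) (nat_lit 273)))) (XT.nd (nat_lit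 188) (nat_lit 84) (nat_lit 0) (XT.nd (nat_lit 94) (nat_lit 168) (nat_lit 0) (XT.lf (nat_lit 0) (nat_lit 7828836072) (nat_lit 168) (nat_lit 1345505731) (nat_lit 252) (nat_lit 4250733511) (nat_lit 35) (nat_lit 5) (nat_lit 37) (nat_lit 5) (nat_lit 38) (nat_lit 4) (nat_lit 383) (nat_lit 290) (nat_lit 272)) (XT.lf (nat_lit 0) (nat_lit 847664556) (nat_lit 168) (nat_lit 11885084113) (nat_lit 168) (nat_lit 969848164) (nat_lit 33) (nat_lit 4) (nat_lit 35) (nat_lit 5) (nat_lit 35) (nat_lit 4) (nat_lit 384) (nat_lit 290) (nat_lit 271))) (XT.nd (nat_lit 94) (nat_lit 0) (nat_lit 0) (XT.lf (nat_lit 0) (nat_lit 2367837531) (nat_lit 252) (nat_lit 6530446051) (nat_lit 84) (nat_lit 5089362626) (nat_lit 32) (nat_lit 5) (nat_lit 35) (nat_lit 5) (nat_lit 33) (nat_lit 4) (nat_lit 385) (nat_lit 290) (nat_lit 270)) (XT.lf (nat_lit 0) (nat_lit 5723052758) (nat_lit 252) (nat_lit 128990492) (nat_lit 84) (nat_lit 8430866055)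 (nat_lit 32) (nat_lit 5) (nat_lit 35) (nat_lit 5) (nat_lit 33) (nat_lit 4) (nat_lit 386) (nat_lit 290) (nat_lit 269))))) (XT.nd (nat_lit 57152) (nat_lit 0) (nat_lit 3276) (XT.nd (nat_lit 188) (nat_lit 252) (nat_lit 0) (XT.nd (nat_lit 94) (nat_lit 0) (nat_lit 0) (XT.lf (nat_lit 0) (nat_lit 6491013736) (nat_lit 168) (nat_lit 2689036346) (nat_lit 252) (nat_lit 5407001850) (nat_lit 30) (nat_lit 5) (nat_lit 32) (nat_lit 5) (nat_lit 33) (nat_lit 4) (nat_lit 387) (nat_lit 290) (nat_lit 268)) (XT.lf (nat_lit 0) (nat_lit 12686729912) (nat_lit 252) (nat_lit 1694169330) (nat_lit 0) (nat_lit 521094215) (nat_lit 30) (nat_lit 5) (nat_lit 33) (nat_lit 4) (nat_lit 30) (nat_lit 4) (nat_lit 388) (nat_lit 290) (nat_lit 267))) (XT.nd (nat_lit 56870) (nat_lit 0) (nat_lit 4032) (XT.lf (nat_lit 0) (nat_lit 1065797078) (nat_lit 252) (nat_lit 10366019777) (nat_lit 84) (nat_lit 3793873076) (nat_lit 27) (nat_lit 5) (nat_lit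 30) (nat_lit 5) (nat_lit 28) (nat_lit 4) (nat_lit 389) (nat_lit 290) (nat_lit 266)) (XT.lf (nat_lit 0) (nat_lit 268013519) (nat_lit 336) (nat_lit 2222470988) (nat_lit 336) (nat_lit 2222470988) (nat_lit 75) (nat_lit 4) (nat_lit 79) (nat_lit 5) (nat_lit 79) (nat_lit 4) (nat_lit 363) (nat_lit 291) (nat_lit 291)))) (XT.nd (nat_lit 188) (nat_lit 336) (nat_lit 0) (XT.nd (nat_lit 94) (nat_lit 420) (nat_lit 0) (XT.lf (nat_lit 0) (nat_lit 6781937748) (nat_lit 336) (nat_lit 1848491096) (nat_lit 336) (nat_lit 938581480) (nat_lit 75) (nat_lit 4) (nat_lit 79) (nat_lit 5) (nat_lit 79) (nat_lit 4) (nat_lit 364) (nat_lit 291) (nat_lit 290)) (XT.lf (nat_lit 0) (nat_lit 2575128695) (nat_lit 420) (nat_lit 6307952428) (nat_lit 0) (nat_lit 834044218) (nat_lit 70) (nat_lit 5) (nat_lit 75) (nat_lit 4) (nat_lit 70) (nat_lit 4) (nat_lit 365) (nat_lit 291) (nat_lit 289))) (XT.nd (nat_lit 94) (nat_lit 336) (nat_lit 0) (XT.lf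 (nat_lit 0) (nat_lit 6136418590) (nat_lit 420) (nat_lit 171637022) (nat_lit 0) (nat_lit 3562637917) (nat_lit 70) (nat_lit 5) (nat_lit 75) (nat_lit 4) (nat_lit 70) (nat_lit 4) (nat_lit 366) (nat_lit 291) (nat_lit 288)) (XT.lf (nat_lit 0) (nat_lit 6148987690) (nat_lit 336) (nat_lit 3631471652) (nat_lit 336) (nat_lit 249248069) (nat_lit 66) (nat_lit 4) (nat_lit 70) (nat_lit 5) (nat_lit 70) (nat_lit 4) (nat_lit 367) (nat_lit 291) (nat_lit 287)))))) (XT.nd (nat_lit 752) (nat_lit 1008) (nat_lit 0) (XT.nd (nat_lit 376) (nat_lit 588) (nat_lit 0) (XT.nd (nat_lit 188) (nat_lit 672) (nat_lit 0) (XT.nd (nat_lit 94) (nat_lit 0) (nat_lit 0) (XT.lf (nat_lit 0) (nat_lit 2362940082) (nat_lit 252) (nat_lit 853838091) (nat_lit 336) (nat_lit 6977610698) (nat_lit 62) (nat_lit 5) (nat_lit 65) (nat_lit 5) (nat_lit 66) (nat_lit 4) (nat_lit 368) (nat_lit 291) (nat_lit 286)) (XT.lf (nat_lit 0) (nat_lit 6758716561) (nat_lit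 336) (nat_lit 1632888536) (nat_lit 0) (nat_lit 1973129581) (nat_lit 62) (nat_lit 5) (nat_lit 66) (nat_lit 4) (nat_lit 62) (nat_lit 4) (nat_lit 369) (nat_lit 291) (nat_lit 285))) (XT.nd (nat_lit 94) (nat_lit 336) (nat_lit 0) (XT.lf (nat_lit 0) (nat_lit 4717398493) (nat_lit 336) (nat_lit 5663772866) (nat_lit 336) (nat_lit 159894832) (nat_lit 58) (nat_lit 4) (nat_lit 62) (nat_lit 5) (nat_lit 62) (nat_lit 4) (nat_lit 370) (nat_lit 291) (nat_lit 284)) (XT.lf (nat_lit 0) (nat_lit 426705813) (nat_lit 252) (nat_lit 2838296059) (nat_lit 336) (nat_lit 7458559447) (nat_lit 54) (nat_lit 5) (nat_lit 57) (nat_lit 5) (nat_lit 58) (nat_lit 4) (nat_lit 371) (nat_lit 291) (nat_lit 283)))) (XT.nd (nat_lit 188) (nat_lit 336) (nat_lit 0) (XT.nd (nat_lit 94) (nat_lit 252) (nat_lit 0) (XT.lf (nat_lit 0) (nat_lit 6771097087) (nat_lit 336) (nat_lit 4047901184) (nat_lit 0) (nat_lit 93129905) (nat_lit 54) (nat_lit 5) (nat_lit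 58) (nat_lit 4) (nat_lit 54) (nat_lit 4) (nat_lit 372) (nat_lit 291) (nat_lit 282)) (XT.lf (nat_lit 0) (nat_lit 2289318729) (nat_lit 252) (nat_lit 8067032545) (nat_lit 252) (nat_lit 750873065) (nat_lit 51) (nat_lit 4) (nat_lit 54) (nat_lit 5) (nat_lit 54) (nat_lit 4) (nat_lit 373) (nat_lit 291) (nat_lit 281))) (XT.nd (nat_lit 94) (nat_lit 252) (nat_lit 0) (XT.lf (nat_lit 0) (nat_lit 2652937080) (nat_lit 336) (nat_lit 2550301379) (nat_lit 84) (nat_lit 6105267790) (nat_lit 50) (nat_lit 5) (nat_lit 54) (nat_lit 5) (nat_lit 51) (nat_lit 4) (nat_lit 374) (nat_lit 291) (nat_lit 280)) (XT.lf (nat_lit 0) (nat_lit 3860377197) (nat_lit 252) (nat_lit 2246863343) (nat_lit 336) (nat_lit 5409542731) (nat_lit 47) (nat_lit 5) (nat_lit 50) (nat_lit 5) (nat_lit 51) (nat_lit 4) (nat_lit 375) (nat_lit 291) (nat_lit 279))))) (XT.nd (nat_lit 376) (nat_lit 504) (nat_lit 0) (XT.nd (nat_lit 188) (nat_lit 168) (nat_lit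 0) (XT.nd (nat_lit 94) (nat_lit 336) (nat_lit 0) (XT.lf (nat_lit 0) (nat_lit 9625910512) (nat_lit 336) (nat_lit 1336433681) (nat_lit 0) (nat_lit 770223658) (nat_lit 47) (nat_lit 5) (nat_lit 51) (nat_lit 4) (nat_lit 47) (nat_lit 4) (nat_lit 376) (nat_lit 291) (nat_lit 278)) (XT.lf (nat_lit 0) (nat_lit 1270813984) (nat_lit 336) (nat_lit 6826444748) (nat_lit 84) (nat_lit 3857247127) (nat_lit 43) (nat_lit 5) (nat_lit 47) (nat_lit 5) (nat_lit 44) (nat_lit 4) (nat_lit 377) (nat_lit 291) (nat_lit 277))) (XT.nd (nat_lit 94) (nat_lit 168) (nat_lit 0) (XT.lf (nat_lit 0) (nat_lit 4650324143) (nat_lit 336) (nat_lit 500515128) (nat_lit 84) (nat_lit 7033419768) (nat_lit 43) (nat_lit 5) (nat_lit 47) (nat_lit 5) (nat_lit 44) (nat_lit 4) (nat_lit 378) (nat_lit 291) (nat_lit 276)) (XT.lf (nat_lit 0) (nat_lit 6025279221) (nat_lit 168) (nat_lit 2095342010) (nat_lit 252) (nat_lit 4300673829) (nat_lit 41) (nat_lit 5)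 (nat_lit 43) (nat_lit 5) (nat_lit 44) (nat_lit 4) (nat_lit 379) (nat_lit 291) (nat_lit 275)))) (XT.nd (nat_lit 188) (nat_lit 168) (nat_lit 0) (XT.nd (nat_lit 94) (nat_lit 336) (nat_lit 0) (XT.lf (nat_lit 0) (nat_lit 11642323889) (nat_lit 252) (nat_lit 26500794) (nat_lit 0) (nat_lit 998268770) (nat_lit 41) (nat_lit 5) (nat_lit 44) (nat_lit 4) (nat_lit 41) (nat_lit 4) (nat_lit 380) (nat_lit 291) (nat_lit 274)) (XT.lf (nat_lit 0) (nat_lit 2321306856) (nat_lit 336) (nat_lit 6406677204) (nat_lit 84) (nat_lit 4191138163) (nat_lit 37) (nat_lit 5) (nat_lit 41) (nat_lit 5) (nat_lit 38) (nat_lit 4) (nat_lit 381) (nat_lit 291) (nat_lit 273))) (XT.nd (nat_lit 94) (nat_lit 168) (nat_lit 0) (XT.lf (nat_lit 0) (nat_lit 5681711302) (nat_lit 336) (nat_lit 46099874) (nat_lit 84) (nat_lit 7452624250) (nat_lit 37) (nat_lit 5) (nat_lit 41) (nat_lit 5) (nat_lit 38) (nat_lit 4) (nat_lit 382) (nat_lit 291) (nat_lit 272))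 (XT.lf (nat_lit 0) (nat_lit 6530446125) (nat_lit 168) (nat_lit 2611443126) (nat_lit 252) (nat_lit 4307792296) (nat_lit 35) (nat_lit 5) (nat_lit 37) (nat_lit 5) (nat_lit 38) (nat_lit 4) (nat_lit 383) (nat_lit 291) (nat_lit 271))))))))
noncomputable def xc3 : XT := (XT.nd (nat_lit 59596) (nat_lit 0) (nat_lit 0) (XT.nd (nat_lit 58092) (nat_lit 0) (nat_lit 420) (XT.nd (nat_lit 57340) (nat_lit 0) (nat_lit 2520) (XT.nd (nat_lit 376) (nat_lit 252) (nat_lit 0) (XT.nd (nat_lit 188) (nat_lit 168) (nat_lit 0) (XT.nd (nat_lit 94) (nat_lit 252) (nat_lit 0) (XT.lf (nat_lit 0) (nat_lit 12648798178) (nat_lit 252) (nat_lit 530372693) (nat_lit 0) (nat_lit 549606958) (nat_lit 35) (nat_lit 5) (nat_lit 38) (nat_lit 4) (nat_lit 35) (nat_lit 4) (nat_lit 384) (nat_lit 291) (nat_lit 270)) (XT.lf (nat_lit 0) (nat_lit 2223516180) (nat_lit 252) (nat_lit 7995084724) (nat_lit 84) (nat_lit 3796376342) (nat_lit 32) (nat_lit 5)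 (nat_lit 35) (nat_lit 5) (nat_lit 33) (nat_lit 4) (nat_lit 385) (nat_lit 291) (nat_lit 269))) (XT.nd (nat_lit 94) (nat_lit 168) (nat_lit 0) (XT.lf (nat_lit 0) (nat_lit 5548549163) (nat_lit 252) (nat_lit 1642968108) (nat_lit 84) (nat_lit 7119655833) (nat_lit 32) (nat_lit 5) (nat_lit 35) (nat_lit 5) (nat_lit 33) (nat_lit 4) (nat_lit 386) (nat_lit 291) (nat_lit 268)) (XT.lf (nat_lit 0) (nat_lit 4898049768) (nat_lit 168) (nat_lit 4062881027) (nat_lit 252) (nat_lit 5655749909) (nat_lit 30) (nat_lit 5) (nat_lit 32) (nat_lit 5) (nat_lit 33) (nat_lit 4) (nat_lit 387) (nat_lit 291) (nat_lit 267)))) (XT.nd (nat_lit 56776) (nat_lit 0) (nat_lit 4368) (XT.nd (nat_lit 94) (nat_lit 252) (nat_lit 0) (XT.lf (nat_lit 0) (nat_lit 11572689929) (nat_lit 168) (nat_lit 860906322) (nat_lit 252) (nat_lit 2499072137) (nat_lit 30) (nat_lit 5) (nat_lit 32) (nat_lit 5) (nat_lit 33) (nat_lit 4) (nat_lit 388) (nat_lit 291) (nat_lit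 266)) (XT.lf (nat_lit 0) (nat_lit 733754418) (nat_lit 252) (nat_lit 12133257765) (nat_lit 84) (nat_lit 2391071941) (nat_lit 27) (nat_lit 5) (nat_lit 30) (nat_lit 5) (nat_lit 28) (nat_lit 4) (nat_lit 389) (nat_lit 291) (nat_lit 265))) (XT.nd (nat_lit 94) (nat_lit 420) (nat_lit 0) (XT.lf (nat_lit 0) (nat_lit 3423611054) (nat_lit 420) (nat_lit 576708207) (nat_lit 420) (nat_lit 576708207) (nat_lit 84) (nat_lit 4) (nat_lit 89) (nat_lit 5) (nat_lit 89) (nat_lit 4) (nat_lit 361) (nat_lit 292) (nat_lit 292)) (XT.lf (nat_lit 0) (nat_lit 2343568724) (nat_lit 420) (nat_lit 5538119102) (nat_lit 0) (nat_lit 1406361818) (nat_lit 79) (nat_lit 5) (nat_lit 84) (nat_lit 4) (nat_lit 79) (nat_lit 4) (nat_lit 362) (nat_lit 292) (nat_lit 291))))) (XT.nd (nat_lit 376) (nat_lit 1092) (nat_lit 0) (XT.nd (nat_lit 188) (nat_lit 420) (nat_lit 0) (XT.nd (nat_lit 94) (nat_lit 0) (nat_lit 0) (XT.lf (nat_lit 0) (nat_lit 474950275)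 (nat_lit 336) (nat_lit 5399723316) (nat_lit 336) (nat_lit 3552606794) (nat_lit 75) (nat_lit 4) (nat_lit 79) (nat_lit 5) (nat_lit 79) (nat_lit 4) (nat_lit 363) (nat_lit 292) (nat_lit 290)) (XT.lf (nat_lit 0) (nat_lit 6661563155) (nat_lit 336) (nat_lit 2820334992) (nat_lit 336) (nat_lit 89811076) (nat_lit 75) (nat_lit 4) (nat_lit 79) (nat_lit 5) (nat_lit 79) (nat_lit 4) (nat_lit 364) (nat_lit 292) (nat_lit 289))) (XT.nd (nat_lit 94) (nat_lit 0) (nat_lit 0) (XT.lf (nat_lit 0) (nat_lit 3224132667) (nat_lit 336) (nat_lit 131696724) (nat_lit 420) (nat_lit 6365354161) (nat_lit 70) (nat_lit 5) (nat_lit 74) (nat_lit 5) (nat_lit 75) (nat_lit 4) (nat_lit 365) (nat_lit 292) (nat_lit 288)) (XT.lf (nat_lit 0) (nat_lit 6874870248) (nat_lit 420) (nat_lit 418469063) (nat_lit 0) (nat_lit 2582737049) (nat_lit 70) (nat_lit 5) (nat_lit 75) (nat_lit 4) (nat_lit 70) (nat_lit 4) (nat_lit 366) (nat_lit 292) (nat_lit 287))))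 (XT.nd (nat_lit 188) (nat_lit 420) (nat_lit 0) (XT.nd (nat_lit 94) (nat_lit 252) (nat_lit 0) (XT.lf (nat_lit 0) (nat_lit 431130886) (nat_lit 420) (nat_lit 4201833527) (nat_lit 84) (nat_lit 5403337637) (nat_lit 65) (nat_lit 5) (nat_lit 70) (nat_lit 5) (nat_lit 66) (nat_lit 4) (nat_lit 367) (nat_lit 292) (nat_lit 286)) (XT.lf (nat_lit 0) (nat_lit 1974286045) (nat_lit 252) (nat_lit 1874654964) (nat_lit 336) (nat_lit 6353323494) (nat_lit 62) (nat_lit 5) (nat_lit 65) (nat_lit 5) (nat_lit 66) (nat_lit 4) (nat_lit 368) (nat_lit 292) (nat_lit 285))) (XT.nd (nat_lit 94) (nat_lit 420) (nat_lit 0) (XT.lf (nat_lit 0) (nat_lit 7341883379) (nat_lit 336) (nat_lit 2077649640) (nat_lit 0) (nat_lit 954597951) (nat_lit 62) (nat_lit 5) (nat_lit 66) (nat_lit 4) (nat_lit 62) (nat_lit 4) (nat_lit 369) (nat_lit 292) (nat_lit 284)) (XT.lf (nat_lit 0) (nat_lit 362370926) (nat_lit 420) (nat_lit 6349042403) (nat_lit 84) (nat_lit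 3840280519) (nat_lit 57) (nat_lit 5) (nat_lit 62) (nat_lit 5) (nat_lit 58) (nat_lit 4) (nat_lit 370) (nat_lit 292) (nat_lit 283)))))) (XT.nd (nat_lit 752) (nat_lit 924) (nat_lit 0) (XT.nd (nat_lit 376) (nat_lit 588) (nat_lit 0) (XT.nd (nat_lit 188) (nat_lit 336) (nat_lit 0) (XT.nd (nat_lit 94) (nat_lit 252) (nat_lit 0) (XT.lf (nat_lit 0) (nat_lit 3742157413) (nat_lit 420) (nat_lit 165134043) (nat_lit 84) (nat_lit 6828157580) (nat_lit 57) (nat_lit 5) (nat_lit 62) (nat_lit 5) (nat_lit 58) (nat_lit 4) (nat_lit 371) (nat_lit 292) (nat_lit 282)) (XT.lf (nat_lit 0) (nat_lit 6213994414) (nat_lit 252) (nat_lit 994402666) (nat_lit 336) (nat_lit 3716859594) (nat_lit 54) (nat_lit 5) (nat_lit 57) (nat_lit 5) (nat_lit 58) (nat_lit 4) (nat_lit 372) (nat_lit 292) (nat_lit 281))) (XT.nd (nat_lit 94) (nat_lit 84) (nat_lit 0) (XT.lf (nat_lit 0) (nat_lit 1566032141) (nat_lit 252) (nat_lit 9174696455) (nat_lit 252)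 (nat_lit 381255720) (nat_lit 51) (nat_lit 4) (nat_lit 54) (nat_lit 5) (nat_lit 54) (nat_lit 4) (nat_lit 373) (nat_lit 292) (nat_lit 280)) (XT.lf (nat_lit 0) (nat_lit 2979067233) (nat_lit 336) (nat_lit 3347491700) (nat_lit 84) (nat_lit 4997730229) (nat_lit 50) (nat_lit 5) (nat_lit 54) (nat_lit 5) (nat_lit 51) (nat_lit 4) (nat_lit 374) (nat_lit 292) (nat_lit 279)))) (XT.nd (nat_lit 188) (nat_lit 336) (nat_lit 0) (XT.nd (nat_lit 94) (nat_lit 0) (nat_lit 0) (XT.lf (nat_lit 0) (nat_lit 2992275467) (nat_lit 252) (nat_lit 3397532419) (nat_lit 336) (nat_lit 5144105267) (nat_lit 47) (nat_lit 5) (nat_lit 50) (nat_lit 5) (nat_lit 51) (nat_lit 4) (nat_lit 375) (nat_lit 292) (nat_lit 278)) (XT.lf (nat_lit 0) (nat_lit 9482367704) (nat_lit 252) (nat_lit 383852904) (nat_lit 336) (nat_lit 1884783758) (nat_lit 47) (nat_lit 5) (nat_lit 50) (nat_lit 5) (nat_lit 51) (nat_lit 4) (nat_lit 376) (nat_lit 292) (nat_lit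 277))) (XT.nd (nat_lit 94) (nat_lit 0) (nat_lit 0) (XT.lf (nat_lit 0) (nat_lit 1440673646) (nat_lit 336) (nat_lit 7848801832) (nat_lit 84) (nat_lit 2684870125) (nat_lit 43) (nat_lit 5) (nat_lit 47) (nat_lit 5) (nat_lit 44) (nat_lit 4) (nat_lit 377) (nat_lit 292) (nat_lit 276)) (XT.lf (nat_lit 0) (nat_lit 4786431566) (nat_lit 336) (nat_lit 1575821995) (nat_lit 84) (nat_lit 5842893403) (nat_lit 43) (nat_lit 5) (nat_lit 47) (nat_lit 5) (nat_lit 44) (nat_lit 4) (nat_lit 378) (nat_lit 292) (nat_lit 275))))) (XT.nd (nat_lit 376) (nat_lit 420) (nat_lit 0) (XT.nd (nat_lit 188) (nat_lit 336) (nat_lit 0) (XT.nd (nat_lit 94) (nat_lit 0) (nat_lit 0) (XT.lf (nat_lit 0) (nat_lit 4876140972) (nat_lit 168) (nat_lit 3336772298) (nat_lit 252) (nat_lit 4230618753) (nat_lit 41) (nat_lit 5) (nat_lit 43) (nat_lit 5) (nat_lit 44) (nat_lit 4) (nat_lit 379) (nat_lit 292) (nat_lit 274)) (XT.lf (nat_lit 0) (nat_lit 11450631407)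 (nat_lit 168) (nat_lit 241893533) (nat_lit 252) (nat_lit 998101774) (nat_lit 41) (nat_lit 5) (nat_lit 43) (nat_lit 5) (nat_lit 44) (nat_lit 4) (nat_lit 380) (nat_lit 292) (nat_lit 273))) (XT.nd (nat_lit 94) (nat_lit 0) (nat_lit 0) (XT.lf (nat_lit 0) (nat_lit 2300736073) (nat_lit 336) (nat_lit 7717922497) (nat_lit 84) (nat_lit 2925422412) (nat_lit 37) (nat_lit 5) (nat_lit 41) (nat_lit 5) (nat_lit 38) (nat_lit 4) (nat_lit 381) (nat_lit 292) (nat_lit 272)) (XT.lf (nat_lit 0) (nat_lit 5629705409) (nat_lit 336) (nat_lit 1407729982) (nat_lit 84) (nat_lit 6168932568) (nat_lit 37) (nat_lit 5) (nat_lit 41) (nat_lit 5) (nat_lit 38) (nat_lit 4) (nat_lit 382) (nat_lit 292) (nat_lit 271)))) (XT.nd (nat_lit 188) (nat_lit 252) (nat_lit 0) (XT.nd (nat_lit 94) (nat_lit 0) (nat_lit 0) (XT.lf (nat_lit 0) (nat_lit 5091826061) (nat_lit 168) (nat_lit 3953708877) (nat_lit 252) (nat_lit 4431439421) (nat_lit 35) (nat_lit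 5) (nat_lit 37) (nat_lit 5) (nat_lit 38) (nat_lit 4) (nat_lit 383) (nat_lit 292) (nat_lit 270)) (XT.lf (nat_lit 0) (nat_lit 11716897310) (nat_lit 168) (nat_lit 800062033) (nat_lit 252) (nat_lit 1240204791) (nat_lit 35) (nat_lit 5) (nat_lit 37) (nat_lit 5) (nat_lit 38) (nat_lit 4) (nat_lit 384) (nat_lit 292) (nat_lit 269))) (XT.nd (nat_lit 94) (nat_lit 0) (nat_lit 0) (XT.lf (nat_lit 0) (nat_lit 2013595234) (nat_lit 252) (nat_lit 9603820613) (nat_lit 84) (nat_lit 2427605875) (nat_lit 32) (nat_lit 5) (nat_lit 35) (nat_lit 5) (nat_lit 33) (nat_lit 4) (nat_lit 385) (nat_lit 292) (nat_lit 268)) (XT.lf (nat_lit 0) (nat_lit 5309325069) (nat_lit 252) (nat_lit 3299605883) (nat_lit 84) (nat_lit 5733192222) (nat_lit 32) (nat_lit 5) (nat_lit 35) (nat_lit 5) (nat_lit 33) (nat_lit 4) (nat_lit 386) (nat_lit 292) (nat_lit 267))))))) (XT.nd (nat_lit 57904) (nat_lit 0) (nat_lit 252) (XT.nd (nat_lit 57152) (nat_lit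 0) (nat_lit 2520) (XT.nd (nat_lit 56776) (nat_lit 0) (nat_lit 4032) (XT.nd (nat_lit 188) (nat_lit 252) (nat_lit 0) (XT.nd (nat_lit 94) (nat_lit 0) (nat_lit 0) (XT.lf (nat_lit 0) (nat_lit 3161009393) (nat_lit 168) (nat_lit 5515550155) (nat_lit 252) (nat_lit 5972451370) (nat_lit 30) (nat_lit 5) (nat_lit 32) (nat_lit 5) (nat_lit 33) (nat_lit 4) (nat_lit 387) (nat_lit 292) (nat_lit 266)) (XT.lf (nat_lit 0) (nat_lit 9789598815) (nat_lit 168) (nat_lit 2331562492) (nat_lit 252) (nat_lit 2844704183) (nat_lit 30) (nat_lit 5) (nat_lit 32) (nat_lit 5) (nat_lit 33) (nat_lit 4) (nat_lit 388) (nat_lit 292) (nat_lit 265))) (XT.nd (nat_lit 56494) (nat_lit 0) (nat_lit 5208) (XT.lf (nat_lit 0) (nat_lit 334588282) (nat_lit 252) (nat_lit 14048659808) (nat_lit 84) (nat_lit 909964713) (nat_lit 27) (nat_lit 5) (nat_lit 30) (nat_lit 5) (nat_lit 28) (nat_lit 4) (nat_lit 389) (nat_lit 292) (nat_lit 264)) (XT.lf (nat_lit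 0) (nat_lit 945765385) (nat_lit 420) (nat_lit 2557782301) (nat_lit 0) (nat_lit 945765385) (nat_lit 89) (nat_lit 5) (nat_lit 94) (nat_lit 4) (nat_lit 89) (nat_lit 4) (nat_lit 359) (nat_lit 293) (nat_lit 293)))) (XT.nd (nat_lit 188) (nat_lit 756) (nat_lit 0) (XT.nd (nat_lit 94) (nat_lit 0) (nat_lit 0) (XT.lf (nat_lit 0) (nat_lit 755378043) (nat_lit 420) (nat_lit 4631716292) (nat_lit 420) (nat_lit 3637433486) (nat_lit 84) (nat_lit 4) (nat_lit 89) (nat_lit 5) (nat_lit 89) (nat_lit 4) (nat_lit 360) (nat_lit 293) (nat_lit 292)) (XT.lf (nat_lit 0) (nat_lit 6788881411) (nat_lit 420) (nat_lit 2163068415) (nat_lit 420) (nat_lit 203462497) (nat_lit 84) (nat_lit 4) (nat_lit 89) (nat_lit 5) (nat_lit 89) (nat_lit 4) (nat_lit 361) (nat_lit 293) (nat_lit 291))) (XT.nd (nat_lit 94) (nat_lit 336) (nat_lit 0) (XT.lf (nat_lit 0) (nat_lit 3221773933) (nat_lit 420) (nat_lit 5659685523) (nat_lit 0) (nat_lit 409334300)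 (nat_lit 79) (nat_lit 5) (nat_lit 84) (nat_lit 4) (nat_lit 79) (nat_lit 4) (nat_lit 362) (nat_lit 293) (nat_lit 290)) (XT.lf (nat_lit 0) (nat_lit 291666616) (nat_lit 336) (nat_lit 6417785085) (nat_lit 336) (nat_lit 2721938057) (nat_lit 75) (nat_lit 4) (nat_lit 79) (nat_lit 5) (nat_lit 79) (nat_lit 4) (nat_lit 363) (nat_lit 293) (nat_lit 289))))) (XT.nd (nat_lit 376) (nat_lit 672) (nat_lit 0) (XT.nd (nat_lit 188) (nat_lit 420) (nat_lit 0) (XT.nd (nat_lit 94) (nat_lit 336) (nat_lit 0) (XT.lf (nat_lit 0) (nat_lit 684930303) (nat_lit 420) (nat_lit 3163115594) (nat_lit 84) (nat_lit 5728862032) (nat_lit 74) (nat_lit 5) (nat_lit 79) (nat_lit 5) (nat_lit 75) (nat_lit 4) (nat_lit 364) (nat_lit 293) (nat_lit 288)) (XT.lf (nat_lit 0) (nat_lit 2907366221) (nat_lit 336) (nat_lit 1178144383) (nat_lit 420) (nat_lit 5642202133) (nat_lit 70) (nat_lit 5) (nat_lit 74) (nat_lit 5) (nat_lit 75) (nat_lit 4) (nat_lit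 365) (nat_lit 293) (nat_lit 287))) (XT.nd (nat_lit 94) (nat_lit 420) (nat_lit 0) (XT.lf (nat_lit 0) (nat_lit 7554702959) (nat_lit 420) (nat_lit 788986700) (nat_lit 0) (nat_lit 1540466826) (nat_lit 70) (nat_lit 5) (nat_lit 75) (nat_lit 4) (nat_lit 70) (nat_lit 4) (nat_lit 366) (nat_lit 293) (nat_lit 286)) (XT.lf (nat_lit 0) (nat_lit 1046490256) (nat_lit 420) (nat_lit 4651895889) (nat_lit 84) (nat_lit 4347153158) (nat_lit 65) (nat_lit 5) (nat_lit 70) (nat_lit 5) (nat_lit 66) (nat_lit 4) (nat_lit 367) (nat_lit 293) (nat_lit 285)))) (XT.nd (nat_lit 188) (nat_lit 420) (nat_lit 0) (XT.nd (nat_lit 94) (nat_lit 0) (nat_lit 0) (XT.lf (nat_lit 0) (nat_lit 1458270612) (nat_lit 252) (nat_lit 2962606978) (nat_lit 336) (nat_lit 5791977628) (nat_lit 62) (nat_lit 5) (nat_lit 65) (nat_lit 5) (nat_lit 66) (nat_lit 4) (nat_lit 368) (nat_lit 293) (nat_lit 284)) (XT.lf (nat_lit 0) (nat_lit 7734769592) (nat_lit 252)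 (nat_lit 131817374) (nat_lit 336) (nat_lit 2519601005) (nat_lit 62) (nat_lit 5) (nat_lit 65) (nat_lit 5) (nat_lit 66) (nat_lit 4) (nat_lit 369) (nat_lit 293) (nat_lit 283))) (XT.nd (nat_lit 94) (nat_lit 0) (nat_lit 0) (XT.lf (nat_lit 0) (nat_lit 820177605) (nat_lit 420) (nat_lit 7006662668) (nat_lit 84) (nat_lit 2738154296) (nat_lit 57) (nat_lit 5) (nat_lit 62) (nat_lit 5) (nat_lit 58) (nat_lit 4) (nat_lit 370) (nat_lit 293) (nat_lit 282)) (XT.lf (nat_lit 0) (nat_lit 4163179299) (nat_lit 420) (nat_lit 877707297) (nat_lit 84) (nat_lit 5709011820) (nat_lit 57) (nat_lit 5) (nat_lit 62) (nat_lit 5) (nat_lit 58) (nat_lit 4) (nat_lit 371) (nat_lit 293) (nat_lit 281)))))) (XT.nd (nat_lit 752) (nat_lit 924) (nat_lit 0) (XT.nd (nat_lit 376) (nat_lit 504) (nat_lit 0) (XT.nd (nat_lit 188) (nat_lit 336) (nat_lit 0) (XT.nd (nat_lit 94) (nat_lit 252) (nat_lit 0) (XT.lf (nat_lit 0) (nat_lit 5432825322) (nat_lit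 252) (nat_lit 2153371178) (nat_lit 336) (nat_lit 3354850029) (nat_lit 54) (nat_lit 5) (nat_lit 57) (nat_lit 5) (nat_lit 58) (nat_lit 4) (nat_lit 372) (nat_lit 293) (nat_lit 280)) (XT.lf (nat_lit 0) (nat_lit 709747040) (nat_lit 252) (nat_lit 10354058455) (nat_lit 252) (nat_lit 75652876) (nat_lit 51) (nat_lit 4) (nat_lit 54) (nat_lit 5) (nat_lit 54) (nat_lit 4) (nat_lit 373) (nat_lit 293) (nat_lit 279))) (XT.nd (nat_lit 94) (nat_lit 252) (nat_lit 0) (XT.lf (nat_lit 0) (nat_lit 3243488581) (nat_lit 336) (nat_lit 4278160116) (nat_lit 84) (nat_lit 3821123017) (nat_lit 50) (nat_lit 5) (nat_lit 54) (nat_lit 5) (nat_lit 51) (nat_lit 4) (nat_lit 374) (nat_lit 293) (nat_lit 278)) (XT.lf (nat_lit 0) (nat_lit 1989642441) (nat_lit 252) (nat_lit 4620756558) (nat_lit 336) (nat_lit 4943350529) (nat_lit 47) (nat_lit 5) (nat_lit 50) (nat_lit 5) (nat_lit 51) (nat_lit 4) (nat_lit 375) (nat_lit 293) (nat_lit 277))))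 (XT.nd (nat_lit 188) (nat_lit 168) (nat_lit 0) (XT.nd (nat_lit 94) (nat_lit 336) (nat_lit 0) (XT.lf (nat_lit 0) (nat_lit 8427848771) (nat_lit 252) (nat_lit 1625267771) (nat_lit 336) (nat_lit 1718772838) (nat_lit 47) (nat_lit 5) (nat_lit 50) (nat_lit 5) (nat_lit 51) (nat_lit 4) (nat_lit 376) (nat_lit 293) (nat_lit 276)) (XT.lf (nat_lit 0) (nat_lit 1547112053) (nat_lit 336) (nat_lit 9009317688) (nat_lit 84) (nat_lit 1440478606) (nat_lit 43) (nat_lit 5) (nat_lit 47) (nat_lit 5) (nat_lit 44) (nat_lit 4) (nat_lit 377) (nat_lit 293) (nat_lit 275))) (XT.nd (nat_lit 94) (nat_lit 168) (nat_lit 0) (XT.lf (nat_lit 0) (nat_lit 4860100809) (nat_lit 336) (nat_lit 2787745406) (nat_lit 84) (nat_lit 4580881143) (nat_lit 43) (nat_lit 5) (nat_lit 47) (nat_lit 5) (nat_lit 44) (nat_lit 4) (nat_lit 378) (nat_lit 293) (nat_lit 274)) (XT.lf (nat_lit 0) (nat_lit 3589194348) (nat_lit 168) (nat_lit 4653202525) (nat_lit 252)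 (nat_lit 4226074683) (nat_lit 41) (nat_lit 5) (nat_lit 43) (nat_lit 5) (nat_lit 44) (nat_lit 4) (nat_lit 379) (nat_lit 293) (nat_lit 273))))) (XT.nd (nat_lit 376) (nat_lit 420) (nat_lit 0) (XT.nd (nat_lit 188) (nat_lit 168) (nat_lit 0) (XT.nd (nat_lit 94) (nat_lit 336) (nat_lit 0) (XT.lf (nat_lit 0) (nat_lit 10114263851) (nat_lit 168) (nat_lit 1576381548) (nat_lit 252) (nat_lit 1025894335) (nat_lit 41) (nat_lit 5) (nat_lit 43) (nat_lit 5) (nat_lit 44) (nat_lit 4) (nat_lit 380) (nat_lit 293) (nat_lit 272)) (XT.lf (nat_lit 0) (nat_lit 2215734895) (nat_lit 336) (nat_lit 9170786324) (nat_lit 84) (nat_lit 1585244048) (nat_lit 37) (nat_lit 5) (nat_lit 41) (nat_lit 5) (nat_lit 38) (nat_lit 4) (nat_lit 381) (nat_lit 293) (nat_lit 271))) (XT.nd (nat_lit 94) (nat_lit 168) (nat_lit 0) (XT.lf (nat_lit 0) (nat_lit 5514184707) (nat_lit 336) (nat_lit 2909511106) (nat_lit 84) (nat_lit 4811301842) (nat_lit 37)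 (nat_lit 5) (nat_lit 41) (nat_lit 5) (nat_lit 38) (nat_lit 4) (nat_lit 382) (nat_lit 293) (nat_lit 270)) (XT.lf (nat_lit 0) (nat_lit 3511718834) (nat_lit 168) (nat_lit 5373475839) (nat_lit 252) (nat_lit 4621782925) (nat_lit 35) (nat_lit 5) (nat_lit 37) (nat_lit 5) (nat_lit 38) (nat_lit 4) (nat_lit 383) (nat_lit 293) (nat_lit 269)))) (XT.nd (nat_lit 188) (nat_lit 168) (nat_lit 0) (XT.nd (nat_lit 94) (nat_lit 252) (nat_lit 0) (XT.lf (nat_lit 0) (nat_lit 10089763174) (nat_lit 168) (nat_lit 2237636273) (nat_lit 252) (nat_lit 1460672629) (nat_lit 35) (nat_lit 5) (nat_lit 37) (nat_lit 5) (nat_lit 38) (nat_lit 4) (nat_lit 384) (nat_lit 293) (nat_lit 268)) (XT.lf (nat_lit 0) (nat_lit 1737891269) (nat_lit 252) (nat_lit 11358059408) (nat_lit 84) (nat_lit 981855213) (nat_lit 32) (nat_lit 5) (nat_lit 35) (nat_lit 5) (nat_lit 33) (nat_lit 4) (nat_lit 385) (nat_lit 293) (nat_lit 267))) (XT.nd (nat_lit 94) (nat_lit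 168) (nat_lit 0) (XT.lf (nat_lit 0) (nat_lit 5005171445) (nat_lit 252) (nat_lit 5100351365) (nat_lit 84) (nat_lit 4270263751) (nat_lit 32) (nat_lit 5) (nat_lit 35) (nat_lit 5) (nat_lit 33) (nat_lit 4) (nat_lit 386) (nat_lit 293) (nat_lit 266)) (XT.lf (nat_lit 0) (nat_lit 1278374807) (nat_lit 168) (nat_lit 7048313052) (nat_lit 252) (nat_lit 6357382963) (nat_lit 30) (nat_lit 5) (nat_lit 32) (nat_lit 5) (nat_lit 33) (nat_lit 4) (nat_lit 387) (nat_lit 293) (nat_lit 265))))))))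
noncomputable def xc4 : XT := (XT.nd (nat_lit 59126) (nat_lit 0) (nat_lit 0) (XT.nd (nat_lit 57622) (nat_lit 0) (nat_lit 168) (XT.nd (nat_lit 56870) (nat_lit 0) (nat_lit 2688) (XT.nd (nat_lit 56494) (nat_lit 0) (nat_lit 4452) (XT.nd (nat_lit 94) (nat_lit 0) (nat_lit 0) (XT.lf (nat_lit 0) (nat_lit 7862254775) (nat_lit 168) (nat_lit 3881788537) (nat_lit 252) (nat_lit 3257723724) (nat_lit 30) (nat_lit 5) (nat_lit 32) (nat_lit 5) (nat_lit 33) (nat_lit 4) (nat_lit 388) (nat_lit 293) (nat_lit 264)) (XT.nd (nat_lit 56306) (nat_lit 0) (nat_lit 5376) (XT.lf (nat_lit 0) (nat_lit 14555534451) (nat_lit 168) (nat_lit 654685947) (nat_lit 252) (nat_lit 120432506) (nat_lit 30) (nat_lit 5) (nat_lit 32) (nat_lit 5) (nat_lit 33) (nat_lit 4) (nat_lit 389) (nat_lit 293) (nat_lit 263)) (XT.lf (nat_lit 0) (nat_lit 396183663) (nat_lit 420) (nat_lit 1966767924) (nat_lit 420) (nat_lit 1966767924) (nat_lit 94) (nat_lit 4)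 (nat_lit 99) (nat_lit 5) (nat_lit 99) (nat_lit 4) (nat_lit 357) (nat_lit 294) (nat_lit 294)))) (XT.nd (nat_lit 188) (nat_lit 504) (nat_lit 0) (XT.nd (nat_lit 94) (nat_lit 420) (nat_lit 0) (XT.lf (nat_lit 0) (nat_lit 6660209326) (nat_lit 420) (nat_lit 1586143541) (nat_lit 420) (nat_lit 531308913) (nat_lit 94) (nat_lit 4) (nat_lit 99) (nat_lit 5) (nat_lit 99) (nat_lit 4) (nat_lit 358) (nat_lit 294) (nat_lit 293)) (XT.lf (nat_lit 0) (nat_lit 2871959043) (nat_lit 420) (nat_lit 5174482930) (nat_lit 0) (nat_lit 853564948) (nat_lit 89) (nat_lit 5) (nat_lit 94) (nat_lit 4) (nat_lit 89) (nat_lit 4) (nat_lit 359) (nat_lit 294) (nat_lit 292))) (XT.nd (nat_lit 94) (nat_lit 84) (nat_lit 0) (XT.lf (nat_lit 0) (nat_lit 636946427) (nat_lit 420) (nat_lit 5687027046) (nat_lit 420) (nat_lit 2703309838) (nat_lit 84) (nat_lit 4) (nat_lit 89) (nat_lit 5) (nat_lit 89) (nat_lit 4) (nat_lit 360) (nat_lit 294) (nat_lit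 291)) (XT.lf (nat_lit 0) (nat_lit 674205386) (nat_lit 504) (nat_lit 2552287178) (nat_lit 84) (nat_lit 5932794804) (nat_lit 83) (nat_lit 5) (nat_lit 89) (nat_lit 5) (nat_lit 84) (nat_lit 4) (nat_lit 361) (nat_lit 294) (nat_lit 290))))) (XT.nd (nat_lit 376) (nat_lit 672) (nat_lit 0) (XT.nd (nat_lit 188) (nat_lit 756) (nat_lit 0) (XT.nd (nat_lit 94) (nat_lit 0) (nat_lit 0) (XT.lf (nat_lit 0) (nat_lit 3386812373) (nat_lit 336) (nat_lit 661289154) (nat_lit 420) (nat_lit 5247992147) (nat_lit 79) (nat_lit 5) (nat_lit 83) (nat_lit 5) (nat_lit 84) (nat_lit 4) (nat_lit 362) (nat_lit 294) (nat_lit 289)) (XT.lf (nat_lit 0) (nat_lit 7486167189) (nat_lit 420) (nat_lit 13711208) (nat_lit 0) (nat_lit 1938360273) (nat_lit 79) (nat_lit 5) (nat_lit 84) (nat_lit 4) (nat_lit 79) (nat_lit 4) (nat_lit 363) (nat_lit 294) (nat_lit 288))) (XT.nd (nat_lit 94) (nat_lit 336) (nat_lit 0) (XT.lf (nat_lit 0) (nat_lit 1399375578)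 (nat_lit 420) (nat_lit 3539770688) (nat_lit 84) (nat_lit 4645657664) (nat_lit 74) (nat_lit 5) (nat_lit 79) (nat_lit 5) (nat_lit 75) (nat_lit 4) (nat_lit 364) (nat_lit 294) (nat_lit 287)) (XT.lf (nat_lit 0) (nat_lit 2467019001) (nat_lit 336) (nat_lit 2289614014) (nat_lit 420) (nat_lit 4980330894) (nat_lit 70) (nat_lit 5) (nat_lit 74) (nat_lit 5) (nat_lit 75) (nat_lit 4) (nat_lit 365) (nat_lit 294) (nat_lit 286)))) (XT.nd (nat_lit 188) (nat_lit 252) (nat_lit 0) (XT.nd (nat_lit 94) (nat_lit 420) (nat_lit 0) (XT.lf (nat_lit 0) (nat_lit 8176510751) (nat_lit 420) (nat_lit 1283513685) (nat_lit 0) (nat_lit 434916528) (nat_lit 70) (nat_lit 5) (nat_lit 75) (nat_lit 4) (nat_lit 70) (nat_lit 4) (nat_lit 366) (nat_lit 294) (nat_lit 285)) (XT.lf (nat_lit 0) (nat_lit 1602231462) (nat_lit 420) (nat_lit 5228904139) (nat_lit 84) (nat_lit 3226363518) (nat_lit 65) (nat_lit 5) (nat_lit 70) (nat_lit 5) (nat_lit 66)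 (nat_lit 4) (nat_lit 367) (nat_lit 294) (nat_lit 284))) (XT.nd (nat_lit 94) (nat_lit 0) (nat_lit 0) (XT.lf (nat_lit 0) (nat_lit 814442893) (nat_lit 252) (nat_lit 4118644769) (nat_lit 336) (nat_lit 5293082603) (nat_lit 62) (nat_lit 5) (nat_lit 65) (nat_lit 5) (nat_lit 66) (nat_lit 4) (nat_lit 368) (nat_lit 294) (nat_lit 283)) (XT.lf (nat_lit 0) (nat_lit 7037217725) (nat_lit 252) (nat_lit 1304808256) (nat_lit 336) (nat_lit 2058628031) (nat_lit 62) (nat_lit 5) (nat_lit 65) (nat_lit 5) (nat_lit 66) (nat_lit 4) (nat_lit 369) (nat_lit 294) (nat_lit 282)))))) (XT.nd (nat_lit 752) (nat_lit 924) (nat_lit 0) (XT.nd (nat_lit 376) (nat_lit 840) (nat_lit 0) (XT.nd (nat_lit 188) (nat_lit 336) (nat_lit 0) (XT.nd (nat_lit 94) (nat_lit 0) (nat_lit 0) (XT.lf (nat_lit 0) (nat_lit 1217045355) (nat_lit 420) (nat_lit 7795566108) (nat_lit 84) (nat_lit 1568414626) (nat_lit 57) (nat_lit 5) (nat_lit 62) (nat_lit 5) (nat_lit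 58) (nat_lit 4) (nat_lit 370) (nat_lit 294) (nat_lit 281)) (XT.lf (nat_lit 0) (nat_lit 4524333658) (nat_lit 420) (nat_lit 1719963152) (nat_lit 84) (nat_lit 4522748328) (nat_lit 57) (nat_lit 5) (nat_lit 62) (nat_lit 5) (nat_lit 58) (nat_lit 4) (nat_lit 371) (nat_lit 294) (nat_lit 280))) (XT.nd (nat_lit 94) (nat_lit 84) (nat_lit 0) (XT.lf (nat_lit 0) (nat_lit 4520977570) (nat_lit 252) (nat_lit 3382934853) (nat_lit 336) (nat_lit 3055626505) (nat_lit 54) (nat_lit 5) (nat_lit 57) (nat_lit 5) (nat_lit 58) (nat_lit 4) (nat_lit 372) (nat_lit 294) (nat_lit 279)) (XT.lf (nat_lit 0) (nat_lit 170074224) (nat_lit 336) (nat_lit 280833724) (nat_lit 84) (nat_lit 10708492447) (nat_lit 53) (nat_lit 5) (nat_lit 57) (nat_lit 5) (nat_lit 54) (nat_lit 5) (nat_lit 373) (nat_lit 294) (nat_lit 278)))) (XT.nd (nat_lit 188) (nat_lit 336) (nat_lit 0) (XT.nd (nat_lit 94) (nat_lit 252) (nat_lit 0) (XT.lf (nat_lit 0) (nat_lit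 3446432173) (nat_lit 336) (nat_lit 5343119831) (nat_lit 84) (nat_lit 2574418049) (nat_lit 50) (nat_lit 5) (nat_lit 54) (nat_lit 5) (nat_lit 51) (nat_lit 4) (nat_lit 374) (nat_lit 294) (nat_lit 277)) (XT.lf (nat_lit 0) (nat_lit 851602032) (nat_lit 252) (nat_lit 5917604597) (nat_lit 336) (nat_lit 4807103099) (nat_lit 47) (nat_lit 5) (nat_lit 50) (nat_lit 5) (nat_lit 51) (nat_lit 4) (nat_lit 375) (nat_lit 294) (nat_lit 276))) (XT.nd (nat_lit 94) (nat_lit 336) (nat_lit 0) (XT.lf (nat_lit 0) (nat_lit 7239433694) (nat_lit 252) (nat_lit 2939776710) (nat_lit 336) (nat_lit 1616257271) (nat_lit 47) (nat_lit 5) (nat_lit 50) (nat_lit 5) (nat_lit 51) (nat_lit 4) (nat_lit 376) (nat_lit 294) (nat_lit 275)) (XT.lf (nat_lit 0) (nat_lit 1590222210) (nat_lit 336) (nat_lit 10309006358) (nat_lit 84) (nat_lit 122985237) (nat_lit 43) (nat_lit 5) (nat_lit 47) (nat_lit 5) (nat_lit 44) (nat_lit 4) (nat_lit 377) (nat_lit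 294) (nat_lit 274))))) (XT.nd (nat_lit 376) (nat_lit 420) (nat_lit 0) (XT.nd (nat_lit 188) (nat_lit 336) (nat_lit 0) (XT.nd (nat_lit 94) (nat_lit 168) (nat_lit 0) (XT.lf (nat_lit 0) (nat_lit 4871396244) (nat_lit 336) (nat_lit 4137344324) (nat_lit 84) (nat_lit 3246280259) (nat_lit 43) (nat_lit 5) (nat_lit 47) (nat_lit 5) (nat_lit 44) (nat_lit 4) (nat_lit 378) (nat_lit 294) (nat_lit 273)) (XT.lf (nat_lit 0) (nat_lit 2163314833) (nat_lit 168) (nat_lit 6045782969) (nat_lit 252) (nat_lit 4287037651) (nat_lit 41) (nat_lit 5) (nat_lit 43) (nat_lit 5) (nat_lit 44) (nat_lit 4) (nat_lit 379) (nat_lit 294) (nat_lit 272))) (XT.nd (nat_lit 94) (nat_lit 336) (nat_lit 0) (XT.lf (nat_lit 0) (nat_lit 8640402849) (nat_lit 168) (nat_lit 2986493825) (nat_lit 252) (nat_lit 1118252088) (nat_lit 41) (nat_lit 5) (nat_lit 43) (nat_lit 5) (nat_lit 44) (nat_lit 4) (nat_lit 380) (nat_lit 294) (nat_lit 271)) (XT.lf (nat_lit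 0) (nat_lit 2066229047) (nat_lit 336) (nat_lit 10766538177) (nat_lit 84) (nat_lit 169432039) (nat_lit 37) (nat_lit 5) (nat_lit 41) (nat_lit 5) (nat_lit 38) (nat_lit 4) (nat_lit 381) (nat_lit 294) (nat_lit 270)))) (XT.nd (nat_lit 188) (nat_lit 252) (nat_lit 0) (XT.nd (nat_lit 94) (nat_lit 168) (nat_lit 0) (XT.lf (nat_lit 0) (nat_lit 5335048253) (nat_lit 336) (nat_lit 4552755480) (nat_lit 84) (nat_lit 3378545794) (nat_lit 37) (nat_lit 5) (nat_lit 41) (nat_lit 5) (nat_lit 38) (nat_lit 4) (nat_lit 382) (nat_lit 294) (nat_lit 269)) (XT.lf (nat_lit 0) (nat_lit 1788743766) (nat_lit 168) (nat_lit 6871984584) (nat_lit 252) (nat_lit 4878989130) (nat_lit 35) (nat_lit 5) (nat_lit 37) (nat_lit 5) (nat_lit 38) (nat_lit 4) (nat_lit 383) (nat_lit 294) (nat_lit 268))) (XT.nd (nat_lit 94) (nat_lit 252) (nat_lit 0) (XT.lf (nat_lit 0) (nat_lit 8321130914) (nat_lit 168) (nat_lit 3753433638) (nat_lit 252) (nat_lit 1747125758)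 (nat_lit 35) (nat_lit 5) (nat_lit 37) (nat_lit 5) (nat_lit 38) (nat_lit 4) (nat_lit 384) (nat_lit 294) (nat_lit 267)) (XT.lf (nat_lit 0) (nat_lit 848549915) (nat_lit 168) (nat_lit 552928548) (nat_lit 252) (nat_lit 12711720478) (nat_lit 32) (nat_lit 5) (nat_lit 34) (nat_lit 5) (nat_lit 35) (nat_lit 5) (nat_lit 385) (nat_lit 294) (nat_lit 266))))))) (XT.nd (nat_lit 57528) (nat_lit 0) (nat_lit 588) (XT.nd (nat_lit 56776) (nat_lit 0) (nat_lit 3360) (XT.nd (nat_lit 56400) (nat_lit 0) (nat_lit 5292) (XT.nd (nat_lit 188) (nat_lit 168) (nat_lit 0) (XT.nd (nat_lit 94) (nat_lit 0) (nat_lit 0) (XT.lf (nat_lit 0) (nat_lit 4635822525) (nat_lit 252) (nat_lit 7046778019) (nat_lit 84) (nat_lit 2729592131) (nat_lit 32) (nat_lit 5) (nat_lit 35) (nat_lit 5) (nat_lit 33) (nat_lit 4) (nat_lit 386) (nat_lit 294) (nat_lit 265)) (XT.lf (nat_lit 0) (nat_lit 7918233887) (nat_lit 252) (nat_lit 736834555) (nat_lit 84) (nat_lit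 6066605898) (nat_lit 32) (nat_lit 5) (nat_lit 35) (nat_lit 5) (nat_lit 33) (nat_lit 4) (nat_lit 387) (nat_lit 294) (nat_lit 264))) (XT.nd (nat_lit 94) (nat_lit 0) (nat_lit 0) (XT.lf (nat_lit 0) (nat_lit 5788973722) (nat_lit 168) (nat_lit 5512939024) (nat_lit 252) (nat_lit 3738491649) (nat_lit 30) (nat_lit 5) (nat_lit 32) (nat_lit 5) (nat_lit 33) (nat_lit 4) (nat_lit 388) (nat_lit 294) (nat_lit 263)) (XT.lf (nat_lit 0) (nat_lit 12440110449) (nat_lit 168) (nat_lit 2302297126) (nat_lit 252) (nat_lit 627676015) (nat_lit 30) (nat_lit 5) (nat_lit 32) (nat_lit 5) (nat_lit 33) (nat_lit 4) (nat_lit 389) (nat_lit 294) (nat_lit 262)))) (XT.nd (nat_lit 188) (nat_lit 504) (nat_lit 0) (XT.nd (nat_lit 94) (nat_lit 504) (nat_lit 0) (XT.lf (nat_lit 0) (nat_lit 3193295536) (nat_lit 504) (nat_lit 512280335) (nat_lit 504) (nat_lit 512280335) (nat_lit 105) (nat_lit 4) (nat_lit 111) (nat_lit 5) (nat_lit 111) (nat_lit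 4) (nat_lit 355) (nat_lit 295) (nat_lit 295)) (XT.lf (nat_lit 0) (nat_lit 2356424703) (nat_lit 504) (nat_lit 4919578244) (nat_lit 0) (nat_lit 1269945036) (nat_lit 99) (nat_lit 5) (nat_lit 105) (nat_lit 4) (nat_lit 99) (nat_lit 4) (nat_lit 356) (nat_lit 295) (nat_lit 294))) (XT.nd (nat_lit 94) (nat_lit 84) (nat_lit 0) (XT.lf (nat_lit 0) (nat_lit 735072514) (nat_lit 420) (nat_lit 5033534326) (nat_lit 420) (nat_lit 2892220030) (nat_lit 94) (nat_lit 4) (nat_lit 99) (nat_lit 5) (nat_lit 99) (nat_lit 4) (nat_lit 357) (nat_lit 295) (nat_lit 293)) (XT.lf (nat_lit 0) (nat_lit 457062075) (nat_lit 504) (nat_lit 2237589572) (nat_lit 84) (nat_lit 6085610974) (nat_lit 93) (nat_lit 5) (nat_lit 99) (nat_lit 5) (nat_lit 94) (nat_lit 4) (nat_lit 358) (nat_lit 295) (nat_lit 292))))) (XT.nd (nat_lit 376) (nat_lit 756) (nat_lit 0) (XT.nd (nat_lit 188) (nat_lit 420) (nat_lit 0) (XT.nd (nat_lit 94) (nat_lit 420) (nat_lit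 0) (XT.lf (nat_lit 0) (nat_lit 3550408802) (nat_lit 336) (nat_lit 247678485) (nat_lit 420) (nat_lit 5105991747) (nat_lit 89) (nat_lit 5) (nat_lit 93) (nat_lit 5) (nat_lit 94) (nat_lit 4) (nat_lit 359) (nat_lit 295) (nat_lit 291)) (XT.lf (nat_lit 0) (nat_lit 399979713) (nat_lit 420) (nat_lit 6804287864) (nat_lit 420) (nat_lit 1828529123) (nat_lit 84) (nat_lit 4) (nat_lit 89) (nat_lit 5) (nat_lit 89) (nat_lit 4) (nat_lit 360) (nat_lit 295) (nat_lit 290))) (XT.nd (nat_lit 94) (nat_lit 336) (nat_lit 0) (XT.lf (nat_lit 0) (nat_lit 1490947111) (nat_lit 504) (nat_lit 2859045721) (nat_lit 84) (nat_lit 4815847172) (nat_lit 83) (nat_lit 5) (nat_lit 89) (nat_lit 5) (nat_lit 84) (nat_lit 4) (nat_lit 361) (nat_lit 295) (nat_lit 289)) (XT.lf (nat_lit 0) (nat_lit 3018626962) (nat_lit 336) (nat_lit 1802901468) (nat_lit 420) (nat_lit 4482477955) (nat_lit 79) (nat_lit 5) (nat_lit 83) (nat_lit 5) (nat_lit 84) (nat_lit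 4) (nat_lit 362) (nat_lit 295) (nat_lit 288)))) (XT.nd (nat_lit 188) (nat_lit 336) (nat_lit 0) (XT.nd (nat_lit 94) (nat_lit 420) (nat_lit 0) (XT.lf (nat_lit 0) (nat_lit 8209346707) (nat_lit 420) (nat_lit 433638654) (nat_lit 0) (nat_lit 804732305) (nat_lit 79) (nat_lit 5) (nat_lit 84) (nat_lit 4) (nat_lit 79) (nat_lit 4) (nat_lit 363) (nat_lit 295) (nat_lit 287)) (XT.lf (nat_lit 0) (nat_lit 2055901558) (nat_lit 420) (nat_lit 4039577147) (nat_lit 84) (nat_lit 3499951320) (nat_lit 74) (nat_lit 5) (nat_lit 79) (nat_lit 5) (nat_lit 75) (nat_lit 4) (nat_lit 364) (nat_lit 295) (nat_lit 286))) (XT.nd (nat_lit 94) (nat_lit 0) (nat_lit 0) (XT.lf (nat_lit 0) (nat_lit 1902706238) (nat_lit 336) (nat_lit 3467076804) (nat_lit 420) (nat_lit 4379162110) (nat_lit 70) (nat_lit 5) (nat_lit 74) (nat_lit 5) (nat_lit 75) (nat_lit 4) (nat_lit 365) (nat_lit 295) (nat_lit 285)) (XT.lf (nat_lit 0) (nat_lit 7998536247) (nat_lit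 336) (nat_lit 749505410) (nat_lit 420) (nat_lit 1160181424) (nat_lit 70) (nat_lit 5) (nat_lit 74) (nat_lit 5) (nat_lit 75) (nat_lit 4) (nat_lit 366) (nat_lit 295) (nat_lit 284)))))) (XT.nd (nat_lit 752) (nat_lit 1092) (nat_lit 0) (XT.nd (nat_lit 376) (nat_lit 588) (nat_lit 0) (XT.nd (nat_lit 188) (nat_lit 420) (nat_lit 0) (XT.nd (nat_lit 94) (nat_lit 252) (nat_lit 0) (XT.lf (nat_lit 0) (nat_lit 2098840102) (nat_lit 420) (nat_lit 5933362460) (nat_lit 84) (nat_lit 2039989386) (nat_lit 65) (nat_lit 5) (nat_lit 70) (nat_lit 5) (nat_lit 66) (nat_lit 4) (nat_lit 367) (nat_lit 295) (nat_lit 283)) (XT.lf (nat_lit 0) (nat_lit 42240322) (nat_lit 252) (nat_lit 5343778468) (nat_lit 336) (nat_lit 4856202491) (nat_lit 62) (nat_lit 5) (nat_lit 65) (nat_lit 5) (nat_lit 66) (nat_lit 4) (nat_lit 368) (nat_lit 295) (nat_lit 282))) (XT.nd (nat_lit 94) (nat_lit 420) (nat_lit 0) (XT.lf (nat_lit 0) (nat_lit 6212855787)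 (nat_lit 252) (nat_lit 2546401266) (nat_lit 336) (nat_lit 1658565444) (nat_lit 62) (nat_lit 5) (nat_lit 65) (nat_lit 5) (nat_lit 66) (nat_lit 4) (nat_lit 369) (nat_lit 295) (nat_lit 281)) (XT.lf (nat_lit 0) (nat_lit 1553320953) (nat_lit 420) (nat_lit 8716442055) (nat_lit 84) (nat_lit 330039408) (nat_lit 57) (nat_lit 5) (nat_lit 62) (nat_lit 5) (nat_lit 58) (nat_lit 4) (nat_lit 370) (nat_lit 295) (nat_lit 280)))) (XT.nd (nat_lit 188) (nat_lit 336) (nat_lit 0) (XT.nd (nat_lit 94) (nat_lit 252) (nat_lit 0) (XT.lf (nat_lit 0) (nat_lit 4825936060) (nat_lit 420) (nat_lit 2692637561) (nat_lit 84) (nat_lit 3268330564) (nat_lit 57) (nat_lit 5) (nat_lit 62) (nat_lit 5) (nat_lit 58) (nat_lit 4) (nat_lit 371) (nat_lit 295) (nat_lit 279)) (XT.lf (nat_lit 0) (nat_lit 3477654400) (nat_lit 252) (nat_lit 4684168069) (nat_lit 336) (nat_lit 2818927563) (nat_lit 54) (nat_lit 5) (nat_lit 57) (nat_lit 5) (nat_lit 58)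 (nat_lit 4) (nat_lit 372) (nat_lit 295) (nat_lit 278))) (XT.nd (nat_lit 94) (nat_lit 252) (nat_lit 0) (XT.lf (nat_lit 0) (nat_lit 368625195) (nat_lit 336) (nat_lit 1398146235) (nat_lit 84) (nat_lit 9414816598) (nat_lit 53) (nat_lit 5) (nat_lit 57) (nat_lit 5) (nat_lit 54) (nat_lit 5) (nat_lit 373) (nat_lit 295) (nat_lit 277)) (XT.lf (nat_lit 0) (nat_lit 3588075338) (nat_lit 336) (nat_lit 6543301393) (nat_lit 84) (nat_lit 1256525972) (nat_lit 50) (nat_lit 5) (nat_lit 54) (nat_lit 5) (nat_lit 51) (nat_lit 4) (nat_lit 374) (nat_lit 295) (nat_lit 276))))) (XT.nd (nat_lit 376) (nat_lit 504) (nat_lit 0) (XT.nd (nat_lit 188) (nat_lit 336) (nat_lit 0) (XT.nd (nat_lit 94) (nat_lit 252) (nat_lit 0) (XT.lf (nat_lit 0) (nat_lit 6870434140) (nat_lit 336) (nat_lit 414589029) (nat_lit 84) (nat_lit 4316468362) (nat_lit 50) (nat_lit 5) (nat_lit 54) (nat_lit 5) (nat_lit 51) (nat_lit 4) (nat_lit 375) (nat_lit 295)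 (nat_lit 275)) (XT.lf (nat_lit 0) (nat_lit 5916084054) (nat_lit 252) (nat_lit 4328528323) (nat_lit 336) (nat_lit 1577147480) (nat_lit 47) (nat_lit 5) (nat_lit 50) (nat_lit 5) (nat_lit 51) (nat_lit 4) (nat_lit 376) (nat_lit 295) (nat_lit 274))) (XT.nd (nat_lit 94) (nat_lit 0) (nat_lit 0) (XT.lf (nat_lit 0) (nat_lit 288468598) (nat_lit 252) (nat_lit 1294012022) (nat_lit 336) (nat_lit 10467430304) (nat_lit 43) (nat_lit 5) (nat_lit 46) (nat_lit 5) (nat_lit 47) (nat_lit 5) (nat_lit 377) (nat_lit 295) (nat_lit 273)) (XT.lf (nat_lit 0) (nat_lit 4820327739) (nat_lit 336) (nat_lit 5625798010) (nat_lit 84) (nat_lit 1837924596) (nat_lit 43) (nat_lit 5) (nat_lit 47) (nat_lit 5) (nat_lit 44) (nat_lit 4) (nat_lit 378) (nat_lit 295) (nat_lit 272)))) (XT.nd (nat_lit 188) (nat_lit 336) (nat_lit 0) (XT.nd (nat_lit 94) (nat_lit 0) (nat_lit 0) (XT.lf (nat_lit 0) (nat_lit 597256513) (nat_lit 168) (nat_lit 7515730447)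 (nat_lit 252) (nat_lit 4413560923) (nat_lit 41) (nat_lit 5) (nat_lit 43) (nat_lit 5) (nat_lit 44) (nat_lit 4) (nat_lit 379) (nat_lit 295) (nat_lit 271)) (XT.lf (nat_lit 0) (nat_lit 7027760560) (nat_lit 168) (nat_lit 4473462501) (nat_lit 252) (nat_lit 1275255736) (nat_lit 41) (nat_lit 5) (nat_lit 43) (nat_lit 5) (nat_lit 44) (nat_lit 4) (nat_lit 380) (nat_lit 295) (nat_lit 270))) (XT.nd (nat_lit 94) (nat_lit 0) (nat_lit 0) (XT.lf (nat_lit 0) (nat_lit 515474926) (nat_lit 252) (nat_lit 1349586013) (nat_lit 336) (nat_lit 11169959437) (nat_lit 37) (nat_lit 5) (nat_lit 40) (nat_lit 5) (nat_lit 41) (nat_lit 5) (nat_lit 381) (nat_lit 295) (nat_lit 269)) (XT.lf (nat_lit 0) (nat_lit 5092139522) (nat_lit 336) (nat_lit 6338898951) (nat_lit 84) (nat_lit 1869412500) (nat_lit 37) (nat_lit 5) (nat_lit 41) (nat_lit 5) (nat_lit 38) (nat_lit 4) (nat_lit 382) (nat_lit 295) (nat_lit 268))))))))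
noncomputable def xc5 : XT := (XT.nd (nat_lit 58750) (nat_lit 0) (nat_lit 0) (XT.nd (nat_lit 57246) (nat_lit 0) (nat_lit 1428) (XT.nd (nat_lit 56494) (nat_lit 0) (nat_lit 4536) (XT.nd (nat_lit 282) (nat_lit 336) (nat_lit 0) (XT.nd (nat_lit 94) (nat_lit 252) (nat_lit 0) (XT.lf (nat_lit 0) (nat_lit 8372695432) (nat_lit 336) (nat_lit 77070793) (nat_lit 84) (nat_lit 5125433721) (nat_lit 37) (nat_lit 5) (nat_lit 41) (nat_lit 5) (nat_lit 38) (nat_lit 4) (nat_lit 383) (nat_lit 295) (nat_lit 267)) (XT.nd (nat_lit 94) (nat_lit 84) (nat_lit 0) (XT.lf (nat_lit 0) (nat_lit 6409455123) (nat_lit 168) (nat_lit 5348778611) (nat_lit 252) (nat_lit 2099814479) (nat_lit 35) (nat_lit 5) (nat_lit 37) (nat_lit 5) (nat_lit 38) (nat_lit 4) (nat_lit 384) (nat_lit 295) (nat_lit 266)) (XT.lf (nat_lit 0) (nat_lit 1020485110) (nat_lit 252) (nat_lit 1156250996) (nat_lit 84) (nat_lit 11974003031) (nat_lit 34) (nat_lit 5) (nat_lit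 37) (nat_lit 5) (nat_lit 35) (nat_lit 5) (nat_lit 385) (nat_lit 295) (nat_lit 265)))) (XT.nd (nat_lit 188) (nat_lit 168) (nat_lit 0) (XT.nd (nat_lit 94) (nat_lit 0) (nat_lit 0) (XT.lf (nat_lit 0) (nat_lit 4200955577) (nat_lit 252) (nat_lit 9140586607) (nat_lit 84) (nat_lit 1109831145) (nat_lit 32) (nat_lit 5) (nat_lit 35) (nat_lit 5) (nat_lit 33) (nat_lit 4) (nat_lit 386) (nat_lit 295) (nat_lit 264)) (XT.lf (nat_lit 0) (nat_lit 7457331471) (nat_lit 252) (nat_lit 2873203349) (nat_lit 84) (nat_lit 4431124782) (nat_lit 32) (nat_lit 5) (nat_lit 35) (nat_lit 5) (nat_lit 33) (nat_lit 4) (nat_lit 387) (nat_lit 295) (nat_lit 263))) (XT.nd (nat_lit 94) (nat_lit 0) (nat_lit 0) (XT.lf (nat_lit 0) (nat_lit 3567944052) (nat_lit 168) (nat_lit 7226439230) (nat_lit 252) (nat_lit 4287428048) (nat_lit 30) (nat_lit 5) (nat_lit 32) (nat_lit 5) (nat_lit 33) (nat_lit 4) (nat_lit 388) (nat_lit 295) (nat_lit 262)) (XT.lf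 (nat_lit 0) (nat_lit 10178165293) (nat_lit 168) (nat_lit 4031778586) (nat_lit 252) (nat_lit 1202316865) (nat_lit 30) (nat_lit 5) (nat_lit 32) (nat_lit 5) (nat_lit 33) (nat_lit 4) (nat_lit 389) (nat_lit 295) (nat_lit 261))))) (XT.nd (nat_lit 376) (nat_lit 1260) (nat_lit 0) (XT.nd (nat_lit 188) (nat_lit 504) (nat_lit 0) (XT.nd (nat_lit 94) (nat_lit 504) (nat_lit 0) (XT.lf (nat_lit 0) (nat_lit 858737181) (nat_lit 504) (nat_lit 2395569478) (nat_lit 0) (nat_lit 858737181) (nat_lit 111) (nat_lit 5) (nat_lit 117) (nat_lit 4) (nat_lit 111) (nat_lit 4) (nat_lit 353) (nat_lit 296) (nat_lit 296)) (XT.lf (nat_lit 0) (nat_lit 694411943) (nat_lit 504) (nat_lit 4393800179) (nat_lit 504) (nat_lit 3241153900) (nat_lit 105) (nat_lit 4) (nat_lit 111) (nat_lit 5) (nat_lit 111) (nat_lit 4) (nat_lit 354) (nat_lit 296) (nat_lit 295))) (XT.nd (nat_lit 94) (nat_lit 420) (nat_lit 0) (XT.lf (nat_lit 0) (nat_lit 81724911)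 (nat_lit 588) (nat_lit 2105818765) (nat_lit 84) (nat_lit 6249524445) (nat_lit 104) (nat_lit 5) (nat_lit 111) (nat_lit 5) (nat_lit 105) (nat_lit 4) (nat_lit 355) (nat_lit 296) (nat_lit 294)) (XT.lf (nat_lit 0) (nat_lit 3387751504) (nat_lit 504) (nat_lit 5033617118) (nat_lit 0) (nat_lit 127363151) (nat_lit 99) (nat_lit 5) (nat_lit 105) (nat_lit 4) (nat_lit 99) (nat_lit 4) (nat_lit 356) (nat_lit 296) (nat_lit 293)))) (XT.nd (nat_lit 188) (nat_lit 756) (nat_lit 0) (XT.nd (nat_lit 94) (nat_lit 84) (nat_lit 0) (XT.lf (nat_lit 0) (nat_lit 563138010) (nat_lit 420) (nat_lit 6193176628) (nat_lit 420) (nat_lit 1908676986) (nat_lit 94) (nat_lit 4) (nat_lit 99) (nat_lit 5) (nat_lit 99) (nat_lit 4) (nat_lit 357) (nat_lit 296) (nat_lit 292)) (XT.lf (nat_lit 0) (nat_lit 1379672110) (nat_lit 504) (nat_lit 2478048063) (nat_lit 84) (nat_lit 4927744025) (nat_lit 93) (nat_lit 5) (nat_lit 99) (nat_lit 5) (nat_lit 94)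 (nat_lit 4) (nat_lit 358) (nat_lit 296) (nat_lit 291))) (XT.nd (nat_lit 94) (nat_lit 420) (nat_lit 0) (XT.lf (nat_lit 0) (nat_lit 3250798183) (nat_lit 336) (nat_lit 1426494301) (nat_lit 420) (nat_lit 4233356524) (nat_lit 89) (nat_lit 5) (nat_lit 93) (nat_lit 5) (nat_lit 94) (nat_lit 4) (nat_lit 359) (nat_lit 296) (nat_lit 290)) (XT.lf (nat_lit 0) (nat_lit 44270841) (nat_lit 420) (nat_lit 7984474994) (nat_lit 420) (nat_lit 1012326970) (nat_lit 84) (nat_lit 4) (nat_lit 89) (nat_lit 5) (nat_lit 89) (nat_lit 4) (nat_lit 360) (nat_lit 296) (nat_lit 289)))))) (XT.nd (nat_lit 752) (nat_lit 1512) (nat_lit 0) (XT.nd (nat_lit 376) (nat_lit 756) (nat_lit 0) (XT.nd (nat_lit 188) (nat_lit 420) (nat_lit 0) (XT.nd (nat_lit 94) (nat_lit 336) (nat_lit 0) (XT.lf (nat_lit 0) (nat_lit 2251446621) (nat_lit 504) (nat_lit 3285118777) (nat_lit 84) (nat_lit 3638569234) (nat_lit 83) (nat_lit 5) (nat_lit 89) (nat_lit 5)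 (nat_lit 84) (nat_lit 4) (nat_lit 361) (nat_lit 296) (nat_lit 288)) (XT.lf (nat_lit 0) (nat_lit 2530363759) (nat_lit 336) (nat_lit 3008353610) (nat_lit 420) (nat_lit 3775941825) (nat_lit 79) (nat_lit 5) (nat_lit 83) (nat_lit 5) (nat_lit 84) (nat_lit 4) (nat_lit 362) (nat_lit 296) (nat_lit 287))) (XT.nd (nat_lit 94) (nat_lit 420) (nat_lit 0) (XT.lf (nat_lit 0) (nat_lit 8481795952) (nat_lit 336) (nat_lit 398856584) (nat_lit 420) (nat_lit 579151581) (nat_lit 79) (nat_lit 5) (nat_lit 83) (nat_lit 5) (nat_lit 84) (nat_lit 4) (nat_lit 363) (nat_lit 296) (nat_lit 286)) (XT.lf (nat_lit 0) (nat_lit 2655081907) (nat_lit 420) (nat_lit 4662971695) (nat_lit 84) (nat_lit 2290741898) (nat_lit 74) (nat_lit 5) (nat_lit 79) (nat_lit 5) (nat_lit 75) (nat_lit 4) (nat_lit 364) (nat_lit 296) (nat_lit 285)))) (XT.nd (nat_lit 188) (nat_lit 420) (nat_lit 0) (XT.nd (nat_lit 94) (nat_lit 0) (nat_lit 0) (XT.lf (nat_lit 0)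 (nat_lit 1213934842) (nat_lit 336) (nat_lit 4711561605) (nat_lit 420) (nat_lit 3838170488) (nat_lit 70) (nat_lit 5) (nat_lit 74) (nat_lit 5) (nat_lit 75) (nat_lit 4) (nat_lit 365) (nat_lit 296) (nat_lit 284)) (XT.lf (nat_lit 0) (nat_lit 7258337596) (nat_lit 336) (nat_lit 2009150250) (nat_lit 420) (nat_lit 656595811) (nat_lit 70) (nat_lit 5) (nat_lit 74) (nat_lit 5) (nat_lit 75) (nat_lit 4) (nat_lit 366) (nat_lit 296) (nat_lit 283))) (XT.nd (nat_lit 94) (nat_lit 0) (nat_lit 0) (XT.lf (nat_lit 0) (nat_lit 2536750105) (nat_lit 420) (nat_lit 6765886397) (nat_lit 84) (nat_lit 786994124) (nat_lit 65) (nat_lit 5) (nat_lit 70) (nat_lit 5) (nat_lit 66) (nat_lit 4) (nat_lit 367) (nat_lit 296) (nat_lit 282)) (XT.lf (nat_lit 0) (nat_lit 5788324086) (nat_lit 420) (nat_lit 842249425) (nat_lit 84) (nat_lit 3630201058) (nat_lit 65) (nat_lit 5) (nat_lit 70) (nat_lit 5) (nat_lit 66) (nat_lit 4) (nat_lit 368) (nat_lit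 296) (nat_lit 281))))) (XT.nd (nat_lit 376) (nat_lit 588) (nat_lit 0) (XT.nd (nat_lit 188) (nat_lit 252) (nat_lit 0) (XT.nd (nat_lit 94) (nat_lit 420) (nat_lit 0) (XT.lf (nat_lit 0) (nat_lit 5260963461) (nat_lit 252) (nat_lit 3857681291) (nat_lit 336) (nat_lit 1319063675) (nat_lit 62) (nat_lit 5) (nat_lit 65) (nat_lit 5) (nat_lit 66) (nat_lit 4) (nat_lit 369) (nat_lit 296) (nat_lit 280)) (XT.lf (nat_lit 0) (nat_lit 841368374) (nat_lit 336) (nat_lit 997518616) (nat_lit 420) (nat_lit 8782165301) (nat_lit 57) (nat_lit 5) (nat_lit 61) (nat_lit 5) (nat_lit 62) (nat_lit 5) (nat_lit 370) (nat_lit 296) (nat_lit 279))) (XT.nd (nat_lit 94) (nat_lit 252) (nat_lit 0) (XT.lf (nat_lit 0) (nat_lit 5068250041) (nat_lit 420) (nat_lit 3796580433) (nat_lit 84) (nat_lit 1944662433) (nat_lit 57) (nat_lit 5) (nat_lit 62) (nat_lit 5) (nat_lit 58) (nat_lit 4) (nat_lit 371) (nat_lit 296) (nat_lit 278)) (XT.lf (nat_lit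 0) (nat_lit 2301944168) (nat_lit 252) (nat_lit 6058207823) (nat_lit 336) (nat_lit 2644546380) (nat_lit 54) (nat_lit 5) (nat_lit 57) (nat_lit 5) (nat_lit 58) (nat_lit 4) (nat_lit 372) (nat_lit 296) (nat_lit 277)))) (XT.nd (nat_lit 188) (nat_lit 252) (nat_lit 0) (XT.nd (nat_lit 94) (nat_lit 252) (nat_lit 0) (XT.lf (nat_lit 0) (nat_lit 507051027) (nat_lit 336) (nat_lit 2648513049) (nat_lit 84) (nat_lit 8050936362) (nat_lit 53) (nat_lit 5) (nat_lit 57) (nat_lit 5) (nat_lit 54) (nat_lit 5) (nat_lit 373) (nat_lit 296) (nat_lit 276)) (XT.lf (nat_lit 0) (nat_lit 3533486917) (nat_lit 252) (nat_lit 136365756) (nat_lit 336) (nat_lit 7744698580) (nat_lit 50) (nat_lit 5) (nat_lit 53) (nat_lit 5) (nat_lit 54) (nat_lit 5) (nat_lit 374) (nat_lit 296) (nat_lit 275))) (XT.nd (nat_lit 94) (nat_lit 252) (nat_lit 0) (XT.lf (nat_lit 0) (nat_lit 6919609832) (nat_lit 336) (nat_lit 1798994224) (nat_lit 84) (nat_lit 2910549685)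 (nat_lit 50) (nat_lit 5) (nat_lit 54) (nat_lit 5) (nat_lit 51) (nat_lit 4) (nat_lit 375) (nat_lit 296) (nat_lit 274)) (XT.lf (nat_lit 0) (nat_lit 4456643525) (nat_lit 252) (nat_lit 5792736082) (nat_lit 336) (nat_lit 1601409292) (nat_lit 47) (nat_lit 5) (nat_lit 50) (nat_lit 5) (nat_lit 51) (nat_lit 4) (nat_lit 376) (nat_lit 296) (nat_lit 273))))))) (XT.nd (nat_lit 57152) (nat_lit 0) (nat_lit 2688) (XT.nd (nat_lit 752) (nat_lit 420) (nat_lit 0) (XT.nd (nat_lit 376) (nat_lit 504) (nat_lit 0) (XT.nd (nat_lit 188) (nat_lit 168) (nat_lit 0) (XT.nd (nat_lit 94) (nat_lit 252) (nat_lit 0) (XT.lf (nat_lit 0) (nat_lit 1525652249) (nat_lit 336) (nat_lit 1252131736) (nat_lit 84) (nat_lit 9302186769) (nat_lit 46) (nat_lit 5) (nat_lit 50) (nat_lit 5) (nat_lit 47) (nat_lit 5) (nat_lit 377) (nat_lit 296) (nat_lit 272)) (XT.lf (nat_lit 0) (nat_lit 4706850673) (nat_lit 336) (nat_lit 7254407055) (nat_lit 84) (nat_lit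 354583551) (nat_lit 43) (nat_lit 5) (nat_lit 47) (nat_lit 5) (nat_lit 44) (nat_lit 4) (nat_lit 378) (nat_lit 296) (nat_lit 271))) (XT.nd (nat_lit 94) (nat_lit 168) (nat_lit 0) (XT.lf (nat_lit 0) (nat_lit 7964653721) (nat_lit 336) (nat_lit 1088682104) (nat_lit 84) (nat_lit 3506079396) (nat_lit 43) (nat_lit 5) (nat_lit 47) (nat_lit 5) (nat_lit 44) (nat_lit 4) (nat_lit 379) (nat_lit 296) (nat_lit 270)) (XT.lf (nat_lit 0) (nat_lit 5274927879) (nat_lit 168) (nat_lit 6038586868) (nat_lit 252) (nat_lit 1497042465) (nat_lit 41) (nat_lit 5) (nat_lit 43) (nat_lit 5) (nat_lit 44) (nat_lit 4) (nat_lit 380) (nat_lit 296) (nat_lit 269)))) (XT.nd (nat_lit 188) (nat_lit 168) (nat_lit 0) (XT.nd (nat_lit 94) (nat_lit 252) (nat_lit 0) (XT.lf (nat_lit 0) (nat_lit 1614476971) (nat_lit 252) (nat_lit 1323861603) (nat_lit 84) (nat_lit 10131846044) (nat_lit 40) (nat_lit 5) (nat_lit 43) (nat_lit 5) (nat_lit 41) (nat_lit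 5) (nat_lit 381) (nat_lit 296) (nat_lit 268)) (XT.lf (nat_lit 0) (nat_lit 4785246262) (nat_lit 336) (nat_lit 8269502225) (nat_lit 84) (nat_lit 282583301) (nat_lit 37) (nat_lit 5) (nat_lit 41) (nat_lit 5) (nat_lit 38) (nat_lit 4) (nat_lit 382) (nat_lit 296) (nat_lit 267))) (XT.nd (nat_lit 94) (nat_lit 168) (nat_lit 0) (XT.lf (nat_lit 0) (nat_lit 8038685971) (nat_lit 336) (nat_lit 2051136452) (nat_lit 84) (nat_lit 3523098325) (nat_lit 37) (nat_lit 5) (nat_lit 41) (nat_lit 5) (nat_lit 38) (nat_lit 4) (nat_lit 383) (nat_lit 296) (nat_lit 266)) (XT.lf (nat_lit 0) (nat_lit 4353065404) (nat_lit 168) (nat_lit 7025065183) (nat_lit 252) (nat_lit 2519046966) (nat_lit 35) (nat_lit 5) (nat_lit 37) (nat_lit 5) (nat_lit 38) (nat_lit 4) (nat_lit 384) (nat_lit 296) (nat_lit 265))))) (XT.nd (nat_lit 376) (nat_lit 0) (nat_lit 0) (XT.nd (nat_lit 188) (nat_lit 168) (nat_lit 0) (XT.nd (nat_lit 94) (nat_lit 168) (nat_lit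 0) (XT.lf (nat_lit 0) (nat_lit 583190563) (nat_lit 252) (nat_lit 3290069468) (nat_lit 84) (nat_lit 10317540878) (nat_lit 34) (nat_lit 5) (nat_lit 37) (nat_lit 5) (nat_lit 35) (nat_lit 5) (nat_lit 385) (nat_lit 296) (nat_lit 264)) (XT.lf (nat_lit 0) (nat_lit 3103793857) (nat_lit 168) (nat_lit 602185337) (nat_lit 252) (nat_lit 10787209907) (nat_lit 32) (nat_lit 5) (nat_lit 34) (nat_lit 5) (nat_lit 35) (nat_lit 5) (nat_lit 386) (nat_lit 296) (nat_lit 263))) (XT.nd (nat_lit 94) (nat_lit 168) (nat_lit 0) (XT.lf (nat_lit 0) (nat_lit 6931289361) (nat_lit 252) (nat_lit 5157544001) (nat_lit 84) (nat_lit 2715596844) (nat_lit 32) (nat_lit 5) (nat_lit 35) (nat_lit 5) (nat_lit 33) (nat_lit 4) (nat_lit 387) (nat_lit 296) (nat_lit 262)) (XT.lf (nat_lit 0) (nat_lit 1197225057) (nat_lit 168) (nat_lit 9023786387) (nat_lit 252) (nat_lit 4905012573) (nat_lit 30) (nat_lit 5) (nat_lit 32) (nat_lit 5) (nat_lit 33) (nat_lit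 4) (nat_lit 388) (nat_lit 296) (nat_lit 261)))) (XT.nd (nat_lit 55836) (nat_lit 0) (nat_lit 6804) (XT.nd (nat_lit 55742) (nat_lit 0) (nat_lit 7308) (XT.lf (nat_lit 0) (nat_lit 7767722528) (nat_lit 168) (nat_lit 5844641524) (nat_lit 252) (nat_lit 1844857167) (nat_lit 30) (nat_lit 5) (nat_lit 32) (nat_lit 5) (nat_lit 33) (nat_lit 4) (nat_lit 389) (nat_lit 296) (nat_lit 260)) (XT.lf (nat_lit 0) (nat_lit 304237740) (nat_lit 504) (nat_lit 1855531572) (nat_lit 504) (nat_lit 1855531572) (nat_lit 117) (nat_lit 4) (nat_lit 123) (nat_lit 5) (nat_lit 123) (nat_lit 4) (nat_lit 351) (nat_lit 297) (nat_lit 297))) (XT.nd (nat_lit 94) (nat_lit 504) (nat_lit 0) (XT.lf (nat_lit 0) (nat_lit 6063736603) (nat_lit 504) (nat_lit 1643144932) (nat_lit 504) (nat_lit 420302494) (nat_lit 117) (nat_lit 4) (nat_lit 123) (nat_lit 5) (nat_lit 123) (nat_lit 4) (nat_lit 352) (nat_lit 297) (nat_lit 296)) (XT.lf (nat_lit 0) (nat_lit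 2860584695) (nat_lit 504) (nat_lit 4846195178) (nat_lit 0) (nat_lit 520712749) (nat_lit 111) (nat_lit 5) (nat_lit 117) (nat_lit 4) (nat_lit 111) (nat_lit 4) (nat_lit 353) (nat_lit 297) (nat_lit 295)))))) (XT.nd (nat_lit 752) (nat_lit 1764) (nat_lit 0) (XT.nd (nat_lit 376) (nat_lit 924) (nat_lit 0) (XT.nd (nat_lit 188) (nat_lit 840) (nat_lit 0) (XT.nd (nat_lit 94) (nat_lit 84) (nat_lit 0) (XT.lf (nat_lit 0) (nat_lit 583743540) (nat_lit 504) (nat_lit 5603684681) (nat_lit 504) (nat_lit 2144738678) (nat_lit 105) (nat_lit 4) (nat_lit 111) (nat_lit 5) (nat_lit 111) (nat_lit 4) (nat_lit 354) (nat_lit 297) (nat_lit 294)) (XT.lf (nat_lit 0) (nat_lit 1114161353) (nat_lit 588) (nat_lit 2283678122) (nat_lit 84) (nat_lit 5043065420) (nat_lit 104) (nat_lit 5) (nat_lit 111) (nat_lit 5) (nat_lit 105) (nat_lit 4) (nat_lit 355) (nat_lit 297) (nat_lit 293))) (XT.nd (nat_lit 94) (nat_lit 420) (nat_lit 0) (XT.lf (nat_lit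 0) (nat_lit 3281678948) (nat_lit 420) (nat_lit 1093660582) (nat_lit 504) (nat_lit 4178646865) (nat_lit 99) (nat_lit 5) (nat_lit 104) (nat_lit 5) (nat_lit 105) (nat_lit 4) (nat_lit 356) (nat_lit 297) (nat_lit 292)) (XT.lf (nat_lit 0) (nat_lit 276413581) (nat_lit 420) (nat_lit 7413476035) (nat_lit 420) (nat_lit 982047308) (nat_lit 94) (nat_lit 4) (nat_lit 99) (nat_lit 5) (nat_lit 99) (nat_lit 4) (nat_lit 357) (nat_lit 297) (nat_lit 291)))) (XT.nd (nat_lit 188) (nat_lit 504) (nat_lit 0) (XT.nd (nat_lit 94) (nat_lit 336) (nat_lit 0) (XT.lf (nat_lit 0) (nat_lit 2247695108) (nat_lit 504) (nat_lit 2833930769) (nat_lit 84) (nat_lit 3711798398) (nat_lit 93) (nat_lit 5) (nat_lit 99) (nat_lit 5) (nat_lit 94) (nat_lit 4) (nat_lit 358) (nat_lit 297) (nat_lit 290)) (XT.lf (nat_lit 0) (nat_lit 2835049673) (nat_lit 336) (nat_lit 2666924916) (nat_lit 420) (nat_lit 3417999045) (nat_lit 89) (nat_lit 5) (nat_lit 93)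 (nat_lit 5) (nat_lit 94) (nat_lit 4) (nat_lit 359) (nat_lit 297) (nat_lit 289))) (XT.nd (nat_lit 94) (nat_lit 504) (nat_lit 0) (XT.lf (nat_lit 0) (nat_lit 8628163618) (nat_lit 336) (nat_lit 175793021) (nat_lit 420) (nat_lit 247987379) (nat_lit 89) (nat_lit 5) (nat_lit 93) (nat_lit 5) (nat_lit 94) (nat_lit 4) (nat_lit 360) (nat_lit 297) (nat_lit 288)) (XT.lf (nat_lit 0) (nat_lit 2956368431) (nat_lit 504) (nat_lit 3830878643) (nat_lit 84) (nat_lit 2399932299) (nat_lit 83) (nat_lit 5) (nat_lit 89) (nat_lit 5) (nat_lit 84) (nat_lit 4) (nat_lit 361) (nat_lit 297) (nat_lit 287))))) (XT.nd (nat_lit 376) (nat_lit 672) (nat_lit 0) (XT.nd (nat_lit 188) (nat_lit 672) (nat_lit 0) (XT.nd (nat_lit 94) (nat_lit 84) (nat_lit 0) (XT.lf (nat_lit 0) (nat_lit 1921596126) (nat_lit 336) (nat_lit 4278698889) (nat_lit 420) (nat_lit 3127766395) (nat_lit 79) (nat_lit 5) (nat_lit 83) (nat_lit 5) (nat_lit 84) (nat_lit 4)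 (nat_lit 362) (nat_lit 297) (nat_lit 286)) (XT.lf (nat_lit 0) (nat_lit 30370356) (nat_lit 420) (nat_lit 1652265115) (nat_lit 84) (nat_lit 7791724023) (nat_lit 78) (nat_lit 5) (nat_lit 83) (nat_lit 5) (nat_lit 79) (nat_lit 5) (nat_lit 363) (nat_lit 297) (nat_lit 285))) (XT.nd (nat_lit 94) (nat_lit 336) (nat_lit 0) (XT.lf (nat_lit 0) (nat_lit 3197440181) (nat_lit 420) (nat_lit 5410499046) (nat_lit 84) (nat_lit 1016972805) (nat_lit 74) (nat_lit 5) (nat_lit 79) (nat_lit 5) (nat_lit 75) (nat_lit 4) (nat_lit 364) (nat_lit 297) (nat_lit 284)) (XT.lf (nat_lit 0) (nat_lit 400102976) (nat_lit 336) (nat_lit 6024155829) (nat_lit 420) (nat_lit 3356883316) (nat_lit 70) (nat_lit 5) (nat_lit 74) (nat_lit 5) (nat_lit 75) (nat_lit 4) (nat_lit 365) (nat_lit 297) (nat_lit 283)))) (XT.nd (nat_lit 188) (nat_lit 252) (nat_lit 0) (XT.nd (nat_lit 94) (nat_lit 420) (nat_lit 0) (XT.lf (nat_lit 0) (nat_lit 6394576355) (nat_lit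 336) (nat_lit 3336462959) (nat_lit 420) (nat_lit 211625154) (nat_lit 70) (nat_lit 5) (nat_lit 74) (nat_lit 5) (nat_lit 75) (nat_lit 4) (nat_lit 366) (nat_lit 297) (nat_lit 282)) (XT.lf (nat_lit 0) (nat_lit 2377237500) (nat_lit 336) (nat_lit 544339133) (nat_lit 420) (nat_lit 7188096787) (nat_lit 65) (nat_lit 5) (nat_lit 69) (nat_lit 5) (nat_lit 70) (nat_lit 5) (nat_lit 367) (nat_lit 297) (nat_lit 281))) (XT.nd (nat_lit 94) (nat_lit 252) (nat_lit 0) (XT.lf (nat_lit 0) (nat_lit 6133744629) (nat_lit 420) (nat_lit 1853218418) (nat_lit 84) (nat_lit 2295081609) (nat_lit 65) (nat_lit 5) (nat_lit 70) (nat_lit 5) (nat_lit 66) (nat_lit 4) (nat_lit 368) (nat_lit 297) (nat_lit 280)) (XT.lf (nat_lit 0) (nat_lit 4180708997) (nat_lit 252) (nat_lit 5239794111) (nat_lit 336) (nat_lit 1039826072) (nat_lit 62) (nat_lit 5) (nat_lit 65) (nat_lit 5) (nat_lit 66) (nat_lit 4) (nat_lit 369) (nat_lit 297) (nat_lit 279))))))))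
noncomputable def xc6 : XT := (XT.nd (nat_lit 58374) (nat_lit 0) (nat_lit 0) (XT.nd (nat_lit 1410) (nat_lit 420) (nat_lit 0) (XT.nd (nat_lit 658) (nat_lit 1008) (nat_lit 0) (XT.nd (nat_lit 282) (nat_lit 588) (nat_lit 0) (XT.nd (nat_lit 94) (nat_lit 588) (nat_lit 0) (XT.lf (nat_lit 0) (nat_lit 2071552140) (nat_lit 336) (nat_lit 329041145) (nat_lit 84) (nat_lit 8244274224) (nat_lit 61) (nat_lit 5) (nat_lit 65) (nat_lit 5) (nat_lit 62) (nat_lit 5) (nat_lit 370) (nat_lit 297) (nat_lit 278)) (XT.nd (nat_lit 94) (nat_lit 252) (nat_lit 0) (XT.lf (nat_lit 0) (nat_lit 5251487333) (nat_lit 420) (nat_lit 5032756378) (nat_lit 84) (nat_lit 550587333) (nat_lit 57) (nat_lit 5) (nat_lit 62) (nat_lit 5) (nat_lit 58) (nat_lit 4) (nat_lit 371) (nat_lit 297) (nat_lit 277)) (XT.lf (nat_lit 0) (nat_lit 992819556) (nat_lit 252) (nat_lit 7506254735) (nat_lit 336) (nat_lit 2532330583) (nat_lit 54) (nat_lit 5) (nat_lit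 57) (nat_lit 5) (nat_lit 58) (nat_lit 4) (nat_lit 372) (nat_lit 297) (nat_lit 276)))) (XT.nd (nat_lit 188) (nat_lit 252) (nat_lit 0) (XT.nd (nat_lit 94) (nat_lit 252) (nat_lit 0) (XT.lf (nat_lit 0) (nat_lit 585472677) (nat_lit 336) (nat_lit 4033026719) (nat_lit 84) (nat_lit 6615660001) (nat_lit 53) (nat_lit 5) (nat_lit 57) (nat_lit 5) (nat_lit 54) (nat_lit 5) (nat_lit 373) (nat_lit 297) (nat_lit 275)) (XT.lf (nat_lit 0) (nat_lit 2074281547) (nat_lit 252) (nat_lit 1629282104) (nat_lit 336) (nat_lit 7740023492) (nat_lit 50) (nat_lit 5) (nat_lit 53) (nat_lit 5) (nat_lit 54) (nat_lit 5) (nat_lit 374) (nat_lit 297) (nat_lit 274))) (XT.nd (nat_lit 94) (nat_lit 252) (nat_lit 0) (XT.lf (nat_lit 0) (nat_lit 6908590557) (nat_lit 336) (nat_lit 3319441051) (nat_lit 84) (nat_lit 1431534508) (nat_lit 50) (nat_lit 5) (nat_lit 54) (nat_lit 5) (nat_lit 51) (nat_lit 4) (nat_lit 375) (nat_lit 297) (nat_lit 273))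 (XT.lf (nat_lit 0) (nat_lit 2859836868) (nat_lit 252) (nat_lit 7333679391) (nat_lit 336) (nat_lit 1689063905) (nat_lit 47) (nat_lit 5) (nat_lit 50) (nat_lit 5) (nat_lit 51) (nat_lit 4) (nat_lit 376) (nat_lit 297) (nat_lit 272))))) (XT.nd (nat_lit 376) (nat_lit 504) (nat_lit 0) (XT.nd (nat_lit 188) (nat_lit 168) (nat_lit 0) (XT.nd (nat_lit 94) (nat_lit 252) (nat_lit 0) (XT.lf (nat_lit 0) (nat_lit 1410322598) (nat_lit 336) (nat_lit 2925260780) (nat_lit 84) (nat_lit 7777117126) (nat_lit 46) (nat_lit 5) (nat_lit 50) (nat_lit 5) (nat_lit 47) (nat_lit 5) (nat_lit 377) (nat_lit 297) (nat_lit 271)) (XT.lf (nat_lit 0) (nat_lit 3313658359) (nat_lit 252) (nat_lit 1229021638) (nat_lit 336) (nat_lit 7807386983) (nat_lit 43) (nat_lit 5) (nat_lit 46) (nat_lit 5) (nat_lit 47) (nat_lit 5) (nat_lit 378) (nat_lit 297) (nat_lit 270))) (XT.nd (nat_lit 94) (nat_lit 168) (nat_lit 0) (XT.lf (nat_lit 0) (nat_lit 7760401970)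 (nat_lit 336) (nat_lit 2903214173) (nat_lit 84) (nat_lit 1931257040) (nat_lit 43) (nat_lit 5) (nat_lit 47) (nat_lit 5) (nat_lit 44) (nat_lit 4) (nat_lit 379) (nat_lit 297) (nat_lit 269)) (XT.lf (nat_lit 0) (nat_lit 3380373207) (nat_lit 168) (nat_lit 7683234512) (nat_lit 252) (nat_lit 1783806070) (nat_lit 41) (nat_lit 5) (nat_lit 43) (nat_lit 5) (nat_lit 44) (nat_lit 4) (nat_lit 380) (nat_lit 297) (nat_lit 268)))) (XT.nd (nat_lit 188) (nat_lit 168) (nat_lit 0) (XT.nd (nat_lit 94) (nat_lit 252) (nat_lit 0) (XT.lf (nat_lit 0) (nat_lit 1305959605) (nat_lit 252) (nat_lit 3295718840) (nat_lit 84) (nat_lit 8506293228) (nat_lit 40) (nat_lit 5) (nat_lit 43) (nat_lit 5) (nat_lit 41) (nat_lit 5) (nat_lit 381) (nat_lit 297) (nat_lit 267)) (XT.lf (nat_lit 0) (nat_lit 3016803058) (nat_lit 252) (nat_lit 1410859299) (nat_lit 336) (nat_lit 8948954981) (nat_lit 37) (nat_lit 5) (nat_lit 40) (nat_lit 5) (nat_lit 41)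 (nat_lit 5) (nat_lit 382) (nat_lit 297) (nat_lit 266))) (XT.nd (nat_lit 94) (nat_lit 168) (nat_lit 0) (XT.lf (nat_lit 0) (nat_lit 7641213615) (nat_lit 336) (nat_lit 4170082954) (nat_lit 84) (nat_lit 1842132110) (nat_lit 37) (nat_lit 5) (nat_lit 41) (nat_lit 5) (nat_lit 38) (nat_lit 4) (nat_lit 383) (nat_lit 297) (nat_lit 265)) (XT.lf (nat_lit 0) (nat_lit 2150164913) (nat_lit 168) (nat_lit 8783758070) (nat_lit 252) (nat_lit 3005189538) (nat_lit 35) (nat_lit 5) (nat_lit 37) (nat_lit 5) (nat_lit 38) (nat_lit 4) (nat_lit 384) (nat_lit 297) (nat_lit 264)))))) (XT.nd (nat_lit 56212) (nat_lit 0) (nat_lit 4956) (XT.nd (nat_lit 376) (nat_lit 168) (nat_lit 0) (XT.nd (nat_lit 188) (nat_lit 0) (nat_lit 0) (XT.nd (nat_lit 94) (nat_lit 168) (nat_lit 0) (XT.lf (nat_lit 0) (nat_lit 81055940) (nat_lit 252) (nat_lit 5571328268) (nat_lit 84) (nat_lit 8581279760) (nat_lit 34) (nat_lit 5) (nat_lit 37) (nat_lit 5) (nat_lit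 35) (nat_lit 5) (nat_lit 385) (nat_lit 297) (nat_lit 263)) (XT.lf (nat_lit 0) (nat_lit 736440001) (nat_lit 168) (nat_lit 2419911765) (nat_lit 252) (nat_lit 11381148037) (nat_lit 32) (nat_lit 5) (nat_lit 34) (nat_lit 5) (nat_lit 35) (nat_lit 5) (nat_lit 386) (nat_lit 297) (nat_lit 262))) (XT.nd (nat_lit 94) (nat_lit 0) (nat_lit 0) (XT.lf (nat_lit 0) (nat_lit 6339647909) (nat_lit 252) (nat_lit 7591852536) (nat_lit 84) (nat_lit 918523076) (nat_lit 32) (nat_lit 5) (nat_lit 35) (nat_lit 5) (nat_lit 33) (nat_lit 4) (nat_lit 387) (nat_lit 297) (nat_lit 261)) (XT.lf (nat_lit 0) (nat_lit 9594035392) (nat_lit 252) (nat_lit 1299394268) (nat_lit 84) (nat_lit 4279269259) (nat_lit 32) (nat_lit 5) (nat_lit 35) (nat_lit 5) (nat_lit 33) (nat_lit 4) (nat_lit 388) (nat_lit 297) (nat_lit 260)))) (XT.nd (nat_lit 55648) (nat_lit 0) (nat_lit 7308) (XT.nd (nat_lit 55554) (nat_lit 0) (nat_lit 8400) (XT.lf (nat_lit 0) (nat_lit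 5206675940) (nat_lit 168) (nat_lit 7742469996) (nat_lit 252) (nat_lit 2555858365) (nat_lit 30) (nat_lit 5) (nat_lit 32) (nat_lit 5) (nat_lit 33) (nat_lit 4) (nat_lit 389) (nat_lit 297) (nat_lit 259)) (XT.lf (nat_lit 0) (nat_lit 2912493372) (nat_lit 588) (nat_lit 505906234) (nat_lit 588) (nat_lit 505906234) (nat_lit 130) (nat_lit 4) (nat_lit 137) (nat_lit 5) (nat_lit 137) (nat_lit 4) (nat_lit 349) (nat_lit 298) (nat_lit 298))) (XT.nd (nat_lit 94) (nat_lit 504) (nat_lit 0) (XT.lf (nat_lit 0) (nat_lit 2249172376) (nat_lit 588) (nat_lit 4699422259) (nat_lit 0) (nat_lit 989644666) (nat_lit 123) (nat_lit 5) (nat_lit 130) (nat_lit 4) (nat_lit 123) (nat_lit 4) (nat_lit 350) (nat_lit 298) (nat_lit 297)) (XT.lf (nat_lit 0) (nat_lit 555171491) (nat_lit 504) (nat_lit 4979607742) (nat_lit 504) (nat_lit 2497237594) (nat_lit 117) (nat_lit 4) (nat_lit 123) (nat_lit 5) (nat_lit 123) (nat_lit 4) (nat_lit 351) (nat_lit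 298) (nat_lit 296))))) (XT.nd (nat_lit 376) (nat_lit 1260) (nat_lit 0) (XT.nd (nat_lit 188) (nat_lit 588) (nat_lit 0) (XT.nd (nat_lit 94) (nat_lit 420) (nat_lit 0) (XT.lf (nat_lit 0) (nat_lit 734533373) (nat_lit 588) (nat_lit 2178493067) (nat_lit 84) (nat_lit 5216730449) (nat_lit 116) (nat_lit 5) (nat_lit 123) (nat_lit 5) (nat_lit 117) (nat_lit 4) (nat_lit 352) (nat_lit 298) (nat_lit 295)) (XT.lf (nat_lit 0) (nat_lit 3212917625) (nat_lit 420) (nat_lit 745289132) (nat_lit 504) (nat_lit 4273286991) (nat_lit 111) (nat_lit 5) (nat_lit 116) (nat_lit 5) (nat_lit 117) (nat_lit 4) (nat_lit 353) (nat_lit 298) (nat_lit 294))) (XT.nd (nat_lit 94) (nat_lit 84) (nat_lit 0) (XT.lf (nat_lit 0) (nat_lit 362310034) (nat_lit 504) (nat_lit 6871864587) (nat_lit 504) (nat_lit 1103596479) (nat_lit 105) (nat_lit 4) (nat_lit 111) (nat_lit 5) (nat_lit 111) (nat_lit 4) (nat_lit 354) (nat_lit 298) (nat_lit 293)) (XT.lf (nat_lit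 0) (nat_lit 2093643651) (nat_lit 588) (nat_lit 2573006124) (nat_lit 84) (nat_lit 3780871778) (nat_lit 104) (nat_lit 5) (nat_lit 111) (nat_lit 5) (nat_lit 105) (nat_lit 4) (nat_lit 355) (nat_lit 298) (nat_lit 292)))) (XT.nd (nat_lit 188) (nat_lit 840) (nat_lit 0) (XT.nd (nat_lit 94) (nat_lit 0) (nat_lit 0) (XT.lf (nat_lit 0) (nat_lit 2934823125) (nat_lit 420) (nat_lit 2376525225) (nat_lit 504) (nat_lit 3250629193) (nat_lit 99) (nat_lit 5) (nat_lit 104) (nat_lit 5) (nat_lit 105) (nat_lit 4) (nat_lit 356) (nat_lit 298) (nat_lit 291)) (XT.lf (nat_lit 0) (nat_lit 8558599952) (nat_lit 420) (nat_lit 12876296) (nat_lit 504) (nat_lit 110152730) (nat_lit 99) (nat_lit 5) (nat_lit 104) (nat_lit 5) (nat_lit 105) (nat_lit 4) (nat_lit 357) (nat_lit 298) (nat_lit 290))) (XT.nd (nat_lit 94) (nat_lit 336) (nat_lit 0) (XT.lf (nat_lit 0) (nat_lit 3061889534) (nat_lit 504) (nat_lit 3305548655) (nat_lit 84) (nat_lit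 2436711615) (nat_lit 93) (nat_lit 5) (nat_lit 99) (nat_lit 5) (nat_lit 94) (nat_lit 4) (nat_lit 358) (nat_lit 298) (nat_lit 289)) (XT.lf (nat_lit 0) (nat_lit 2302799994) (nat_lit 336) (nat_lit 3970054203) (nat_lit 420) (nat_lit 2659206860) (nat_lit 89) (nat_lit 5) (nat_lit 93) (nat_lit 5) (nat_lit 94) (nat_lit 4) (nat_lit 359) (nat_lit 298) (nat_lit 288))))))) (XT.nd (nat_lit 1504) (nat_lit 1680) (nat_lit 0) (XT.nd (nat_lit 752) (nat_lit 1260) (nat_lit 0) (XT.nd (nat_lit 376) (nat_lit 1092) (nat_lit 0) (XT.nd (nat_lit 188) (nat_lit 420) (nat_lit 0) (XT.nd (nat_lit 94) (nat_lit 420) (nat_lit 0) (XT.lf (nat_lit 0) (nat_lit 462841606) (nat_lit 420) (nat_lit 1023595800) (nat_lit 84) (nat_lit 7578645462) (nat_lit 88) (nat_lit 5) (nat_lit 93) (nat_lit 5) (nat_lit 89) (nat_lit 5) (nat_lit 360) (nat_lit 298) (nat_lit 287)) (XT.lf (nat_lit 0) (nat_lit 3606328491) (nat_lit 504) (nat_lit 4496802196) (nat_lit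 84) (nat_lit 1098854065) (nat_lit 83) (nat_lit 5) (nat_lit 89) (nat_lit 5) (nat_lit 84) (nat_lit 4) (nat_lit 361) (nat_lit 298) (nat_lit 286))) (XT.nd (nat_lit 94) (nat_lit 84) (nat_lit 0) (XT.lf (nat_lit 0) (nat_lit 1191792130) (nat_lit 336) (nat_lit 5615047314) (nat_lit 420) (nat_lit 2537385298) (nat_lit 79) (nat_lit 5) (nat_lit 83) (nat_lit 5) (nat_lit 84) (nat_lit 4) (nat_lit 362) (nat_lit 298) (nat_lit 285)) (XT.lf (nat_lit 0) (nat_lit 573011004) (nat_lit 420) (nat_lit 2453833374) (nat_lit 84) (nat_lit 6464647096) (nat_lit 78) (nat_lit 5) (nat_lit 83) (nat_lit 5) (nat_lit 79) (nat_lit 5) (nat_lit 363) (nat_lit 298) (nat_lit 284)))) (XT.nd (nat_lit 188) (nat_lit 756) (nat_lit 0) (XT.nd (nat_lit 94) (nat_lit 0) (nat_lit 0) (XT.lf (nat_lit 0) (nat_lit 3357725021) (nat_lit 336) (nat_lit 328886722) (nat_lit 420) (nat_lit 5957087117) (nat_lit 74) (nat_lit 5) (nat_lit 78) (nat_lit 5) (nat_lit 79)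 (nat_lit 5) (nat_lit 364) (nat_lit 298) (nat_lit 283)) (XT.lf (nat_lit 0) (nat_lit 6871691936) (nat_lit 420) (nat_lit 528972879) (nat_lit 84) (nat_lit 2400565585) (nat_lit 74) (nat_lit 5) (nat_lit 79) (nat_lit 5) (nat_lit 75) (nat_lit 4) (nat_lit 365) (nat_lit 298) (nat_lit 282))) (XT.nd (nat_lit 94) (nat_lit 336) (nat_lit 0) (XT.lf (nat_lit 0) (nat_lit 171702147) (nat_lit 420) (nat_lit 4559167323) (nat_lit 84) (nat_lit 5233061778) (nat_lit 69) (nat_lit 5) (nat_lit 74) (nat_lit 5) (nat_lit 70) (nat_lit 5) (nat_lit 366) (nat_lit 298) (nat_lit 281)) (XT.lf (nat_lit 0) (nat_lit 1295233908) (nat_lit 336) (nat_lit 1961575765) (nat_lit 420) (nat_lit 6875433553) (nat_lit 65) (nat_lit 5) (nat_lit 69) (nat_lit 5) (nat_lit 70) (nat_lit 5) (nat_lit 367) (nat_lit 298) (nat_lit 280))))) (XT.nd (nat_lit 376) (nat_lit 588) (nat_lit 0) (XT.nd (nat_lit 188) (nat_lit 420) (nat_lit 0) (XT.nd (nat_lit 94) (nat_lit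 252) (nat_lit 0) (XT.lf (nat_lit 0) (nat_lit 6422176204) (nat_lit 420) (nat_lit 2992374287) (nat_lit 84) (nat_lit 891511817) (nat_lit 65) (nat_lit 5) (nat_lit 70) (nat_lit 5) (nat_lit 66) (nat_lit 4) (nat_lit 368) (nat_lit 298) (nat_lit 279)) (XT.lf (nat_lit 0) (nat_lit 2971148483) (nat_lit 252) (nat_lit 6693947397) (nat_lit 336) (nat_lit 820608641) (nat_lit 62) (nat_lit 5) (nat_lit 65) (nat_lit 5) (nat_lit 66) (nat_lit 4) (nat_lit 369) (nat_lit 298) (nat_lit 278))) (XT.nd (nat_lit 94) (nat_lit 336) (nat_lit 0) (XT.lf (nat_lit 0) (nat_lit 2254418282) (nat_lit 336) (nat_lit 1613105584) (nat_lit 84) (nat_lit 6803658056) (nat_lit 61) (nat_lit 5) (nat_lit 65) (nat_lit 5) (nat_lit 62) (nat_lit 5) (nat_lit 370) (nat_lit 298) (nat_lit 277)) (XT.lf (nat_lit 0) (nat_lit 4451454341) (nat_lit 336) (nat_lit 933325399) (nat_lit 420) (nat_lit 5477891845) (nat_lit 57) (nat_lit 5) (nat_lit 61) (nat_lit 5) (nat_lit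 62) (nat_lit 5) (nat_lit 371) (nat_lit 298) (nat_lit 276)))) (XT.nd (nat_lit 188) (nat_lit 252) (nat_lit 0) (XT.nd (nat_lit 94) (nat_lit 336) (nat_lit 0) (XT.lf (nat_lit 0) (nat_lit 8583044731) (nat_lit 420) (nat_lit 442065363) (nat_lit 84) (nat_lit 2035652764) (nat_lit 57) (nat_lit 5) (nat_lit 62) (nat_lit 5) (nat_lit 58) (nat_lit 4) (nat_lit 372) (nat_lit 298) (nat_lit 275)) (XT.lf (nat_lit 0) (nat_lit 603958666) (nat_lit 336) (nat_lit 5552897013) (nat_lit 84) (nat_lit 5107733388) (nat_lit 53) (nat_lit 5) (nat_lit 57) (nat_lit 5) (nat_lit 54) (nat_lit 5) (nat_lit 373) (nat_lit 298) (nat_lit 274))) (XT.nd (nat_lit 94) (nat_lit 0) (nat_lit 0) (XT.lf (nat_lit 0) (nat_lit 478398618) (nat_lit 252) (nat_lit 3198520229) (nat_lit 336) (nat_lit 7798486468) (nat_lit 50) (nat_lit 5) (nat_lit 53) (nat_lit 5) (nat_lit 54) (nat_lit 5) (nat_lit 374) (nat_lit 298) (nat_lit 273)) (XT.lf (nat_lit 0) (nat_lit 6714266530)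 (nat_lit 252) (nat_lit 124294954) (nat_lit 336) (nat_lit 4854157900) (nat_lit 50) (nat_lit 5) (nat_lit 53) (nat_lit 5) (nat_lit 54) (nat_lit 5) (nat_lit 375) (nat_lit 298) (nat_lit 272)))))) (XT.nd (nat_lit 752) (nat_lit 588) (nat_lit 0) (XT.nd (nat_lit 376) (nat_lit 504) (nat_lit 0) (XT.nd (nat_lit 188) (nat_lit 252) (nat_lit 0) (XT.nd (nat_lit 94) (nat_lit 84) (nat_lit 0) (XT.lf (nat_lit 0) (nat_lit 1124268816) (nat_lit 252) (nat_lit 8952704706) (nat_lit 336) (nat_lit 1840187913) (nat_lit 47) (nat_lit 5) (nat_lit 50) (nat_lit 5) (nat_lit 51) (nat_lit 4) (nat_lit 376) (nat_lit 298) (nat_lit 271)) (XT.lf (nat_lit 0) (nat_lit 1233617959) (nat_lit 336) (nat_lit 4738009552) (nat_lit 84) (nat_lit 6176584453) (nat_lit 46) (nat_lit 5) (nat_lit 50) (nat_lit 5) (nat_lit 47) (nat_lit 5) (nat_lit 377) (nat_lit 298) (nat_lit 270))) (XT.nd (nat_lit 94) (nat_lit 0) (nat_lit 0) (XT.lf (nat_lit 0) (nat_lit 1421212069)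 (nat_lit 252) (nat_lit 2898873291) (nat_lit 336) (nat_lit 8066899606) (nat_lit 43) (nat_lit 5) (nat_lit 46) (nat_lit 5) (nat_lit 47) (nat_lit 5) (nat_lit 378) (nat_lit 298) (nat_lit 269)) (XT.lf (nat_lit 0) (nat_lit 7494312038) (nat_lit 336) (nat_lit 4859579831) (nat_lit 84) (nat_lit 279233114) (nat_lit 43) (nat_lit 5) (nat_lit 47) (nat_lit 5) (nat_lit 44) (nat_lit 4) (nat_lit 379) (nat_lit 298) (nat_lit 268)))) (XT.nd (nat_lit 188) (nat_lit 252) (nat_lit 0) (XT.nd (nat_lit 94) (nat_lit 84) (nat_lit 0) (XT.lf (nat_lit 0) (nat_lit 1342441105) (nat_lit 168) (nat_lit 9408842503) (nat_lit 252) (nat_lit 2135797121) (nat_lit 41) (nat_lit 5) (nat_lit 43) (nat_lit 5) (nat_lit 44) (nat_lit 4) (nat_lit 380) (nat_lit 298) (nat_lit 267)) (XT.lf (nat_lit 0) (nat_lit 934284204) (nat_lit 252) (nat_lit 5411878537) (nat_lit 84) (nat_lit 6802400467) (nat_lit 40) (nat_lit 5) (nat_lit 43) (nat_lit 5) (nat_lit 41)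 (nat_lit 5) (nat_lit 381) (nat_lit 298) (nat_lit 266))) (XT.nd (nat_lit 94) (nat_lit 0) (nat_lit 0) (XT.lf (nat_lit 0) (nat_lit 816994643) (nat_lit 252) (nat_lit 3192066835) (nat_lit 336) (nat_lit 9409580889) (nat_lit 37) (nat_lit 5) (nat_lit 40) (nat_lit 5) (nat_lit 41) (nat_lit 5) (nat_lit 382) (nat_lit 298) (nat_lit 265)) (XT.lf (nat_lit 0) (nat_lit 7179931058) (nat_lit 336) (nat_lit 6435761807) (nat_lit 84) (nat_lit 81066272) (nat_lit 37) (nat_lit 5) (nat_lit 41) (nat_lit 5) (nat_lit 38) (nat_lit 4) (nat_lit 383) (nat_lit 298) (nat_lit 264))))) (XT.nd (nat_lit 376) (nat_lit 168) (nat_lit 0) (XT.nd (nat_lit 188) (nat_lit 252) (nat_lit 0) (XT.nd (nat_lit 94) (nat_lit 168) (nat_lit 0) (XT.lf (nat_lit 0) (nat_lit 10427156560) (nat_lit 336) (nat_lit 197245640) (nat_lit 84) (nat_lit 3359429546) (nat_lit 37) (nat_lit 5) (nat_lit 41) (nat_lit 5) (nat_lit 38) (nat_lit 4) (nat_lit 384) (nat_lit 298)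 (nat_lit 263)) (XT.lf (nat_lit 0) (nat_lit 6272433783) (nat_lit 168) (nat_lit 7510751954) (nat_lit 252) (nat_lit 496036983) (nat_lit 35) (nat_lit 5) (nat_lit 37) (nat_lit 5) (nat_lit 38) (nat_lit 4) (nat_lit 385) (nat_lit 298) (nat_lit 262))) (XT.nd (nat_lit 94) (nat_lit 168) (nat_lit 0) (XT.lf (nat_lit 0) (nat_lit 2557843322) (nat_lit 252) (nat_lit 1747360390) (nat_lit 84) (nat_lit 10278952932) (nat_lit 34) (nat_lit 5) (nat_lit 37) (nat_lit 5) (nat_lit 35) (nat_lit 5) (nat_lit 386) (nat_lit 298) (nat_lit 261)) (XT.lf (nat_lit 0) (nat_lit 4710512420) (nat_lit 168) (nat_lit 980805831) (nat_lit 252) (nat_lit 9206878295) (nat_lit 32) (nat_lit 5) (nat_lit 34) (nat_lit 5) (nat_lit 35) (nat_lit 5) (nat_lit 387) (nat_lit 298) (nat_lit 260)))) (XT.nd (nat_lit 55460) (nat_lit 0) (nat_lit 8400) (XT.nd (nat_lit 94) (nat_lit 168) (nat_lit 0) (XT.lf (nat_lit 0) (nat_lit 8913145453) (nat_lit 252) (nat_lit 3923611944)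 (nat_lit 84) (nat_lit 2385112274) (nat_lit 32) (nat_lit 5) (nat_lit 35) (nat_lit 5) (nat_lit 33) (nat_lit 4) (nat_lit 388) (nat_lit 298) (nat_lit 259)) (XT.lf (nat_lit 0) (nat_lit 2492787721) (nat_lit 168) (nat_lit 9726922298) (nat_lit 252) (nat_lit 3335941723) (nat_lit 30) (nat_lit 5) (nat_lit 32) (nat_lit 5) (nat_lit 33) (nat_lit 4) (nat_lit 389) (nat_lit 298) (nat_lit 258))) (XT.nd (nat_lit 94) (nat_lit 588) (nat_lit 0) (XT.lf (nat_lit 0) (nat_lit 790898185) (nat_lit 672) (nat_lit 2257745998) (nat_lit 0) (nat_lit 790898185) (nat_lit 137) (nat_lit 5) (nat_lit 145) (nat_lit 4) (nat_lit 137) (nat_lit 4) (nat_lit 347) (nat_lit 299) (nat_lit 299)) (XT.lf (nat_lit 0) (nat_lit 558347745) (nat_lit 588) (nat_lit 4270219262) (nat_lit 588) (nat_lit 2933986314) (nat_lit 130) (nat_lit 4) (nat_lit 137) (nat_lit 5) (nat_lit 137) (nat_lit 4) (nat_lit 348) (nat_lit 299) (nat_lit 298))))))))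
noncomputable def xc7 : XT := (XT.nd (nat_lit 3008) (nat_lit 924) (nat_lit 0) (XT.nd (nat_lit 1504) (nat_lit 2604) (nat_lit 0) (XT.nd (nat_lit 752) (nat_lit 2100) (nat_lit 0) (XT.nd (nat_lit 376) (nat_lit 1428) (nat_lit 0) (XT.nd (nat_lit 188) (nat_lit 588) (nat_lit 0) (XT.nd (nat_lit 94) (nat_lit 504) (nat_lit 0) (XT.lf (nat_lit 0) (nat_lit 273577817) (nat_lit 672) (nat_lit 2078183519) (nat_lit 84) (nat_lit 5498181186) (nat_lit 129) (nat_lit 5) (nat_lit 137) (nat_lit 5) (nat_lit 130) (nat_lit 4) (nat_lit 349) (nat_lit 299) (nat_lit 297)) (XT.lf (nat_lit 0) (nat_lit 3132310637) (nat_lit 504) (nat_lit 328470070) (nat_lit 588) (nat_lit 4480205231) (nat_lit 123) (nat_lit 5) (nat_lit 129) (nat_lit 5) (nat_lit 130) (nat_lit 4) (nat_lit 350) (nat_lit 299) (nat_lit 296))) (XT.nd (nat_lit 94) (nat_lit 84) (nat_lit 0) (XT.lf (nat_lit 0) (nat_lit 395212948) (nat_lit 504) (nat_lit 6303979821) (nat_lit 504)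 (nat_lit 1337070464) (nat_lit 117) (nat_lit 4) (nat_lit 123) (nat_lit 5) (nat_lit 123) (nat_lit 4) (nat_lit 351) (nat_lit 299) (nat_lit 295)) (XT.lf (nat_lit 0) (nat_lit 1829823415) (nat_lit 588) (nat_lit 2405014102) (nat_lit 84) (nat_lit 3900177460) (nat_lit 116) (nat_lit 5) (nat_lit 123) (nat_lit 5) (nat_lit 117) (nat_lit 4) (nat_lit 352) (nat_lit 299) (nat_lit 294)))) (XT.nd (nat_lit 188) (nat_lit 504) (nat_lit 0) (XT.nd (nat_lit 94) (nat_lit 504) (nat_lit 0) (XT.lf (nat_lit 0) (nat_lit 2931226133) (nat_lit 420) (nat_lit 2078555062) (nat_lit 504) (nat_lit 3228358916) (nat_lit 111) (nat_lit 5) (nat_lit 116) (nat_lit 5) (nat_lit 117) (nat_lit 4) (nat_lit 353) (nat_lit 299) (nat_lit 293)) (XT.lf (nat_lit 0) (nat_lit 29917938) (nat_lit 504) (nat_lit 8199448015) (nat_lit 504) (nat_lit 116817568) (nat_lit 105) (nat_lit 4) (nat_lit 111) (nat_lit 5) (nat_lit 111) (nat_lit 4) (nat_lit 354) (nat_lit 299)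 (nat_lit 292))) (XT.nd (nat_lit 94) (nat_lit 420) (nat_lit 0) (XT.lf (nat_lit 0) (nat_lit 3021027663) (nat_lit 588) (nat_lit 2974055579) (nat_lit 84) (nat_lit 2461840632) (nat_lit 104) (nat_lit 5) (nat_lit 111) (nat_lit 5) (nat_lit 105) (nat_lit 4) (nat_lit 355) (nat_lit 299) (nat_lit 291)) (XT.lf (nat_lit 0) (nat_lit 2475530224) (nat_lit 420) (nat_lit 3719816951) (nat_lit 504) (nat_lit 2377402485) (nat_lit 99) (nat_lit 5) (nat_lit 104) (nat_lit 5) (nat_lit 105) (nat_lit 4) (nat_lit 356) (nat_lit 299) (nat_lit 290))))) (XT.nd (nat_lit 376) (nat_lit 1176) (nat_lit 0) (XT.nd (nat_lit 188) (nat_lit 420) (nat_lit 0) (XT.nd (nat_lit 94) (nat_lit 420) (nat_lit 0) (XT.lf (nat_lit 0) (nat_lit 709435244) (nat_lit 504) (nat_lit 650062509) (nat_lit 84) (nat_lit 7333910063) (nat_lit 98) (nat_lit 5) (nat_lit 104) (nat_lit 5) (nat_lit 99) (nat_lit 5) (nat_lit 357) (nat_lit 299) (nat_lit 289)) (XT.lf (nat_lit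 0) (nat_lit 3822966822) (nat_lit 504) (nat_lit 3893313816) (nat_lit 84) (nat_lit 1101369524) (nat_lit 93) (nat_lit 5) (nat_lit 99) (nat_lit 5) (nat_lit 94) (nat_lit 4) (nat_lit 358) (nat_lit 299) (nat_lit 288))) (XT.nd (nat_lit 94) (nat_lit 84) (nat_lit 0) (XT.lf (nat_lit 0) (nat_lit 1653584076) (nat_lit 336) (nat_lit 5337020818) (nat_lit 420) (nat_lit 1956316948) (nat_lit 89) (nat_lit 5) (nat_lit 93) (nat_lit 5) (nat_lit 94) (nat_lit 4) (nat_lit 359) (nat_lit 299) (nat_lit 287)) (XT.lf (nat_lit 0) (nat_lit 1115126714) (nat_lit 420) (nat_lit 1743524381) (nat_lit 84) (nat_lit 6222253675) (nat_lit 88) (nat_lit 5) (nat_lit 93) (nat_lit 5) (nat_lit 89) (nat_lit 5) (nat_lit 360) (nat_lit 299) (nat_lit 286)))) (XT.nd (nat_lit 188) (nat_lit 420) (nat_lit 0) (XT.nd (nat_lit 94) (nat_lit 336) (nat_lit 0) (XT.lf (nat_lit 0) (nat_lit 3933408312) (nat_lit 420) (nat_lit 271092321) (nat_lit 504) (nat_lit 5014984895)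 (nat_lit 83) (nat_lit 5) (nat_lit 88) (nat_lit 5) (nat_lit 89) (nat_lit 5) (nat_lit 361) (nat_lit 299) (nat_lit 285)) (XT.lf (nat_lit 0) (nat_lit 340314079) (nat_lit 336) (nat_lit 7018566569) (nat_lit 420) (nat_lit 2004282667) (nat_lit 79) (nat_lit 5) (nat_lit 83) (nat_lit 5) (nat_lit 84) (nat_lit 4) (nat_lit 362) (nat_lit 299) (nat_lit 284))) (XT.nd (nat_lit 94) (nat_lit 336) (nat_lit 0) (XT.lf (nat_lit 0) (nat_lit 1060545845) (nat_lit 420) (nat_lit 3377846183) (nat_lit 84) (nat_lit 5072990012) (nat_lit 78) (nat_lit 5) (nat_lit 83) (nat_lit 5) (nat_lit 79) (nat_lit 5) (nat_lit 363) (nat_lit 299) (nat_lit 283)) (XT.lf (nat_lit 0) (nat_lit 2367326082) (nat_lit 336) (nat_lit 1763159370) (nat_lit 420) (nat_lit 5534463106) (nat_lit 74) (nat_lit 5) (nat_lit 78) (nat_lit 5) (nat_lit 79) (nat_lit 5) (nat_lit 364) (nat_lit 299) (nat_lit 282)))))) (XT.nd (nat_lit 752) (nat_lit 1176) (nat_lit 0) (XT.nd (nat_lit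 376) (nat_lit 672) (nat_lit 0) (XT.nd (nat_lit 188) (nat_lit 336) (nat_lit 0) (XT.nd (nat_lit 94) (nat_lit 420) (nat_lit 0) (XT.lf (nat_lit 0) (nat_lit 7268059181) (nat_lit 420) (nat_lit 1574363606) (nat_lit 84) (nat_lit 981530366) (nat_lit 74) (nat_lit 5) (nat_lit 79) (nat_lit 5) (nat_lit 75) (nat_lit 4) (nat_lit 365) (nat_lit 299) (nat_lit 281)) (XT.lf (nat_lit 0) (nat_lit 494141274) (nat_lit 420) (nat_lit 5699660145) (nat_lit 84) (nat_lit 3794107371) (nat_lit 69) (nat_lit 5) (nat_lit 74) (nat_lit 5) (nat_lit 70) (nat_lit 5) (nat_lit 366) (nat_lit 299) (nat_lit 280))) (XT.nd (nat_lit 94) (nat_lit 0) (nat_lit 0) (XT.lf (nat_lit 0) (nat_lit 84735114) (nat_lit 336) (nat_lit 3450291406) (nat_lit 420) (nat_lit 6622564718) (nat_lit 65) (nat_lit 5) (nat_lit 69) (nat_lit 5) (nat_lit 70) (nat_lit 5) (nat_lit 367) (nat_lit 299) (nat_lit 279)) (XT.lf (nat_lit 0) (nat_lit 6066261719) (nat_lit 336) (nat_lit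 593312399) (nat_lit 420) (nat_lit 3673103293) (nat_lit 65) (nat_lit 5) (nat_lit 69) (nat_lit 5) (nat_lit 70) (nat_lit 5) (nat_lit 368) (nat_lit 299) (nat_lit 278)))) (XT.nd (nat_lit 188) (nat_lit 336) (nat_lit 0) (XT.nd (nat_lit 94) (nat_lit 84) (nat_lit 0) (XT.lf (nat_lit 0) (nat_lit 1631225021) (nat_lit 252) (nat_lit 8221411767) (nat_lit 336) (nat_lit 661219832) (nat_lit 62) (nat_lit 5) (nat_lit 65) (nat_lit 5) (nat_lit 66) (nat_lit 4) (nat_lit 369) (nat_lit 299) (nat_lit 277)) (XT.lf (nat_lit 0) (nat_lit 2379557455) (nat_lit 336) (nat_lit 3028365067) (nat_lit 84) (nat_lit 5292338633) (nat_lit 61) (nat_lit 5) (nat_lit 65) (nat_lit 5) (nat_lit 62) (nat_lit 5) (nat_lit 370) (nat_lit 299) (nat_lit 276))) (XT.nd (nat_lit 94) (nat_lit 0) (nat_lit 0) (XT.lf (nat_lit 0) (nat_lit 2962824206) (nat_lit 336) (nat_lit 2502552670) (nat_lit 420) (nat_lit 5427747987) (nat_lit 57) (nat_lit 5) (nat_lit 61) (nat_lit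 5) (nat_lit 62) (nat_lit 5) (nat_lit 371) (nat_lit 299) (nat_lit 275)) (XT.lf (nat_lit 0) (nat_lit 8618648091) (nat_lit 420) (nat_lit 1990746211) (nat_lit 84) (nat_lit 483208328) (nat_lit 57) (nat_lit 5) (nat_lit 62) (nat_lit 5) (nat_lit 58) (nat_lit 4) (nat_lit 372) (nat_lit 299) (nat_lit 274))))) (XT.nd (nat_lit 376) (nat_lit 588) (nat_lit 0) (XT.nd (nat_lit 188) (nat_lit 252) (nat_lit 0) (XT.nd (nat_lit 94) (nat_lit 0) (nat_lit 0) (XT.lf (nat_lit 0) (nat_lit 562525148) (nat_lit 336) (nat_lit 7209451975) (nat_lit 84) (nat_lit 3525838918) (nat_lit 53) (nat_lit 5) (nat_lit 57) (nat_lit 5) (nat_lit 54) (nat_lit 5) (nat_lit 373) (nat_lit 299) (nat_lit 273)) (XT.lf (nat_lit 0) (nat_lit 3601964154) (nat_lit 336) (nat_lit 1231055906) (nat_lit 84) (nat_lit 6676651433) (nat_lit 53) (nat_lit 5) (nat_lit 57) (nat_lit 5) (nat_lit 54) (nat_lit 5) (nat_lit 374) (nat_lit 299) (nat_lit 272))) (XT.nd (nat_lit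 94) (nat_lit 0) (nat_lit 0) (XT.lf (nat_lit 0) (nat_lit 4937174398) (nat_lit 252) (nat_lit 1785868445) (nat_lit 336) (nat_lit 5005192230) (nat_lit 50) (nat_lit 5) (nat_lit 53) (nat_lit 5) (nat_lit 54) (nat_lit 5) (nat_lit 375) (nat_lit 299) (nat_lit 271)) (XT.lf (nat_lit 0) (nat_lit 9906874180) (nat_lit 336) (nat_lit 736911170) (nat_lit 84) (nat_lit 1310560835) (nat_lit 50) (nat_lit 5) (nat_lit 54) (nat_lit 5) (nat_lit 51) (nat_lit 4) (nat_lit 376) (nat_lit 299) (nat_lit 270)))) (XT.nd (nat_lit 188) (nat_lit 252) (nat_lit 0) (XT.nd (nat_lit 94) (nat_lit 0) (nat_lit 0) (XT.lf (nat_lit 0) (nat_lit 995383928) (nat_lit 336) (nat_lit 6691962009) (nat_lit 84) (nat_lit 4499190225) (nat_lit 46) (nat_lit 5) (nat_lit 50) (nat_lit 5) (nat_lit 47) (nat_lit 5) (nat_lit 377) (nat_lit 299) (nat_lit 269)) (XT.lf (nat_lit 0) (nat_lit 4041297881) (nat_lit 336) (nat_lit 601996725) (nat_lit 84) (nat_lit 7783260118)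 (nat_lit 46) (nat_lit 5) (nat_lit 50) (nat_lit 5) (nat_lit 47) (nat_lit 5) (nat_lit 378) (nat_lit 299) (nat_lit 268))) (XT.nd (nat_lit 94) (nat_lit 0) (nat_lit 0) (XT.lf (nat_lit 0) (nat_lit 5700058868) (nat_lit 252) (nat_lit 1480322316) (nat_lit 336) (nat_lit 5493395973) (nat_lit 43) (nat_lit 5) (nat_lit 46) (nat_lit 5) (nat_lit 47) (nat_lit 5) (nat_lit 379) (nat_lit 299) (nat_lit 267)) (XT.lf (nat_lit 0) (nat_lit 10384350345) (nat_lit 336) (nat_lit 824245048) (nat_lit 84) (nat_lit 1720754876) (nat_lit 43) (nat_lit 5) (nat_lit 47) (nat_lit 5) (nat_lit 44) (nat_lit 4) (nat_lit 380) (nat_lit 299) (nat_lit 266))))))) (XT.nd (nat_lit 56588) (nat_lit 0) (nat_lit 3108) (XT.nd (nat_lit 752) (nat_lit 0) (nat_lit 0) (XT.nd (nat_lit 376) (nat_lit 420) (nat_lit 0) (XT.nd (nat_lit 188) (nat_lit 252) (nat_lit 0) (XT.nd (nat_lit 94) (nat_lit 0) (nat_lit 0) (XT.lf (nat_lit 0) (nat_lit 499126004) (nat_lit 252)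 (nat_lit 7674189766) (nat_lit 84) (nat_lit 5018678923) (nat_lit 40) (nat_lit 5) (nat_lit 43) (nat_lit 5) (nat_lit 41) (nat_lit 5) (nat_lit 381) (nat_lit 299) (nat_lit 265)) (XT.lf (nat_lit 0) (nat_lit 3541021112) (nat_lit 252) (nat_lit 1500795533) (nat_lit 84) (nat_lit 8421268651) (nat_lit 40) (nat_lit 5) (nat_lit 43) (nat_lit 5) (nat_lit 41) (nat_lit 5) (nat_lit 382) (nat_lit 299) (nat_lit 264))) (XT.nd (nat_lit 94) (nat_lit 0) (nat_lit 0) (XT.lf (nat_lit 0) (nat_lit 4875008162) (nat_lit 252) (nat_lit 1796698035) (nat_lit 336) (nat_lit 7070725655) (nat_lit 37) (nat_lit 5) (nat_lit 40) (nat_lit 5) (nat_lit 41) (nat_lit 5) (nat_lit 383) (nat_lit 299) (nat_lit 263)) (XT.lf (nat_lit 0) (nat_lit 9877568345) (nat_lit 336) (nat_lit 2650252328) (nat_lit 84) (nat_lit 1502948233) (nat_lit 37) (nat_lit 5) (nat_lit 41) (nat_lit 5) (nat_lit 38) (nat_lit 4) (nat_lit 384) (nat_lit 299) (nat_lit 262)))) (XT.nd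 (nat_lit 188) (nat_lit 168) (nat_lit 0) (XT.nd (nat_lit 94) (nat_lit 84) (nat_lit 0) (XT.lf (nat_lit 0) (nat_lit 3732370272) (nat_lit 168) (nat_lit 9453419933) (nat_lit 252) (nat_lit 1141826755) (nat_lit 35) (nat_lit 5) (nat_lit 37) (nat_lit 5) (nat_lit 38) (nat_lit 4) (nat_lit 385) (nat_lit 299) (nat_lit 261)) (XT.lf (nat_lit 0) (nat_lit 1901338850) (nat_lit 252) (nat_lit 4367219478) (nat_lit 84) (nat_lit 8364899826) (nat_lit 34) (nat_lit 5) (nat_lit 37) (nat_lit 5) (nat_lit 35) (nat_lit 5) (nat_lit 386) (nat_lit 299) (nat_lit 260))) (XT.nd (nat_lit 94) (nat_lit 0) (nat_lit 0) (XT.lf (nat_lit 0) (nat_lit 2001272651) (nat_lit 168) (nat_lit 2984860992) (nat_lit 252) (nat_lit 9962845737) (nat_lit 32) (nat_lit 5) (nat_lit 34) (nat_lit 5) (nat_lit 35) (nat_lit 5) (nat_lit 387) (nat_lit 299) (nat_lit 259)) (XT.lf (nat_lit 0) (nat_lit 8166238217) (nat_lit 252) (nat_lit 6701083151) (nat_lit 84) (nat_lit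 406603126) (nat_lit 32) (nat_lit 5) (nat_lit 35) (nat_lit 5) (nat_lit 33) (nat_lit 4) (nat_lit 388) (nat_lit 299) (nat_lit 258))))) (XT.nd (nat_lit 55460) (nat_lit 0) (nat_lit 7140) (XT.nd (nat_lit 55272) (nat_lit 0) (nat_lit 8820) (XT.nd (nat_lit 55178) (nat_lit 0) (nat_lit 9492) (XT.lf (nat_lit 0) (nat_lit 11427036288) (nat_lit 252) (nat_lit 368970253) (nat_lit 84) (nat_lit 3813092737) (nat_lit 32) (nat_lit 5) (nat_lit 35) (nat_lit 5) (nat_lit 33) (nat_lit 4) (nat_lit 389) (nat_lit 299) (nat_lit 257)) (XT.lf (nat_lit 0) (nat_lit 331926992) (nat_lit 588) (nat_lit 1714555020) (nat_lit 588) (nat_lit 1714555020) (nat_lit 145) (nat_lit 4) (nat_lit 152) (nat_lit 5) (nat_lit 152) (nat_lit 4) (nat_lit 345) (nat_lit 300) (nat_lit 300))) (XT.nd (nat_lit 94) (nat_lit 672) (nat_lit 0) (XT.lf (nat_lit 0) (nat_lit 5687844762) (nat_lit 588) (nat_lit 1664685987) (nat_lit 588) (nat_lit 247076452) (nat_lit 145)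 (nat_lit 4) (nat_lit 152) (nat_lit 5) (nat_lit 152) (nat_lit 4) (nat_lit 346) (nat_lit 300) (nat_lit 299)) (XT.lf (nat_lit 0) (nat_lit 2913309743) (nat_lit 672) (nat_lit 4566456792) (nat_lit 0) (nat_lit 200756859) (nat_lit 137) (nat_lit 5) (nat_lit 145) (nat_lit 4) (nat_lit 137) (nat_lit 4) (nat_lit 347) (nat_lit 300) (nat_lit 298)))) (XT.nd (nat_lit 188) (nat_lit 1008) (nat_lit 0) (XT.nd (nat_lit 94) (nat_lit 84) (nat_lit 0) (XT.lf (nat_lit 0) (nat_lit 455903510) (nat_lit 588) (nat_lit 5659690595) (nat_lit 588) (nat_lit 1649824169) (nat_lit 130) (nat_lit 4) (nat_lit 137) (nat_lit 5) (nat_lit 137) (nat_lit 4) (nat_lit 348) (nat_lit 300) (nat_lit 297)) (XT.lf (nat_lit 0) (nat_lit 1489465752) (nat_lit 672) (nat_lit 2245778660) (nat_lit 84) (nat_lit 4118575651) (nat_lit 129) (nat_lit 5) (nat_lit 137) (nat_lit 5) (nat_lit 130) (nat_lit 4) (nat_lit 349) (nat_lit 300) (nat_lit 296))) (XT.nd (nat_lit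 94) (nat_lit 504) (nat_lit 0) (XT.lf (nat_lit 0) (nat_lit 2911927850) (nat_lit 504) (nat_lit 1720665462) (nat_lit 588) (nat_lit 3313676352) (nat_lit 123) (nat_lit 5) (nat_lit 129) (nat_lit 5) (nat_lit 130) (nat_lit 4) (nat_lit 350) (nat_lit 300) (nat_lit 295)) (XT.lf (nat_lit 0) (nat_lit 128460082) (nat_lit 504) (nat_lit 7685336602) (nat_lit 504) (nat_lit 229548017) (nat_lit 117) (nat_lit 4) (nat_lit 123) (nat_lit 5) (nat_lit 123) (nat_lit 4) (nat_lit 351) (nat_lit 300) (nat_lit 294)))))) (XT.nd (nat_lit 752) (nat_lit 1680) (nat_lit 0) (XT.nd (nat_lit 376) (nat_lit 1260) (nat_lit 0) (XT.nd (nat_lit 188) (nat_lit 588) (nat_lit 0) (XT.nd (nat_lit 94) (nat_lit 420) (nat_lit 0) (XT.lf (nat_lit 0) (nat_lit 2874726295) (nat_lit 588) (nat_lit 2739168260) (nat_lit 84) (nat_lit 2529189543) (nat_lit 116) (nat_lit 5) (nat_lit 123) (nat_lit 5) (nat_lit 117) (nat_lit 4) (nat_lit 352) (nat_lit 300) (nat_lit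 293)) (XT.lf (nat_lit 0) (nat_lit 2541235008) (nat_lit 420) (nat_lit 3469886822) (nat_lit 504) (nat_lit 2236468836) (nat_lit 111) (nat_lit 5) (nat_lit 116) (nat_lit 5) (nat_lit 117) (nat_lit 4) (nat_lit 353) (nat_lit 300) (nat_lit 292))) (XT.nd (nat_lit 94) (nat_lit 504) (nat_lit 0) (XT.lf (nat_lit 0) (nat_lit 816685202) (nat_lit 504) (nat_lit 425678305) (nat_lit 84) (nat_lit 7114327850) (nat_lit 110) (nat_lit 5) (nat_lit 116) (nat_lit 5) (nat_lit 111) (nat_lit 5) (nat_lit 354) (nat_lit 300) (nat_lit 291)) (XT.lf (nat_lit 0) (nat_lit 3897123725) (nat_lit 588) (nat_lit 3487176921) (nat_lit 84) (nat_lit 1084819430) (nat_lit 104) (nat_lit 5) (nat_lit 111) (nat_lit 5) (nat_lit 105) (nat_lit 4) (nat_lit 355) (nat_lit 300) (nat_lit 290)))) (XT.nd (nat_lit 188) (nat_lit 756) (nat_lit 0) (XT.nd (nat_lit 94) (nat_lit 84) (nat_lit 0) (XT.lf (nat_lit 0) (nat_lit 1903398922) (nat_lit 420) (nat_lit 5124709510)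 (nat_lit 504) (nat_lit 1558203725) (nat_lit 99) (nat_lit 5) (nat_lit 104) (nat_lit 5) (nat_lit 105) (nat_lit 4) (nat_lit 356) (nat_lit 300) (nat_lit 289)) (XT.lf (nat_lit 0) (nat_lit 1475028668) (nat_lit 504) (nat_lit 1291818647) (nat_lit 84) (nat_lit 5941077802) (nat_lit 98) (nat_lit 5) (nat_lit 104) (nat_lit 5) (nat_lit 99) (nat_lit 5) (nat_lit 357) (nat_lit 300) (nat_lit 288))) (XT.nd (nat_lit 94) (nat_lit 336) (nat_lit 0) (XT.lf (nat_lit 0) (nat_lit 4233214403) (nat_lit 420) (nat_lit 301273612) (nat_lit 504) (nat_lit 4299362246) (nat_lit 93) (nat_lit 5) (nat_lit 98) (nat_lit 5) (nat_lit 99) (nat_lit 5) (nat_lit 358) (nat_lit 300) (nat_lit 287)) (XT.lf (nat_lit 0) (nat_lit 886834641) (nat_lit 336) (nat_lit 6769019197) (nat_lit 420) (nat_lit 1308715133) (nat_lit 89) (nat_lit 5) (nat_lit 93) (nat_lit 5) (nat_lit 94) (nat_lit 4) (nat_lit 359) (nat_lit 300) (nat_lit 286))))) (XT.nd (nat_lit 376)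 (nat_lit 756) (nat_lit 0) (XT.nd (nat_lit 188) (nat_lit 420) (nat_lit 0) (XT.nd (nat_lit 94) (nat_lit 420) (nat_lit 0) (XT.lf (nat_lit 0) (nat_lit 1714277029) (nat_lit 420) (nat_lit 2581811402) (nat_lit 84) (nat_lit 4803406634) (nat_lit 88) (nat_lit 5) (nat_lit 93) (nat_lit 5) (nat_lit 89) (nat_lit 5) (nat_lit 360) (nat_lit 300) (nat_lit 285)) (XT.lf (nat_lit 0) (nat_lit 3031239731) (nat_lit 420) (nat_lit 1728967703) (nat_lit 504) (nat_lit 4479225562) (nat_lit 83) (nat_lit 5) (nat_lit 88) (nat_lit 5) (nat_lit 89) (nat_lit 5) (nat_lit 361) (nat_lit 300) (nat_lit 284))) (XT.nd (nat_lit 94) (nat_lit 420) (nat_lit 0) (XT.lf (nat_lit 0) (nat_lit 7862991372) (nat_lit 504) (nat_lit 621218569) (nat_lit 84) (nat_lit 900501025) (nat_lit 83) (nat_lit 5) (nat_lit 89) (nat_lit 5) (nat_lit 84) (nat_lit 4) (nat_lit 362) (nat_lit 300) (nat_lit 283)) (XT.lf (nat_lit 0) (nat_lit 1493400882) (nat_lit 420) (nat_lit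 4425110931) (nat_lit 84) (nat_lit 3615536758) (nat_lit 78) (nat_lit 5) (nat_lit 83) (nat_lit 5) (nat_lit 79) (nat_lit 5) (nat_lit 363) (nat_lit 300) (nat_lit 282)))) (XT.nd (nat_lit 188) (nat_lit 420) (nat_lit 0) (XT.nd (nat_lit 94) (nat_lit 0) (nat_lit 0) (XT.lf (nat_lit 0) (nat_lit 1252620203) (nat_lit 336) (nat_lit 3266858631) (nat_lit 420) (nat_lit 5169499967) (nat_lit 74) (nat_lit 5) (nat_lit 78) (nat_lit 5) (nat_lit 79) (nat_lit 5) (nat_lit 364) (nat_lit 300) (nat_lit 281)) (XT.lf (nat_lit 0) (nat_lit 7099553930) (nat_lit 336) (nat_lit 515259908) (nat_lit 420) (nat_lit 2234483188) (nat_lit 74) (nat_lit 5) (nat_lit 78) (nat_lit 5) (nat_lit 79) (nat_lit 5) (nat_lit 365) (nat_lit 300) (nat_lit 280))) (XT.nd (nat_lit 94) (nat_lit 0) (nat_lit 0) (XT.lf (nat_lit 0) (nat_lit 760103537) (nat_lit 420) (nat_lit 6968528857) (nat_lit 84) (nat_lit 2286046681) (nat_lit 69) (nat_lit 5) (nat_lit 74) (nat_lit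 5) (nat_lit 70) (nat_lit 5) (nat_lit 366) (nat_lit 300) (nat_lit 279)) (XT.lf (nat_lit 0) (nat_lit 3768537146) (nat_lit 420) (nat_lit 1230820853) (nat_lit 84) (nat_lit 5186019598) (nat_lit 69) (nat_lit 5) (nat_lit 74) (nat_lit 5) (nat_lit 70) (nat_lit 5) (nat_lit 367) (nat_lit 300) (nat_lit 278))))))))
noncomputable def xc8 : XT := (XT.nd (nat_lit 57810) (nat_lit 0) (nat_lit 672) (XT.nd (nat_lit 1410) (nat_lit 672) (nat_lit 0) (XT.nd (nat_lit 658) (nat_lit 1092) (nat_lit 0) (XT.nd (nat_lit 282) (nat_lit 672) (nat_lit 0) (XT.nd (nat_lit 94) (nat_lit 336) (nat_lit 0) (XT.lf (nat_lit 0) (nat_lit 4681617743) (nat_lit 336) (nat_lit 2168255839) (nat_lit 420) (nat_lit 3511927808) (nat_lit 65) (nat_lit 5) (nat_lit 69) (nat_lit 5) (nat_lit 70) (nat_lit 5) (nat_lit 368) (nat_lit 300) (nat_lit 277)) (XT.nd (nat_lit 94) (nat_lit 84) (nat_lit 0) (XT.lf (nat_lit 0) (nat_lit 159767805) (nat_lit 252) (nat_lit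 9823521900) (nat_lit 336) (nat_lit 561520375) (nat_lit 62) (nat_lit 5) (nat_lit 65) (nat_lit 5) (nat_lit 66) (nat_lit 4) (nat_lit 369) (nat_lit 300) (nat_lit 276)) (XT.lf (nat_lit 0) (nat_lit 2447079003) (nat_lit 336) (nat_lit 4576056231) (nat_lit 84) (nat_lit 3708995385) (nat_lit 61) (nat_lit 5) (nat_lit 65) (nat_lit 5) (nat_lit 62) (nat_lit 5) (nat_lit 370) (nat_lit 300) (nat_lit 275)))) (XT.nd (nat_lit 188) (nat_lit 336) (nat_lit 0) (XT.nd (nat_lit 94) (nat_lit 0) (nat_lit 0) (XT.lf (nat_lit 0) (nat_lit 1340443368) (nat_lit 336) (nat_lit 4147507881) (nat_lit 420) (nat_lit 5438428174) (nat_lit 57) (nat_lit 5) (nat_lit 61) (nat_lit 5) (nat_lit 62) (nat_lit 5) (nat_lit 371) (nat_lit 300) (nat_lit 274)) (XT.lf (nat_lit 0) (nat_lit 7441745732) (nat_lit 336) (nat_lit 1165832859) (nat_lit 420) (nat_lit 2519323529) (nat_lit 57) (nat_lit 5) (nat_lit 61) (nat_lit 5) (nat_lit 62) (nat_lit 5) (nat_lit 372)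 (nat_lit 300) (nat_lit 273))) (XT.nd (nat_lit 94) (nat_lit 0) (nat_lit 0) (XT.lf (nat_lit 0) (nat_lit 461135919) (nat_lit 336) (nat_lit 9004139079) (nat_lit 84) (nat_lit 1868594353) (nat_lit 53) (nat_lit 5) (nat_lit 57) (nat_lit 5) (nat_lit 54) (nat_lit 5) (nat_lit 373) (nat_lit 300) (nat_lit 272)) (XT.lf (nat_lit 0) (nat_lit 3472494813) (nat_lit 336) (nat_lit 3068038429) (nat_lit 84) (nat_lit 5006066555) (nat_lit 53) (nat_lit 5) (nat_lit 57) (nat_lit 5) (nat_lit 54) (nat_lit 5) (nat_lit 374) (nat_lit 300) (nat_lit 271))))) (XT.nd (nat_lit 376) (nat_lit 504) (nat_lit 0) (XT.nd (nat_lit 188) (nat_lit 336) (nat_lit 0) (XT.nd (nat_lit 94) (nat_lit 0) (nat_lit 0) (XT.lf (nat_lit 0) (nat_lit 3021751562) (nat_lit 252) (nat_lit 3526147480) (nat_lit 336) (nat_lit 5218666211) (nat_lit 50) (nat_lit 5) (nat_lit 53) (nat_lit 5) (nat_lit 54) (nat_lit 5) (nat_lit 375) (nat_lit 300) (nat_lit 270)) (XT.lf (nat_lit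 0) (nat_lit 9274585344) (nat_lit 252) (nat_lit 417437343) (nat_lit 336) (nat_lit 2301875632) (nat_lit 50) (nat_lit 5) (nat_lit 53) (nat_lit 5) (nat_lit 54) (nat_lit 5) (nat_lit 376) (nat_lit 300) (nat_lit 269))) (XT.nd (nat_lit 94) (nat_lit 0) (nat_lit 0) (XT.lf (nat_lit 0) (nat_lit 695412341) (nat_lit 336) (nat_lit 8788825485) (nat_lit 84) (nat_lit 2743468758) (nat_lit 46) (nat_lit 5) (nat_lit 50) (nat_lit 5) (nat_lit 47) (nat_lit 5) (nat_lit 377) (nat_lit 300) (nat_lit 268)) (XT.lf (nat_lit 0) (nat_lit 3715217662) (nat_lit 336) (nat_lit 2739174156) (nat_lit 84) (nat_lit 6014144700) (nat_lit 46) (nat_lit 5) (nat_lit 50) (nat_lit 5) (nat_lit 47) (nat_lit 5) (nat_lit 378) (nat_lit 300) (nat_lit 267)))) (XT.nd (nat_lit 188) (nat_lit 252) (nat_lit 0) (XT.nd (nat_lit 94) (nat_lit 0) (nat_lit 0) (XT.lf (nat_lit 0) (nat_lit 3480428696) (nat_lit 252) (nat_lit 3327187642) (nat_lit 336) (nat_lit 5909570448)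 (nat_lit 43) (nat_lit 5) (nat_lit 46) (nat_lit 5) (nat_lit 47) (nat_lit 5) (nat_lit 379) (nat_lit 300) (nat_lit 266)) (XT.lf (nat_lit 0) (nat_lit 9864095262) (nat_lit 252) (nat_lit 105637656) (nat_lit 336) (nat_lit 3004309058) (nat_lit 43) (nat_lit 5) (nat_lit 46) (nat_lit 5) (nat_lit 47) (nat_lit 5) (nat_lit 380) (nat_lit 300) (nat_lit 265))) (XT.nd (nat_lit 94) (nat_lit 0) (nat_lit 0) (XT.lf (nat_lit 0) (nat_lit 104769) (nat_lit 252) (nat_lit 10084629305) (nat_lit 84) (nat_lit 3153570006) (nat_lit 40) (nat_lit 5) (nat_lit 43) (nat_lit 5) (nat_lit 41) (nat_lit 5) (nat_lit 381) (nat_lit 300) (nat_lit 264)) (XT.lf (nat_lit 0) (nat_lit 3017700155) (nat_lit 252) (nat_lit 3949619964) (nat_lit 84) (nat_lit 6542827806) (nat_lit 40) (nat_lit 5) (nat_lit 43) (nat_lit 5) (nat_lit 41) (nat_lit 5) (nat_lit 382) (nat_lit 300) (nat_lit 263)))))) (XT.nd (nat_lit 55648) (nat_lit 0) (nat_lit 7560) (XT.nd (nat_lit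 376) (nat_lit 168) (nat_lit 0) (XT.nd (nat_lit 188) (nat_lit 252) (nat_lit 0) (XT.nd (nat_lit 94) (nat_lit 0) (nat_lit 0) (XT.lf (nat_lit 0) (nat_lit 2339438753) (nat_lit 252) (nat_lit 3760981080) (nat_lit 336) (nat_lit 7690537156) (nat_lit 37) (nat_lit 5) (nat_lit 40) (nat_lit 5) (nat_lit 41) (nat_lit 5) (nat_lit 383) (nat_lit 300) (nat_lit 262)) (XT.lf (nat_lit 0) (nat_lit 8823222475) (nat_lit 252) (nat_lit 445065180) (nat_lit 336) (nat_lit 4812169076) (nat_lit 37) (nat_lit 5) (nat_lit 40) (nat_lit 5) (nat_lit 41) (nat_lit 5) (nat_lit 384) (nat_lit 300) (nat_lit 261))) (XT.nd (nat_lit 94) (nat_lit 84) (nat_lit 0) (XT.lf (nat_lit 0) (nat_lit 1040744200) (nat_lit 168) (nat_lit 11482904127) (nat_lit 252) (nat_lit 1855264486) (nat_lit 35) (nat_lit 5) (nat_lit 37) (nat_lit 5) (nat_lit 38) (nat_lit 4) (nat_lit 385) (nat_lit 300) (nat_lit 260)) (XT.lf (nat_lit 0) (nat_lit 1179185592) (nat_lit 252) (nat_lit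 7139797058) (nat_lit 84) (nat_lit 6366677135) (nat_lit 34) (nat_lit 5) (nat_lit 37) (nat_lit 5) (nat_lit 35) (nat_lit 5) (nat_lit 386) (nat_lit 300) (nat_lit 259)))) (XT.nd (nat_lit 188) (nat_lit 0) (nat_lit 0) (XT.nd (nat_lit 94) (nat_lit 168) (nat_lit 0) (XT.lf (nat_lit 0) (nat_lit 4222765000) (nat_lit 252) (nat_lit 845807116) (nat_lit 84) (nat_lit 9933865667) (nat_lit 34) (nat_lit 5) (nat_lit 37) (nat_lit 5) (nat_lit 35) (nat_lit 5) (nat_lit 387) (nat_lit 300) (nat_lit 258)) (XT.lf (nat_lit 0) (nat_lit 5677931651) (nat_lit 168) (nat_lit 1690984168) (nat_lit 252) (nat_lit 7959505408) (nat_lit 32) (nat_lit 5) (nat_lit 34) (nat_lit 5) (nat_lit 35) (nat_lit 5) (nat_lit 388) (nat_lit 300) (nat_lit 257))) (XT.nd (nat_lit 54990) (nat_lit 0) (nat_lit 10752) (XT.lf (nat_lit 0) (nat_lit 10592289898) (nat_lit 252) (nat_lit 3336727247) (nat_lit 84) (nat_lit 1735720730) (nat_lit 32) (nat_lit 5) (nat_lit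 35) (nat_lit 5) (nat_lit 33) (nat_lit 4) (nat_lit 389) (nat_lit 300) (nat_lit 256)) (XT.lf (nat_lit 0) (nat_lit 2880828596) (nat_lit 1260) (nat_lit 403889292) (nat_lit 1260) (nat_lit 403889292) (nat_lit 160) (nat_lit 4) (nat_lit 175) (nat_lit 5) (nat_lit 175) (nat_lit 4) (nat_lit 343) (nat_lit 301) (nat_lit 301))))) (XT.nd (nat_lit 376) (nat_lit 1260) (nat_lit 0) (XT.nd (nat_lit 188) (nat_lit 672) (nat_lit 0) (XT.nd (nat_lit 94) (nat_lit 588) (nat_lit 0) (XT.lf (nat_lit 0) (nat_lit 2341086152) (nat_lit 672) (nat_lit 4226383838) (nat_lit 0) (nat_lit 880948332) (nat_lit 152) (nat_lit 5) (nat_lit 160) (nat_lit 4) (nat_lit 152) (nat_lit 4) (nat_lit 344) (nat_lit 301) (nat_lit 300)) (XT.lf (nat_lit 0) (nat_lit 614794425) (nat_lit 588) (nat_lit 4893239622) (nat_lit 588) (nat_lit 2015492267) (nat_lit 145) (nat_lit 4) (nat_lit 152) (nat_lit 5) (nat_lit 152) (nat_lit 4) (nat_lit 345) (nat_lit 301) (nat_lit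 299))) (XT.nd (nat_lit 94) (nat_lit 588) (nat_lit 0) (XT.lf (nat_lit 0) (nat_lit 1099494139) (nat_lit 672) (nat_lit 2022094189) (nat_lit 84) (nat_lit 4480557686) (nat_lit 144) (nat_lit 5) (nat_lit 152) (nat_lit 5) (nat_lit 145) (nat_lit 4) (nat_lit 346) (nat_lit 301) (nat_lit 298)) (XT.lf (nat_lit 0) (nat_lit 2953014067) (nat_lit 588) (nat_lit 1255515148) (nat_lit 672) (nat_lit 3475949342) (nat_lit 137) (nat_lit 5) (nat_lit 144) (nat_lit 5) (nat_lit 145) (nat_lit 4) (nat_lit 347) (nat_lit 301) (nat_lit 297)))) (XT.nd (nat_lit 188) (nat_lit 588) (nat_lit 0) (XT.nd (nat_lit 94) (nat_lit 84) (nat_lit 0) (XT.lf (nat_lit 0) (nat_lit 250925525) (nat_lit 588) (nat_lit 7103614415) (nat_lit 588) (nat_lit 416610743) (nat_lit 130) (nat_lit 4) (nat_lit 137) (nat_lit 5) (nat_lit 137) (nat_lit 4) (nat_lit 348) (nat_lit 301) (nat_lit 296)) (XT.lf (nat_lit 0) (nat_lit 2656657866) (nat_lit 672) (nat_lit 2516830640)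 (nat_lit 84) (nat_lit 2687050965) (nat_lit 129) (nat_lit 5) (nat_lit 137) (nat_lit 5) (nat_lit 130) (nat_lit 4) (nat_lit 349) (nat_lit 301) (nat_lit 295))) (XT.nd (nat_lit 94) (nat_lit 84) (nat_lit 0) (XT.lf (nat_lit 0) (nat_lit 2587469583) (nat_lit 504) (nat_lit 3168462120) (nat_lit 588) (nat_lit 2198454462) (nat_lit 123) (nat_lit 5) (nat_lit 129) (nat_lit 5) (nat_lit 130) (nat_lit 4) (nat_lit 350) (nat_lit 301) (nat_lit 294)) (XT.lf (nat_lit 0) (nat_lit 823141687) (nat_lit 588) (nat_lit 259086064) (nat_lit 84) (nat_lit 6970412331) (nat_lit 122) (nat_lit 5) (nat_lit 129) (nat_lit 5) (nat_lit 123) (nat_lit 5) (nat_lit 351) (nat_lit 301) (nat_lit 293))))))) (XT.nd (nat_lit 1504) (nat_lit 2436) (nat_lit 0) (XT.nd (nat_lit 752) (nat_lit 1680) (nat_lit 0) (XT.nd (nat_lit 376) (nat_lit 1260) (nat_lit 0) (XT.nd (nat_lit 188) (nat_lit 588) (nat_lit 0) (XT.nd (nat_lit 94) (nat_lit 420) (nat_lit 0) (XT.lf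 (nat_lit 0) (nat_lit 3870155037) (nat_lit 588) (nat_lit 3181247519) (nat_lit 84) (nat_lit 1102568744) (nat_lit 116) (nat_lit 5) (nat_lit 123) (nat_lit 5) (nat_lit 117) (nat_lit 4) (nat_lit 352) (nat_lit 301) (nat_lit 292)) (XT.lf (nat_lit 0) (nat_lit 2042603481) (nat_lit 420) (nat_lit 4920500141) (nat_lit 504) (nat_lit 1296750049) (nat_lit 111) (nat_lit 5) (nat_lit 116) (nat_lit 5) (nat_lit 117) (nat_lit 4) (nat_lit 353) (nat_lit 301) (nat_lit 291))) (XT.nd (nat_lit 94) (nat_lit 504) (nat_lit 0) (XT.lf (nat_lit 0) (nat_lit 1699648168) (nat_lit 504) (nat_lit 992801962) (nat_lit 84) (nat_lit 5677454032) (nat_lit 110) (nat_lit 5) (nat_lit 116) (nat_lit 5) (nat_lit 111) (nat_lit 5) (nat_lit 354) (nat_lit 301) (nat_lit 290)) (XT.lf (nat_lit 0) (nat_lit 4367753907) (nat_lit 504) (nat_lit 358388500) (nat_lit 588) (nat_lit 3757875056) (nat_lit 104) (nat_lit 5) (nat_lit 110) (nat_lit 5) (nat_lit 111) (nat_lit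 5) (nat_lit 355) (nat_lit 301) (nat_lit 289)))) (XT.nd (nat_lit 188) (nat_lit 756) (nat_lit 0) (XT.nd (nat_lit 94) (nat_lit 84) (nat_lit 0) (XT.lf (nat_lit 0) (nat_lit 1217929299) (nat_lit 420) (nat_lit 6592430478) (nat_lit 504) (nat_lit 792317110) (nat_lit 99) (nat_lit 5) (nat_lit 104) (nat_lit 5) (nat_lit 105) (nat_lit 4) (nat_lit 356) (nat_lit 301) (nat_lit 288)) (XT.lf (nat_lit 0) (nat_lit 2189445982) (nat_lit 504) (nat_lit 2047799345) (nat_lit 84) (nat_lit 4487980006) (nat_lit 98) (nat_lit 5) (nat_lit 104) (nat_lit 5) (nat_lit 99) (nat_lit 5) (nat_lit 357) (nat_lit 301) (nat_lit 287))) (XT.nd (nat_lit 94) (nat_lit 336) (nat_lit 0) (XT.lf (nat_lit 0) (nat_lit 3415862701) (nat_lit 420) (nat_lit 1789725458) (nat_lit 504) (nat_lit 3646920698) (nat_lit 93) (nat_lit 5) (nat_lit 98) (nat_lit 5) (nat_lit 99) (nat_lit 5) (nat_lit 358) (nat_lit 301) (nat_lit 286)) (XT.lf (nat_lit 0) (nat_lit 1881716)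 (nat_lit 336) (nat_lit 8267300602) (nat_lit 420) (nat_lit 715835549) (nat_lit 89) (nat_lit 5) (nat_lit 93) (nat_lit 5) (nat_lit 94) (nat_lit 4) (nat_lit 359) (nat_lit 301) (nat_lit 285))))) (XT.nd (nat_lit 376) (nat_lit 756) (nat_lit 0) (XT.nd (nat_lit 188) (nat_lit 420) (nat_lit 0) (XT.nd (nat_lit 94) (nat_lit 420) (nat_lit 0) (XT.lf (nat_lit 0) (nat_lit 2260816079) (nat_lit 420) (nat_lit 3539189345) (nat_lit 84) (nat_lit 3320864570) (nat_lit 88) (nat_lit 5) (nat_lit 93) (nat_lit 5) (nat_lit 89) (nat_lit 5) (nat_lit 360) (nat_lit 301) (nat_lit 284)) (XT.lf (nat_lit 0) (nat_lit 2008984784) (nat_lit 420) (nat_lit 3254176600) (nat_lit 504) (nat_lit 3999006395) (nat_lit 83) (nat_lit 5) (nat_lit 88) (nat_lit 5) (nat_lit 89) (nat_lit 5) (nat_lit 361) (nat_lit 301) (nat_lit 283))) (XT.nd (nat_lit 94) (nat_lit 420) (nat_lit 0) (XT.lf (nat_lit 0) (nat_lit 7705842099) (nat_lit 420) (nat_lit 618071828) (nat_lit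 504) (nat_lit 1084843540) (nat_lit 83) (nat_lit 5) (nat_lit 88) (nat_lit 5) (nat_lit 89) (nat_lit 5) (nat_lit 362) (nat_lit 301) (nat_lit 282)) (XT.lf (nat_lit 0) (nat_lit 1871954337) (nat_lit 420) (nat_lit 5596542706) (nat_lit 84) (nat_lit 2091013833) (nat_lit 78) (nat_lit 5) (nat_lit 83) (nat_lit 5) (nat_lit 79) (nat_lit 5) (nat_lit 363) (nat_lit 301) (nat_lit 281)))) (XT.nd (nat_lit 188) (nat_lit 420) (nat_lit 0) (XT.nd (nat_lit 94) (nat_lit 0) (nat_lit 0) (XT.lf (nat_lit 0) (nat_lit 12633369) (nat_lit 336) (nat_lit 4841298418) (nat_lit 420) (nat_lit 4861878802) (nat_lit 74) (nat_lit 5) (nat_lit 78) (nat_lit 5) (nat_lit 79) (nat_lit 5) (nat_lit 364) (nat_lit 301) (nat_lit 280)) (XT.lf (nat_lit 0) (nat_lit 5815643533) (nat_lit 336) (nat_lit 2101957358) (nat_lit 420) (nat_lit 1959523014) (nat_lit 74) (nat_lit 5) (nat_lit 78) (nat_lit 5) (nat_lit 79) (nat_lit 5) (nat_lit 365) (nat_lit 301) (nat_lit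 279))) (XT.nd (nat_lit 94) (nat_lit 0) (nat_lit 0) (XT.lf (nat_lit 0) (nat_lit 969821331) (nat_lit 420) (nat_lit 8366882179) (nat_lit 84) (nat_lit 707561983) (nat_lit 69) (nat_lit 5) (nat_lit 74) (nat_lit 5) (nat_lit 70) (nat_lit 5) (nat_lit 366) (nat_lit 301) (nat_lit 278)) (XT.lf (nat_lit 0) (nat_lit 3947539298) (nat_lit 420) (nat_lit 2672896280) (nat_lit 84) (nat_lit 3595491193) (nat_lit 69) (nat_lit 5) (nat_lit 74) (nat_lit 5) (nat_lit 70) (nat_lit 5) (nat_lit 367) (nat_lit 301) (nat_lit 277)))))) (XT.nd (nat_lit 752) (nat_lit 840) (nat_lit 0) (XT.nd (nat_lit 376) (nat_lit 924) (nat_lit 0) (XT.nd (nat_lit 188) (nat_lit 336) (nat_lit 0) (XT.nd (nat_lit 94) (nat_lit 0) (nat_lit 0) (XT.lf (nat_lit 0) (nat_lit 3167548731) (nat_lit 336) (nat_lit 3816951833) (nat_lit 420) (nat_lit 3409221339) (nat_lit 65) (nat_lit 5) (nat_lit 69) (nat_lit 5) (nat_lit 70) (nat_lit 5) (nat_lit 368) (nat_lit 301) (nat_lit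 276)) (XT.lf (nat_lit 0) (nat_lit 9152672908) (nat_lit 336) (nat_lit 927295116) (nat_lit 420) (nat_lit 497939944) (nat_lit 65) (nat_lit 5) (nat_lit 69) (nat_lit 5) (nat_lit 70) (nat_lit 5) (nat_lit 369) (nat_lit 301) (nat_lit 275))) (XT.nd (nat_lit 94) (nat_lit 0) (nat_lit 0) (XT.lf (nat_lit 0) (nat_lit 2457041927) (nat_lit 336) (nat_lit 6257531425) (nat_lit 84) (nat_lit 2052244806) (nat_lit 61) (nat_lit 5) (nat_lit 65) (nat_lit 5) (nat_lit 62) (nat_lit 5) (nat_lit 370) (nat_lit 301) (nat_lit 274)) (XT.lf (nat_lit 0) (nat_lit 5456532063) (nat_lit 336) (nat_lit 408966548) (nat_lit 84) (nat_lit 5096845429) (nat_lit 61) (nat_lit 5) (nat_lit 65) (nat_lit 5) (nat_lit 62) (nat_lit 5) (nat_lit 371) (nat_lit 301) (nat_lit 273)))) (XT.nd (nat_lit 188) (nat_lit 252) (nat_lit 0) (XT.nd (nat_lit 94) (nat_lit 336) (nat_lit 0) (XT.lf (nat_lit 0) (nat_lit 5642828320) (nat_lit 336) (nat_lit 2901257010) (nat_lit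 420) (nat_lit 2619778206) (nat_lit 57) (nat_lit 5) (nat_lit 61) (nat_lit 5) (nat_lit 62) (nat_lit 5) (nat_lit 372) (nat_lit 301) (nat_lit 272)) (XT.lf (nat_lit 0) (nat_lit 299702386) (nat_lit 336) (nat_lit 10938526498) (nat_lit 84) (nat_lit 134551615) (nat_lit 53) (nat_lit 5) (nat_lit 57) (nat_lit 5) (nat_lit 54) (nat_lit 5) (nat_lit 373) (nat_lit 301) (nat_lit 271))) (XT.nd (nat_lit 94) (nat_lit 252) (nat_lit 0) (XT.lf (nat_lit 0) (nat_lit 3283799036) (nat_lit 336) (nat_lit 5043489363) (nat_lit 84) (nat_lit 3259072056) (nat_lit 53) (nat_lit 5) (nat_lit 57) (nat_lit 5) (nat_lit 54) (nat_lit 5) (nat_lit 374) (nat_lit 301) (nat_lit 270)) (XT.lf (nat_lit 0) (nat_lit 966324350) (nat_lit 252) (nat_lit 5346652692) (nat_lit 336) (nat_lit 5494766376) (nat_lit 50) (nat_lit 5) (nat_lit 53) (nat_lit 5) (nat_lit 54) (nat_lit 5) (nat_lit 375) (nat_lit 301) (nat_lit 269))))) (XT.nd (nat_lit 376) (nat_lit 252)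 (nat_lit 0) (XT.nd (nat_lit 188) (nat_lit 252) (nat_lit 0) (XT.nd (nat_lit 94) (nat_lit 336) (nat_lit 0) (XT.lf (nat_lit 0) (nat_lit 7179681500) (nat_lit 252) (nat_lit 2251342434) (nat_lit 336) (nat_lit 2604864678) (nat_lit 50) (nat_lit 5) (nat_lit 53) (nat_lit 5) (nat_lit 54) (nat_lit 5) (nat_lit 376) (nat_lit 301) (nat_lit 268)) (XT.lf (nat_lit 0) (nat_lit 333441086) (nat_lit 336) (nat_lit 11030432194) (nat_lit 84) (nat_lit 907885926) (nat_lit 46) (nat_lit 5) (nat_lit 50) (nat_lit 5) (nat_lit 47) (nat_lit 5) (nat_lit 377) (nat_lit 301) (nat_lit 267))) (XT.nd (nat_lit 94) (nat_lit 252) (nat_lit 0) (XT.lf (nat_lit 0) (nat_lit 3327898222) (nat_lit 336) (nat_lit 5019920626) (nat_lit 84) (nat_lit 4165558033) (nat_lit 46) (nat_lit 5) (nat_lit 50) (nat_lit 5) (nat_lit 47) (nat_lit 5) (nat_lit 378) (nat_lit 301) (nat_lit 266)) (XT.lf (nat_lit 0) (nat_lit 1115534861) (nat_lit 252) (nat_lit 5257419342)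 (nat_lit 336) (nat_lit 6390519726) (nat_lit 43) (nat_lit 5) (nat_lit 46) (nat_lit 5) (nat_lit 47) (nat_lit 5) (nat_lit 379) (nat_lit 301) (nat_lit 265)))) (XT.nd (nat_lit 188) (nat_lit 84) (nat_lit 0) (XT.nd (nat_lit 94) (nat_lit 168) (nat_lit 0) (XT.lf (nat_lit 0) (nat_lit 7461574205) (nat_lit 252) (nat_lit 2049241786) (nat_lit 336) (nat_lit 3510266500) (nat_lit 43) (nat_lit 5) (nat_lit 46) (nat_lit 5) (nat_lit 47) (nat_lit 5) (nat_lit 380) (nat_lit 301) (nat_lit 264)) (XT.lf (nat_lit 0) (nat_lit 636541097) (nat_lit 168) (nat_lit 12076400451) (nat_lit 252) (nat_lit 574424631) (nat_lit 41) (nat_lit 5) (nat_lit 43) (nat_lit 5) (nat_lit 44) (nat_lit 4) (nat_lit 381) (nat_lit 301) (nat_lit 263))) (XT.nd (nat_lit 94) (nat_lit 0) (nat_lit 0) (XT.lf (nat_lit 0) (nat_lit 2430787883) (nat_lit 252) (nat_lit 6547560907) (nat_lit 84) (nat_lit 4581758189) (nat_lit 40) (nat_lit 5) (nat_lit 43) (nat_lit 5) (nat_lit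 41) (nat_lit 5) (nat_lit 382) (nat_lit 301) (nat_lit 262)) (XT.lf (nat_lit 0) (nat_lit 5468114627) (nat_lit 252) (nat_lit 340334508) (nat_lit 84) (nat_lit 8033851555) (nat_lit 40) (nat_lit 5) (nat_lit 43) (nat_lit 5) (nat_lit 41) (nat_lit 5) (nat_lit 383) (nat_lit 301) (nat_lit 261))))))))
noncomputable def xc9 : XT := (XT.nd (nat_lit 57622) (nat_lit 0) (nat_lit 0) (XT.nd (nat_lit 56118) (nat_lit 0) (nat_lit 3528) (XT.nd (nat_lit 55366) (nat_lit 0) (nat_lit 8148) (XT.nd (nat_lit 282) (nat_lit 168) (nat_lit 0) (XT.nd (nat_lit 94) (nat_lit 252) (nat_lit 0) (XT.lf (nat_lit 0) (nat_lit 6100849166) (nat_lit 252) (nat_lit 2509214593) (nat_lit 336) (nat_lit 5522536428) (nat_lit 37) (nat_lit 5) (nat_lit 40) (nat_lit 5) (nat_lit 41) (nat_lit 5) (nat_lit 384) (nat_lit 301) (nat_lit 260)) (XT.nd (nat_lit 94) (nat_lit 252) (nat_lit 0) (XT.lf (nat_lit 0) (nat_lit 11813530342) (nat_lit 336) (nat_lit 1769578260)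 (nat_lit 84) (nat_lit 849526037) (nat_lit 37) (nat_lit 5) (nat_lit 41) (nat_lit 5) (nat_lit 38) (nat_lit 4) (nat_lit 385) (nat_lit 301) (nat_lit 259)) (XT.lf (nat_lit 0) (nat_lit 390752542) (nat_lit 252) (nat_lit 10067515770) (nat_lit 84) (nat_lit 4282538838) (nat_lit 34) (nat_lit 5) (nat_lit 37) (nat_lit 5) (nat_lit 35) (nat_lit 5) (nat_lit 386) (nat_lit 301) (nat_lit 258)))) (XT.nd (nat_lit 188) (nat_lit 0) (nat_lit 0) (XT.nd (nat_lit 94) (nat_lit 168) (nat_lit 0) (XT.lf (nat_lit 0) (nat_lit 3412994155) (nat_lit 252) (nat_lit 3807943449) (nat_lit 84) (nat_lit 7837307396) (nat_lit 34) (nat_lit 5) (nat_lit 37) (nat_lit 5) (nat_lit 35) (nat_lit 5) (nat_lit 387) (nat_lit 301) (nat_lit 257)) (XT.lf (nat_lit 0) (nat_lit 2622762803) (nat_lit 168) (nat_lit 3886297713) (nat_lit 252) (nat_lit 8876689606) (nat_lit 32) (nat_lit 5) (nat_lit 34) (nat_lit 5) (nat_lit 35) (nat_lit 5) (nat_lit 388) (nat_lit 301)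 (nat_lit 256))) (XT.nd (nat_lit 54802) (nat_lit 0) (nat_lit 12012) (XT.lf (nat_lit 0) (nat_lit 9257281590) (nat_lit 168) (nat_lit 437705159) (nat_lit 252) (nat_lit 6028222043) (nat_lit 32) (nat_lit 5) (nat_lit 34) (nat_lit 5) (nat_lit 35) (nat_lit 5) (nat_lit 389) (nat_lit 301) (nat_lit 255)) (XT.lf (nat_lit 0) (nat_lit 879469172) (nat_lit 1260) (nat_lit 1862760152) (nat_lit 0) (nat_lit 879469172) (nat_lit 175) (nat_lit 5) (nat_lit 190) (nat_lit 4) (nat_lit 175) (nat_lit 4) (nat_lit 341) (nat_lit 302) (nat_lit 302))))) (XT.nd (nat_lit 376) (nat_lit 1344) (nat_lit 0) (XT.nd (nat_lit 188) (nat_lit 1176) (nat_lit 0) (XT.nd (nat_lit 94) (nat_lit 84) (nat_lit 0) (XT.lf (nat_lit 0) (nat_lit 933756359) (nat_lit 1260) (nat_lit 3962219636) (nat_lit 1260) (nat_lit 2413159422) (nat_lit 160) (nat_lit 4) (nat_lit 175) (nat_lit 5) (nat_lit 175) (nat_lit 4) (nat_lit 342) (nat_lit 302) (nat_lit 301)) (XT.lf (nat_lit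 0) (nat_lit 681365569) (nat_lit 1344) (nat_lit 1669830064) (nat_lit 84) (nat_lit 5027271707) (nat_lit 159) (nat_lit 5) (nat_lit 175) (nat_lit 5) (nat_lit 160) (nat_lit 4) (nat_lit 343) (nat_lit 302) (nat_lit 300))) (XT.nd (nat_lit 94) (nat_lit 588) (nat_lit 0) (XT.lf (nat_lit 0) (nat_lit 3120972889) (nat_lit 588) (nat_lit 639673849) (nat_lit 672) (nat_lit 3690506455) (nat_lit 152) (nat_lit 5) (nat_lit 159) (nat_lit 5) (nat_lit 160) (nat_lit 4) (nat_lit 344) (nat_lit 302) (nat_lit 299)) (XT.lf (nat_lit 0) (nat_lit 467572876) (nat_lit 588) (nat_lit 6409160346) (nat_lit 588) (nat_lit 651151099) (nat_lit 145) (nat_lit 4) (nat_lit 152) (nat_lit 5) (nat_lit 152) (nat_lit 4) (nat_lit 345) (nat_lit 302) (nat_lit 298)))) (XT.nd (nat_lit 188) (nat_lit 672) (nat_lit 0) (XT.nd (nat_lit 94) (nat_lit 588) (nat_lit 0) (XT.lf (nat_lit 0) (nat_lit 2394218155) (nat_lit 672) (nat_lit 2233979339) (nat_lit 84) (nat_lit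 2979294606) (nat_lit 144) (nat_lit 5) (nat_lit 152) (nat_lit 5) (nat_lit 145) (nat_lit 4) (nat_lit 346) (nat_lit 302) (nat_lit 297)) (XT.lf (nat_lit 0) (nat_lit 2690183928) (nat_lit 588) (nat_lit 2768801128) (nat_lit 672) (nat_lit 2232256670) (nat_lit 137) (nat_lit 5) (nat_lit 144) (nat_lit 5) (nat_lit 145) (nat_lit 4) (nat_lit 347) (nat_lit 302) (nat_lit 296))) (XT.nd (nat_lit 94) (nat_lit 588) (nat_lit 0) (XT.lf (nat_lit 0) (nat_lit 760468931) (nat_lit 672) (nat_lit 71181346) (nat_lit 84) (nat_lit 6947623198) (nat_lit 136) (nat_lit 5) (nat_lit 144) (nat_lit 5) (nat_lit 137) (nat_lit 5) (nat_lit 348) (nat_lit 302) (nat_lit 295)) (XT.lf (nat_lit 0) (nat_lit 3776174036) (nat_lit 672) (nat_lit 2891576302) (nat_lit 84) (nat_lit 1202356283) (nat_lit 129) (nat_lit 5) (nat_lit 137) (nat_lit 5) (nat_lit 130) (nat_lit 4) (nat_lit 349) (nat_lit 302) (nat_lit 294)))))) (XT.nd (nat_lit 752) (nat_lit 2016)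 (nat_lit 0) (XT.nd (nat_lit 376) (nat_lit 1092) (nat_lit 0) (XT.nd (nat_lit 188) (nat_lit 924) (nat_lit 0) (XT.nd (nat_lit 94) (nat_lit 84) (nat_lit 0) (XT.lf (nat_lit 0) (nat_lit 2158652330) (nat_lit 504) (nat_lit 4673125111) (nat_lit 588) (nat_lit 1133565096) (nat_lit 123) (nat_lit 5) (nat_lit 129) (nat_lit 5) (nat_lit 130) (nat_lit 4) (nat_lit 350) (nat_lit 302) (nat_lit 293)) (XT.lf (nat_lit 0) (nat_lit 1827959939) (nat_lit 588) (nat_lit 755208343) (nat_lit 84) (nat_lit 5481374386) (nat_lit 122) (nat_lit 5) (nat_lit 129) (nat_lit 5) (nat_lit 123) (nat_lit 5) (nat_lit 351) (nat_lit 302) (nat_lit 292))) (XT.nd (nat_lit 94) (nat_lit 420) (nat_lit 0) (XT.lf (nat_lit 0) (nat_lit 4432201274) (nat_lit 504) (nat_lit 388512779) (nat_lit 588) (nat_lit 3346860006) (nat_lit 116) (nat_lit 5) (nat_lit 122) (nat_lit 5) (nat_lit 123) (nat_lit 5) (nat_lit 352) (nat_lit 302) (nat_lit 291)) (XT.lf (nat_lit 0)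 (nat_lit 1434895855) (nat_lit 420) (nat_lit 6431662545) (nat_lit 504) (nat_lit 408381444) (nat_lit 111) (nat_lit 5) (nat_lit 116) (nat_lit 5) (nat_lit 117) (nat_lit 4) (nat_lit 353) (nat_lit 302) (nat_lit 290)))) (XT.nd (nat_lit 188) (nat_lit 504) (nat_lit 0) (XT.nd (nat_lit 94) (nat_lit 504) (nat_lit 0) (XT.lf (nat_lit 0) (nat_lit 2533381967) (nat_lit 504) (nat_lit 1669956636) (nat_lit 84) (nat_lit 4182580783) (nat_lit 110) (nat_lit 5) (nat_lit 116) (nat_lit 5) (nat_lit 111) (nat_lit 5) (nat_lit 354) (nat_lit 302) (nat_lit 289)) (XT.lf (nat_lit 0) (nat_lit 3631750423) (nat_lit 504) (nat_lit 1884837726) (nat_lit 588) (nat_lit 2984807501) (nat_lit 104) (nat_lit 5) (nat_lit 110) (nat_lit 5) (nat_lit 111) (nat_lit 5) (nat_lit 355) (nat_lit 302) (nat_lit 288))) (XT.nd (nat_lit 94) (nat_lit 84) (nat_lit 0) (XT.lf (nat_lit 0) (nat_lit 418522400) (nat_lit 420) (nat_lit 8124262330) (nat_lit 504) (nat_lit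 79073417) (nat_lit 99) (nat_lit 5) (nat_lit 104) (nat_lit 5) (nat_lit 105) (nat_lit 4) (nat_lit 356) (nat_lit 302) (nat_lit 287)) (XT.lf (nat_lit 0) (nat_lit 2853311435) (nat_lit 504) (nat_lit 2918665168) (nat_lit 84) (nat_lit 2973346979) (nat_lit 98) (nat_lit 5) (nat_lit 104) (nat_lit 5) (nat_lit 99) (nat_lit 5) (nat_lit 357) (nat_lit 302) (nat_lit 286))))) (XT.nd (nat_lit 376) (nat_lit 756) (nat_lit 0) (XT.nd (nat_lit 188) (nat_lit 840) (nat_lit 0) (XT.nd (nat_lit 94) (nat_lit 0) (nat_lit 0) (XT.lf (nat_lit 0) (nat_lit 2482688721) (nat_lit 420) (nat_lit 3343367190) (nat_lit 504) (nat_lit 3047910275) (nat_lit 93) (nat_lit 5) (nat_lit 98) (nat_lit 5) (nat_lit 99) (nat_lit 5) (nat_lit 358) (nat_lit 302) (nat_lit 285)) (XT.lf (nat_lit 0) (nat_lit 8017270549) (nat_lit 420) (nat_lit 831480699) (nat_lit 504) (nat_lit 159006398) (nat_lit 93) (nat_lit 5) (nat_lit 98) (nat_lit 5) (nat_lit 99) (nat_lit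 5) (nat_lit 359) (nat_lit 302) (nat_lit 284))) (XT.nd (nat_lit 94) (nat_lit 420) (nat_lit 0) (XT.lf (nat_lit 0) (nat_lit 2755221424) (nat_lit 420) (nat_lit 4616494756) (nat_lit 84) (nat_lit 1773332058) (nat_lit 88) (nat_lit 5) (nat_lit 93) (nat_lit 5) (nat_lit 89) (nat_lit 5) (nat_lit 360) (nat_lit 302) (nat_lit 283)) (XT.lf (nat_lit 0) (nat_lit 865750238) (nat_lit 420) (nat_lit 4848051721) (nat_lit 504) (nat_lit 3573907784) (nat_lit 83) (nat_lit 5) (nat_lit 88) (nat_lit 5) (nat_lit 89) (nat_lit 5) (nat_lit 361) (nat_lit 302) (nat_lit 282)))) (XT.nd (nat_lit 188) (nat_lit 336) (nat_lit 0) (XT.nd (nat_lit 94) (nat_lit 420) (nat_lit 0) (XT.lf (nat_lit 0) (nat_lit 6519414693) (nat_lit 420) (nat_lit 2222903931) (nat_lit 504) (nat_lit 692997180) (nat_lit 83) (nat_lit 5) (nat_lit 88) (nat_lit 5) (nat_lit 89) (nat_lit 5) (nat_lit 362) (nat_lit 302) (nat_lit 281)) (XT.lf (nat_lit 0) (nat_lit 2196536985)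 (nat_lit 420) (nat_lit 6893165087) (nat_lit 84) (nat_lit 498089129) (nat_lit 78) (nat_lit 5) (nat_lit 83) (nat_lit 5) (nat_lit 79) (nat_lit 5) (nat_lit 363) (nat_lit 302) (nat_lit 280))) (XT.nd (nat_lit 94) (nat_lit 336) (nat_lit 0) (XT.lf (nat_lit 0) (nat_lit 5147149316) (nat_lit 420) (nat_lit 1327301990) (nat_lit 84) (nat_lit 3270625677) (nat_lit 78) (nat_lit 5) (nat_lit 83) (nat_lit 5) (nat_lit 79) (nat_lit 5) (nat_lit 364) (nat_lit 302) (nat_lit 279)) (XT.lf (nat_lit 0) (nat_lit 4406648024) (nat_lit 336) (nat_lit 3760414038) (nat_lit 420) (nat_lit 1740684727) (nat_lit 74) (nat_lit 5) (nat_lit 78) (nat_lit 5) (nat_lit 79) (nat_lit 5) (nat_lit 365) (nat_lit 302) (nat_lit 278))))))) (XT.nd (nat_lit 1504) (nat_lit 924) (nat_lit 0) (XT.nd (nat_lit 752) (nat_lit 1092) (nat_lit 0) (XT.nd (nat_lit 376) (nat_lit 756) (nat_lit 0) (XT.nd (nat_lit 188) (nat_lit 336) (nat_lit 0) (XT.nd (nat_lit 94) (nat_lit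 0) (nat_lit 0) (XT.lf (nat_lit 0) (nat_lit 171232240) (nat_lit 336) (nat_lit 961488075) (nat_lit 420) (nat_lit 8943696309) (nat_lit 69) (nat_lit 5) (nat_lit 73) (nat_lit 5) (nat_lit 74) (nat_lit 5) (nat_lit 366) (nat_lit 302) (nat_lit 277)) (XT.lf (nat_lit 0) (nat_lit 4071374859) (nat_lit 420) (nat_lit 4244404719) (nat_lit 84) (nat_lit 1933510310) (nat_lit 69) (nat_lit 5) (nat_lit 74) (nat_lit 5) (nat_lit 70) (nat_lit 5) (nat_lit 367) (nat_lit 302) (nat_lit 276))) (XT.nd (nat_lit 94) (nat_lit 0) (nat_lit 0) (XT.lf (nat_lit 0) (nat_lit 1522731710) (nat_lit 336) (nat_lit 5540840989) (nat_lit 420) (nat_lit 3364894141) (nat_lit 65) (nat_lit 5) (nat_lit 69) (nat_lit 5) (nat_lit 70) (nat_lit 5) (nat_lit 368) (nat_lit 302) (nat_lit 275)) (XT.lf (nat_lit 0) (nat_lit 7467047652) (nat_lit 336) (nat_lit 2663491069) (nat_lit 420) (nat_lit 483007010) (nat_lit 65) (nat_lit 5) (nat_lit 69) (nat_lit 5) (nat_lit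 70) (nat_lit 5) (nat_lit 369) (nat_lit 302) (nat_lit 274)))) (XT.nd (nat_lit 188) (nat_lit 420) (nat_lit 0) (XT.nd (nat_lit 94) (nat_lit 0) (nat_lit 0) (XT.lf (nat_lit 0) (nat_lit 2409454931) (nat_lit 336) (nat_lit 8074259901) (nat_lit 84) (nat_lit 320639252) (nat_lit 61) (nat_lit 5) (nat_lit 65) (nat_lit 5) (nat_lit 62) (nat_lit 5) (nat_lit 370) (nat_lit 302) (nat_lit 273)) (XT.lf (nat_lit 0) (nat_lit 5381278126) (nat_lit 336) (nat_lit 2266256038) (nat_lit 84) (nat_lit 3353210387) (nat_lit 61) (nat_lit 5) (nat_lit 65) (nat_lit 5) (nat_lit 62) (nat_lit 5) (nat_lit 371) (nat_lit 302) (nat_lit 272))) (XT.nd (nat_lit 94) (nat_lit 84) (nat_lit 0) (XT.lf (nat_lit 0) (nat_lit 3708411770) (nat_lit 336) (nat_lit 4714963720) (nat_lit 420) (nat_lit 2780285803) (nat_lit 57) (nat_lit 5) (nat_lit 61) (nat_lit 5) (nat_lit 62) (nat_lit 5) (nat_lit 372) (nat_lit 302) (nat_lit 271)) (XT.lf (nat_lit 0) (nat_lit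 110072913) (nat_lit 420) (nat_lit 1585116593) (nat_lit 84) (nat_lit 9718434297) (nat_lit 56) (nat_lit 5) (nat_lit 61) (nat_lit 5) (nat_lit 57) (nat_lit 5) (nat_lit 373) (nat_lit 302) (nat_lit 270))))) (XT.nd (nat_lit 376) (nat_lit 588) (nat_lit 0) (XT.nd (nat_lit 188) (nat_lit 252) (nat_lit 0) (XT.nd (nat_lit 94) (nat_lit 0) (nat_lit 0) (XT.lf (nat_lit 0) (nat_lit 3035711943) (nat_lit 336) (nat_lit 7159134828) (nat_lit 84) (nat_lit 1434141438) (nat_lit 53) (nat_lit 5) (nat_lit 57) (nat_lit 5) (nat_lit 54) (nat_lit 5) (nat_lit 374) (nat_lit 302) (nat_lit 269)) (XT.lf (nat_lit 0) (nat_lit 6029903769) (nat_lit 336) (nat_lit 1206883884) (nat_lit 84) (nat_lit 4614662932) (nat_lit 53) (nat_lit 5) (nat_lit 57) (nat_lit 5) (nat_lit 54) (nat_lit 5) (nat_lit 375) (nat_lit 302) (nat_lit 268))) (XT.nd (nat_lit 94) (nat_lit 0) (nat_lit 0) (XT.lf (nat_lit 0) (nat_lit 4944127082) (nat_lit 252) (nat_lit 4166674146)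 (nat_lit 336) (nat_lit 2969937990) (nat_lit 50) (nat_lit 5) (nat_lit 53) (nat_lit 5) (nat_lit 54) (nat_lit 5) (nat_lit 376) (nat_lit 302) (nat_lit 267)) (XT.lf (nat_lit 0) (nat_lit 11228870976) (nat_lit 252) (nat_lit 1017544719) (nat_lit 336) (nat_lit 71679184) (nat_lit 50) (nat_lit 5) (nat_lit 53) (nat_lit 5) (nat_lit 54) (nat_lit 5) (nat_lit 377) (nat_lit 302) (nat_lit 266)))) (XT.nd (nat_lit 188) (nat_lit 252) (nat_lit 0) (XT.nd (nat_lit 94) (nat_lit 0) (nat_lit 0) (XT.lf (nat_lit 0) (nat_lit 2879001125) (nat_lit 336) (nat_lit 7446229020) (nat_lit 84) (nat_lit 2235884846) (nat_lit 46) (nat_lit 5) (nat_lit 50) (nat_lit 5) (nat_lit 47) (nat_lit 5) (nat_lit 378) (nat_lit 302) (nat_lit 265)) (XT.lf (nat_lit 0) (nat_lit 5889440807) (nat_lit 336) (nat_lit 1369434614) (nat_lit 84) (nat_lit 5553400834) (nat_lit 46) (nat_lit 5) (nat_lit 50) (nat_lit 5) (nat_lit 47) (nat_lit 5) (nat_lit 379) (nat_lit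 302) (nat_lit 264))) (XT.nd (nat_lit 94) (nat_lit 0) (nat_lit 0) (XT.lf (nat_lit 0) (nat_lit 4912819012) (nat_lit 252) (nat_lit 4077509413) (nat_lit 336) (nat_lit 4080690597) (nat_lit 43) (nat_lit 5) (nat_lit 46) (nat_lit 5) (nat_lit 47) (nat_lit 5) (nat_lit 380) (nat_lit 302) (nat_lit 263)) (XT.lf (nat_lit 0) (nat_lit 11339613766) (nat_lit 252) (nat_lit 812046701) (nat_lit 336) (nat_lit 1186890300) (nat_lit 43) (nat_lit 5) (nat_lit 46) (nat_lit 5) (nat_lit 47) (nat_lit 5) (nat_lit 381) (nat_lit 302) (nat_lit 262)))))) (XT.nd (nat_lit 55272) (nat_lit 0) (nat_lit 9408) (XT.nd (nat_lit 376) (nat_lit 420) (nat_lit 0) (XT.nd (nat_lit 188) (nat_lit 252) (nat_lit 0) (XT.nd (nat_lit 94) (nat_lit 0) (nat_lit 0) (XT.lf (nat_lit 0) (nat_lit 1779771462) (nat_lit 252) (nat_lit 9296888408) (nat_lit 84) (nat_lit 2536346243) (nat_lit 40) (nat_lit 5) (nat_lit 43) (nat_lit 5) (nat_lit 41) (nat_lit 5) (nat_lit 382)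 (nat_lit 302) (nat_lit 261)) (XT.lf (nat_lit 0) (nat_lit 4794860517) (nat_lit 252) (nat_lit 3124789623) (nat_lit 84) (nat_lit 5976239007) (nat_lit 40) (nat_lit 5) (nat_lit 43) (nat_lit 5) (nat_lit 41) (nat_lit 5) (nat_lit 383) (nat_lit 302) (nat_lit 260))) (XT.nd (nat_lit 94) (nat_lit 0) (nat_lit 0) (XT.lf (nat_lit 0) (nat_lit 3226194709) (nat_lit 252) (nat_lit 4661392015) (nat_lit 336) (nat_lit 6300100154) (nat_lit 37) (nat_lit 5) (nat_lit 40) (nat_lit 5) (nat_lit 41) (nat_lit 5) (nat_lit 384) (nat_lit 302) (nat_lit 259)) (XT.lf (nat_lit 0) (nat_lit 9763210347) (nat_lit 252) (nat_lit 1298228500) (nat_lit 336) (nat_lit 3427191837) (nat_lit 37) (nat_lit 5) (nat_lit 40) (nat_lit 5) (nat_lit 41) (nat_lit 5) (nat_lit 385) (nat_lit 302) (nat_lit 258)))) (XT.nd (nat_lit 188) (nat_lit 168) (nat_lit 0) (XT.nd (nat_lit 94) (nat_lit 84) (nat_lit 0) (XT.lf (nat_lit 0) (nat_lit 1641322576) (nat_lit 168) (nat_lit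 12683592545) (nat_lit 252) (nat_lit 473896653) (nat_lit 35) (nat_lit 5) (nat_lit 37) (nat_lit 5) (nat_lit 38) (nat_lit 4) (nat_lit 386) (nat_lit 302) (nat_lit 257)) (XT.lf (nat_lit 0) (nat_lit 2536876084) (nat_lit 252) (nat_lit 6926776659) (nat_lit 84) (nat_lit 5653374176) (nat_lit 34) (nat_lit 5) (nat_lit 37) (nat_lit 5) (nat_lit 35) (nat_lit 5) (nat_lit 387) (nat_lit 302) (nat_lit 256))) (XT.nd (nat_lit 94) (nat_lit 168) (nat_lit 0) (XT.lf (nat_lit 0) (nat_lit 5587617927) (nat_lit 252) (nat_lit 579691865) (nat_lit 84) (nat_lit 9278600572) (nat_lit 34) (nat_lit 5) (nat_lit 37) (nat_lit 5) (nat_lit 35) (nat_lit 5) (nat_lit 388) (nat_lit 302) (nat_lit 255)) (XT.lf (nat_lit 0) (nat_lit 6011166066) (nat_lit 168) (nat_lit 2736858942) (nat_lit 252) (nat_lit 7036127646) (nat_lit 32) (nat_lit 5) (nat_lit 34) (nat_lit 5) (nat_lit 35) (nat_lit 5) (nat_lit 389) (nat_lit 302) (nat_lit 254))))) (XT.nd (nat_lit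 376) (nat_lit 1344) (nat_lit 0) (XT.nd (nat_lit 188) (nat_lit 2436) (nat_lit 0) (XT.nd (nat_lit 94) (nat_lit 84) (nat_lit 0) (XT.lf (nat_lit 0) (nat_lit 733854059) (nat_lit 1092) (nat_lit 1413330119) (nat_lit 1092) (nat_lit 1413330119) (nat_lit 190) (nat_lit 4) (nat_lit 203) (nat_lit 5) (nat_lit 203) (nat_lit 4) (nat_lit 339) (nat_lit 303) (nat_lit 303)) (XT.lf (nat_lit 0) (nat_lit 251781265) (nat_lit 1176) (nat_lit 1132282011) (nat_lit 84) (nat_lit 5797436469) (nat_lit 189) (nat_lit 5) (nat_lit 203) (nat_lit 5) (nat_lit 190) (nat_lit 4) (nat_lit 340) (nat_lit 303) (nat_lit 302))) (XT.nd (nat_lit 94) (nat_lit 1260) (nat_lit 0) (XT.lf (nat_lit 0) (nat_lit 3308677956) (nat_lit 1260) (nat_lit 3772116593) (nat_lit 0) (nat_lit 164085722) (nat_lit 175) (nat_lit 5) (nat_lit 190) (nat_lit 4) (nat_lit 175) (nat_lit 4) (nat_lit 341) (nat_lit 303) (nat_lit 301)) (XT.lf (nat_lit 0) (nat_lit 840093253) (nat_lit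 1260) (nat_lit 5560263357) (nat_lit 1260) (nat_lit 911729168) (nat_lit 160) (nat_lit 4) (nat_lit 175) (nat_lit 5) (nat_lit 175) (nat_lit 4) (nat_lit 342) (nat_lit 303) (nat_lit 300)))) (XT.nd (nat_lit 188) (nat_lit 672) (nat_lit 0) (XT.nd (nat_lit 94) (nat_lit 588) (nat_lit 0) (XT.lf (nat_lit 0) (nat_lit 2109370339) (nat_lit 1344) (nat_lit 1826650220) (nat_lit 84) (nat_lit 3446388188) (nat_lit 159) (nat_lit 5) (nat_lit 175) (nat_lit 5) (nat_lit 160) (nat_lit 4) (nat_lit 343) (nat_lit 303) (nat_lit 299)) (XT.lf (nat_lit 0) (nat_lit 2915706447) (nat_lit 588) (nat_lit 2228130002) (nat_lit 672) (nat_lit 2312699898) (nat_lit 152) (nat_lit 5) (nat_lit 159) (nat_lit 5) (nat_lit 160) (nat_lit 4) (nat_lit 344) (nat_lit 303) (nat_lit 298))) (XT.nd (nat_lit 94) (nat_lit 0) (nat_lit 0) (XT.lf (nat_lit 0) (nat_lit 211066171) (nat_lit 588) (nat_lit 445341724) (nat_lit 672) (nat_lit 6878423772) (nat_lit 144)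 (nat_lit 5) (nat_lit 151) (nat_lit 5) (nat_lit 152) (nat_lit 5) (nat_lit 345) (nat_lit 303) (nat_lit 297)) (XT.lf (nat_lit 0) (nat_lit 3643048259) (nat_lit 672) (nat_lit 2545227983) (nat_lit 84) (nat_lit 1427445142) (nat_lit 144) (nat_lit 5) (nat_lit 152) (nat_lit 5) (nat_lit 145) (nat_lit 4) (nat_lit 346) (nat_lit 303) (nat_lit 296))))))))
noncomputable def xc10 : XT := (XT.nd (nat_lit 2914) (nat_lit 1512) (nat_lit 0) (XT.nd (nat_lit 1410) (nat_lit 3192) (nat_lit 0) (XT.nd (nat_lit 658) (nat_lit 1848) (nat_lit 0) (XT.nd (nat_lit 282) (nat_lit 1596) (nat_lit 0) (XT.nd (nat_lit 94) (nat_lit 672) (nat_lit 0) (XT.lf (nat_lit 0) (nat_lit 2327373779) (nat_lit 588) (nat_lit 4336427915) (nat_lit 672) (nat_lit 1037076163) (nat_lit 137) (nat_lit 5) (nat_lit 144) (nat_lit 5) (nat_lit 145) (nat_lit 4) (nat_lit 347) (nat_lit 303) (nat_lit 295)) (XT.nd (nat_lit 94) (nat_lit 588) (nat_lit 0) (XT.lf (nat_lit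 0) (nat_lit 1892082180) (nat_lit 672) (nat_lit 500044545) (nat_lit 84) (nat_lit 5397727047) (nat_lit 136) (nat_lit 5) (nat_lit 144) (nat_lit 5) (nat_lit 137) (nat_lit 5) (nat_lit 348) (nat_lit 303) (nat_lit 294)) (XT.lf (nat_lit 0) (nat_lit 4508785701) (nat_lit 588) (nat_lit 343508796) (nat_lit 672) (nat_lit 3030136313) (nat_lit 129) (nat_lit 5) (nat_lit 136) (nat_lit 5) (nat_lit 137) (nat_lit 5) (nat_lit 349) (nat_lit 303) (nat_lit 293)))) (XT.nd (nat_lit 188) (nat_lit 1008) (nat_lit 0) (XT.nd (nat_lit 94) (nat_lit 84) (nat_lit 0) (XT.lf (nat_lit 0) (nat_lit 1625101395) (nat_lit 504) (nat_lit 6235969187) (nat_lit 588) (nat_lit 118077768) (nat_lit 123) (nat_lit 5) (nat_lit 129) (nat_lit 5) (nat_lit 130) (nat_lit 4) (nat_lit 350) (nat_lit 303) (nat_lit 292)) (XT.lf (nat_lit 0) (nat_lit 2785484572) (nat_lit 588) (nat_lit 1357095787) (nat_lit 84) (nat_lit 3936692081) (nat_lit 122) (nat_lit 5) (nat_lit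 129) (nat_lit 5) (nat_lit 123) (nat_lit 5) (nat_lit 351) (nat_lit 303) (nat_lit 291))) (XT.nd (nat_lit 94) (nat_lit 504) (nat_lit 0) (XT.lf (nat_lit 0) (nat_lit 3774004794) (nat_lit 504) (nat_lit 1960871098) (nat_lit 588) (nat_lit 2448799108) (nat_lit 116) (nat_lit 5) (nat_lit 122) (nat_lit 5) (nat_lit 123) (nat_lit 5) (nat_lit 352) (nat_lit 303) (nat_lit 290)) (XT.lf (nat_lit 0) (nat_lit 421033826) (nat_lit 504) (nat_lit 7579409023) (nat_lit 84) (nat_lit 292295681) (nat_lit 110) (nat_lit 5) (nat_lit 116) (nat_lit 5) (nat_lit 111) (nat_lit 5) (nat_lit 353) (nat_lit 303) (nat_lit 289))))) (XT.nd (nat_lit 376) (nat_lit 840) (nat_lit 0) (XT.nd (nat_lit 188) (nat_lit 504) (nat_lit 0) (XT.nd (nat_lit 94) (nat_lit 504) (nat_lit 0) (XT.lf (nat_lit 0) (nat_lit 3318615104) (nat_lit 504) (nat_lit 2457734014) (nat_lit 84) (nat_lit 2628401903) (nat_lit 110) (nat_lit 5) (nat_lit 116) (nat_lit 5) (nat_lit 111)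 (nat_lit 5) (nat_lit 354) (nat_lit 303) (nat_lit 288)) (XT.lf (nat_lit 0) (nat_lit 2784244144) (nat_lit 504) (nat_lit 3474272003) (nat_lit 588) (nat_lit 2263072741) (nat_lit 104) (nat_lit 5) (nat_lit 110) (nat_lit 5) (nat_lit 111) (nat_lit 5) (nat_lit 355) (nat_lit 303) (nat_lit 287))) (XT.nd (nat_lit 94) (nat_lit 420) (nat_lit 0) (XT.lf (nat_lit 0) (nat_lit 586223973) (nat_lit 588) (nat_lit 502116895) (nat_lit 84) (nat_lit 7554900953) (nat_lit 103) (nat_lit 5) (nat_lit 110) (nat_lit 5) (nat_lit 104) (nat_lit 5) (nat_lit 356) (nat_lit 303) (nat_lit 286)) (XT.lf (nat_lit 0) (nat_lit 3467205104) (nat_lit 504) (nat_lit 3905177066) (nat_lit 84) (nat_lit 1395855254) (nat_lit 98) (nat_lit 5) (nat_lit 104) (nat_lit 5) (nat_lit 99) (nat_lit 5) (nat_lit 357) (nat_lit 303) (nat_lit 285)))) (XT.nd (nat_lit 188) (nat_lit 336) (nat_lit 0) (XT.nd (nat_lit 94) (nat_lit 84) (nat_lit 0) (XT.lf (nat_lit 0) (nat_lit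 1432877069) (nat_lit 420) (nat_lit 4963556358) (nat_lit 504) (nat_lit 2501807570) (nat_lit 93) (nat_lit 5) (nat_lit 98) (nat_lit 5) (nat_lit 99) (nat_lit 5) (nat_lit 358) (nat_lit 303) (nat_lit 284)) (XT.lf (nat_lit 0) (nat_lit 346305806) (nat_lit 504) (nat_lit 2111402746) (nat_lit 84) (nat_lit 6575261681) (nat_lit 92) (nat_lit 5) (nat_lit 98) (nat_lit 5) (nat_lit 93) (nat_lit 5) (nat_lit 359) (nat_lit 303) (nat_lit 283))) (XT.nd (nat_lit 94) (nat_lit 0) (nat_lit 0) (XT.lf (nat_lit 0) (nat_lit 3197925068) (nat_lit 420) (nat_lit 5814668969) (nat_lit 84) (nat_lit 159456884) (nat_lit 88) (nat_lit 5) (nat_lit 93) (nat_lit 5) (nat_lit 89) (nat_lit 5) (nat_lit 360) (nat_lit 303) (nat_lit 282)) (XT.lf (nat_lit 0) (nat_lit 6116362801) (nat_lit 420) (nat_lit 391667891) (nat_lit 84) (nat_lit 2807935314) (nat_lit 88) (nat_lit 5) (nat_lit 93) (nat_lit 5) (nat_lit 89) (nat_lit 5) (nat_lit 361) (nat_lit 303)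 (nat_lit 281)))))) (XT.nd (nat_lit 752) (nat_lit 1260) (nat_lit 0) (XT.nd (nat_lit 376) (nat_lit 756) (nat_lit 0) (XT.nd (nat_lit 188) (nat_lit 336) (nat_lit 0) (XT.nd (nat_lit 94) (nat_lit 420) (nat_lit 0) (XT.lf (nat_lit 0) (nat_lit 5212266789) (nat_lit 420) (nat_lit 3897475829) (nat_lit 504) (nat_lit 354931418) (nat_lit 83) (nat_lit 5) (nat_lit 88) (nat_lit 5) (nat_lit 89) (nat_lit 5) (nat_lit 362) (nat_lit 303) (nat_lit 280)) (XT.lf (nat_lit 0) (nat_lit 1291042742) (nat_lit 336) (nat_lit 1187807634) (nat_lit 420) (nat_lit 7139721346) (nat_lit 78) (nat_lit 5) (nat_lit 82) (nat_lit 5) (nat_lit 83) (nat_lit 5) (nat_lit 363) (nat_lit 303) (nat_lit 279))) (XT.nd (nat_lit 94) (nat_lit 336) (nat_lit 0) (XT.lf (nat_lit 0) (nat_lit 5387711103) (nat_lit 420) (nat_lit 2792060043) (nat_lit 84) (nat_lit 1597382705) (nat_lit 78) (nat_lit 5) (nat_lit 83) (nat_lit 5) (nat_lit 79) (nat_lit 5) (nat_lit 364)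 (nat_lit 303) (nat_lit 278)) (XT.lf (nat_lit 0) (nat_lit 2871336243) (nat_lit 336) (nat_lit 5492079086) (nat_lit 420) (nat_lit 1577777109) (nat_lit 74) (nat_lit 5) (nat_lit 78) (nat_lit 5) (nat_lit 79) (nat_lit 5) (nat_lit 365) (nat_lit 303) (nat_lit 277)))) (XT.nd (nat_lit 188) (nat_lit 336) (nat_lit 0) (XT.nd (nat_lit 94) (nat_lit 336) (nat_lit 0) (XT.lf (nat_lit 0) (nat_lit 1261496848) (nat_lit 420) (nat_lit 1443252130) (nat_lit 84) (nat_lit 7406034966) (nat_lit 73) (nat_lit 5) (nat_lit 78) (nat_lit 5) (nat_lit 74) (nat_lit 5) (nat_lit 366) (nat_lit 303) (nat_lit 276)) (XT.lf (nat_lit 0) (nat_lit 4140152036) (nat_lit 420) (nat_lit 5946719334) (nat_lit 84) (nat_lit 198624733) (nat_lit 69) (nat_lit 5) (nat_lit 74) (nat_lit 5) (nat_lit 70) (nat_lit 5) (nat_lit 367) (nat_lit 303) (nat_lit 275))) (XT.nd (nat_lit 94) (nat_lit 336) (nat_lit 0) (XT.lf (nat_lit 0) (nat_lit 7089603284) (nat_lit 420) (nat_lit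 249308804) (nat_lit 84) (nat_lit 3127081147) (nat_lit 69) (nat_lit 5) (nat_lit 74) (nat_lit 5) (nat_lit 70) (nat_lit 5) (nat_lit 368) (nat_lit 303) (nat_lit 274)) (XT.lf (nat_lit 0) (nat_lit 5650425757) (nat_lit 336) (nat_lit 4476028045) (nat_lit 420) (nat_lit 525558470) (nat_lit 65) (nat_lit 5) (nat_lit 69) (nat_lit 5) (nat_lit 70) (nat_lit 5) (nat_lit 369) (nat_lit 303) (nat_lit 273))))) (XT.nd (nat_lit 376) (nat_lit 588) (nat_lit 0) (XT.nd (nat_lit 188) (nat_lit 336) (nat_lit 0) (XT.nd (nat_lit 94) (nat_lit 0) (nat_lit 0) (XT.lf (nat_lit 0) (nat_lit 801922944) (nat_lit 252) (nat_lit 1516935199) (nat_lit 336) (nat_lit 8525475600) (nat_lit 61) (nat_lit 5) (nat_lit 64) (nat_lit 5) (nat_lit 65) (nat_lit 5) (nat_lit 370) (nat_lit 303) (nat_lit 272)) (XT.lf (nat_lit 0) (nat_lit 5249238522) (nat_lit 336) (nat_lit 4259204854) (nat_lit 84) (nat_lit 1533557688) (nat_lit 61) (nat_lit 5) (nat_lit 65) (nat_lit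 5) (nat_lit 62) (nat_lit 5) (nat_lit 371) (nat_lit 303) (nat_lit 271))) (XT.nd (nat_lit 94) (nat_lit 0) (nat_lit 0) (XT.lf (nat_lit 0) (nat_lit 1636805814) (nat_lit 336) (nat_lit 6608537782) (nat_lit 420) (nat_lit 3000986570) (nat_lit 57) (nat_lit 5) (nat_lit 61) (nat_lit 5) (nat_lit 62) (nat_lit 5) (nat_lit 372) (nat_lit 303) (nat_lit 270)) (XT.lf (nat_lit 0) (nat_lit 7720154959) (nat_lit 336) (nat_lit 3602049824) (nat_lit 420) (nat_lit 134922403) (nat_lit 57) (nat_lit 5) (nat_lit 61) (nat_lit 5) (nat_lit 62) (nat_lit 5) (nat_lit 373) (nat_lit 303) (nat_lit 269)))) (XT.nd (nat_lit 188) (nat_lit 252) (nat_lit 0) (XT.nd (nat_lit 94) (nat_lit 0) (nat_lit 0) (XT.lf (nat_lit 0) (nat_lit 2252947550) (nat_lit 252) (nat_lit 479680187) (nat_lit 336) (nat_lit 8941754240) (nat_lit 53) (nat_lit 5) (nat_lit 56) (nat_lit 5) (nat_lit 57) (nat_lit 5) (nat_lit 374) (nat_lit 303) (nat_lit 268)) (XT.lf (nat_lit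 0) (nat_lit 5697259769) (nat_lit 336) (nat_lit 3502151436) (nat_lit 84) (nat_lit 2698348898) (nat_lit 53) (nat_lit 5) (nat_lit 57) (nat_lit 5) (nat_lit 54) (nat_lit 5) (nat_lit 375) (nat_lit 303) (nat_lit 267))) (XT.nd (nat_lit 94) (nat_lit 0) (nat_lit 0) (XT.lf (nat_lit 0) (nat_lit 2565968693) (nat_lit 252) (nat_lit 6165106071) (nat_lit 336) (nat_lit 3397414561) (nat_lit 50) (nat_lit 5) (nat_lit 53) (nat_lit 5) (nat_lit 54) (nat_lit 5) (nat_lit 376) (nat_lit 303) (nat_lit 266)) (XT.lf (nat_lit 0) (nat_lit 8814585876) (nat_lit 252) (nat_lit 3028239431) (nat_lit 336) (nat_lit 523762891) (nat_lit 50) (nat_lit 5) (nat_lit 53) (nat_lit 5) (nat_lit 54) (nat_lit 5) (nat_lit 377) (nat_lit 303) (nat_lit 265))))))) (XT.nd (nat_lit 55836) (nat_lit 0) (nat_lit 5964) (XT.nd (nat_lit 752) (nat_lit 420) (nat_lit 0) (XT.nd (nat_lit 376) (nat_lit 504) (nat_lit 0) (XT.nd (nat_lit 188) (nat_lit 252) (nat_lit 0)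 (XT.nd (nat_lit 94) (nat_lit 0) (nat_lit 0) (XT.lf (nat_lit 0) (nat_lit 2368134131) (nat_lit 336) (nat_lit 10020219413) (nat_lit 84) (nat_lit 223439018) (nat_lit 46) (nat_lit 5) (nat_lit 50) (nat_lit 5) (nat_lit 47) (nat_lit 5) (nat_lit 378) (nat_lit 303) (nat_lit 264)) (XT.lf (nat_lit 0) (nat_lit 5355376632) (nat_lit 336) (nat_lit 3979243434) (nat_lit 84) (nat_lit 3529054654) (nat_lit 46) (nat_lit 5) (nat_lit 50) (nat_lit 5) (nat_lit 47) (nat_lit 5) (nat_lit 379) (nat_lit 303) (nat_lit 263))) (XT.nd (nat_lit 94) (nat_lit 0) (nat_lit 0) (XT.lf (nat_lit 0) (nat_lit 2215602614) (nat_lit 252) (nat_lit 6192212808) (nat_lit 336) (nat_lit 4716079781) (nat_lit 43) (nat_lit 5) (nat_lit 46) (nat_lit 5) (nat_lit 47) (nat_lit 5) (nat_lit 380) (nat_lit 303) (nat_lit 262)) (XT.lf (nat_lit 0) (nat_lit 8607963130) (nat_lit 252) (nat_lit 2938987764) (nat_lit 336) (nat_lit 1845165496) (nat_lit 43) (nat_lit 5) (nat_lit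 46) (nat_lit 5) (nat_lit 47) (nat_lit 5) (nat_lit 381) (nat_lit 303) (nat_lit 261)))) (XT.nd (nat_lit 188) (nat_lit 252) (nat_lit 0) (XT.nd (nat_lit 94) (nat_lit 0) (nat_lit 0) (XT.lf (nat_lit 0) (nat_lit 1064082041) (nat_lit 252) (nat_lit 12200004790) (nat_lit 84) (nat_lit 404804716) (nat_lit 40) (nat_lit 5) (nat_lit 43) (nat_lit 5) (nat_lit 41) (nat_lit 5) (nat_lit 382) (nat_lit 303) (nat_lit 260)) (XT.lf (nat_lit 0) (nat_lit 4057581108) (nat_lit 252) (nat_lit 6062010485) (nat_lit 84) (nat_lit 3832852235) (nat_lit 40) (nat_lit 5) (nat_lit 43) (nat_lit 5) (nat_lit 41) (nat_lit 5) (nat_lit 383) (nat_lit 303) (nat_lit 259))) (XT.nd (nat_lit 94) (nat_lit 0) (nat_lit 0) (XT.lf (nat_lit 0) (nat_lit 196747270) (nat_lit 252) (nat_lit 6903477990) (nat_lit 336) (nat_lit 7145539682) (nat_lit 37) (nat_lit 5) (nat_lit 40) (nat_lit 5) (nat_lit 41) (nat_lit 5) (nat_lit 384) (nat_lit 303) (nat_lit 258)) (XT.lf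 (nat_lit 0) (nat_lit 6700976381) (nat_lit 252) (nat_lit 3552435202) (nat_lit 336) (nat_lit 4293937447) (nat_lit 37) (nat_lit 5) (nat_lit 40) (nat_lit 5) (nat_lit 41) (nat_lit 5) (nat_lit 385) (nat_lit 303) (nat_lit 257))))) (XT.nd (nat_lit 54708) (nat_lit 0) (nat_lit 13188) (XT.nd (nat_lit 188) (nat_lit 168) (nat_lit 0) (XT.nd (nat_lit 94) (nat_lit 252) (nat_lit 0) (XT.lf (nat_lit 0) (nat_lit 13335714261) (nat_lit 252) (nat_lit 124749556) (nat_lit 336) (nat_lit 1398778745) (nat_lit 37) (nat_lit 5) (nat_lit 40) (nat_lit 5) (nat_lit 41) (nat_lit 5) (nat_lit 386) (nat_lit 303) (nat_lit 256)) (XT.lf (nat_lit 0) (nat_lit 1593645247) (nat_lit 252) (nat_lit 10205031942) (nat_lit 84) (nat_lit 3380157714) (nat_lit 34) (nat_lit 5) (nat_lit 37) (nat_lit 5) (nat_lit 35) (nat_lit 5) (nat_lit 387) (nat_lit 303) (nat_lit 255))) (XT.nd (nat_lit 94) (nat_lit 168) (nat_lit 0) (XT.lf (nat_lit 0) (nat_lit 4624859985)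 (nat_lit 252) (nat_lit 3889444146) (nat_lit 84) (nat_lit 6994018075) (nat_lit 34) (nat_lit 5) (nat_lit 37) (nat_lit 5) (nat_lit 35) (nat_lit 5) (nat_lit 388) (nat_lit 303) (nat_lit 254)) (XT.lf (nat_lit 0) (nat_lit 2604355019) (nat_lit 168) (nat_lit 5129205340) (nat_lit 252) (nat_lit 8114572857) (nat_lit 32) (nat_lit 5) (nat_lit 34) (nat_lit 5) (nat_lit 35) (nat_lit 5) (nat_lit 389) (nat_lit 303) (nat_lit 253)))) (XT.nd (nat_lit 188) (nat_lit 1176) (nat_lit 0) (XT.nd (nat_lit 94) (nat_lit 1092) (nat_lit 0) (XT.lf (nat_lit 0) (nat_lit 3324830676) (nat_lit 924) (nat_lit 90116624) (nat_lit 924) (nat_lit 90116624) (nat_lit 216) (nat_lit 4) (nat_lit 227) (nat_lit 5) (nat_lit 227) (nat_lit 4) (nat_lit 337) (nat_lit 304) (nat_lit 304)) (XT.lf (nat_lit 0) (nat_lit 2873192625) (nat_lit 1092) (nat_lit 3010634003) (nat_lit 0) (nat_lit 1180492704) (nat_lit 203) (nat_lit 5) (nat_lit 216) (nat_lit 4) (nat_lit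 203) (nat_lit 4) (nat_lit 338) (nat_lit 304) (nat_lit 303))) (XT.nd (nat_lit 94) (nat_lit 84) (nat_lit 0) (XT.lf (nat_lit 0) (nat_lit 1423198110) (nat_lit 1092) (nat_lit 4517714614) (nat_lit 1092) (nat_lit 1181616713) (nat_lit 190) (nat_lit 4) (nat_lit 203) (nat_lit 5) (nat_lit 203) (nat_lit 4) (nat_lit 339) (nat_lit 304) (nat_lit 302)) (XT.lf (nat_lit 0) (nat_lit 1819358586) (nat_lit 1176) (nat_lit 1238331991) (nat_lit 84) (nat_lit 4126306082) (nat_lit 189) (nat_lit 5) (nat_lit 203) (nat_lit 5) (nat_lit 190) (nat_lit 4) (nat_lit 340) (nat_lit 304) (nat_lit 301)))))) (XT.nd (nat_lit 752) (nat_lit 2772) (nat_lit 0) (XT.nd (nat_lit 376) (nat_lit 1344) (nat_lit 0) (XT.nd (nat_lit 188) (nat_lit 588) (nat_lit 0) (XT.nd (nat_lit 94) (nat_lit 1344) (nat_lit 0) (XT.lf (nat_lit 0) (nat_lit 3322467661) (nat_lit 1176) (nat_lit 1506674110) (nat_lit 1260) (nat_lit 2419755133) (nat_lit 175) (nat_lit 5) (nat_lit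 189) (nat_lit 5) (nat_lit 190) (nat_lit 4) (nat_lit 341) (nat_lit 304) (nat_lit 300)) (XT.lf (nat_lit 0) (nat_lit 532779694) (nat_lit 1344) (nat_lit 6670527211) (nat_lit 84) (nat_lit 114525474) (nat_lit 159) (nat_lit 5) (nat_lit 175) (nat_lit 5) (nat_lit 160) (nat_lit 4) (nat_lit 342) (nat_lit 304) (nat_lit 299))) (XT.nd (nat_lit 94) (nat_lit 588) (nat_lit 0) (XT.lf (nat_lit 0) (nat_lit 3493246169) (nat_lit 1344) (nat_lit 2078389802) (nat_lit 84) (nat_lit 1817639006) (nat_lit 159) (nat_lit 5) (nat_lit 175) (nat_lit 5) (nat_lit 160) (nat_lit 4) (nat_lit 343) (nat_lit 304) (nat_lit 298)) (XT.lf (nat_lit 0) (nat_lit 2614951649) (nat_lit 588) (nat_lit 3868275499) (nat_lit 672) (nat_lit 981604440) (nat_lit 152) (nat_lit 5) (nat_lit 159) (nat_lit 5) (nat_lit 160) (nat_lit 4) (nat_lit 344) (nat_lit 304) (nat_lit 297)))) (XT.nd (nat_lit 188) (nat_lit 672) (nat_lit 0) (XT.nd (nat_lit 94) (nat_lit 588) (nat_lit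 0) (XT.lf (nat_lit 0) (nat_lit 1918212881) (nat_lit 672) (nat_lit 158531966) (nat_lit 84) (nat_lit 5467386720) (nat_lit 151) (nat_lit 5) (nat_lit 159) (nat_lit 5) (nat_lit 152) (nat_lit 5) (nat_lit 345) (nat_lit 304) (nat_lit 296)) (XT.lf (nat_lit 0) (nat_lit 4668948215) (nat_lit 588) (nat_lit 179856336) (nat_lit 672) (nat_lit 2777984637) (nat_lit 144) (nat_lit 5) (nat_lit 151) (nat_lit 5) (nat_lit 152) (nat_lit 5) (nat_lit 346) (nat_lit 304) (nat_lit 295))) (XT.nd (nat_lit 94) (nat_lit 0) (nat_lit 0) (XT.lf (nat_lit 0) (nat_lit 108477593) (nat_lit 672) (nat_lit 5850192276) (nat_lit 84) (nat_lit 1754693596) (nat_lit 136) (nat_lit 5) (nat_lit 144) (nat_lit 5) (nat_lit 137) (nat_lit 5) (nat_lit 347) (nat_lit 304) (nat_lit 294)) (XT.lf (nat_lit 0) (nat_lit 2978326048) (nat_lit 672) (nat_lit 1030321280) (nat_lit 84) (nat_lit 3794644275) (nat_lit 136) (nat_lit 5) (nat_lit 144) (nat_lit 5) (nat_lit 137)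 (nat_lit 5) (nat_lit 348) (nat_lit 304) (nat_lit 293))))) (XT.nd (nat_lit 376) (nat_lit 1092) (nat_lit 0) (XT.nd (nat_lit 188) (nat_lit 504) (nat_lit 0) (XT.nd (nat_lit 94) (nat_lit 588) (nat_lit 0) (XT.lf (nat_lit 0) (nat_lit 3924763536) (nat_lit 588) (nat_lit 1970226097) (nat_lit 672) (nat_lit 2002262274) (nat_lit 129) (nat_lit 5) (nat_lit 136) (nat_lit 5) (nat_lit 137) (nat_lit 5) (nat_lit 349) (nat_lit 304) (nat_lit 292)) (XT.lf (nat_lit 0) (nat_lit 832329845) (nat_lit 588) (nat_lit 7017625197) (nat_lit 84) (nat_lit 145615825) (nat_lit 122) (nat_lit 5) (nat_lit 129) (nat_lit 5) (nat_lit 123) (nat_lit 5) (nat_lit 350) (nat_lit 304) (nat_lit 291))) (XT.nd (nat_lit 94) (nat_lit 504) (nat_lit 0) (XT.lf (nat_lit 0) (nat_lit 3696552257) (nat_lit 588) (nat_lit 2065274316) (nat_lit 84) (nat_lit 2335015693) (nat_lit 122) (nat_lit 5) (nat_lit 129) (nat_lit 5) (nat_lit 123) (nat_lit 5) (nat_lit 351) (nat_lit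 304) (nat_lit 290)) (XT.lf (nat_lit 0) (nat_lit 3008693001) (nat_lit 504) (nat_lit 3593936837) (nat_lit 588) (nat_lit 1599982639) (nat_lit 116) (nat_lit 5) (nat_lit 122) (nat_lit 5) (nat_lit 123) (nat_lit 5) (nat_lit 352) (nat_lit 304) (nat_lit 289)))) (XT.nd (nat_lit 188) (nat_lit 588) (nat_lit 0) (XT.nd (nat_lit 94) (nat_lit 420) (nat_lit 0) (XT.lf (nat_lit 0) (nat_lit 1207809806) (nat_lit 588) (nat_lit 132665614) (nat_lit 84) (nat_lit 6972384441) (nat_lit 115) (nat_lit 5) (nat_lit 122) (nat_lit 5) (nat_lit 116) (nat_lit 5) (nat_lit 353) (nat_lit 304) (nat_lit 288)) (XT.lf (nat_lit 0) (nat_lit 4056033704) (nat_lit 504) (nat_lit 3356822445) (nat_lit 84) (nat_lit 1013559372) (nat_lit 110) (nat_lit 5) (nat_lit 116) (nat_lit 5) (nat_lit 111) (nat_lit 5) (nat_lit 354) (nat_lit 304) (nat_lit 287))) (XT.nd (nat_lit 94) (nat_lit 84) (nat_lit 0) (XT.lf (nat_lit 0) (nat_lit 1824494530) (nat_lit 504) (nat_lit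 5128080158) (nat_lit 588) (nat_lit 1592040132) (nat_lit 104) (nat_lit 5) (nat_lit 110) (nat_lit 5) (nat_lit 111) (nat_lit 5) (nat_lit 355) (nat_lit 304) (nat_lit 286)) (XT.lf (nat_lit 0) (nat_lit 1210233243) (nat_lit 588) (nat_lit 1533597125) (nat_lit 84) (nat_lit 5923318896) (nat_lit 103) (nat_lit 5) (nat_lit 110) (nat_lit 5) (nat_lit 104) (nat_lit 5) (nat_lit 356) (nat_lit 304) (nat_lit 285))))))))
noncomputable def xc11 : XT := (XT.nd (nat_lit 3008) (nat_lit 0) (nat_lit 0) (XT.nd (nat_lit 1504) (nat_lit 2268) (nat_lit 0) (XT.nd (nat_lit 752) (nat_lit 1428) (nat_lit 0) (XT.nd (nat_lit 376) (nat_lit 840) (nat_lit 0) (XT.nd (nat_lit 188) (nat_lit 420) (nat_lit 0) (XT.nd (nat_lit 94) (nat_lit 420) (nat_lit 0) (XT.lf (nat_lit 0) (nat_lit 3783307001) (nat_lit 420) (nat_lit 250766924) (nat_lit 504) (nat_lit 4759840641) (nat_lit 98) (nat_lit 5) (nat_lit 103) (nat_lit 5) (nat_lit 104) (nat_lit 5) (nat_lit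 357) (nat_lit 304) (nat_lit 284)) (XT.lf (nat_lit 0) (nat_lit 265510434) (nat_lit 420) (nat_lit 6651708662) (nat_lit 504) (nat_lit 2008135406) (nat_lit 93) (nat_lit 5) (nat_lit 98) (nat_lit 5) (nat_lit 99) (nat_lit 5) (nat_lit 358) (nat_lit 304) (nat_lit 283))) (XT.nd (nat_lit 94) (nat_lit 336) (nat_lit 0) (XT.lf (nat_lit 0) (nat_lit 798075854) (nat_lit 504) (nat_lit 3352480966) (nat_lit 84) (nat_lit 4910403393) (nat_lit 92) (nat_lit 5) (nat_lit 98) (nat_lit 5) (nat_lit 93) (nat_lit 5) (nat_lit 359) (nat_lit 304) (nat_lit 282)) (XT.lf (nat_lit 0) (nat_lit 2051771762) (nat_lit 336) (nat_lit 1552465323) (nat_lit 420) (nat_lit 5597216854) (nat_lit 88) (nat_lit 5) (nat_lit 92) (nat_lit 5) (nat_lit 93) (nat_lit 5) (nat_lit 360) (nat_lit 304) (nat_lit 281)))) (XT.nd (nat_lit 188) (nat_lit 420) (nat_lit 0) (XT.nd (nat_lit 94) (nat_lit 420) (nat_lit 0) (XT.lf (nat_lit 0) (nat_lit 6476857708) (nat_lit 420)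 (nat_lit 1752874370) (nat_lit 84) (nat_lit 1117059323) (nat_lit 88) (nat_lit 5) (nat_lit 93) (nat_lit 5) (nat_lit 89) (nat_lit 5) (nat_lit 361) (nat_lit 304) (nat_lit 280)) (XT.lf (nat_lit 0) (nat_lit 3783256219) (nat_lit 420) (nat_lit 5643250738) (nat_lit 504) (nat_lit 70350858) (nat_lit 83) (nat_lit 5) (nat_lit 88) (nat_lit 5) (nat_lit 89) (nat_lit 5) (nat_lit 362) (nat_lit 304) (nat_lit 279))) (XT.nd (nat_lit 94) (nat_lit 336) (nat_lit 0) (XT.lf (nat_lit 0) (nat_lit 2715630741) (nat_lit 504) (nat_lit 238245258) (nat_lit 84) (nat_lit 6698108646) (nat_lit 82) (nat_lit 5) (nat_lit 88) (nat_lit 5) (nat_lit 83) (nat_lit 5) (nat_lit 363) (nat_lit 304) (nat_lit 278)) (XT.lf (nat_lit 0) (nat_lit 5427423275) (nat_lit 336) (nat_lit 149721853) (nat_lit 420) (nat_lit 4234884561) (nat_lit 78) (nat_lit 5) (nat_lit 82) (nat_lit 5) (nat_lit 83) (nat_lit 5) (nat_lit 364) (nat_lit 304) (nat_lit 277))))) (XT.nd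 (nat_lit 376) (nat_lit 672) (nat_lit 0) (XT.nd (nat_lit 188) (nat_lit 336) (nat_lit 0) (XT.nd (nat_lit 94) (nat_lit 84) (nat_lit 0) (XT.lf (nat_lit 0) (nat_lit 1208366655) (nat_lit 336) (nat_lit 7298465606) (nat_lit 420) (nat_lit 1470657813) (nat_lit 74) (nat_lit 5) (nat_lit 78) (nat_lit 5) (nat_lit 79) (nat_lit 5) (nat_lit 365) (nat_lit 304) (nat_lit 276)) (XT.lf (nat_lit 0) (nat_lit 1338073255) (nat_lit 420) (nat_lit 3183179746) (nat_lit 84) (nat_lit 5626690182) (nat_lit 73) (nat_lit 5) (nat_lit 78) (nat_lit 5) (nat_lit 74) (nat_lit 5) (nat_lit 366) (nat_lit 304) (nat_lit 275))) (XT.nd (nat_lit 94) (nat_lit 0) (nat_lit 0) (XT.lf (nat_lit 0) (nat_lit 2526984743) (nat_lit 336) (nat_lit 1642737177) (nat_lit 420) (nat_lit 6154381402) (nat_lit 69) (nat_lit 5) (nat_lit 73) (nat_lit 5) (nat_lit 74) (nat_lit 5) (nat_lit 367) (nat_lit 304) (nat_lit 274)) (XT.lf (nat_lit 0) (nat_lit 7076091722) (nat_lit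 420) (nat_lit 2122763578) (nat_lit 84) (nat_lit 1307074279) (nat_lit 69) (nat_lit 5) (nat_lit 74) (nat_lit 5) (nat_lit 70) (nat_lit 5) (nat_lit 368) (nat_lit 304) (nat_lit 273)))) (XT.nd (nat_lit 188) (nat_lit 252) (nat_lit 0) (XT.nd (nat_lit 94) (nat_lit 84) (nat_lit 0) (XT.lf (nat_lit 0) (nat_lit 3701219884) (nat_lit 336) (nat_lit 6366489814) (nat_lit 420) (nat_lit 625631508) (nat_lit 65) (nat_lit 5) (nat_lit 69) (nat_lit 5) (nat_lit 70) (nat_lit 5) (nat_lit 369) (nat_lit 304) (nat_lit 272)) (XT.lf (nat_lit 0) (nat_lit 2186654317) (nat_lit 420) (nat_lit 1241202102) (nat_lit 84) (nat_lit 7458891193) (nat_lit 64) (nat_lit 5) (nat_lit 69) (nat_lit 5) (nat_lit 65) (nat_lit 5) (nat_lit 370) (nat_lit 304) (nat_lit 271))) (XT.nd (nat_lit 94) (nat_lit 0) (nat_lit 0) (XT.lf (nat_lit 0) (nat_lit 4692922540) (nat_lit 252) (nat_lit 370941048) (nat_lit 336) (nat_lit 6022179069) (nat_lit 61) (nat_lit 5) (nat_lit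 64) (nat_lit 5) (nat_lit 65) (nat_lit 5) (nat_lit 371) (nat_lit 304) (nat_lit 270)) (XT.lf (nat_lit 0) (nat_lit 8015349802) (nat_lit 336) (nat_lit 562602788) (nat_lit 84) (nat_lit 2713789378) (nat_lit 61) (nat_lit 5) (nat_lit 65) (nat_lit 5) (nat_lit 62) (nat_lit 5) (nat_lit 372) (nat_lit 304) (nat_lit 269)))))) (XT.nd (nat_lit 752) (nat_lit 1008) (nat_lit 0) (XT.nd (nat_lit 376) (nat_lit 336) (nat_lit 0) (XT.nd (nat_lit 188) (nat_lit 504) (nat_lit 0) (XT.nd (nat_lit 94) (nat_lit 84) (nat_lit 0) (XT.lf (nat_lit 0) (nat_lit 5472794296) (nat_lit 336) (nat_lit 5588965947) (nat_lit 420) (nat_lit 441722988) (nat_lit 57) (nat_lit 5) (nat_lit 61) (nat_lit 5) (nat_lit 62) (nat_lit 5) (nat_lit 373) (nat_lit 304) (nat_lit 268)) (XT.lf (nat_lit 0) (nat_lit 2385679523) (nat_lit 420) (nat_lit 117983858) (nat_lit 84) (nat_lit 9218576105) (nat_lit 56) (nat_lit 5) (nat_lit 61) (nat_lit 5) (nat_lit 57) (nat_lit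 5) (nat_lit 374) (nat_lit 304) (nat_lit 267))) (XT.nd (nat_lit 94) (nat_lit 252) (nat_lit 0) (XT.lf (nat_lit 0) (nat_lit 5305465482) (nat_lit 336) (nat_lit 5940340349) (nat_lit 84) (nat_lit 701185277) (nat_lit 53) (nat_lit 5) (nat_lit 57) (nat_lit 5) (nat_lit 54) (nat_lit 5) (nat_lit 375) (nat_lit 304) (nat_lit 266)) (XT.lf (nat_lit 0) (nat_lit 43128330) (nat_lit 252) (nat_lit 8248384411) (nat_lit 336) (nat_lit 3887667916) (nat_lit 50) (nat_lit 5) (nat_lit 53) (nat_lit 5) (nat_lit 54) (nat_lit 5) (nat_lit 376) (nat_lit 304) (nat_lit 265)))) (XT.nd (nat_lit 188) (nat_lit 252) (nat_lit 0) (XT.nd (nat_lit 94) (nat_lit 84) (nat_lit 0) (XT.lf (nat_lit 0) (nat_lit 6256671036) (nat_lit 252) (nat_lit 5123423390) (nat_lit 336) (nat_lit 1037906670) (nat_lit 50) (nat_lit 5) (nat_lit 53) (nat_lit 5) (nat_lit 54) (nat_lit 5) (nat_lit 377) (nat_lit 304) (nat_lit 264)) (XT.lf (nat_lit 0) (nat_lit 1814157120)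 (nat_lit 336) (nat_lit 95701459) (nat_lit 84) (nat_lit 10755016109) (nat_lit 49) (nat_lit 5) (nat_lit 53) (nat_lit 5) (nat_lit 50) (nat_lit 5) (nat_lit 378) (nat_lit 304) (nat_lit 263))) (XT.nd (nat_lit 94) (nat_lit 0) (nat_lit 0) (XT.lf (nat_lit 0) (nat_lit 4759571819) (nat_lit 336) (nat_lit 6737940115) (nat_lit 84) (nat_lit 1420523997) (nat_lit 46) (nat_lit 5) (nat_lit 50) (nat_lit 5) (nat_lit 47) (nat_lit 5) (nat_lit 379) (nat_lit 304) (nat_lit 262)) (XT.lf (nat_lit 0) (nat_lit 7768847314) (nat_lit 336) (nat_lit 620090756) (nat_lit 84) (nat_lit 4790636787) (nat_lit 46) (nat_lit 5) (nat_lit 50) (nat_lit 5) (nat_lit 47) (nat_lit 5) (nat_lit 380) (nat_lit 304) (nat_lit 261))))) (XT.nd (nat_lit 376) (nat_lit 504) (nat_lit 0) (XT.nd (nat_lit 188) (nat_lit 168) (nat_lit 0) (XT.nd (nat_lit 94) (nat_lit 84) (nat_lit 0) (XT.lf (nat_lit 0) (nat_lit 5726497439) (nat_lit 252) (nat_lit 5153855958) (nat_lit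 336) (nat_lit 2568294388) (nat_lit 43) (nat_lit 5) (nat_lit 46) (nat_lit 5) (nat_lit 47) (nat_lit 5) (nat_lit 381) (nat_lit 304) (nat_lit 260)) (XT.lf (nat_lit 0) (nat_lit 315784884) (nat_lit 336) (nat_lit 1519714545) (nat_lit 84) (nat_lit 11891331969) (nat_lit 42) (nat_lit 5) (nat_lit 46) (nat_lit 5) (nat_lit 43) (nat_lit 5) (nat_lit 382) (nat_lit 304) (nat_lit 259))) (XT.nd (nat_lit 94) (nat_lit 0) (nat_lit 0) (XT.lf (nat_lit 0) (nat_lit 3255632175) (nat_lit 252) (nat_lit 9154563599) (nat_lit 84) (nat_lit 1601818377) (nat_lit 40) (nat_lit 5) (nat_lit 43) (nat_lit 5) (nat_lit 41) (nat_lit 5) (nat_lit 383) (nat_lit 304) (nat_lit 258)) (XT.lf (nat_lit 0) (nat_lit 6276034437) (nat_lit 252) (nat_lit 2931791835) (nat_lit 84) (nat_lit 5098196559) (nat_lit 40) (nat_lit 5) (nat_lit 43) (nat_lit 5) (nat_lit 41) (nat_lit 5) (nat_lit 384) (nat_lit 304) (nat_lit 257)))) (XT.nd (nat_lit 188) (nat_lit 252)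 (nat_lit 0) (XT.nd (nat_lit 94) (nat_lit 0) (nat_lit 0) (XT.lf (nat_lit 0) (nat_lit 3482257291) (nat_lit 252) (nat_lit 5898156530) (nat_lit 336) (nat_lit 5228677025) (nat_lit 37) (nat_lit 5) (nat_lit 40) (nat_lit 5) (nat_lit 41) (nat_lit 5) (nat_lit 385) (nat_lit 304) (nat_lit 256)) (XT.lf (nat_lit 0) (nat_lit 10086090724) (nat_lit 252) (nat_lit 2481895831) (nat_lit 336) (nat_lit 2353601350) (nat_lit 37) (nat_lit 5) (nat_lit 40) (nat_lit 5) (nat_lit 41) (nat_lit 5) (nat_lit 386) (nat_lit 304) (nat_lit 255))) (XT.nd (nat_lit 94) (nat_lit 0) (nat_lit 0) (XT.lf (nat_lit 0) (nat_lit 582477463) (nat_lit 252) (nat_lit 13645573790) (nat_lit 84) (nat_lit 1015671707) (nat_lit 34) (nat_lit 5) (nat_lit 37) (nat_lit 5) (nat_lit 35) (nat_lit 5) (nat_lit 387) (nat_lit 304) (nat_lit 254)) (XT.lf (nat_lit 0) (nat_lit 3594733846) (nat_lit 252) (nat_lit 7360565606) (nat_lit 84) (nat_lit 4618497080) (nat_lit 34)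 (nat_lit 5) (nat_lit 37) (nat_lit 5) (nat_lit 35) (nat_lit 5) (nat_lit 388) (nat_lit 304) (nat_lit 253))))))) (XT.nd (nat_lit 55648) (nat_lit 0) (nat_lit 3696) (XT.nd (nat_lit 54896) (nat_lit 0) (nat_lit 7980) (XT.nd (nat_lit 54520) (nat_lit 0) (nat_lit 11844) (XT.nd (nat_lit 54332) (nat_lit 0) (nat_lit 15204) (XT.nd (nat_lit 54238) (nat_lit 0) (nat_lit 16212) (XT.lf (nat_lit 0) (nat_lit 6659993398) (nat_lit 252) (nat_lit 947275729) (nat_lit 84) (nat_lit 8307658650) (nat_lit 34) (nat_lit 5) (nat_lit 37) (nat_lit 5) (nat_lit 35) (nat_lit 5) (nat_lit 389) (nat_lit 304) (nat_lit 252)) (XT.lf (nat_lit 0) (nat_lit 1229225050) (nat_lit 924) (nat_lit 995907416) (nat_lit 0) (nat_lit 1229225050) (nat_lit 227) (nat_lit 5) (nat_lit 238) (nat_lit 4) (nat_lit 227) (nat_lit 4) (nat_lit 335) (nat_lit 305) (nat_lit 305))) (XT.nd (nat_lit 94) (nat_lit 84) (nat_lit 0) (XT.lf (nat_lit 0) (nat_lit 2266005558) (nat_lit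 924) (nat_lit 3243992119) (nat_lit 924) (nat_lit 1448206774) (nat_lit 216) (nat_lit 4) (nat_lit 227) (nat_lit 5) (nat_lit 227) (nat_lit 4) (nat_lit 336) (nat_lit 305) (nat_lit 304)) (XT.lf (nat_lit 0) (nat_lit 1537308239) (nat_lit 1008) (nat_lit 418530537) (nat_lit 84) (nat_lit 5055344400) (nat_lit 215) (nat_lit 5) (nat_lit 227) (nat_lit 5) (nat_lit 216) (nat_lit 4) (nat_lit 337) (nat_lit 305) (nat_lit 303)))) (XT.nd (nat_lit 188) (nat_lit 1176) (nat_lit 0) (XT.nd (nat_lit 94) (nat_lit 1176) (nat_lit 0) (XT.lf (nat_lit 0) (nat_lit 3962502009) (nat_lit 1008) (nat_lit 566792666) (nat_lit 1092) (nat_lit 2537881853) (nat_lit 203) (nat_lit 5) (nat_lit 215) (nat_lit 5) (nat_lit 216) (nat_lit 4) (nat_lit 338) (nat_lit 305) (nat_lit 302)) (XT.lf (nat_lit 0) (nat_lit 410680043) (nat_lit 1176) (nat_lit 5841430350) (nat_lit 84) (nat_lit 874802085) (nat_lit 189) (nat_lit 5) (nat_lit 203) (nat_lit 5) (nat_lit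 190) (nat_lit 4) (nat_lit 339) (nat_lit 305) (nat_lit 301))) (XT.nd (nat_lit 94) (nat_lit 1176) (nat_lit 0) (XT.lf (nat_lit 0) (nat_lit 3344553588) (nat_lit 1176) (nat_lit 1434727269) (nat_lit 84) (nat_lit 2410185731) (nat_lit 189) (nat_lit 5) (nat_lit 203) (nat_lit 5) (nat_lit 190) (nat_lit 4) (nat_lit 340) (nat_lit 305) (nat_lit 300)) (XT.lf (nat_lit 0) (nat_lit 3079646859) (nat_lit 1176) (nat_lit 3229594455) (nat_lit 1260) (nat_lit 946581602) (nat_lit 175) (nat_lit 5) (nat_lit 189) (nat_lit 5) (nat_lit 190) (nat_lit 4) (nat_lit 341) (nat_lit 305) (nat_lit 299))))) (XT.nd (nat_lit 376) (nat_lit 1848) (nat_lit 0) (XT.nd (nat_lit 188) (nat_lit 672) (nat_lit 0) (XT.nd (nat_lit 94) (nat_lit 0) (nat_lit 0) (XT.lf (nat_lit 0) (nat_lit 336241077) (nat_lit 1260) (nat_lit 1594415303) (nat_lit 1344) (nat_lit 5395170971) (nat_lit 159) (nat_lit 5) (nat_lit 174) (nat_lit 5) (nat_lit 175) (nat_lit 5) (nat_lit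 342) (nat_lit 305) (nat_lit 298)) (XT.lf (nat_lit 0) (nat_lit 4834202269) (nat_lit 1344) (nat_lit 2425268776) (nat_lit 84) (nat_lit 139600979) (nat_lit 159) (nat_lit 5) (nat_lit 175) (nat_lit 5) (nat_lit 160) (nat_lit 4) (nat_lit 343) (nat_lit 305) (nat_lit 297))) (XT.nd (nat_lit 94) (nat_lit 0) (nat_lit 0) (XT.lf (nat_lit 0) (nat_lit 298011987) (nat_lit 672) (nat_lit 5260522152) (nat_lit 84) (nat_lit 1917424376) (nat_lit 151) (nat_lit 5) (nat_lit 159) (nat_lit 5) (nat_lit 152) (nat_lit 5) (nat_lit 344) (nat_lit 305) (nat_lit 296)) (XT.lf (nat_lit 0) (nat_lit 3138590100) (nat_lit 672) (nat_lit 620973198) (nat_lit 84) (nat_lit 3796701104) (nat_lit 151) (nat_lit 5) (nat_lit 159) (nat_lit 5) (nat_lit 152) (nat_lit 5) (nat_lit 345) (nat_lit 305) (nat_lit 295)))) (XT.nd (nat_lit 188) (nat_lit 588) (nat_lit 0) (XT.nd (nat_lit 94) (nat_lit 672) (nat_lit 0) (XT.lf (nat_lit 0) (nat_lit 4155355585) (nat_lit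 588) (nat_lit 1869972159) (nat_lit 672) (nat_lit 1614993826) (nat_lit 144) (nat_lit 5) (nat_lit 151) (nat_lit 5) (nat_lit 152) (nat_lit 5) (nat_lit 346) (nat_lit 305) (nat_lit 294)) (XT.lf (nat_lit 0) (nat_lit 1188235980) (nat_lit 672) (nat_lit 6439996839) (nat_lit 84) (nat_lit 100222903) (nat_lit 136) (nat_lit 5) (nat_lit 144) (nat_lit 5) (nat_lit 137) (nat_lit 5) (nat_lit 347) (nat_lit 305) (nat_lit 293))) (XT.nd (nat_lit 94) (nat_lit 588) (nat_lit 0) (XT.lf (nat_lit 0) (nat_lit 4020149681) (nat_lit 672) (nat_lit 1662474898) (nat_lit 84) (nat_lit 2136974128) (nat_lit 136) (nat_lit 5) (nat_lit 144) (nat_lit 5) (nat_lit 137) (nat_lit 5) (nat_lit 348) (nat_lit 305) (nat_lit 292)) (XT.lf (nat_lit 0) (nat_lit 3238094953) (nat_lit 588) (nat_lit 3655287775) (nat_lit 672) (nat_lit 1021553766) (nat_lit 129) (nat_lit 5) (nat_lit 136) (nat_lit 5) (nat_lit 137) (nat_lit 5) (nat_lit 349) (nat_lit 305) (nat_lit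 291)))))) (XT.nd (nat_lit 752) (nat_lit 1680) (nat_lit 0) (XT.nd (nat_lit 376) (nat_lit 1428) (nat_lit 0) (XT.nd (nat_lit 188) (nat_lit 588) (nat_lit 0) (XT.nd (nat_lit 94) (nat_lit 0) (nat_lit 0) (XT.lf (nat_lit 0) (nat_lit 209093249) (nat_lit 504) (nat_lit 1539398141) (nat_lit 588) (nat_lit 6265913829) (nat_lit 122) (nat_lit 5) (nat_lit 128) (nat_lit 5) (nat_lit 129) (nat_lit 5) (nat_lit 350) (nat_lit 305) (nat_lit 290)) (XT.lf (nat_lit 0) (nat_lit 4561959072) (nat_lit 588) (nat_lit 2880362728) (nat_lit 84) (nat_lit 674945700) (nat_lit 122) (nat_lit 5) (nat_lit 129) (nat_lit 5) (nat_lit 123) (nat_lit 5) (nat_lit 351) (nat_lit 305) (nat_lit 289))) (XT.nd (nat_lit 94) (nat_lit 84) (nat_lit 0) (XT.lf (nat_lit 0) (nat_lit 2135597175) (nat_lit 504) (nat_lit 5289136948) (nat_lit 588) (nat_lit 799668916) (nat_lit 116) (nat_lit 5) (nat_lit 122) (nat_lit 5) (nat_lit 123) (nat_lit 5) (nat_lit 352) (nat_lit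 305) (nat_lit 288)) (XT.lf (nat_lit 0) (nat_lit 1957821045) (nat_lit 588) (nat_lit 1076566365) (nat_lit 84) (nat_lit 5301135233) (nat_lit 115) (nat_lit 5) (nat_lit 122) (nat_lit 5) (nat_lit 116) (nat_lit 5) (nat_lit 353) (nat_lit 305) (nat_lit 287)))) (XT.nd (nat_lit 188) (nat_lit 504) (nat_lit 0) (XT.nd (nat_lit 94) (nat_lit 504) (nat_lit 0) (XT.lf (nat_lit 0) (nat_lit 4076225664) (nat_lit 420) (nat_lit 676559958) (nat_lit 504) (nat_lit 3697951092) (nat_lit 110) (nat_lit 5) (nat_lit 115) (nat_lit 5) (nat_lit 116) (nat_lit 5) (nat_lit 354) (nat_lit 305) (nat_lit 286)) (XT.lf (nat_lit 0) (nat_lit 751662964) (nat_lit 504) (nat_lit 6847707267) (nat_lit 588) (nat_lit 971123336) (nat_lit 104) (nat_lit 5) (nat_lit 110) (nat_lit 5) (nat_lit 111) (nat_lit 5) (nat_lit 355) (nat_lit 305) (nat_lit 285))) (XT.nd (nat_lit 94) (nat_lit 420) (nat_lit 0) (XT.lf (nat_lit 0) (nat_lit 1786092865) (nat_lit 588) (nat_lit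 2679299669) (nat_lit 84) (nat_lit 4228500128) (nat_lit 103) (nat_lit 5) (nat_lit 110) (nat_lit 5) (nat_lit 104) (nat_lit 5) (nat_lit 356) (nat_lit 305) (nat_lit 284)) (XT.lf (nat_lit 0) (nat_lit 2574181322) (nat_lit 420) (nat_lit 1992147962) (nat_lit 504) (nat_lit 4255690677) (nat_lit 98) (nat_lit 5) (nat_lit 103) (nat_lit 5) (nat_lit 104) (nat_lit 5) (nat_lit 357) (nat_lit 305) (nat_lit 283))))) (XT.nd (nat_lit 376) (nat_lit 840) (nat_lit 0) (XT.nd (nat_lit 188) (nat_lit 336) (nat_lit 0) (XT.nd (nat_lit 94) (nat_lit 504) (nat_lit 0) (XT.lf (nat_lit 0) (nat_lit 7398676982) (nat_lit 504) (nat_lit 1000518924) (nat_lit 84) (nat_lit 555840215) (nat_lit 98) (nat_lit 5) (nat_lit 104) (nat_lit 5) (nat_lit 99) (nat_lit 5) (nat_lit 358) (nat_lit 305) (nat_lit 282)) (XT.lf (nat_lit 0) (nat_lit 1199801285) (nat_lit 504) (nat_lit 4713277727) (nat_lit 84) (nat_lit 3178718887) (nat_lit 92) (nat_lit 5) (nat_lit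 98) (nat_lit 5) (nat_lit 93) (nat_lit 5) (nat_lit 359) (nat_lit 305) (nat_lit 281))) (XT.nd (nat_lit 94) (nat_lit 0) (nat_lit 0) (XT.lf (nat_lit 0) (nat_lit 623657252) (nat_lit 336) (nat_lit 3338160920) (nat_lit 420) (nat_lit 5271845645) (nat_lit 88) (nat_lit 5) (nat_lit 92) (nat_lit 5) (nat_lit 93) (nat_lit 5) (nat_lit 360) (nat_lit 305) (nat_lit 280)) (XT.lf (nat_lit 0) (nat_lit 6138019305) (nat_lit 336) (nat_lit 655561910) (nat_lit 420) (nat_lit 2586692259) (nat_lit 88) (nat_lit 5) (nat_lit 92) (nat_lit 5) (nat_lit 93) (nat_lit 5) (nat_lit 361) (nat_lit 305) (nat_lit 279)))) (XT.nd (nat_lit 188) (nat_lit 336) (nat_lit 0) (XT.nd (nat_lit 94) (nat_lit 0) (nat_lit 0) (XT.lf (nat_lit 0) (nat_lit 157851606) (nat_lit 504) (nat_lit 7302308496) (nat_lit 84) (nat_lit 2071688735) (nat_lit 82) (nat_lit 5) (nat_lit 88) (nat_lit 5) (nat_lit 83) (nat_lit 5) (nat_lit 362) (nat_lit 305) (nat_lit 278)) (XT.lf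 (nat_lit 0) (nat_lit 2913492727) (nat_lit 504) (nat_lit 1866623747) (nat_lit 84) (nat_lit 4907750460) (nat_lit 82) (nat_lit 5) (nat_lit 88) (nat_lit 5) (nat_lit 83) (nat_lit 5) (nat_lit 363) (nat_lit 305) (nat_lit 277))) (XT.nd (nat_lit 94) (nat_lit 0) (nat_lit 0) (XT.lf (nat_lit 0) (nat_lit 3728023832) (nat_lit 336) (nat_lit 2002523652) (nat_lit 420) (nat_lit 4118739568) (nat_lit 78) (nat_lit 5) (nat_lit 82) (nat_lit 5) (nat_lit 83) (nat_lit 5) (nat_lit 364) (nat_lit 305) (nat_lit 276)) (XT.lf (nat_lit 0) (nat_lit 8603049190) (nat_lit 420) (nat_lit 572323460) (nat_lit 84) (nat_lit 841130435) (nat_lit 78) (nat_lit 5) (nat_lit 83) (nat_lit 5) (nat_lit 79) (nat_lit 5) (nat_lit 365) (nat_lit 305) (nat_lit 275))))))))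
noncomputable def xc12 : XT := (XT.nd (nat_lit 56870) (nat_lit 0) (nat_lit 2268) (XT.nd (nat_lit 1410) (nat_lit 1008) (nat_lit 0) (XT.nd (nat_lit 658) (nat_lit 1260) (nat_lit 0) (XT.nd (nat_lit 282) (nat_lit 672) (nat_lit 0) (XT.nd (nat_lit 94) (nat_lit 336) (nat_lit 0) (XT.lf (nat_lit 0) (nat_lit 1360870461) (nat_lit 420) (nat_lit 5053412291) (nat_lit 84) (nat_lit 3773693442) (nat_lit 73) (nat_lit 5) (nat_lit 78) (nat_lit 5) (nat_lit 74) (nat_lit 5) (nat_lit 366) (nat_lit 305) (nat_lit 274)) (XT.nd (nat_lit 94) (nat_lit 0) (nat_lit 0) (XT.lf (nat_lit 0) (nat_lit 581431720) (nat_lit 336) (nat_lit 3565566250) (nat_lit 420) (nat_lit 6218540679) (nat_lit 69) (nat_lit 5) (nat_lit 73) (nat_lit 5) (nat_lit 74) (nat_lit 5) (nat_lit 367) (nat_lit 305) (nat_lit 273)) (XT.lf (nat_lit 0) (nat_lit 6413822366) (nat_lit 336) (nat_lit 600337222) (nat_lit 420) (nat_lit 3534417176) (nat_lit 69) (nat_lit 5) (nat_lit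 73) (nat_lit 5) (nat_lit 74) (nat_lit 5) (nat_lit 368) (nat_lit 305) (nat_lit 272)))) (XT.nd (nat_lit 188) (nat_lit 252) (nat_lit 0) (XT.nd (nat_lit 94) (nat_lit 84) (nat_lit 0) (XT.lf (nat_lit 0) (nat_lit 1617726844) (nat_lit 336) (nat_lit 8336528235) (nat_lit 420) (nat_lit 783313563) (nat_lit 65) (nat_lit 5) (nat_lit 69) (nat_lit 5) (nat_lit 70) (nat_lit 5) (nat_lit 369) (nat_lit 305) (nat_lit 271)) (XT.lf (nat_lit 0) (nat_lit 2006442409) (nat_lit 420) (nat_lit 3404206648) (nat_lit 84) (nat_lit 5521172260) (nat_lit 64) (nat_lit 5) (nat_lit 69) (nat_lit 5) (nat_lit 65) (nat_lit 5) (nat_lit 370) (nat_lit 305) (nat_lit 270))) (XT.nd (nat_lit 94) (nat_lit 0) (nat_lit 0) (XT.lf (nat_lit 0) (nat_lit 2450430939) (nat_lit 252) (nat_lit 2386803572) (nat_lit 336) (nat_lit 6295306008) (nat_lit 61) (nat_lit 5) (nat_lit 64) (nat_lit 5) (nat_lit 65) (nat_lit 5) (nat_lit 371) (nat_lit 305) (nat_lit 269)) (XT.lf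 (nat_lit 0) (nat_lit 7744761302) (nat_lit 336) (nat_lit 2868252483) (nat_lit 84) (nat_lit 726575547) (nat_lit 61) (nat_lit 5) (nat_lit 65) (nat_lit 5) (nat_lit 62) (nat_lit 5) (nat_lit 372) (nat_lit 305) (nat_lit 268))))) (XT.nd (nat_lit 376) (nat_lit 588) (nat_lit 0) (XT.nd (nat_lit 188) (nat_lit 252) (nat_lit 0) (XT.nd (nat_lit 94) (nat_lit 84) (nat_lit 0) (XT.lf (nat_lit 0) (nat_lit 3085573028) (nat_lit 336) (nat_lit 7658785537) (nat_lit 420) (nat_lit 808406252) (nat_lit 57) (nat_lit 5) (nat_lit 61) (nat_lit 5) (nat_lit 62) (nat_lit 5) (nat_lit 373) (nat_lit 305) (nat_lit 267)) (XT.lf (nat_lit 0) (nat_lit 2002386810) (nat_lit 420) (nat_lit 2586108273) (nat_lit 84) (nat_lit 7183872790) (nat_lit 56) (nat_lit 5) (nat_lit 61) (nat_lit 5) (nat_lit 57) (nat_lit 5) (nat_lit 374) (nat_lit 305) (nat_lit 266))) (XT.nd (nat_lit 94) (nat_lit 0) (nat_lit 0) (XT.lf (nat_lit 0) (nat_lit 3461684654) (nat_lit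 252) (nat_lit 1406009331) (nat_lit 336) (nat_lit 7131087168) (nat_lit 53) (nat_lit 5) (nat_lit 56) (nat_lit 5) (nat_lit 57) (nat_lit 5) (nat_lit 375) (nat_lit 305) (nat_lit 265)) (XT.lf (nat_lit 0) (nat_lit 7816979547) (nat_lit 336) (nat_lit 2575344034) (nat_lit 84) (nat_lit 1839776471) (nat_lit 53) (nat_lit 5) (nat_lit 57) (nat_lit 5) (nat_lit 54) (nat_lit 5) (nat_lit 376) (nat_lit 305) (nat_lit 264)))) (XT.nd (nat_lit 188) (nat_lit 252) (nat_lit 0) (XT.nd (nat_lit 94) (nat_lit 84) (nat_lit 0) (XT.lf (nat_lit 0) (nat_lit 3552891386) (nat_lit 252) (nat_lit 7304927338) (nat_lit 336) (nat_lit 1614559771) (nat_lit 50) (nat_lit 5) (nat_lit 53) (nat_lit 5) (nat_lit 54) (nat_lit 5) (nat_lit 377) (nat_lit 305) (nat_lit 263)) (XT.lf (nat_lit 0) (nat_lit 1226677009) (nat_lit 336) (nat_lit 2881840102) (nat_lit 84) (nat_lit 8611587908) (nat_lit 49) (nat_lit 5) (nat_lit 53) (nat_lit 5) (nat_lit 50) (nat_lit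 5) (nat_lit 378) (nat_lit 305) (nat_lit 262))) (XT.nd (nat_lit 94) (nat_lit 0) (nat_lit 0) (XT.lf (nat_lit 0) (nat_lit 3319655996) (nat_lit 252) (nat_lit 789438327) (nat_lit 336) (nat_lit 8866085407) (nat_lit 46) (nat_lit 5) (nat_lit 49) (nat_lit 5) (nat_lit 50) (nat_lit 5) (nat_lit 379) (nat_lit 305) (nat_lit 261)) (XT.lf (nat_lit 0) (nat_lit 7089552548) (nat_lit 336) (nat_lit 3562864745) (nat_lit 84) (nat_lit 2585188740) (nat_lit 46) (nat_lit 5) (nat_lit 50) (nat_lit 5) (nat_lit 47) (nat_lit 5) (nat_lit 380) (nat_lit 305) (nat_lit 260)))))) (XT.nd (nat_lit 752) (nat_lit 0) (nat_lit 0) (XT.nd (nat_lit 376) (nat_lit 504) (nat_lit 0) (XT.nd (nat_lit 188) (nat_lit 252) (nat_lit 0) (XT.nd (nat_lit 94) (nat_lit 0) (nat_lit 0) (XT.lf (nat_lit 0) (nat_lit 2692698905) (nat_lit 252) (nat_lit 7458586604) (nat_lit 336) (nat_lit 3356908838) (nat_lit 43) (nat_lit 5) (nat_lit 46) (nat_lit 5) (nat_lit 47) (nat_lit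 5) (nat_lit 381) (nat_lit 305) (nat_lit 259)) (XT.lf (nat_lit 0) (nat_lit 9144994922) (nat_lit 252) (nat_lit 4154618084) (nat_lit 336) (nat_lit 487488770) (nat_lit 43) (nat_lit 5) (nat_lit 46) (nat_lit 5) (nat_lit 47) (nat_lit 5) (nat_lit 382) (nat_lit 305) (nat_lit 258))) (XT.nd (nat_lit 94) (nat_lit 0) (nat_lit 0) (XT.lf (nat_lit 0) (nat_lit 1662242379) (nat_lit 168) (nat_lit 733117782) (nat_lit 252) (nat_lit 11679080590) (nat_lit 40) (nat_lit 5) (nat_lit 42) (nat_lit 5) (nat_lit 43) (nat_lit 5) (nat_lit 383) (nat_lit 305) (nat_lit 257)) (XT.lf (nat_lit 0) (nat_lit 5388957349) (nat_lit 252) (nat_lit 6213589861) (nat_lit 84) (nat_lit 2766726090) (nat_lit 40) (nat_lit 5) (nat_lit 43) (nat_lit 5) (nat_lit 41) (nat_lit 5) (nat_lit 384) (nat_lit 305) (nat_lit 256)))) (XT.nd (nat_lit 188) (nat_lit 252) (nat_lit 0) (XT.nd (nat_lit 94) (nat_lit 0) (nat_lit 0) (XT.lf (nat_lit 0) (nat_lit 104240603) (nat_lit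 252) (nat_lit 8337442142) (nat_lit 336) (nat_lit 6232227335) (nat_lit 37) (nat_lit 5) (nat_lit 40) (nat_lit 5) (nat_lit 41) (nat_lit 5) (nat_lit 385) (nat_lit 305) (nat_lit 255)) (XT.lf (nat_lit 0) (nat_lit 6678069720) (nat_lit 252) (nat_lit 4932273627) (nat_lit 336) (nat_lit 3376649743) (nat_lit 37) (nat_lit 5) (nat_lit 40) (nat_lit 5) (nat_lit 41) (nat_lit 5) (nat_lit 386) (nat_lit 305) (nat_lit 254))) (XT.nd (nat_lit 94) (nat_lit 252) (nat_lit 0) (XT.lf (nat_lit 0) (nat_lit 13389978990) (nat_lit 252) (nat_lit 1446811348) (nat_lit 336) (nat_lit 473833087) (nat_lit 37) (nat_lit 5) (nat_lit 40) (nat_lit 5) (nat_lit 41) (nat_lit 5) (nat_lit 387) (nat_lit 305) (nat_lit 253)) (XT.lf (nat_lit 0) (nat_lit 2496339400) (nat_lit 252) (nat_lit 10996089262) (nat_lit 84) (nat_lit 2149961891) (nat_lit 34) (nat_lit 5) (nat_lit 37) (nat_lit 5) (nat_lit 35) (nat_lit 5) (nat_lit 388) (nat_lit 305) (nat_lit 252)))))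 (XT.nd (nat_lit 54332) (nat_lit 0) (nat_lit 13020) (XT.nd (nat_lit 54144) (nat_lit 0) (nat_lit 16212) (XT.nd (nat_lit 54050) (nat_lit 0) (nat_lit 17136) (XT.lf (nat_lit 0) (nat_lit 5543728884) (nat_lit 252) (nat_lit 4611623601) (nat_lit 84) (nat_lit 5828721928) (nat_lit 34) (nat_lit 5) (nat_lit 37) (nat_lit 5) (nat_lit 35) (nat_lit 5) (nat_lit 389) (nat_lit 305) (nat_lit 251)) (XT.lf (nat_lit 0) (nat_lit 1706627743) (nat_lit 756) (nat_lit 851260762) (nat_lit 756) (nat_lit 851260762) (nat_lit 238) (nat_lit 4) (nat_lit 247) (nat_lit 5) (nat_lit 247) (nat_lit 4) (nat_lit 333) (nat_lit 306) (nat_lit 306))) (XT.nd (nat_lit 94) (nat_lit 0) (nat_lit 0) (XT.lf (nat_lit 0) (nat_lit 691990726) (nat_lit 840) (nat_lit 587388288) (nat_lit 924) (nat_lit 5583520107) (nat_lit 227) (nat_lit 5) (nat_lit 237) (nat_lit 5) (nat_lit 238) (nat_lit 4) (nat_lit 334) (nat_lit 306) (nat_lit 305)) (XT.lf (nat_lit 0) (nat_lit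 4260994587) (nat_lit 924) (nat_lit 2033710489) (nat_lit 0) (nat_lit 615550335) (nat_lit 227) (nat_lit 5) (nat_lit 238) (nat_lit 4) (nat_lit 227) (nat_lit 4) (nat_lit 335) (nat_lit 306) (nat_lit 304)))) (XT.nd (nat_lit 188) (nat_lit 2184) (nat_lit 0) (XT.nd (nat_lit 94) (nat_lit 0) (nat_lit 0) (XT.lf (nat_lit 0) (nat_lit 298779562) (nat_lit 1008) (nat_lit 4782402657) (nat_lit 84) (nat_lit 1879994532) (nat_lit 215) (nat_lit 5) (nat_lit 227) (nat_lit 5) (nat_lit 216) (nat_lit 4) (nat_lit 336) (nat_lit 306) (nat_lit 303)) (XT.lf (nat_lit 0) (nat_lit 3210676965) (nat_lit 1008) (nat_lit 563950850) (nat_lit 84) (nat_lit 3240586939) (nat_lit 215) (nat_lit 5) (nat_lit 227) (nat_lit 5) (nat_lit 216) (nat_lit 4) (nat_lit 337) (nat_lit 306) (nat_lit 302))) (XT.nd (nat_lit 94) (nat_lit 1176) (nat_lit 0) (XT.lf (nat_lit 0) (nat_lit 3773296905) (nat_lit 1008) (nat_lit 2383510964) (nat_lit 1092) (nat_lit 915888693)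 (nat_lit 203) (nat_lit 5) (nat_lit 215) (nat_lit 5) (nat_lit 216) (nat_lit 4) (nat_lit 338) (nat_lit 306) (nat_lit 301)) (XT.lf (nat_lit 0) (nat_lit 1038328867) (nat_lit 1092) (nat_lit 907985988) (nat_lit 1176) (nat_lit 5187397447) (nat_lit 189) (nat_lit 5) (nat_lit 202) (nat_lit 5) (nat_lit 203) (nat_lit 5) (nat_lit 339) (nat_lit 306) (nat_lit 300))))))) (XT.nd (nat_lit 1504) (nat_lit 4116) (nat_lit 0) (XT.nd (nat_lit 752) (nat_lit 2184) (nat_lit 0) (XT.nd (nat_lit 376) (nat_lit 1932) (nat_lit 0) (XT.nd (nat_lit 188) (nat_lit 1260) (nat_lit 0) (XT.nd (nat_lit 94) (nat_lit 1260) (nat_lit 0) (XT.lf (nat_lit 0) (nat_lit 4828698965) (nat_lit 1176) (nat_lit 1721639453) (nat_lit 84) (nat_lit 647575894) (nat_lit 189) (nat_lit 5) (nat_lit 203) (nat_lit 5) (nat_lit 190) (nat_lit 4) (nat_lit 340) (nat_lit 306) (nat_lit 299)) (XT.lf (nat_lit 0) (nat_lit 473524506) (nat_lit 1260) (nat_lit 4524608972) (nat_lit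 84) (nat_lit 2267439867) (nat_lit 174) (nat_lit 5) (nat_lit 189) (nat_lit 5) (nat_lit 175) (nat_lit 5) (nat_lit 341) (nat_lit 306) (nat_lit 298))) (XT.nd (nat_lit 94) (nat_lit 1260) (nat_lit 0) (XT.lf (nat_lit 0) (nat_lit 3287868953) (nat_lit 1260) (nat_lit 68842688) (nat_lit 84) (nat_lit 3980020294) (nat_lit 174) (nat_lit 5) (nat_lit 189) (nat_lit 5) (nat_lit 175) (nat_lit 5) (nat_lit 342) (nat_lit 306) (nat_lit 297)) (XT.lf (nat_lit 0) (nat_lit 4528170487) (nat_lit 1260) (nat_lit 1620820176) (nat_lit 1344) (nat_lit 1262350380) (nat_lit 159) (nat_lit 5) (nat_lit 174) (nat_lit 5) (nat_lit 175) (nat_lit 5) (nat_lit 343) (nat_lit 306) (nat_lit 296)))) (XT.nd (nat_lit 188) (nat_lit 1260) (nat_lit 0) (XT.nd (nat_lit 94) (nat_lit 0) (nat_lit 0) (XT.lf (nat_lit 0) (nat_lit 1514915951) (nat_lit 672) (nat_lit 5779199858) (nat_lit 84) (nat_lit 195628507) (nat_lit 151) (nat_lit 5) (nat_lit 159) (nat_lit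 5) (nat_lit 152) (nat_lit 5) (nat_lit 344) (nat_lit 306) (nat_lit 295)) (XT.lf (nat_lit 0) (nat_lit 4316577004) (nat_lit 672) (nat_lit 1180780260) (nat_lit 84) (nat_lit 2073944377) (nat_lit 151) (nat_lit 5) (nat_lit 159) (nat_lit 5) (nat_lit 152) (nat_lit 5) (nat_lit 345) (nat_lit 306) (nat_lit 294))) (XT.nd (nat_lit 94) (nat_lit 672) (nat_lit 0) (XT.lf (nat_lit 0) (nat_lit 3543681138) (nat_lit 588) (nat_lit 3615970168) (nat_lit 672) (nat_lit 497098884) (nat_lit 144) (nat_lit 5) (nat_lit 151) (nat_lit 5) (nat_lit 152) (nat_lit 5) (nat_lit 346) (nat_lit 306) (nat_lit 293)) (XT.lf (nat_lit 0) (nat_lit 596741117) (nat_lit 588) (nat_lit 1642426457) (nat_lit 672) (nat_lit 5506825671) (nat_lit 136) (nat_lit 5) (nat_lit 143) (nat_lit 5) (nat_lit 144) (nat_lit 5) (nat_lit 347) (nat_lit 306) (nat_lit 292))))) (XT.nd (nat_lit 376) (nat_lit 1008) (nat_lit 0) (XT.nd (nat_lit 188) (nat_lit 588) (nat_lit 0)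 (XT.nd (nat_lit 94) (nat_lit 588) (nat_lit 0) (XT.lf (nat_lit 0) (nat_lit 5018463409) (nat_lit 672) (nat_lit 2397057768) (nat_lit 84) (nat_lit 423268157) (nat_lit 136) (nat_lit 5) (nat_lit 144) (nat_lit 5) (nat_lit 137) (nat_lit 5) (nat_lit 348) (nat_lit 306) (nat_lit 291)) (XT.lf (nat_lit 0) (nat_lit 2448179951) (nat_lit 588) (nat_lit 5400166215) (nat_lit 672) (nat_lit 87153859) (nat_lit 129) (nat_lit 5) (nat_lit 136) (nat_lit 5) (nat_lit 137) (nat_lit 5) (nat_lit 349) (nat_lit 306) (nat_lit 290))) (XT.nd (nat_lit 94) (nat_lit 504) (nat_lit 0) (XT.lf (nat_lit 0) (nat_lit 2627135832) (nat_lit 672) (nat_lit 654749160) (nat_lit 84) (nat_lit 4754008196) (nat_lit 128) (nat_lit 5) (nat_lit 136) (nat_lit 5) (nat_lit 129) (nat_lit 5) (nat_lit 350) (nat_lit 306) (nat_lit 289)) (XT.lf (nat_lit 0) (nat_lit 4326940622) (nat_lit 504) (nat_lit 1065765366) (nat_lit 588) (nat_lit 2747552657) (nat_lit 122) (nat_lit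 5) (nat_lit 128) (nat_lit 5) (nat_lit 129) (nat_lit 5) (nat_lit 351) (nat_lit 306) (nat_lit 288)))) (XT.nd (nat_lit 188) (nat_lit 420) (nat_lit 0) (XT.nd (nat_lit 94) (nat_lit 84) (nat_lit 0) (XT.lf (nat_lit 0) (nat_lit 1153954419) (nat_lit 504) (nat_lit 7047952673) (nat_lit 588) (nat_lit 47158635) (nat_lit 116) (nat_lit 5) (nat_lit 122) (nat_lit 5) (nat_lit 123) (nat_lit 5) (nat_lit 352) (nat_lit 306) (nat_lit 287)) (XT.lf (nat_lit 0) (nat_lit 2661971916) (nat_lit 588) (nat_lit 2130223124) (nat_lit 84) (nat_lit 3568844168) (nat_lit 115) (nat_lit 5) (nat_lit 122) (nat_lit 5) (nat_lit 116) (nat_lit 5) (nat_lit 353) (nat_lit 306) (nat_lit 286))) (XT.nd (nat_lit 94) (nat_lit 0) (nat_lit 0) (XT.lf (nat_lit 0) (nat_lit 2961874653) (nat_lit 420) (nat_lit 2451655624) (nat_lit 504) (nat_lit 3064084053) (nat_lit 110) (nat_lit 5) (nat_lit 115) (nat_lit 5) (nat_lit 116) (nat_lit 5) (nat_lit 354) (nat_lit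 306) (nat_lit 285)) (XT.lf (nat_lit 0) (nat_lit 8172111040) (nat_lit 420) (nat_lit 31846315) (nat_lit 504) (nat_lit 395155703) (nat_lit 110) (nat_lit 5) (nat_lit 115) (nat_lit 5) (nat_lit 116) (nat_lit 5) (nat_lit 355) (nat_lit 306) (nat_lit 284)))))) (XT.nd (nat_lit 752) (nat_lit 1764) (nat_lit 0) (XT.nd (nat_lit 376) (nat_lit 840) (nat_lit 0) (XT.nd (nat_lit 188) (nat_lit 504) (nat_lit 0) (XT.nd (nat_lit 94) (nat_lit 420) (nat_lit 0) (XT.lf (nat_lit 0) (nat_lit 2314306019) (nat_lit 588) (nat_lit 3940225626) (nat_lit 84) (nat_lit 2468963739) (nat_lit 103) (nat_lit 5) (nat_lit 110) (nat_lit 5) (nat_lit 104) (nat_lit 5) (nat_lit 356) (nat_lit 306) (nat_lit 283)) (XT.lf (nat_lit 0) (nat_lit 1248722206) (nat_lit 420) (nat_lit 3802029197) (nat_lit 504) (nat_lit 3802237310) (nat_lit 98) (nat_lit 5) (nat_lit 103) (nat_lit 5) (nat_lit 104) (nat_lit 5) (nat_lit 357) (nat_lit 306) (nat_lit 282))) (XT.nd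 (nat_lit 94) (nat_lit 504) (nat_lit 0) (XT.lf (nat_lit 0) (nat_lit 6596381406) (nat_lit 420) (nat_lit 1250754674) (nat_lit 504) (nat_lit 1139998461) (nat_lit 98) (nat_lit 5) (nat_lit 103) (nat_lit 5) (nat_lit 104) (nat_lit 5) (nat_lit 358) (nat_lit 306) (nat_lit 281)) (XT.lf (nat_lit 0) (nat_lit 1551833120) (nat_lit 504) (nat_lit 6194982075) (nat_lit 84) (nat_lit 1378695041) (nat_lit 92) (nat_lit 5) (nat_lit 98) (nat_lit 5) (nat_lit 93) (nat_lit 5) (nat_lit 359) (nat_lit 306) (nat_lit 280)))) (XT.nd (nat_lit 188) (nat_lit 504) (nat_lit 0) (XT.nd (nat_lit 94) (nat_lit 336) (nat_lit 0) (XT.lf (nat_lit 0) (nat_lit 4278324516) (nat_lit 504) (nat_lit 908517953) (nat_lit 84) (nat_lit 4081645918) (nat_lit 92) (nat_lit 5) (nat_lit 98) (nat_lit 5) (nat_lit 93) (nat_lit 5) (nat_lit 360) (nat_lit 306) (nat_lit 279)) (XT.lf (nat_lit 0) (nat_lit 4549837251) (nat_lit 336) (nat_lit 2522308299) (nat_lit 420) (nat_lit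 2344135868) (nat_lit 88) (nat_lit 5) (nat_lit 92) (nat_lit 5) (nat_lit 93) (nat_lit 5) (nat_lit 361) (nat_lit 306) (nat_lit 278))) (XT.nd (nat_lit 94) (nat_lit 0) (nat_lit 0) (XT.lf (nat_lit 0) (nat_lit 332681770) (nat_lit 504) (nat_lit 9018533675) (nat_lit 84) (nat_lit 218503704) (nat_lit 82) (nat_lit 5) (nat_lit 88) (nat_lit 5) (nat_lit 83) (nat_lit 5) (nat_lit 362) (nat_lit 306) (nat_lit 277)) (XT.lf (nat_lit 0) (nat_lit 3060198929) (nat_lit 504) (nat_lit 3620708475) (nat_lit 84) (nat_lit 3045714847) (nat_lit 82) (nat_lit 5) (nat_lit 88) (nat_lit 5) (nat_lit 83) (nat_lit 5) (nat_lit 363) (nat_lit 306) (nat_lit 276))))) (XT.nd (nat_lit 376) (nat_lit 1008) (nat_lit 0) (XT.nd (nat_lit 188) (nat_lit 420) (nat_lit 0) (XT.nd (nat_lit 94) (nat_lit 0) (nat_lit 0) (XT.lf (nat_lit 0) (nat_lit 1901541003) (nat_lit 336) (nat_lit 3930850597) (nat_lit 420) (nat_lit 4057036717) (nat_lit 78) (nat_lit 5) (nat_lit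 82) (nat_lit 5) (nat_lit 83) (nat_lit 5) (nat_lit 364) (nat_lit 306) (nat_lit 275)) (XT.lf (nat_lit 0) (nat_lit 7589794082) (nat_lit 336) (nat_lit 1079993450) (nat_lit 420) (nat_lit 1387948907) (nat_lit 78) (nat_lit 5) (nat_lit 82) (nat_lit 5) (nat_lit 83) (nat_lit 5) (nat_lit 365) (nat_lit 306) (nat_lit 274))) (XT.nd (nat_lit 94) (nat_lit 0) (nat_lit 0) (XT.lf (nat_lit 0) (nat_lit 1329908384) (nat_lit 420) (nat_lit 7055583947) (nat_lit 84) (nat_lit 1845425623) (nat_lit 73) (nat_lit 5) (nat_lit 78) (nat_lit 5) (nat_lit 74) (nat_lit 5) (nat_lit 366) (nat_lit 306) (nat_lit 273)) (XT.lf (nat_lit 0) (nat_lit 4084408652) (nat_lit 420) (nat_lit 1468353463) (nat_lit 84) (nat_lit 4856702725) (nat_lit 73) (nat_lit 5) (nat_lit 78) (nat_lit 5) (nat_lit 74) (nat_lit 5) (nat_lit 367) (nat_lit 306) (nat_lit 272)))) (XT.nd (nat_lit 188) (nat_lit 672) (nat_lit 0) (XT.nd (nat_lit 94) (nat_lit 0) (nat_lit 0) (XT.lf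 (nat_lit 0) (nat_lit 4298901935) (nat_lit 336) (nat_lit 2612647732) (nat_lit 420) (nat_lit 3682188483) (nat_lit 69) (nat_lit 5) (nat_lit 73) (nat_lit 5) (nat_lit 74) (nat_lit 5) (nat_lit 368) (nat_lit 306) (nat_lit 271)) (XT.lf (nat_lit 0) (nat_lit 9791776391) (nat_lit 420) (nat_lit 590129163) (nat_lit 84) (nat_lit 402654108) (nat_lit 69) (nat_lit 5) (nat_lit 74) (nat_lit 5) (nat_lit 70) (nat_lit 5) (nat_lit 369) (nat_lit 306) (nat_lit 270))) (XT.nd (nat_lit 94) (nat_lit 252) (nat_lit 0) (XT.lf (nat_lit 0) (nat_lit 1770356379) (nat_lit 420) (nat_lit 5704629102) (nat_lit 84) (nat_lit 3504840018) (nat_lit 64) (nat_lit 5) (nat_lit 69) (nat_lit 5) (nat_lit 65) (nat_lit 5) (nat_lit 370) (nat_lit 306) (nat_lit 269)) (XT.lf (nat_lit 0) (nat_lit 68847875) (nat_lit 252) (nat_lit 4485270510) (nat_lit 336) (nat_lit 6627867940) (nat_lit 61) (nat_lit 5) (nat_lit 64) (nat_lit 5) (nat_lit 65) (nat_lit 5) (nat_lit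 371) (nat_lit 306) (nat_lit 268))))))))
noncomputable def xc13 : XT := (XT.nd (nat_lit 56776) (nat_lit 0) (nat_lit 1596) (XT.nd (nat_lit 1504) (nat_lit 252) (nat_lit 0) (XT.nd (nat_lit 752) (nat_lit 756) (nat_lit 0) (XT.nd (nat_lit 376) (nat_lit 588) (nat_lit 0) (XT.nd (nat_lit 188) (nat_lit 336) (nat_lit 0) (XT.nd (nat_lit 94) (nat_lit 336) (nat_lit 0) (XT.lf (nat_lit 0) (nat_lit 6062743501) (nat_lit 252) (nat_lit 1368014372) (nat_lit 336) (nat_lit 3959233711) (nat_lit 61) (nat_lit 5) (nat_lit 64) (nat_lit 5) (nat_lit 65) (nat_lit 5) (nat_lit 372) (nat_lit 306) (nat_lit 267)) (XT.lf (nat_lit 0) (nat_lit 556405234) (nat_lit 336) (nat_lit 9813317176) (nat_lit 420) (nat_lit 1235292597) (nat_lit 57) (nat_lit 5) (nat_lit 61) (nat_lit 5) (nat_lit 62) (nat_lit 5) (nat_lit 373) (nat_lit 306) (nat_lit 266))) (XT.nd (nat_lit 94) (nat_lit 252) (nat_lit 0) (XT.lf (nat_lit 0) (nat_lit 1560757972) (nat_lit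 420) (nat_lit 5197545428) (nat_lit 84) (nat_lit 5067157240) (nat_lit 56) (nat_lit 5) (nat_lit 61) (nat_lit 5) (nat_lit 57) (nat_lit 5) (nat_lit 374) (nat_lit 306) (nat_lit 265)) (XT.lf (nat_lit 0) (nat_lit 764486651) (nat_lit 252) (nat_lit 3613250813) (nat_lit 336) (nat_lit 7675612788) (nat_lit 53) (nat_lit 5) (nat_lit 56) (nat_lit 5) (nat_lit 57) (nat_lit 5) (nat_lit 375) (nat_lit 306) (nat_lit 264)))) (XT.nd (nat_lit 188) (nat_lit 336) (nat_lit 0) (XT.nd (nat_lit 94) (nat_lit 252) (nat_lit 0) (XT.lf (nat_lit 0) (nat_lit 6945332142) (nat_lit 252) (nat_lit 341590403) (nat_lit 336) (nat_lit 5000975347) (nat_lit 53) (nat_lit 5) (nat_lit 56) (nat_lit 5) (nat_lit 57) (nat_lit 5) (nat_lit 376) (nat_lit 306) (nat_lit 263)) (XT.lf (nat_lit 0) (nat_lit 700884399) (nat_lit 252) (nat_lit 9574657445) (nat_lit 336) (nat_lit 2254226066) (nat_lit 50) (nat_lit 5) (nat_lit 53) (nat_lit 5) (nat_lit 54) (nat_lit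 5) (nat_lit 377) (nat_lit 306) (nat_lit 262))) (XT.nd (nat_lit 94) (nat_lit 252) (nat_lit 0) (XT.lf (nat_lit 0) (nat_lit 578056414) (nat_lit 336) (nat_lit 5817635928) (nat_lit 84) (nat_lit 6382653198) (nat_lit 49) (nat_lit 5) (nat_lit 53) (nat_lit 5) (nat_lit 50) (nat_lit 5) (nat_lit 378) (nat_lit 306) (nat_lit 261)) (XT.lf (nat_lit 0) (nat_lit 293202890) (nat_lit 252) (nat_lit 3117366589) (nat_lit 336) (nat_lit 9624370758) (nat_lit 46) (nat_lit 5) (nat_lit 49) (nat_lit 5) (nat_lit 50) (nat_lit 5) (nat_lit 379) (nat_lit 306) (nat_lit 260))))) (XT.nd (nat_lit 376) (nat_lit 420) (nat_lit 0) (XT.nd (nat_lit 188) (nat_lit 336) (nat_lit 0) (XT.nd (nat_lit 94) (nat_lit 0) (nat_lit 0) (XT.lf (nat_lit 0) (nat_lit 6348039840) (nat_lit 336) (nat_lit 6658525095) (nat_lit 84) (nat_lit 292113434) (nat_lit 46) (nat_lit 5) (nat_lit 50) (nat_lit 5) (nat_lit 47) (nat_lit 5) (nat_lit 380) (nat_lit 306) (nat_lit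 259)) (XT.lf (nat_lit 0) (nat_lit 9363878841) (nat_lit 336) (nat_lit 486402988) (nat_lit 84) (nat_lit 3720383221) (nat_lit 46) (nat_lit 5) (nat_lit 50) (nat_lit 5) (nat_lit 47) (nat_lit 5) (nat_lit 381) (nat_lit 306) (nat_lit 258))) (XT.nd (nat_lit 94) (nat_lit 84) (nat_lit 0) (XT.lf (nat_lit 0) (nat_lit 5925618280) (nat_lit 252) (nat_lit 6562098035) (nat_lit 336) (nat_lit 1362611782) (nat_lit 43) (nat_lit 5) (nat_lit 46) (nat_lit 5) (nat_lit 47) (nat_lit 5) (nat_lit 382) (nat_lit 306) (nat_lit 257)) (XT.lf (nat_lit 0) (nat_lit 1501979016) (nat_lit 336) (nat_lit 1674492928) (nat_lit 84) (nat_lit 10962527261) (nat_lit 42) (nat_lit 5) (nat_lit 46) (nat_lit 5) (nat_lit 43) (nat_lit 5) (nat_lit 383) (nat_lit 306) (nat_lit 256)))) (XT.nd (nat_lit 188) (nat_lit 252) (nat_lit 0) (XT.nd (nat_lit 94) (nat_lit 0) (nat_lit 0) (XT.lf (nat_lit 0) (nat_lit 4436327626) (nat_lit 252) (nat_lit 9655353648) (nat_lit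 84) (nat_lit 343947083) (nat_lit 40) (nat_lit 5) (nat_lit 43) (nat_lit 5) (nat_lit 41) (nat_lit 5) (nat_lit 384) (nat_lit 306) (nat_lit 255)) (XT.lf (nat_lit 0) (nat_lit 7469427284) (nat_lit 252) (nat_lit 3368976117) (nat_lit 84) (nat_lit 3902469094) (nat_lit 40) (nat_lit 5) (nat_lit 43) (nat_lit 5) (nat_lit 41) (nat_lit 5) (nat_lit 385) (nat_lit 306) (nat_lit 254))) (XT.nd (nat_lit 94) (nat_lit 0) (nat_lit 0) (XT.lf (nat_lit 0) (nat_lit 3108673365) (nat_lit 252) (nat_lit 7478024049) (nat_lit 336) (nat_lit 4468817851) (nat_lit 37) (nat_lit 5) (nat_lit 40) (nat_lit 5) (nat_lit 41) (nat_lit 5) (nat_lit 386) (nat_lit 306) (nat_lit 253)) (XT.lf (nat_lit 0) (nat_lit 9792300689) (nat_lit 252) (nat_lit 4003017216) (nat_lit 336) (nat_lit 1584380009) (nat_lit 37) (nat_lit 5) (nat_lit 40) (nat_lit 5) (nat_lit 41) (nat_lit 5) (nat_lit 387) (nat_lit 306) (nat_lit 252)))))) (XT.nd (nat_lit 54520) (nat_lit 0)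 (nat_lit 9828) (XT.nd (nat_lit 54144) (nat_lit 0) (nat_lit 15204) (XT.nd (nat_lit 53956) (nat_lit 0) (nat_lit 17892) (XT.nd (nat_lit 94) (nat_lit 0) (nat_lit 0) (XT.lf (nat_lit 0) (nat_lit 910794410) (nat_lit 168) (nat_lit 421978791) (nat_lit 252) (nat_lit 14381269314) (nat_lit 34) (nat_lit 5) (nat_lit 36) (nat_lit 5) (nat_lit 37) (nat_lit 5) (nat_lit 388) (nat_lit 306) (nat_lit 251)) (XT.lf (nat_lit 0) (nat_lit 4358756788) (nat_lit 252) (nat_lit 8442710802) (nat_lit 84) (nat_lit 3254916996) (nat_lit 34) (nat_lit 5) (nat_lit 37) (nat_lit 5) (nat_lit 35) (nat_lit 5) (nat_lit 389) (nat_lit 306) (nat_lit 250))) (XT.nd (nat_lit 94) (nat_lit 0) (nat_lit 0) (XT.lf (nat_lit 0) (nat_lit 531439194) (nat_lit 756) (nat_lit 2306188481) (nat_lit 0) (nat_lit 531439194) (nat_lit 247) (nat_lit 5) (nat_lit 256) (nat_lit 4) (nat_lit 247) (nat_lit 4) (nat_lit 331) (nat_lit 307) (nat_lit 307)) (XT.lf (nat_lit 0) (nat_lit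 4033824785) (nat_lit 756) (nat_lit 671975232) (nat_lit 0) (nat_lit 2071521652) (nat_lit 247) (nat_lit 5) (nat_lit 256) (nat_lit 4) (nat_lit 247) (nat_lit 4) (nat_lit 332) (nat_lit 307) (nat_lit 306)))) (XT.nd (nat_lit 188) (nat_lit 1008) (nat_lit 0) (XT.nd (nat_lit 94) (nat_lit 840) (nat_lit 0) (XT.lf (nat_lit 0) (nat_lit 206515108) (nat_lit 840) (nat_lit 3448226136) (nat_lit 84) (nat_lit 3165059049) (nat_lit 237) (nat_lit 5) (nat_lit 247) (nat_lit 5) (nat_lit 238) (nat_lit 4) (nat_lit 333) (nat_lit 307) (nat_lit 305)) (XT.lf (nat_lit 0) (nat_lit 590969801) (nat_lit 840) (nat_lit 2516459022) (nat_lit 924) (nat_lit 3758040962) (nat_lit 227) (nat_lit 5) (nat_lit 237) (nat_lit 5) (nat_lit 238) (nat_lit 4) (nat_lit 334) (nat_lit 307) (nat_lit 304))) (XT.nd (nat_lit 94) (nat_lit 1008) (nat_lit 0) (XT.lf (nat_lit 0) (nat_lit 4742626234) (nat_lit 840) (nat_lit 1294576864) (nat_lit 924) (nat_lit 877301465)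 (nat_lit 227) (nat_lit 5) (nat_lit 237) (nat_lit 5) (nat_lit 238) (nat_lit 4) (nat_lit 335) (nat_lit 307) (nat_lit 303)) (XT.lf (nat_lit 0) (nat_lit 1976991469) (nat_lit 1008) (nat_lit 4973481079) (nat_lit 84) (nat_lit 16333638) (nat_lit 215) (nat_lit 5) (nat_lit 227) (nat_lit 5) (nat_lit 216) (nat_lit 4) (nat_lit 336) (nat_lit 307) (nat_lit 302))))) (XT.nd (nat_lit 376) (nat_lit 3192) (nat_lit 0) (XT.nd (nat_lit 188) (nat_lit 1092) (nat_lit 0) (XT.nd (nat_lit 94) (nat_lit 1092) (nat_lit 0) (XT.lf (nat_lit 0) (nat_lit 4844852095) (nat_lit 1008) (nat_lit 795121990) (nat_lit 84) (nat_lit 1382303997) (nat_lit 215) (nat_lit 5) (nat_lit 227) (nat_lit 5) (nat_lit 216) (nat_lit 4) (nat_lit 337) (nat_lit 307) (nat_lit 301)) (XT.lf (nat_lit 0) (nat_lit 651385536) (nat_lit 1092) (nat_lit 3589792238) (nat_lit 84) (nat_lit 2839862101) (nat_lit 202) (nat_lit 5) (nat_lit 215) (nat_lit 5) (nat_lit 203) (nat_lit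 5) (nat_lit 338) (nat_lit 307) (nat_lit 300))) (XT.nd (nat_lit 94) (nat_lit 0) (nat_lit 0) (XT.lf (nat_lit 0) (nat_lit 692901289) (nat_lit 1092) (nat_lit 2757096772) (nat_lit 1176) (nat_lit 3693268212) (nat_lit 189) (nat_lit 5) (nat_lit 202) (nat_lit 5) (nat_lit 203) (nat_lit 5) (nat_lit 339) (nat_lit 307) (nat_lit 299)) (XT.lf (nat_lit 0) (nat_lit 5098283311) (nat_lit 1092) (nat_lit 1186210818) (nat_lit 1176) (nat_lit 924511008) (nat_lit 189) (nat_lit 5) (nat_lit 202) (nat_lit 5) (nat_lit 203) (nat_lit 5) (nat_lit 340) (nat_lit 307) (nat_lit 298)))) (XT.nd (nat_lit 188) (nat_lit 1932) (nat_lit 0) (XT.nd (nat_lit 94) (nat_lit 0) (nat_lit 0) (XT.lf (nat_lit 0) (nat_lit 1833592411) (nat_lit 1260) (nat_lit 4976077593) (nat_lit 84) (nat_lit 468365354) (nat_lit 174) (nat_lit 5) (nat_lit 189) (nat_lit 5) (nat_lit 175) (nat_lit 5) (nat_lit 341) (nat_lit 307) (nat_lit 297)) (XT.lf (nat_lit 0) (nat_lit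 4607946407) (nat_lit 1260) (nat_lit 560107867) (nat_lit 84) (nat_lit 2182431096) (nat_lit 174) (nat_lit 5) (nat_lit 189) (nat_lit 5) (nat_lit 175) (nat_lit 5) (nat_lit 342) (nat_lit 307) (nat_lit 296))) (XT.nd (nat_lit 94) (nat_lit 672) (nat_lit 0) (XT.lf (nat_lit 0) (nat_lit 3987721772) (nat_lit 1260) (nat_lit 3437325540) (nat_lit 1344) (nat_lit 1456826) (nat_lit 159) (nat_lit 5) (nat_lit 174) (nat_lit 5) (nat_lit 175) (nat_lit 5) (nat_lit 343) (nat_lit 307) (nat_lit 295)) (XT.lf (nat_lit 0) (nat_lit 1093601025) (nat_lit 588) (nat_lit 1611212335) (nat_lit 672) (nat_lit 4801206111) (nat_lit 151) (nat_lit 5) (nat_lit 158) (nat_lit 5) (nat_lit 159) (nat_lit 5) (nat_lit 344) (nat_lit 307) (nat_lit 294))))))) (XT.nd (nat_lit 1504) (nat_lit 3276) (nat_lit 0) (XT.nd (nat_lit 752) (nat_lit 1932) (nat_lit 0) (XT.nd (nat_lit 376) (nat_lit 1764) (nat_lit 0) (XT.nd (nat_lit 188) (nat_lit 588) (nat_lit 0)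 (XT.nd (nat_lit 94) (nat_lit 672) (nat_lit 0) (XT.lf (nat_lit 0) (nat_lit 5453202903) (nat_lit 672) (nat_lit 1838442303) (nat_lit 84) (nat_lit 297611217) (nat_lit 151) (nat_lit 5) (nat_lit 159) (nat_lit 5) (nat_lit 152) (nat_lit 5) (nat_lit 345) (nat_lit 307) (nat_lit 293)) (XT.lf (nat_lit 0) (nat_lit 565423944) (nat_lit 672) (nat_lit 4848242376) (nat_lit 84) (nat_lit 2262256784) (nat_lit 143) (nat_lit 5) (nat_lit 151) (nat_lit 5) (nat_lit 144) (nat_lit 5) (nat_lit 346) (nat_lit 307) (nat_lit 292))) (XT.nd (nat_lit 94) (nat_lit 588) (nat_lit 0) (XT.lf (nat_lit 0) (nat_lit 3249838760) (nat_lit 672) (nat_lit 194042774) (nat_lit 84) (nat_lit 4322480382) (nat_lit 143) (nat_lit 5) (nat_lit 151) (nat_lit 5) (nat_lit 144) (nat_lit 5) (nat_lit 347) (nat_lit 307) (nat_lit 291)) (XT.lf (nat_lit 0) (nat_lit 4612556631) (nat_lit 588) (nat_lit 1374798318) (nat_lit 672) (nat_lit 1873128841) (nat_lit 136) (nat_lit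 5) (nat_lit 143) (nat_lit 5) (nat_lit 144) (nat_lit 5) (nat_lit 348) (nat_lit 307) (nat_lit 290)))) (XT.nd (nat_lit 188) (nat_lit 1092) (nat_lit 0) (XT.nd (nat_lit 94) (nat_lit 0) (nat_lit 0) (XT.lf (nat_lit 0) (nat_lit 786108805) (nat_lit 672) (nat_lit 6412339105) (nat_lit 84) (nat_lit 760281348) (nat_lit 128) (nat_lit 5) (nat_lit 136) (nat_lit 5) (nat_lit 129) (nat_lit 5) (nat_lit 349) (nat_lit 307) (nat_lit 289)) (XT.lf (nat_lit 0) (nat_lit 3464220117) (nat_lit 672) (nat_lit 1619733821) (nat_lit 84) (nat_lit 2976243933) (nat_lit 128) (nat_lit 5) (nat_lit 136) (nat_lit 5) (nat_lit 129) (nat_lit 5) (nat_lit 350) (nat_lit 307) (nat_lit 288))) (XT.nd (nat_lit 94) (nat_lit 588) (nat_lit 0) (XT.lf (nat_lit 0) (nat_lit 3304006625) (nat_lit 504) (nat_lit 2882477091) (nat_lit 588) (nat_lit 1979443132) (nat_lit 122) (nat_lit 5) (nat_lit 128) (nat_lit 5) (nat_lit 129) (nat_lit 5) (nat_lit 351) (nat_lit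 307) (nat_lit 287)) (XT.lf (nat_lit 0) (nat_lit 50442637) (nat_lit 504) (nat_lit 600693367) (nat_lit 588) (nat_lit 7625123044) (nat_lit 115) (nat_lit 5) (nat_lit 121) (nat_lit 5) (nat_lit 122) (nat_lit 5) (nat_lit 352) (nat_lit 307) (nat_lit 286))))) (XT.nd (nat_lit 376) (nat_lit 924) (nat_lit 0) (XT.nd (nat_lit 188) (nat_lit 588) (nat_lit 0) (XT.nd (nat_lit 94) (nat_lit 420) (nat_lit 0) (XT.lf (nat_lit 0) (nat_lit 3320877697) (nat_lit 588) (nat_lit 3294556563) (nat_lit 84) (nat_lit 1773997594) (nat_lit 115) (nat_lit 5) (nat_lit 122) (nat_lit 5) (nat_lit 116) (nat_lit 5) (nat_lit 353) (nat_lit 307) (nat_lit 285)) (XT.lf (nat_lit 0) (nat_lit 1735801302) (nat_lit 420) (nat_lit 4293106860) (nat_lit 504) (nat_lit 2478461799) (nat_lit 110) (nat_lit 5) (nat_lit 115) (nat_lit 5) (nat_lit 116) (nat_lit 5) (nat_lit 354) (nat_lit 307) (nat_lit 284))) (XT.nd (nat_lit 94) (nat_lit 504) (nat_lit 0) (XT.lf (nat_lit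 0) (nat_lit 155209235) (nat_lit 504) (nat_lit 1722787543) (nat_lit 84) (nat_lit 6751817073) (nat_lit 109) (nat_lit 5) (nat_lit 115) (nat_lit 5) (nat_lit 110) (nat_lit 5) (nat_lit 355) (nat_lit 307) (nat_lit 283)) (XT.lf (nat_lit 0) (nat_lit 2795334249) (nat_lit 588) (nat_lit 5317476777) (nat_lit 84) (nat_lit 643172270) (nat_lit 103) (nat_lit 5) (nat_lit 110) (nat_lit 5) (nat_lit 104) (nat_lit 5) (nat_lit 356) (nat_lit 307) (nat_lit 282)))) (XT.nd (nat_lit 188) (nat_lit 504) (nat_lit 0) (XT.nd (nat_lit 94) (nat_lit 420) (nat_lit 0) (XT.lf (nat_lit 0) (nat_lit 5489630608) (nat_lit 588) (nat_lit 190438416) (nat_lit 84) (nat_lit 3206722849) (nat_lit 103) (nat_lit 5) (nat_lit 110) (nat_lit 5) (nat_lit 104) (nat_lit 5) (nat_lit 357) (nat_lit 307) (nat_lit 281)) (XT.lf (nat_lit 0) (nat_lit 5116256342) (nat_lit 420) (nat_lit 3138267038) (nat_lit 504) (nat_lit 767408375) (nat_lit 98) (nat_lit 5) (nat_lit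 103) (nat_lit 5) (nat_lit 104) (nat_lit 5) (nat_lit 358) (nat_lit 307) (nat_lit 280))) (XT.nd (nat_lit 94) (nat_lit 0) (nat_lit 0) (XT.lf (nat_lit 0) (nat_lit 1358277407) (nat_lit 420) (nat_lit 501017640) (nat_lit 504) (nat_lit 7302687151) (nat_lit 92) (nat_lit 5) (nat_lit 97) (nat_lit 5) (nat_lit 98) (nat_lit 5) (nat_lit 359) (nat_lit 307) (nat_lit 279)) (XT.lf (nat_lit 0) (nat_lit 4552299951) (nat_lit 504) (nat_lit 2549610076) (nat_lit 84) (nat_lit 2204100032) (nat_lit 92) (nat_lit 5) (nat_lit 98) (nat_lit 5) (nat_lit 93) (nat_lit 5) (nat_lit 360) (nat_lit 307) (nat_lit 278)))))) (XT.nd (nat_lit 752) (nat_lit 1344) (nat_lit 0) (XT.nd (nat_lit 376) (nat_lit 1092) (nat_lit 0) (XT.nd (nat_lit 188) (nat_lit 420) (nat_lit 0) (XT.nd (nat_lit 94) (nat_lit 84) (nat_lit 0) (XT.lf (nat_lit 0) (nat_lit 2839263247) (nat_lit 336) (nat_lit 4462579309) (nat_lit 420) (nat_lit 2153332686) (nat_lit 88) (nat_lit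 5) (nat_lit 92) (nat_lit 5) (nat_lit 93) (nat_lit 5) (nat_lit 361) (nat_lit 307) (nat_lit 277)) (XT.lf (nat_lit 0) (nat_lit 484619049) (nat_lit 420) (nat_lit 1245049348) (nat_lit 84) (nat_lit 7879985119) (nat_lit 87) (nat_lit 5) (nat_lit 92) (nat_lit 5) (nat_lit 88) (nat_lit 5) (nat_lit 362) (nat_lit 307) (nat_lit 276))) (XT.nd (nat_lit 94) (nat_lit 0) (nat_lit 0) (XT.lf (nat_lit 0) (nat_lit 3155877539) (nat_lit 504) (nat_lit 5502032136) (nat_lit 84) (nat_lit 1110374786) (nat_lit 82) (nat_lit 5) (nat_lit 88) (nat_lit 5) (nat_lit 83) (nat_lit 5) (nat_lit 363) (nat_lit 307) (nat_lit 275)) (XT.lf (nat_lit 0) (nat_lit 5883281903) (nat_lit 504) (nat_lit 52574827) (nat_lit 84) (nat_lit 3996616361) (nat_lit 82) (nat_lit 5) (nat_lit 88) (nat_lit 5) (nat_lit 83) (nat_lit 5) (nat_lit 364) (nat_lit 307) (nat_lit 274)))) (XT.nd (nat_lit 188) (nat_lit 336) (nat_lit 0) (XT.nd (nat_lit 94) (nat_lit 420) (nat_lit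 0) (XT.lf (nat_lit 0) (nat_lit 5599295518) (nat_lit 336) (nat_lit 3094789792) (nat_lit 420) (nat_lit 1407531461) (nat_lit 78) (nat_lit 5) (nat_lit 82) (nat_lit 5) (nat_lit 83) (nat_lit 5) (nat_lit 365) (nat_lit 307) (nat_lit 273)) (XT.lf (nat_lit 0) (nat_lit 1083748156) (nat_lit 336) (nat_lit 162978464) (nat_lit 420) (nat_lit 9030032368) (nat_lit 73) (nat_lit 5) (nat_lit 77) (nat_lit 5) (nat_lit 78) (nat_lit 5) (nat_lit 366) (nat_lit 307) (nat_lit 272))) (XT.nd (nat_lit 94) (nat_lit 336) (nat_lit 0) (XT.lf (nat_lit 0) (nat_lit 3974380469) (nat_lit 420) (nat_lit 3639425060) (nat_lit 84) (nat_lit 2842340315) (nat_lit 73) (nat_lit 5) (nat_lit 78) (nat_lit 5) (nat_lit 74) (nat_lit 5) (nat_lit 367) (nat_lit 307) (nat_lit 271)) (XT.lf (nat_lit 0) (nat_lit 2049755605) (nat_lit 336) (nat_lit 4705602241) (nat_lit 420) (nat_lit 3886479786) (nat_lit 69) (nat_lit 5) (nat_lit 73) (nat_lit 5) (nat_lit 74) (nat_lit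 5) (nat_lit 368) (nat_lit 307) (nat_lit 270))))) (XT.nd (nat_lit 376) (nat_lit 672) (nat_lit 0) (XT.nd (nat_lit 188) (nat_lit 252) (nat_lit 0) (XT.nd (nat_lit 94) (nat_lit 420) (nat_lit 0) (XT.lf (nat_lit 0) (nat_lit 7915499555) (nat_lit 336) (nat_lit 1691983423) (nat_lit 420) (nat_lit 1226051805) (nat_lit 69) (nat_lit 5) (nat_lit 73) (nat_lit 5) (nat_lit 74) (nat_lit 5) (nat_lit 369) (nat_lit 307) (nat_lit 269)) (XT.lf (nat_lit 0) (nat_lit 1478189938) (nat_lit 420) (nat_lit 8144479542) (nat_lit 84) (nat_lit 1408132625) (nat_lit 64) (nat_lit 5) (nat_lit 69) (nat_lit 5) (nat_lit 65) (nat_lit 5) (nat_lit 370) (nat_lit 307) (nat_lit 268))) (XT.nd (nat_lit 94) (nat_lit 252) (nat_lit 0) (XT.lf (nat_lit 0) (nat_lit 4237856290) (nat_lit 420) (nat_lit 2406023069) (nat_lit 84) (nat_lit 4589836267) (nat_lit 64) (nat_lit 5) (nat_lit 69) (nat_lit 5) (nat_lit 65) (nat_lit 5) (nat_lit 371) (nat_lit 307) (nat_lit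 267)) (XT.lf (nat_lit 0) (nat_lit 3506641111) (nat_lit 252) (nat_lit 3561194347) (nat_lit 336) (nat_lit 4375314194) (nat_lit 61) (nat_lit 5) (nat_lit 64) (nat_lit 5) (nat_lit 65) (nat_lit 5) (nat_lit 372) (nat_lit 307) (nat_lit 266)))) (XT.nd (nat_lit 188) (nat_lit 252) (nat_lit 0) (XT.nd (nat_lit 94) (nat_lit 420) (nat_lit 0) (XT.lf (nat_lit 0) (nat_lit 9580283864) (nat_lit 252) (nat_lit 381254533) (nat_lit 336) (nat_lit 1698020640) (nat_lit 61) (nat_lit 5) (nat_lit 64) (nat_lit 5) (nat_lit 65) (nat_lit 5) (nat_lit 373) (nat_lit 307) (nat_lit 265)) (XT.lf (nat_lit 0) (nat_lit 1060407118) (nat_lit 420) (nat_lit 7954577163) (nat_lit 84) (nat_lit 2866579899) (nat_lit 56) (nat_lit 5) (nat_lit 61) (nat_lit 5) (nat_lit 57) (nat_lit 5) (nat_lit 374) (nat_lit 307) (nat_lit 264))) (XT.nd (nat_lit 94) (nat_lit 252) (nat_lit 0) (XT.lf (nat_lit 0) (nat_lit 3848289775) (nat_lit 420) (nat_lit 2039626855) (nat_lit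 84) (nat_lit 6222435794) (nat_lit 56) (nat_lit 5) (nat_lit 61) (nat_lit 5) (nat_lit 57) (nat_lit 5) (nat_lit 375) (nat_lit 307) (nat_lit 263)) (XT.lf (nat_lit 0) (nat_lit 4068777511) (nat_lit 252) (nat_lit 2647280174) (nat_lit 336) (nat_lit 5630109874) (nat_lit 53) (nat_lit 5) (nat_lit 56) (nat_lit 5) (nat_lit 57) (nat_lit 5) (nat_lit 376) (nat_lit 307) (nat_lit 262))))))))
noncomputable def xc14 : XT := (XT.nd (nat_lit 56494) (nat_lit 0) (nat_lit 1344) (XT.nd (nat_lit 54990) (nat_lit 0) (nat_lit 9156) (XT.nd (nat_lit 658) (nat_lit 672) (nat_lit 0) (XT.nd (nat_lit 282) (nat_lit 588) (nat_lit 0) (XT.nd (nat_lit 94) (nat_lit 336) (nat_lit 0) (XT.lf (nat_lit 0) (nat_lit 9654881714) (nat_lit 336) (nat_lit 2256924741) (nat_lit 84) (nat_lit 677749231) (nat_lit 53) (nat_lit 5) (nat_lit 57) (nat_lit 5) (nat_lit 54) (nat_lit 5) (nat_lit 377) (nat_lit 307) (nat_lit 261)) (XT.nd (nat_lit 94) (nat_lit 84)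 (nat_lit 0) (XT.lf (nat_lit 0) (nat_lit 3932657262) (nat_lit 252) (nat_lit 8772047092) (nat_lit 336) (nat_lit 134903882) (nat_lit 50) (nat_lit 5) (nat_lit 53) (nat_lit 5) (nat_lit 54) (nat_lit 5) (nat_lit 378) (nat_lit 307) (nat_lit 260)) (XT.lf (nat_lit 0) (nat_lit 2677217246) (nat_lit 336) (nat_lit 2831216704) (nat_lit 84) (nat_lit 7588520811) (nat_lit 49) (nat_lit 5) (nat_lit 53) (nat_lit 5) (nat_lit 50) (nat_lit 5) (nat_lit 379) (nat_lit 307) (nat_lit 259)))) (XT.nd (nat_lit 188) (nat_lit 336) (nat_lit 0) (XT.nd (nat_lit 94) (nat_lit 0) (nat_lit 0) (XT.lf (nat_lit 0) (nat_lit 3431957590) (nat_lit 252) (nat_lit 2132199682) (nat_lit 336) (nat_lit 7798073078) (nat_lit 46) (nat_lit 5) (nat_lit 49) (nat_lit 5) (nat_lit 50) (nat_lit 5) (nat_lit 380) (nat_lit 307) (nat_lit 258)) (XT.lf (nat_lit 0) (nat_lit 8540072992) (nat_lit 336) (nat_lit 3767652014) (nat_lit 84) (nat_lit 1327710642) (nat_lit 46)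 (nat_lit 5) (nat_lit 50) (nat_lit 5) (nat_lit 47) (nat_lit 5) (nat_lit 381) (nat_lit 307) (nat_lit 257))) (XT.nd (nat_lit 94) (nat_lit 84) (nat_lit 0) (XT.lf (nat_lit 0) (nat_lit 2549362689) (nat_lit 252) (nat_lit 9063231714) (nat_lit 336) (nat_lit 2304064086) (nat_lit 43) (nat_lit 5) (nat_lit 46) (nat_lit 5) (nat_lit 47) (nat_lit 5) (nat_lit 382) (nat_lit 307) (nat_lit 256)) (XT.lf (nat_lit 0) (nat_lit 560105174) (nat_lit 336) (nat_lit 5137260382) (nat_lit 84) (nat_lit 8508818458) (nat_lit 42) (nat_lit 5) (nat_lit 46) (nat_lit 5) (nat_lit 43) (nat_lit 5) (nat_lit 383) (nat_lit 307) (nat_lit 255))))) (XT.nd (nat_lit 376) (nat_lit 252) (nat_lit 0) (XT.nd (nat_lit 188) (nat_lit 252) (nat_lit 0) (XT.nd (nat_lit 94) (nat_lit 0) (nat_lit 0) (XT.lf (nat_lit 0) (nat_lit 1223119878) (nat_lit 168) (nat_lit 2215489636) (nat_lit 252) (nat_lit 11065897567) (nat_lit 40) (nat_lit 5) (nat_lit 42) (nat_lit 5)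 (nat_lit 43) (nat_lit 5) (nat_lit 384) (nat_lit 307) (nat_lit 254)) (XT.lf (nat_lit 0) (nat_lit 6432331255) (nat_lit 252) (nat_lit 7002274995) (nat_lit 84) (nat_lit 1376344351) (nat_lit 40) (nat_lit 5) (nat_lit 43) (nat_lit 5) (nat_lit 41) (nat_lit 5) (nat_lit 385) (nat_lit 307) (nat_lit 253))) (XT.nd (nat_lit 94) (nat_lit 252) (nat_lit 0) (XT.lf (nat_lit 0) (nat_lit 9502164278) (nat_lit 252) (nat_lit 613016990) (nat_lit 84) (nat_lit 5011852735) (nat_lit 40) (nat_lit 5) (nat_lit 43) (nat_lit 5) (nat_lit 41) (nat_lit 5) (nat_lit 386) (nat_lit 307) (nat_lit 252)) (XT.lf (nat_lit 0) (nat_lit 6030951893) (nat_lit 252) (nat_lit 6656515625) (nat_lit 336) (nat_lit 2764465662) (nat_lit 37) (nat_lit 5) (nat_lit 40) (nat_lit 5) (nat_lit 41) (nat_lit 5) (nat_lit 387) (nat_lit 307) (nat_lit 251)))) (XT.nd (nat_lit 53768) (nat_lit 0) (nat_lit 18564) (XT.nd (nat_lit 94) (nat_lit 168) (nat_lit 0) (XT.lf (nat_lit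 0) (nat_lit 149974412) (nat_lit 336) (nat_lit 2956231354) (nat_lit 84) (nat_lit 12681200586) (nat_lit 36) (nat_lit 5) (nat_lit 40) (nat_lit 5) (nat_lit 37) (nat_lit 5) (nat_lit 388) (nat_lit 307) (nat_lit 250)) (XT.lf (nat_lit 0) (nat_lit 3104041697) (nat_lit 252) (nat_lit 12443884882) (nat_lit 84) (nat_lit 583994898) (nat_lit 34) (nat_lit 5) (nat_lit 37) (nat_lit 5) (nat_lit 35) (nat_lit 5) (nat_lit 389) (nat_lit 307) (nat_lit 249))) (XT.nd (nat_lit 94) (nat_lit 84) (nat_lit 0) (XT.lf (nat_lit 0) (nat_lit 523367568) (nat_lit 588) (nat_lit 1405231604) (nat_lit 588) (nat_lit 1405231604) (nat_lit 256) (nat_lit 4) (nat_lit 263) (nat_lit 5) (nat_lit 263) (nat_lit 4) (nat_lit 329) (nat_lit 308) (nat_lit 308)) (XT.lf (nat_lit 0) (nat_lit 140210817) (nat_lit 672) (nat_lit 1797179434) (nat_lit 84) (nat_lit 4764753122) (nat_lit 255) (nat_lit 5) (nat_lit 263) (nat_lit 5) (nat_lit 256) (nat_lit 4) (nat_lit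 330) (nat_lit 308) (nat_lit 307)))))) (XT.nd (nat_lit 752) (nat_lit 4956) (nat_lit 0) (XT.nd (nat_lit 376) (nat_lit 2100) (nat_lit 0) (XT.nd (nat_lit 188) (nat_lit 1680) (nat_lit 0) (XT.nd (nat_lit 94) (nat_lit 0) (nat_lit 0) (XT.lf (nat_lit 0) (nat_lit 2077792923) (nat_lit 672) (nat_lit 966922615) (nat_lit 756) (nat_lit 3694736970) (nat_lit 247) (nat_lit 5) (nat_lit 255) (nat_lit 5) (nat_lit 256) (nat_lit 4) (nat_lit 331) (nat_lit 308) (nat_lit 306)) (XT.lf (nat_lit 0) (nat_lit 5959153956) (nat_lit 756) (nat_lit 750786476) (nat_lit 0) (nat_lit 70529923) (nat_lit 247) (nat_lit 5) (nat_lit 256) (nat_lit 4) (nat_lit 247) (nat_lit 4) (nat_lit 332) (nat_lit 308) (nat_lit 305))) (XT.nd (nat_lit 94) (nat_lit 840) (nat_lit 0) (XT.lf (nat_lit 0) (nat_lit 2043613198) (nat_lit 840) (nat_lit 3589748146) (nat_lit 84) (nat_lit 1190587476) (nat_lit 237) (nat_lit 5) (nat_lit 247) (nat_lit 5) (nat_lit 238) (nat_lit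 4) (nat_lit 333) (nat_lit 308) (nat_lit 304)) (XT.lf (nat_lit 0) (nat_lit 407517610) (nat_lit 840) (nat_lit 4489815342) (nat_lit 924) (nat_lit 1973824428) (nat_lit 227) (nat_lit 5) (nat_lit 237) (nat_lit 5) (nat_lit 238) (nat_lit 4) (nat_lit 334) (nat_lit 308) (nat_lit 303)))) (XT.nd (nat_lit 188) (nat_lit 1092) (nat_lit 0) (XT.nd (nat_lit 94) (nat_lit 924) (nat_lit 0) (XT.lf (nat_lit 0) (nat_lit 844187925) (nat_lit 924) (nat_lit 2408722679) (nat_lit 84) (nat_lit 3668487091) (nat_lit 226) (nat_lit 5) (nat_lit 237) (nat_lit 5) (nat_lit 227) (nat_lit 5) (nat_lit 335) (nat_lit 308) (nat_lit 302)) (XT.lf (nat_lit 0) (nat_lit 1704726516) (nat_lit 924) (nat_lit 1929980715) (nat_lit 1008) (nat_lit 3340251511) (nat_lit 215) (nat_lit 5) (nat_lit 226) (nat_lit 5) (nat_lit 227) (nat_lit 5) (nat_lit 336) (nat_lit 308) (nat_lit 301))) (XT.nd (nat_lit 94) (nat_lit 1092) (nat_lit 0) (XT.lf (nat_lit 0) (nat_lit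 5914871008) (nat_lit 924) (nat_lit 531499640) (nat_lit 1008) (nat_lit 585855410) (nat_lit 215) (nat_lit 5) (nat_lit 226) (nat_lit 5) (nat_lit 227) (nat_lit 5) (nat_lit 337) (nat_lit 308) (nat_lit 300)) (XT.lf (nat_lit 0) (nat_lit 2161201037) (nat_lit 1092) (nat_lit 3978130270) (nat_lit 84) (nat_lit 952821722) (nat_lit 202) (nat_lit 5) (nat_lit 215) (nat_lit 5) (nat_lit 203) (nat_lit 5) (nat_lit 338) (nat_lit 308) (nat_lit 299))))) (XT.nd (nat_lit 376) (nat_lit 2604) (nat_lit 0) (XT.nd (nat_lit 188) (nat_lit 1176) (nat_lit 0) (XT.nd (nat_lit 94) (nat_lit 84) (nat_lit 0) (XT.lf (nat_lit 0) (nat_lit 257731350) (nat_lit 1092) (nat_lit 4656735717) (nat_lit 1176) (nat_lit 2241372966) (nat_lit 189) (nat_lit 5) (nat_lit 202) (nat_lit 5) (nat_lit 203) (nat_lit 5) (nat_lit 339) (nat_lit 308) (nat_lit 298)) (XT.lf (nat_lit 0) (nat_lit 476268998) (nat_lit 1176) (nat_lit 2602406294) (nat_lit 84) (nat_lit 4144070701)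 (nat_lit 188) (nat_lit 5) (nat_lit 202) (nat_lit 5) (nat_lit 189) (nat_lit 5) (nat_lit 340) (nat_lit 308) (nat_lit 297))) (XT.nd (nat_lit 94) (nat_lit 0) (nat_lit 0) (XT.lf (nat_lit 0) (nat_lit 1757663415) (nat_lit 1176) (nat_lit 1409164070) (nat_lit 1260) (nat_lit 4126258961) (nat_lit 174) (nat_lit 5) (nat_lit 188) (nat_lit 5) (nat_lit 189) (nat_lit 5) (nat_lit 341) (nat_lit 308) (nat_lit 296)) (XT.lf (nat_lit 0) (nat_lit 5888810054) (nat_lit 1260) (nat_lit 1144544994) (nat_lit 84) (nat_lit 333841590) (nat_lit 174) (nat_lit 5) (nat_lit 189) (nat_lit 5) (nat_lit 175) (nat_lit 5) (nat_lit 342) (nat_lit 308) (nat_lit 295)))) (XT.nd (nat_lit 188) (nat_lit 672) (nat_lit 0) (XT.nd (nat_lit 94) (nat_lit 588) (nat_lit 0) (XT.lf (nat_lit 0) (nat_lit 1193745092) (nat_lit 1344) (nat_lit 4102924441) (nat_lit 84) (nat_lit 2147594986) (nat_lit 158) (nat_lit 5) (nat_lit 174) (nat_lit 5) (nat_lit 159) (nat_lit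 5) (nat_lit 343) (nat_lit 308) (nat_lit 294)) (XT.lf (nat_lit 0) (nat_lit 377501094) (nat_lit 588) (nat_lit 3478200017) (nat_lit 672) (nat_lit 3669488375) (nat_lit 151) (nat_lit 5) (nat_lit 158) (nat_lit 5) (nat_lit 159) (nat_lit 5) (nat_lit 344) (nat_lit 308) (nat_lit 293))) (XT.nd (nat_lit 94) (nat_lit 672) (nat_lit 0) (XT.lf (nat_lit 0) (nat_lit 5000121569) (nat_lit 588) (nat_lit 1564377144) (nat_lit 672) (nat_lit 1045194590) (nat_lit 151) (nat_lit 5) (nat_lit 158) (nat_lit 5) (nat_lit 159) (nat_lit 5) (nat_lit 345) (nat_lit 308) (nat_lit 292)) (XT.lf (nat_lit 0) (nat_lit 1575908379) (nat_lit 672) (nat_lit 5689943462) (nat_lit 84) (nat_lit 432040768) (nat_lit 143) (nat_lit 5) (nat_lit 151) (nat_lit 5) (nat_lit 144) (nat_lit 5) (nat_lit 346) (nat_lit 308) (nat_lit 291))))))) (XT.nd (nat_lit 1504) (nat_lit 3108) (nat_lit 0) (XT.nd (nat_lit 752) (nat_lit 1932) (nat_lit 0) (XT.nd (nat_lit 376) (nat_lit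 1512) (nat_lit 0) (XT.nd (nat_lit 188) (nat_lit 672) (nat_lit 0) (XT.nd (nat_lit 94) (nat_lit 588) (nat_lit 0) (XT.lf (nat_lit 0) (nat_lit 4224968620) (nat_lit 672) (nat_lit 1073790056) (nat_lit 84) (nat_lit 2490705779) (nat_lit 143) (nat_lit 5) (nat_lit 151) (nat_lit 5) (nat_lit 144) (nat_lit 5) (nat_lit 347) (nat_lit 308) (nat_lit 290)) (XT.lf (nat_lit 0) (nat_lit 3677627459) (nat_lit 588) (nat_lit 3241545407) (nat_lit 672) (nat_lit 965783106) (nat_lit 136) (nat_lit 5) (nat_lit 143) (nat_lit 5) (nat_lit 144) (nat_lit 5) (nat_lit 348) (nat_lit 308) (nat_lit 289))) (XT.nd (nat_lit 94) (nat_lit 0) (nat_lit 0) (XT.lf (nat_lit 0) (nat_lit 528613520) (nat_lit 588) (nat_lit 1095747398) (nat_lit 672) (nat_lit 6360186757) (nat_lit 128) (nat_lit 5) (nat_lit 135) (nat_lit 5) (nat_lit 136) (nat_lit 5) (nat_lit 349) (nat_lit 308) (nat_lit 288)) (XT.lf (nat_lit 0) (nat_lit 4258465745) (nat_lit 672) (nat_lit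 2690784087) (nat_lit 84) (nat_lit 1138150972) (nat_lit 128) (nat_lit 5) (nat_lit 136) (nat_lit 5) (nat_lit 129) (nat_lit 5) (nat_lit 350) (nat_lit 308) (nat_lit 287)))) (XT.nd (nat_lit 188) (nat_lit 924) (nat_lit 0) (XT.nd (nat_lit 94) (nat_lit 84) (nat_lit 0) (XT.lf (nat_lit 0) (nat_lit 2174024582) (nat_lit 504) (nat_lit 4763344149) (nat_lit 588) (nat_lit 1257124317) (nat_lit 122) (nat_lit 5) (nat_lit 128) (nat_lit 5) (nat_lit 129) (nat_lit 5) (nat_lit 351) (nat_lit 308) (nat_lit 286)) (XT.lf (nat_lit 0) (nat_lit 1326596545) (nat_lit 588) (nat_lit 1153254730) (nat_lit 84) (nat_lit 5825807434) (nat_lit 121) (nat_lit 5) (nat_lit 128) (nat_lit 5) (nat_lit 122) (nat_lit 5) (nat_lit 352) (nat_lit 308) (nat_lit 285))) (XT.nd (nat_lit 94) (nat_lit 420) (nat_lit 0) (XT.lf (nat_lit 0) (nat_lit 3849283269) (nat_lit 504) (nat_lit 86663927) (nat_lit 588) (nat_lit 4484753199) (nat_lit 115) (nat_lit 5) (nat_lit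 121) (nat_lit 5) (nat_lit 122) (nat_lit 5) (nat_lit 353) (nat_lit 308) (nat_lit 284)) (XT.lf (nat_lit 0) (nat_lit 396934285) (nat_lit 420) (nat_lit 6202522701) (nat_lit 504) (nat_lit 1940572622) (nat_lit 110) (nat_lit 5) (nat_lit 115) (nat_lit 5) (nat_lit 116) (nat_lit 5) (nat_lit 354) (nat_lit 308) (nat_lit 283))))) (XT.nd (nat_lit 376) (nat_lit 924) (nat_lit 0) (XT.nd (nat_lit 188) (nat_lit 420) (nat_lit 0) (XT.nd (nat_lit 94) (nat_lit 504) (nat_lit 0) (XT.lf (nat_lit 0) (nat_lit 651980289) (nat_lit 504) (nat_lit 3136499931) (nat_lit 84) (nat_lit 4874809120) (nat_lit 109) (nat_lit 5) (nat_lit 115) (nat_lit 5) (nat_lit 110) (nat_lit 5) (nat_lit 355) (nat_lit 308) (nat_lit 282)) (XT.lf (nat_lit 0) (nat_lit 1966500950) (nat_lit 504) (nat_lit 1275356427) (nat_lit 588) (nat_lit 5549159623) (nat_lit 103) (nat_lit 5) (nat_lit 109) (nat_lit 5) (nat_lit 110) (nat_lit 5) (nat_lit 356) (nat_lit 308) (nat_lit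 281))) (XT.nd (nat_lit 94) (nat_lit 420) (nat_lit 0) (XT.lf (nat_lit 0) (nat_lit 5894626711) (nat_lit 588) (nat_lit 1721667120) (nat_lit 84) (nat_lit 1306826854) (nat_lit 103) (nat_lit 5) (nat_lit 110) (nat_lit 5) (nat_lit 104) (nat_lit 5) (nat_lit 357) (nat_lit 308) (nat_lit 280)) (XT.lf (nat_lit 0) (nat_lit 3518461591) (nat_lit 420) (nat_lit 5097283846) (nat_lit 504) (nat_lit 443876214) (nat_lit 98) (nat_lit 5) (nat_lit 103) (nat_lit 5) (nat_lit 104) (nat_lit 5) (nat_lit 358) (nat_lit 308) (nat_lit 279)))) (XT.nd (nat_lit 188) (nat_lit 420) (nat_lit 0) (XT.nd (nat_lit 94) (nat_lit 420) (nat_lit 0) (XT.lf (nat_lit 0) (nat_lit 2135211026) (nat_lit 504) (nat_lit 342469767) (nat_lit 84) (nat_lit 6723182203) (nat_lit 97) (nat_lit 5) (nat_lit 103) (nat_lit 5) (nat_lit 98) (nat_lit 5) (nat_lit 359) (nat_lit 308) (nat_lit 278)) (XT.lf (nat_lit 0) (nat_lit 4777988899) (nat_lit 504) (nat_lit 4313222878)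 (nat_lit 84) (nat_lit 255229691) (nat_lit 92) (nat_lit 5) (nat_lit 98) (nat_lit 5) (nat_lit 93) (nat_lit 5) (nat_lit 360) (nat_lit 308) (nat_lit 277))) (XT.nd (nat_lit 94) (nat_lit 84) (nat_lit 0) (XT.lf (nat_lit 0) (nat_lit 1004802616) (nat_lit 336) (nat_lit 6478070324) (nat_lit 420) (nat_lit 2014115992) (nat_lit 88) (nat_lit 5) (nat_lit 92) (nat_lit 5) (nat_lit 93) (nat_lit 5) (nat_lit 361) (nat_lit 308) (nat_lit 276)) (XT.lf (nat_lit 0) (nat_lit 594244454) (nat_lit 420) (nat_lit 3157944105) (nat_lit 84) (nat_lit 5900084824) (nat_lit 87) (nat_lit 5) (nat_lit 92) (nat_lit 5) (nat_lit 88) (nat_lit 5) (nat_lit 362) (nat_lit 308) (nat_lit 275)))))) (XT.nd (nat_lit 752) (nat_lit 1176) (nat_lit 0) (XT.nd (nat_lit 376) (nat_lit 1092) (nat_lit 0) (XT.nd (nat_lit 188) (nat_lit 420) (nat_lit 0) (XT.nd (nat_lit 94) (nat_lit 0) (nat_lit 0) (XT.lf (nat_lit 0) (nat_lit 2291563523) (nat_lit 420) (nat_lit 917871781)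 (nat_lit 504) (nat_lit 6603189970) (nat_lit 82) (nat_lit 5) (nat_lit 87) (nat_lit 5) (nat_lit 88) (nat_lit 5) (nat_lit 363) (nat_lit 308) (nat_lit 274)) (XT.lf (nat_lit 0) (nat_lit 5902279114) (nat_lit 504) (nat_lit 2097428147) (nat_lit 84) (nat_lit 1978181242) (nat_lit 82) (nat_lit 5) (nat_lit 88) (nat_lit 5) (nat_lit 83) (nat_lit 5) (nat_lit 364) (nat_lit 308) (nat_lit 273))) (XT.nd (nat_lit 94) (nat_lit 84) (nat_lit 0) (XT.lf (nat_lit 0) (nat_lit 3479438433) (nat_lit 336) (nat_lit 5188278950) (nat_lit 420) (nat_lit 1480712436) (nat_lit 78) (nat_lit 5) (nat_lit 82) (nat_lit 5) (nat_lit 83) (nat_lit 5) (nat_lit 365) (nat_lit 308) (nat_lit 272)) (XT.lf (nat_lit 0) (nat_lit 1139697580) (nat_lit 420) (nat_lit 1137203590) (nat_lit 84) (nat_lit 8047784829) (nat_lit 77) (nat_lit 5) (nat_lit 82) (nat_lit 5) (nat_lit 78) (nat_lit 5) (nat_lit 366) (nat_lit 308) (nat_lit 271)))) (XT.nd (nat_lit 188) (nat_lit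 756) (nat_lit 0) (XT.nd (nat_lit 94) (nat_lit 0) (nat_lit 0) (XT.lf (nat_lit 0) (nat_lit 3811228201) (nat_lit 420) (nat_lit 5945025952) (nat_lit 84) (nat_lit 749535967) (nat_lit 73) (nat_lit 5) (nat_lit 78) (nat_lit 5) (nat_lit 74) (nat_lit 5) (nat_lit 367) (nat_lit 308) (nat_lit 270)) (XT.lf (nat_lit 0) (nat_lit 6548673465) (nat_lit 420) (nat_lit 329033484) (nat_lit 84) (nat_lit 3815113514) (nat_lit 73) (nat_lit 5) (nat_lit 78) (nat_lit 5) (nat_lit 74) (nat_lit 5) (nat_lit 368) (nat_lit 308) (nat_lit 269))) (XT.nd (nat_lit 94) (nat_lit 420) (nat_lit 0) (XT.lf (nat_lit 0) (nat_lit 5497297363) (nat_lit 336) (nat_lit 3876824929) (nat_lit 420) (nat_lit 1511227254) (nat_lit 69) (nat_lit 5) (nat_lit 73) (nat_lit 5) (nat_lit 74) (nat_lit 5) (nat_lit 369) (nat_lit 308) (nat_lit 268)) (XT.lf (nat_lit 0) (nat_lit 351122415) (nat_lit 336) (nat_lit 786122067) (nat_lit 420) (nat_lit 9947324496) (nat_lit 64)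 (nat_lit 5) (nat_lit 68) (nat_lit 5) (nat_lit 69) (nat_lit 5) (nat_lit 370) (nat_lit 308) (nat_lit 267))))) (XT.nd (nat_lit 376) (nat_lit 504) (nat_lit 0) (XT.nd (nat_lit 188) (nat_lit 420) (nat_lit 0) (XT.nd (nat_lit 94) (nat_lit 252) (nat_lit 0) (XT.lf (nat_lit 0) (nat_lit 3866602840) (nat_lit 420) (nat_lit 5020129553) (nat_lit 84) (nat_lit 2401688301) (nat_lit 64) (nat_lit 5) (nat_lit 69) (nat_lit 5) (nat_lit 65) (nat_lit 5) (nat_lit 371) (nat_lit 308) (nat_lit 266)) (XT.lf (nat_lit 0) (nat_lit 808133182) (nat_lit 252) (nat_lit 5840420469) (nat_lit 336) (nat_lit 4850770034) (nat_lit 61) (nat_lit 5) (nat_lit 64) (nat_lit 5) (nat_lit 65) (nat_lit 5) (nat_lit 372) (nat_lit 308) (nat_lit 265))) (XT.nd (nat_lit 94) (nat_lit 420) (nat_lit 0) (XT.lf (nat_lit 0) (nat_lit 6850343313) (nat_lit 252) (nat_lit 2670165838) (nat_lit 336) (nat_lit 2195903637) (nat_lit 61) (nat_lit 5) (nat_lit 64) (nat_lit 5)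 (nat_lit 65) (nat_lit 5) (nat_lit 373) (nat_lit 308) (nat_lit 264)) (XT.lf (nat_lit 0) (nat_lit 500897051) (nat_lit 420) (nat_lit 10859612533) (nat_lit 84) (nat_lit 580217930) (nat_lit 56) (nat_lit 5) (nat_lit 61) (nat_lit 5) (nat_lit 57) (nat_lit 5) (nat_lit 374) (nat_lit 308) (nat_lit 263)))) (XT.nd (nat_lit 188) (nat_lit 252) (nat_lit 0) (XT.nd (nat_lit 94) (nat_lit 252) (nat_lit 0) (XT.lf (nat_lit 0) (nat_lit 3267665026) (nat_lit 420) (nat_lit 4975889297) (nat_lit 84) (nat_lit 3926619855) (nat_lit 56) (nat_lit 5) (nat_lit 61) (nat_lit 5) (nat_lit 57) (nat_lit 5) (nat_lit 375) (nat_lit 308) (nat_lit 262)) (XT.lf (nat_lit 0) (nat_lit 1043156765) (nat_lit 252) (nat_lit 5042692362) (nat_lit 336) (nat_lit 6321651952) (nat_lit 53) (nat_lit 5) (nat_lit 56) (nat_lit 5) (nat_lit 57) (nat_lit 5) (nat_lit 376) (nat_lit 308) (nat_lit 261))) (XT.nd (nat_lit 94) (nat_lit 252) (nat_lit 0) (XT.lf (nat_lit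 0) (nat_lit 7283833823) (nat_lit 252) (nat_lit 1714003544) (nat_lit 336) (nat_lit 3653880456) (nat_lit 53) (nat_lit 5) (nat_lit 56) (nat_lit 5) (nat_lit 57) (nat_lit 5) (nat_lit 377) (nat_lit 308) (nat_lit 260)) (XT.lf (nat_lit 0) (nat_lit 746332219) (nat_lit 252) (nat_lit 11234528008) (nat_lit 336) (nat_lit 922936999) (nat_lit 50) (nat_lit 5) (nat_lit 53) (nat_lit 5) (nat_lit 54) (nat_lit 5) (nat_lit 378) (nat_lit 308) (nat_lit 259))))))))
noncomputable def xc15 : XT := (XT.nd (nat_lit 56400) (nat_lit 0) (nat_lit 1092) (XT.nd (nat_lit 54896) (nat_lit 0) (nat_lit 8988) (XT.nd (nat_lit 752) (nat_lit 336) (nat_lit 0) (XT.nd (nat_lit 376) (nat_lit 504) (nat_lit 0) (XT.nd (nat_lit 188) (nat_lit 0) (nat_lit 0) (XT.nd (nat_lit 94) (nat_lit 252) (nat_lit 0) (XT.lf (nat_lit 0) (nat_lit 1884944066) (nat_lit 336) (nat_lit 6103941975) (nat_lit 84) (nat_lit 5173095032) (nat_lit 49) (nat_lit 5) (nat_lit 53)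 (nat_lit 5) (nat_lit 50) (nat_lit 5) (nat_lit 379) (nat_lit 308) (nat_lit 258)) (XT.lf (nat_lit 0) (nat_lit 64604398) (nat_lit 252) (nat_lit 4655864588) (nat_lit 336) (nat_lit 8708351048) (nat_lit 46) (nat_lit 5) (nat_lit 49) (nat_lit 5) (nat_lit 50) (nat_lit 5) (nat_lit 380) (nat_lit 308) (nat_lit 257))) (XT.nd (nat_lit 94) (nat_lit 0) (nat_lit 0) (XT.lf (nat_lit 0) (nat_lit 6485202502) (nat_lit 252) (nat_lit 1179398866) (nat_lit 336) (nat_lit 6038397774) (nat_lit 46) (nat_lit 5) (nat_lit 49) (nat_lit 5) (nat_lit 50) (nat_lit 5) (nat_lit 381) (nat_lit 308) (nat_lit 256)) (XT.lf (nat_lit 0) (nat_lit 10682967573) (nat_lit 336) (nat_lit 967467479) (nat_lit 84) (nat_lit 2335431305) (nat_lit 46) (nat_lit 5) (nat_lit 50) (nat_lit 5) (nat_lit 47) (nat_lit 5) (nat_lit 382) (nat_lit 308) (nat_lit 255)))) (XT.nd (nat_lit 188) (nat_lit 168) (nat_lit 0) (XT.nd (nat_lit 94) (nat_lit 84) (nat_lit 0) (XT.lf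 (nat_lit 0) (nat_lit 5510496742) (nat_lit 252) (nat_lit 8309944728) (nat_lit 336) (nat_lit 455960278) (nat_lit 43) (nat_lit 5) (nat_lit 46) (nat_lit 5) (nat_lit 47) (nat_lit 5) (nat_lit 383) (nat_lit 308) (nat_lit 254)) (XT.lf (nat_lit 0) (nat_lit 2401970223) (nat_lit 336) (nat_lit 2452562543) (nat_lit 84) (nat_lit 9721225720) (nat_lit 42) (nat_lit 5) (nat_lit 46) (nat_lit 5) (nat_lit 43) (nat_lit 5) (nat_lit 384) (nat_lit 308) (nat_lit 253))) (XT.nd (nat_lit 94) (nat_lit 0) (nat_lit 0) (XT.lf (nat_lit 0) (nat_lit 4070797599) (nat_lit 168) (nat_lit 1269895850) (nat_lit 252) (nat_lit 9543176033) (nat_lit 40) (nat_lit 5) (nat_lit 42) (nat_lit 5) (nat_lit 43) (nat_lit 5) (nat_lit 385) (nat_lit 308) (nat_lit 252)) (XT.lf (nat_lit 0) (nat_lit 8381276121) (nat_lit 252) (nat_lit 4438529254) (nat_lit 84) (nat_lit 2381042029) (nat_lit 40) (nat_lit 5) (nat_lit 43) (nat_lit 5) (nat_lit 41) (nat_lit 5) (nat_lit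 386) (nat_lit 308) (nat_lit 251))))) (XT.nd (nat_lit 53768) (nat_lit 0) (nat_lit 17724) (XT.nd (nat_lit 188) (nat_lit 84) (nat_lit 0) (XT.nd (nat_lit 94) (nat_lit 0) (nat_lit 0) (XT.lf (nat_lit 0) (nat_lit 2102645988) (nat_lit 252) (nat_lit 9409625165) (nat_lit 336) (nat_lit 4015121188) (nat_lit 37) (nat_lit 5) (nat_lit 40) (nat_lit 5) (nat_lit 41) (nat_lit 5) (nat_lit 387) (nat_lit 308) (nat_lit 250)) (XT.lf (nat_lit 0) (nat_lit 8878501553) (nat_lit 252) (nat_lit 5870397968) (nat_lit 336) (nat_lit 1114515548) (nat_lit 37) (nat_lit 5) (nat_lit 40) (nat_lit 5) (nat_lit 41) (nat_lit 5) (nat_lit 388) (nat_lit 308) (nat_lit 249))) (XT.nd (nat_lit 53486) (nat_lit 0) (nat_lit 19068) (XT.lf (nat_lit 0) (nat_lit 1804055463) (nat_lit 336) (nat_lit 421578811) (nat_lit 84) (nat_lit 13984349769) (nat_lit 36) (nat_lit 5) (nat_lit 40) (nat_lit 5) (nat_lit 37) (nat_lit 5) (nat_lit 389) (nat_lit 308) (nat_lit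 248)) (XT.lf (nat_lit 0) (nat_lit 53254239) (nat_lit 588) (nat_lit 3197315209) (nat_lit 0) (nat_lit 53254239) (nat_lit 263) (nat_lit 5) (nat_lit 270) (nat_lit 4) (nat_lit 263) (nat_lit 4) (nat_lit 327) (nat_lit 309) (nat_lit 309)))) (XT.nd (nat_lit 188) (nat_lit 756) (nat_lit 0) (XT.nd (nat_lit 94) (nat_lit 588) (nat_lit 0) (XT.lf (nat_lit 0) (nat_lit 3030240091) (nat_lit 588) (nat_lit 2720323337) (nat_lit 0) (nat_lit 885978475) (nat_lit 263) (nat_lit 5) (nat_lit 270) (nat_lit 4) (nat_lit 263) (nat_lit 4) (nat_lit 328) (nat_lit 309) (nat_lit 308)) (XT.lf (nat_lit 0) (nat_lit 1009203347) (nat_lit 588) (nat_lit 4943074917) (nat_lit 588) (nat_lit 717005907) (nat_lit 256) (nat_lit 4) (nat_lit 263) (nat_lit 5) (nat_lit 263) (nat_lit 4) (nat_lit 329) (nat_lit 309) (nat_lit 307))) (XT.nd (nat_lit 94) (nat_lit 672) (nat_lit 0) (XT.lf (nat_lit 0) (nat_lit 2144455150) (nat_lit 672) (nat_lit 1893997280) (nat_lit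 84) (nat_lit 2666299429) (nat_lit 255) (nat_lit 5) (nat_lit 263) (nat_lit 5) (nat_lit 256) (nat_lit 4) (nat_lit 330) (nat_lit 309) (nat_lit 306)) (XT.lf (nat_lit 0) (nat_lit 1941876401) (nat_lit 672) (nat_lit 3058823486) (nat_lit 756) (nat_lit 1742943585) (nat_lit 247) (nat_lit 5) (nat_lit 255) (nat_lit 5) (nat_lit 256) (nat_lit 4) (nat_lit 331) (nat_lit 309) (nat_lit 305)))))) (XT.nd (nat_lit 752) (nat_lit 4956) (nat_lit 0) (XT.nd (nat_lit 376) (nat_lit 2016) (nat_lit 0) (XT.nd (nat_lit 188) (nat_lit 924) (nat_lit 0) (XT.nd (nat_lit 94) (nat_lit 756) (nat_lit 0) (XT.lf (nat_lit 0) (nat_lit 1061203203) (nat_lit 756) (nat_lit 938204319) (nat_lit 84) (nat_lit 4786471160) (nat_lit 246) (nat_lit 5) (nat_lit 255) (nat_lit 5) (nat_lit 247) (nat_lit 5) (nat_lit 332) (nat_lit 309) (nat_lit 304)) (XT.lf (nat_lit 0) (nat_lit 3009533411) (nat_lit 756) (nat_lit 842162270) (nat_lit 840) (nat_lit 2979300172)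 (nat_lit 237) (nat_lit 5) (nat_lit 246) (nat_lit 5) (nat_lit 247) (nat_lit 5) (nat_lit 333) (nat_lit 309) (nat_lit 303))) (XT.nd (nat_lit 94) (nat_lit 84) (nat_lit 0) (XT.lf (nat_lit 0) (nat_lit 141473854) (nat_lit 840) (nat_lit 6509181540) (nat_lit 924) (nat_lit 229311479) (nat_lit 227) (nat_lit 5) (nat_lit 237) (nat_lit 5) (nat_lit 238) (nat_lit 4) (nat_lit 334) (nat_lit 309) (nat_lit 302)) (XT.lf (nat_lit 0) (nat_lit 2510940731) (nat_lit 924) (nat_lit 2738196458) (nat_lit 84) (nat_lit 1681991260) (nat_lit 226) (nat_lit 5) (nat_lit 237) (nat_lit 5) (nat_lit 227) (nat_lit 5) (nat_lit 335) (nat_lit 309) (nat_lit 301)))) (XT.nd (nat_lit 188) (nat_lit 1008) (nat_lit 0) (XT.nd (nat_lit 94) (nat_lit 84) (nat_lit 0) (XT.lf (nat_lit 0) (nat_lit 1331215447) (nat_lit 924) (nat_lit 3924209113) (nat_lit 1008) (nat_lit 1730755506) (nat_lit 215) (nat_lit 5) (nat_lit 226) (nat_lit 5) (nat_lit 227) (nat_lit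 5) (nat_lit 336) (nat_lit 309) (nat_lit 300)) (XT.lf (nat_lit 0) (nat_lit 961591383) (nat_lit 1008) (nat_lit 1549256344) (nat_lit 84) (nat_lit 4533669906) (nat_lit 214) (nat_lit 5) (nat_lit 226) (nat_lit 5) (nat_lit 215) (nat_lit 5) (nat_lit 337) (nat_lit 309) (nat_lit 299))) (XT.nd (nat_lit 94) (nat_lit 0) (nat_lit 0) (XT.lf (nat_lit 0) (nat_lit 2640440666) (nat_lit 1008) (nat_lit 1001939947) (nat_lit 1092) (nat_lit 3463640308) (nat_lit 202) (nat_lit 5) (nat_lit 214) (nat_lit 5) (nat_lit 215) (nat_lit 5) (nat_lit 338) (nat_lit 309) (nat_lit 298)) (XT.lf (nat_lit 0) (nat_lit 6343573471) (nat_lit 1092) (nat_lit 262340111) (nat_lit 84) (nat_lit 565453831) (nat_lit 202) (nat_lit 5) (nat_lit 215) (nat_lit 5) (nat_lit 203) (nat_lit 5) (nat_lit 339) (nat_lit 309) (nat_lit 297))))) (XT.nd (nat_lit 376) (nat_lit 1260) (nat_lit 0) (XT.nd (nat_lit 188) (nat_lit 1344) (nat_lit 0) (XT.nd (nat_lit 94) (nat_lit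 1176) (nat_lit 0) (XT.lf (nat_lit 0) (nat_lit 1820031554) (nat_lit 1176) (nat_lit 3194605154) (nat_lit 84) (nat_lit 2224587700) (nat_lit 188) (nat_lit 5) (nat_lit 202) (nat_lit 5) (nat_lit 189) (nat_lit 5) (nat_lit 340) (nat_lit 309) (nat_lit 296)) (XT.lf (nat_lit 0) (nat_lit 1116309570) (nat_lit 1176) (nat_lit 3349634782) (nat_lit 1260) (nat_lit 2845048917) (nat_lit 174) (nat_lit 5) (nat_lit 188) (nat_lit 5) (nat_lit 189) (nat_lit 5) (nat_lit 341) (nat_lit 309) (nat_lit 295))) (XT.nd (nat_lit 94) (nat_lit 1344) (nat_lit 0) (XT.lf (nat_lit 0) (nat_lit 5548388299) (nat_lit 1176) (nat_lit 1598557103) (nat_lit 1260) (nat_lit 239473948) (nat_lit 174) (nat_lit 5) (nat_lit 188) (nat_lit 5) (nat_lit 189) (nat_lit 5) (nat_lit 342) (nat_lit 309) (nat_lit 294)) (XT.lf (nat_lit 0) (nat_lit 2348847423) (nat_lit 1344) (nat_lit 4864084636) (nat_lit 84) (nat_lit 252068419) (nat_lit 158) (nat_lit 5) (nat_lit 174)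 (nat_lit 5) (nat_lit 159) (nat_lit 5) (nat_lit 343) (nat_lit 309) (nat_lit 293)))) (XT.nd (nat_lit 188) (nat_lit 588) (nat_lit 0) (XT.nd (nat_lit 94) (nat_lit 672) (nat_lit 0) (XT.lf (nat_lit 0) (nat_lit 4970861903) (nat_lit 1344) (nat_lit 427889744) (nat_lit 84) (nat_lit 2148451151) (nat_lit 158) (nat_lit 5) (nat_lit 174) (nat_lit 5) (nat_lit 159) (nat_lit 5) (nat_lit 344) (nat_lit 309) (nat_lit 292)) (XT.lf (nat_lit 0) (nat_lit 6746780) (nat_lit 672) (nat_lit 3483331534) (nat_lit 84) (nat_lit 4142897152) (nat_lit 150) (nat_lit 5) (nat_lit 158) (nat_lit 5) (nat_lit 151) (nat_lit 5) (nat_lit 345) (nat_lit 309) (nat_lit 291))) (XT.nd (nat_lit 94) (nat_lit 0) (nat_lit 0) (XT.lf (nat_lit 0) (nat_lit 1073986672) (nat_lit 588) (nat_lit 1485227805) (nat_lit 672) (nat_lit 5163178471) (nat_lit 143) (nat_lit 5) (nat_lit 150) (nat_lit 5) (nat_lit 151) (nat_lit 5) (nat_lit 346) (nat_lit 309) (nat_lit 290))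 (XT.lf (nat_lit 0) (nat_lit 5159672969) (nat_lit 672) (nat_lit 2054914006) (nat_lit 84) (nat_lit 600906157) (nat_lit 143) (nat_lit 5) (nat_lit 151) (nat_lit 5) (nat_lit 144) (nat_lit 5) (nat_lit 347) (nat_lit 309) (nat_lit 289))))))) (XT.nd (nat_lit 1504) (nat_lit 2772) (nat_lit 0) (XT.nd (nat_lit 752) (nat_lit 2268) (nat_lit 0) (XT.nd (nat_lit 376) (nat_lit 1092) (nat_lit 0) (XT.nd (nat_lit 188) (nat_lit 1092) (nat_lit 0) (XT.nd (nat_lit 94) (nat_lit 84) (nat_lit 0) (XT.lf (nat_lit 0) (nat_lit 2640401301) (nat_lit 588) (nat_lit 5170180382) (nat_lit 672) (nat_lit 101770072) (nat_lit 136) (nat_lit 5) (nat_lit 143) (nat_lit 5) (nat_lit 144) (nat_lit 5) (nat_lit 348) (nat_lit 309) (nat_lit 288)) (XT.lf (nat_lit 0) (nat_lit 2433348115) (nat_lit 672) (nat_lit 590862363) (nat_lit 84) (nat_lit 4988693115) (nat_lit 135) (nat_lit 5) (nat_lit 143) (nat_lit 5) (nat_lit 136) (nat_lit 5) (nat_lit 349) (nat_lit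 309) (nat_lit 287))) (XT.nd (nat_lit 94) (nat_lit 504) (nat_lit 0) (XT.lf (nat_lit 0) (nat_lit 4240996470) (nat_lit 588) (nat_lit 777039629) (nat_lit 672) (nat_lit 3099265578) (nat_lit 128) (nat_lit 5) (nat_lit 135) (nat_lit 5) (nat_lit 136) (nat_lit 5) (nat_lit 350) (nat_lit 309) (nat_lit 286)) (XT.lf (nat_lit 0) (nat_lit 936007133) (nat_lit 504) (nat_lit 6710010016) (nat_lit 588) (nat_lit 579965060) (nat_lit 122) (nat_lit 5) (nat_lit 128) (nat_lit 5) (nat_lit 129) (nat_lit 5) (nat_lit 351) (nat_lit 309) (nat_lit 285)))) (XT.nd (nat_lit 188) (nat_lit 504) (nat_lit 0) (XT.nd (nat_lit 94) (nat_lit 504) (nat_lit 0) (XT.lf (nat_lit 0) (nat_lit 1959203785) (nat_lit 588) (nat_lit 2465407926) (nat_lit 84) (nat_lit 3913338174) (nat_lit 121) (nat_lit 5) (nat_lit 128) (nat_lit 5) (nat_lit 122) (nat_lit 5) (nat_lit 352) (nat_lit 309) (nat_lit 284)) (XT.lf (nat_lit 0) (nat_lit 2475232621) (nat_lit 504) (nat_lit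 2049688161) (nat_lit 588) (nat_lit 3929435284) (nat_lit 115) (nat_lit 5) (nat_lit 121) (nat_lit 5) (nat_lit 122) (nat_lit 5) (nat_lit 353) (nat_lit 309) (nat_lit 283))) (XT.nd (nat_lit 94) (nat_lit 504) (nat_lit 0) (XT.lf (nat_lit 0) (nat_lit 7135825207) (nat_lit 588) (nat_lit 1035291942) (nat_lit 84) (nat_lit 404200159) (nat_lit 115) (nat_lit 5) (nat_lit 122) (nat_lit 5) (nat_lit 116) (nat_lit 5) (nat_lit 354) (nat_lit 309) (nat_lit 282)) (XT.lf (nat_lit 0) (nat_lit 1103302442) (nat_lit 504) (nat_lit 4665575989) (nat_lit 84) (nat_lit 2930804302) (nat_lit 109) (nat_lit 5) (nat_lit 115) (nat_lit 5) (nat_lit 110) (nat_lit 5) (nat_lit 355) (nat_lit 309) (nat_lit 281))))) (XT.nd (nat_lit 376) (nat_lit 1260) (nat_lit 0) (XT.nd (nat_lit 188) (nat_lit 504) (nat_lit 0) (XT.nd (nat_lit 94) (nat_lit 0) (nat_lit 0) (XT.lf (nat_lit 0) (nat_lit 371408514) (nat_lit 504) (nat_lit 3277573871) (nat_lit 588) (nat_lit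 5179803219) (nat_lit 103) (nat_lit 5) (nat_lit 109) (nat_lit 5) (nat_lit 110) (nat_lit 5) (nat_lit 356) (nat_lit 309) (nat_lit 280)) (XT.lf (nat_lit 0) (nat_lit 5585009199) (nat_lit 504) (nat_lit 675574953) (nat_lit 588) (nat_lit 2701588025) (nat_lit 103) (nat_lit 5) (nat_lit 109) (nat_lit 5) (nat_lit 110) (nat_lit 5) (nat_lit 357) (nat_lit 309) (nat_lit 279))) (XT.nd (nat_lit 94) (nat_lit 84) (nat_lit 0) (XT.lf (nat_lit 0) (nat_lit 1801601019) (nat_lit 420) (nat_lit 7129516862) (nat_lit 504) (nat_lit 169119280) (nat_lit 98) (nat_lit 5) (nat_lit 103) (nat_lit 5) (nat_lit 104) (nat_lit 5) (nat_lit 358) (nat_lit 309) (nat_lit 278)) (XT.lf (nat_lit 0) (nat_lit 2377182859) (nat_lit 504) (nat_lit 2137196353) (nat_lit 84) (nat_lit 4727886568) (nat_lit 97) (nat_lit 5) (nat_lit 103) (nat_lit 5) (nat_lit 98) (nat_lit 5) (nat_lit 359) (nat_lit 309) (nat_lit 277)))) (XT.nd (nat_lit 188) (nat_lit 840) (nat_lit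 0) (XT.nd (nat_lit 94) (nat_lit 0) (nat_lit 0) (XT.lf (nat_lit 0) (nat_lit 3171080680) (nat_lit 420) (nat_lit 1801828159) (nat_lit 504) (nat_lit 4416389495) (nat_lit 92) (nat_lit 5) (nat_lit 97) (nat_lit 5) (nat_lit 98) (nat_lit 5) (nat_lit 360) (nat_lit 309) (nat_lit 276)) (XT.lf (nat_lit 0) (nat_lit 7624576346) (nat_lit 504) (nat_lit 936509198) (nat_lit 84) (nat_lit 980398036) (nat_lit 92) (nat_lit 5) (nat_lit 98) (nat_lit 5) (nat_lit 93) (nat_lit 5) (nat_lit 361) (nat_lit 309) (nat_lit 275))) (XT.nd (nat_lit 94) (nat_lit 420) (nat_lit 0) (XT.lf (nat_lit 0) (nat_lit 654192037) (nat_lit 420) (nat_lit 5197762470) (nat_lit 84) (nat_lit 3845885335) (nat_lit 87) (nat_lit 5) (nat_lit 92) (nat_lit 5) (nat_lit 88) (nat_lit 5) (nat_lit 362) (nat_lit 309) (nat_lit 274)) (XT.lf (nat_lit 0) (nat_lit 177230039) (nat_lit 420) (nat_lit 3046496627) (nat_lit 504) (nat_lit 6635872536) (nat_lit 82) (nat_lit 5)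 (nat_lit 87) (nat_lit 5) (nat_lit 88) (nat_lit 5) (nat_lit 363) (nat_lit 309) (nat_lit 273)))))) (XT.nd (nat_lit 752) (nat_lit 1260) (nat_lit 0) (XT.nd (nat_lit 376) (nat_lit 756) (nat_lit 0) (XT.nd (nat_lit 188) (nat_lit 420) (nat_lit 0) (XT.nd (nat_lit 94) (nat_lit 336) (nat_lit 0) (XT.lf (nat_lit 0) (nat_lit 5753171814) (nat_lit 420) (nat_lit 119094047) (nat_lit 504) (nat_lit 4153962391) (nat_lit 82) (nat_lit 5) (nat_lit 87) (nat_lit 5) (nat_lit 88) (nat_lit 5) (nat_lit 364) (nat_lit 309) (nat_lit 272)) (XT.lf (nat_lit 0) (nat_lit 1228370524) (nat_lit 336) (nat_lit 7362290183) (nat_lit 420) (nat_lit 1607555778) (nat_lit 78) (nat_lit 5) (nat_lit 82) (nat_lit 5) (nat_lit 83) (nat_lit 5) (nat_lit 365) (nat_lit 309) (nat_lit 271))) (XT.nd (nat_lit 94) (nat_lit 336) (nat_lit 0) (XT.lf (nat_lit 0) (nat_lit 991195002) (nat_lit 420) (nat_lit 3469690564) (nat_lit 84) (nat_lit 5914381279) (nat_lit 77)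 (nat_lit 5) (nat_lit 82) (nat_lit 5) (nat_lit 78) (nat_lit 5) (nat_lit 366) (nat_lit 309) (nat_lit 270)) (XT.lf (nat_lit 0) (nat_lit 2156895355) (nat_lit 336) (nat_lit 1451870198) (nat_lit 420) (nat_lit 6949256806) (nat_lit 73) (nat_lit 5) (nat_lit 77) (nat_lit 5) (nat_lit 78) (nat_lit 5) (nat_lit 367) (nat_lit 309) (nat_lit 269)))) (XT.nd (nat_lit 188) (nat_lit 420) (nat_lit 0) (XT.nd (nat_lit 94) (nat_lit 336) (nat_lit 0) (XT.lf (nat_lit 0) (nat_lit 6309119982) (nat_lit 420) (nat_lit 2803401655) (nat_lit 84) (nat_lit 1633675434) (nat_lit 73) (nat_lit 5) (nat_lit 78) (nat_lit 5) (nat_lit 74) (nat_lit 5) (nat_lit 368) (nat_lit 309) (nat_lit 268)) (XT.lf (nat_lit 0) (nat_lit 2941776947) (nat_lit 336) (nat_lit 6145765886) (nat_lit 420) (nat_lit 1852624820) (nat_lit 69) (nat_lit 5) (nat_lit 73) (nat_lit 5) (nat_lit 74) (nat_lit 5) (nat_lit 369) (nat_lit 309) (nat_lit 267))) (XT.nd (nat_lit 94) (nat_lit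 336) (nat_lit 0) (XT.lf (nat_lit 0) (nat_lit 776781177) (nat_lit 420) (nat_lit 2294237986) (nat_lit 84) (nat_lit 8069267160) (nat_lit 68) (nat_lit 5) (nat_lit 73) (nat_lit 5) (nat_lit 69) (nat_lit 5) (nat_lit 370) (nat_lit 309) (nat_lit 266)) (XT.lf (nat_lit 0) (nat_lit 3439371831) (nat_lit 420) (nat_lit 7777099218) (nat_lit 84) (nat_lit 129698136) (nat_lit 64) (nat_lit 5) (nat_lit 69) (nat_lit 5) (nat_lit 65) (nat_lit 5) (nat_lit 371) (nat_lit 309) (nat_lit 265))))) (XT.nd (nat_lit 376) (nat_lit 588) (nat_lit 0) (XT.nd (nat_lit 188) (nat_lit 420) (nat_lit 0) (XT.nd (nat_lit 94) (nat_lit 252) (nat_lit 0) (XT.lf (nat_lit 0) (nat_lit 6192109082) (nat_lit 420) (nat_lit 1995425329) (nat_lit 84) (nat_lit 3370441465) (nat_lit 64) (nat_lit 5) (nat_lit 69) (nat_lit 5) (nat_lit 65) (nat_lit 5) (nat_lit 372) (nat_lit 309) (nat_lit 264)) (XT.lf (nat_lit 0) (nat_lit 3976554817) (nat_lit 252) (nat_lit 5046832753)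 (nat_lit 336) (nat_lit 2752924220) (nat_lit 61) (nat_lit 5) (nat_lit 64) (nat_lit 5) (nat_lit 65) (nat_lit 5) (nat_lit 373) (nat_lit 309) (nat_lit 263))) (XT.nd (nat_lit 94) (nat_lit 420) (nat_lit 0) (XT.lf (nat_lit 0) (nat_lit 10108453263) (nat_lit 252) (nat_lit 1809687968) (nat_lit 336) (nat_lit 83752673) (nat_lit 61) (nat_lit 5) (nat_lit 64) (nat_lit 5) (nat_lit 65) (nat_lit 5) (nat_lit 374) (nat_lit 309) (nat_lit 262)) (XT.lf (nat_lit 0) (nat_lit 2628007160) (nat_lit 420) (nat_lit 8061784229) (nat_lit 84) (nat_lit 1543296856) (nat_lit 56) (nat_lit 5) (nat_lit 61) (nat_lit 5) (nat_lit 57) (nat_lit 5) (nat_lit 375) (nat_lit 309) (nat_lit 261)))) (XT.nd (nat_lit 188) (nat_lit 336) (nat_lit 0) (XT.nd (nat_lit 94) (nat_lit 252) (nat_lit 0) (XT.lf (nat_lit 0) (nat_lit 5416261188) (nat_lit 420) (nat_lit 2092528422) (nat_lit 84) (nat_lit 4962546983) (nat_lit 56) (nat_lit 5) (nat_lit 61) (nat_lit 5)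 (nat_lit 57) (nat_lit 5) (nat_lit 376) (nat_lit 309) (nat_lit 260)) (XT.lf (nat_lit 0) (nat_lit 4077357281) (nat_lit 252) (nat_lit 4210774069) (nat_lit 336) (nat_lit 4428648389) (nat_lit 53) (nat_lit 5) (nat_lit 56) (nat_lit 5) (nat_lit 57) (nat_lit 5) (nat_lit 377) (nat_lit 309) (nat_lit 259))) (XT.nd (nat_lit 94) (nat_lit 336) (nat_lit 0) (XT.lf (nat_lit 0) (nat_lit 10417791375) (nat_lit 252) (nat_lit 810861453) (nat_lit 336) (nat_lit 1741503548) (nat_lit 53) (nat_lit 5) (nat_lit 56) (nat_lit 5) (nat_lit 57) (nat_lit 5) (nat_lit 378) (nat_lit 309) (nat_lit 258)) (XT.lf (nat_lit 0) (nat_lit 1030239215) (nat_lit 336) (nat_lit 9533554029) (nat_lit 84) (nat_lit 2666367299) (nat_lit 49) (nat_lit 5) (nat_lit 53) (nat_lit 5) (nat_lit 50) (nat_lit 5) (nat_lit 379) (nat_lit 309) (nat_lit 257))))))))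
noncomputable def xc16 : XT := (XT.nd (nat_lit 56118) (nat_lit 0) (nat_lit 1428) (XT.nd (nat_lit 54614) (nat_lit 0) (nat_lit 9576) (XT.nd (nat_lit 658) (nat_lit 336) (nat_lit 0) (XT.nd (nat_lit 282) (nat_lit 504) (nat_lit 0) (XT.nd (nat_lit 94) (nat_lit 252) (nat_lit 0) (XT.lf (nat_lit 0) (nat_lit 3846651810) (nat_lit 336) (nat_lit 3394344759) (nat_lit 84) (nat_lit 6256596615) (nat_lit 49) (nat_lit 5) (nat_lit 53) (nat_lit 5) (nat_lit 50) (nat_lit 5) (nat_lit 380) (nat_lit 309) (nat_lit 256)) (XT.nd (nat_lit 94) (nat_lit 0) (nat_lit 0) (XT.lf (nat_lit 0) (nat_lit 2930898049) (nat_lit 252) (nat_lit 3808388286) (nat_lit 336) (nat_lit 7034050612) (nat_lit 46) (nat_lit 5) (nat_lit 49) (nat_lit 5) (nat_lit 50) (nat_lit 5) (nat_lit 381) (nat_lit 309) (nat_lit 255)) (XT.lf (nat_lit 0) (nat_lit 9460686265) (nat_lit 252) (nat_lit 256380600) (nat_lit 336) (nat_lit 4340374011) (nat_lit 46) (nat_lit 5) (nat_lit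 49) (nat_lit 5) (nat_lit 50) (nat_lit 5) (nat_lit 382) (nat_lit 309) (nat_lit 254)))) (XT.nd (nat_lit 188) (nat_lit 168) (nat_lit 0) (XT.nd (nat_lit 94) (nat_lit 84) (nat_lit 0) (XT.lf (nat_lit 0) (nat_lit 1784310510) (nat_lit 252) (nat_lit 11014686504) (nat_lit 336) (nat_lit 1550664153) (nat_lit 43) (nat_lit 5) (nat_lit 46) (nat_lit 5) (nat_lit 47) (nat_lit 5) (nat_lit 383) (nat_lit 309) (nat_lit 253)) (XT.lf (nat_lit 0) (nat_lit 1311430014) (nat_lit 336) (nat_lit 6268235999) (nat_lit 84) (nat_lit 7070201039) (nat_lit 42) (nat_lit 5) (nat_lit 46) (nat_lit 5) (nat_lit 43) (nat_lit 5) (nat_lit 384) (nat_lit 309) (nat_lit 252))) (XT.nd (nat_lit 94) (nat_lit 0) (nat_lit 0) (XT.lf (nat_lit 0) (nat_lit 152696253) (nat_lit 168) (nat_lit 4043096761) (nat_lit 252) (nat_lit 10763832849) (nat_lit 40) (nat_lit 5) (nat_lit 42) (nat_lit 5) (nat_lit 43) (nat_lit 5) (nat_lit 385) (nat_lit 309) (nat_lit 251))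 (XT.lf (nat_lit 0) (nat_lit 6842543664) (nat_lit 168) (nat_lit 354030548) (nat_lit 252) (nat_lit 8081240132) (nat_lit 40) (nat_lit 5) (nat_lit 42) (nat_lit 5) (nat_lit 43) (nat_lit 5) (nat_lit 386) (nat_lit 309) (nat_lit 250))))) (XT.nd (nat_lit 53580) (nat_lit 0) (nat_lit 18396) (XT.nd (nat_lit 188) (nat_lit 84) (nat_lit 0) (XT.nd (nat_lit 94) (nat_lit 252) (nat_lit 0) (XT.lf (nat_lit 0) (nat_lit 10287889188) (nat_lit 252) (nat_lit 1957099412) (nat_lit 84) (nat_lit 3360577115) (nat_lit 40) (nat_lit 5) (nat_lit 43) (nat_lit 5) (nat_lit 41) (nat_lit 5) (nat_lit 387) (nat_lit 309) (nat_lit 249)) (XT.lf (nat_lit 0) (nat_lit 4754677894) (nat_lit 252) (nat_lit 8734813798) (nat_lit 336) (nat_lit 2453163092) (nat_lit 37) (nat_lit 5) (nat_lit 40) (nat_lit 5) (nat_lit 41) (nat_lit 5) (nat_lit 388) (nat_lit 309) (nat_lit 248))) (XT.nd (nat_lit 53298) (nat_lit 0) (nat_lit 20076) (XT.lf (nat_lit 0) (nat_lit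 475985391) (nat_lit 336) (nat_lit 4636494577) (nat_lit 84) (nat_lit 11177610831) (nat_lit 36) (nat_lit 5) (nat_lit 40) (nat_lit 5) (nat_lit 37) (nat_lit 5) (nat_lit 389) (nat_lit 309) (nat_lit 247)) (XT.lf (nat_lit 0) (nat_lit 1535016924) (nat_lit 420) (nat_lit 208095270) (nat_lit 0) (nat_lit 1535016924) (nat_lit 275) (nat_lit 5) (nat_lit 280) (nat_lit 4) (nat_lit 275) (nat_lit 4) (nat_lit 325) (nat_lit 310) (nat_lit 310)))) (XT.nd (nat_lit 188) (nat_lit 672) (nat_lit 0) (XT.nd (nat_lit 94) (nat_lit 588) (nat_lit 0) (XT.lf (nat_lit 0) (nat_lit 3160969410) (nat_lit 420) (nat_lit 2847371039) (nat_lit 420) (nat_lit 572523890) (nat_lit 270) (nat_lit 4) (nat_lit 275) (nat_lit 5) (nat_lit 275) (nat_lit 4) (nat_lit 326) (nat_lit 310) (nat_lit 309)) (XT.lf (nat_lit 0) (nat_lit 155688614) (nat_lit 504) (nat_lit 2129594748) (nat_lit 588) (nat_lit 4323410029) (nat_lit 263) (nat_lit 5) (nat_lit 269) (nat_lit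 5) (nat_lit 270) (nat_lit 4) (nat_lit 327) (nat_lit 310) (nat_lit 308))) (XT.nd (nat_lit 94) (nat_lit 672) (nat_lit 0) (XT.lf (nat_lit 0) (nat_lit 3831711394) (nat_lit 504) (nat_lit 1320707139) (nat_lit 588) (nat_lit 1487014444) (nat_lit 263) (nat_lit 5) (nat_lit 269) (nat_lit 5) (nat_lit 270) (nat_lit 4) (nat_lit 328) (nat_lit 310) (nat_lit 307)) (XT.lf (nat_lit 0) (nat_lit 878977596) (nat_lit 588) (nat_lit 438229985) (nat_lit 672) (nat_lit 5356433305) (nat_lit 255) (nat_lit 5) (nat_lit 262) (nat_lit 5) (nat_lit 263) (nat_lit 5) (nat_lit 329) (nat_lit 310) (nat_lit 306)))))) (XT.nd (nat_lit 752) (nat_lit 5376) (nat_lit 0) (XT.nd (nat_lit 376) (nat_lit 1932) (nat_lit 0) (XT.nd (nat_lit 188) (nat_lit 756) (nat_lit 0) (XT.nd (nat_lit 94) (nat_lit 756) (nat_lit 0) (XT.lf (nat_lit 0) (nat_lit 4113511265) (nat_lit 672) (nat_lit 2067705965) (nat_lit 84) (nat_lit 529354231) (nat_lit 255) (nat_lit 5) (nat_lit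 263) (nat_lit 5) (nat_lit 256) (nat_lit 4) (nat_lit 330) (nat_lit 310) (nat_lit 305)) (XT.lf (nat_lit 0) (nat_lit 167758542) (nat_lit 756) (nat_lit 5024046157) (nat_lit 84) (nat_lit 1559168862) (nat_lit 246) (nat_lit 5) (nat_lit 255) (nat_lit 5) (nat_lit 247) (nat_lit 5) (nat_lit 331) (nat_lit 310) (nat_lit 304))) (XT.nd (nat_lit 94) (nat_lit 756) (nat_lit 0) (XT.lf (nat_lit 0) (nat_lit 2892733264) (nat_lit 756) (nat_lit 1213297681) (nat_lit 84) (nat_lit 2688153276) (nat_lit 246) (nat_lit 5) (nat_lit 255) (nat_lit 5) (nat_lit 247) (nat_lit 5) (nat_lit 332) (nat_lit 310) (nat_lit 303)) (XT.lf (nat_lit 0) (nat_lit 2693258645) (nat_lit 756) (nat_lit 2943081278) (nat_lit 840) (nat_lit 1204487702) (nat_lit 237) (nat_lit 5) (nat_lit 246) (nat_lit 5) (nat_lit 247) (nat_lit 5) (nat_lit 333) (nat_lit 310) (nat_lit 302)))) (XT.nd (nat_lit 188) (nat_lit 1008) (nat_lit 0) (XT.nd (nat_lit 94) (nat_lit 840)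 (nat_lit 0) (XT.lf (nat_lit 0) (nat_lit 1466871176) (nat_lit 840) (nat_lit 234222357) (nat_lit 84) (nat_lit 5189826358) (nat_lit 236) (nat_lit 5) (nat_lit 246) (nat_lit 5) (nat_lit 237) (nat_lit 5) (nat_lit 334) (nat_lit 310) (nat_lit 301)) (XT.lf (nat_lit 0) (nat_lit 3788272351) (nat_lit 840) (nat_lit 356689011) (nat_lit 924) (nat_lit 2798894102) (nat_lit 226) (nat_lit 5) (nat_lit 236) (nat_lit 5) (nat_lit 237) (nat_lit 5) (nat_lit 335) (nat_lit 310) (nat_lit 300))) (XT.nd (nat_lit 94) (nat_lit 84) (nat_lit 0) (XT.lf (nat_lit 0) (nat_lit 872630470) (nat_lit 924) (nat_lit 5967769013) (nat_lit 1008) (nat_lit 160085283) (nat_lit 215) (nat_lit 5) (nat_lit 226) (nat_lit 5) (nat_lit 227) (nat_lit 5) (nat_lit 336) (nat_lit 310) (nat_lit 299)) (XT.lf (nat_lit 0) (nat_lit 2460763342) (nat_lit 1008) (nat_lit 2073486051) (nat_lit 84) (nat_lit 2525445670) (nat_lit 214) (nat_lit 5) (nat_lit 226) (nat_lit 5)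 (nat_lit 215) (nat_lit 5) (nat_lit 337) (nat_lit 310) (nat_lit 298))))) (XT.nd (nat_lit 376) (nat_lit 2016) (nat_lit 0) (XT.nd (nat_lit 188) (nat_lit 2268) (nat_lit 0) (XT.nd (nat_lit 94) (nat_lit 84) (nat_lit 0) (XT.lf (nat_lit 0) (nat_lit 2069891284) (nat_lit 1008) (nat_lit 3026517758) (nat_lit 1092) (nat_lit 2026240908) (nat_lit 202) (nat_lit 5) (nat_lit 214) (nat_lit 5) (nat_lit 215) (nat_lit 5) (nat_lit 338) (nat_lit 310) (nat_lit 297)) (XT.lf (nat_lit 0) (nat_lit 552795291) (nat_lit 1092) (nat_lit 885495281) (nat_lit 84) (nat_lit 5750969217) (nat_lit 201) (nat_lit 5) (nat_lit 214) (nat_lit 5) (nat_lit 202) (nat_lit 5) (nat_lit 339) (nat_lit 310) (nat_lit 296))) (XT.nd (nat_lit 94) (nat_lit 1176) (nat_lit 0) (XT.lf (nat_lit 0) (nat_lit 3125991361) (nat_lit 1176) (nat_lit 3878948897) (nat_lit 84) (nat_lit 253781132) (nat_lit 188) (nat_lit 5) (nat_lit 202) (nat_lit 5) (nat_lit 189) (nat_lit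 5) (nat_lit 340) (nat_lit 310) (nat_lit 295)) (XT.lf (nat_lit 0) (nat_lit 382065399) (nat_lit 1176) (nat_lit 5345420946) (nat_lit 1260) (nat_lit 1604422884) (nat_lit 174) (nat_lit 5) (nat_lit 188) (nat_lit 5) (nat_lit 189) (nat_lit 5) (nat_lit 341) (nat_lit 310) (nat_lit 294)))) (XT.nd (nat_lit 188) (nat_lit 672) (nat_lit 0) (XT.nd (nat_lit 94) (nat_lit 1260) (nat_lit 0) (XT.lf (nat_lit 0) (nat_lit 944560981) (nat_lit 1260) (nat_lit 2638857746) (nat_lit 84) (nat_lit 3824821003) (nat_lit 173) (nat_lit 5) (nat_lit 188) (nat_lit 5) (nat_lit 174) (nat_lit 5) (nat_lit 342) (nat_lit 310) (nat_lit 293)) (XT.lf (nat_lit 0) (nat_lit 1748659222) (nat_lit 1260) (nat_lit 1732886244) (nat_lit 1344) (nat_lit 4006685358) (nat_lit 158) (nat_lit 5) (nat_lit 173) (nat_lit 5) (nat_lit 174) (nat_lit 5) (nat_lit 343) (nat_lit 310) (nat_lit 292))) (XT.nd (nat_lit 94) (nat_lit 672) (nat_lit 0) (XT.lf (nat_lit 0) (nat_lit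 6051647270) (nat_lit 1344) (nat_lit 1322509671) (nat_lit 84) (nat_lit 197910389) (nat_lit 158) (nat_lit 5) (nat_lit 174) (nat_lit 5) (nat_lit 159) (nat_lit 5) (nat_lit 344) (nat_lit 310) (nat_lit 291)) (XT.lf (nat_lit 0) (nat_lit 998220862) (nat_lit 672) (nat_lit 4467155410) (nat_lit 84) (nat_lit 2193546874) (nat_lit 150) (nat_lit 5) (nat_lit 158) (nat_lit 5) (nat_lit 151) (nat_lit 5) (nat_lit 345) (nat_lit 310) (nat_lit 290))))))) (XT.nd (nat_lit 1504) (nat_lit 3276) (nat_lit 0) (XT.nd (nat_lit 752) (nat_lit 1932) (nat_lit 0) (XT.nd (nat_lit 376) (nat_lit 1680) (nat_lit 0) (XT.nd (nat_lit 188) (nat_lit 672) (nat_lit 0) (XT.nd (nat_lit 94) (nat_lit 0) (nat_lit 0) (XT.lf (nat_lit 0) (nat_lit 34729468) (nat_lit 588) (nat_lit 3472003762) (nat_lit 672) (nat_lit 4242996344) (nat_lit 143) (nat_lit 5) (nat_lit 150) (nat_lit 5) (nat_lit 151) (nat_lit 5) (nat_lit 346) (nat_lit 310) (nat_lit 289)) (XT.lf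 (nat_lit 0) (nat_lit 4692580865) (nat_lit 588) (nat_lit 1375408945) (nat_lit 672) (nat_lit 1776084246) (nat_lit 143) (nat_lit 5) (nat_lit 150) (nat_lit 5) (nat_lit 151) (nat_lit 5) (nat_lit 347) (nat_lit 310) (nat_lit 288))) (XT.nd (nat_lit 94) (nat_lit 0) (nat_lit 0) (XT.lf (nat_lit 0) (nat_lit 705621963) (nat_lit 672) (nat_lit 6449641097) (nat_lit 84) (nat_lit 787224481) (nat_lit 135) (nat_lit 5) (nat_lit 143) (nat_lit 5) (nat_lit 136) (nat_lit 5) (nat_lit 348) (nat_lit 310) (nat_lit 287)) (XT.lf (nat_lit 0) (nat_lit 3206633401) (nat_lit 672) (nat_lit 1804709308) (nat_lit 84) (nat_lit 3032693397) (nat_lit 135) (nat_lit 5) (nat_lit 143) (nat_lit 5) (nat_lit 136) (nat_lit 5) (nat_lit 349) (nat_lit 310) (nat_lit 286)))) (XT.nd (nat_lit 188) (nat_lit 1008) (nat_lit 0) (XT.nd (nat_lit 94) (nat_lit 84) (nat_lit 0) (XT.lf (nat_lit 0) (nat_lit 2968158447) (nat_lit 588) (nat_lit 2779742349) (nat_lit 672)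 (nat_lit 2401896640) (nat_lit 128) (nat_lit 5) (nat_lit 135) (nat_lit 5) (nat_lit 136) (nat_lit 5) (nat_lit 350) (nat_lit 310) (nat_lit 285)) (XT.lf (nat_lit 0) (nat_lit 60143034) (nat_lit 672) (nat_lit 408202407) (nat_lit 84) (nat_lit 7791804916) (nat_lit 127) (nat_lit 5) (nat_lit 135) (nat_lit 5) (nat_lit 128) (nat_lit 5) (nat_lit 351) (nat_lit 310) (nat_lit 284))) (XT.nd (nat_lit 94) (nat_lit 504) (nat_lit 0) (XT.lf (nat_lit 0) (nat_lit 2549025603) (nat_lit 588) (nat_lit 3888147810) (nat_lit 84) (nat_lit 1936001929) (nat_lit 121) (nat_lit 5) (nat_lit 128) (nat_lit 5) (nat_lit 122) (nat_lit 5) (nat_lit 352) (nat_lit 310) (nat_lit 283)) (XT.lf (nat_lit 0) (nat_lit 989436618) (nat_lit 504) (nat_lit 4081484342) (nat_lit 588) (nat_lit 3420029080) (nat_lit 115) (nat_lit 5) (nat_lit 121) (nat_lit 5) (nat_lit 122) (nat_lit 5) (nat_lit 353) (nat_lit 310) (nat_lit 282))))) (XT.nd (nat_lit 376) (nat_lit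 924) (nat_lit 0) (XT.nd (nat_lit 188) (nat_lit 504) (nat_lit 0) (XT.nd (nat_lit 94) (nat_lit 504) (nat_lit 0) (XT.lf (nat_lit 0) (nat_lit 6024582055) (nat_lit 504) (nat_lit 1624277466) (nat_lit 588) (nat_lit 964093038) (nat_lit 115) (nat_lit 5) (nat_lit 121) (nat_lit 5) (nat_lit 122) (nat_lit 5) (nat_lit 354) (nat_lit 310) (nat_lit 281)) (XT.lf (nat_lit 0) (nat_lit 1509570053) (nat_lit 504) (nat_lit 6311351800) (nat_lit 84) (nat_lit 918103973) (nat_lit 109) (nat_lit 5) (nat_lit 115) (nat_lit 5) (nat_lit 110) (nat_lit 5) (nat_lit 355) (nat_lit 310) (nat_lit 280))) (XT.nd (nat_lit 94) (nat_lit 504) (nat_lit 0) (XT.lf (nat_lit 0) (nat_lit 4023656351) (nat_lit 504) (nat_lit 1315488971) (nat_lit 84) (nat_lit 3529979046) (nat_lit 109) (nat_lit 5) (nat_lit 115) (nat_lit 5) (nat_lit 110) (nat_lit 5) (nat_lit 356) (nat_lit 310) (nat_lit 279)) (XT.lf (nat_lit 0) (nat_lit 3838388847) (nat_lit 504) (nat_lit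 2756442673) (nat_lit 588) (nat_lit 2408938688) (nat_lit 103) (nat_lit 5) (nat_lit 109) (nat_lit 5) (nat_lit 110) (nat_lit 5) (nat_lit 357) (nat_lit 310) (nat_lit 278)))) (XT.nd (nat_lit 188) (nat_lit 420) (nat_lit 0) (XT.nd (nat_lit 94) (nat_lit 420) (nat_lit 0) (XT.lf (nat_lit 0) (nat_lit 57252687) (nat_lit 588) (nat_lit 36595439) (nat_lit 84) (nat_lit 9049911249) (nat_lit 102) (nat_lit 5) (nat_lit 109) (nat_lit 5) (nat_lit 103) (nat_lit 5) (nat_lit 358) (nat_lit 310) (nat_lit 277)) (XT.lf (nat_lit 0) (nat_lit 2572365385) (nat_lit 504) (nat_lit 4053975443) (nat_lit 84) (nat_lit 2660277599) (nat_lit 97) (nat_lit 5) (nat_lit 103) (nat_lit 5) (nat_lit 98) (nat_lit 5) (nat_lit 359) (nat_lit 310) (nat_lit 276))) (XT.nd (nat_lit 94) (nat_lit 0) (nat_lit 0) (XT.lf (nat_lit 0) (nat_lit 1182882019) (nat_lit 420) (nat_lit 3940248187) (nat_lit 504) (nat_lit 4311910895) (nat_lit 92) (nat_lit 5) (nat_lit 97)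 (nat_lit 5) (nat_lit 98) (nat_lit 5) (nat_lit 360) (nat_lit 310) (nat_lit 275)) (XT.lf (nat_lit 0) (nat_lit 6594372998) (nat_lit 420) (nat_lit 1145405974) (nat_lit 504) (nat_lit 1848538023) (nat_lit 92) (nat_lit 5) (nat_lit 97) (nat_lit 5) (nat_lit 98) (nat_lit 5) (nat_lit 361) (nat_lit 310) (nat_lit 274)))))) (XT.nd (nat_lit 752) (nat_lit 1344) (nat_lit 0) (XT.nd (nat_lit 376) (nat_lit 1092) (nat_lit 0) (XT.nd (nat_lit 188) (nat_lit 420) (nat_lit 0) (XT.nd (nat_lit 94) (nat_lit 0) (nat_lit 0) (XT.lf (nat_lit 0) (nat_lit 664514181) (nat_lit 420) (nat_lit 7366286807) (nat_lit 84) (nat_lit 1715591722) (nat_lit 87) (nat_lit 5) (nat_lit 92) (nat_lit 5) (nat_lit 88) (nat_lit 5) (nat_lit 362) (nat_lit 310) (nat_lit 273)) (XT.lf (nat_lit 0) (nat_lit 3207751037) (nat_lit 420) (nat_lit 2027040906) (nat_lit 84) (nat_lit 4674185743) (nat_lit 87) (nat_lit 5) (nat_lit 92) (nat_lit 5) (nat_lit 88) (nat_lit 5)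 (nat_lit 363) (nat_lit 310) (nat_lit 272))) (XT.nd (nat_lit 94) (nat_lit 0) (nat_lit 0) (XT.lf (nat_lit 0) (nat_lit 3476587119) (nat_lit 420) (nat_lit 2335645034) (nat_lit 504) (nat_lit 4264731938) (nat_lit 82) (nat_lit 5) (nat_lit 87) (nat_lit 5) (nat_lit 88) (nat_lit 5) (nat_lit 364) (nat_lit 310) (nat_lit 271)) (XT.lf (nat_lit 0) (nat_lit 8473958932) (nat_lit 504) (nat_lit 1133319874) (nat_lit 84) (nat_lit 643408136) (nat_lit 82) (nat_lit 5) (nat_lit 88) (nat_lit 5) (nat_lit 83) (nat_lit 5) (nat_lit 365) (nat_lit 310) (nat_lit 270)))) (XT.nd (nat_lit 188) (nat_lit 672) (nat_lit 0) (XT.nd (nat_lit 94) (nat_lit 0) (nat_lit 0) (XT.lf (nat_lit 0) (nat_lit 790671476) (nat_lit 420) (nat_lit 5936898690) (nat_lit 84) (nat_lit 3701288088) (nat_lit 77) (nat_lit 5) (nat_lit 82) (nat_lit 5) (nat_lit 78) (nat_lit 5) (nat_lit 366) (nat_lit 310) (nat_lit 269)) (XT.lf (nat_lit 0) (nat_lit 3364759637) (nat_lit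 420) (nat_lit 383367439) (nat_lit 84) (nat_lit 6864822806) (nat_lit 77) (nat_lit 5) (nat_lit 82) (nat_lit 5) (nat_lit 78) (nat_lit 5) (nat_lit 367) (nat_lit 310) (nat_lit 268))) (XT.nd (nat_lit 94) (nat_lit 336) (nat_lit 0) (XT.lf (nat_lit 0) (nat_lit 5380737491) (nat_lit 336) (nat_lit 642220498) (nat_lit 420) (nat_lit 4779462008) (nat_lit 73) (nat_lit 5) (nat_lit 77) (nat_lit 5) (nat_lit 78) (nat_lit 5) (nat_lit 368) (nat_lit 310) (nat_lit 267)) (XT.lf (nat_lit 0) (nat_lit 246705329) (nat_lit 336) (nat_lit 8500788865) (nat_lit 420) (nat_lit 2250542810) (nat_lit 69) (nat_lit 5) (nat_lit 73) (nat_lit 5) (nat_lit 74) (nat_lit 5) (nat_lit 369) (nat_lit 310) (nat_lit 266))))) (XT.nd (nat_lit 376) (nat_lit 672) (nat_lit 0) (XT.nd (nat_lit 188) (nat_lit 252) (nat_lit 0) (XT.nd (nat_lit 94) (nat_lit 336) (nat_lit 0) (XT.lf (nat_lit 0) (nat_lit 364926610) (nat_lit 420) (nat_lit 5073889785) (nat_lit 84)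 (nat_lit 5760133184) (nat_lit 68) (nat_lit 5) (nat_lit 73) (nat_lit 5) (nat_lit 69) (nat_lit 5) (nat_lit 370) (nat_lit 310) (nat_lit 265)) (XT.lf (nat_lit 0) (nat_lit 705170853) (nat_lit 336) (nat_lit 2272463409) (nat_lit 420) (nat_lit 8428721965) (nat_lit 64) (nat_lit 5) (nat_lit 68) (nat_lit 5) (nat_lit 69) (nat_lit 5) (nat_lit 371) (nat_lit 310) (nat_lit 264))) (XT.nd (nat_lit 94) (nat_lit 252) (nat_lit 0) (XT.lf (nat_lit 0) (nat_lit 5687706536) (nat_lit 420) (nat_lit 4927588786) (nat_lit 84) (nat_lit 1004174045) (nat_lit 64) (nat_lit 5) (nat_lit 69) (nat_lit 5) (nat_lit 65) (nat_lit 5) (nat_lit 372) (nat_lit 310) (nat_lit 263)) (XT.lf (nat_lit 0) (nat_lit 956407297) (nat_lit 252) (nat_lit 7513331979) (nat_lit 336) (nat_lit 3369569105) (nat_lit 61) (nat_lit 5) (nat_lit 64) (nat_lit 5) (nat_lit 65) (nat_lit 5) (nat_lit 373) (nat_lit 310) (nat_lit 262)))) (XT.nd (nat_lit 188) (nat_lit 252) (nat_lit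 0) (XT.nd (nat_lit 94) (nat_lit 420) (nat_lit 0) (XT.lf (nat_lit 0) (nat_lit 7059540442) (nat_lit 252) (nat_lit 4285050508) (nat_lit 336) (nat_lit 720921585) (nat_lit 61) (nat_lit 5) (nat_lit 64) (nat_lit 5) (nat_lit 65) (nat_lit 5) (nat_lit 374) (nat_lit 310) (nat_lit 261)) (XT.lf (nat_lit 0) (nat_lit 989754240) (nat_lit 336) (nat_lit 948116894) (nat_lit 420) (nat_lit 10361005049) (nat_lit 56) (nat_lit 5) (nat_lit 60) (nat_lit 5) (nat_lit 61) (nat_lit 5) (nat_lit 375) (nat_lit 310) (nat_lit 260))) (XT.nd (nat_lit 94) (nat_lit 252) (nat_lit 0) (XT.lf (nat_lit 0) (nat_lit 4697688357) (nat_lit 420) (nat_lit 5359329451) (nat_lit 84) (nat_lit 2480982686) (nat_lit 56) (nat_lit 5) (nat_lit 61) (nat_lit 5) (nat_lit 57) (nat_lit 5) (nat_lit 376) (nat_lit 310) (nat_lit 259)) (XT.lf (nat_lit 0) (nat_lit 717243480) (nat_lit 252) (nat_lit 6801255448) (nat_lit 336) (nat_lit 5266498693) (nat_lit 53) (nat_lit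 5) (nat_lit 56) (nat_lit 5) (nat_lit 57) (nat_lit 5) (nat_lit 377) (nat_lit 310) (nat_lit 258))))))))
noncomputable def xc17 : XT := (XT.nd (nat_lit 55930) (nat_lit 0) (nat_lit 2268) (XT.nd (nat_lit 54426) (nat_lit 0) (nat_lit 12684) (XT.nd (nat_lit 658) (nat_lit 420) (nat_lit 0) (XT.nd (nat_lit 282) (nat_lit 588) (nat_lit 0) (XT.nd (nat_lit 94) (nat_lit 336) (nat_lit 0) (XT.lf (nat_lit 0) (nat_lit 7030204734) (nat_lit 252) (nat_lit 3410337876) (nat_lit 336) (nat_lit 2598407529) (nat_lit 53) (nat_lit 5) (nat_lit 56) (nat_lit 5) (nat_lit 57) (nat_lit 5) (nat_lit 378) (nat_lit 310) (nat_lit 257)) (XT.nd (nat_lit 94) (nat_lit 0) (nat_lit 0) (XT.lf (nat_lit 0) (nat_lit 112355864) (nat_lit 336) (nat_lit 13123049616) (nat_lit 84) (nat_lit 66147269) (nat_lit 49) (nat_lit 5) (nat_lit 53) (nat_lit 5) (nat_lit 50) (nat_lit 5) (nat_lit 379) (nat_lit 310) (nat_lit 256)) (XT.lf (nat_lit 0) (nat_lit 2910815734)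 (nat_lit 336) (nat_lit 7011099024) (nat_lit 84) (nat_lit 3647628932) (nat_lit 49) (nat_lit 5) (nat_lit 53) (nat_lit 5) (nat_lit 50) (nat_lit 5) (nat_lit 380) (nat_lit 310) (nat_lit 255)))) (XT.nd (nat_lit 188) (nat_lit 336) (nat_lit 0) (XT.nd (nat_lit 94) (nat_lit 252) (nat_lit 0) (XT.lf (nat_lit 0) (nat_lit 5757846843) (nat_lit 336) (nat_lit 769513329) (nat_lit 84) (nat_lit 7319314527) (nat_lit 49) (nat_lit 5) (nat_lit 53) (nat_lit 5) (nat_lit 50) (nat_lit 5) (nat_lit 381) (nat_lit 310) (nat_lit 254)) (XT.lf (nat_lit 0) (nat_lit 5718754785) (nat_lit 252) (nat_lit 2992154272) (nat_lit 336) (nat_lit 5420629707) (nat_lit 46) (nat_lit 5) (nat_lit 49) (nat_lit 5) (nat_lit 50) (nat_lit 5) (nat_lit 382) (nat_lit 310) (nat_lit 253))) (XT.nd (nat_lit 94) (nat_lit 336) (nat_lit 0) (XT.lf (nat_lit 0) (nat_lit 11732631255) (nat_lit 336) (nat_lit 2066115246) (nat_lit 84) (nat_lit 626836838) (nat_lit 46) (nat_lit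 5) (nat_lit 50) (nat_lit 5) (nat_lit 47) (nat_lit 5) (nat_lit 383) (nat_lit 310) (nat_lit 252)) (XT.lf (nat_lit 0) (nat_lit 154278610) (nat_lit 336) (nat_lit 10251102048) (nat_lit 84) (nat_lit 4321869594) (nat_lit 42) (nat_lit 5) (nat_lit 46) (nat_lit 5) (nat_lit 43) (nat_lit 5) (nat_lit 384) (nat_lit 310) (nat_lit 251))))) (XT.nd (nat_lit 376) (nat_lit 0) (nat_lit 0) (XT.nd (nat_lit 188) (nat_lit 252) (nat_lit 0) (XT.nd (nat_lit 94) (nat_lit 168) (nat_lit 0) (XT.lf (nat_lit 0) (nat_lit 3020963084) (nat_lit 336) (nat_lit 3858364613) (nat_lit 84) (nat_lit 8158228236) (nat_lit 42) (nat_lit 5) (nat_lit 46) (nat_lit 5) (nat_lit 43) (nat_lit 5) (nat_lit 385) (nat_lit 310) (nat_lit 250)) (XT.lf (nat_lit 0) (nat_lit 2729725817) (nat_lit 168) (nat_lit 3238212792) (nat_lit 252) (nat_lit 9389436008) (nat_lit 40) (nat_lit 5) (nat_lit 42) (nat_lit 5) (nat_lit 43) (nat_lit 5) (nat_lit 386) (nat_lit 310) (nat_lit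 249))) (XT.nd (nat_lit 94) (nat_lit 252) (nat_lit 0) (XT.lf (nat_lit 0) (nat_lit 9015931995) (nat_lit 252) (nat_lit 6146390810) (nat_lit 84) (nat_lit 524118398) (nat_lit 40) (nat_lit 5) (nat_lit 43) (nat_lit 5) (nat_lit 41) (nat_lit 5) (nat_lit 387) (nat_lit 310) (nat_lit 248)) (XT.lf (nat_lit 0) (nat_lit 457615128) (nat_lit 252) (nat_lit 11703470591) (nat_lit 336) (nat_lit 3864153127) (nat_lit 37) (nat_lit 5) (nat_lit 40) (nat_lit 5) (nat_lit 41) (nat_lit 5) (nat_lit 388) (nat_lit 310) (nat_lit 247)))) (XT.nd (nat_lit 53204) (nat_lit 0) (nat_lit 19992) (XT.nd (nat_lit 53110) (nat_lit 0) (nat_lit 20412) (XT.lf (nat_lit 0) (nat_lit 7337654292) (nat_lit 252) (nat_lit 8094699552) (nat_lit 336) (nat_lit 940923568) (nat_lit 37) (nat_lit 5) (nat_lit 40) (nat_lit 5) (nat_lit 41) (nat_lit 5) (nat_lit 389) (nat_lit 310) (nat_lit 246)) (XT.lf (nat_lit 0) (nat_lit 2863354869) (nat_lit 252) (nat_lit 197114067)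 (nat_lit 252) (nat_lit 197114067) (nat_lit 280) (nat_lit 4) (nat_lit 283) (nat_lit 5) (nat_lit 283) (nat_lit 4) (nat_lit 323) (nat_lit 311) (nat_lit 311))) (XT.nd (nat_lit 94) (nat_lit 0) (nat_lit 0) (XT.lf (nat_lit 0) (nat_lit 2490219700) (nat_lit 420) (nat_lit 3897444373) (nat_lit 0) (nat_lit 147127137) (nat_lit 275) (nat_lit 5) (nat_lit 280) (nat_lit 4) (nat_lit 275) (nat_lit 4) (nat_lit 324) (nat_lit 311) (nat_lit 310)) (XT.lf (nat_lit 0) (nat_lit 5362548833) (nat_lit 420) (nat_lit 450778420) (nat_lit 0) (nat_lit 744609122) (nat_lit 275) (nat_lit 5) (nat_lit 280) (nat_lit 4) (nat_lit 275) (nat_lit 4) (nat_lit 325) (nat_lit 311) (nat_lit 309)))))) (XT.nd (nat_lit 752) (nat_lit 4032) (nat_lit 0) (XT.nd (nat_lit 376) (nat_lit 1596) (nat_lit 0) (XT.nd (nat_lit 188) (nat_lit 672) (nat_lit 0) (XT.nd (nat_lit 94) (nat_lit 504) (nat_lit 0) (XT.lf (nat_lit 0) (nat_lit 1634363838) (nat_lit 504) (nat_lit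 3508770582) (nat_lit 84) (nat_lit 1440576671) (nat_lit 269) (nat_lit 5) (nat_lit 275) (nat_lit 5) (nat_lit 270) (nat_lit 4) (nat_lit 326) (nat_lit 311) (nat_lit 308)) (XT.lf (nat_lit 0) (nat_lit 24381234) (nat_lit 504) (nat_lit 4406737990) (nat_lit 588) (nat_lit 2181899377) (nat_lit 263) (nat_lit 5) (nat_lit 269) (nat_lit 5) (nat_lit 270) (nat_lit 4) (nat_lit 327) (nat_lit 311) (nat_lit 307))) (XT.nd (nat_lit 94) (nat_lit 588) (nat_lit 0) (XT.lf (nat_lit 0) (nat_lit 593585238) (nat_lit 588) (nat_lit 2984771452) (nat_lit 84) (nat_lit 3066795653) (nat_lit 262) (nat_lit 5) (nat_lit 269) (nat_lit 5) (nat_lit 263) (nat_lit 5) (nat_lit 328) (nat_lit 311) (nat_lit 306)) (XT.lf (nat_lit 0) (nat_lit 649044025) (nat_lit 588) (nat_lit 2670798698) (nat_lit 672) (nat_lit 3360691808) (nat_lit 255) (nat_lit 5) (nat_lit 262) (nat_lit 5) (nat_lit 263) (nat_lit 5) (nat_lit 329) (nat_lit 311) (nat_lit 305)))) (XT.nd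 (nat_lit 188) (nat_lit 840) (nat_lit 0) (XT.nd (nat_lit 94) (nat_lit 756) (nat_lit 0) (XT.lf (nat_lit 0) (nat_lit 4384508930) (nat_lit 588) (nat_lit 1680747135) (nat_lit 672) (nat_lit 653866506) (nat_lit 255) (nat_lit 5) (nat_lit 262) (nat_lit 5) (nat_lit 263) (nat_lit 5) (nat_lit 330) (nat_lit 311) (nat_lit 304)) (XT.lf (nat_lit 0) (nat_lit 1411580800) (nat_lit 672) (nat_lit 603291956) (nat_lit 756) (nat_lit 4745959611) (nat_lit 246) (nat_lit 5) (nat_lit 254) (nat_lit 5) (nat_lit 255) (nat_lit 5) (nat_lit 331) (nat_lit 311) (nat_lit 303))) (XT.nd (nat_lit 94) (nat_lit 840) (nat_lit 0) (XT.lf (nat_lit 0) (nat_lit 4690202674) (nat_lit 756) (nat_lit 1567713624) (nat_lit 84) (nat_lit 547735731) (nat_lit 246) (nat_lit 5) (nat_lit 255) (nat_lit 5) (nat_lit 247) (nat_lit 5) (nat_lit 332) (nat_lit 311) (nat_lit 302)) (XT.lf (nat_lit 0) (nat_lit 523216951) (nat_lit 840) (nat_lit 4561809860) (nat_lit 84)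 (nat_lit 1768622201) (nat_lit 236) (nat_lit 5) (nat_lit 246) (nat_lit 5) (nat_lit 237) (nat_lit 5) (nat_lit 333) (nat_lit 311) (nat_lit 301))))) (XT.nd (nat_lit 376) (nat_lit 2184) (nat_lit 0) (XT.nd (nat_lit 188) (nat_lit 1008) (nat_lit 0) (XT.nd (nat_lit 94) (nat_lit 840) (nat_lit 0) (XT.lf (nat_lit 0) (nat_lit 3128896745) (nat_lit 840) (nat_lit 694647189) (nat_lit 84) (nat_lit 3081224756) (nat_lit 236) (nat_lit 5) (nat_lit 246) (nat_lit 5) (nat_lit 237) (nat_lit 5) (nat_lit 334) (nat_lit 311) (nat_lit 300)) (XT.lf (nat_lit 0) (nat_lit 3284417753) (nat_lit 840) (nat_lit 2476779030) (nat_lit 924) (nat_lit 1197987499) (nat_lit 226) (nat_lit 5) (nat_lit 236) (nat_lit 5) (nat_lit 237) (nat_lit 5) (nat_lit 335) (nat_lit 311) (nat_lit 299))) (XT.nd (nat_lit 94) (nat_lit 0) (nat_lit 0) (XT.lf (nat_lit 0) (nat_lit 304560789) (nat_lit 924) (nat_lit 1051887438) (nat_lit 1008) (nat_lit 5660737791) (nat_lit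 214) (nat_lit 5) (nat_lit 225) (nat_lit 5) (nat_lit 226) (nat_lit 5) (nat_lit 336) (nat_lit 311) (nat_lit 298)) (XT.lf (nat_lit 0) (nat_lit 3924402569) (nat_lit 1008) (nat_lit 2684870638) (nat_lit 84) (nat_lit 468667350) (nat_lit 214) (nat_lit 5) (nat_lit 226) (nat_lit 5) (nat_lit 215) (nat_lit 5) (nat_lit 337) (nat_lit 311) (nat_lit 297)))) (XT.nd (nat_lit 188) (nat_lit 1092) (nat_lit 0) (XT.nd (nat_lit 94) (nat_lit 84) (nat_lit 0) (XT.lf (nat_lit 0) (nat_lit 1411497706) (nat_lit 1008) (nat_lit 5103717739) (nat_lit 1092) (nat_lit 627119442) (nat_lit 202) (nat_lit 5) (nat_lit 214) (nat_lit 5) (nat_lit 215) (nat_lit 5) (nat_lit 338) (nat_lit 311) (nat_lit 296)) (XT.lf (nat_lit 0) (nat_lit 1886443969) (nat_lit 1092) (nat_lit 1611698166) (nat_lit 84) (nat_lit 3711633281) (nat_lit 201) (nat_lit 5) (nat_lit 214) (nat_lit 5) (nat_lit 202) (nat_lit 5) (nat_lit 339) (nat_lit 311) (nat_lit 295))) (XT.nd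 (nat_lit 94) (nat_lit 0) (nat_lit 0) (XT.lf (nat_lit 0) (nat_lit 2607344235) (nat_lit 1092) (nat_lit 1805298951) (nat_lit 1176) (nat_lit 2868090180) (nat_lit 188) (nat_lit 5) (nat_lit 201) (nat_lit 5) (nat_lit 202) (nat_lit 5) (nat_lit 340) (nat_lit 311) (nat_lit 294)) (XT.lf (nat_lit 0) (nat_lit 6918325785) (nat_lit 1092) (nat_lit 38888258) (nat_lit 1176) (nat_lit 398498810) (nat_lit 188) (nat_lit 5) (nat_lit 201) (nat_lit 5) (nat_lit 202) (nat_lit 5) (nat_lit 341) (nat_lit 311) (nat_lit 293))))))) (XT.nd (nat_lit 1504) (nat_lit 3276) (nat_lit 0) (XT.nd (nat_lit 752) (nat_lit 2688) (nat_lit 0) (XT.nd (nat_lit 376) (nat_lit 1260) (nat_lit 0) (XT.nd (nat_lit 188) (nat_lit 672) (nat_lit 0) (XT.nd (nat_lit 94) (nat_lit 1260) (nat_lit 0) (XT.lf (nat_lit 0) (nat_lit 2086273003) (nat_lit 1260) (nat_lit 3537116234) (nat_lit 84) (nat_lit 1809605869) (nat_lit 173) (nat_lit 5) (nat_lit 188) (nat_lit 5) (nat_lit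 174) (nat_lit 5) (nat_lit 342) (nat_lit 311) (nat_lit 292)) (XT.lf (nat_lit 0) (nat_lit 797873614) (nat_lit 1260) (nat_lit 3781316431) (nat_lit 1344) (nat_lit 2935194982) (nat_lit 158) (nat_lit 5) (nat_lit 173) (nat_lit 5) (nat_lit 174) (nat_lit 5) (nat_lit 343) (nat_lit 311) (nat_lit 291))) (XT.nd (nat_lit 94) (nat_lit 672) (nat_lit 0) (XT.lf (nat_lit 0) (nat_lit 5267129766) (nat_lit 1260) (nat_lit 1845987815) (nat_lit 1344) (nat_lit 486263745) (nat_lit 158) (nat_lit 5) (nat_lit 173) (nat_lit 5) (nat_lit 174) (nat_lit 5) (nat_lit 344) (nat_lit 311) (nat_lit 290)) (XT.lf (nat_lit 0) (nat_lit 1950489502) (nat_lit 672) (nat_lit 5551855964) (nat_lit 84) (nat_lit 185514962) (nat_lit 150) (nat_lit 5) (nat_lit 158) (nat_lit 5) (nat_lit 151) (nat_lit 5) (nat_lit 345) (nat_lit 311) (nat_lit 289)))) (XT.nd (nat_lit 188) (nat_lit 672) (nat_lit 0) (XT.nd (nat_lit 94) (nat_lit 588) (nat_lit 0) (XT.lf (nat_lit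 0) (nat_lit 4425691960) (nat_lit 672) (nat_lit 1084778565) (nat_lit 84) (nat_lit 2269263868) (nat_lit 150) (nat_lit 5) (nat_lit 158) (nat_lit 5) (nat_lit 151) (nat_lit 5) (nat_lit 346) (nat_lit 311) (nat_lit 288)) (XT.lf (nat_lit 0) (nat_lit 3517688433) (nat_lit 588) (nat_lit 3426284560) (nat_lit 672) (nat_lit 931461400) (nat_lit 143) (nat_lit 5) (nat_lit 150) (nat_lit 5) (nat_lit 151) (nat_lit 5) (nat_lit 347) (nat_lit 311) (nat_lit 287))) (XT.nd (nat_lit 94) (nat_lit 0) (nat_lit 0) (XT.lf (nat_lit 0) (nat_lit 228083225) (nat_lit 588) (nat_lit 1253955520) (nat_lit 672) (nat_lit 6493179744) (nat_lit 135) (nat_lit 5) (nat_lit 142) (nat_lit 5) (nat_lit 143) (nat_lit 5) (nat_lit 348) (nat_lit 311) (nat_lit 286)) (XT.lf (nat_lit 0) (nat_lit 3939811105) (nat_lit 672) (nat_lit 3124303111) (nat_lit 84) (nat_lit 1014010639) (nat_lit 135) (nat_lit 5) (nat_lit 143) (nat_lit 5) (nat_lit 136) (nat_lit 5) (nat_lit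 349) (nat_lit 311) (nat_lit 285))))) (XT.nd (nat_lit 376) (nat_lit 1512) (nat_lit 0) (XT.nd (nat_lit 188) (nat_lit 504) (nat_lit 0) (XT.nd (nat_lit 94) (nat_lit 84) (nat_lit 0) (XT.lf (nat_lit 0) (nat_lit 1588483554) (nat_lit 588) (nat_lit 4849055687) (nat_lit 672) (nat_lit 1747711988) (nat_lit 128) (nat_lit 5) (nat_lit 135) (nat_lit 5) (nat_lit 136) (nat_lit 5) (nat_lit 350) (nat_lit 311) (nat_lit 284)) (XT.lf (nat_lit 0) (nat_lit 671501243) (nat_lit 672) (nat_lit 1863106851) (nat_lit 84) (nat_lit 5761764716) (nat_lit 127) (nat_lit 5) (nat_lit 135) (nat_lit 5) (nat_lit 128) (nat_lit 5) (nat_lit 351) (nat_lit 311) (nat_lit 283))) (XT.nd (nat_lit 94) (nat_lit 0) (nat_lit 0) (XT.lf (nat_lit 0) (nat_lit 2987558433) (nat_lit 504) (nat_lit 110077072) (nat_lit 588) (nat_lit 5313698608) (nat_lit 121) (nat_lit 5) (nat_lit 127) (nat_lit 5) (nat_lit 128) (nat_lit 5) (nat_lit 352) (nat_lit 311) (nat_lit 282))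 (XT.lf (nat_lit 0) (nat_lit 5580282771) (nat_lit 588) (nat_lit 597511360) (nat_lit 84) (nat_lit 2352544423) (nat_lit 121) (nat_lit 5) (nat_lit 128) (nat_lit 5) (nat_lit 122) (nat_lit 5) (nat_lit 353) (nat_lit 311) (nat_lit 281)))) (XT.nd (nat_lit 188) (nat_lit 504) (nat_lit 0) (XT.nd (nat_lit 94) (nat_lit 504) (nat_lit 0) (XT.lf (nat_lit 0) (nat_lit 4392995887) (nat_lit 504) (nat_lit 3731209124) (nat_lit 588) (nat_lit 529207327) (nat_lit 115) (nat_lit 5) (nat_lit 121) (nat_lit 5) (nat_lit 122) (nat_lit 5) (nat_lit 354) (nat_lit 311) (nat_lit 280)) (XT.lf (nat_lit 0) (nat_lit 694322851) (nat_lit 420) (nat_lit 1188237325) (nat_lit 504) (nat_lit 6898450162) (nat_lit 109) (nat_lit 5) (nat_lit 114) (nat_lit 5) (nat_lit 115) (nat_lit 5) (nat_lit 355) (nat_lit 311) (nat_lit 279))) (XT.nd (nat_lit 94) (nat_lit 504) (nat_lit 0) (XT.lf (nat_lit 0) (nat_lit 4358017189) (nat_lit 504) (nat_lit 3112290124) (nat_lit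 84) (nat_lit 1442006913) (nat_lit 109) (nat_lit 5) (nat_lit 115) (nat_lit 5) (nat_lit 110) (nat_lit 5) (nat_lit 356) (nat_lit 311) (nat_lit 278)) (XT.lf (nat_lit 0) (nat_lit 1973262725) (nat_lit 504) (nat_lit 4911586122) (nat_lit 588) (nat_lit 2163486639) (nat_lit 103) (nat_lit 5) (nat_lit 109) (nat_lit 5) (nat_lit 110) (nat_lit 5) (nat_lit 357) (nat_lit 311) (nat_lit 277)))))) (XT.nd (nat_lit 752) (nat_lit 1512) (nat_lit 0) (XT.nd (nat_lit 376) (nat_lit 840) (nat_lit 0) (XT.nd (nat_lit 188) (nat_lit 420) (nat_lit 0) (XT.nd (nat_lit 94) (nat_lit 420) (nat_lit 0) (XT.lf (nat_lit 0) (nat_lit 271665878) (nat_lit 588) (nat_lit 1980827815) (nat_lit 84) (nat_lit 6936590177) (nat_lit 102) (nat_lit 5) (nat_lit 109) (nat_lit 5) (nat_lit 103) (nat_lit 5) (nat_lit 358) (nat_lit 311) (nat_lit 276)) (XT.lf (nat_lit 0) (nat_lit 2720929153) (nat_lit 504) (nat_lit 6094481892) (nat_lit 84) (nat_lit 518548647) (nat_lit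 97) (nat_lit 5) (nat_lit 103) (nat_lit 5) (nat_lit 98) (nat_lit 5) (nat_lit 359) (nat_lit 311) (nat_lit 275))) (XT.nd (nat_lit 94) (nat_lit 420) (nat_lit 0) (XT.lf (nat_lit 0) (nat_lit 5235226907) (nat_lit 504) (nat_lit 912379196) (nat_lit 84) (nat_lit 3335910358) (nat_lit 97) (nat_lit 5) (nat_lit 103) (nat_lit 5) (nat_lit 98) (nat_lit 5) (nat_lit 360) (nat_lit 311) (nat_lit 274)) (XT.lf (nat_lit 0) (nat_lit 4449591681) (nat_lit 420) (nat_lit 3368672109) (nat_lit 504) (nat_lit 1819575836) (nat_lit 92) (nat_lit 5) (nat_lit 97) (nat_lit 5) (nat_lit 98) (nat_lit 5) (nat_lit 361) (nat_lit 311) (nat_lit 273)))) (XT.nd (nat_lit 188) (nat_lit 420) (nat_lit 0) (XT.nd (nat_lit 94) (nat_lit 0) (nat_lit 0) (XT.lf (nat_lit 0) (nat_lit 127587594) (nat_lit 336) (nat_lit 502462285) (nat_lit 420) (nat_lit 9167779633) (nat_lit 87) (nat_lit 5) (nat_lit 91) (nat_lit 5) (nat_lit 92) (nat_lit 5) (nat_lit 362) (nat_lit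 311) (nat_lit 272)) (XT.lf (nat_lit 0) (nat_lit 3144578964) (nat_lit 420) (nat_lit 4357513821) (nat_lit 84) (nat_lit 2459218550) (nat_lit 87) (nat_lit 5) (nat_lit 92) (nat_lit 5) (nat_lit 88) (nat_lit 5) (nat_lit 363) (nat_lit 311) (nat_lit 271))) (XT.nd (nat_lit 94) (nat_lit 0) (nat_lit 0) (XT.lf (nat_lit 0) (nat_lit 1068692776) (nat_lit 420) (nat_lit 4634038824) (nat_lit 504) (nat_lit 4427990570) (nat_lit 82) (nat_lit 5) (nat_lit 87) (nat_lit 5) (nat_lit 88) (nat_lit 5) (nat_lit 364) (nat_lit 311) (nat_lit 270)) (XT.lf (nat_lit 0) (nat_lit 6685833530) (nat_lit 420) (nat_lit 1649520124) (nat_lit 504) (nat_lit 1969998079) (nat_lit 82) (nat_lit 5) (nat_lit 87) (nat_lit 5) (nat_lit 88) (nat_lit 5) (nat_lit 365) (nat_lit 311) (nat_lit 269))))) (XT.nd (nat_lit 376) (nat_lit 756) (nat_lit 0) (XT.nd (nat_lit 188) (nat_lit 336) (nat_lit 0) (XT.nd (nat_lit 94) (nat_lit 0) (nat_lit 0) (XT.lf (nat_lit 0)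 (nat_lit 537951788) (nat_lit 420) (nat_lit 8540983780) (nat_lit 84) (nat_lit 1406571484) (nat_lit 77) (nat_lit 5) (nat_lit 82) (nat_lit 5) (nat_lit 78) (nat_lit 5) (nat_lit 366) (nat_lit 311) (nat_lit 268)) (XT.lf (nat_lit 0) (nat_lit 3089953548) (nat_lit 420) (nat_lit 3017516484) (nat_lit 84) (nat_lit 4562821962) (nat_lit 77) (nat_lit 5) (nat_lit 82) (nat_lit 5) (nat_lit 78) (nat_lit 5) (nat_lit 367) (nat_lit 311) (nat_lit 267))) (XT.nd (nat_lit 94) (nat_lit 0) (nat_lit 0) (XT.lf (nat_lit 0) (nat_lit 2664394506) (nat_lit 336) (nat_lit 3036203135) (nat_lit 420) (nat_lit 5160620921) (nat_lit 73) (nat_lit 5) (nat_lit 77) (nat_lit 5) (nat_lit 78) (nat_lit 5) (nat_lit 368) (nat_lit 311) (nat_lit 266)) (XT.lf (nat_lit 0) (nat_lit 8378578528) (nat_lit 420) (nat_lit 2539726863) (nat_lit 84) (nat_lit 139955794) (nat_lit 73) (nat_lit 5) (nat_lit 78) (nat_lit 5) (nat_lit 74) (nat_lit 5) (nat_lit 369) (nat_lit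 311) (nat_lit 265)))) (XT.nd (nat_lit 188) (nat_lit 336) (nat_lit 0) (XT.nd (nat_lit 94) (nat_lit 84) (nat_lit 0) (XT.lf (nat_lit 0) (nat_lit 3262567248) (nat_lit 336) (nat_lit 7894028624) (nat_lit 420) (nat_lit 104085375) (nat_lit 69) (nat_lit 5) (nat_lit 73) (nat_lit 5) (nat_lit 74) (nat_lit 5) (nat_lit 370) (nat_lit 311) (nat_lit 264)) (XT.lf (nat_lit 0) (nat_lit 2483419182) (nat_lit 420) (nat_lit 2260596230) (nat_lit 84) (nat_lit 6724946025) (nat_lit 68) (nat_lit 5) (nat_lit 73) (nat_lit 5) (nat_lit 69) (nat_lit 5) (nat_lit 371) (nat_lit 311) (nat_lit 263))) (XT.nd (nat_lit 94) (nat_lit 0) (nat_lit 0) (XT.lf (nat_lit 0) (nat_lit 3662762598) (nat_lit 336) (nat_lit 1478587492) (nat_lit 420) (nat_lit 6542314457) (nat_lit 64) (nat_lit 5) (nat_lit 68) (nat_lit 5) (nat_lit 69) (nat_lit 5) (nat_lit 372) (nat_lit 311) (nat_lit 262)) (XT.lf (nat_lit 0) (nat_lit 7880350694) (nat_lit 420) (nat_lit 2169559716)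 (nat_lit 84) (nat_lit 1854909094) (nat_lit 64) (nat_lit 5) (nat_lit 69) (nat_lit 5) (nat_lit 65) (nat_lit 5) (nat_lit 373) (nat_lit 311) (nat_lit 261))))))))
noncomputable def xc18 : XT := (XT.nd (nat_lit 55742) (nat_lit 0) (nat_lit 3360) (XT.nd (nat_lit 1410) (nat_lit 252) (nat_lit 0) (XT.nd (nat_lit 658) (nat_lit 756) (nat_lit 0) (XT.nd (nat_lit 282) (nat_lit 588) (nat_lit 0) (XT.nd (nat_lit 94) (nat_lit 420) (nat_lit 0) (XT.lf (nat_lit 0) (nat_lit 3862467459) (nat_lit 252) (nat_lit 6852142397) (nat_lit 336) (nat_lit 1417655827) (nat_lit 61) (nat_lit 5) (nat_lit 64) (nat_lit 5) (nat_lit 65) (nat_lit 5) (nat_lit 374) (nat_lit 311) (nat_lit 260)) (XT.nd (nat_lit 94) (nat_lit 336) (nat_lit 0) (XT.lf (nat_lit 0) (nat_lit 1226250208) (nat_lit 336) (nat_lit 2314202546) (nat_lit 84) (nat_lit 8826254833) (nat_lit 60) (nat_lit 5) (nat_lit 64) (nat_lit 5) (nat_lit 61) (nat_lit 5) (nat_lit 375) (nat_lit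 311) (nat_lit 259)) (XT.lf (nat_lit 0) (nat_lit 3826465476) (nat_lit 336) (nat_lit 93912564) (nat_lit 420) (nat_lit 8687446734) (nat_lit 56) (nat_lit 5) (nat_lit 60) (nat_lit 5) (nat_lit 61) (nat_lit 5) (nat_lit 376) (nat_lit 311) (nat_lit 258)))) (XT.nd (nat_lit 188) (nat_lit 336) (nat_lit 0) (XT.nd (nat_lit 94) (nat_lit 252) (nat_lit 0) (XT.lf (nat_lit 0) (nat_lit 6715177573) (nat_lit 420) (nat_lit 2744816371) (nat_lit 84) (nat_lit 3395629835) (nat_lit 56) (nat_lit 5) (nat_lit 61) (nat_lit 5) (nat_lit 57) (nat_lit 5) (nat_lit 377) (nat_lit 311) (nat_lit 257)) (XT.lf (nat_lit 0) (nat_lit 3486844993) (nat_lit 252) (nat_lit 6105526689) (nat_lit 336) (nat_lit 3518571021) (nat_lit 53) (nat_lit 5) (nat_lit 56) (nat_lit 5) (nat_lit 57) (nat_lit 5) (nat_lit 378) (nat_lit 311) (nat_lit 256))) (XT.nd (nat_lit 94) (nat_lit 336) (nat_lit 0) (XT.lf (nat_lit 0) (nat_lit 9909153797) (nat_lit 252) (nat_lit 2639088379)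 (nat_lit 336) (nat_lit 825949431) (nat_lit 53) (nat_lit 5) (nat_lit 56) (nat_lit 5) (nat_lit 57) (nat_lit 5) (nat_lit 379) (nat_lit 311) (nat_lit 255)) (XT.lf (nat_lit 0) (nat_lit 1911522018) (nat_lit 336) (nat_lit 10790079331) (nat_lit 84) (nat_lit 943151701) (nat_lit 49) (nat_lit 5) (nat_lit 53) (nat_lit 5) (nat_lit 50) (nat_lit 5) (nat_lit 380) (nat_lit 311) (nat_lit 254))))) (XT.nd (nat_lit 376) (nat_lit 252) (nat_lit 0) (XT.nd (nat_lit 188) (nat_lit 252) (nat_lit 0) (XT.nd (nat_lit 94) (nat_lit 252) (nat_lit 0) (XT.lf (nat_lit 0) (nat_lit 4741630961) (nat_lit 336) (nat_lit 4574187555) (nat_lit 84) (nat_lit 4606591794) (nat_lit 49) (nat_lit 5) (nat_lit 53) (nat_lit 5) (nat_lit 50) (nat_lit 5) (nat_lit 381) (nat_lit 311) (nat_lit 253)) (XT.lf (nat_lit 0) (nat_lit 1812918064) (nat_lit 252) (nat_lit 5827800532) (nat_lit 336) (nat_lit 6568193062) (nat_lit 46) (nat_lit 5) (nat_lit 49) (nat_lit 5)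 (nat_lit 50) (nat_lit 5) (nat_lit 382) (nat_lit 311) (nat_lit 252))) (XT.nd (nat_lit 94) (nat_lit 252) (nat_lit 0) (XT.lf (nat_lit 0) (nat_lit 8435260208) (nat_lit 252) (nat_lit 2204846921) (nat_lit 336) (nat_lit 3863536633) (nat_lit 46) (nat_lit 5) (nat_lit 49) (nat_lit 5) (nat_lit 50) (nat_lit 5) (nat_lit 383) (nat_lit 311) (nat_lit 251)) (XT.lf (nat_lit 0) (nat_lit 392524941) (nat_lit 252) (nat_lit 13323335871) (nat_lit 336) (nat_lit 1091800041) (nat_lit 43) (nat_lit 5) (nat_lit 46) (nat_lit 5) (nat_lit 47) (nat_lit 5) (nat_lit 384) (nat_lit 311) (nat_lit 250)))) (XT.nd (nat_lit 188) (nat_lit 168) (nat_lit 0) (XT.nd (nat_lit 94) (nat_lit 0) (nat_lit 0) (XT.lf (nat_lit 0) (nat_lit 1780450823) (nat_lit 336) (nat_lit 8036384172) (nat_lit 84) (nat_lit 5301934581) (nat_lit 42) (nat_lit 5) (nat_lit 46) (nat_lit 5) (nat_lit 43) (nat_lit 5) (nat_lit 385) (nat_lit 311) (nat_lit 249)) (XT.lf (nat_lit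 0) (nat_lit 4685906399) (nat_lit 336) (nat_lit 1525328234) (nat_lit 84) (nat_lit 9228614791) (nat_lit 42) (nat_lit 5) (nat_lit 46) (nat_lit 5) (nat_lit 43) (nat_lit 5) (nat_lit 386) (nat_lit 311) (nat_lit 248))) (XT.nd (nat_lit 94) (nat_lit 0) (nat_lit 0) (XT.lf (nat_lit 0) (nat_lit 5236397191) (nat_lit 168) (nat_lit 2462348645) (nat_lit 252) (nat_lit 8071239903) (nat_lit 40) (nat_lit 5) (nat_lit 42) (nat_lit 5) (nat_lit 43) (nat_lit 5) (nat_lit 387) (nat_lit 311) (nat_lit 247)) (XT.lf (nat_lit 0) (nat_lit 10801129353) (nat_lit 252) (nat_lit 3938066220) (nat_lit 84) (nat_lit 1370885591) (nat_lit 40) (nat_lit 5) (nat_lit 43) (nat_lit 5) (nat_lit 41) (nat_lit 5) (nat_lit 388) (nat_lit 311) (nat_lit 246)))))) (XT.nd (nat_lit 53580) (nat_lit 0) (nat_lit 15792) (XT.nd (nat_lit 53204) (nat_lit 0) (nat_lit 19488) (XT.nd (nat_lit 53016) (nat_lit 0) (nat_lit 20328) (XT.nd (nat_lit 52922) (nat_lit 0) (nat_lit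 20664) (XT.lf (nat_lit 0) (nat_lit 2840601893) (nat_lit 252) (nat_lit 11178692515) (nat_lit 336) (nat_lit 2440432657) (nat_lit 37) (nat_lit 5) (nat_lit 40) (nat_lit 5) (nat_lit 41) (nat_lit 5) (nat_lit 389) (nat_lit 311) (nat_lit 245)) (XT.lf (nat_lit 0) (nat_lit 1381680698) (nat_lit 252) (nat_lit 478015518) (nat_lit 0) (nat_lit 1381680698) (nat_lit 283) (nat_lit 5) (nat_lit 286) (nat_lit 4) (nat_lit 283) (nat_lit 4) (nat_lit 321) (nat_lit 312) (nat_lit 312))) (XT.nd (nat_lit 94) (nat_lit 84) (nat_lit 0) (XT.lf (nat_lit 0) (nat_lit 2342468781) (nat_lit 252) (nat_lit 3320657083) (nat_lit 252) (nat_lit 834870183) (nat_lit 280) (nat_lit 4) (nat_lit 283) (nat_lit 5) (nat_lit 283) (nat_lit 4) (nat_lit 322) (nat_lit 312) (nat_lit 311)) (XT.lf (nat_lit 0) (nat_lit 1998795677) (nat_lit 336) (nat_lit 841617015) (nat_lit 84) (nat_lit 3675874268) (nat_lit 279) (nat_lit 5) (nat_lit 283) (nat_lit 5) (nat_lit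 280) (nat_lit 4) (nat_lit 323) (nat_lit 312) (nat_lit 310)))) (XT.nd (nat_lit 188) (nat_lit 420) (nat_lit 0) (XT.nd (nat_lit 94) (nat_lit 84) (nat_lit 0) (XT.lf (nat_lit 0) (nat_lit 2548017471) (nat_lit 336) (nat_lit 2274781678) (nat_lit 420) (nat_lit 1714742684) (nat_lit 275) (nat_lit 5) (nat_lit 279) (nat_lit 5) (nat_lit 280) (nat_lit 4) (nat_lit 324) (nat_lit 312) (nat_lit 309)) (XT.lf (nat_lit 0) (nat_lit 1056475043) (nat_lit 420) (nat_lit 580770638) (nat_lit 84) (nat_lit 4924940624) (nat_lit 274) (nat_lit 5) (nat_lit 279) (nat_lit 5) (nat_lit 275) (nat_lit 5) (nat_lit 325) (nat_lit 312) (nat_lit 308))) (XT.nd (nat_lit 94) (nat_lit 0) (nat_lit 0) (XT.lf (nat_lit 0) (nat_lit 2905069438) (nat_lit 420) (nat_lit 900847247) (nat_lit 504) (nat_lit 2783556280) (nat_lit 269) (nat_lit 5) (nat_lit 274) (nat_lit 5) (nat_lit 275) (nat_lit 5) (nat_lit 326) (nat_lit 312) (nat_lit 307)) (XT.lf (nat_lit 0)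 (nat_lit 6443139117) (nat_lit 420) (nat_lit 104441437) (nat_lit 504) (nat_lit 72995544) (nat_lit 269) (nat_lit 5) (nat_lit 274) (nat_lit 5) (nat_lit 275) (nat_lit 5) (nat_lit 327) (nat_lit 312) (nat_lit 306))))) (XT.nd (nat_lit 376) (nat_lit 1764) (nat_lit 0) (XT.nd (nat_lit 188) (nat_lit 756) (nat_lit 0) (XT.nd (nat_lit 94) (nat_lit 588) (nat_lit 0) (XT.lf (nat_lit 0) (nat_lit 2611838733) (nat_lit 588) (nat_lit 3251084369) (nat_lit 84) (nat_lit 790798192) (nat_lit 262) (nat_lit 5) (nat_lit 269) (nat_lit 5) (nat_lit 263) (nat_lit 5) (nat_lit 328) (nat_lit 312) (nat_lit 305)) (XT.lf (nat_lit 0) (nat_lit 343662522) (nat_lit 588) (nat_lit 4946122191) (nat_lit 672) (nat_lit 1400898870) (nat_lit 255) (nat_lit 5) (nat_lit 262) (nat_lit 5) (nat_lit 263) (nat_lit 5) (nat_lit 329) (nat_lit 312) (nat_lit 304))) (XT.nd (nat_lit 94) (nat_lit 672) (nat_lit 0) (XT.lf (nat_lit 0) (nat_lit 1235509823) (nat_lit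 672) (nat_lit 2696499959) (nat_lit 84) (nat_lit 2798356486) (nat_lit 254) (nat_lit 5) (nat_lit 262) (nat_lit 5) (nat_lit 255) (nat_lit 5) (nat_lit 330) (nat_lit 312) (nat_lit 303)) (XT.lf (nat_lit 0) (nat_lit 1002610777) (nat_lit 672) (nat_lit 2841323205) (nat_lit 756) (nat_lit 2929499854) (nat_lit 246) (nat_lit 5) (nat_lit 254) (nat_lit 5) (nat_lit 255) (nat_lit 5) (nat_lit 331) (nat_lit 312) (nat_lit 302)))) (XT.nd (nat_lit 188) (nat_lit 924) (nat_lit 0) (XT.nd (nat_lit 94) (nat_lit 840) (nat_lit 0) (XT.lf (nat_lit 0) (nat_lit 4802003321) (nat_lit 672) (nat_lit 1669224322) (nat_lit 756) (nat_lit 348583116) (nat_lit 246) (nat_lit 5) (nat_lit 254) (nat_lit 5) (nat_lit 255) (nat_lit 5) (nat_lit 332) (nat_lit 312) (nat_lit 301)) (XT.lf (nat_lit 0) (nat_lit 1794653331) (nat_lit 756) (nat_lit 402140383) (nat_lit 840) (nat_lit 4672378354) (nat_lit 236) (nat_lit 5) (nat_lit 245) (nat_lit 5) (nat_lit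 246) (nat_lit 5) (nat_lit 333) (nat_lit 312) (nat_lit 300))) (XT.nd (nat_lit 94) (nat_lit 924) (nat_lit 0) (XT.lf (nat_lit 0) (nat_lit 4757661099) (nat_lit 840) (nat_lit 1237088194) (nat_lit 84) (nat_lit 926993138) (nat_lit 236) (nat_lit 5) (nat_lit 246) (nat_lit 5) (nat_lit 237) (nat_lit 5) (nat_lit 334) (nat_lit 312) (nat_lit 299)) (XT.lf (nat_lit 0) (nat_lit 359785685) (nat_lit 924) (nat_lit 4283237563) (nat_lit 84) (nat_lit 2334493934) (nat_lit 225) (nat_lit 5) (nat_lit 236) (nat_lit 5) (nat_lit 226) (nat_lit 5) (nat_lit 335) (nat_lit 312) (nat_lit 298))))))) (XT.nd (nat_lit 1504) (nat_lit 4200) (nat_lit 0) (XT.nd (nat_lit 752) (nat_lit 3864) (nat_lit 0) (XT.nd (nat_lit 376) (nat_lit 2352) (nat_lit 0) (XT.nd (nat_lit 188) (nat_lit 1092) (nat_lit 0) (XT.nd (nat_lit 94) (nat_lit 924) (nat_lit 0) (XT.lf (nat_lit 0) (nat_lit 2848526509) (nat_lit 924) (nat_lit 354549724) (nat_lit 84) (nat_lit 3833464042)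 (nat_lit 225) (nat_lit 5) (nat_lit 236) (nat_lit 5) (nat_lit 226) (nat_lit 5) (nat_lit 336) (nat_lit 312) (nat_lit 297)) (XT.lf (nat_lit 0) (nat_lit 3698780480) (nat_lit 924) (nat_lit 1671070847) (nat_lit 1008) (nat_lit 1728936831) (nat_lit 214) (nat_lit 5) (nat_lit 225) (nat_lit 5) (nat_lit 226) (nat_lit 5) (nat_lit 337) (nat_lit 312) (nat_lit 296))) (XT.nd (nat_lit 94) (nat_lit 0) (nat_lit 0) (XT.lf (nat_lit 0) (nat_lit 656769772) (nat_lit 1008) (nat_lit 64454974) (nat_lit 1092) (nat_lit 6443637660) (nat_lit 201) (nat_lit 5) (nat_lit 213) (nat_lit 5) (nat_lit 214) (nat_lit 5) (nat_lit 338) (nat_lit 312) (nat_lit 295)) (XT.lf (nat_lit 0) (nat_lit 3184872103) (nat_lit 1092) (nat_lit 2428027496) (nat_lit 84) (nat_lit 1620439293) (nat_lit 201) (nat_lit 5) (nat_lit 214) (nat_lit 5) (nat_lit 202) (nat_lit 5) (nat_lit 339) (nat_lit 312) (nat_lit 294)))) (XT.nd (nat_lit 188) (nat_lit 1176) (nat_lit 0)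 (XT.nd (nat_lit 94) (nat_lit 84) (nat_lit 0) (XT.lf (nat_lit 0) (nat_lit 1741433200) (nat_lit 1092) (nat_lit 3925334730) (nat_lit 1176) (nat_lit 1638941939) (nat_lit 188) (nat_lit 5) (nat_lit 201) (nat_lit 5) (nat_lit 202) (nat_lit 5) (nat_lit 340) (nat_lit 312) (nat_lit 293)) (XT.lf (nat_lit 0) (nat_lit 778768761) (nat_lit 1176) (nat_lit 1369412586) (nat_lit 84) (nat_lit 5233417727) (nat_lit 187) (nat_lit 5) (nat_lit 201) (nat_lit 5) (nat_lit 188) (nat_lit 5) (nat_lit 341) (nat_lit 312) (nat_lit 292))) (XT.nd (nat_lit 94) (nat_lit 0) (nat_lit 0) (XT.lf (nat_lit 0) (nat_lit 2926842603) (nat_lit 1176) (nat_lit 267057241) (nat_lit 1260) (nat_lit 4266799306) (nat_lit 173) (nat_lit 5) (nat_lit 187) (nat_lit 5) (nat_lit 188) (nat_lit 5) (nat_lit 342) (nat_lit 312) (nat_lit 291)) (XT.lf (nat_lit 0) (nat_lit 5642669528) (nat_lit 1260) (nat_lit 244853307) (nat_lit 84) (nat_lit 1655965223) (nat_lit 173)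 (nat_lit 5) (nat_lit 188) (nat_lit 5) (nat_lit 174) (nat_lit 5) (nat_lit 343) (nat_lit 312) (nat_lit 290))))) (XT.nd (nat_lit 376) (nat_lit 1344) (nat_lit 0) (XT.nd (nat_lit 188) (nat_lit 588) (nat_lit 0) (XT.nd (nat_lit 94) (nat_lit 588) (nat_lit 0) (XT.lf (nat_lit 0) (nat_lit 501355838) (nat_lit 1344) (nat_lit 3447672310) (nat_lit 84) (nat_lit 3680450271) (nat_lit 157) (nat_lit 5) (nat_lit 173) (nat_lit 5) (nat_lit 158) (nat_lit 5) (nat_lit 344) (nat_lit 312) (nat_lit 289)) (XT.lf (nat_lit 0) (nat_lit 962417469) (nat_lit 588) (nat_lit 1920427635) (nat_lit 672) (nat_lit 4836413684) (nat_lit 150) (nat_lit 5) (nat_lit 157) (nat_lit 5) (nat_lit 158) (nat_lit 5) (nat_lit 345) (nat_lit 312) (nat_lit 288))) (XT.nd (nat_lit 94) (nat_lit 588) (nat_lit 0) (XT.lf (nat_lit 0) (nat_lit 5307571635) (nat_lit 672) (nat_lit 2304439306) (nat_lit 84) (nat_lit 200702341) (nat_lit 150) (nat_lit 5) (nat_lit 158) (nat_lit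 5) (nat_lit 151) (nat_lit 5) (nat_lit 346) (nat_lit 312) (nat_lit 287)) (XT.lf (nat_lit 0) (nat_lit 2240943200) (nat_lit 588) (nat_lit 5541553504) (nat_lit 672) (nat_lit 127281580) (nat_lit 143) (nat_lit 5) (nat_lit 150) (nat_lit 5) (nat_lit 151) (nat_lit 5) (nat_lit 347) (nat_lit 312) (nat_lit 286)))) (XT.nd (nat_lit 188) (nat_lit 672) (nat_lit 0) (XT.nd (nat_lit 94) (nat_lit 588) (nat_lit 0) (XT.lf (nat_lit 0) (nat_lit 2237486606) (nat_lit 672) (nat_lit 1127716633) (nat_lit 84) (nat_lit 4645179048) (nat_lit 142) (nat_lit 5) (nat_lit 150) (nat_lit 5) (nat_lit 143) (nat_lit 5) (nat_lit 348) (nat_lit 312) (nat_lit 285)) (XT.lf (nat_lit 0) (nat_lit 3553606810) (nat_lit 588) (nat_lit 1090396618) (nat_lit 672) (nat_lit 3470881755) (nat_lit 135) (nat_lit 5) (nat_lit 142) (nat_lit 5) (nat_lit 143) (nat_lit 5) (nat_lit 349) (nat_lit 312) (nat_lit 284))) (XT.nd (nat_lit 94) (nat_lit 84) (nat_lit 0) (XT.lf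 (nat_lit 0) (nat_lit 100766249) (nat_lit 588) (nat_lit 6986787779) (nat_lit 672) (nat_lit 1136140004) (nat_lit 128) (nat_lit 5) (nat_lit 135) (nat_lit 5) (nat_lit 136) (nat_lit 5) (nat_lit 350) (nat_lit 312) (nat_lit 283)) (XT.lf (nat_lit 0) (nat_lit 1241953873) (nat_lit 672) (nat_lit 3427657739) (nat_lit 84) (nat_lit 3665957067) (nat_lit 127) (nat_lit 5) (nat_lit 135) (nat_lit 5) (nat_lit 128) (nat_lit 5) (nat_lit 351) (nat_lit 312) (nat_lit 282)))))) (XT.nd (nat_lit 752) (nat_lit 1680) (nat_lit 0) (XT.nd (nat_lit 376) (nat_lit 1428) (nat_lit 0) (XT.nd (nat_lit 188) (nat_lit 588) (nat_lit 0) (XT.nd (nat_lit 94) (nat_lit 0) (nat_lit 0) (XT.lf (nat_lit 0) (nat_lit 1359676683) (nat_lit 504) (nat_lit 2264427934) (nat_lit 588) (nat_lit 4827797171) (nat_lit 121) (nat_lit 5) (nat_lit 127) (nat_lit 5) (nat_lit 128) (nat_lit 5) (nat_lit 352) (nat_lit 312) (nat_lit 281)) (XT.lf (nat_lit 0) (nat_lit 6058199359)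 (nat_lit 588) (nat_lit 2277359385) (nat_lit 84) (nat_lit 236854838) (nat_lit 121) (nat_lit 5) (nat_lit 128) (nat_lit 5) (nat_lit 122) (nat_lit 5) (nat_lit 353) (nat_lit 312) (nat_lit 280))) (XT.nd (nat_lit 94) (nat_lit 84) (nat_lit 0) (XT.lf (nat_lit 0) (nat_lit 2647922834) (nat_lit 504) (nat_lit 5910391448) (nat_lit 588) (nat_lit 138536602) (nat_lit 115) (nat_lit 5) (nat_lit 121) (nat_lit 5) (nat_lit 122) (nat_lit 5) (nat_lit 354) (nat_lit 312) (nat_lit 279)) (XT.lf (nat_lit 0) (nat_lit 2232081573) (nat_lit 588) (nat_lit 1142940476) (nat_lit 84) (nat_lit 5450366419) (nat_lit 114) (nat_lit 5) (nat_lit 121) (nat_lit 5) (nat_lit 115) (nat_lit 5) (nat_lit 355) (nat_lit 312) (nat_lit 278)))) (XT.nd (nat_lit 188) (nat_lit 1008) (nat_lit 0) (XT.nd (nat_lit 94) (nat_lit 0) (nat_lit 0) (XT.lf (nat_lit 0) (nat_lit 3923436145) (nat_lit 420) (nat_lit 732390896) (nat_lit 504) (nat_lit 4302461776) (nat_lit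 109) (nat_lit 5) (nat_lit 114) (nat_lit 5) (nat_lit 115) (nat_lit 5) (nat_lit 356) (nat_lit 312) (nat_lit 277)) (XT.lf (nat_lit 0) (nat_lit 7131004886) (nat_lit 504) (nat_lit 11764748) (nat_lit 84) (nat_lit 1953133857) (nat_lit 109) (nat_lit 5) (nat_lit 115) (nat_lit 5) (nat_lit 110) (nat_lit 5) (nat_lit 357) (nat_lit 312) (nat_lit 276))) (XT.nd (nat_lit 94) (nat_lit 420) (nat_lit 0) (XT.lf (nat_lit 0) (nat_lit 440777598) (nat_lit 588) (nat_lit 4046812917) (nat_lit 84) (nat_lit 4749813412) (nat_lit 102) (nat_lit 5) (nat_lit 109) (nat_lit 5) (nat_lit 103) (nat_lit 5) (nat_lit 358) (nat_lit 312) (nat_lit 275)) (XT.lf (nat_lit 0) (nat_lit 1106673971) (nat_lit 420) (nat_lit 1732988550) (nat_lit 504) (nat_lit 6544168662) (nat_lit 97) (nat_lit 5) (nat_lit 102) (nat_lit 5) (nat_lit 103) (nat_lit 5) (nat_lit 359) (nat_lit 312) (nat_lit 274))))) (XT.nd (nat_lit 376) (nat_lit 840) (nat_lit 0) (XT.nd (nat_lit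 188) (nat_lit 420) (nat_lit 0) (XT.nd (nat_lit 94) (nat_lit 420) (nat_lit 0) (XT.lf (nat_lit 0) (nat_lit 5312936212) (nat_lit 504) (nat_lit 3109145951) (nat_lit 84) (nat_lit 1112575428) (nat_lit 97) (nat_lit 5) (nat_lit 103) (nat_lit 5) (nat_lit 98) (nat_lit 5) (nat_lit 360) (nat_lit 312) (nat_lit 273)) (XT.lf (nat_lit 0) (nat_lit 2178656452) (nat_lit 420) (nat_lit 5671831183) (nat_lit 504) (nat_lit 1839895466) (nat_lit 92) (nat_lit 5) (nat_lit 97) (nat_lit 5) (nat_lit 98) (nat_lit 5) (nat_lit 361) (nat_lit 312) (nat_lit 272))) (XT.nd (nat_lit 94) (nat_lit 336) (nat_lit 0) (XT.lf (nat_lit 0) (nat_lit 585383133) (nat_lit 504) (nat_lit 2228250789) (nat_lit 84) (nat_lit 7037522847) (nat_lit 91) (nat_lit 5) (nat_lit 97) (nat_lit 5) (nat_lit 92) (nat_lit 5) (nat_lit 362) (nat_lit 312) (nat_lit 271)) (XT.lf (nat_lit 0) (nat_lit 3032451607) (nat_lit 420) (nat_lit 6819683438) (nat_lit 84) (nat_lit 164561942)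 (nat_lit 87) (nat_lit 5) (nat_lit 92) (nat_lit 5) (nat_lit 88) (nat_lit 5) (nat_lit 363) (nat_lit 312) (nat_lit 270)))) (XT.nd (nat_lit 188) (nat_lit 420) (nat_lit 0) (XT.nd (nat_lit 94) (nat_lit 420) (nat_lit 0) (XT.lf (nat_lit 0) (nat_lit 5557824202) (nat_lit 420) (nat_lit 1443879172) (nat_lit 84) (nat_lit 3185421419) (nat_lit 87) (nat_lit 5) (nat_lit 92) (nat_lit 5) (nat_lit 88) (nat_lit 5) (nat_lit 364) (nat_lit 312) (nat_lit 269)) (XT.lf (nat_lit 0) (nat_lit 4115266955) (nat_lit 420) (nat_lit 4038890803) (nat_lit 504) (nat_lit 2208717844) (nat_lit 82) (nat_lit 5) (nat_lit 87) (nat_lit 5) (nat_lit 88) (nat_lit 5) (nat_lit 365) (nat_lit 312) (nat_lit 268))) (XT.nd (nat_lit 94) (nat_lit 336) (nat_lit 0) (XT.lf (nat_lit 0) (nat_lit 249539957) (nat_lit 504) (nat_lit 734160288) (nat_lit 84) (nat_lit 9561060749) (nat_lit 81) (nat_lit 5) (nat_lit 87) (nat_lit 5) (nat_lit 82) (nat_lit 5) (nat_lit 366)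 (nat_lit 312) (nat_lit 267)) (XT.lf (nat_lit 0) (nat_lit 2763373767) (nat_lit 420) (nat_lit 5789942258) (nat_lit 84) (nat_lit 2177404775) (nat_lit 77) (nat_lit 5) (nat_lit 82) (nat_lit 5) (nat_lit 78) (nat_lit 5) (nat_lit 367) (nat_lit 312) (nat_lit 266))))))))
noncomputable def xc19 : XT := (XT.nd (nat_lit 55648) (nat_lit 0) (nat_lit 4788) (XT.nd (nat_lit 1504) (nat_lit 504) (nat_lit 0) (XT.nd (nat_lit 752) (nat_lit 1176) (nat_lit 0) (XT.nd (nat_lit 376) (nat_lit 672) (nat_lit 0) (XT.nd (nat_lit 188) (nat_lit 420) (nat_lit 0) (XT.nd (nat_lit 94) (nat_lit 336) (nat_lit 0) (XT.lf (nat_lit 0) (nat_lit 5327587518) (nat_lit 420) (nat_lit 188361361) (nat_lit 84) (nat_lit 5407120356) (nat_lit 77) (nat_lit 5) (nat_lit 82) (nat_lit 5) (nat_lit 78) (nat_lit 5) (nat_lit 368) (nat_lit 312) (nat_lit 265)) (XT.lf (nat_lit 0) (nat_lit 5635382639) (nat_lit 336) (nat_lit 2346485051) (nat_lit 420) (nat_lit 3138983304)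 (nat_lit 73) (nat_lit 5) (nat_lit 77) (nat_lit 5) (nat_lit 78) (nat_lit 5) (nat_lit 369) (nat_lit 312) (nat_lit 264))) (XT.nd (nat_lit 94) (nat_lit 84) (nat_lit 0) (XT.lf (nat_lit 0) (nat_lit 252855108) (nat_lit 336) (nat_lit 10435586798) (nat_lit 420) (nat_lit 636999740) (nat_lit 69) (nat_lit 5) (nat_lit 73) (nat_lit 5) (nat_lit 74) (nat_lit 5) (nat_lit 370) (nat_lit 312) (nat_lit 263)) (XT.lf (nat_lit 0) (nat_lit 1941044050) (nat_lit 420) (nat_lit 5357890708) (nat_lit 84) (nat_lit 4235562281) (nat_lit 68) (nat_lit 5) (nat_lit 73) (nat_lit 5) (nat_lit 69) (nat_lit 5) (nat_lit 371) (nat_lit 312) (nat_lit 262)))) (XT.nd (nat_lit 188) (nat_lit 336) (nat_lit 0) (XT.nd (nat_lit 94) (nat_lit 0) (nat_lit 0) (XT.lf (nat_lit 0) (nat_lit 476155214) (nat_lit 336) (nat_lit 4072906720) (nat_lit 420) (nat_lit 7201660584) (nat_lit 64) (nat_lit 5) (nat_lit 68) (nat_lit 5) (nat_lit 69) (nat_lit 5) (nat_lit 372)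 (nat_lit 312) (nat_lit 261)) (XT.lf (nat_lit 0) (nat_lit 6540518620) (nat_lit 336) (nat_lit 710380484) (nat_lit 420) (nat_lit 4722117525) (nat_lit 64) (nat_lit 5) (nat_lit 68) (nat_lit 5) (nat_lit 69) (nat_lit 5) (nat_lit 373) (nat_lit 312) (nat_lit 260))) (XT.nd (nat_lit 94) (nat_lit 84) (nat_lit 0) (XT.lf (nat_lit 0) (nat_lit 514440754) (nat_lit 252) (nat_lit 9513206725) (nat_lit 336) (nat_lit 2174564198) (nat_lit 61) (nat_lit 5) (nat_lit 64) (nat_lit 5) (nat_lit 65) (nat_lit 5) (nat_lit 374) (nat_lit 312) (nat_lit 259)) (XT.lf (nat_lit 0) (nat_lit 465695967) (nat_lit 336) (nat_lit 5751612410) (nat_lit 84) (nat_lit 6220138150) (nat_lit 60) (nat_lit 5) (nat_lit 64) (nat_lit 5) (nat_lit 61) (nat_lit 5) (nat_lit 375) (nat_lit 312) (nat_lit 258))))) (XT.nd (nat_lit 376) (nat_lit 588) (nat_lit 0) (XT.nd (nat_lit 188) (nat_lit 252) (nat_lit 0) (XT.nd (nat_lit 94) (nat_lit 0) (nat_lit 0) (XT.lf (nat_lit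 0) (nat_lit 294193277) (nat_lit 336) (nat_lit 2813796666) (nat_lit 420) (nat_lit 9572150333) (nat_lit 56) (nat_lit 5) (nat_lit 60) (nat_lit 5) (nat_lit 61) (nat_lit 5) (nat_lit 376) (nat_lit 312) (nat_lit 257)) (XT.lf (nat_lit 0) (nat_lit 5858961073) (nat_lit 420) (nat_lit 6349411063) (nat_lit 84) (nat_lit 720902917) (nat_lit 56) (nat_lit 5) (nat_lit 61) (nat_lit 5) (nat_lit 57) (nat_lit 5) (nat_lit 377) (nat_lit 312) (nat_lit 256))) (XT.nd (nat_lit 94) (nat_lit 252) (nat_lit 0) (XT.lf (nat_lit 0) (nat_lit 8685469327) (nat_lit 420) (nat_lit 211181069) (nat_lit 84) (nat_lit 4289484467) (nat_lit 56) (nat_lit 5) (nat_lit 61) (nat_lit 5) (nat_lit 57) (nat_lit 5) (nat_lit 378) (nat_lit 312) (nat_lit 255)) (XT.lf (nat_lit 0) (nat_lit 6181783276) (nat_lit 252) (nat_lit 5440576341) (nat_lit 336) (nat_lit 1827613275) (nat_lit 53) (nat_lit 5) (nat_lit 56) (nat_lit 5) (nat_lit 57) (nat_lit 5) (nat_lit 379)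 (nat_lit 312) (nat_lit 254)))) (XT.nd (nat_lit 188) (nat_lit 252) (nat_lit 0) (XT.nd (nat_lit 94) (nat_lit 252) (nat_lit 0) (XT.lf (nat_lit 0) (nat_lit 876026638) (nat_lit 336) (nat_lit 1009974504) (nat_lit 84) (nat_lit 11836441964) (nat_lit 52) (nat_lit 5) (nat_lit 56) (nat_lit 5) (nat_lit 53) (nat_lit 5) (nat_lit 380) (nat_lit 312) (nat_lit 253)) (XT.lf (nat_lit 0) (nat_lit 3661577149) (nat_lit 336) (nat_lit 8543641479) (nat_lit 84) (nat_lit 1796236537) (nat_lit 49) (nat_lit 5) (nat_lit 53) (nat_lit 5) (nat_lit 50) (nat_lit 5) (nat_lit 381) (nat_lit 312) (nat_lit 252))) (XT.nd (nat_lit 94) (nat_lit 252) (nat_lit 0) (XT.lf (nat_lit 0) (nat_lit 6527287143) (nat_lit 336) (nat_lit 2216131403) (nat_lit 84) (nat_lit 5545556815) (nat_lit 49) (nat_lit 5) (nat_lit 53) (nat_lit 5) (nat_lit 50) (nat_lit 5) (nat_lit 382) (nat_lit 312) (nat_lit 251)) (XT.lf (nat_lit 0) (nat_lit 4338123838) (nat_lit 252) (nat_lit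 5151108355) (nat_lit 336) (nat_lit 5095615586) (nat_lit 46) (nat_lit 5) (nat_lit 49) (nat_lit 5) (nat_lit 50) (nat_lit 5) (nat_lit 383) (nat_lit 312) (nat_lit 250)))))) (XT.nd (nat_lit 53392) (nat_lit 0) (nat_lit 18648) (XT.nd (nat_lit 376) (nat_lit 0) (nat_lit 0) (XT.nd (nat_lit 188) (nat_lit 168) (nat_lit 0) (XT.nd (nat_lit 94) (nat_lit 336) (nat_lit 0) (XT.lf (nat_lit 0) (nat_lit 11087170667) (nat_lit 252) (nat_lit 1444267870) (nat_lit 336) (nat_lit 2358449269) (nat_lit 46) (nat_lit 5) (nat_lit 49) (nat_lit 5) (nat_lit 50) (nat_lit 5) (nat_lit 384) (nat_lit 312) (nat_lit 249)) (XT.lf (nat_lit 0) (nat_lit 471704478) (nat_lit 336) (nat_lit 12387992771) (nat_lit 84) (nat_lit 2343684539) (nat_lit 42) (nat_lit 5) (nat_lit 46) (nat_lit 5) (nat_lit 43) (nat_lit 5) (nat_lit 385) (nat_lit 312) (nat_lit 248))) (XT.nd (nat_lit 94) (nat_lit 168) (nat_lit 0) (XT.lf (nat_lit 0) (nat_lit 3362324951) (nat_lit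 336) (nat_lit 5900012282) (nat_lit 84) (nat_lit 6262584568) (nat_lit 42) (nat_lit 5) (nat_lit 46) (nat_lit 5) (nat_lit 43) (nat_lit 5) (nat_lit 386) (nat_lit 312) (nat_lit 247)) (XT.lf (nat_lit 0) (nat_lit 751799135) (nat_lit 168) (nat_lit 5565853542) (nat_lit 252) (nat_lit 9539145464) (nat_lit 40) (nat_lit 5) (nat_lit 42) (nat_lit 5) (nat_lit 43) (nat_lit 5) (nat_lit 387) (nat_lit 312) (nat_lit 246)))) (XT.nd (nat_lit 52828) (nat_lit 0) (nat_lit 20412) (XT.nd (nat_lit 94) (nat_lit 0) (nat_lit 0) (XT.lf (nat_lit 0) (nat_lit 7679076437) (nat_lit 168) (nat_lit 1713322950) (nat_lit 252) (nat_lit 6805337526) (nat_lit 40) (nat_lit 5) (nat_lit 42) (nat_lit 5) (nat_lit 43) (nat_lit 5) (nat_lit 388) (nat_lit 312) (nat_lit 245)) (XT.lf (nat_lit 0) (nat_lit 12552931541) (nat_lit 252) (nat_lit 1800843597) (nat_lit 84) (nat_lit 2195350495) (nat_lit 40) (nat_lit 5) (nat_lit 43) (nat_lit 5) (nat_lit 41) (nat_lit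 5) (nat_lit 389) (nat_lit 312) (nat_lit 244))) (XT.nd (nat_lit 94) (nat_lit 252) (nat_lit 0) (XT.lf (nat_lit 0) (nat_lit 2796247982) (nat_lit 84) (nat_lit 216960607) (nat_lit 84) (nat_lit 216960607) (nat_lit 286) (nat_lit 4) (nat_lit 287) (nat_lit 5) (nat_lit 287) (nat_lit 4) (nat_lit 319) (nat_lit 313) (nat_lit 313)) (XT.lf (nat_lit 0) (nat_lit 2291916495) (nat_lit 168) (nat_lit 136205582) (nat_lit 252) (nat_lit 4042588646) (nat_lit 283) (nat_lit 5) (nat_lit 285) (nat_lit 5) (nat_lit 286) (nat_lit 4) (nat_lit 320) (nat_lit 313) (nat_lit 312))))) (XT.nd (nat_lit 376) (nat_lit 1008) (nat_lit 0) (XT.nd (nat_lit 188) (nat_lit 420) (nat_lit 0) (XT.nd (nat_lit 94) (nat_lit 336) (nat_lit 0) (XT.lf (nat_lit 0) (nat_lit 5271224777) (nat_lit 252) (nat_lit 988202318) (nat_lit 0) (nat_lit 225077370) (nat_lit 283) (nat_lit 5) (nat_lit 286) (nat_lit 4) (nat_lit 283) (nat_lit 4) (nat_lit 321) (nat_lit 313) (nat_lit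 311)) (XT.lf (nat_lit 0) (nat_lit 1586362828) (nat_lit 336) (nat_lit 4239216205) (nat_lit 84) (nat_lit 675419368) (nat_lit 279) (nat_lit 5) (nat_lit 283) (nat_lit 5) (nat_lit 280) (nat_lit 4) (nat_lit 322) (nat_lit 313) (nat_lit 310))) (XT.nd (nat_lit 94) (nat_lit 420) (nat_lit 0) (XT.lf (nat_lit 0) (nat_lit 4353301205) (nat_lit 336) (nat_lit 965423862) (nat_lit 84) (nat_lit 1201997384) (nat_lit 279) (nat_lit 5) (nat_lit 283) (nat_lit 5) (nat_lit 280) (nat_lit 4) (nat_lit 323) (nat_lit 313) (nat_lit 309)) (XT.lf (nat_lit 0) (nat_lit 571790475) (nat_lit 420) (nat_lit 4159285199) (nat_lit 84) (nat_lit 1812404196) (nat_lit 274) (nat_lit 5) (nat_lit 279) (nat_lit 5) (nat_lit 275) (nat_lit 5) (nat_lit 324) (nat_lit 313) (nat_lit 308)))) (XT.nd (nat_lit 188) (nat_lit 588) (nat_lit 0) (XT.nd (nat_lit 94) (nat_lit 420) (nat_lit 0) (XT.lf (nat_lit 0) (nat_lit 3261087647) (nat_lit 420) (nat_lit 798978659)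 (nat_lit 84) (nat_lit 2509164498) (nat_lit 274) (nat_lit 5) (nat_lit 279) (nat_lit 5) (nat_lit 275) (nat_lit 5) (nat_lit 325) (nat_lit 313) (nat_lit 307)) (XT.lf (nat_lit 0) (nat_lit 2650867995) (nat_lit 420) (nat_lit 3310169454) (nat_lit 504) (nat_lit 637107648) (nat_lit 269) (nat_lit 5) (nat_lit 274) (nat_lit 5) (nat_lit 275) (nat_lit 5) (nat_lit 326) (nat_lit 313) (nat_lit 306))) (XT.nd (nat_lit 94) (nat_lit 504) (nat_lit 0) (XT.lf (nat_lit 0) (nat_lit 1986428011) (nat_lit 504) (nat_lit 492032050) (nat_lit 84) (nat_lit 4151721843) (nat_lit 268) (nat_lit 5) (nat_lit 274) (nat_lit 5) (nat_lit 269) (nat_lit 5) (nat_lit 327) (nat_lit 313) (nat_lit 305)) (XT.lf (nat_lit 0) (nat_lit 3057572143) (nat_lit 504) (nat_lit 1555910793) (nat_lit 588) (nat_lit 2051644517) (nat_lit 262) (nat_lit 5) (nat_lit 268) (nat_lit 5) (nat_lit 269) (nat_lit 5) (nat_lit 328) (nat_lit 313) (nat_lit 304))))))) (XT.nd (nat_lit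 1504) (nat_lit 5040) (nat_lit 0) (XT.nd (nat_lit 752) (nat_lit 5712) (nat_lit 0) (XT.nd (nat_lit 376) (nat_lit 1680) (nat_lit 0) (XT.nd (nat_lit 188) (nat_lit 756) (nat_lit 0) (XT.nd (nat_lit 94) (nat_lit 588) (nat_lit 0) (XT.lf (nat_lit 0) (nat_lit 520345083) (nat_lit 588) (nat_lit 47311882) (nat_lit 84) (nat_lit 6136110889) (nat_lit 261) (nat_lit 5) (nat_lit 268) (nat_lit 5) (nat_lit 262) (nat_lit 5) (nat_lit 329) (nat_lit 313) (nat_lit 303)) (XT.lf (nat_lit 0) (nat_lit 3079867551) (nat_lit 672) (nat_lit 3142337051) (nat_lit 84) (nat_lit 522448098) (nat_lit 254) (nat_lit 5) (nat_lit 262) (nat_lit 5) (nat_lit 255) (nat_lit 5) (nat_lit 330) (nat_lit 313) (nat_lit 302))) (XT.nd (nat_lit 94) (nat_lit 84) (nat_lit 0) (XT.lf (nat_lit 0) (nat_lit 515404534) (nat_lit 672) (nat_lit 5125849926) (nat_lit 756) (nat_lit 1147993098) (nat_lit 246) (nat_lit 5) (nat_lit 254) (nat_lit 5) (nat_lit 255) (nat_lit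 5) (nat_lit 331) (nat_lit 313) (nat_lit 301)) (XT.lf (nat_lit 0) (nat_lit 1363017824) (nat_lit 756) (nat_lit 2567095450) (nat_lit 84) (nat_lit 2906465816) (nat_lit 245) (nat_lit 5) (nat_lit 254) (nat_lit 5) (nat_lit 246) (nat_lit 5) (nat_lit 332) (nat_lit 313) (nat_lit 300)))) (XT.nd (nat_lit 188) (nat_lit 924) (nat_lit 0) (XT.nd (nat_lit 94) (nat_lit 0) (nat_lit 0) (XT.lf (nat_lit 0) (nat_lit 1198840588) (nat_lit 756) (nat_lit 2656302003) (nat_lit 840) (nat_lit 3032197097) (nat_lit 236) (nat_lit 5) (nat_lit 245) (nat_lit 5) (nat_lit 246) (nat_lit 5) (nat_lit 333) (nat_lit 313) (nat_lit 299)) (XT.lf (nat_lit 0) (nat_lit 5066964114) (nat_lit 756) (nat_lit 1300120875) (nat_lit 840) (nat_lit 574396032) (nat_lit 236) (nat_lit 5) (nat_lit 245) (nat_lit 5) (nat_lit 246) (nat_lit 5) (nat_lit 334) (nat_lit 313) (nat_lit 298))) (XT.nd (nat_lit 94) (nat_lit 0) (nat_lit 0) (XT.lf (nat_lit 0) (nat_lit 1860251539)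 (nat_lit 924) (nat_lit 4989180635) (nat_lit 84) (nat_lit 149208429) (nat_lit 225) (nat_lit 5) (nat_lit 236) (nat_lit 5) (nat_lit 226) (nat_lit 5) (nat_lit 335) (nat_lit 313) (nat_lit 297)) (XT.lf (nat_lit 0) (nat_lit 4310749422) (nat_lit 924) (nat_lit 1092706982) (nat_lit 84) (nat_lit 1655449038) (nat_lit 225) (nat_lit 5) (nat_lit 236) (nat_lit 5) (nat_lit 226) (nat_lit 5) (nat_lit 336) (nat_lit 313) (nat_lit 296))))) (XT.nd (nat_lit 376) (nat_lit 2604) (nat_lit 0) (XT.nd (nat_lit 188) (nat_lit 2100) (nat_lit 0) (XT.nd (nat_lit 94) (nat_lit 84) (nat_lit 0) (XT.lf (nat_lit 0) (nat_lit 2914034083) (nat_lit 924) (nat_lit 3873367627) (nat_lit 1008) (nat_lit 335183501) (nat_lit 214) (nat_lit 5) (nat_lit 225) (nat_lit 5) (nat_lit 226) (nat_lit 5) (nat_lit 337) (nat_lit 313) (nat_lit 295)) (XT.lf (nat_lit 0) (nat_lit 2044675167) (nat_lit 1008) (nat_lit 209775200) (nat_lit 84) (nat_lit 4935186779) (nat_lit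 213) (nat_lit 5) (nat_lit 225) (nat_lit 5) (nat_lit 214) (nat_lit 5) (nat_lit 338) (nat_lit 313) (nat_lit 294))) (XT.nd (nat_lit 94) (nat_lit 1092) (nat_lit 0) (XT.lf (nat_lit 0) (nat_lit 3919478422) (nat_lit 1008) (nat_lit 534877388) (nat_lit 1092) (nat_lit 2805460748) (nat_lit 201) (nat_lit 5) (nat_lit 213) (nat_lit 5) (nat_lit 214) (nat_lit 5) (nat_lit 339) (nat_lit 313) (nat_lit 293)) (XT.lf (nat_lit 0) (nat_lit 783845461) (nat_lit 1092) (nat_lit 6103127919) (nat_lit 1176) (nat_lit 446773986) (nat_lit 188) (nat_lit 5) (nat_lit 201) (nat_lit 5) (nat_lit 202) (nat_lit 5) (nat_lit 340) (nat_lit 313) (nat_lit 292)))) (XT.nd (nat_lit 188) (nat_lit 1344) (nat_lit 0) (XT.nd (nat_lit 94) (nat_lit 1176) (nat_lit 0) (XT.lf (nat_lit 0) (nat_lit 1913040499) (nat_lit 1176) (nat_lit 2398685309) (nat_lit 84) (nat_lit 3098682753) (nat_lit 187) (nat_lit 5) (nat_lit 201) (nat_lit 5) (nat_lit 188) (nat_lit 5)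 (nat_lit 341) (nat_lit 313) (nat_lit 291)) (XT.lf (nat_lit 0) (nat_lit 1845213260) (nat_lit 1176) (nat_lit 2438937035) (nat_lit 1260) (nat_lit 3206753548) (nat_lit 173) (nat_lit 5) (nat_lit 187) (nat_lit 5) (nat_lit 188) (nat_lit 5) (nat_lit 342) (nat_lit 313) (nat_lit 290))) (XT.nd (nat_lit 94) (nat_lit 1344) (nat_lit 0) (XT.lf (nat_lit 0) (nat_lit 6202783648) (nat_lit 1176) (nat_lit 480959262) (nat_lit 1260) (nat_lit 891497549) (nat_lit 173) (nat_lit 5) (nat_lit 187) (nat_lit 5) (nat_lit 188) (nat_lit 5) (nat_lit 343) (nat_lit 313) (nat_lit 289)) (XT.lf (nat_lit 0) (nat_lit 1442536461) (nat_lit 1344) (nat_lit 4667198718) (nat_lit 84) (nat_lit 1552726159) (nat_lit 157) (nat_lit 5) (nat_lit 173) (nat_lit 5) (nat_lit 158) (nat_lit 5) (nat_lit 344) (nat_lit 313) (nat_lit 288)))))) (XT.nd (nat_lit 752) (nat_lit 2520) (nat_lit 0) (XT.nd (nat_lit 376) (nat_lit 1260) (nat_lit 0) (XT.nd (nat_lit 188)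 (nat_lit 672) (nat_lit 0) (XT.nd (nat_lit 94) (nat_lit 588) (nat_lit 0) (XT.lf (nat_lit 0) (nat_lit 3783068355) (nat_lit 1344) (nat_lit 307372524) (nat_lit 84) (nat_lit 3663095801) (nat_lit 157) (nat_lit 5) (nat_lit 173) (nat_lit 5) (nat_lit 158) (nat_lit 5) (nat_lit 345) (nat_lit 313) (nat_lit 287)) (XT.lf (nat_lit 0) (nat_lit 4203218674) (nat_lit 588) (nat_lit 1968512867) (nat_lit 672) (nat_lit 1676405857) (nat_lit 150) (nat_lit 5) (nat_lit 157) (nat_lit 5) (nat_lit 158) (nat_lit 5) (nat_lit 346) (nat_lit 313) (nat_lit 286))) (XT.nd (nat_lit 94) (nat_lit 0) (nat_lit 0) (XT.lf (nat_lit 0) (nat_lit 624724649) (nat_lit 672) (nat_lit 7092030926) (nat_lit 84) (nat_lit 230196420) (nat_lit 142) (nat_lit 5) (nat_lit 150) (nat_lit 5) (nat_lit 143) (nat_lit 5) (nat_lit 347) (nat_lit 313) (nat_lit 285)) (XT.lf (nat_lit 0) (nat_lit 2957060533) (nat_lit 672) (nat_lit 2583718257) (nat_lit 84) (nat_lit 2507697824)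 (nat_lit 142) (nat_lit 5) (nat_lit 150) (nat_lit 5) (nat_lit 143) (nat_lit 5) (nat_lit 348) (nat_lit 313) (nat_lit 284)))) (XT.nd (nat_lit 188) (nat_lit 672) (nat_lit 0) (XT.nd (nat_lit 94) (nat_lit 0) (nat_lit 0) (XT.lf (nat_lit 0) (nat_lit 2037355255) (nat_lit 588) (nat_lit 3282570670) (nat_lit 672) (nat_lit 2834420278) (nat_lit 135) (nat_lit 5) (nat_lit 142) (nat_lit 5) (nat_lit 143) (nat_lit 5) (nat_lit 349) (nat_lit 313) (nat_lit 283)) (XT.lf (nat_lit 0) (nat_lit 6788390231) (nat_lit 588) (nat_lit 933479365) (nat_lit 672) (nat_lit 542589148) (nat_lit 135) (nat_lit 5) (nat_lit 142) (nat_lit 5) (nat_lit 143) (nat_lit 5) (nat_lit 350) (nat_lit 313) (nat_lit 282))) (XT.nd (nat_lit 94) (nat_lit 0) (nat_lit 0) (XT.lf (nat_lit 0) (nat_lit 1771999377) (nat_lit 672) (nat_lit 5103222155) (nat_lit 84) (nat_lit 1502550684) (nat_lit 127) (nat_lit 5) (nat_lit 135) (nat_lit 5) (nat_lit 128) (nat_lit 5) (nat_lit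 351) (nat_lit 313) (nat_lit 281)) (XT.lf (nat_lit 0) (nat_lit 4113570055) (nat_lit 672) (nat_lit 373065577) (nat_lit 84) (nat_lit 4008737870) (nat_lit 127) (nat_lit 5) (nat_lit 135) (nat_lit 5) (nat_lit 128) (nat_lit 5) (nat_lit 352) (nat_lit 313) (nat_lit 280))))) (XT.nd (nat_lit 376) (nat_lit 1008) (nat_lit 0) (XT.nd (nat_lit 188) (nat_lit 420) (nat_lit 0) (XT.nd (nat_lit 94) (nat_lit 588) (nat_lit 0) (XT.lf (nat_lit 0) (nat_lit 4526933761) (nat_lit 504) (nat_lit 1987750967) (nat_lit 588) (nat_lit 2102239268) (nat_lit 121) (nat_lit 5) (nat_lit 127) (nat_lit 5) (nat_lit 128) (nat_lit 5) (nat_lit 353) (nat_lit 313) (nat_lit 279)) (XT.lf (nat_lit 0) (nat_lit 204196587) (nat_lit 588) (nat_lit 7957470003) (nat_lit 84) (nat_lit 581579501) (nat_lit 114) (nat_lit 5) (nat_lit 121) (nat_lit 5) (nat_lit 115) (nat_lit 5) (nat_lit 354) (nat_lit 313) (nat_lit 278))) (XT.nd (nat_lit 94) (nat_lit 420) (nat_lit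 0) (XT.lf (nat_lit 0) (nat_lit 2546041823) (nat_lit 588) (nat_lit 3083345803) (nat_lit 84) (nat_lit 3243183302) (nat_lit 114) (nat_lit 5) (nat_lit 121) (nat_lit 5) (nat_lit 115) (nat_lit 5) (nat_lit 355) (nat_lit 313) (nat_lit 277)) (XT.lf (nat_lit 0) (nat_lit 1914180604) (nat_lit 420) (nat_lit 3010982211) (nat_lit 504) (nat_lit 4081690997) (nat_lit 109) (nat_lit 5) (nat_lit 114) (nat_lit 5) (nat_lit 115) (nat_lit 5) (nat_lit 356) (nat_lit 313) (nat_lit 276)))) (XT.nd (nat_lit 188) (nat_lit 420) (nat_lit 0) (XT.nd (nat_lit 94) (nat_lit 588) (nat_lit 0) (XT.lf (nat_lit 0) (nat_lit 7065254234) (nat_lit 420) (nat_lit 291082815) (nat_lit 504) (nat_lit 1789494068) (nat_lit 109) (nat_lit 5) (nat_lit 114) (nat_lit 5) (nat_lit 115) (nat_lit 5) (nat_lit 357) (nat_lit 313) (nat_lit 275)) (XT.lf (nat_lit 0) (nat_lit 564735614) (nat_lit 588) (nat_lit 6236355974) (nat_lit 84) (nat_lit 2487670178) (nat_lit 102)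 (nat_lit 5) (nat_lit 109) (nat_lit 5) (nat_lit 103) (nat_lit 5) (nat_lit 358) (nat_lit 313) (nat_lit 274))) (XT.nd (nat_lit 94) (nat_lit 420) (nat_lit 0) (XT.lf (nat_lit 0) (nat_lit 2928960770) (nat_lit 588) (nat_lit 1133914949) (nat_lit 84) (nat_lit 5373392012) (nat_lit 102) (nat_lit 5) (nat_lit 109) (nat_lit 5) (nat_lit 103) (nat_lit 5) (nat_lit 359) (nat_lit 313) (nat_lit 273)) (XT.lf (nat_lit 0) (nat_lit 4144428482) (nat_lit 420) (nat_lit 1212179163) (nat_lit 504) (nat_lit 4231893081) (nat_lit 97) (nat_lit 5) (nat_lit 102) (nat_lit 5) (nat_lit 103) (nat_lit 5) (nat_lit 360) (nat_lit 313) (nat_lit 272))))))))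
noncomputable def xc20 : XT := (XT.nd (nat_lit 55366) (nat_lit 0) (nat_lit 7896) (XT.nd (nat_lit 1410) (nat_lit 1764) (nat_lit 0) (XT.nd (nat_lit 658) (nat_lit 1344) (nat_lit 0) (XT.nd (nat_lit 282) (nat_lit 840) (nat_lit 0) (XT.nd (nat_lit 94) (nat_lit 840) (nat_lit 0) (XT.lf (nat_lit 0) (nat_lit 7838597447) (nat_lit 504) (nat_lit 216115872) (nat_lit 84) (nat_lit 1691216449) (nat_lit 97) (nat_lit 5) (nat_lit 103) (nat_lit 5) (nat_lit 98) (nat_lit 5) (nat_lit 361) (nat_lit 313) (nat_lit 271)) (XT.nd (nat_lit 94) (nat_lit 336) (nat_lit 0) (XT.lf (nat_lit 0) (nat_lit 494290244) (nat_lit 504) (nat_lit 4711454874) (nat_lit 84) (nat_lit 4701761501) (nat_lit 91) (nat_lit 5) (nat_lit 97) (nat_lit 5) (nat_lit 92) (nat_lit 5) (nat_lit 362) (nat_lit 313) (nat_lit 270)) (XT.lf (nat_lit 0) (nat_lit 637147138) (nat_lit 336) (nat_lit 2255808058) (nat_lit 420) (nat_lit 7181577316) (nat_lit 87) (nat_lit 5) (nat_lit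 91) (nat_lit 5) (nat_lit 92) (nat_lit 5) (nat_lit 363) (nat_lit 313) (nat_lit 269)))) (XT.nd (nat_lit 188) (nat_lit 420) (nat_lit 0) (XT.nd (nat_lit 94) (nat_lit 420) (nat_lit 0) (XT.lf (nat_lit 0) (nat_lit 5374792018) (nat_lit 420) (nat_lit 4068584559) (nat_lit 84) (nat_lit 802922406) (nat_lit 87) (nat_lit 5) (nat_lit 92) (nat_lit 5) (nat_lit 88) (nat_lit 5) (nat_lit 364) (nat_lit 313) (nat_lit 268)) (XT.lf (nat_lit 0) (nat_lit 1409918379) (nat_lit 420) (nat_lit 6513986618) (nat_lit 504) (nat_lit 2499593055) (nat_lit 82) (nat_lit 5) (nat_lit 87) (nat_lit 5) (nat_lit 88) (nat_lit 5) (nat_lit 365) (nat_lit 313) (nat_lit 267))) (XT.nd (nat_lit 94) (nat_lit 420) (nat_lit 0) (XT.lf (nat_lit 0) (nat_lit 7080192959) (nat_lit 420) (nat_lit 3468032656) (nat_lit 504) (nat_lit 57887812) (nat_lit 82) (nat_lit 5) (nat_lit 87) (nat_lit 5) (nat_lit 88) (nat_lit 5) (nat_lit 366) (nat_lit 313) (nat_lit 266)) (XT.lf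 (nat_lit 0) (nat_lit 2088257927) (nat_lit 336) (nat_lit 299354584) (nat_lit 420) (nat_lit 8406590265) (nat_lit 77) (nat_lit 5) (nat_lit 81) (nat_lit 5) (nat_lit 82) (nat_lit 5) (nat_lit 367) (nat_lit 313) (nat_lit 265))))) (XT.nd (nat_lit 376) (nat_lit 588) (nat_lit 0) (XT.nd (nat_lit 188) (nat_lit 420) (nat_lit 0) (XT.nd (nat_lit 94) (nat_lit 336) (nat_lit 0) (XT.lf (nat_lit 0) (nat_lit 4928736498) (nat_lit 420) (nat_lit 3128999150) (nat_lit 84) (nat_lit 2929536370) (nat_lit 77) (nat_lit 5) (nat_lit 82) (nat_lit 5) (nat_lit 78) (nat_lit 5) (nat_lit 368) (nat_lit 313) (nat_lit 264)) (XT.lf (nat_lit 0) (nat_lit 2608977348) (nat_lit 336) (nat_lit 4925324181) (nat_lit 420) (nat_lit 3652240997) (nat_lit 73) (nat_lit 5) (nat_lit 77) (nat_lit 5) (nat_lit 78) (nat_lit 5) (nat_lit 369) (nat_lit 313) (nat_lit 263))) (XT.nd (nat_lit 94) (nat_lit 420) (nat_lit 0) (XT.lf (nat_lit 0) (nat_lit 8529541957) (nat_lit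 336) (nat_lit 1680896779) (nat_lit 420) (nat_lit 1181634051) (nat_lit 73) (nat_lit 5) (nat_lit 77) (nat_lit 5) (nat_lit 78) (nat_lit 5) (nat_lit 370) (nat_lit 313) (nat_lit 262)) (XT.lf (nat_lit 0) (nat_lit 1343256414) (nat_lit 420) (nat_lit 8603179377) (nat_lit 84) (nat_lit 1656787863) (nat_lit 68) (nat_lit 5) (nat_lit 73) (nat_lit 5) (nat_lit 69) (nat_lit 5) (nat_lit 371) (nat_lit 313) (nat_lit 261)))) (XT.nd (nat_lit 188) (nat_lit 252) (nat_lit 0) (XT.nd (nat_lit 94) (nat_lit 336) (nat_lit 0) (XT.lf (nat_lit 0) (nat_lit 3927977393) (nat_lit 420) (nat_lit 2804765459) (nat_lit 84) (nat_lit 5087429438) (nat_lit 68) (nat_lit 5) (nat_lit 73) (nat_lit 5) (nat_lit 69) (nat_lit 5) (nat_lit 372) (nat_lit 313) (nat_lit 260)) (XT.lf (nat_lit 0) (nat_lit 3177695351) (nat_lit 336) (nat_lit 3406196220) (nat_lit 420) (nat_lit 5459976066) (nat_lit 64) (nat_lit 5) (nat_lit 68) (nat_lit 5) (nat_lit 69) (nat_lit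 5) (nat_lit 373) (nat_lit 313) (nat_lit 259))) (XT.nd (nat_lit 94) (nat_lit 252) (nat_lit 0) (XT.lf (nat_lit 0) (nat_lit 9311820904) (nat_lit 420) (nat_lit 2929168927) (nat_lit 84) (nat_lit 33560283) (nat_lit 64) (nat_lit 5) (nat_lit 69) (nat_lit 5) (nat_lit 65) (nat_lit 5) (nat_lit 374) (nat_lit 313) (nat_lit 258)) (XT.lf (nat_lit 0) (nat_lit 3163073250) (nat_lit 252) (nat_lit 8987247902) (nat_lit 336) (nat_lit 361014976) (nat_lit 61) (nat_lit 5) (nat_lit 64) (nat_lit 5) (nat_lit 65) (nat_lit 5) (nat_lit 375) (nat_lit 313) (nat_lit 257)))))) (XT.nd (nat_lit 752) (nat_lit 504) (nat_lit 0) (XT.nd (nat_lit 376) (nat_lit 588) (nat_lit 0) (XT.nd (nat_lit 188) (nat_lit 252) (nat_lit 0) (XT.nd (nat_lit 94) (nat_lit 336) (nat_lit 0) (XT.lf (nat_lit 0) (nat_lit 2268137005) (nat_lit 336) (nat_lit 3329907257) (nat_lit 84) (nat_lit 7156716243) (nat_lit 60) (nat_lit 5) (nat_lit 64) (nat_lit 5) (nat_lit 61)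 (nat_lit 5) (nat_lit 376) (nat_lit 313) (nat_lit 256)) (XT.lf (nat_lit 0) (nat_lit 2871838743) (nat_lit 336) (nat_lit 2090462759) (nat_lit 420) (nat_lit 8043318289) (nat_lit 56) (nat_lit 5) (nat_lit 60) (nat_lit 5) (nat_lit 61) (nat_lit 5) (nat_lit 377) (nat_lit 313) (nat_lit 255))) (XT.nd (nat_lit 94) (nat_lit 252) (nat_lit 0) (XT.lf (nat_lit 0) (nat_lit 7752046825) (nat_lit 420) (nat_lit 4000107187) (nat_lit 84) (nat_lit 1511448196) (nat_lit 56) (nat_lit 5) (nat_lit 61) (nat_lit 5) (nat_lit 57) (nat_lit 5) (nat_lit 378) (nat_lit 313) (nat_lit 254)) (XT.lf (nat_lit 0) (nat_lit 2293040836) (nat_lit 252) (nat_lit 8342332662) (nat_lit 336) (nat_lit 2893692791) (nat_lit 53) (nat_lit 5) (nat_lit 56) (nat_lit 5) (nat_lit 57) (nat_lit 5) (nat_lit 379) (nat_lit 313) (nat_lit 253)))) (XT.nd (nat_lit 188) (nat_lit 252) (nat_lit 0) (XT.nd (nat_lit 94) (nat_lit 336) (nat_lit 0) (XT.lf (nat_lit 0) (nat_lit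 8808874001) (nat_lit 252) (nat_lit 4804362819) (nat_lit 336) (nat_lit 189054099) (nat_lit 53) (nat_lit 5) (nat_lit 56) (nat_lit 5) (nat_lit 57) (nat_lit 5) (nat_lit 380) (nat_lit 313) (nat_lit 252)) (XT.lf (nat_lit 0) (nat_lit 1391283473) (nat_lit 252) (nat_lit 1136381796) (nat_lit 336) (nat_lit 11555885355) (nat_lit 49) (nat_lit 5) (nat_lit 52) (nat_lit 5) (nat_lit 53) (nat_lit 5) (nat_lit 381) (nat_lit 313) (nat_lit 251))) (XT.nd (nat_lit 94) (nat_lit 252) (nat_lit 0) (XT.lf (nat_lit 0) (nat_lit 5366965487) (nat_lit 336) (nat_lit 6377347054) (nat_lit 84) (nat_lit 2627567582) (nat_lit 49) (nat_lit 5) (nat_lit 53) (nat_lit 5) (nat_lit 50) (nat_lit 5) (nat_lit 382) (nat_lit 313) (nat_lit 250)) (XT.lf (nat_lit 0) (nat_lit 70808786) (nat_lit 252) (nat_lit 8202046582) (nat_lit 336) (nat_lit 6396595341) (nat_lit 46) (nat_lit 5) (nat_lit 49) (nat_lit 5) (nat_lit 50) (nat_lit 5) (nat_lit 383) (nat_lit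 313) (nat_lit 249))))) (XT.nd (nat_lit 376) (nat_lit 168) (nat_lit 0) (XT.nd (nat_lit 188) (nat_lit 336) (nat_lit 0) (XT.nd (nat_lit 94) (nat_lit 0) (nat_lit 0) (XT.lf (nat_lit 0) (nat_lit 6797250711) (nat_lit 252) (nat_lit 4502996499) (nat_lit 336) (nat_lit 3674703992) (nat_lit 46) (nat_lit 5) (nat_lit 49) (nat_lit 5) (nat_lit 50) (nat_lit 5) (nat_lit 384) (nat_lit 313) (nat_lit 248)) (XT.lf (nat_lit 0) (nat_lit 13680934484) (nat_lit 252) (nat_lit 708328812) (nat_lit 336) (nat_lit 901260939) (nat_lit 46) (nat_lit 5) (nat_lit 49) (nat_lit 5) (nat_lit 50) (nat_lit 5) (nat_lit 385) (nat_lit 313) (nat_lit 247))) (XT.nd (nat_lit 94) (nat_lit 0) (nat_lit 0) (XT.lf (nat_lit 0) (nat_lit 1969797946) (nat_lit 336) (nat_lit 10451415646) (nat_lit 84) (nat_lit 3192239686) (nat_lit 42) (nat_lit 5) (nat_lit 46) (nat_lit 5) (nat_lit 43) (nat_lit 5) (nat_lit 386) (nat_lit 313) (nat_lit 246)) (XT.lf (nat_lit 0)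 (nat_lit 4903915412) (nat_lit 336) (nat_lit 3836025361) (nat_lit 84) (nat_lit 7206039398) (nat_lit 42) (nat_lit 5) (nat_lit 46) (nat_lit 5) (nat_lit 43) (nat_lit 5) (nat_lit 387) (nat_lit 313) (nat_lit 245)))) (XT.nd (nat_lit 52640) (nat_lit 0) (nat_lit 20664) (XT.nd (nat_lit 94) (nat_lit 0) (nat_lit 0) (XT.lf (nat_lit 0) (nat_lit 2993369935) (nat_lit 168) (nat_lit 4933900843) (nat_lit 252) (nat_lit 8361203736) (nat_lit 40) (nat_lit 5) (nat_lit 42) (nat_lit 5) (nat_lit 43) (nat_lit 5) (nat_lit 388) (nat_lit 313) (nat_lit 244)) (XT.lf (nat_lit 0) (nat_lit 10063833998) (nat_lit 168) (nat_lit 989064090) (nat_lit 252) (nat_lit 5588025718) (nat_lit 40) (nat_lit 5) (nat_lit 42) (nat_lit 5) (nat_lit 43) (nat_lit 5) (nat_lit 389) (nat_lit 313) (nat_lit 243))) (XT.nd (nat_lit 94) (nat_lit 84) (nat_lit 0) (XT.lf (nat_lit 0) (nat_lit 1469813895) (nat_lit 84) (nat_lit 283584288) (nat_lit 0) (nat_lit 1469813895)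 (nat_lit 287) (nat_lit 5) (nat_lit 288) (nat_lit 0) (nat_lit 287) (nat_lit 4) (nat_lit 317) (nat_lit 314) (nat_lit 314)) (XT.lf (nat_lit 0) (nat_lit 2476258250) (nat_lit 84) (nat_lit 3346242813) (nat_lit 84) (nat_lit 629956352) (nat_lit 286) (nat_lit 4) (nat_lit 287) (nat_lit 5) (nat_lit 287) (nat_lit 4) (nat_lit 318) (nat_lit 314) (nat_lit 313))))))) (XT.nd (nat_lit 1504) (nat_lit 8484) (nat_lit 0) (XT.nd (nat_lit 752) (nat_lit 2772) (nat_lit 0) (XT.nd (nat_lit 376) (nat_lit 924) (nat_lit 0) (XT.nd (nat_lit 188) (nat_lit 336) (nat_lit 0) (XT.nd (nat_lit 94) (nat_lit 168) (nat_lit 0) (XT.lf (nat_lit 0) (nat_lit 2183832098) (nat_lit 168) (nat_lit 920278624) (nat_lit 84) (nat_lit 3357370360) (nat_lit 285) (nat_lit 5) (nat_lit 287) (nat_lit 5) (nat_lit 286) (nat_lit 4) (nat_lit 319) (nat_lit 314) (nat_lit 312)) (XT.lf (nat_lit 0) (nat_lit 2203984870) (nat_lit 168) (nat_lit 2780154617) (nat_lit 252)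 (nat_lit 1489362569) (nat_lit 283) (nat_lit 5) (nat_lit 285) (nat_lit 5) (nat_lit 286) (nat_lit 4) (nat_lit 320) (nat_lit 314) (nat_lit 311))) (XT.nd (nat_lit 94) (nat_lit 252) (nat_lit 0) (XT.lf (nat_lit 0) (nat_lit 1259718512) (nat_lit 252) (nat_lit 1120092939) (nat_lit 84) (nat_lit 4108885993) (nat_lit 282) (nat_lit 5) (nat_lit 285) (nat_lit 5) (nat_lit 283) (nat_lit 5) (nat_lit 321) (nat_lit 314) (nat_lit 310)) (XT.lf (nat_lit 0) (nat_lit 2089702773) (nat_lit 252) (nat_lit 1889527887) (nat_lit 336) (nat_lit 2527465293) (nat_lit 279) (nat_lit 5) (nat_lit 282) (nat_lit 5) (nat_lit 283) (nat_lit 5) (nat_lit 322) (nat_lit 314) (nat_lit 309)))) (XT.nd (nat_lit 188) (nat_lit 504) (nat_lit 0) (XT.nd (nat_lit 94) (nat_lit 336) (nat_lit 0) (XT.lf (nat_lit 0) (nat_lit 160449827) (nat_lit 336) (nat_lit 1170578700) (nat_lit 84) (nat_lit 5197130017) (nat_lit 278) (nat_lit 5) (nat_lit 282) (nat_lit 5) (nat_lit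 279) (nat_lit 5) (nat_lit 323) (nat_lit 314) (nat_lit 308)) (XT.lf (nat_lit 0) (nat_lit 2129691203) (nat_lit 336) (nat_lit 670839019) (nat_lit 420) (nat_lit 3751612983) (nat_lit 274) (nat_lit 5) (nat_lit 278) (nat_lit 5) (nat_lit 279) (nat_lit 5) (nat_lit 324) (nat_lit 314) (nat_lit 307))) (XT.nd (nat_lit 94) (nat_lit 504) (nat_lit 0) (XT.lf (nat_lit 0) (nat_lit 5436330580) (nat_lit 420) (nat_lit 1086729984) (nat_lit 84) (nat_lit 56581358) (nat_lit 274) (nat_lit 5) (nat_lit 279) (nat_lit 5) (nat_lit 275) (nat_lit 5) (nat_lit 325) (nat_lit 314) (nat_lit 306)) (XT.lf (nat_lit 0) (nat_lit 1448499204) (nat_lit 504) (nat_lit 4297698676) (nat_lit 84) (nat_lit 863534856) (nat_lit 268) (nat_lit 5) (nat_lit 274) (nat_lit 5) (nat_lit 269) (nat_lit 5) (nat_lit 326) (nat_lit 314) (nat_lit 305))))) (XT.nd (nat_lit 376) (nat_lit 1596) (nat_lit 0) (XT.nd (nat_lit 188) (nat_lit 672) (nat_lit 0) (XT.nd (nat_lit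 94) (nat_lit 504) (nat_lit 0) (XT.lf (nat_lit 0) (nat_lit 4014394311) (nat_lit 504) (nat_lit 879442158) (nat_lit 84) (nat_lit 1749236350) (nat_lit 268) (nat_lit 5) (nat_lit 274) (nat_lit 5) (nat_lit 269) (nat_lit 5) (nat_lit 327) (nat_lit 314) (nat_lit 304)) (XT.lf (nat_lit 0) (nat_lit 2631890140) (nat_lit 504) (nat_lit 3961575638) (nat_lit 588) (nat_lit 86119039) (nat_lit 262) (nat_lit 5) (nat_lit 268) (nat_lit 5) (nat_lit 269) (nat_lit 5) (nat_lit 328) (nat_lit 314) (nat_lit 303))) (XT.nd (nat_lit 94) (nat_lit 588) (nat_lit 0) (XT.lf (nat_lit 0) (nat_lit 2404072132) (nat_lit 588) (nat_lit 537000888) (nat_lit 84) (nat_lit 3778008359) (nat_lit 261) (nat_lit 5) (nat_lit 268) (nat_lit 5) (nat_lit 262) (nat_lit 5) (nat_lit 329) (nat_lit 314) (nat_lit 302)) (XT.lf (nat_lit 0) (nat_lit 3077801313) (nat_lit 588) (nat_lit 1833399989) (nat_lit 672) (nat_lit 1850452894) (nat_lit 254) (nat_lit 5) (nat_lit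 261) (nat_lit 5) (nat_lit 262) (nat_lit 5) (nat_lit 330) (nat_lit 314) (nat_lit 301)))) (XT.nd (nat_lit 188) (nat_lit 840) (nat_lit 0) (XT.nd (nat_lit 94) (nat_lit 672) (nat_lit 0) (XT.lf (nat_lit 0) (nat_lit 595333343) (nat_lit 672) (nat_lit 61689007) (nat_lit 84) (nat_lit 6150884144) (nat_lit 253) (nat_lit 5) (nat_lit 261) (nat_lit 5) (nat_lit 254) (nat_lit 5) (nat_lit 331) (nat_lit 314) (nat_lit 300)) (XT.lf (nat_lit 0) (nat_lit 3036293669) (nat_lit 756) (nat_lit 3200354813) (nat_lit 84) (nat_lit 619794278) (nat_lit 245) (nat_lit 5) (nat_lit 254) (nat_lit 5) (nat_lit 246) (nat_lit 5) (nat_lit 332) (nat_lit 314) (nat_lit 299))) (XT.nd (nat_lit 94) (nat_lit 84) (nat_lit 0) (XT.lf (nat_lit 0) (nat_lit 521739928) (nat_lit 756) (nat_lit 4960633263) (nat_lit 840) (nat_lit 1426314742) (nat_lit 236) (nat_lit 5) (nat_lit 245) (nat_lit 5) (nat_lit 246) (nat_lit 5) (nat_lit 333) (nat_lit 314) (nat_lit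 298)) (XT.lf (nat_lit 0) (nat_lit 972200594) (nat_lit 840) (nat_lit 2614086043) (nat_lit 84) (nat_lit 3377517196) (nat_lit 235) (nat_lit 5) (nat_lit 245) (nat_lit 5) (nat_lit 236) (nat_lit 5) (nat_lit 334) (nat_lit 314) (nat_lit 297)))))) (XT.nd (nat_lit 752) (nat_lit 3276) (nat_lit 0) (XT.nd (nat_lit 376) (nat_lit 3360) (nat_lit 0) (XT.nd (nat_lit 188) (nat_lit 1008) (nat_lit 0) (XT.nd (nat_lit 94) (nat_lit 0) (nat_lit 0) (XT.lf (nat_lit 0) (nat_lit 1220148315) (nat_lit 840) (nat_lit 2128409458) (nat_lit 924) (nat_lit 3673746914) (nat_lit 225) (nat_lit 5) (nat_lit 235) (nat_lit 5) (nat_lit 236) (nat_lit 5) (nat_lit 335) (nat_lit 314) (nat_lit 296)) (XT.lf (nat_lit 0) (nat_lit 5162097833) (nat_lit 840) (nat_lit 584992485) (nat_lit 924) (nat_lit 1337129876) (nat_lit 225) (nat_lit 5) (nat_lit 235) (nat_lit 5) (nat_lit 236) (nat_lit 5) (nat_lit 336) (nat_lit 314) (nat_lit 295))) (XT.nd (nat_lit 94)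 (nat_lit 0) (nat_lit 0) (XT.lf (nat_lit 0) (nat_lit 1004221250) (nat_lit 1008) (nat_lit 5116458009) (nat_lit 84) (nat_lit 1028515732) (nat_lit 213) (nat_lit 5) (nat_lit 225) (nat_lit 5) (nat_lit 214) (nat_lit 5) (nat_lit 337) (nat_lit 314) (nat_lit 294)) (XT.lf (nat_lit 0) (nat_lit 3341818418) (nat_lit 1008) (nat_lit 1151766175) (nat_lit 84) (nat_lit 2723721225) (nat_lit 213) (nat_lit 5) (nat_lit 225) (nat_lit 5) (nat_lit 214) (nat_lit 5) (nat_lit 338) (nat_lit 314) (nat_lit 293)))) (XT.nd (nat_lit 188) (nat_lit 2268) (nat_lit 0) (XT.nd (nat_lit 94) (nat_lit 84) (nat_lit 0) (XT.lf (nat_lit 0) (nat_lit 2928180442) (nat_lit 1008) (nat_lit 2779109207) (nat_lit 1092) (nat_lit 1581603346) (nat_lit 201) (nat_lit 5) (nat_lit 213) (nat_lit 5) (nat_lit 214) (nat_lit 5) (nat_lit 339) (nat_lit 314) (nat_lit 292)) (XT.lf (nat_lit 0) (nat_lit 707831267) (nat_lit 1092) (nat_lit 277540327) (nat_lit 84) (nat_lit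 6378927571) (nat_lit 200) (nat_lit 5) (nat_lit 213) (nat_lit 5) (nat_lit 201) (nat_lit 5) (nat_lit 340) (nat_lit 314) (nat_lit 291))) (XT.nd (nat_lit 94) (nat_lit 1176) (nat_lit 0) (XT.lf (nat_lit 0) (nat_lit 3013083661) (nat_lit 1176) (nat_lit 3522273990) (nat_lit 84) (nat_lit 906923756) (nat_lit 187) (nat_lit 5) (nat_lit 201) (nat_lit 5) (nat_lit 188) (nat_lit 5) (nat_lit 341) (nat_lit 314) (nat_lit 290)) (XT.lf (nat_lit 0) (nat_lit 668319200) (nat_lit 1176) (nat_lit 4671916566) (nat_lit 1260) (nat_lit 2183932048) (nat_lit 173) (nat_lit 5) (nat_lit 187) (nat_lit 5) (nat_lit 188) (nat_lit 5) (nat_lit 342) (nat_lit 314) (nat_lit 289))))) (XT.nd (nat_lit 376) (nat_lit 1344) (nat_lit 0) (XT.nd (nat_lit 188) (nat_lit 588) (nat_lit 0) (XT.nd (nat_lit 94) (nat_lit 1260) (nat_lit 0) (XT.lf (nat_lit 0) (nat_lit 96393137) (nat_lit 1260) (nat_lit 2614632126) (nat_lit 84) (nat_lit 4898480582) (nat_lit 172)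 (nat_lit 5) (nat_lit 187) (nat_lit 5) (nat_lit 173) (nat_lit 5) (nat_lit 343) (nat_lit 314) (nat_lit 288)) (XT.lf (nat_lit 0) (nat_lit 1704851500) (nat_lit 1260) (nat_lit 648976124) (nat_lit 1344) (nat_lit 5344484358) (nat_lit 157) (nat_lit 5) (nat_lit 172) (nat_lit 5) (nat_lit 173) (nat_lit 5) (nat_lit 344) (nat_lit 314) (nat_lit 287))) (XT.nd (nat_lit 94) (nat_lit 588) (nat_lit 0) (XT.lf (nat_lit 0) (nat_lit 4657338615) (nat_lit 1344) (nat_lit 1657962296) (nat_lit 84) (nat_lit 1475261364) (nat_lit 157) (nat_lit 5) (nat_lit 173) (nat_lit 5) (nat_lit 158) (nat_lit 5) (nat_lit 345) (nat_lit 314) (nat_lit 286)) (XT.lf (nat_lit 0) (nat_lit 2795482824) (nat_lit 588) (nat_lit 4207100987) (nat_lit 672) (nat_lit 883944169) (nat_lit 150) (nat_lit 5) (nat_lit 157) (nat_lit 5) (nat_lit 158) (nat_lit 5) (nat_lit 346) (nat_lit 314) (nat_lit 285)))) (XT.nd (nat_lit 188) (nat_lit 672) (nat_lit 0) (XT.nd (nat_lit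 94) (nat_lit 588) (nat_lit 0) (XT.lf (nat_lit 0) (nat_lit 1361577860) (nat_lit 672) (nat_lit 643260452) (nat_lit 84) (nat_lit 5981538942) (nat_lit 149) (nat_lit 5) (nat_lit 157) (nat_lit 5) (nat_lit 150) (nat_lit 5) (nat_lit 347) (nat_lit 314) (nat_lit 284)) (XT.lf (nat_lit 0) (nat_lit 3639196804) (nat_lit 672) (nat_lit 4145644605) (nat_lit 84) (nat_lit 304759122) (nat_lit 142) (nat_lit 5) (nat_lit 150) (nat_lit 5) (nat_lit 143) (nat_lit 5) (nat_lit 348) (nat_lit 314) (nat_lit 283))) (XT.nd (nat_lit 94) (nat_lit 84) (nat_lit 0) (XT.lf (nat_lit 0) (nat_lit 413981720) (nat_lit 588) (nat_lit 5544246206) (nat_lit 672) (nat_lit 2238612707) (nat_lit 135) (nat_lit 5) (nat_lit 142) (nat_lit 5) (nat_lit 143) (nat_lit 5) (nat_lit 349) (nat_lit 314) (nat_lit 282)) (XT.lf (nat_lit 0) (nat_lit 24162408) (nat_lit 672) (nat_lit 3172535416) (nat_lit 84) (nat_lit 5111132828) (nat_lit 134) (nat_lit 5) (nat_lit 142)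 (nat_lit 5) (nat_lit 135) (nat_lit 5) (nat_lit 350) (nat_lit 314) (nat_lit 281))))))))
noncomputable def xc21 : XT := (XT.nd (nat_lit 2914) (nat_lit 1008) (nat_lit 0) (XT.nd (nat_lit 1410) (nat_lit 2940) (nat_lit 0) (XT.nd (nat_lit 658) (nat_lit 1848) (nat_lit 0) (XT.nd (nat_lit 282) (nat_lit 1008) (nat_lit 0) (XT.nd (nat_lit 94) (nat_lit 504) (nat_lit 0) (XT.lf (nat_lit 0) (nat_lit 1524381060) (nat_lit 588) (nat_lit 744880084) (nat_lit 672) (nat_lit 6153544343) (nat_lit 127) (nat_lit 5) (nat_lit 134) (nat_lit 5) (nat_lit 135) (nat_lit 5) (nat_lit 351) (nat_lit 314) (nat_lit 280)) (XT.nd (nat_lit 94) (nat_lit 504) (nat_lit 0) (XT.lf (nat_lit 0) (nat_lit 4576962820) (nat_lit 672) (nat_lit 2190860670) (nat_lit 84) (nat_lit 1773648652) (nat_lit 127) (nat_lit 5) (nat_lit 135) (nat_lit 5) (nat_lit 128) (nat_lit 5) (nat_lit 352) (nat_lit 314) (nat_lit 279)) (XT.lf (nat_lit 0) (nat_lit 2643499614) (nat_lit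 504) (nat_lit 4290542323) (nat_lit 588) (nat_lit 1730349626) (nat_lit 121) (nat_lit 5) (nat_lit 127) (nat_lit 5) (nat_lit 128) (nat_lit 5) (nat_lit 353) (nat_lit 314) (nat_lit 278)))) (XT.nd (nat_lit 188) (nat_lit 420) (nat_lit 0) (XT.nd (nat_lit 94) (nat_lit 504) (nat_lit 0) (XT.lf (nat_lit 0) (nat_lit 529769684) (nat_lit 588) (nat_lit 1187436385) (nat_lit 84) (nat_lit 7074617249) (nat_lit 120) (nat_lit 5) (nat_lit 127) (nat_lit 5) (nat_lit 121) (nat_lit 5) (nat_lit 354) (nat_lit 314) (nat_lit 277)) (XT.lf (nat_lit 0) (nat_lit 2818041005) (nat_lit 588) (nat_lit 5142137366) (nat_lit 84) (nat_lit 962620800) (nat_lit 114) (nat_lit 5) (nat_lit 121) (nat_lit 5) (nat_lit 115) (nat_lit 5) (nat_lit 355) (nat_lit 314) (nat_lit 276))) (XT.nd (nat_lit 94) (nat_lit 420) (nat_lit 0) (XT.lf (nat_lit 0) (nat_lit 5154188631) (nat_lit 588) (nat_lit 210742548) (nat_lit 84) (nat_lit 3693482601) (nat_lit 114) (nat_lit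 5) (nat_lit 121) (nat_lit 5) (nat_lit 115) (nat_lit 5) (nat_lit 356) (nat_lit 314) (nat_lit 275)) (XT.lf (nat_lit 0) (nat_lit 4907640007) (nat_lit 420) (nat_lit 2651525456) (nat_lit 504) (nat_lit 1639052833) (nat_lit 109) (nat_lit 5) (nat_lit 114) (nat_lit 5) (nat_lit 115) (nat_lit 5) (nat_lit 357) (nat_lit 314) (nat_lit 274))))) (XT.nd (nat_lit 376) (nat_lit 840) (nat_lit 0) (XT.nd (nat_lit 188) (nat_lit 420) (nat_lit 0) (XT.nd (nat_lit 94) (nat_lit 0) (nat_lit 0) (XT.lf (nat_lit 0) (nat_lit 643648239) (nat_lit 588) (nat_lit 8551370179) (nat_lit 84) (nat_lit 148183846) (nat_lit 102) (nat_lit 5) (nat_lit 109) (nat_lit 5) (nat_lit 103) (nat_lit 5) (nat_lit 358) (nat_lit 314) (nat_lit 273)) (XT.lf (nat_lit 0) (nat_lit 2984551318) (nat_lit 588) (nat_lit 3477522037) (nat_lit 84) (nat_lit 3029372321) (nat_lit 102) (nat_lit 5) (nat_lit 109) (nat_lit 5) (nat_lit 103) (nat_lit 5) (nat_lit 359) (nat_lit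 314) (nat_lit 272))) (XT.nd (nat_lit 94) (nat_lit 0) (nat_lit 0) (XT.lf (nat_lit 0) (nat_lit 1725866459) (nat_lit 420) (nat_lit 3640440242) (nat_lit 504) (nat_lit 4278785395) (nat_lit 97) (nat_lit 5) (nat_lit 102) (nat_lit 5) (nat_lit 103) (nat_lit 5) (nat_lit 360) (nat_lit 314) (nat_lit 271)) (XT.lf (nat_lit 0) (nat_lit 7100841922) (nat_lit 420) (nat_lit 708626502) (nat_lit 504) (nat_lit 1994253171) (nat_lit 97) (nat_lit 5) (nat_lit 102) (nat_lit 5) (nat_lit 103) (nat_lit 5) (nat_lit 361) (nat_lit 314) (nat_lit 270)))) (XT.nd (nat_lit 188) (nat_lit 336) (nat_lit 0) (XT.nd (nat_lit 94) (nat_lit 0) (nat_lit 0) (XT.lf (nat_lit 0) (nat_lit 355465165) (nat_lit 504) (nat_lit 7326684143) (nat_lit 84) (nat_lit 2284815783) (nat_lit 91) (nat_lit 5) (nat_lit 97) (nat_lit 5) (nat_lit 92) (nat_lit 5) (nat_lit 362) (nat_lit 314) (nat_lit 269)) (XT.lf (nat_lit 0) (nat_lit 2726483922) (nat_lit 504) (nat_lit 2018029184)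 (nat_lit 84) (nat_lit 5390339854) (nat_lit 91) (nat_lit 5) (nat_lit 97) (nat_lit 5) (nat_lit 92) (nat_lit 5) (nat_lit 363) (nat_lit 314) (nat_lit 268))) (XT.nd (nat_lit 94) (nat_lit 0) (nat_lit 0) (XT.lf (nat_lit 0) (nat_lit 3463239032) (nat_lit 336) (nat_lit 1696268729) (nat_lit 420) (nat_lit 5148607703) (nat_lit 87) (nat_lit 5) (nat_lit 91) (nat_lit 5) (nat_lit 92) (nat_lit 5) (nat_lit 364) (nat_lit 314) (nat_lit 267)) (XT.lf (nat_lit 0) (nat_lit 7658164973) (nat_lit 420) (nat_lit 1404621376) (nat_lit 84) (nat_lit 1424072577) (nat_lit 87) (nat_lit 5) (nat_lit 92) (nat_lit 5) (nat_lit 88) (nat_lit 5) (nat_lit 365) (nat_lit 314) (nat_lit 266)))))) (XT.nd (nat_lit 752) (nat_lit 1344) (nat_lit 0) (XT.nd (nat_lit 376) (nat_lit 756) (nat_lit 0) (XT.nd (nat_lit 188) (nat_lit 336) (nat_lit 0) (XT.nd (nat_lit 94) (nat_lit 84) (nat_lit 0) (XT.lf (nat_lit 0) (nat_lit 4210922721) (nat_lit 420) (nat_lit 6037537409)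 (nat_lit 504) (nat_lit 422064762) (nat_lit 82) (nat_lit 5) (nat_lit 87) (nat_lit 5) (nat_lit 88) (nat_lit 5) (nat_lit 366) (nat_lit 314) (nat_lit 265)) (XT.lf (nat_lit 0) (nat_lit 1990580539) (nat_lit 504) (nat_lit 909092323) (nat_lit 84) (nat_lit 7960273356) (nat_lit 81) (nat_lit 5) (nat_lit 87) (nat_lit 5) (nat_lit 82) (nat_lit 5) (nat_lit 367) (nat_lit 314) (nat_lit 264))) (XT.nd (nat_lit 94) (nat_lit 0) (nat_lit 0) (XT.lf (nat_lit 0) (nat_lit 4478084279) (nat_lit 420) (nat_lit 6212080283) (nat_lit 84) (nat_lit 364486801) (nat_lit 77) (nat_lit 5) (nat_lit 82) (nat_lit 5) (nat_lit 78) (nat_lit 5) (nat_lit 368) (nat_lit 314) (nat_lit 263)) (XT.lf (nat_lit 0) (nat_lit 7039518301) (nat_lit 420) (nat_lit 550947760) (nat_lit 84) (nat_lit 3664806241) (nat_lit 77) (nat_lit 5) (nat_lit 82) (nat_lit 5) (nat_lit 78) (nat_lit 5) (nat_lit 369) (nat_lit 314) (nat_lit 262)))) (XT.nd (nat_lit 188) (nat_lit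 336) (nat_lit 0) (XT.nd (nat_lit 94) (nat_lit 84) (nat_lit 0) (XT.lf (nat_lit 0) (nat_lit 5332972726) (nat_lit 336) (nat_lit 4358537475) (nat_lit 420) (nat_lit 1770042448) (nat_lit 73) (nat_lit 5) (nat_lit 77) (nat_lit 5) (nat_lit 78) (nat_lit 5) (nat_lit 370) (nat_lit 314) (nat_lit 261)) (XT.lf (nat_lit 0) (nat_lit 702685294) (nat_lit 420) (nat_lit 327808246) (nat_lit 84) (nat_lit 10644313252) (nat_lit 72) (nat_lit 5) (nat_lit 77) (nat_lit 5) (nat_lit 73) (nat_lit 5) (nat_lit 371) (nat_lit 314) (nat_lit 260))) (XT.nd (nat_lit 94) (nat_lit 0) (nat_lit 0) (XT.lf (nat_lit 0) (nat_lit 3256080340) (nat_lit 420) (nat_lit 6226457312) (nat_lit 84) (nat_lit 2410181100) (nat_lit 68) (nat_lit 5) (nat_lit 73) (nat_lit 5) (nat_lit 69) (nat_lit 5) (nat_lit 372) (nat_lit 314) (nat_lit 259)) (XT.lf (nat_lit 0) (nat_lit 5863803350) (nat_lit 420) (nat_lit 330833233) (nat_lit 84) (nat_lit 5923246109) (nat_lit 68)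 (nat_lit 5) (nat_lit 73) (nat_lit 5) (nat_lit 69) (nat_lit 5) (nat_lit 373) (nat_lit 314) (nat_lit 258))))) (XT.nd (nat_lit 376) (nat_lit 672) (nat_lit 0) (XT.nd (nat_lit 188) (nat_lit 336) (nat_lit 0) (XT.nd (nat_lit 94) (nat_lit 0) (nat_lit 0) (XT.lf (nat_lit 0) (nat_lit 5806022233) (nat_lit 336) (nat_lit 2764770360) (nat_lit 420) (nat_lit 3778422972) (nat_lit 64) (nat_lit 5) (nat_lit 68) (nat_lit 5) (nat_lit 69) (nat_lit 5) (nat_lit 374) (nat_lit 314) (nat_lit 257)) (XT.lf (nat_lit 0) (nat_lit 11335381674) (nat_lit 420) (nat_lit 510426450) (nat_lit 84) (nat_lit 742432337) (nat_lit 64) (nat_lit 5) (nat_lit 69) (nat_lit 5) (nat_lit 65) (nat_lit 5) (nat_lit 375) (nat_lit 314) (nat_lit 256))) (XT.nd (nat_lit 94) (nat_lit 0) (nat_lit 0) (XT.lf (nat_lit 0) (nat_lit 1371789412) (nat_lit 336) (nat_lit 7106443616) (nat_lit 84) (nat_lit 4354366514) (nat_lit 60) (nat_lit 5) (nat_lit 64) (nat_lit 5) (nat_lit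 61) (nat_lit 5) (nat_lit 376) (nat_lit 314) (nat_lit 255)) (XT.lf (nat_lit 0) (nat_lit 4021985770) (nat_lit 336) (nat_lit 984471715) (nat_lit 84) (nat_lit 8078340107) (nat_lit 60) (nat_lit 5) (nat_lit 64) (nat_lit 5) (nat_lit 61) (nat_lit 5) (nat_lit 377) (nat_lit 314) (nat_lit 254)))) (XT.nd (nat_lit 188) (nat_lit 336) (nat_lit 0) (XT.nd (nat_lit 94) (nat_lit 0) (nat_lit 0) (XT.lf (nat_lit 0) (nat_lit 5379352814) (nat_lit 336) (nat_lit 1391796865) (nat_lit 420) (nat_lit 6572866915) (nat_lit 56) (nat_lit 5) (nat_lit 60) (nat_lit 5) (nat_lit 61) (nat_lit 5) (nat_lit 378) (nat_lit 314) (nat_lit 253)) (XT.lf (nat_lit 0) (nat_lit 9603344132) (nat_lit 420) (nat_lit 1726118313) (nat_lit 84) (nat_lit 2281570783) (nat_lit 56) (nat_lit 5) (nat_lit 61) (nat_lit 5) (nat_lit 57) (nat_lit 5) (nat_lit 379) (nat_lit 314) (nat_lit 252))) (XT.nd (nat_lit 94) (nat_lit 84) (nat_lit 0) (XT.lf (nat_lit 0) (nat_lit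 4732353640) (nat_lit 252) (nat_lit 7816456222) (nat_lit 336) (nat_lit 1336437969) (nat_lit 53) (nat_lit 5) (nat_lit 56) (nat_lit 5) (nat_lit 57) (nat_lit 5) (nat_lit 380) (nat_lit 314) (nat_lit 251)) (XT.lf (nat_lit 0) (nat_lit 1374107052) (nat_lit 336) (nat_lit 2806970651) (nat_lit 84) (nat_lit 9986634642) (nat_lit 52) (nat_lit 5) (nat_lit 56) (nat_lit 5) (nat_lit 53) (nat_lit 5) (nat_lit 381) (nat_lit 314) (nat_lit 250))))))) (XT.nd (nat_lit 53768) (nat_lit 0) (nat_lit 14532) (XT.nd (nat_lit 53016) (nat_lit 0) (nat_lit 20076) (XT.nd (nat_lit 376) (nat_lit 504) (nat_lit 0) (XT.nd (nat_lit 188) (nat_lit 252) (nat_lit 0) (XT.nd (nat_lit 94) (nat_lit 0) (nat_lit 0) (XT.lf (nat_lit 0) (nat_lit 3744512881) (nat_lit 252) (nat_lit 400651300) (nat_lit 336) (nat_lit 10312941469) (nat_lit 49) (nat_lit 5) (nat_lit 52) (nat_lit 5) (nat_lit 53) (nat_lit 5) (nat_lit 382) (nat_lit 314) (nat_lit 249)) (XT.lf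 (nat_lit 0) (nat_lit 7031924892) (nat_lit 336) (nat_lit 4285131158) (nat_lit 84) (nat_lit 3439210095) (nat_lit 49) (nat_lit 5) (nat_lit 53) (nat_lit 5) (nat_lit 50) (nat_lit 5) (nat_lit 383) (nat_lit 314) (nat_lit 248))) (XT.nd (nat_lit 94) (nat_lit 0) (nat_lit 0) (XT.lf (nat_lit 0) (nat_lit 2334081747) (nat_lit 252) (nat_lit 7668840886) (nat_lit 336) (nat_lit 5060551394) (nat_lit 46) (nat_lit 5) (nat_lit 49) (nat_lit 5) (nat_lit 50) (nat_lit 5) (nat_lit 384) (nat_lit 314) (nat_lit 247)) (XT.lf (nat_lit 0) (nat_lit 9196458230) (nat_lit 252) (nat_lit 3881516401) (nat_lit 336) (nat_lit 2301506464) (nat_lit 46) (nat_lit 5) (nat_lit 49) (nat_lit 5) (nat_lit 50) (nat_lit 5) (nat_lit 385) (nat_lit 314) (nat_lit 246)))) (XT.nd (nat_lit 188) (nat_lit 168) (nat_lit 0) (XT.nd (nat_lit 94) (nat_lit 0) (nat_lit 0) (XT.lf (nat_lit 0) (nat_lit 507108611) (nat_lit 336) (nat_lit 15183515282) (nat_lit 84) (nat_lit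 14897319) (nat_lit 42) (nat_lit 5) (nat_lit 46) (nat_lit 5) (nat_lit 43) (nat_lit 5) (nat_lit 386) (nat_lit 314) (nat_lit 245)) (XT.lf (nat_lit 0) (nat_lit 3427649857) (nat_lit 336) (nat_lit 8589242301) (nat_lit 84) (nat_lit 4021577064) (nat_lit 42) (nat_lit 5) (nat_lit 46) (nat_lit 5) (nat_lit 43) (nat_lit 5) (nat_lit 387) (nat_lit 314) (nat_lit 244))) (XT.nd (nat_lit 94) (nat_lit 168) (nat_lit 0) (XT.lf (nat_lit 0) (nat_lit 6409050324) (nat_lit 336) (nat_lit 1838760670) (nat_lit 84) (nat_lit 8134424645) (nat_lit 42) (nat_lit 5) (nat_lit 46) (nat_lit 5) (nat_lit 43) (nat_lit 5) (nat_lit 388) (nat_lit 314) (nat_lit 243)) (XT.lf (nat_lit 0) (nat_lit 5174807215) (nat_lit 168) (nat_lit 4328851316) (nat_lit 252) (nat_lit 7231970009) (nat_lit 40) (nat_lit 5) (nat_lit 42) (nat_lit 5) (nat_lit 43) (nat_lit 5) (nat_lit 389) (nat_lit 314) (nat_lit 242))))) (XT.nd (nat_lit 376) (nat_lit 504) (nat_lit 0)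 (XT.nd (nat_lit 188) (nat_lit 168) (nat_lit 0) (XT.nd (nat_lit 94) (nat_lit 84) (nat_lit 0) (XT.lf (nat_lit 0) (nat_lit 1073741823) (nat_lit 0) (nat_lit 0) (nat_lit 0) (nat_lit 0) (nat_lit 288) (nat_lit 0) (nat_lit 1) (nat_lit 0) (nat_lit 1) (nat_lit 0) (nat_lit 315) (nat_lit 315) (nat_lit 315)) (XT.lf (nat_lit 0) (nat_lit 2854007564) (nat_lit 84) (nat_lit 3533239670) (nat_lit 0) (nat_lit 56232508) (nat_lit 287) (nat_lit 5) (nat_lit 288) (nat_lit 0) (nat_lit 287) (nat_lit 4) (nat_lit 316) (nat_lit 315) (nat_lit 314))) (XT.nd (nat_lit 94) (nat_lit 168) (nat_lit 0) (XT.lf (nat_lit 0) (nat_lit 5682808178) (nat_lit 84) (nat_lit 596699176) (nat_lit 0) (nat_lit 168746660) (nat_lit 287) (nat_lit 5) (nat_lit 288) (nat_lit 0) (nat_lit 287) (nat_lit 4) (nat_lit 317) (nat_lit 315) (nat_lit 313)) (XT.lf (nat_lit 0) (nat_lit 2015904908) (nat_lit 168) (nat_lit 4058945874) (nat_lit 84) (nat_lit 380637254) (nat_lit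 285) (nat_lit 5) (nat_lit 287) (nat_lit 5) (nat_lit 286) (nat_lit 4) (nat_lit 318) (nat_lit 315) (nat_lit 312)))) (XT.nd (nat_lit 188) (nat_lit 252) (nat_lit 0) (XT.nd (nat_lit 94) (nat_lit 252) (nat_lit 0) (XT.lf (nat_lit 0) (nat_lit 4764977358) (nat_lit 168) (nat_lit 1038689308) (nat_lit 84) (nat_lit 662411792) (nat_lit 285) (nat_lit 5) (nat_lit 287) (nat_lit 5) (nat_lit 286) (nat_lit 4) (nat_lit 319) (nat_lit 315) (nat_lit 311)) (XT.lf (nat_lit 0) (nat_lit 1012945824) (nat_lit 252) (nat_lit 4435871642) (nat_lit 84) (nat_lit 1030724819) (nat_lit 282) (nat_lit 5) (nat_lit 285) (nat_lit 5) (nat_lit 283) (nat_lit 5) (nat_lit 320) (nat_lit 315) (nat_lit 310))) (XT.nd (nat_lit 94) (nat_lit 252) (nat_lit 0) (XT.lf (nat_lit 0) (nat_lit 3682622130) (nat_lit 252) (nat_lit 1330391017) (nat_lit 84) (nat_lit 1482966094) (nat_lit 282) (nat_lit 5) (nat_lit 285) (nat_lit 5) (nat_lit 283) (nat_lit 5) (nat_lit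 321) (nat_lit 315) (nat_lit 309)) (XT.lf (nat_lit 0) (nat_lit 1845882853) (nat_lit 252) (nat_lit 4505032002) (nat_lit 336) (nat_lit 164755606) (nat_lit 279) (nat_lit 5) (nat_lit 282) (nat_lit 5) (nat_lit 283) (nat_lit 5) (nat_lit 322) (nat_lit 315) (nat_lit 308)))))) (XT.nd (nat_lit 752) (nat_lit 3444) (nat_lit 0) (XT.nd (nat_lit 376) (nat_lit 1176) (nat_lit 0) (XT.nd (nat_lit 188) (nat_lit 504) (nat_lit 0) (XT.nd (nat_lit 94) (nat_lit 336) (nat_lit 0) (XT.lf (nat_lit 0) (nat_lit 2428707482) (nat_lit 336) (nat_lit 1475676341) (nat_lit 84) (nat_lit 2633665451) (nat_lit 278) (nat_lit 5) (nat_lit 282) (nat_lit 5) (nat_lit 279) (nat_lit 5) (nat_lit 323) (nat_lit 315) (nat_lit 307)) (XT.lf (nat_lit 0) (nat_lit 1789220230) (nat_lit 336) (nat_lit 3229355943) (nat_lit 420) (nat_lit 1545106992) (nat_lit 274) (nat_lit 5) (nat_lit 278) (nat_lit 5) (nat_lit 279) (nat_lit 5) (nat_lit 324) (nat_lit 315) (nat_lit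 306))) (XT.nd (nat_lit 94) (nat_lit 420) (nat_lit 0) (XT.lf (nat_lit 0) (nat_lit 995452561) (nat_lit 420) (nat_lit 1477907464) (nat_lit 84) (nat_lit 4119059790) (nat_lit 273) (nat_lit 5) (nat_lit 278) (nat_lit 5) (nat_lit 274) (nat_lit 5) (nat_lit 325) (nat_lit 315) (nat_lit 305)) (XT.lf (nat_lit 0) (nat_lit 1880793695) (nat_lit 420) (nat_lit 1626941667) (nat_lit 504) (nat_lit 3116292844) (nat_lit 268) (nat_lit 5) (nat_lit 273) (nat_lit 5) (nat_lit 274) (nat_lit 5) (nat_lit 326) (nat_lit 315) (nat_lit 304)))) (XT.nd (nat_lit 188) (nat_lit 588) (nat_lit 0) (XT.nd (nat_lit 94) (nat_lit 588) (nat_lit 0) (XT.lf (nat_lit 0) (nat_lit 5312967736) (nat_lit 420) (nat_lit 707937158) (nat_lit 504) (nat_lit 638172107) (nat_lit 268) (nat_lit 5) (nat_lit 273) (nat_lit 5) (nat_lit 274) (nat_lit 5) (nat_lit 327) (nat_lit 315) (nat_lit 303)) (XT.lf (nat_lit 0) (nat_lit 1812356365) (nat_lit 588) (nat_lit 4581902331)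 (nat_lit 84) (nat_lit 302546863) (nat_lit 261) (nat_lit 5) (nat_lit 268) (nat_lit 5) (nat_lit 262) (nat_lit 5) (nat_lit 328) (nat_lit 315) (nat_lit 302))) (XT.nd (nat_lit 94) (nat_lit 588) (nat_lit 0) (XT.lf (nat_lit 0) (nat_lit 4258688454) (nat_lit 588) (nat_lit 1101799290) (nat_lit 84) (nat_lit 1377171074) (nat_lit 261) (nat_lit 5) (nat_lit 268) (nat_lit 5) (nat_lit 262) (nat_lit 5) (nat_lit 329) (nat_lit 315) (nat_lit 301)) (XT.lf (nat_lit 0) (nat_lit 2472291190) (nat_lit 588) (nat_lit 4246755813) (nat_lit 672) (nat_lit 62700539) (nat_lit 254) (nat_lit 5) (nat_lit 261) (nat_lit 5) (nat_lit 262) (nat_lit 5) (nat_lit 330) (nat_lit 315) (nat_lit 300))))) (XT.nd (nat_lit 376) (nat_lit 1848) (nat_lit 0) (XT.nd (nat_lit 188) (nat_lit 840) (nat_lit 0) (XT.nd (nat_lit 94) (nat_lit 672) (nat_lit 0) (XT.lf (nat_lit 0) (nat_lit 2307664072) (nat_lit 672) (nat_lit 734003254) (nat_lit 84) (nat_lit 3787139366)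 (nat_lit 253) (nat_lit 5) (nat_lit 261) (nat_lit 5) (nat_lit 254) (nat_lit 5) (nat_lit 331) (nat_lit 315) (nat_lit 299)) (XT.lf (nat_lit 0) (nat_lit 2947415698) (nat_lit 672) (nat_lit 1748904457) (nat_lit 756) (nat_lit 2182695146) (nat_lit 245) (nat_lit 5) (nat_lit 253) (nat_lit 5) (nat_lit 254) (nat_lit 5) (nat_lit 332) (nat_lit 315) (nat_lit 298))) (XT.nd (nat_lit 94) (nat_lit 756) (nat_lit 0) (XT.lf (nat_lit 0) (nat_lit 149891423) (nat_lit 756) (nat_lit 237821887) (nat_lit 84) (nat_lit 6545297401) (nat_lit 244) (nat_lit 5) (nat_lit 253) (nat_lit 5) (nat_lit 245) (nat_lit 5) (nat_lit 333) (nat_lit 315) (nat_lit 297)) (XT.lf (nat_lit 0) (nat_lit 2476475412) (nat_lit 840) (nat_lit 3443030365) (nat_lit 84) (nat_lit 1069626939) (nat_lit 235) (nat_lit 5) (nat_lit 245) (nat_lit 5) (nat_lit 236) (nat_lit 5) (nat_lit 334) (nat_lit 315) (nat_lit 296)))) (XT.nd (nat_lit 188) (nat_lit 924) (nat_lit 0) (XT.nd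 (nat_lit 94) (nat_lit 84) (nat_lit 0) (XT.lf (nat_lit 0) (nat_lit 344707325) (nat_lit 840) (nat_lit 4462800089) (nat_lit 924) (nat_lit 2241577619) (nat_lit 225) (nat_lit 5) (nat_lit 235) (nat_lit 5) (nat_lit 236) (nat_lit 5) (nat_lit 335) (nat_lit 315) (nat_lit 295)) (XT.lf (nat_lit 0) (nat_lit 56625158) (nat_lit 924) (nat_lit 2855196620) (nat_lit 84) (nat_lit 4200334590) (nat_lit 224) (nat_lit 5) (nat_lit 235) (nat_lit 5) (nat_lit 225) (nat_lit 5) (nat_lit 336) (nat_lit 315) (nat_lit 294))) (XT.nd (nat_lit 94) (nat_lit 0) (nat_lit 0) (XT.lf (nat_lit 0) (nat_lit 1048723771) (nat_lit 924) (nat_lit 1268023179) (nat_lit 1008) (nat_lit 4861736655) (nat_lit 213) (nat_lit 5) (nat_lit 224) (nat_lit 5) (nat_lit 225) (nat_lit 5) (nat_lit 337) (nat_lit 315) (nat_lit 293)) (XT.lf (nat_lit 0) (nat_lit 4607474653) (nat_lit 1008) (nat_lit 2182842197) (nat_lit 84) (nat_lit 457765148) (nat_lit 213) (nat_lit 5)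 (nat_lit 225) (nat_lit 5) (nat_lit 214) (nat_lit 5) (nat_lit 338) (nat_lit 315) (nat_lit 292))))))))
noncomputable def xc22 : XT := (XT.nd (nat_lit 2914) (nat_lit 3108) (nat_lit 0) (XT.nd (nat_lit 1410) (nat_lit 3696) (nat_lit 0) (XT.nd (nat_lit 658) (nat_lit 3024) (nat_lit 0) (XT.nd (nat_lit 282) (nat_lit 2520) (nat_lit 0) (XT.nd (nat_lit 94) (nat_lit 1176) (nat_lit 0) (XT.lf (nat_lit 0) (nat_lit 1846914532) (nat_lit 1008) (nat_lit 5081967222) (nat_lit 1092) (nat_lit 392188452) (nat_lit 201) (nat_lit 5) (nat_lit 213) (nat_lit 5) (nat_lit 214) (nat_lit 5) (nat_lit 339) (nat_lit 315) (nat_lit 291)) (XT.nd (nat_lit 94) (nat_lit 1092) (nat_lit 0) (XT.lf (nat_lit 0) (nat_lit 1840668141) (nat_lit 1092) (nat_lit 1431960787) (nat_lit 84) (nat_lit 4124580061) (nat_lit 200) (nat_lit 5) (nat_lit 213) (nat_lit 5) (nat_lit 201) (nat_lit 5) (nat_lit 340) (nat_lit 315) (nat_lit 290)) (XT.lf (nat_lit 0) (nat_lit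 2722515570) (nat_lit 1092) (nat_lit 1370518137) (nat_lit 1176) (nat_lit 3383816525) (nat_lit 187) (nat_lit 5) (nat_lit 200) (nat_lit 5) (nat_lit 201) (nat_lit 5) (nat_lit 341) (nat_lit 315) (nat_lit 289)))) (XT.nd (nat_lit 188) (nat_lit 1260) (nat_lit 0) (XT.nd (nat_lit 94) (nat_lit 1260) (nat_lit 0) (XT.lf (nat_lit 0) (nat_lit 6368893413) (nat_lit 1176) (nat_lit 593064778) (nat_lit 84) (nat_lit 598387507) (nat_lit 187) (nat_lit 5) (nat_lit 201) (nat_lit 5) (nat_lit 188) (nat_lit 5) (nat_lit 342) (nat_lit 315) (nat_lit 288)) (XT.lf (nat_lit 0) (nat_lit 1032208669) (nat_lit 1260) (nat_lit 3963513468) (nat_lit 84) (nat_lit 2650860554) (nat_lit 172) (nat_lit 5) (nat_lit 187) (nat_lit 5) (nat_lit 173) (nat_lit 5) (nat_lit 343) (nat_lit 315) (nat_lit 287))) (XT.nd (nat_lit 94) (nat_lit 0) (nat_lit 0) (XT.lf (nat_lit 0) (nat_lit 299558367) (nat_lit 1260) (nat_lit 2946066109) (nat_lit 1344) (nat_lit 4491149236)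 (nat_lit 157) (nat_lit 5) (nat_lit 172) (nat_lit 5) (nat_lit 173) (nat_lit 5) (nat_lit 344) (nat_lit 315) (nat_lit 286)) (XT.lf (nat_lit 0) (nat_lit 4713498844) (nat_lit 1260) (nat_lit 791275845) (nat_lit 1344) (nat_lit 2325642588) (nat_lit 157) (nat_lit 5) (nat_lit 172) (nat_lit 5) (nat_lit 173) (nat_lit 5) (nat_lit 345) (nat_lit 315) (nat_lit 285))))) (XT.nd (nat_lit 376) (nat_lit 1764) (nat_lit 0) (XT.nd (nat_lit 188) (nat_lit 588) (nat_lit 0) (XT.nd (nat_lit 94) (nat_lit 84) (nat_lit 0) (XT.lf (nat_lit 0) (nat_lit 1285863067) (nat_lit 588) (nat_lit 6513023698) (nat_lit 672) (nat_lit 129090841) (nat_lit 150) (nat_lit 5) (nat_lit 157) (nat_lit 5) (nat_lit 158) (nat_lit 5) (nat_lit 346) (nat_lit 315) (nat_lit 284)) (XT.lf (nat_lit 0) (nat_lit 2072917301) (nat_lit 672) (nat_lit 2230745214) (nat_lit 84) (nat_lit 3724867349) (nat_lit 149) (nat_lit 5) (nat_lit 157) (nat_lit 5) (nat_lit 150) (nat_lit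 5) (nat_lit 347) (nat_lit 315) (nat_lit 283))) (XT.nd (nat_lit 94) (nat_lit 0) (nat_lit 0) (XT.lf (nat_lit 0) (nat_lit 2299081181) (nat_lit 588) (nat_lit 2004680493) (nat_lit 672) (nat_lit 3829450189) (nat_lit 142) (nat_lit 5) (nat_lit 149) (nat_lit 5) (nat_lit 150) (nat_lit 5) (nat_lit 348) (nat_lit 315) (nat_lit 282)) (XT.lf (nat_lit 0) (nat_lit 6572135942) (nat_lit 672) (nat_lit 1292214670) (nat_lit 84) (nat_lit 377674927) (nat_lit 142) (nat_lit 5) (nat_lit 150) (nat_lit 5) (nat_lit 143) (nat_lit 5) (nat_lit 349) (nat_lit 315) (nat_lit 281)))) (XT.nd (nat_lit 188) (nat_lit 1092) (nat_lit 0) (XT.nd (nat_lit 94) (nat_lit 0) (nat_lit 0) (XT.lf (nat_lit 0) (nat_lit 541791989) (nat_lit 672) (nat_lit 4984566903) (nat_lit 84) (nat_lit 2827743307) (nat_lit 134) (nat_lit 5) (nat_lit 142) (nat_lit 5) (nat_lit 135) (nat_lit 5) (nat_lit 350) (nat_lit 315) (nat_lit 280)) (XT.lf (nat_lit 0) (nat_lit 2745828231)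 (nat_lit 672) (nat_lit 345756823) (nat_lit 84) (nat_lit 5378773153) (nat_lit 134) (nat_lit 5) (nat_lit 142) (nat_lit 5) (nat_lit 135) (nat_lit 5) (nat_lit 351) (nat_lit 315) (nat_lit 279))) (XT.nd (nat_lit 94) (nat_lit 504) (nat_lit 0) (XT.lf (nat_lit 0) (nat_lit 4463420533) (nat_lit 588) (nat_lit 543420935) (nat_lit 672) (nat_lit 3583631908) (nat_lit 127) (nat_lit 5) (nat_lit 134) (nat_lit 5) (nat_lit 135) (nat_lit 5) (nat_lit 352) (nat_lit 315) (nat_lit 278)) (XT.lf (nat_lit 0) (nat_lit 645497807) (nat_lit 504) (nat_lit 6668817502) (nat_lit 588) (nat_lit 1400612115) (nat_lit 121) (nat_lit 5) (nat_lit 127) (nat_lit 5) (nat_lit 128) (nat_lit 5) (nat_lit 353) (nat_lit 315) (nat_lit 277)))))) (XT.nd (nat_lit 752) (nat_lit 1680) (nat_lit 0) (XT.nd (nat_lit 376) (nat_lit 1008) (nat_lit 0) (XT.nd (nat_lit 188) (nat_lit 420) (nat_lit 0) (XT.nd (nat_lit 94) (nat_lit 504) (nat_lit 0) (XT.lf (nat_lit 0)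 (nat_lit 828074706) (nat_lit 588) (nat_lit 3267455167) (nat_lit 84) (nat_lit 4747527960) (nat_lit 120) (nat_lit 5) (nat_lit 127) (nat_lit 5) (nat_lit 121) (nat_lit 5) (nat_lit 354) (nat_lit 315) (nat_lit 276)) (XT.lf (nat_lit 0) (nat_lit 1640933241) (nat_lit 504) (nat_lit 1421043485) (nat_lit 588) (nat_lit 5913730564) (nat_lit 114) (nat_lit 5) (nat_lit 120) (nat_lit 5) (nat_lit 121) (nat_lit 5) (nat_lit 355) (nat_lit 315) (nat_lit 275))) (XT.nd (nat_lit 94) (nat_lit 420) (nat_lit 0) (XT.lf (nat_lit 0) (nat_lit 5360607044) (nat_lit 588) (nat_lit 2417660100) (nat_lit 84) (nat_lit 1334221561) (nat_lit 114) (nat_lit 5) (nat_lit 121) (nat_lit 5) (nat_lit 115) (nat_lit 5) (nat_lit 356) (nat_lit 315) (nat_lit 274)) (XT.lf (nat_lit 0) (nat_lit 2629133590) (nat_lit 420) (nat_lit 5091385393) (nat_lit 504) (nat_lit 1533166267) (nat_lit 109) (nat_lit 5) (nat_lit 114) (nat_lit 5) (nat_lit 115) (nat_lit 5) (nat_lit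 357) (nat_lit 315) (nat_lit 273)))) (XT.nd (nat_lit 188) (nat_lit 420) (nat_lit 0) (XT.nd (nat_lit 94) (nat_lit 504) (nat_lit 0) (XT.lf (nat_lit 0) (nat_lit 715380406) (nat_lit 504) (nat_lit 1584500222) (nat_lit 84) (nat_lit 7099758484) (nat_lit 108) (nat_lit 5) (nat_lit 114) (nat_lit 5) (nat_lit 109) (nat_lit 5) (nat_lit 358) (nat_lit 315) (nat_lit 272)) (XT.lf (nat_lit 0) (nat_lit 2995844711) (nat_lit 588) (nat_lit 5947790298) (nat_lit 84) (nat_lit 606097359) (nat_lit 102) (nat_lit 5) (nat_lit 109) (nat_lit 5) (nat_lit 103) (nat_lit 5) (nat_lit 359) (nat_lit 315) (nat_lit 271))) (XT.nd (nat_lit 94) (nat_lit 420) (nat_lit 0) (XT.lf (nat_lit 0) (nat_lit 5339026716) (nat_lit 588) (nat_lit 805031206) (nat_lit 84) (nat_lit 3560513682) (nat_lit 102) (nat_lit 5) (nat_lit 109) (nat_lit 5) (nat_lit 103) (nat_lit 5) (nat_lit 360) (nat_lit 315) (nat_lit 270)) (XT.lf (nat_lit 0) (nat_lit 4527235254) (nat_lit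 420) (nat_lit 3225461182) (nat_lit 504) (nat_lit 2111424003) (nat_lit 97) (nat_lit 5) (nat_lit 102) (nat_lit 5) (nat_lit 103) (nat_lit 5) (nat_lit 361) (nat_lit 315) (nat_lit 269))))) (XT.nd (nat_lit 376) (nat_lit 840) (nat_lit 0) (XT.nd (nat_lit 188) (nat_lit 336) (nat_lit 0) (XT.nd (nat_lit 94) (nat_lit 420) (nat_lit 0) (XT.lf (nat_lit 0) (nat_lit 171367855) (nat_lit 504) (nat_lit 47862431) (nat_lit 84) (nat_lit 9810276418) (nat_lit 96) (nat_lit 5) (nat_lit 102) (nat_lit 5) (nat_lit 97) (nat_lit 5) (nat_lit 362) (nat_lit 315) (nat_lit 268)) (XT.lf (nat_lit 0) (nat_lit 2518910646) (nat_lit 504) (nat_lit 4794281428) (nat_lit 84) (nat_lit 2884938420) (nat_lit 91) (nat_lit 5) (nat_lit 97) (nat_lit 5) (nat_lit 92) (nat_lit 5) (nat_lit 363) (nat_lit 315) (nat_lit 267))) (XT.nd (nat_lit 94) (nat_lit 0) (nat_lit 0) (XT.lf (nat_lit 0) (nat_lit 605283174) (nat_lit 336) (nat_lit 4298892769) (nat_lit 420)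 (nat_lit 5468680532) (nat_lit 87) (nat_lit 5) (nat_lit 91) (nat_lit 5) (nat_lit 92) (nat_lit 5) (nat_lit 364) (nat_lit 315) (nat_lit 266)) (XT.lf (nat_lit 0) (nat_lit 6212981693) (nat_lit 336) (nat_lit 1155947846) (nat_lit 420) (nat_lit 3183717332) (nat_lit 87) (nat_lit 5) (nat_lit 91) (nat_lit 5) (nat_lit 92) (nat_lit 5) (nat_lit 365) (nat_lit 315) (nat_lit 265)))) (XT.nd (nat_lit 188) (nat_lit 336) (nat_lit 0) (XT.nd (nat_lit 94) (nat_lit 84) (nat_lit 0) (XT.lf (nat_lit 0) (nat_lit 1202802728) (nat_lit 420) (nat_lit 8696979567) (nat_lit 504) (nat_lit 838342770) (nat_lit 82) (nat_lit 5) (nat_lit 87) (nat_lit 5) (nat_lit 88) (nat_lit 5) (nat_lit 366) (nat_lit 315) (nat_lit 264)) (XT.lf (nat_lit 0) (nat_lit 1563117056) (nat_lit 504) (nat_lit 4006461268) (nat_lit 84) (nat_lit 5358694665) (nat_lit 81) (nat_lit 5) (nat_lit 87) (nat_lit 5) (nat_lit 82) (nat_lit 5) (nat_lit 367) (nat_lit 315) (nat_lit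 263))) (XT.nd (nat_lit 94) (nat_lit 0) (nat_lit 0) (XT.lf (nat_lit 0) (nat_lit 1661840198) (nat_lit 336) (nat_lit 2335850514) (nat_lit 420) (nat_lit 7126901823) (nat_lit 77) (nat_lit 5) (nat_lit 81) (nat_lit 5) (nat_lit 82) (nat_lit 5) (nat_lit 368) (nat_lit 315) (nat_lit 262)) (XT.lf (nat_lit 0) (nat_lit 6518174097) (nat_lit 420) (nat_lit 3804344279) (nat_lit 84) (nat_lit 1003949346) (nat_lit 77) (nat_lit 5) (nat_lit 82) (nat_lit 5) (nat_lit 78) (nat_lit 5) (nat_lit 369) (nat_lit 315) (nat_lit 261))))))) (XT.nd (nat_lit 1504) (nat_lit 504) (nat_lit 0) (XT.nd (nat_lit 752) (nat_lit 1176) (nat_lit 0) (XT.nd (nat_lit 376) (nat_lit 672) (nat_lit 0) (XT.nd (nat_lit 188) (nat_lit 336) (nat_lit 0) (XT.nd (nat_lit 94) (nat_lit 84) (nat_lit 0) (XT.lf (nat_lit 0) (nat_lit 1989895993) (nat_lit 336) (nat_lit 7130176041) (nat_lit 420) (nat_lit 2414203834) (nat_lit 73) (nat_lit 5) (nat_lit 77) (nat_lit 5) (nat_lit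 78) (nat_lit 5) (nat_lit 370) (nat_lit 315) (nat_lit 260)) (XT.lf (nat_lit 0) (nat_lit 53227226) (nat_lit 420) (nat_lit 3762000340) (nat_lit 84) (nat_lit 7933047749) (nat_lit 72) (nat_lit 5) (nat_lit 77) (nat_lit 5) (nat_lit 73) (nat_lit 5) (nat_lit 371) (nat_lit 315) (nat_lit 259))) (XT.nd (nat_lit 94) (nat_lit 0) (nat_lit 0) (XT.lf (nat_lit 0) (nat_lit 2163717099) (nat_lit 336) (nat_lit 368027191) (nat_lit 420) (nat_lit 9436712184) (nat_lit 68) (nat_lit 5) (nat_lit 72) (nat_lit 5) (nat_lit 73) (nat_lit 5) (nat_lit 372) (nat_lit 315) (nat_lit 258)) (XT.lf (nat_lit 0) (nat_lit 5118798319) (nat_lit 420) (nat_lit 3929682885) (nat_lit 84) (nat_lit 3145781472) (nat_lit 68) (nat_lit 5) (nat_lit 73) (nat_lit 5) (nat_lit 69) (nat_lit 5) (nat_lit 373) (nat_lit 315) (nat_lit 257)))) (XT.nd (nat_lit 188) (nat_lit 336) (nat_lit 0) (XT.nd (nat_lit 94) (nat_lit 0) (nat_lit 0) (XT.lf (nat_lit 0) (nat_lit 2111679452)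 (nat_lit 336) (nat_lit 5661963519) (nat_lit 420) (nat_lit 4653538464) (nat_lit 64) (nat_lit 5) (nat_lit 68) (nat_lit 5) (nat_lit 69) (nat_lit 5) (nat_lit 374) (nat_lit 315) (nat_lit 256)) (XT.lf (nat_lit 0) (nat_lit 8367794589) (nat_lit 336) (nat_lit 2146788081) (nat_lit 420) (nat_lit 2152354061) (nat_lit 64) (nat_lit 5) (nat_lit 68) (nat_lit 5) (nat_lit 69) (nat_lit 5) (nat_lit 375) (nat_lit 315) (nat_lit 255))) (XT.nd (nat_lit 94) (nat_lit 0) (nat_lit 0) (XT.lf (nat_lit 0) (nat_lit 415335985) (nat_lit 336) (nat_lit 11044456455) (nat_lit 84) (nat_lit 1454017802) (nat_lit 60) (nat_lit 5) (nat_lit 64) (nat_lit 5) (nat_lit 61) (nat_lit 5) (nat_lit 376) (nat_lit 315) (nat_lit 254)) (XT.lf (nat_lit 0) (nat_lit 3049646644) (nat_lit 336) (nat_lit 4945527449) (nat_lit 84) (nat_lit 5171329913) (nat_lit 60) (nat_lit 5) (nat_lit 64) (nat_lit 5) (nat_lit 61) (nat_lit 5) (nat_lit 377) (nat_lit 315) (nat_lit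 253))))) (XT.nd (nat_lit 376) (nat_lit 504) (nat_lit 0) (XT.nd (nat_lit 188) (nat_lit 336) (nat_lit 0) (XT.nd (nat_lit 94) (nat_lit 0) (nat_lit 0) (XT.lf (nat_lit 0) (nat_lit 1316647320) (nat_lit 336) (nat_lit 4427687014) (nat_lit 420) (nat_lit 7683041548) (nat_lit 56) (nat_lit 5) (nat_lit 60) (nat_lit 5) (nat_lit 61) (nat_lit 5) (nat_lit 378) (nat_lit 315) (nat_lit 252)) (XT.lf (nat_lit 0) (nat_lit 7823096401) (nat_lit 336) (nat_lit 715877307) (nat_lit 420) (nat_lit 5156563506) (nat_lit 56) (nat_lit 5) (nat_lit 60) (nat_lit 5) (nat_lit 61) (nat_lit 5) (nat_lit 379) (nat_lit 315) (nat_lit 251))) (XT.nd (nat_lit 94) (nat_lit 84) (nat_lit 0) (XT.lf (nat_lit 0) (nat_lit 488191664) (nat_lit 252) (nat_lit 10933759429) (nat_lit 336) (nat_lit 2549692893) (nat_lit 53) (nat_lit 5) (nat_lit 56) (nat_lit 5) (nat_lit 57) (nat_lit 5) (nat_lit 380) (nat_lit 315) (nat_lit 250)) (XT.lf (nat_lit 0) (nat_lit 169779460)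 (nat_lit 336) (nat_lit 7147863568) (nat_lit 84) (nat_lit 6937274291) (nat_lit 52) (nat_lit 5) (nat_lit 56) (nat_lit 5) (nat_lit 53) (nat_lit 5) (nat_lit 381) (nat_lit 315) (nat_lit 249)))) (XT.nd (nat_lit 188) (nat_lit 252) (nat_lit 0) (XT.nd (nat_lit 94) (nat_lit 252) (nat_lit 0) (XT.lf (nat_lit 0) (nat_lit 2890523943) (nat_lit 336) (nat_lit 690805604) (nat_lit 84) (nat_lit 10965506489) (nat_lit 52) (nat_lit 5) (nat_lit 56) (nat_lit 5) (nat_lit 53) (nat_lit 5) (nat_lit 382) (nat_lit 315) (nat_lit 248)) (XT.lf (nat_lit 0) (nat_lit 5725698322) (nat_lit 336) (nat_lit 8814008166) (nat_lit 84) (nat_lit 306853199) (nat_lit 49) (nat_lit 5) (nat_lit 53) (nat_lit 5) (nat_lit 50) (nat_lit 5) (nat_lit 383) (nat_lit 315) (nat_lit 247))) (XT.nd (nat_lit 94) (nat_lit 252) (nat_lit 0) (XT.lf (nat_lit 0) (nat_lit 8660500172) (nat_lit 336) (nat_lit 2261233110) (nat_lit 84) (nat_lit 4233135277) (nat_lit 49) (nat_lit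 5) (nat_lit 53) (nat_lit 5) (nat_lit 50) (nat_lit 5) (nat_lit 384) (nat_lit 315) (nat_lit 246)) (XT.lf (nat_lit 0) (nat_lit 4535453711) (nat_lit 252) (nat_lit 7164372139) (nat_lit 336) (nat_lit 3772136239) (nat_lit 46) (nat_lit 5) (nat_lit 49) (nat_lit 5) (nat_lit 50) (nat_lit 5) (nat_lit 385) (nat_lit 315) (nat_lit 245)))))) (XT.nd (nat_lit 53110) (nat_lit 0) (nat_lit 19068) (XT.nd (nat_lit 52734) (nat_lit 0) (nat_lit 20244) (XT.nd (nat_lit 188) (nat_lit 168) (nat_lit 0) (XT.nd (nat_lit 94) (nat_lit 336) (nat_lit 0) (XT.lf (nat_lit 0) (nat_lit 11541623348) (nat_lit 252) (nat_lit 3284822112) (nat_lit 336) (nat_lit 972268457) (nat_lit 46) (nat_lit 5) (nat_lit 49) (nat_lit 5) (nat_lit 50) (nat_lit 5) (nat_lit 386) (nat_lit 315) (nat_lit 244)) (XT.lf (nat_lit 0) (nat_lit 1880339319) (nat_lit 336) (nat_lit 13526675290) (nat_lit 84) (nat_lit 727548303) (nat_lit 42) (nat_lit 5) (nat_lit 46) (nat_lit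 5) (nat_lit 43) (nat_lit 5) (nat_lit 387) (nat_lit 315) (nat_lit 243))) (XT.nd (nat_lit 94) (nat_lit 168) (nat_lit 0) (XT.lf (nat_lit 0) (nat_lit 4848942896) (nat_lit 336) (nat_lit 6796098743) (nat_lit 84) (nat_lit 4833684633) (nat_lit 42) (nat_lit 5) (nat_lit 46) (nat_lit 5) (nat_lit 43) (nat_lit 5) (nat_lit 388) (nat_lit 315) (nat_lit 242)) (XT.lf (nat_lit 0) (nat_lit 99098458) (nat_lit 168) (nat_lit 7783237663) (nat_lit 252) (nat_lit 8951632159) (nat_lit 40) (nat_lit 5) (nat_lit 42) (nat_lit 5) (nat_lit 43) (nat_lit 5) (nat_lit 389) (nat_lit 315) (nat_lit 241)))) (XT.nd (nat_lit 188) (nat_lit 252) (nat_lit 0) (XT.nd (nat_lit 94) (nat_lit 252) (nat_lit 0) (XT.lf (nat_lit 0) (nat_lit 1413013548) (nat_lit 0) (nat_lit 1413013548) (nat_lit 84) (nat_lit 397162595) (nat_lit 287) (nat_lit 5) (nat_lit 287) (nat_lit 3) (nat_lit 288) (nat_lit 0) (nat_lit 316) (nat_lit 316) (nat_lit 313)) (XT.lf (nat_lit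 0) (nat_lit 1935009732) (nat_lit 252) (nat_lit 730093897) (nat_lit 252) (nat_lit 3787298240) (nat_lit 284) (nat_lit 3) (nat_lit 287) (nat_lit 3) (nat_lit 287) (nat_lit 5) (nat_lit 317) (nat_lit 316) (nat_lit 312))) (XT.nd (nat_lit 94) (nat_lit 252) (nat_lit 0) (XT.lf (nat_lit 84) (nat_lit 2227515945) (nat_lit 0) (nat_lit 2417786541) (nat_lit 252) (nat_lit 1815972031) (nat_lit 285) (nat_lit 5) (nat_lit 284) (nat_lit 3) (nat_lit 287) (nat_lit 5) (nat_lit 318) (nat_lit 316) (nat_lit 311)) (XT.lf (nat_lit 0) (nat_lit 849914947) (nat_lit 252) (nat_lit 1247584277) (nat_lit 336) (nat_lit 4375903125) (nat_lit 281) (nat_lit 5) (nat_lit 284) (nat_lit 3) (nat_lit 285) (nat_lit 5) (nat_lit 319) (nat_lit 316) (nat_lit 310))))) (XT.nd (nat_lit 376) (nat_lit 840) (nat_lit 0) (XT.nd (nat_lit 188) (nat_lit 336) (nat_lit 0) (XT.nd (nat_lit 94) (nat_lit 0) (nat_lit 0) (XT.lf (nat_lit 84) (nat_lit 1789930198) (nat_lit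 0) (nat_lit 1684456429) (nat_lit 336) (nat_lit 3013841217) (nat_lit 282) (nat_lit 5) (nat_lit 281) (nat_lit 5) (nat_lit 285) (nat_lit 5) (nat_lit 320) (nat_lit 316) (nat_lit 309)) (XT.lf (nat_lit 84) (nat_lit 4889492361) (nat_lit 0) (nat_lit 1201048078) (nat_lit 336) (nat_lit 415886163) (nat_lit 282) (nat_lit 5) (nat_lit 281) (nat_lit 5) (nat_lit 285) (nat_lit 5) (nat_lit 321) (nat_lit 316) (nat_lit 308))) (XT.nd (nat_lit 94) (nat_lit 0) (nat_lit 84) (XT.lf (nat_lit 84) (nat_lit 1509287647) (nat_lit 0) (nat_lit 623119858) (nat_lit 420) (nat_lit 4394915800) (nat_lit 278) (nat_lit 5) (nat_lit 277) (nat_lit 5) (nat_lit 282) (nat_lit 5) (nat_lit 322) (nat_lit 316) (nat_lit 307)) (XT.lf (nat_lit 0) (nat_lit 4669726921) (nat_lit 336) (nat_lit 1848247832) (nat_lit 84) (nat_lit 33410594) (nat_lit 278) (nat_lit 5) (nat_lit 282) (nat_lit 5) (nat_lit 279) (nat_lit 5) (nat_lit 323) (nat_lit 316) (nat_lit 306))))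 (XT.nd (nat_lit 188) (nat_lit 504) (nat_lit 0) (XT.nd (nat_lit 94) (nat_lit 0) (nat_lit 0) (XT.lf (nat_lit 0) (nat_lit 619132906) (nat_lit 420) (nat_lit 5203926839) (nat_lit 84) (nat_lit 755401046) (nat_lit 273) (nat_lit 5) (nat_lit 278) (nat_lit 5) (nat_lit 274) (nat_lit 5) (nat_lit 324) (nat_lit 316) (nat_lit 305)) (XT.lf (nat_lit 0) (nat_lit 3084459217) (nat_lit 420) (nat_lit 1950871145) (nat_lit 84) (nat_lit 1572904737) (nat_lit 273) (nat_lit 5) (nat_lit 278) (nat_lit 5) (nat_lit 274) (nat_lit 5) (nat_lit 325) (nat_lit 316) (nat_lit 304))) (XT.nd (nat_lit 94) (nat_lit 84) (nat_lit 0) (XT.lf (nat_lit 0) (nat_lit 1370050701) (nat_lit 420) (nat_lit 4178012191) (nat_lit 504) (nat_lit 1093367917) (nat_lit 268) (nat_lit 5) (nat_lit 273) (nat_lit 5) (nat_lit 274) (nat_lit 5) (nat_lit 326) (nat_lit 316) (nat_lit 303)) (XT.lf (nat_lit 0) (nat_lit 1314427655) (nat_lit 504) (nat_lit 1916087642) (nat_lit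 84) (nat_lit 3446983742) (nat_lit 267) (nat_lit 5) (nat_lit 273) (nat_lit 5) (nat_lit 268) (nat_lit 5) (nat_lit 327) (nat_lit 316) (nat_lit 302))))))))
noncomputable def xc23 : XT := (XT.nd (nat_lit 3008) (nat_lit 5040) (nat_lit 0) (XT.nd (nat_lit 1504) (nat_lit 5880) (nat_lit 0) (XT.nd (nat_lit 752) (nat_lit 5292) (nat_lit 0) (XT.nd (nat_lit 376) (nat_lit 1512) (nat_lit 0) (XT.nd (nat_lit 188) (nat_lit 672) (nat_lit 0) (XT.nd (nat_lit 94) (nat_lit 0) (nat_lit 0) (XT.lf (nat_lit 0) (nat_lit 1502137641) (nat_lit 504) (nat_lit 2199437282) (nat_lit 588) (nat_lit 3015112658) (nat_lit 261) (nat_lit 5) (nat_lit 267) (nat_lit 5) (nat_lit 268) (nat_lit 5) (nat_lit 328) (nat_lit 316) (nat_lit 301)) (XT.lf (nat_lit 0) (nat_lit 5006526059) (nat_lit 504) (nat_lit 1089764007) (nat_lit 588) (nat_lit 662912072) (nat_lit 261) (nat_lit 5) (nat_lit 267) (nat_lit 5) (nat_lit 268) (nat_lit 5) (nat_lit 329) (nat_lit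 316) (nat_lit 300))) (XT.nd (nat_lit 94) (nat_lit 0) (nat_lit 0) (XT.lf (nat_lit 0) (nat_lit 1661687486) (nat_lit 672) (nat_lit 5030863118) (nat_lit 84) (nat_lit 112064622) (nat_lit 253) (nat_lit 5) (nat_lit 261) (nat_lit 5) (nat_lit 254) (nat_lit 5) (nat_lit 330) (nat_lit 316) (nat_lit 299)) (XT.lf (nat_lit 0) (nat_lit 3991473112) (nat_lit 672) (nat_lit 1484678566) (nat_lit 84) (nat_lit 1376788497) (nat_lit 253) (nat_lit 5) (nat_lit 261) (nat_lit 5) (nat_lit 254) (nat_lit 5) (nat_lit 331) (nat_lit 316) (nat_lit 298)))) (XT.nd (nat_lit 188) (nat_lit 756) (nat_lit 0) (XT.nd (nat_lit 94) (nat_lit 84) (nat_lit 0) (XT.lf (nat_lit 0) (nat_lit 2153415680) (nat_lit 672) (nat_lit 4180871903) (nat_lit 756) (nat_lit 570336662) (nat_lit 245) (nat_lit 5) (nat_lit 253) (nat_lit 5) (nat_lit 254) (nat_lit 5) (nat_lit 332) (nat_lit 316) (nat_lit 297)) (XT.lf (nat_lit 0) (nat_lit 1692960464) (nat_lit 756) (nat_lit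 1101335160) (nat_lit 84) (nat_lit 4165088317) (nat_lit 244) (nat_lit 5) (nat_lit 253) (nat_lit 5) (nat_lit 245) (nat_lit 5) (nat_lit 333) (nat_lit 316) (nat_lit 296))) (XT.nd (nat_lit 94) (nat_lit 0) (nat_lit 0) (XT.lf (nat_lit 0) (nat_lit 2648077756) (nat_lit 756) (nat_lit 1315519192) (nat_lit 840) (nat_lit 3053679131) (nat_lit 235) (nat_lit 5) (nat_lit 244) (nat_lit 5) (nat_lit 245) (nat_lit 5) (nat_lit 334) (nat_lit 316) (nat_lit 295)) (XT.lf (nat_lit 0) (nat_lit 6242834981) (nat_lit 840) (nat_lit 604098491) (nat_lit 84) (nat_lit 231937781) (nat_lit 235) (nat_lit 5) (nat_lit 245) (nat_lit 5) (nat_lit 236) (nat_lit 5) (nat_lit 335) (nat_lit 316) (nat_lit 294))))) (XT.nd (nat_lit 376) (nat_lit 2352) (nat_lit 0) (XT.nd (nat_lit 188) (nat_lit 2016) (nat_lit 0) (XT.nd (nat_lit 94) (nat_lit 0) (nat_lit 0) (XT.lf (nat_lit 0) (nat_lit 1393263304) (nat_lit 924) (nat_lit 3888508686) (nat_lit 84) (nat_lit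 1861093476) (nat_lit 224) (nat_lit 5) (nat_lit 235) (nat_lit 5) (nat_lit 225) (nat_lit 5) (nat_lit 336) (nat_lit 316) (nat_lit 293)) (XT.lf (nat_lit 0) (nat_lit 3608843099) (nat_lit 924) (nat_lit 33273377) (nat_lit 84) (nat_lit 3568493969) (nat_lit 224) (nat_lit 5) (nat_lit 235) (nat_lit 5) (nat_lit 225) (nat_lit 5) (nat_lit 337) (nat_lit 316) (nat_lit 292))) (XT.nd (nat_lit 94) (nat_lit 1092) (nat_lit 0) (XT.lf (nat_lit 0) (nat_lit 3959258948) (nat_lit 924) (nat_lit 1901771832) (nat_lit 1008) (nat_lit 1420413367) (nat_lit 213) (nat_lit 5) (nat_lit 224) (nat_lit 5) (nat_lit 225) (nat_lit 5) (nat_lit 338) (nat_lit 316) (nat_lit 291)) (XT.lf (nat_lit 0) (nat_lit 666347827) (nat_lit 1008) (nat_lit 83371880) (nat_lit 1092) (nat_lit 6606412290) (nat_lit 200) (nat_lit 5) (nat_lit 212) (nat_lit 5) (nat_lit 213) (nat_lit 5) (nat_lit 339) (nat_lit 316) (nat_lit 290)))) (XT.nd (nat_lit 188) (nat_lit 1260)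 (nat_lit 0) (XT.nd (nat_lit 94) (nat_lit 1092) (nat_lit 0) (XT.lf (nat_lit 0) (nat_lit 2941725510) (nat_lit 1092) (nat_lit 2679241268) (nat_lit 84) (nat_lit 1812259232) (nat_lit 200) (nat_lit 5) (nat_lit 213) (nat_lit 5) (nat_lit 201) (nat_lit 5) (nat_lit 340) (nat_lit 316) (nat_lit 289)) (XT.lf (nat_lit 0) (nat_lit 1422009520) (nat_lit 1092) (nat_lit 3728127518) (nat_lit 1176) (nat_lit 2364119121) (nat_lit 187) (nat_lit 5) (nat_lit 200) (nat_lit 5) (nat_lit 201) (nat_lit 5) (nat_lit 341) (nat_lit 316) (nat_lit 288))) (XT.nd (nat_lit 94) (nat_lit 1260) (nat_lit 0) (XT.lf (nat_lit 0) (nat_lit 5645242420) (nat_lit 1092) (nat_lit 1744086036) (nat_lit 1176) (nat_lit 209591458) (nat_lit 187) (nat_lit 5) (nat_lit 200) (nat_lit 5) (nat_lit 201) (nat_lit 5) (nat_lit 342) (nat_lit 316) (nat_lit 287)) (XT.lf (nat_lit 0) (nat_lit 1934163077) (nat_lit 1260) (nat_lit 5411709854) (nat_lit 84) (nat_lit 340887555)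 (nat_lit 172) (nat_lit 5) (nat_lit 187) (nat_lit 5) (nat_lit 173) (nat_lit 5) (nat_lit 343) (nat_lit 316) (nat_lit 286)))))) (XT.nd (nat_lit 752) (nat_lit 2688) (nat_lit 0) (XT.nd (nat_lit 376) (nat_lit 1260) (nat_lit 0) (XT.nd (nat_lit 188) (nat_lit 672) (nat_lit 0) (XT.nd (nat_lit 94) (nat_lit 1260) (nat_lit 0) (XT.lf (nat_lit 0) (nat_lit 4115077849) (nat_lit 1260) (nat_lit 1182628586) (nat_lit 84) (nat_lit 2480282552) (nat_lit 172) (nat_lit 5) (nat_lit 187) (nat_lit 5) (nat_lit 173) (nat_lit 5) (nat_lit 344) (nat_lit 316) (nat_lit 285)) (XT.lf (nat_lit 0) (nat_lit 3179906088) (nat_lit 1260) (nat_lit 3153700944) (nat_lit 1344) (nat_lit 1539304780) (nat_lit 157) (nat_lit 5) (nat_lit 172) (nat_lit 5) (nat_lit 173) (nat_lit 5) (nat_lit 345) (nat_lit 316) (nat_lit 284))) (XT.nd (nat_lit 94) (nat_lit 588) (nat_lit 0) (XT.lf (nat_lit 0) (nat_lit 589533831) (nat_lit 1344) (nat_lit 335306620) (nat_lit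 84) (nat_lit 7047145940) (nat_lit 156) (nat_lit 5) (nat_lit 172) (nat_lit 5) (nat_lit 157) (nat_lit 5) (nat_lit 346) (nat_lit 316) (nat_lit 283)) (XT.lf (nat_lit 0) (nat_lit 2748867336) (nat_lit 672) (nat_lit 3923323755) (nat_lit 84) (nat_lit 1401570484) (nat_lit 149) (nat_lit 5) (nat_lit 157) (nat_lit 5) (nat_lit 150) (nat_lit 5) (nat_lit 347) (nat_lit 316) (nat_lit 282)))) (XT.nd (nat_lit 188) (nat_lit 672) (nat_lit 0) (XT.nd (nat_lit 94) (nat_lit 0) (nat_lit 0) (XT.lf (nat_lit 0) (nat_lit 544784588) (nat_lit 588) (nat_lit 4390932088) (nat_lit 672) (nat_lit 3244100619) (nat_lit 142) (nat_lit 5) (nat_lit 149) (nat_lit 5) (nat_lit 150) (nat_lit 5) (nat_lit 348) (nat_lit 316) (nat_lit 281)) (XT.lf (nat_lit 0) (nat_lit 5172112111) (nat_lit 588) (nat_lit 2001673102) (nat_lit 672) (nat_lit 1115807230) (nat_lit 142) (nat_lit 5) (nat_lit 149) (nat_lit 5) (nat_lit 150) (nat_lit 5) (nat_lit 349) (nat_lit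 316) (nat_lit 280))) (XT.nd (nat_lit 94) (nat_lit 0) (nat_lit 0) (XT.lf (nat_lit 0) (nat_lit 1021339761) (nat_lit 672) (nat_lit 6908530605) (nat_lit 84) (nat_lit 473599923) (nat_lit 134) (nat_lit 5) (nat_lit 142) (nat_lit 5) (nat_lit 135) (nat_lit 5) (nat_lit 350) (nat_lit 316) (nat_lit 279)) (XT.lf (nat_lit 0) (nat_lit 3199735993) (nat_lit 672) (nat_lit 2297254730) (nat_lit 84) (nat_lit 3023552635) (nat_lit 134) (nat_lit 5) (nat_lit 142) (nat_lit 5) (nat_lit 135) (nat_lit 5) (nat_lit 351) (nat_lit 316) (nat_lit 278))))) (XT.nd (nat_lit 376) (nat_lit 1512) (nat_lit 0) (XT.nd (nat_lit 188) (nat_lit 588) (nat_lit 0) (XT.nd (nat_lit 94) (nat_lit 0) (nat_lit 0) (XT.lf (nat_lit 0) (nat_lit 2445819729) (nat_lit 588) (nat_lit 2970641874) (nat_lit 672) (nat_lit 3225572021) (nat_lit 127) (nat_lit 5) (nat_lit 134) (nat_lit 5) (nat_lit 135) (nat_lit 5) (nat_lit 352) (nat_lit 316) (nat_lit 277)) (XT.lf (nat_lit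 0) (nat_lit 7324543473) (nat_lit 588) (nat_lit 348765366) (nat_lit 672) (nat_lit 1094742745) (nat_lit 127) (nat_lit 5) (nat_lit 134) (nat_lit 5) (nat_lit 135) (nat_lit 5) (nat_lit 353) (nat_lit 316) (nat_lit 276))) (XT.nd (nat_lit 94) (nat_lit 0) (nat_lit 0) (XT.lf (nat_lit 0) (nat_lit 1086060736) (nat_lit 588) (nat_lit 5465672859) (nat_lit 84) (nat_lit 2345660159) (nat_lit 120) (nat_lit 5) (nat_lit 127) (nat_lit 5) (nat_lit 121) (nat_lit 5) (nat_lit 354) (nat_lit 316) (nat_lit 275)) (XT.lf (nat_lit 0) (nat_lit 3280625975) (nat_lit 588) (nat_lit 615991249) (nat_lit 84) (nat_lit 5134647377) (nat_lit 120) (nat_lit 5) (nat_lit 127) (nat_lit 5) (nat_lit 121) (nat_lit 5) (nat_lit 355) (nat_lit 316) (nat_lit 274)))) (XT.nd (nat_lit 188) (nat_lit 588) (nat_lit 0) (XT.nd (nat_lit 94) (nat_lit 420) (nat_lit 0) (XT.lf (nat_lit 0) (nat_lit 4412693051) (nat_lit 504) (nat_lit 1124312674) (nat_lit 588) (nat_lit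 3632347890) (nat_lit 114) (nat_lit 5) (nat_lit 120) (nat_lit 5) (nat_lit 121) (nat_lit 5) (nat_lit 356) (nat_lit 316) (nat_lit 273)) (XT.lf (nat_lit 0) (nat_lit 227744057) (nat_lit 420) (nat_lit 7612794542) (nat_lit 504) (nat_lit 1471741849) (nat_lit 109) (nat_lit 5) (nat_lit 114) (nat_lit 5) (nat_lit 115) (nat_lit 5) (nat_lit 357) (nat_lit 316) (nat_lit 272))) (XT.nd (nat_lit 94) (nat_lit 504) (nat_lit 0) (XT.lf (nat_lit 0) (nat_lit 753266961) (nat_lit 504) (nat_lit 4071635365) (nat_lit 84) (nat_lit 4634021130) (nat_lit 108) (nat_lit 5) (nat_lit 114) (nat_lit 5) (nat_lit 109) (nat_lit 5) (nat_lit 358) (nat_lit 316) (nat_lit 271)) (XT.lf (nat_lit 0) (nat_lit 1045128884) (nat_lit 504) (nat_lit 1936335170) (nat_lit 588) (nat_lit 6629156287) (nat_lit 102) (nat_lit 5) (nat_lit 108) (nat_lit 5) (nat_lit 109) (nat_lit 5) (nat_lit 359) (nat_lit 316) (nat_lit 270))))))) (XT.nd (nat_lit 1504) (nat_lit 1848)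 (nat_lit 0) (XT.nd (nat_lit 752) (nat_lit 1428) (nat_lit 0) (XT.nd (nat_lit 376) (nat_lit 840) (nat_lit 0) (XT.nd (nat_lit 188) (nat_lit 504) (nat_lit 0) (XT.nd (nat_lit 94) (nat_lit 420) (nat_lit 0) (XT.lf (nat_lit 0) (nat_lit 5284689817) (nat_lit 588) (nat_lit 3430285665) (nat_lit 84) (nat_lit 1051717359) (nat_lit 102) (nat_lit 5) (nat_lit 109) (nat_lit 5) (nat_lit 103) (nat_lit 5) (nat_lit 360) (nat_lit 316) (nat_lit 269)) (XT.lf (nat_lit 0) (nat_lit 1823823081) (nat_lit 420) (nat_lit 5827828242) (nat_lit 504) (nat_lit 2276025170) (nat_lit 97) (nat_lit 5) (nat_lit 102) (nat_lit 5) (nat_lit 103) (nat_lit 5) (nat_lit 361) (nat_lit 316) (nat_lit 268))) (XT.nd (nat_lit 94) (nat_lit 504) (nat_lit 0) (XT.lf (nat_lit 0) (nat_lit 7254807238) (nat_lit 420) (nat_lit 2828123531) (nat_lit 504) (nat_lit 10825773) (nat_lit 97) (nat_lit 5) (nat_lit 102) (nat_lit 5) (nat_lit 103) (nat_lit 5) (nat_lit 362) (nat_lit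 316) (nat_lit 267)) (XT.lf (nat_lit 0) (nat_lit 2263929343) (nat_lit 504) (nat_lit 7706468481) (nat_lit 84) (nat_lit 294206318) (nat_lit 91) (nat_lit 5) (nat_lit 97) (nat_lit 5) (nat_lit 92) (nat_lit 5) (nat_lit 363) (nat_lit 316) (nat_lit 266)))) (XT.nd (nat_lit 188) (nat_lit 504) (nat_lit 0) (XT.nd (nat_lit 94) (nat_lit 336) (nat_lit 0) (XT.lf (nat_lit 0) (nat_lit 4623681024) (nat_lit 504) (nat_lit 2343894357) (nat_lit 84) (nat_lit 3472549975) (nat_lit 91) (nat_lit 5) (nat_lit 97) (nat_lit 5) (nat_lit 92) (nat_lit 5) (nat_lit 364) (nat_lit 316) (nat_lit 265)) (XT.lf (nat_lit 0) (nat_lit 3192223698) (nat_lit 336) (nat_lit 3853870285) (nat_lit 420) (nat_lit 3575120946) (nat_lit 87) (nat_lit 5) (nat_lit 91) (nat_lit 5) (nat_lit 92) (nat_lit 5) (nat_lit 365) (nat_lit 316) (nat_lit 264))) (XT.nd (nat_lit 94) (nat_lit 504) (nat_lit 0) (XT.lf (nat_lit 0) (nat_lit 8893334278) (nat_lit 336) (nat_lit 633355149)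 (nat_lit 420) (nat_lit 1281539530) (nat_lit 87) (nat_lit 5) (nat_lit 91) (nat_lit 5) (nat_lit 92) (nat_lit 5) (nat_lit 366) (nat_lit 316) (nat_lit 263)) (XT.lf (nat_lit 0) (nat_lit 1084774939) (nat_lit 504) (nat_lit 7247304780) (nat_lit 84) (nat_lit 2667765281) (nat_lit 81) (nat_lit 5) (nat_lit 87) (nat_lit 5) (nat_lit 82) (nat_lit 5) (nat_lit 367) (nat_lit 316) (nat_lit 262))))) (XT.nd (nat_lit 376) (nat_lit 756) (nat_lit 0) (XT.nd (nat_lit 188) (nat_lit 336) (nat_lit 0) (XT.nd (nat_lit 94) (nat_lit 336) (nat_lit 0) (XT.lf (nat_lit 0) (nat_lit 3485173804) (nat_lit 504) (nat_lit 1635609665) (nat_lit 84) (nat_lit 6076432049) (nat_lit 81) (nat_lit 5) (nat_lit 87) (nat_lit 5) (nat_lit 82) (nat_lit 5) (nat_lit 368) (nat_lit 316) (nat_lit 261)) (XT.lf (nat_lit 0) (nat_lit 4178318832) (nat_lit 336) (nat_lit 1783560127) (nat_lit 420) (nat_lit 5438550071) (nat_lit 77) (nat_lit 5) (nat_lit 81) (nat_lit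 5) (nat_lit 82) (nat_lit 5) (nat_lit 369) (nat_lit 316) (nat_lit 260))) (XT.nd (nat_lit 94) (nat_lit 336) (nat_lit 0) (XT.lf (nat_lit 0) (nat_lit 8510068919) (nat_lit 420) (nat_lit 1473288056) (nat_lit 84) (nat_lit 1626515692) (nat_lit 77) (nat_lit 5) (nat_lit 82) (nat_lit 5) (nat_lit 78) (nat_lit 5) (nat_lit 370) (nat_lit 316) (nat_lit 259)) (XT.lf (nat_lit 0) (nat_lit 4470807007) (nat_lit 336) (nat_lit 6690170116) (nat_lit 420) (nat_lit 663882109) (nat_lit 73) (nat_lit 5) (nat_lit 77) (nat_lit 5) (nat_lit 78) (nat_lit 5) (nat_lit 371) (nat_lit 316) (nat_lit 258)))) (XT.nd (nat_lit 188) (nat_lit 336) (nat_lit 0) (XT.nd (nat_lit 94) (nat_lit 336) (nat_lit 0) (XT.lf (nat_lit 0) (nat_lit 1789949736) (nat_lit 420) (nat_lit 1487348041) (nat_lit 84) (nat_lit 8769085454) (nat_lit 72) (nat_lit 5) (nat_lit 77) (nat_lit 5) (nat_lit 73) (nat_lit 5) (nat_lit 372) (nat_lit 316) (nat_lit 257)) (XT.lf (nat_lit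 0) (nat_lit 4317679550) (nat_lit 420) (nat_lit 7684006513) (nat_lit 84) (nat_lit 272304644) (nat_lit 68) (nat_lit 5) (nat_lit 73) (nat_lit 5) (nat_lit 69) (nat_lit 5) (nat_lit 373) (nat_lit 316) (nat_lit 256))) (XT.nd (nat_lit 94) (nat_lit 336) (nat_lit 0) (XT.lf (nat_lit 0) (nat_lit 6936077575) (nat_lit 420) (nat_lit 1706572197) (nat_lit 84) (nat_lit 3865374012) (nat_lit 68) (nat_lit 5) (nat_lit 73) (nat_lit 5) (nat_lit 69) (nat_lit 5) (nat_lit 374) (nat_lit 316) (nat_lit 255)) (XT.lf (nat_lit 0) (nat_lit 4493080018) (nat_lit 336) (nat_lit 5151312337) (nat_lit 420) (nat_lit 3104385782) (nat_lit 64) (nat_lit 5) (nat_lit 68) (nat_lit 5) (nat_lit 69) (nat_lit 5) (nat_lit 375) (nat_lit 316) (nat_lit 254)))))) (XT.nd (nat_lit 752) (nat_lit 588) (nat_lit 0) (XT.nd (nat_lit 376) (nat_lit 588) (nat_lit 0) (XT.nd (nat_lit 188) (nat_lit 336) (nat_lit 0) (XT.nd (nat_lit 94) (nat_lit 336) (nat_lit 0) (XT.lf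 (nat_lit 0) (nat_lit 10869362584) (nat_lit 336) (nat_lit 1550502318) (nat_lit 420) (nat_lit 577352998) (nat_lit 64) (nat_lit 5) (nat_lit 68) (nat_lit 5) (nat_lit 69) (nat_lit 5) (nat_lit 376) (nat_lit 316) (nat_lit 253)) (XT.lf (nat_lit 0) (nat_lit 2016828636) (nat_lit 336) (nat_lit 9070829493) (nat_lit 84) (nat_lit 2163980475) (nat_lit 60) (nat_lit 5) (nat_lit 64) (nat_lit 5) (nat_lit 61) (nat_lit 5) (nat_lit 377) (nat_lit 316) (nat_lit 252))) (XT.nd (nat_lit 94) (nat_lit 336) (nat_lit 0) (XT.lf (nat_lit 0) (nat_lit 4683886112) (nat_lit 336) (nat_lit 2856067393) (nat_lit 84) (nat_lit 5973403927) (nat_lit 60) (nat_lit 5) (nat_lit 64) (nat_lit 5) (nat_lit 61) (nat_lit 5) (nat_lit 378) (nat_lit 316) (nat_lit 251)) (XT.lf (nat_lit 0) (nat_lit 3572033150) (nat_lit 336) (nat_lit 3863747271) (nat_lit 420) (nat_lit 6347038215) (nat_lit 56) (nat_lit 5) (nat_lit 60) (nat_lit 5) (nat_lit 61) (nat_lit 5)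 (nat_lit 379) (nat_lit 316) (nat_lit 250)))) (XT.nd (nat_lit 188) (nat_lit 336) (nat_lit 0) (XT.nd (nat_lit 94) (nat_lit 252) (nat_lit 0) (XT.lf (nat_lit 0) (nat_lit 10209135323) (nat_lit 336) (nat_lit 60877555) (nat_lit 420) (nat_lit 3790391887) (nat_lit 56) (nat_lit 5) (nat_lit 60) (nat_lit 5) (nat_lit 61) (nat_lit 5) (nat_lit 380) (nat_lit 316) (nat_lit 249)) (XT.lf (nat_lit 0) (nat_lit 2672200465) (nat_lit 252) (nat_lit 10551488289) (nat_lit 336) (nat_lit 1121630754) (nat_lit 53) (nat_lit 5) (nat_lit 56) (nat_lit 5) (nat_lit 57) (nat_lit 5) (nat_lit 381) (nat_lit 316) (nat_lit 248))) (XT.nd (nat_lit 94) (nat_lit 252) (nat_lit 0) (XT.lf (nat_lit 0) (nat_lit 1607099718) (nat_lit 336) (nat_lit 5226013877) (nat_lit 84) (nat_lit 7804880683) (nat_lit 52) (nat_lit 5) (nat_lit 56) (nat_lit 5) (nat_lit 53) (nat_lit 5) (nat_lit 382) (nat_lit 316) (nat_lit 247)) (XT.lf (nat_lit 0) (nat_lit 1389651010)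 (nat_lit 252) (nat_lit 2991458354) (nat_lit 336) (nat_lit 10558458618) (nat_lit 49) (nat_lit 5) (nat_lit 52) (nat_lit 5) (nat_lit 53) (nat_lit 5) (nat_lit 383) (nat_lit 316) (nat_lit 246))))) (XT.nd (nat_lit 376) (nat_lit 252) (nat_lit 0) (XT.nd (nat_lit 188) (nat_lit 336) (nat_lit 0) (XT.nd (nat_lit 94) (nat_lit 0) (nat_lit 0) (XT.lf (nat_lit 0) (nat_lit 7273796973) (nat_lit 336) (nat_lit 6988669205) (nat_lit 84) (nat_lit 986688775) (nat_lit 49) (nat_lit 5) (nat_lit 53) (nat_lit 5) (nat_lit 50) (nat_lit 5) (nat_lit 384) (nat_lit 316) (nat_lit 245)) (XT.lf (nat_lit 0) (nat_lit 10256555665) (nat_lit 336) (nat_lit 300177670) (nat_lit 84) (nat_lit 5011226403) (nat_lit 49) (nat_lit 5) (nat_lit 53) (nat_lit 5) (nat_lit 50) (nat_lit 5) (nat_lit 385) (nat_lit 316) (nat_lit 244))) (XT.nd (nat_lit 94) (nat_lit 84) (nat_lit 0) (XT.lf (nat_lit 0) (nat_lit 6680518653) (nat_lit 252) (nat_lit 6686934583) (nat_lit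 336) (nat_lit 2527743821) (nat_lit 46) (nat_lit 5) (nat_lit 49) (nat_lit 5) (nat_lit 50) (nat_lit 5) (nat_lit 386) (nat_lit 316) (nat_lit 243)) (XT.lf (nat_lit 0) (nat_lit 310401906) (nat_lit 336) (nat_lit 2397627778) (nat_lit 84) (nat_lit 13524822420) (nat_lit 45) (nat_lit 5) (nat_lit 49) (nat_lit 5) (nat_lit 46) (nat_lit 5) (nat_lit 387) (nat_lit 316) (nat_lit 242)))) (XT.nd (nat_lit 52640) (nat_lit 0) (nat_lit 20076) (XT.nd (nat_lit 94) (nat_lit 0) (nat_lit 0) (XT.lf (nat_lit 0) (nat_lit 3216811192) (nat_lit 336) (nat_lit 11941387367) (nat_lit 84) (nat_lit 1420695390) (nat_lit 42) (nat_lit 5) (nat_lit 46) (nat_lit 5) (nat_lit 43) (nat_lit 5) (nat_lit 388) (nat_lit 316) (nat_lit 241)) (XT.lf (nat_lit 0) (nat_lit 6237189526) (nat_lit 336) (nat_lit 5066886384) (nat_lit 84) (nat_lit 5630462781) (nat_lit 42) (nat_lit 5) (nat_lit 46) (nat_lit 5) (nat_lit 43) (nat_lit 5) (nat_lit 389) (nat_lit 316)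 (nat_lit 240))) (XT.nd (nat_lit 94) (nat_lit 252) (nat_lit 0) (XT.lf (nat_lit 0) (nat_lit 2298222916) (nat_lit 252) (nat_lit 465874284) (nat_lit 252) (nat_lit 465874284) (nat_lit 284) (nat_lit 3) (nat_lit 287) (nat_lit 3) (nat_lit 287) (nat_lit 5) (nat_lit 317) (nat_lit 317) (nat_lit 311)) (XT.lf (nat_lit 0) (nat_lit 767771785) (nat_lit 252) (nat_lit 4483066417) (nat_lit 336) (nat_lit 1219515419) (nat_lit 281) (nat_lit 5) (nat_lit 284) (nat_lit 3) (nat_lit 285) (nat_lit 5) (nat_lit 318) (nat_lit 317) (nat_lit 310))))))))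
noncomputable def xc24 : XT := (XT.nd (nat_lit 2914) (nat_lit 7224) (nat_lit 0) (XT.nd (nat_lit 1410) (nat_lit 8568) (nat_lit 0) (XT.nd (nat_lit 658) (nat_lit 2352) (nat_lit 0) (XT.nd (nat_lit 282) (nat_lit 420) (nat_lit 0) (XT.nd (nat_lit 94) (nat_lit 336) (nat_lit 0) (XT.lf (nat_lit 0) (nat_lit 3347927746) (nat_lit 252) (nat_lit 1541537081) (nat_lit 336) (nat_lit 1594162596) (nat_lit 281) (nat_lit 5) (nat_lit 284) (nat_lit 3) (nat_lit 285) (nat_lit 5) (nat_lit 319) (nat_lit 317) (nat_lit 309)) (XT.nd (nat_lit 94) (nat_lit 336) (nat_lit 0) (XT.lf (nat_lit 84) (nat_lit 1463204989) (nat_lit 0) (nat_lit 4457223792) (nat_lit 336) (nat_lit 579739384) (nat_lit 282) (nat_lit 5) (nat_lit 281) (nat_lit 5) (nat_lit 285) (nat_lit 5) (nat_lit 320) (nat_lit 317) (nat_lit 308)) (XT.lf (nat_lit 0) (nat_lit 1930553532) (nat_lit 336) (nat_lit 2002246144) (nat_lit 420) (nat_lit 2586580786) (nat_lit 277) (nat_lit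 5) (nat_lit 281) (nat_lit 5) (nat_lit 282) (nat_lit 5) (nat_lit 321) (nat_lit 317) (nat_lit 307)))) (XT.nd (nat_lit 188) (nat_lit 0) (nat_lit 0) (XT.nd (nat_lit 94) (nat_lit 420) (nat_lit 0) (XT.lf (nat_lit 84) (nat_lit 1085251036) (nat_lit 0) (nat_lit 3334531348) (nat_lit 420) (nat_lit 2122046208) (nat_lit 278) (nat_lit 5) (nat_lit 277) (nat_lit 5) (nat_lit 282) (nat_lit 5) (nat_lit 322) (nat_lit 317) (nat_lit 306)) (XT.lf (nat_lit 0) (nat_lit 336897526) (nat_lit 420) (nat_lit 2317469740) (nat_lit 504) (nat_lit 3912945618) (nat_lit 272) (nat_lit 5) (nat_lit 277) (nat_lit 5) (nat_lit 278) (nat_lit 5) (nat_lit 323) (nat_lit 317) (nat_lit 305))) (XT.nd (nat_lit 94) (nat_lit 0) (nat_lit 0) (XT.lf (nat_lit 84) (nat_lit 857833576) (nat_lit 0) (nat_lit 1886023154) (nat_lit 504) (nat_lit 3851833148) (nat_lit 273) (nat_lit 5) (nat_lit 272) (nat_lit 5) (nat_lit 278) (nat_lit 5) (nat_lit 324) (nat_lit 317)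 (nat_lit 304)) (XT.lf (nat_lit 84) (nat_lit 4122721590) (nat_lit 0) (nat_lit 1034506602) (nat_lit 504) (nat_lit 1469921587) (nat_lit 273) (nat_lit 5) (nat_lit 272) (nat_lit 5) (nat_lit 278) (nat_lit 5) (nat_lit 325) (nat_lit 317) (nat_lit 303))))) (XT.nd (nat_lit 376) (nat_lit 1344) (nat_lit 0) (XT.nd (nat_lit 188) (nat_lit 504) (nat_lit 0) (XT.nd (nat_lit 94) (nat_lit 0) (nat_lit 84) (XT.lf (nat_lit 84) (nat_lit 778113373) (nat_lit 0) (nat_lit 105919901) (nat_lit 588) (nat_lit 5777886206) (nat_lit 267) (nat_lit 5) (nat_lit 266) (nat_lit 5) (nat_lit 273) (nat_lit 5) (nat_lit 326) (nat_lit 317) (nat_lit 302)) (XT.lf (nat_lit 0) (nat_lit 3227432758) (nat_lit 504) (nat_lit 2565696554) (nat_lit 84) (nat_lit 905951084) (nat_lit 267) (nat_lit 5) (nat_lit 273) (nat_lit 5) (nat_lit 268) (nat_lit 5) (nat_lit 327) (nat_lit 317) (nat_lit 301))) (XT.nd (nat_lit 94) (nat_lit 84) (nat_lit 0) (XT.lf (nat_lit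 0) (nat_lit 812180759) (nat_lit 504) (nat_lit 4754949138) (nat_lit 588) (nat_lit 1172675334) (nat_lit 261) (nat_lit 5) (nat_lit 267) (nat_lit 5) (nat_lit 268) (nat_lit 5) (nat_lit 328) (nat_lit 317) (nat_lit 300)) (XT.lf (nat_lit 0) (nat_lit 1116121329) (nat_lit 588) (nat_lit 2504619881) (nat_lit 84) (nat_lit 3162556357) (nat_lit 260) (nat_lit 5) (nat_lit 267) (nat_lit 5) (nat_lit 261) (nat_lit 5) (nat_lit 329) (nat_lit 317) (nat_lit 299)))) (XT.nd (nat_lit 188) (nat_lit 756) (nat_lit 0) (XT.nd (nat_lit 94) (nat_lit 0) (nat_lit 0) (XT.lf (nat_lit 0) (nat_lit 974214604) (nat_lit 588) (nat_lit 2405564475) (nat_lit 672) (nat_lit 3450283804) (nat_lit 253) (nat_lit 5) (nat_lit 260) (nat_lit 5) (nat_lit 261) (nat_lit 5) (nat_lit 330) (nat_lit 317) (nat_lit 298)) (XT.lf (nat_lit 0) (nat_lit 4555028308) (nat_lit 588) (nat_lit 1103813977) (nat_lit 672) (nat_lit 1221167432) (nat_lit 253) (nat_lit 5) (nat_lit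 260) (nat_lit 5) (nat_lit 261) (nat_lit 5) (nat_lit 331) (nat_lit 317) (nat_lit 297))) (XT.nd (nat_lit 94) (nat_lit 0) (nat_lit 0) (XT.lf (nat_lit 0) (nat_lit 992327251) (nat_lit 756) (nat_lit 5663550145) (nat_lit 84) (nat_lit 277305004) (nat_lit 244) (nat_lit 5) (nat_lit 253) (nat_lit 5) (nat_lit 245) (nat_lit 5) (nat_lit 332) (nat_lit 317) (nat_lit 296)) (XT.lf (nat_lit 0) (nat_lit 3207770278) (nat_lit 756) (nat_lit 2046737159) (nat_lit 84) (nat_lit 1734463637) (nat_lit 244) (nat_lit 5) (nat_lit 253) (nat_lit 5) (nat_lit 245) (nat_lit 5) (nat_lit 333) (nat_lit 317) (nat_lit 295)))))) (XT.nd (nat_lit 752) (nat_lit 3780) (nat_lit 0) (XT.nd (nat_lit 376) (nat_lit 3108) (nat_lit 0) (XT.nd (nat_lit 188) (nat_lit 840) (nat_lit 0) (XT.nd (nat_lit 94) (nat_lit 84) (nat_lit 0) (XT.lf (nat_lit 0) (nat_lit 1656552781) (nat_lit 756) (nat_lit 3776667712) (nat_lit 840) (nat_lit 1615087344) (nat_lit 235) (nat_lit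 5) (nat_lit 244) (nat_lit 5) (nat_lit 245) (nat_lit 5) (nat_lit 334) (nat_lit 317) (nat_lit 294)) (XT.lf (nat_lit 0) (nat_lit 553199576) (nat_lit 840) (nat_lit 1657449691) (nat_lit 84) (nat_lit 4900291843) (nat_lit 234) (nat_lit 5) (nat_lit 244) (nat_lit 5) (nat_lit 235) (nat_lit 5) (nat_lit 335) (nat_lit 317) (nat_lit 293))) (XT.nd (nat_lit 94) (nat_lit 0) (nat_lit 0) (XT.lf (nat_lit 0) (nat_lit 2161265555) (nat_lit 840) (nat_lit 544008504) (nat_lit 924) (nat_lit 4471328981) (nat_lit 224) (nat_lit 5) (nat_lit 234) (nat_lit 5) (nat_lit 235) (nat_lit 5) (nat_lit 336) (nat_lit 317) (nat_lit 292)) (XT.lf (nat_lit 0) (nat_lit 4882167209) (nat_lit 924) (nat_lit 1182271576) (nat_lit 84) (nat_lit 1181148942) (nat_lit 224) (nat_lit 5) (nat_lit 235) (nat_lit 5) (nat_lit 225) (nat_lit 5) (nat_lit 337) (nat_lit 317) (nat_lit 291)))) (XT.nd (nat_lit 188) (nat_lit 2100) (nat_lit 0) (XT.nd (nat_lit 94) (nat_lit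 84) (nat_lit 0) (XT.lf (nat_lit 0) (nat_lit 2760263305) (nat_lit 924) (nat_lit 4330083286) (nat_lit 1008) (nat_lit 227471891) (nat_lit 213) (nat_lit 5) (nat_lit 224) (nat_lit 5) (nat_lit 225) (nat_lit 5) (nat_lit 338) (nat_lit 317) (nat_lit 290)) (XT.lf (nat_lit 0) (nat_lit 1880799479) (nat_lit 1008) (nat_lit 620545004) (nat_lit 84) (nat_lit 4892047719) (nat_lit 212) (nat_lit 5) (nat_lit 224) (nat_lit 5) (nat_lit 213) (nat_lit 5) (nat_lit 339) (nat_lit 317) (nat_lit 289))) (XT.nd (nat_lit 94) (nat_lit 1092) (nat_lit 0) (XT.lf (nat_lit 0) (nat_lit 3446254610) (nat_lit 1008) (nat_lit 571201591) (nat_lit 1092) (nat_lit 3454760774) (nat_lit 200) (nat_lit 5) (nat_lit 212) (nat_lit 5) (nat_lit 213) (nat_lit 5) (nat_lit 340) (nat_lit 317) (nat_lit 288)) (XT.lf (nat_lit 0) (nat_lit 26511057) (nat_lit 1092) (nat_lit 6149914873) (nat_lit 1176) (nat_lit 1378372689) (nat_lit 187) (nat_lit 5) (nat_lit 200)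 (nat_lit 5) (nat_lit 201) (nat_lit 5) (nat_lit 341) (nat_lit 317) (nat_lit 287))))) (XT.nd (nat_lit 376) (nat_lit 1260) (nat_lit 0) (XT.nd (nat_lit 188) (nat_lit 1260) (nat_lit 0) (XT.nd (nat_lit 94) (nat_lit 1176) (nat_lit 0) (XT.lf (nat_lit 0) (nat_lit 730743744) (nat_lit 1176) (nat_lit 3424617797) (nat_lit 84) (nat_lit 3484849297) (nat_lit 186) (nat_lit 5) (nat_lit 200) (nat_lit 5) (nat_lit 187) (nat_lit 5) (nat_lit 342) (nat_lit 317) (nat_lit 286)) (XT.lf (nat_lit 0) (nat_lit 749053712) (nat_lit 1176) (nat_lit 2073926616) (nat_lit 1260) (nat_lit 4906495931) (nat_lit 172) (nat_lit 5) (nat_lit 186) (nat_lit 5) (nat_lit 187) (nat_lit 5) (nat_lit 343) (nat_lit 317) (nat_lit 285))) (XT.nd (nat_lit 94) (nat_lit 1260) (nat_lit 0) (XT.lf (nat_lit 0) (nat_lit 4955200513) (nat_lit 1260) (nat_lit 2758730774) (nat_lit 84) (nat_lit 108294940) (nat_lit 172) (nat_lit 5) (nat_lit 187) (nat_lit 5) (nat_lit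 173) (nat_lit 5) (nat_lit 344) (nat_lit 317) (nat_lit 284)) (XT.lf (nat_lit 0) (nat_lit 1545378926) (nat_lit 1260) (nat_lit 5584717593) (nat_lit 1344) (nat_lit 788420393) (nat_lit 157) (nat_lit 5) (nat_lit 172) (nat_lit 5) (nat_lit 173) (nat_lit 5) (nat_lit 345) (nat_lit 317) (nat_lit 283)))) (XT.nd (nat_lit 188) (nat_lit 588) (nat_lit 0) (XT.nd (nat_lit 94) (nat_lit 588) (nat_lit 0) (XT.lf (nat_lit 0) (nat_lit 1298078446) (nat_lit 1344) (nat_lit 2049532729) (nat_lit 84) (nat_lit 4670649882) (nat_lit 156) (nat_lit 5) (nat_lit 172) (nat_lit 5) (nat_lit 157) (nat_lit 5) (nat_lit 346) (nat_lit 317) (nat_lit 282)) (XT.lf (nat_lit 0) (nat_lit 2389635969) (nat_lit 588) (nat_lit 1010092255) (nat_lit 672) (nat_lit 4722092398) (nat_lit 149) (nat_lit 5) (nat_lit 156) (nat_lit 5) (nat_lit 157) (nat_lit 5) (nat_lit 347) (nat_lit 317) (nat_lit 281))) (XT.nd (nat_lit 94) (nat_lit 588) (nat_lit 0) (XT.lf (nat_lit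 0) (nat_lit 5545289719) (nat_lit 672) (nat_lit 1291682255) (nat_lit 84) (nat_lit 1392195302) (nat_lit 149) (nat_lit 5) (nat_lit 157) (nat_lit 5) (nat_lit 150) (nat_lit 5) (nat_lit 348) (nat_lit 317) (nat_lit 280)) (XT.lf (nat_lit 0) (nat_lit 3283515013) (nat_lit 588) (nat_lit 4461351502) (nat_lit 672) (nat_lit 595281438) (nat_lit 142) (nat_lit 5) (nat_lit 149) (nat_lit 5) (nat_lit 150) (nat_lit 5) (nat_lit 349) (nat_lit 317) (nat_lit 279))))))) (XT.nd (nat_lit 1504) (nat_lit 2604) (nat_lit 0) (XT.nd (nat_lit 752) (nat_lit 2268) (nat_lit 0) (XT.nd (nat_lit 376) (nat_lit 1092) (nat_lit 0) (XT.nd (nat_lit 188) (nat_lit 588) (nat_lit 0) (XT.nd (nat_lit 94) (nat_lit 588) (nat_lit 0) (XT.lf (nat_lit 0) (nat_lit 1487276312) (nat_lit 672) (nat_lit 499905545) (nat_lit 84) (nat_lit 6468074652) (nat_lit 141) (nat_lit 5) (nat_lit 149) (nat_lit 5) (nat_lit 142) (nat_lit 5) (nat_lit 350) (nat_lit 317) (nat_lit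 278)) (XT.lf (nat_lit 0) (nat_lit 3616727763) (nat_lit 672) (nat_lit 4361564018) (nat_lit 84) (nat_lit 595552609) (nat_lit 134) (nat_lit 5) (nat_lit 142) (nat_lit 5) (nat_lit 135) (nat_lit 5) (nat_lit 351) (nat_lit 317) (nat_lit 277))) (XT.nd (nat_lit 94) (nat_lit 0) (nat_lit 0) (XT.lf (nat_lit 0) (nat_lit 313956481) (nat_lit 588) (nat_lit 5474835949) (nat_lit 672) (nat_lit 2907927168) (nat_lit 127) (nat_lit 5) (nat_lit 134) (nat_lit 5) (nat_lit 135) (nat_lit 5) (nat_lit 352) (nat_lit 317) (nat_lit 276)) (XT.lf (nat_lit 0) (nat_lit 5166981043) (nat_lit 588) (nat_lit 2854947346) (nat_lit 672) (nat_lit 801564308) (nat_lit 127) (nat_lit 5) (nat_lit 134) (nat_lit 5) (nat_lit 135) (nat_lit 5) (nat_lit 353) (nat_lit 317) (nat_lit 275)))) (XT.nd (nat_lit 188) (nat_lit 504) (nat_lit 0) (XT.nd (nat_lit 94) (nat_lit 0) (nat_lit 0) (XT.lf (nat_lit 0) (nat_lit 1169524428) (nat_lit 504) (nat_lit 135733522)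 (nat_lit 588) (nat_lit 7649581463) (nat_lit 120) (nat_lit 5) (nat_lit 126) (nat_lit 5) (nat_lit 127) (nat_lit 5) (nat_lit 354) (nat_lit 317) (nat_lit 274)) (XT.lf (nat_lit 0) (nat_lit 3475641614) (nat_lit 588) (nat_lit 2960237634) (nat_lit 84) (nat_lit 2653596544) (nat_lit 120) (nat_lit 5) (nat_lit 127) (nat_lit 5) (nat_lit 121) (nat_lit 5) (nat_lit 355) (nat_lit 317) (nat_lit 273))) (XT.nd (nat_lit 94) (nat_lit 0) (nat_lit 0) (XT.lf (nat_lit 0) (nat_lit 1996136566) (nat_lit 504) (nat_lit 3690444872) (nat_lit 588) (nat_lit 3542385483) (nat_lit 114) (nat_lit 5) (nat_lit 120) (nat_lit 5) (nat_lit 121) (nat_lit 5) (nat_lit 356) (nat_lit 317) (nat_lit 272)) (XT.lf (nat_lit 0) (nat_lit 7111321192) (nat_lit 504) (nat_lit 838160713) (nat_lit 588) (nat_lit 1423668604) (nat_lit 114) (nat_lit 5) (nat_lit 120) (nat_lit 5) (nat_lit 121) (nat_lit 5) (nat_lit 357) (nat_lit 317) (nat_lit 271))))) (XT.nd (nat_lit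 376) (nat_lit 1260) (nat_lit 0) (XT.nd (nat_lit 188) (nat_lit 504) (nat_lit 0) (XT.nd (nat_lit 94) (nat_lit 0) (nat_lit 0) (XT.lf (nat_lit 0) (nat_lit 748262267) (nat_lit 504) (nat_lit 6685730898) (nat_lit 84) (nat_lit 2087386298) (nat_lit 108) (nat_lit 5) (nat_lit 114) (nat_lit 5) (nat_lit 109) (nat_lit 5) (nat_lit 358) (nat_lit 317) (nat_lit 270)) (XT.lf (nat_lit 0) (nat_lit 2945356056) (nat_lit 504) (nat_lit 1614396189) (nat_lit 84) (nat_lit 5114291779) (nat_lit 108) (nat_lit 5) (nat_lit 114) (nat_lit 5) (nat_lit 109) (nat_lit 5) (nat_lit 359) (nat_lit 317) (nat_lit 269))) (XT.nd (nat_lit 94) (nat_lit 0) (nat_lit 0) (XT.lf (nat_lit 0) (nat_lit 3630582868) (nat_lit 504) (nat_lit 1571178706) (nat_lit 588) (nat_lit 4629793125) (nat_lit 102) (nat_lit 5) (nat_lit 108) (nat_lit 5) (nat_lit 109) (nat_lit 5) (nat_lit 360) (nat_lit 317) (nat_lit 268)) (XT.lf (nat_lit 0) (nat_lit 7515970417) (nat_lit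 588) (nat_lit 992013783) (nat_lit 84) (nat_lit 1486169322) (nat_lit 102) (nat_lit 5) (nat_lit 109) (nat_lit 5) (nat_lit 103) (nat_lit 5) (nat_lit 361) (nat_lit 317) (nat_lit 267)))) (XT.nd (nat_lit 188) (nat_lit 756) (nat_lit 0) (XT.nd (nat_lit 94) (nat_lit 84) (nat_lit 0) (XT.lf (nat_lit 0) (nat_lit 4394804691) (nat_lit 420) (nat_lit 5522952908) (nat_lit 504) (nat_lit 243392381) (nat_lit 97) (nat_lit 5) (nat_lit 102) (nat_lit 5) (nat_lit 103) (nat_lit 5) (nat_lit 362) (nat_lit 317) (nat_lit 266)) (XT.lf (nat_lit 0) (nat_lit 1988986607) (nat_lit 504) (nat_lit 438157724) (nat_lit 84) (nat_lit 7906357573) (nat_lit 96) (nat_lit 5) (nat_lit 102) (nat_lit 5) (nat_lit 97) (nat_lit 5) (nat_lit 363) (nat_lit 317) (nat_lit 265))) (XT.nd (nat_lit 94) (nat_lit 336) (nat_lit 0) (XT.lf (nat_lit 0) (nat_lit 4301947281) (nat_lit 504) (nat_lit 5419006696) (nat_lit 84) (nat_lit 789501830) (nat_lit 91) (nat_lit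 5) (nat_lit 97) (nat_lit 5) (nat_lit 92) (nat_lit 5) (nat_lit 364) (nat_lit 317) (nat_lit 264)) (XT.lf (nat_lit 0) (nat_lit 31704410) (nat_lit 336) (nat_lit 6643710310) (nat_lit 420) (nat_lit 4017627139) (nat_lit 87) (nat_lit 5) (nat_lit 91) (nat_lit 5) (nat_lit 92) (nat_lit 5) (nat_lit 365) (nat_lit 317) (nat_lit 263)))))) (XT.nd (nat_lit 752) (nat_lit 1008) (nat_lit 0) (XT.nd (nat_lit 376) (nat_lit 756) (nat_lit 0) (XT.nd (nat_lit 188) (nat_lit 336) (nat_lit 0) (XT.nd (nat_lit 94) (nat_lit 504) (nat_lit 0) (XT.lf (nat_lit 0) (nat_lit 5709313841) (nat_lit 336) (nat_lit 3428446459) (nat_lit 420) (nat_lit 1742870378) (nat_lit 87) (nat_lit 5) (nat_lit 91) (nat_lit 5) (nat_lit 92) (nat_lit 5) (nat_lit 366) (nat_lit 317) (nat_lit 262)) (XT.lf (nat_lit 0) (nat_lit 439110205) (nat_lit 420) (nat_lit 117152152) (nat_lit 504) (nat_lit 10518428649) (nat_lit 81) (nat_lit 5) (nat_lit 86) (nat_lit 5) (nat_lit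 87) (nat_lit 5) (nat_lit 367) (nat_lit 317) (nat_lit 261))) (XT.nd (nat_lit 94) (nat_lit 336) (nat_lit 0) (XT.lf (nat_lit 0) (nat_lit 2937865019) (nat_lit 504) (nat_lit 5046233204) (nat_lit 84) (nat_lit 3288552166) (nat_lit 81) (nat_lit 5) (nat_lit 87) (nat_lit 5) (nat_lit 82) (nat_lit 5) (nat_lit 368) (nat_lit 317) (nat_lit 260)) (XT.lf (nat_lit 0) (nat_lit 676573676) (nat_lit 336) (nat_lit 4687180178) (nat_lit 420) (nat_lit 6113658787) (nat_lit 77) (nat_lit 5) (nat_lit 81) (nat_lit 5) (nat_lit 82) (nat_lit 5) (nat_lit 369) (nat_lit 317) (nat_lit 259)))) (XT.nd (nat_lit 188) (nat_lit 420) (nat_lit 0) (XT.nd (nat_lit 94) (nat_lit 336) (nat_lit 0) (XT.lf (nat_lit 0) (nat_lit 6628697549) (nat_lit 336) (nat_lit 1250427377) (nat_lit 420) (nat_lit 3808739463) (nat_lit 77) (nat_lit 5) (nat_lit 81) (nat_lit 5) (nat_lit 82) (nat_lit 5) (nat_lit 370) (nat_lit 317) (nat_lit 258)) (XT.lf (nat_lit 0) (nat_lit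 803005675) (nat_lit 336) (nat_lit 9663316076) (nat_lit 420) (nat_lit 1438463404) (nat_lit 73) (nat_lit 5) (nat_lit 77) (nat_lit 5) (nat_lit 78) (nat_lit 5) (nat_lit 371) (nat_lit 317) (nat_lit 257))) (XT.nd (nat_lit 94) (nat_lit 336) (nat_lit 0) (XT.lf (nat_lit 0) (nat_lit 1014132851) (nat_lit 420) (nat_lit 5250127587) (nat_lit 84) (nat_lit 5862784150) (nat_lit 72) (nat_lit 5) (nat_lit 77) (nat_lit 5) (nat_lit 73) (nat_lit 5) (nat_lit 372) (nat_lit 317) (nat_lit 256)) (XT.lf (nat_lit 0) (nat_lit 732790230) (nat_lit 336) (nat_lit 2753424407) (nat_lit 420) (nat_lit 8870127787) (nat_lit 68) (nat_lit 5) (nat_lit 72) (nat_lit 5) (nat_lit 73) (nat_lit 5) (nat_lit 373) (nat_lit 317) (nat_lit 255))))) (XT.nd (nat_lit 376) (nat_lit 588) (nat_lit 0) (XT.nd (nat_lit 188) (nat_lit 84) (nat_lit 0) (XT.nd (nat_lit 94) (nat_lit 336) (nat_lit 0) (XT.lf (nat_lit 0) (nat_lit 6062467516) (nat_lit 420) (nat_lit 5641710034)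 (nat_lit 84) (nat_lit 887482614) (nat_lit 68) (nat_lit 5) (nat_lit 73) (nat_lit 5) (nat_lit 69) (nat_lit 5) (nat_lit 374) (nat_lit 317) (nat_lit 254)) (XT.lf (nat_lit 0) (nat_lit 457781738) (nat_lit 336) (nat_lit 8258989884) (nat_lit 420) (nat_lit 4117282935) (nat_lit 64) (nat_lit 5) (nat_lit 68) (nat_lit 5) (nat_lit 69) (nat_lit 5) (nat_lit 375) (nat_lit 317) (nat_lit 253))) (XT.nd (nat_lit 94) (nat_lit 84) (nat_lit 0) (XT.lf (nat_lit 0) (nat_lit 6812857038) (nat_lit 336) (nat_lit 4664405683) (nat_lit 420) (nat_lit 1605700186) (nat_lit 64) (nat_lit 5) (nat_lit 68) (nat_lit 5) (nat_lit 69) (nat_lit 5) (nat_lit 376) (nat_lit 317) (nat_lit 252)) (XT.lf (nat_lit 0) (nat_lit 932226832) (nat_lit 420) (nat_lit 32613761) (nat_lit 84) (nat_lit 12375147257) (nat_lit 63) (nat_lit 5) (nat_lit 68) (nat_lit 5) (nat_lit 64) (nat_lit 5) (nat_lit 377) (nat_lit 317) (nat_lit 251)))) (XT.nd (nat_lit 188) (nat_lit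 336) (nat_lit 0) (XT.nd (nat_lit 94) (nat_lit 0) (nat_lit 0) (XT.lf (nat_lit 0) (nat_lit 3575149097) (nat_lit 336) (nat_lit 7170307893) (nat_lit 84) (nat_lit 2856991264) (nat_lit 60) (nat_lit 5) (nat_lit 64) (nat_lit 5) (nat_lit 61) (nat_lit 5) (nat_lit 378) (nat_lit 317) (nat_lit 250)) (XT.lf (nat_lit 0) (nat_lit 6278592600) (nat_lit 336) (nat_lit 832383895) (nat_lit 84) (nat_lit 6762403496) (nat_lit 60) (nat_lit 5) (nat_lit 64) (nat_lit 5) (nat_lit 61) (nat_lit 5) (nat_lit 379) (nat_lit 317) (nat_lit 249))) (XT.nd (nat_lit 94) (nat_lit 0) (nat_lit 0) (XT.lf (nat_lit 0) (nat_lit 5767879610) (nat_lit 336) (nat_lit 3322886805) (nat_lit 420) (nat_lit 5060877979) (nat_lit 56) (nat_lit 5) (nat_lit 60) (nat_lit 5) (nat_lit 61) (nat_lit 5) (nat_lit 380) (nat_lit 317) (nat_lit 248)) (XT.lf (nat_lit 0) (nat_lit 11973846326) (nat_lit 420) (nat_lit 1901126172) (nat_lit 84) (nat_lit 563720550) (nat_lit 56)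 (nat_lit 5) (nat_lit 61) (nat_lit 5) (nat_lit 57) (nat_lit 5) (nat_lit 381) (nat_lit 317) (nat_lit 247))))))))
noncomputable def xc25 : XT := (XT.nd (nat_lit 55460) (nat_lit 0) (nat_lit 2520) (XT.nd (nat_lit 53956) (nat_lit 0) (nat_lit 13272) (XT.nd (nat_lit 658) (nat_lit 252) (nat_lit 0) (XT.nd (nat_lit 282) (nat_lit 336) (nat_lit 0) (XT.nd (nat_lit 94) (nat_lit 252) (nat_lit 0) (XT.lf (nat_lit 0) (nat_lit 257775518) (nat_lit 336) (nat_lit 9938143672) (nat_lit 84) (nat_lit 4536820670) (nat_lit 52) (nat_lit 5) (nat_lit 56) (nat_lit 5) (nat_lit 53) (nat_lit 5) (nat_lit 382) (nat_lit 317) (nat_lit 246)) (XT.nd (nat_lit 94) (nat_lit 252) (nat_lit 0) (XT.lf (nat_lit 0) (nat_lit 3005323901) (nat_lit 336) (nat_lit 3369140228) (nat_lit 84) (nat_lit 8660657947) (nat_lit 52) (nat_lit 5) (nat_lit 56) (nat_lit 5) (nat_lit 53) (nat_lit 5) (nat_lit 383) (nat_lit 317) (nat_lit 245)) (XT.lf (nat_lit 0) (nat_lit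 3425252899) (nat_lit 252) (nat_lit 2417146929) (nat_lit 336) (nat_lit 9503991815) (nat_lit 49) (nat_lit 5) (nat_lit 52) (nat_lit 5) (nat_lit 53) (nat_lit 5) (nat_lit 384) (nat_lit 317) (nat_lit 244)))) (XT.nd (nat_lit 188) (nat_lit 84) (nat_lit 0) (XT.nd (nat_lit 94) (nat_lit 252) (nat_lit 0) (XT.lf (nat_lit 0) (nat_lit 8789331744) (nat_lit 336) (nat_lit 5228530803) (nat_lit 84) (nat_lit 1648422514) (nat_lit 49) (nat_lit 5) (nat_lit 53) (nat_lit 5) (nat_lit 50) (nat_lit 5) (nat_lit 385) (nat_lit 317) (nat_lit 243)) (XT.lf (nat_lit 0) (nat_lit 1635150380) (nat_lit 252) (nat_lit 10204354838) (nat_lit 336) (nat_lit 4155852313) (nat_lit 46) (nat_lit 5) (nat_lit 49) (nat_lit 5) (nat_lit 50) (nat_lit 5) (nat_lit 386) (nat_lit 317) (nat_lit 242))) (XT.nd (nat_lit 94) (nat_lit 84) (nat_lit 0) (XT.lf (nat_lit 0) (nat_lit 8774610649) (nat_lit 252) (nat_lit 6234918699) (nat_lit 336) (nat_lit 1323948926) (nat_lit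 46) (nat_lit 5) (nat_lit 49) (nat_lit 5) (nat_lit 50) (nat_lit 5) (nat_lit 387) (nat_lit 317) (nat_lit 241)) (XT.lf (nat_lit 0) (nat_lit 1537827626) (nat_lit 336) (nat_lit 605526930) (nat_lit 84) (nat_lit 14538673681) (nat_lit 45) (nat_lit 5) (nat_lit 49) (nat_lit 5) (nat_lit 46) (nat_lit 5) (nat_lit 388) (nat_lit 317) (nat_lit 240))))) (XT.nd (nat_lit 52922) (nat_lit 0) (nat_lit 19320) (XT.nd (nat_lit 52734) (nat_lit 0) (nat_lit 19656) (XT.nd (nat_lit 52640) (nat_lit 0) (nat_lit 20076) (XT.lf (nat_lit 0) (nat_lit 4519896442) (nat_lit 336) (nat_lit 10422837414) (nat_lit 84) (nat_lit 2096100339) (nat_lit 42) (nat_lit 5) (nat_lit 46) (nat_lit 5) (nat_lit 43) (nat_lit 5) (nat_lit 389) (nat_lit 317) (nat_lit 239)) (XT.lf (nat_lit 0) (nat_lit 826580324) (nat_lit 0) (nat_lit 826580324) (nat_lit 252) (nat_lit 1587878536) (nat_lit 281) (nat_lit 5) (nat_lit 281) (nat_lit 3) (nat_lit 284) (nat_lit 3) (nat_lit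 318) (nat_lit 318) (nat_lit 309))) (XT.nd (nat_lit 94) (nat_lit 420) (nat_lit 0) (XT.lf (nat_lit 0) (nat_lit 4587214094) (nat_lit 0) (nat_lit 1246524364) (nat_lit 252) (nat_lit 663352004) (nat_lit 281) (nat_lit 5) (nat_lit 281) (nat_lit 3) (nat_lit 284) (nat_lit 3) (nat_lit 319) (nat_lit 318) (nat_lit 308)) (XT.lf (nat_lit 84) (nat_lit 1048089869) (nat_lit 0) (nat_lit 750896130) (nat_lit 420) (nat_lit 4715947303) (nat_lit 277) (nat_lit 5) (nat_lit 276) (nat_lit 3) (nat_lit 281) (nat_lit 5) (nat_lit 320) (nat_lit 318) (nat_lit 307)))) (XT.nd (nat_lit 188) (nat_lit 0) (nat_lit 0) (XT.nd (nat_lit 94) (nat_lit 336) (nat_lit 0) (XT.lf (nat_lit 84) (nat_lit 4077143596) (nat_lit 0) (nat_lit 168349440) (nat_lit 420) (nat_lit 2290202450) (nat_lit 277) (nat_lit 5) (nat_lit 276) (nat_lit 3) (nat_lit 281) (nat_lit 5) (nat_lit 321) (nat_lit 318) (nat_lit 306)) (XT.lf (nat_lit 0) (nat_lit 120647536) (nat_lit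 420) (nat_lit 5965698967) (nat_lit 504) (nat_lit 473455419) (nat_lit 272) (nat_lit 5) (nat_lit 277) (nat_lit 5) (nat_lit 278) (nat_lit 5) (nat_lit 322) (nat_lit 318) (nat_lit 305))) (XT.nd (nat_lit 94) (nat_lit 0) (nat_lit 0) (XT.lf (nat_lit 0) (nat_lit 2493183573) (nat_lit 420) (nat_lit 2873446107) (nat_lit 504) (nat_lit 1219525304) (nat_lit 272) (nat_lit 5) (nat_lit 277) (nat_lit 5) (nat_lit 278) (nat_lit 5) (nat_lit 323) (nat_lit 318) (nat_lit 304)) (XT.lf (nat_lit 84) (nat_lit 264595017) (nat_lit 0) (nat_lit 4586156903) (nat_lit 504) (nat_lit 1765388729) (nat_lit 273) (nat_lit 5) (nat_lit 272) (nat_lit 5) (nat_lit 278) (nat_lit 5) (nat_lit 324) (nat_lit 318) (nat_lit 303)))))) (XT.nd (nat_lit 752) (nat_lit 3696) (nat_lit 0) (XT.nd (nat_lit 376) (nat_lit 1260) (nat_lit 0) (XT.nd (nat_lit 188) (nat_lit 588) (nat_lit 0) (XT.nd (nat_lit 94) (nat_lit 0) (nat_lit 0) (XT.lf (nat_lit 0) (nat_lit 561288729)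 (nat_lit 504) (nat_lit 3150457555) (nat_lit 588) (nat_lit 2937092238) (nat_lit 266) (nat_lit 5) (nat_lit 272) (nat_lit 5) (nat_lit 273) (nat_lit 5) (nat_lit 325) (nat_lit 318) (nat_lit 302)) (XT.lf (nat_lit 84) (nat_lit 78661076) (nat_lit 0) (nat_lit 2759230320) (nat_lit 588) (nat_lit 3846869169) (nat_lit 267) (nat_lit 5) (nat_lit 266) (nat_lit 5) (nat_lit 273) (nat_lit 5) (nat_lit 326) (nat_lit 318) (nat_lit 301))) (XT.nd (nat_lit 94) (nat_lit 588) (nat_lit 0) (XT.lf (nat_lit 84) (nat_lit 3417686977) (nat_lit 0) (nat_lit 1713754474) (nat_lit 588) (nat_lit 1592088301) (nat_lit 267) (nat_lit 5) (nat_lit 266) (nat_lit 5) (nat_lit 273) (nat_lit 5) (nat_lit 327) (nat_lit 318) (nat_lit 300)) (XT.lf (nat_lit 84) (nat_lit 35198874) (nat_lit 0) (nat_lit 599464723) (nat_lit 672) (nat_lit 6131246251) (nat_lit 260) (nat_lit 5) (nat_lit 259) (nat_lit 5) (nat_lit 267) (nat_lit 5) (nat_lit 328) (nat_lit 318)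 (nat_lit 299)))) (XT.nd (nat_lit 188) (nat_lit 756) (nat_lit 0) (XT.nd (nat_lit 94) (nat_lit 588) (nat_lit 0) (XT.lf (nat_lit 0) (nat_lit 2855603910) (nat_lit 588) (nat_lit 3339945514) (nat_lit 84) (nat_lit 614967002) (nat_lit 260) (nat_lit 5) (nat_lit 267) (nat_lit 5) (nat_lit 261) (nat_lit 5) (nat_lit 329) (nat_lit 318) (nat_lit 298)) (XT.lf (nat_lit 0) (nat_lit 95797324) (nat_lit 588) (nat_lit 4976951703) (nat_lit 672) (nat_lit 1786028306) (nat_lit 253) (nat_lit 5) (nat_lit 260) (nat_lit 5) (nat_lit 261) (nat_lit 5) (nat_lit 330) (nat_lit 318) (nat_lit 297))) (XT.nd (nat_lit 94) (nat_lit 672) (nat_lit 0) (XT.lf (nat_lit 0) (nat_lit 396771082) (nat_lit 672) (nat_lit 3262912700) (nat_lit 84) (nat_lit 3250137189) (nat_lit 252) (nat_lit 5) (nat_lit 260) (nat_lit 5) (nat_lit 253) (nat_lit 5) (nat_lit 331) (nat_lit 318) (nat_lit 296)) (XT.lf (nat_lit 0) (nat_lit 277582174) (nat_lit 672) (nat_lit 2259998899)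 (nat_lit 756) (nat_lit 4426617791) (nat_lit 244) (nat_lit 5) (nat_lit 252) (nat_lit 5) (nat_lit 253) (nat_lit 5) (nat_lit 332) (nat_lit 318) (nat_lit 295))))) (XT.nd (nat_lit 376) (nat_lit 2016) (nat_lit 0) (XT.nd (nat_lit 188) (nat_lit 924) (nat_lit 0) (XT.nd (nat_lit 94) (nat_lit 756) (nat_lit 0) (XT.lf (nat_lit 0) (nat_lit 3939383593) (nat_lit 672) (nat_lit 763601092) (nat_lit 756) (nat_lit 2318593073) (nat_lit 244) (nat_lit 5) (nat_lit 252) (nat_lit 5) (nat_lit 253) (nat_lit 5) (nat_lit 333) (nat_lit 318) (nat_lit 294)) (XT.lf (nat_lit 0) (nat_lit 581462181) (nat_lit 756) (nat_lit 6294681464) (nat_lit 840) (nat_lit 206426056) (nat_lit 235) (nat_lit 5) (nat_lit 244) (nat_lit 5) (nat_lit 245) (nat_lit 5) (nat_lit 334) (nat_lit 318) (nat_lit 293))) (XT.nd (nat_lit 94) (nat_lit 840) (nat_lit 0) (XT.lf (nat_lit 0) (nat_lit 1900099511) (nat_lit 840) (nat_lit 2806846710) (nat_lit 84) (nat_lit 2438960206)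 (nat_lit 234) (nat_lit 5) (nat_lit 244) (nat_lit 5) (nat_lit 235) (nat_lit 5) (nat_lit 335) (nat_lit 318) (nat_lit 292)) (XT.lf (nat_lit 0) (nat_lit 962749482) (nat_lit 840) (nat_lit 3044628598) (nat_lit 924) (nat_lit 3205613265) (nat_lit 224) (nat_lit 5) (nat_lit 234) (nat_lit 5) (nat_lit 235) (nat_lit 5) (nat_lit 336) (nat_lit 318) (nat_lit 291)))) (XT.nd (nat_lit 188) (nat_lit 1008) (nat_lit 0) (XT.nd (nat_lit 94) (nat_lit 1008) (nat_lit 0) (XT.lf (nat_lit 0) (nat_lit 4851247948) (nat_lit 840) (nat_lit 1288892595) (nat_lit 924) (nat_lit 1143236212) (nat_lit 224) (nat_lit 5) (nat_lit 234) (nat_lit 5) (nat_lit 235) (nat_lit 5) (nat_lit 337) (nat_lit 318) (nat_lit 290)) (XT.lf (nat_lit 0) (nat_lit 916398795) (nat_lit 1008) (nat_lit 5894527990) (nat_lit 84) (nat_lit 546175111) (nat_lit 212) (nat_lit 5) (nat_lit 224) (nat_lit 5) (nat_lit 213) (nat_lit 5) (nat_lit 338) (nat_lit 318) (nat_lit 289)))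 (XT.nd (nat_lit 94) (nat_lit 1008) (nat_lit 0) (XT.lf (nat_lit 0) (nat_lit 2988990810) (nat_lit 1008) (nat_lit 1985969197) (nat_lit 84) (nat_lit 2458657515) (nat_lit 212) (nat_lit 5) (nat_lit 224) (nat_lit 5) (nat_lit 213) (nat_lit 5) (nat_lit 339) (nat_lit 318) (nat_lit 288)) (XT.lf (nat_lit 0) (nat_lit 2027648515) (nat_lit 1008) (nat_lit 3054031866) (nat_lit 1092) (nat_lit 2432149166) (nat_lit 200) (nat_lit 5) (nat_lit 212) (nat_lit 5) (nat_lit 213) (nat_lit 5) (nat_lit 340) (nat_lit 318) (nat_lit 287))))))) (XT.nd (nat_lit 1504) (nat_lit 4032) (nat_lit 0) (XT.nd (nat_lit 752) (nat_lit 2436) (nat_lit 0) (XT.nd (nat_lit 376) (nat_lit 1932) (nat_lit 0) (XT.nd (nat_lit 188) (nat_lit 1176) (nat_lit 0) (XT.nd (nat_lit 94) (nat_lit 1176) (nat_lit 0) (XT.lf (nat_lit 0) (nat_lit 6151128108) (nat_lit 1008) (nat_lit 1045806349) (nat_lit 1092) (nat_lit 400854455) (nat_lit 200) (nat_lit 5) (nat_lit 212)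 (nat_lit 5) (nat_lit 213) (nat_lit 5) (nat_lit 341) (nat_lit 318) (nat_lit 286)) (XT.lf (nat_lit 0) (nat_lit 1635426644) (nat_lit 1176) (nat_lit 4995839302) (nat_lit 84) (nat_lit 1053328553) (nat_lit 186) (nat_lit 5) (nat_lit 200) (nat_lit 5) (nat_lit 187) (nat_lit 5) (nat_lit 342) (nat_lit 318) (nat_lit 285))) (XT.nd (nat_lit 94) (nat_lit 1176) (nat_lit 0) (XT.lf (nat_lit 0) (nat_lit 3691934588) (nat_lit 1176) (nat_lit 862647950) (nat_lit 84) (nat_lit 3220409872) (nat_lit 186) (nat_lit 5) (nat_lit 200) (nat_lit 5) (nat_lit 187) (nat_lit 5) (nat_lit 343) (nat_lit 318) (nat_lit 284)) (XT.lf (nat_lit 0) (nat_lit 3410109112) (nat_lit 1176) (nat_lit 2376583076) (nat_lit 1260) (nat_lit 2082232930) (nat_lit 172) (nat_lit 5) (nat_lit 186) (nat_lit 5) (nat_lit 187) (nat_lit 5) (nat_lit 344) (nat_lit 318) (nat_lit 283)))) (XT.nd (nat_lit 188) (nat_lit 588) (nat_lit 0) (XT.nd (nat_lit 94) (nat_lit 1344)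 (nat_lit 0) (XT.lf (nat_lit 0) (nat_lit 7778258525) (nat_lit 1176) (nat_lit 119671864) (nat_lit 1260) (nat_lit 69252298) (nat_lit 172) (nat_lit 5) (nat_lit 186) (nat_lit 5) (nat_lit 187) (nat_lit 5) (nat_lit 345) (nat_lit 318) (nat_lit 282)) (XT.lf (nat_lit 0) (nat_lit 1973311199) (nat_lit 1344) (nat_lit 3868154599) (nat_lit 84) (nat_lit 2226204563) (nat_lit 156) (nat_lit 5) (nat_lit 172) (nat_lit 5) (nat_lit 157) (nat_lit 5) (nat_lit 346) (nat_lit 318) (nat_lit 281))) (XT.nd (nat_lit 94) (nat_lit 0) (nat_lit 0) (XT.lf (nat_lit 0) (nat_lit 508982678) (nat_lit 588) (nat_lit 3521802361) (nat_lit 672) (nat_lit 4141822465) (nat_lit 149) (nat_lit 5) (nat_lit 156) (nat_lit 5) (nat_lit 157) (nat_lit 5) (nat_lit 347) (nat_lit 318) (nat_lit 280)) (XT.lf (nat_lit 0) (nat_lit 5045805438) (nat_lit 588) (nat_lit 1091313179) (nat_lit 672) (nat_lit 2144063156) (nat_lit 149) (nat_lit 5) (nat_lit 156) (nat_lit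 5) (nat_lit 157) (nat_lit 5) (nat_lit 348) (nat_lit 318) (nat_lit 279))))) (XT.nd (nat_lit 376) (nat_lit 1176) (nat_lit 0) (XT.nd (nat_lit 188) (nat_lit 588) (nat_lit 0) (XT.nd (nat_lit 94) (nat_lit 84) (nat_lit 0) (XT.lf (nat_lit 0) (nat_lit 1286183122) (nat_lit 588) (nat_lit 6995993032) (nat_lit 672) (nat_lit 111671172) (nat_lit 142) (nat_lit 5) (nat_lit 149) (nat_lit 5) (nat_lit 150) (nat_lit 5) (nat_lit 349) (nat_lit 318) (nat_lit 278)) (XT.lf (nat_lit 0) (nat_lit 1936816082) (nat_lit 672) (nat_lit 2581028731) (nat_lit 84) (nat_lit 3991757079) (nat_lit 141) (nat_lit 5) (nat_lit 149) (nat_lit 5) (nat_lit 142) (nat_lit 5) (nat_lit 350) (nat_lit 318) (nat_lit 277))) (XT.nd (nat_lit 94) (nat_lit 0) (nat_lit 0) (XT.lf (nat_lit 0) (nat_lit 2070558945) (nat_lit 588) (nat_lit 1945308453) (nat_lit 672) (nat_lit 4613879493) (nat_lit 134) (nat_lit 5) (nat_lit 141) (nat_lit 5) (nat_lit 142) (nat_lit 5)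 (nat_lit 351) (nat_lit 318) (nat_lit 276)) (XT.lf (nat_lit 0) (nat_lit 6142750388) (nat_lit 672) (nat_lit 1896292072) (nat_lit 84) (nat_lit 714978890) (nat_lit 134) (nat_lit 5) (nat_lit 142) (nat_lit 5) (nat_lit 135) (nat_lit 5) (nat_lit 352) (nat_lit 318) (nat_lit 275)))) (XT.nd (nat_lit 188) (nat_lit 504) (nat_lit 0) (XT.nd (nat_lit 94) (nat_lit 84) (nat_lit 0) (XT.lf (nat_lit 0) (nat_lit 2894041896) (nat_lit 588) (nat_lit 5440232694) (nat_lit 672) (nat_lit 547810736) (nat_lit 127) (nat_lit 5) (nat_lit 134) (nat_lit 5) (nat_lit 135) (nat_lit 5) (nat_lit 353) (nat_lit 318) (nat_lit 274)) (XT.lf (nat_lit 0) (nat_lit 1520205770) (nat_lit 672) (nat_lit 1211982265) (nat_lit 84) (nat_lit 6282226538) (nat_lit 126) (nat_lit 5) (nat_lit 134) (nat_lit 5) (nat_lit 127) (nat_lit 5) (nat_lit 354) (nat_lit 318) (nat_lit 273))) (XT.nd (nat_lit 94) (nat_lit 0) (nat_lit 0) (XT.lf (nat_lit 0) (nat_lit 3631420392)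 (nat_lit 588) (nat_lit 5425874801) (nat_lit 84) (nat_lit 93569746) (nat_lit 120) (nat_lit 5) (nat_lit 127) (nat_lit 5) (nat_lit 121) (nat_lit 5) (nat_lit 355) (nat_lit 318) (nat_lit 272)) (XT.lf (nat_lit 0) (nat_lit 5801608530) (nat_lit 588) (nat_lit 532874142) (nat_lit 84) (nat_lit 2957133727) (nat_lit 120) (nat_lit 5) (nat_lit 127) (nat_lit 5) (nat_lit 121) (nat_lit 5) (nat_lit 356) (nat_lit 318) (nat_lit 271)))))) (XT.nd (nat_lit 752) (nat_lit 1596) (nat_lit 0) (XT.nd (nat_lit 376) (nat_lit 924) (nat_lit 0) (XT.nd (nat_lit 188) (nat_lit 504) (nat_lit 0) (XT.nd (nat_lit 94) (nat_lit 504) (nat_lit 0) (XT.lf (nat_lit 0) (nat_lit 4547522943) (nat_lit 504) (nat_lit 3490593809) (nat_lit 588) (nat_lit 1398511685) (nat_lit 114) (nat_lit 5) (nat_lit 120) (nat_lit 5) (nat_lit 121) (nat_lit 5) (nat_lit 357) (nat_lit 318) (nat_lit 270)) (XT.lf (nat_lit 0) (nat_lit 152513837) (nat_lit 420) (nat_lit 553165479)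 (nat_lit 504) (nat_lit 8881222866) (nat_lit 108) (nat_lit 5) (nat_lit 113) (nat_lit 5) (nat_lit 114) (nat_lit 5) (nat_lit 358) (nat_lit 318) (nat_lit 269))) (XT.nd (nat_lit 94) (nat_lit 504) (nat_lit 0) (XT.lf (nat_lit 0) (nat_lit 2877012160) (nat_lit 504) (nat_lit 4382042400) (nat_lit 84) (nat_lit 2481318580) (nat_lit 108) (nat_lit 5) (nat_lit 114) (nat_lit 5) (nat_lit 109) (nat_lit 5) (nat_lit 359) (nat_lit 318) (nat_lit 268)) (XT.lf (nat_lit 0) (nat_lit 783787237) (nat_lit 504) (nat_lit 4302417164) (nat_lit 588) (nat_lit 4813128404) (nat_lit 102) (nat_lit 5) (nat_lit 108) (nat_lit 5) (nat_lit 109) (nat_lit 5) (nat_lit 360) (nat_lit 318) (nat_lit 267)))) (XT.nd (nat_lit 188) (nat_lit 504) (nat_lit 0) (XT.nd (nat_lit 94) (nat_lit 420) (nat_lit 0) (XT.lf (nat_lit 0) (nat_lit 6146984677) (nat_lit 504) (nat_lit 1219363629) (nat_lit 588) (nat_lit 2696636913) (nat_lit 102) (nat_lit 5) (nat_lit 108)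 (nat_lit 5) (nat_lit 109) (nat_lit 5) (nat_lit 361) (nat_lit 318) (nat_lit 266)) (XT.lf (nat_lit 0) (nat_lit 1400868084) (nat_lit 420) (nat_lit 8307803602) (nat_lit 504) (nat_lit 523124627) (nat_lit 97) (nat_lit 5) (nat_lit 102) (nat_lit 5) (nat_lit 103) (nat_lit 5) (nat_lit 362) (nat_lit 318) (nat_lit 265))) (XT.nd (nat_lit 94) (nat_lit 420) (nat_lit 0) (XT.lf (nat_lit 0) (nat_lit 1695867274) (nat_lit 504) (nat_lit 3523476432) (nat_lit 84) (nat_lit 5185479527) (nat_lit 96) (nat_lit 5) (nat_lit 102) (nat_lit 5) (nat_lit 97) (nat_lit 5) (nat_lit 363) (nat_lit 318) (nat_lit 264)) (XT.lf (nat_lit 0) (nat_lit 1929503862) (nat_lit 420) (nat_lit 2022815916) (nat_lit 504) (nat_lit 6631180716) (nat_lit 91) (nat_lit 5) (nat_lit 96) (nat_lit 5) (nat_lit 97) (nat_lit 5) (nat_lit 364) (nat_lit 318) (nat_lit 263))))) (XT.nd (nat_lit 376) (nat_lit 756) (nat_lit 0) (XT.nd (nat_lit 188) (nat_lit 504) (nat_lit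 0) (XT.nd (nat_lit 94) (nat_lit 336) (nat_lit 0) (XT.lf (nat_lit 0) (nat_lit 6288013954) (nat_lit 504) (nat_lit 3207502206) (nat_lit 84) (nat_lit 1271730878) (nat_lit 91) (nat_lit 5) (nat_lit 97) (nat_lit 5) (nat_lit 92) (nat_lit 5) (nat_lit 365) (nat_lit 318) (nat_lit 262)) (XT.lf (nat_lit 0) (nat_lit 2383454990) (nat_lit 336) (nat_lit 6317740129) (nat_lit 420) (nat_lit 2255142170) (nat_lit 87) (nat_lit 5) (nat_lit 91) (nat_lit 5) (nat_lit 92) (nat_lit 5) (nat_lit 366) (nat_lit 318) (nat_lit 261))) (XT.nd (nat_lit 94) (nat_lit 420) (nat_lit 0) (XT.lf (nat_lit 0) (nat_lit 32368044) (nat_lit 420) (nat_lit 2988622925) (nat_lit 84) (nat_lit 8130227919) (nat_lit 86) (nat_lit 5) (nat_lit 91) (nat_lit 5) (nat_lit 87) (nat_lit 5) (nat_lit 367) (nat_lit 318) (nat_lit 260)) (XT.lf (nat_lit 0) (nat_lit 2339311501) (nat_lit 504) (nat_lit 8605439060) (nat_lit 84) (nat_lit 406691737) (nat_lit 81) (nat_lit 5)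 (nat_lit 87) (nat_lit 5) (nat_lit 82) (nat_lit 5) (nat_lit 368) (nat_lit 318) (nat_lit 259)))) (XT.nd (nat_lit 188) (nat_lit 420) (nat_lit 0) (XT.nd (nat_lit 94) (nat_lit 336) (nat_lit 0) (XT.lf (nat_lit 0) (nat_lit 4742040965) (nat_lit 504) (nat_lit 2917960741) (nat_lit 84) (nat_lit 3896921171) (nat_lit 81) (nat_lit 5) (nat_lit 87) (nat_lit 5) (nat_lit 82) (nat_lit 5) (nat_lit 369) (nat_lit 318) (nat_lit 258)) (XT.lf (nat_lit 0) (nat_lit 2954180742) (nat_lit 336) (nat_lit 4258242618) (nat_lit 420) (nat_lit 4556323783) (nat_lit 77) (nat_lit 5) (nat_lit 81) (nat_lit 5) (nat_lit 82) (nat_lit 5) (nat_lit 370) (nat_lit 318) (nat_lit 257))) (XT.nd (nat_lit 94) (nat_lit 420) (nat_lit 0) (XT.lf (nat_lit 0) (nat_lit 9019121442) (nat_lit 336) (nat_lit 734976155) (nat_lit 420) (nat_lit 2232958183) (nat_lit 77) (nat_lit 5) (nat_lit 81) (nat_lit 5) (nat_lit 82) (nat_lit 5) (nat_lit 371) (nat_lit 318) (nat_lit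 256)) (XT.lf (nat_lit 0) (nat_lit 182816763) (nat_lit 420) (nat_lit 9170131317) (nat_lit 84) (nat_lit 2858186911) (nat_lit 72) (nat_lit 5) (nat_lit 77) (nat_lit 5) (nat_lit 73) (nat_lit 5) (nat_lit 372) (nat_lit 318) (nat_lit 255))))))))
noncomputable def xc26 : XT := (XT.nd (nat_lit 55554) (nat_lit 0) (nat_lit 4536) (XT.nd (nat_lit 1410) (nat_lit 336) (nat_lit 0) (XT.nd (nat_lit 658) (nat_lit 1176) (nat_lit 0) (XT.nd (nat_lit 282) (nat_lit 672) (nat_lit 0) (XT.nd (nat_lit 94) (nat_lit 336) (nat_lit 0) (XT.lf (nat_lit 0) (nat_lit 2632442643) (nat_lit 420) (nat_lit 3222719438) (nat_lit 84) (nat_lit 6585964733) (nat_lit 72) (nat_lit 5) (nat_lit 77) (nat_lit 5) (nat_lit 73) (nat_lit 5) (nat_lit 373) (nat_lit 318) (nat_lit 254)) (XT.nd (nat_lit 94) (nat_lit 0) (nat_lit 0) (XT.lf (nat_lit 0) (nat_lit 2918265207) (nat_lit 336) (nat_lit 2234969375) (nat_lit 420) (nat_lit 7524893519) (nat_lit 68) (nat_lit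 5) (nat_lit 72) (nat_lit 5) (nat_lit 73) (nat_lit 5) (nat_lit 374) (nat_lit 318) (nat_lit 253)) (XT.lf (nat_lit 0) (nat_lit 7766876727) (nat_lit 420) (nat_lit 3668613636) (nat_lit 84) (nat_lit 1486271134) (nat_lit 68) (nat_lit 5) (nat_lit 73) (nat_lit 5) (nat_lit 69) (nat_lit 5) (nat_lit 375) (nat_lit 318) (nat_lit 252)))) (XT.nd (nat_lit 188) (nat_lit 336) (nat_lit 0) (XT.nd (nat_lit 94) (nat_lit 0) (nat_lit 0) (XT.lf (nat_lit 0) (nat_lit 2592859480) (nat_lit 336) (nat_lit 7883996450) (nat_lit 420) (nat_lit 2695347860) (nat_lit 64) (nat_lit 5) (nat_lit 68) (nat_lit 5) (nat_lit 69) (nat_lit 5) (nat_lit 376) (nat_lit 318) (nat_lit 251)) (XT.lf (nat_lit 0) (nat_lit 9076800313) (nat_lit 336) (nat_lit 4199713454) (nat_lit 420) (nat_lit 153430840) (nat_lit 64) (nat_lit 5) (nat_lit 68) (nat_lit 5) (nat_lit 69) (nat_lit 5) (nat_lit 377) (nat_lit 318) (nat_lit 250))) (XT.nd (nat_lit 94) (nat_lit 0) (nat_lit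 0) (XT.lf (nat_lit 0) (nat_lit 2035884389) (nat_lit 252) (nat_lit 372191410) (nat_lit 336) (nat_lit 11286922755) (nat_lit 60) (nat_lit 5) (nat_lit 63) (nat_lit 5) (nat_lit 64) (nat_lit 5) (nat_lit 378) (nat_lit 318) (nat_lit 249)) (XT.lf (nat_lit 0) (nat_lit 5094238428) (nat_lit 336) (nat_lit 5337489441) (nat_lit 84) (nat_lit 3534737363) (nat_lit 60) (nat_lit 5) (nat_lit 64) (nat_lit 5) (nat_lit 61) (nat_lit 5) (nat_lit 379) (nat_lit 318) (nat_lit 248))))) (XT.nd (nat_lit 376) (nat_lit 504) (nat_lit 0) (XT.nd (nat_lit 188) (nat_lit 336) (nat_lit 0) (XT.nd (nat_lit 94) (nat_lit 0) (nat_lit 0) (XT.lf (nat_lit 0) (nat_lit 1153431499) (nat_lit 336) (nat_lit 6695319822) (nat_lit 420) (nat_lit 6397724173) (nat_lit 56) (nat_lit 5) (nat_lit 60) (nat_lit 5) (nat_lit 61) (nat_lit 5) (nat_lit 380) (nat_lit 318) (nat_lit 247)) (XT.lf (nat_lit 0) (nat_lit 7909702373) (nat_lit 336) (nat_lit 2803501975) (nat_lit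 420) (nat_lit 3820894174) (nat_lit 56) (nat_lit 5) (nat_lit 60) (nat_lit 5) (nat_lit 61) (nat_lit 5) (nat_lit 381) (nat_lit 318) (nat_lit 246))) (XT.nd (nat_lit 94) (nat_lit 336) (nat_lit 0) (XT.lf (nat_lit 0) (nat_lit 13649242138) (nat_lit 420) (nat_lit 11625311) (nat_lit 84) (nat_lit 1169943934) (nat_lit 56) (nat_lit 5) (nat_lit 61) (nat_lit 5) (nat_lit 57) (nat_lit 5) (nat_lit 382) (nat_lit 318) (nat_lit 245)) (XT.lf (nat_lit 0) (nat_lit 1576199261) (nat_lit 336) (nat_lit 8281284036) (nat_lit 84) (nat_lit 5276450382) (nat_lit 52) (nat_lit 5) (nat_lit 56) (nat_lit 5) (nat_lit 53) (nat_lit 5) (nat_lit 383) (nat_lit 318) (nat_lit 244)))) (XT.nd (nat_lit 188) (nat_lit 252) (nat_lit 0) (XT.nd (nat_lit 94) (nat_lit 252) (nat_lit 0) (XT.lf (nat_lit 0) (nat_lit 4367998645) (nat_lit 336) (nat_lit 1572152350) (nat_lit 84) (nat_lit 9506424377) (nat_lit 52) (nat_lit 5) (nat_lit 56) (nat_lit 5) (nat_lit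 53) (nat_lit 5) (nat_lit 384) (nat_lit 318) (nat_lit 243)) (XT.lf (nat_lit 0) (nat_lit 5407464119) (nat_lit 252) (nat_lit 1863725644) (nat_lit 336) (nat_lit 8496604677) (nat_lit 49) (nat_lit 5) (nat_lit 52) (nat_lit 5) (nat_lit 53) (nat_lit 5) (nat_lit 385) (nat_lit 318) (nat_lit 242))) (XT.nd (nat_lit 94) (nat_lit 252) (nat_lit 0) (XT.lf (nat_lit 0) (nat_lit 10275861034) (nat_lit 336) (nat_lit 3528662739) (nat_lit 84) (nat_lit 2293721240) (nat_lit 49) (nat_lit 5) (nat_lit 53) (nat_lit 5) (nat_lit 50) (nat_lit 5) (nat_lit 386) (nat_lit 318) (nat_lit 241)) (XT.lf (nat_lit 0) (nat_lit 3522725702) (nat_lit 252) (nat_lit 9876870024) (nat_lit 336) (nat_lit 3038171369) (nat_lit 46) (nat_lit 5) (nat_lit 49) (nat_lit 5) (nat_lit 50) (nat_lit 5) (nat_lit 387) (nat_lit 318) (nat_lit 240)))))) (XT.nd (nat_lit 53392) (nat_lit 0) (nat_lit 17640) (XT.nd (nat_lit 53016) (nat_lit 0) (nat_lit 18732) (XT.nd (nat_lit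 52828) (nat_lit 0) (nat_lit 19656) (XT.nd (nat_lit 94) (nat_lit 336) (nat_lit 0) (XT.lf (nat_lit 0) (nat_lit 10822820630) (nat_lit 252) (nat_lit 5806805620) (nat_lit 336) (nat_lit 157496022) (nat_lit 46) (nat_lit 5) (nat_lit 49) (nat_lit 5) (nat_lit 50) (nat_lit 5) (nat_lit 388) (nat_lit 318) (nat_lit 239)) (XT.lf (nat_lit 0) (nat_lit 1155889582) (nat_lit 252) (nat_lit 1587372945) (nat_lit 336) (nat_lit 14403254210) (nat_lit 42) (nat_lit 5) (nat_lit 45) (nat_lit 5) (nat_lit 46) (nat_lit 5) (nat_lit 389) (nat_lit 318) (nat_lit 238))) (XT.nd (nat_lit 94) (nat_lit 0) (nat_lit 0) (XT.lf (nat_lit 0) (nat_lit 882357208) (nat_lit 420) (nat_lit 1187112446) (nat_lit 420) (nat_lit 1187112446) (nat_lit 276) (nat_lit 3) (nat_lit 281) (nat_lit 3) (nat_lit 281) (nat_lit 5) (nat_lit 319) (nat_lit 319) (nat_lit 307)) (XT.lf (nat_lit 84) (nat_lit 543314903) (nat_lit 0) (nat_lit 3619089507) (nat_lit 420) (nat_lit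 2370105321) (nat_lit 277) (nat_lit 5) (nat_lit 276) (nat_lit 3) (nat_lit 281) (nat_lit 5) (nat_lit 320) (nat_lit 319) (nat_lit 306)))) (XT.nd (nat_lit 188) (nat_lit 504) (nat_lit 0) (XT.nd (nat_lit 94) (nat_lit 0) (nat_lit 0) (XT.lf (nat_lit 0) (nat_lit 8247991) (nat_lit 420) (nat_lit 3006457046) (nat_lit 504) (nat_lit 3540074684) (nat_lit 271) (nat_lit 5) (nat_lit 276) (nat_lit 3) (nat_lit 277) (nat_lit 5) (nat_lit 321) (nat_lit 319) (nat_lit 305)) (XT.lf (nat_lit 0) (nat_lit 2319052222) (nat_lit 420) (nat_lit 7012648) (nat_lit 504) (nat_lit 4253952267) (nat_lit 271) (nat_lit 5) (nat_lit 276) (nat_lit 3) (nat_lit 277) (nat_lit 5) (nat_lit 322) (nat_lit 319) (nat_lit 304))) (XT.nd (nat_lit 94) (nat_lit 504) (nat_lit 0) (XT.lf (nat_lit 84) (nat_lit 3094935477) (nat_lit 0) (nat_lit 1545390746) (nat_lit 504) (nat_lit 1967708782) (nat_lit 272) (nat_lit 5) (nat_lit 271) (nat_lit 5) (nat_lit 277) (nat_lit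 5) (nat_lit 323) (nat_lit 319) (nat_lit 303)) (XT.lf (nat_lit 0) (nat_lit 299140192) (nat_lit 504) (nat_lit 399986417) (nat_lit 588) (nat_lit 5940521278) (nat_lit 265) (nat_lit 5) (nat_lit 271) (nat_lit 5) (nat_lit 272) (nat_lit 5) (nat_lit 324) (nat_lit 319) (nat_lit 302))))) (XT.nd (nat_lit 376) (nat_lit 588) (nat_lit 0) (XT.nd (nat_lit 188) (nat_lit 588) (nat_lit 0) (XT.nd (nat_lit 94) (nat_lit 0) (nat_lit 0) (XT.lf (nat_lit 0) (nat_lit 2538742698) (nat_lit 504) (nat_lit 3882479434) (nat_lit 588) (nat_lit 252309476) (nat_lit 266) (nat_lit 5) (nat_lit 272) (nat_lit 5) (nat_lit 273) (nat_lit 5) (nat_lit 325) (nat_lit 319) (nat_lit 301)) (XT.lf (nat_lit 0) (nat_lit 4773865764) (nat_lit 504) (nat_lit 679793154) (nat_lit 588) (nat_lit 1257151911) (nat_lit 266) (nat_lit 5) (nat_lit 272) (nat_lit 5) (nat_lit 273) (nat_lit 5) (nat_lit 326) (nat_lit 319) (nat_lit 300))) (XT.nd (nat_lit 94) (nat_lit 0)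 (nat_lit 0) (XT.lf (nat_lit 0) (nat_lit 264627557) (nat_lit 588) (nat_lit 4132626847) (nat_lit 672) (nat_lit 2353750454) (nat_lit 259) (nat_lit 5) (nat_lit 266) (nat_lit 5) (nat_lit 267) (nat_lit 5) (nat_lit 327) (nat_lit 319) (nat_lit 299)) (XT.lf (nat_lit 0) (nat_lit 2420871302) (nat_lit 588) (nat_lit 832392854) (nat_lit 672) (nat_lit 3540948116) (nat_lit 259) (nat_lit 5) (nat_lit 266) (nat_lit 5) (nat_lit 267) (nat_lit 5) (nat_lit 328) (nat_lit 319) (nat_lit 298)))) (XT.nd (nat_lit 188) (nat_lit 588) (nat_lit 0) (XT.nd (nat_lit 94) (nat_lit 0) (nat_lit 0) (XT.lf (nat_lit 84) (nat_lit 2568049521) (nat_lit 0) (nat_lit 2021372556) (nat_lit 672) (nat_lit 2251068671) (nat_lit 260) (nat_lit 5) (nat_lit 259) (nat_lit 5) (nat_lit 267) (nat_lit 5) (nat_lit 329) (nat_lit 319) (nat_lit 297)) (XT.lf (nat_lit 84) (nat_lit 6039137387) (nat_lit 0) (nat_lit 717010670) (nat_lit 672) (nat_lit 134213465) (nat_lit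 260) (nat_lit 5) (nat_lit 259) (nat_lit 5) (nat_lit 267) (nat_lit 5) (nat_lit 330) (nat_lit 319) (nat_lit 296))) (XT.nd (nat_lit 94) (nat_lit 0) (nat_lit 0) (XT.lf (nat_lit 0) (nat_lit 1964459228) (nat_lit 672) (nat_lit 4293380329) (nat_lit 84) (nat_lit 684737780) (nat_lit 252) (nat_lit 5) (nat_lit 260) (nat_lit 5) (nat_lit 253) (nat_lit 5) (nat_lit 331) (nat_lit 319) (nat_lit 295)) (XT.lf (nat_lit 0) (nat_lit 4067092646) (nat_lit 672) (nat_lit 783318885) (nat_lit 84) (nat_lit 2147778032) (nat_lit 252) (nat_lit 5) (nat_lit 260) (nat_lit 5) (nat_lit 253) (nat_lit 5) (nat_lit 332) (nat_lit 319) (nat_lit 294))))))) (XT.nd (nat_lit 1504) (nat_lit 4452) (nat_lit 0) (XT.nd (nat_lit 752) (nat_lit 4284) (nat_lit 0) (XT.nd (nat_lit 376) (nat_lit 2856) (nat_lit 0) (XT.nd (nat_lit 188) (nat_lit 756) (nat_lit 0) (XT.nd (nat_lit 94) (nat_lit 84) (nat_lit 0) (XT.lf (nat_lit 0) (nat_lit 2838121412) (nat_lit 672)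 (nat_lit 3351983068) (nat_lit 756) (nat_lit 866822174) (nat_lit 244) (nat_lit 5) (nat_lit 252) (nat_lit 5) (nat_lit 253) (nat_lit 5) (nat_lit 333) (nat_lit 319) (nat_lit 293)) (XT.lf (nat_lit 0) (nat_lit 1173536326) (nat_lit 756) (nat_lit 595475977) (nat_lit 84) (nat_lit 5350053867) (nat_lit 243) (nat_lit 5) (nat_lit 252) (nat_lit 5) (nat_lit 244) (nat_lit 5) (nat_lit 334) (nat_lit 319) (nat_lit 292))) (XT.nd (nat_lit 94) (nat_lit 0) (nat_lit 0) (XT.lf (nat_lit 0) (nat_lit 3140351946) (nat_lit 756) (nat_lit 80277834) (nat_lit 840) (nat_lit 3963454814) (nat_lit 234) (nat_lit 5) (nat_lit 243) (nat_lit 5) (nat_lit 244) (nat_lit 5) (nat_lit 335) (nat_lit 319) (nat_lit 291)) (XT.lf (nat_lit 0) (nat_lit 5285576264) (nat_lit 840) (nat_lit 317133709) (nat_lit 84) (nat_lit 1649806306) (nat_lit 234) (nat_lit 5) (nat_lit 244) (nat_lit 5) (nat_lit 235) (nat_lit 5) (nat_lit 336) (nat_lit 319) (nat_lit 290))))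 (XT.nd (nat_lit 188) (nat_lit 1008) (nat_lit 0) (XT.nd (nat_lit 94) (nat_lit 924) (nat_lit 0) (XT.lf (nat_lit 0) (nat_lit 58446057) (nat_lit 924) (nat_lit 3784274737) (nat_lit 84) (nat_lit 3481279627) (nat_lit 223) (nat_lit 5) (nat_lit 234) (nat_lit 5) (nat_lit 224) (nat_lit 5) (nat_lit 337) (nat_lit 319) (nat_lit 289)) (XT.lf (nat_lit 0) (nat_lit 52627861) (nat_lit 924) (nat_lit 1993126596) (nat_lit 1008) (nat_lit 5353212246) (nat_lit 212) (nat_lit 5) (nat_lit 223) (nat_lit 5) (nat_lit 224) (nat_lit 5) (nat_lit 338) (nat_lit 319) (nat_lit 288))) (XT.nd (nat_lit 94) (nat_lit 1008) (nat_lit 0) (XT.lf (nat_lit 0) (nat_lit 4032551633) (nat_lit 924) (nat_lit 36657420) (nat_lit 1008) (nat_lit 3407815638) (nat_lit 212) (nat_lit 5) (nat_lit 223) (nat_lit 5) (nat_lit 224) (nat_lit 5) (nat_lit 339) (nat_lit 319) (nat_lit 287)) (XT.lf (nat_lit 0) (nat_lit 515227164) (nat_lit 1008) (nat_lit 5602333544) (nat_lit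 1092) (nat_lit 1441072398) (nat_lit 200) (nat_lit 5) (nat_lit 212) (nat_lit 5) (nat_lit 213) (nat_lit 5) (nat_lit 340) (nat_lit 319) (nat_lit 286))))) (XT.nd (nat_lit 376) (nat_lit 1932) (nat_lit 0) (XT.nd (nat_lit 188) (nat_lit 1176) (nat_lit 0) (XT.nd (nat_lit 94) (nat_lit 1092) (nat_lit 0) (XT.lf (nat_lit 0) (nat_lit 549531298) (nat_lit 1092) (nat_lit 3034716714) (nat_lit 84) (nat_lit 4059111910) (nat_lit 199) (nat_lit 5) (nat_lit 212) (nat_lit 5) (nat_lit 200) (nat_lit 5) (nat_lit 341) (nat_lit 319) (nat_lit 285)) (XT.lf (nat_lit 0) (nat_lit 1050889690) (nat_lit 1092) (nat_lit 1472603501) (nat_lit 1176) (nat_lit 5208252262) (nat_lit 186) (nat_lit 5) (nat_lit 199) (nat_lit 5) (nat_lit 200) (nat_lit 5) (nat_lit 342) (nat_lit 319) (nat_lit 284))) (XT.nd (nat_lit 94) (nat_lit 1176) (nat_lit 0) (XT.lf (nat_lit 0) (nat_lit 4538148212) (nat_lit 1176) (nat_lit 2558618965) (nat_lit 84) (nat_lit 726690639)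 (nat_lit 186) (nat_lit 5) (nat_lit 200) (nat_lit 5) (nat_lit 187) (nat_lit 5) (nat_lit 343) (nat_lit 319) (nat_lit 283)) (XT.lf (nat_lit 0) (nat_lit 1655521008) (nat_lit 1176) (nat_lit 4933627992) (nat_lit 1260) (nat_lit 1329611379) (nat_lit 172) (nat_lit 5) (nat_lit 186) (nat_lit 5) (nat_lit 187) (nat_lit 5) (nat_lit 344) (nat_lit 319) (nat_lit 282)))) (XT.nd (nat_lit 188) (nat_lit 588) (nat_lit 0) (XT.nd (nat_lit 94) (nat_lit 1260) (nat_lit 0) (XT.lf (nat_lit 0) (nat_lit 643379606) (nat_lit 1260) (nat_lit 2024640587) (nat_lit 84) (nat_lit 5349654193) (nat_lit 171) (nat_lit 5) (nat_lit 186) (nat_lit 5) (nat_lit 172) (nat_lit 5) (nat_lit 345) (nat_lit 319) (nat_lit 281)) (XT.lf (nat_lit 0) (nat_lit 2324584634) (nat_lit 1260) (nat_lit 294064191) (nat_lit 1344) (nat_lit 5501523852) (nat_lit 156) (nat_lit 5) (nat_lit 171) (nat_lit 5) (nat_lit 172) (nat_lit 5) (nat_lit 346) (nat_lit 319) (nat_lit 280)))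 (XT.nd (nat_lit 94) (nat_lit 588) (nat_lit 0) (XT.lf (nat_lit 0) (nat_lit 4643065475) (nat_lit 1344) (nat_lit 1450151369) (nat_lit 84) (nat_lit 2132935470) (nat_lit 156) (nat_lit 5) (nat_lit 172) (nat_lit 5) (nat_lit 157) (nat_lit 5) (nat_lit 347) (nat_lit 319) (nat_lit 279)) (XT.lf (nat_lit 0) (nat_lit 3033456421) (nat_lit 588) (nat_lit 3676891535) (nat_lit 672) (nat_lit 1625599456) (nat_lit 149) (nat_lit 5) (nat_lit 156) (nat_lit 5) (nat_lit 157) (nat_lit 5) (nat_lit 348) (nat_lit 319) (nat_lit 278)))))) (XT.nd (nat_lit 752) (nat_lit 2016) (nat_lit 0) (XT.nd (nat_lit 376) (nat_lit 1176) (nat_lit 0) (XT.nd (nat_lit 188) (nat_lit 588) (nat_lit 0) (XT.nd (nat_lit 94) (nat_lit 588) (nat_lit 0) (XT.lf (nat_lit 0) (nat_lit 348254565) (nat_lit 672) (nat_lit 820276566) (nat_lit 84) (nat_lit 7281528990) (nat_lit 148) (nat_lit 5) (nat_lit 156) (nat_lit 5) (nat_lit 149) (nat_lit 5) (nat_lit 349) (nat_lit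 319) (nat_lit 277)) (XT.lf (nat_lit 0) (nat_lit 2351292490) (nat_lit 672) (nat_lit 4774730881) (nat_lit 84) (nat_lit 1441102335) (nat_lit 141) (nat_lit 5) (nat_lit 149) (nat_lit 5) (nat_lit 142) (nat_lit 5) (nat_lit 350) (nat_lit 319) (nat_lit 276))) (XT.nd (nat_lit 94) (nat_lit 588) (nat_lit 0) (XT.lf (nat_lit 0) (nat_lit 4387220873) (nat_lit 672) (nat_lit 187529890) (nat_lit 84) (nat_lit 4113857429) (nat_lit 141) (nat_lit 5) (nat_lit 149) (nat_lit 5) (nat_lit 142) (nat_lit 5) (nat_lit 351) (nat_lit 319) (nat_lit 275)) (XT.lf (nat_lit 0) (nat_lit 4579380615) (nat_lit 588) (nat_lit 1903103688) (nat_lit 672) (nat_lit 2331389460) (nat_lit 134) (nat_lit 5) (nat_lit 141) (nat_lit 5) (nat_lit 142) (nat_lit 5) (nat_lit 352) (nat_lit 319) (nat_lit 274)))) (XT.nd (nat_lit 188) (nat_lit 504) (nat_lit 0) (XT.nd (nat_lit 94) (nat_lit 84) (nat_lit 0) (XT.lf (nat_lit 0) (nat_lit 503739968) (nat_lit 588) (nat_lit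 8106880398) (nat_lit 672) (nat_lit 333260304) (nat_lit 127) (nat_lit 5) (nat_lit 134) (nat_lit 5) (nat_lit 135) (nat_lit 5) (nat_lit 353) (nat_lit 319) (nat_lit 273)) (XT.lf (nat_lit 0) (nat_lit 1708616228) (nat_lit 672) (nat_lit 3690136147) (nat_lit 84) (nat_lit 3678093184) (nat_lit 126) (nat_lit 5) (nat_lit 134) (nat_lit 5) (nat_lit 127) (nat_lit 5) (nat_lit 354) (nat_lit 319) (nat_lit 272))) (XT.nd (nat_lit 94) (nat_lit 0) (nat_lit 0) (XT.lf (nat_lit 0) (nat_lit 1174702020) (nat_lit 504) (nat_lit 2598373561) (nat_lit 588) (nat_lit 5441660785) (nat_lit 120) (nat_lit 5) (nat_lit 126) (nat_lit 5) (nat_lit 127) (nat_lit 5) (nat_lit 355) (nat_lit 319) (nat_lit 271)) (XT.lf (nat_lit 0) (nat_lit 5897351030) (nat_lit 588) (nat_lit 3145766947) (nat_lit 84) (nat_lit 313783913) (nat_lit 120) (nat_lit 5) (nat_lit 127) (nat_lit 5) (nat_lit 121) (nat_lit 5) (nat_lit 356) (nat_lit 319) (nat_lit 270))))) (XT.nd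 (nat_lit 376) (nat_lit 1008) (nat_lit 0) (XT.nd (nat_lit 188) (nat_lit 420) (nat_lit 0) (XT.nd (nat_lit 94) (nat_lit 84) (nat_lit 0) (XT.lf (nat_lit 0) (nat_lit 1859150488) (nat_lit 504) (nat_lit 6228540723) (nat_lit 588) (nat_lit 1415643372) (nat_lit 114) (nat_lit 5) (nat_lit 120) (nat_lit 5) (nat_lit 121) (nat_lit 5) (nat_lit 357) (nat_lit 319) (nat_lit 269)) (XT.lf (nat_lit 0) (nat_lit 667231560) (nat_lit 588) (nat_lit 2628605590) (nat_lit 84) (nat_lit 6358459198) (nat_lit 113) (nat_lit 5) (nat_lit 120) (nat_lit 5) (nat_lit 114) (nat_lit 5) (nat_lit 358) (nat_lit 319) (nat_lit 268))) (XT.nd (nat_lit 94) (nat_lit 0) (nat_lit 0) (XT.lf (nat_lit 0) (nat_lit 2526951686) (nat_lit 420) (nat_lit 241697893) (nat_lit 504) (nat_lit 7041247763) (nat_lit 108) (nat_lit 5) (nat_lit 113) (nat_lit 5) (nat_lit 114) (nat_lit 5) (nat_lit 359) (nat_lit 319) (nat_lit 267)) (XT.lf (nat_lit 0) (nat_lit 4948714197)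 (nat_lit 504) (nat_lit 2152998040) (nat_lit 84) (nat_lit 2868050242) (nat_lit 108) (nat_lit 5) (nat_lit 114) (nat_lit 5) (nat_lit 109) (nat_lit 5) (nat_lit 360) (nat_lit 319) (nat_lit 266)))) (XT.nd (nat_lit 188) (nat_lit 504) (nat_lit 0) (XT.nd (nat_lit 94) (nat_lit 0) (nat_lit 0) (XT.lf (nat_lit 0) (nat_lit 3144664274) (nat_lit 504) (nat_lit 4044159157) (nat_lit 588) (nat_lit 2945823222) (nat_lit 102) (nat_lit 5) (nat_lit 108) (nat_lit 5) (nat_lit 109) (nat_lit 5) (nat_lit 361) (nat_lit 319) (nat_lit 265)) (XT.lf (nat_lit 0) (nat_lit 8600679090) (nat_lit 504) (nat_lit 879895488) (nat_lit 588) (nat_lit 824430162) (nat_lit 102) (nat_lit 5) (nat_lit 108) (nat_lit 5) (nat_lit 109) (nat_lit 5) (nat_lit 362) (nat_lit 319) (nat_lit 264))) (XT.nd (nat_lit 94) (nat_lit 0) (nat_lit 0) (XT.lf (nat_lit 0) (nat_lit 1356811922) (nat_lit 504) (nat_lit 6747521876) (nat_lit 84) (nat_lit 2375121747) (nat_lit 96)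 (nat_lit 5) (nat_lit 102) (nat_lit 5) (nat_lit 97) (nat_lit 5) (nat_lit 363) (nat_lit 319) (nat_lit 263)) (XT.lf (nat_lit 0) (nat_lit 3576953003) (nat_lit 504) (nat_lit 1354273202) (nat_lit 84) (nat_lit 5728023239) (nat_lit 96) (nat_lit 5) (nat_lit 102) (nat_lit 5) (nat_lit 97) (nat_lit 5) (nat_lit 364) (nat_lit 319) (nat_lit 262))))))))
noncomputable def xc27 : XT := (XT.nd (nat_lit 55742) (nat_lit 0) (nat_lit 5712) (XT.nd (nat_lit 1504) (nat_lit 1260) (nat_lit 0) (XT.nd (nat_lit 752) (nat_lit 1428) (nat_lit 0) (XT.nd (nat_lit 376) (nat_lit 756) (nat_lit 0) (XT.nd (nat_lit 188) (nat_lit 420) (nat_lit 0) (XT.nd (nat_lit 94) (nat_lit 0) (nat_lit 0) (XT.lf (nat_lit 0) (nat_lit 4239993486) (nat_lit 420) (nat_lit 1629451930) (nat_lit 504) (nat_lit 4974873126) (nat_lit 91) (nat_lit 5) (nat_lit 96) (nat_lit 5) (nat_lit 97) (nat_lit 5) (nat_lit 365) (nat_lit 319) (nat_lit 261)) (XT.lf (nat_lit 0) (nat_lit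 8227062757) (nat_lit 504) (nat_lit 1065934181) (nat_lit 84) (nat_lit 1742104496) (nat_lit 91) (nat_lit 5) (nat_lit 97) (nat_lit 5) (nat_lit 92) (nat_lit 5) (nat_lit 366) (nat_lit 319) (nat_lit 260))) (XT.nd (nat_lit 94) (nat_lit 84) (nat_lit 0) (XT.lf (nat_lit 0) (nat_lit 4670812583) (nat_lit 336) (nat_lit 6012144149) (nat_lit 420) (nat_lit 547875347) (nat_lit 87) (nat_lit 5) (nat_lit 91) (nat_lit 5) (nat_lit 92) (nat_lit 5) (nat_lit 367) (nat_lit 319) (nat_lit 259)) (XT.lf (nat_lit 0) (nat_lit 1722937129) (nat_lit 420) (nat_lit 890914967) (nat_lit 84) (nat_lit 8818789594) (nat_lit 86) (nat_lit 5) (nat_lit 91) (nat_lit 5) (nat_lit 87) (nat_lit 5) (nat_lit 368) (nat_lit 319) (nat_lit 258)))) (XT.nd (nat_lit 188) (nat_lit 336) (nat_lit 0) (XT.nd (nat_lit 94) (nat_lit 0) (nat_lit 0) (XT.lf (nat_lit 0) (nat_lit 4075549094) (nat_lit 504) (nat_lit 6650340622) (nat_lit 84) (nat_lit 913758935) (nat_lit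 81) (nat_lit 5) (nat_lit 87) (nat_lit 5) (nat_lit 82) (nat_lit 5) (nat_lit 369) (nat_lit 319) (nat_lit 257)) (XT.lf (nat_lit 0) (nat_lit 6501834474) (nat_lit 504) (nat_lit 856701883) (nat_lit 84) (nat_lit 4494281666) (nat_lit 81) (nat_lit 5) (nat_lit 87) (nat_lit 5) (nat_lit 82) (nat_lit 5) (nat_lit 370) (nat_lit 319) (nat_lit 256))) (XT.nd (nat_lit 94) (nat_lit 0) (nat_lit 0) (XT.lf (nat_lit 0) (nat_lit 5170537201) (nat_lit 336) (nat_lit 3849131602) (nat_lit 420) (nat_lit 3052194600) (nat_lit 77) (nat_lit 5) (nat_lit 81) (nat_lit 5) (nat_lit 82) (nat_lit 5) (nat_lit 371) (nat_lit 319) (nat_lit 255)) (XT.lf (nat_lit 0) (nat_lit 11355453373) (nat_lit 336) (nat_lit 235803795) (nat_lit 420) (nat_lit 706918874) (nat_lit 77) (nat_lit 5) (nat_lit 81) (nat_lit 5) (nat_lit 82) (nat_lit 5) (nat_lit 372) (nat_lit 319) (nat_lit 254))))) (XT.nd (nat_lit 376) (nat_lit 672) (nat_lit 0) (XT.nd (nat_lit 188) (nat_lit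 336) (nat_lit 0) (XT.nd (nat_lit 94) (nat_lit 0) (nat_lit 0) (XT.lf (nat_lit 0) (nat_lit 1729937971) (nat_lit 420) (nat_lit 7323961493) (nat_lit 84) (nat_lit 3475288886) (nat_lit 72) (nat_lit 5) (nat_lit 77) (nat_lit 5) (nat_lit 73) (nat_lit 5) (nat_lit 373) (nat_lit 319) (nat_lit 253)) (XT.lf (nat_lit 0) (nat_lit 4208150587) (nat_lit 420) (nat_lit 1259911930) (nat_lit 84) (nat_lit 7299423644) (nat_lit 72) (nat_lit 5) (nat_lit 77) (nat_lit 5) (nat_lit 73) (nat_lit 5) (nat_lit 374) (nat_lit 319) (nat_lit 252))) (XT.nd (nat_lit 94) (nat_lit 0) (nat_lit 0) (XT.lf (nat_lit 0) (nat_lit 5045111185) (nat_lit 336) (nat_lit 1735463867) (nat_lit 420) (nat_lit 6231799622) (nat_lit 68) (nat_lit 5) (nat_lit 72) (nat_lit 5) (nat_lit 73) (nat_lit 5) (nat_lit 375) (nat_lit 319) (nat_lit 251)) (XT.lf (nat_lit 0) (nat_lit 9435018467) (nat_lit 420) (nat_lit 1759303867) (nat_lit 84) (nat_lit 2070178752) (nat_lit 68)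 (nat_lit 5) (nat_lit 73) (nat_lit 5) (nat_lit 69) (nat_lit 5) (nat_lit 376) (nat_lit 319) (nat_lit 250)))) (XT.nd (nat_lit 188) (nat_lit 252) (nat_lit 0) (XT.nd (nat_lit 94) (nat_lit 84) (nat_lit 0) (XT.lf (nat_lit 0) (nat_lit 4670215715) (nat_lit 336) (nat_lit 7533502364) (nat_lit 420) (nat_lit 1319470090) (nat_lit 64) (nat_lit 5) (nat_lit 68) (nat_lit 5) (nat_lit 69) (nat_lit 5) (nat_lit 377) (nat_lit 319) (nat_lit 249)) (XT.lf (nat_lit 0) (nat_lit 1231760718) (nat_lit 420) (nat_lit 2511589286) (nat_lit 84) (nat_lit 10046235770) (nat_lit 63) (nat_lit 5) (nat_lit 68) (nat_lit 5) (nat_lit 64) (nat_lit 5) (nat_lit 378) (nat_lit 319) (nat_lit 248))) (XT.nd (nat_lit 94) (nat_lit 0) (nat_lit 0) (XT.lf (nat_lit 0) (nat_lit 3847346465) (nat_lit 336) (nat_lit 10016923218) (nat_lit 84) (nat_lit 198916108) (nat_lit 60) (nat_lit 5) (nat_lit 64) (nat_lit 5) (nat_lit 61) (nat_lit 5) (nat_lit 379) (nat_lit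 319) (nat_lit 247)) (XT.lf (nat_lit 0) (nat_lit 6577855343) (nat_lit 336) (nat_lit 3567245862) (nat_lit 84) (nat_lit 4198830535) (nat_lit 60) (nat_lit 5) (nat_lit 64) (nat_lit 5) (nat_lit 61) (nat_lit 5) (nat_lit 380) (nat_lit 319) (nat_lit 246)))))) (XT.nd (nat_lit 752) (nat_lit 84) (nat_lit 0) (XT.nd (nat_lit 376) (nat_lit 504) (nat_lit 0) (XT.nd (nat_lit 188) (nat_lit 336) (nat_lit 0) (XT.nd (nat_lit 94) (nat_lit 0) (nat_lit 0) (XT.lf (nat_lit 0) (nat_lit 3099477527) (nat_lit 336) (nat_lit 6295139190) (nat_lit 420) (nat_lit 5238383913) (nat_lit 56) (nat_lit 5) (nat_lit 60) (nat_lit 5) (nat_lit 61) (nat_lit 5) (nat_lit 381) (nat_lit 319) (nat_lit 245)) (XT.lf (nat_lit 0) (nat_lit 10002763427) (nat_lit 336) (nat_lit 2304072833) (nat_lit 420) (nat_lit 2623606450) (nat_lit 56) (nat_lit 5) (nat_lit 60) (nat_lit 5) (nat_lit 61) (nat_lit 5) (nat_lit 382) (nat_lit 319) (nat_lit 244))) (XT.nd (nat_lit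 94) (nat_lit 0) (nat_lit 0) (XT.lf (nat_lit 0) (nat_lit 79128520) (nat_lit 336) (nat_lit 13378189673) (nat_lit 84) (nat_lit 1779171682) (nat_lit 52) (nat_lit 5) (nat_lit 56) (nat_lit 5) (nat_lit 53) (nat_lit 5) (nat_lit 383) (nat_lit 319) (nat_lit 243)) (XT.lf (nat_lit 0) (nat_lit 2858936721) (nat_lit 336) (nat_lit 6686943834) (nat_lit 84) (nat_lit 6003624176) (nat_lit 52) (nat_lit 5) (nat_lit 56) (nat_lit 5) (nat_lit 53) (nat_lit 5) (nat_lit 384) (nat_lit 319) (nat_lit 242)))) (XT.nd (nat_lit 188) (nat_lit 252) (nat_lit 0) (XT.nd (nat_lit 94) (nat_lit 0) (nat_lit 0) (XT.lf (nat_lit 0) (nat_lit 173167761) (nat_lit 252) (nat_lit 5527002896) (nat_lit 336) (nat_lit 10172424895) (nat_lit 49) (nat_lit 5) (nat_lit 52) (nat_lit 5) (nat_lit 53) (nat_lit 5) (nat_lit 385) (nat_lit 319) (nat_lit 241)) (XT.lf (nat_lit 0) (nat_lit 7341253348) (nat_lit 252) (nat_lit 1329632991) (nat_lit 336) (nat_lit 7533191109)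 (nat_lit 49) (nat_lit 5) (nat_lit 52) (nat_lit 5) (nat_lit 53) (nat_lit 5) (nat_lit 386) (nat_lit 319) (nat_lit 240))) (XT.nd (nat_lit 94) (nat_lit 252) (nat_lit 0) (XT.lf (nat_lit 0) (nat_lit 11736789647) (nat_lit 336) (nat_lit 1884382186) (nat_lit 84) (nat_lit 2924174927) (nat_lit 49) (nat_lit 5) (nat_lit 53) (nat_lit 5) (nat_lit 50) (nat_lit 5) (nat_lit 387) (nat_lit 319) (nat_lit 239)) (XT.lf (nat_lit 0) (nat_lit 5361389669) (nat_lit 252) (nat_lit 9575932785) (nat_lit 336) (nat_lit 1958276343) (nat_lit 46) (nat_lit 5) (nat_lit 49) (nat_lit 5) (nat_lit 50) (nat_lit 5) (nat_lit 388) (nat_lit 319) (nat_lit 238))))) (XT.nd (nat_lit 53110) (nat_lit 0) (nat_lit 18480) (XT.nd (nat_lit 52922) (nat_lit 0) (nat_lit 18984) (XT.nd (nat_lit 52828) (nat_lit 0) (nat_lit 19404) (XT.lf (nat_lit 0) (nat_lit 955691169) (nat_lit 336) (nat_lit 4435820110) (nat_lit 84) (nat_lit 11864670458) (nat_lit 45) (nat_lit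 5) (nat_lit 49) (nat_lit 5) (nat_lit 46) (nat_lit 5) (nat_lit 389) (nat_lit 319) (nat_lit 237)) (XT.lf (nat_lit 0) (nat_lit 3252081120) (nat_lit 420) (nat_lit 12377426) (nat_lit 420) (nat_lit 12377426) (nat_lit 276) (nat_lit 3) (nat_lit 281) (nat_lit 3) (nat_lit 281) (nat_lit 5) (nat_lit 320) (nat_lit 320) (nat_lit 305))) (XT.nd (nat_lit 94) (nat_lit 0) (nat_lit 0) (XT.lf (nat_lit 0) (nat_lit 2238358233) (nat_lit 420) (nat_lit 3642783758) (nat_lit 504) (nat_lit 695617553) (nat_lit 271) (nat_lit 5) (nat_lit 276) (nat_lit 3) (nat_lit 277) (nat_lit 5) (nat_lit 321) (nat_lit 320) (nat_lit 304)) (XT.lf (nat_lit 0) (nat_lit 4505514794) (nat_lit 420) (nat_lit 666922090) (nat_lit 504) (nat_lit 1430996450) (nat_lit 271) (nat_lit 5) (nat_lit 276) (nat_lit 3) (nat_lit 277) (nat_lit 5) (nat_lit 322) (nat_lit 320) (nat_lit 303)))) (XT.nd (nat_lit 188) (nat_lit 0) (nat_lit 0) (XT.nd (nat_lit 94) (nat_lit 0)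 (nat_lit 0) (XT.lf (nat_lit 0) (nat_lit 141848614) (nat_lit 504) (nat_lit 4235896224) (nat_lit 588) (nat_lit 2255260009) (nat_lit 265) (nat_lit 5) (nat_lit 271) (nat_lit 5) (nat_lit 272) (nat_lit 5) (nat_lit 323) (nat_lit 320) (nat_lit 302)) (XT.lf (nat_lit 0) (nat_lit 2328413629) (nat_lit 504) (nat_lit 1165319123) (nat_lit 588) (nat_lit 3171690313) (nat_lit 265) (nat_lit 5) (nat_lit 271) (nat_lit 5) (nat_lit 272) (nat_lit 5) (nat_lit 324) (nat_lit 320) (nat_lit 301))) (XT.nd (nat_lit 94) (nat_lit 0) (nat_lit 0) (XT.lf (nat_lit 84) (nat_lit 1989646069) (nat_lit 0) (nat_lit 2527501477) (nat_lit 588) (nat_lit 2183798086) (nat_lit 266) (nat_lit 5) (nat_lit 265) (nat_lit 5) (nat_lit 272) (nat_lit 5) (nat_lit 325) (nat_lit 320) (nat_lit 300)) (XT.lf (nat_lit 84) (nat_lit 5217050150) (nat_lit 0) (nat_lit 1485668382) (nat_lit 588) (nat_lit 37102386) (nat_lit 266) (nat_lit 5) (nat_lit 265) (nat_lit 5)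 (nat_lit 272) (nat_lit 5) (nat_lit 326) (nat_lit 320) (nat_lit 299))))))) (XT.nd (nat_lit 1504) (nat_lit 7224) (nat_lit 0) (XT.nd (nat_lit 752) (nat_lit 3696) (nat_lit 0) (XT.nd (nat_lit 376) (nat_lit 672) (nat_lit 0) (XT.nd (nat_lit 188) (nat_lit 588) (nat_lit 0) (XT.nd (nat_lit 94) (nat_lit 0) (nat_lit 84) (XT.lf (nat_lit 84) (nat_lit 1727687838) (nat_lit 0) (nat_lit 341260133) (nat_lit 672) (nat_lit 4712375807) (nat_lit 259) (nat_lit 5) (nat_lit 258) (nat_lit 5) (nat_lit 266) (nat_lit 5) (nat_lit 327) (nat_lit 320) (nat_lit 298)) (XT.lf (nat_lit 0) (nat_lit 4183947796) (nat_lit 588) (nat_lit 1774215405) (nat_lit 672) (nat_lit 867705521) (nat_lit 259) (nat_lit 5) (nat_lit 266) (nat_lit 5) (nat_lit 267) (nat_lit 5) (nat_lit 328) (nat_lit 320) (nat_lit 297))) (XT.nd (nat_lit 94) (nat_lit 672) (nat_lit 0) (XT.lf (nat_lit 84) (nat_lit 1583625210) (nat_lit 0) (nat_lit 4722552687) (nat_lit 672) (nat_lit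 567456215) (nat_lit 260) (nat_lit 5) (nat_lit 259) (nat_lit 5) (nat_lit 267) (nat_lit 5) (nat_lit 329) (nat_lit 320) (nat_lit 296)) (XT.lf (nat_lit 0) (nat_lit 1482708602) (nat_lit 672) (nat_lit 1907665597) (nat_lit 756) (nat_lit 3533869262) (nat_lit 251) (nat_lit 5) (nat_lit 259) (nat_lit 5) (nat_lit 260) (nat_lit 5) (nat_lit 330) (nat_lit 320) (nat_lit 295)))) (XT.nd (nat_lit 188) (nat_lit 672) (nat_lit 0) (XT.nd (nat_lit 94) (nat_lit 0) (nat_lit 0) (XT.lf (nat_lit 84) (nat_lit 1553584063) (nat_lit 0) (nat_lit 1972472753) (nat_lit 756) (nat_lit 3452033957) (nat_lit 252) (nat_lit 5) (nat_lit 251) (nat_lit 5) (nat_lit 260) (nat_lit 5) (nat_lit 331) (nat_lit 320) (nat_lit 294)) (XT.lf (nat_lit 84) (nat_lit 5110978253) (nat_lit 0) (nat_lit 468783539) (nat_lit 756) (nat_lit 1455495504) (nat_lit 252) (nat_lit 5) (nat_lit 251) (nat_lit 5) (nat_lit 260) (nat_lit 5) (nat_lit 332) (nat_lit 320) (nat_lit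 293))) (XT.nd (nat_lit 94) (nat_lit 0) (nat_lit 0) (XT.lf (nat_lit 0) (nat_lit 546979784) (nat_lit 756) (nat_lit 5445921547) (nat_lit 84) (nat_lit 1102496578) (nat_lit 243) (nat_lit 5) (nat_lit 252) (nat_lit 5) (nat_lit 244) (nat_lit 5) (nat_lit 333) (nat_lit 320) (nat_lit 292)) (XT.lf (nat_lit 0) (nat_lit 2537300055) (nat_lit 756) (nat_lit 1855012588) (nat_lit 84) (nat_lit 2766047620) (nat_lit 243) (nat_lit 5) (nat_lit 252) (nat_lit 5) (nat_lit 244) (nat_lit 5) (nat_lit 334) (nat_lit 320) (nat_lit 291))))) (XT.nd (nat_lit 376) (nat_lit 2016) (nat_lit 0) (XT.nd (nat_lit 188) (nat_lit 924) (nat_lit 0) (XT.nd (nat_lit 94) (nat_lit 0) (nat_lit 0) (XT.lf (nat_lit 0) (nat_lit 1831896361) (nat_lit 756) (nat_lit 2707760825) (nat_lit 840) (nat_lit 2685140395) (nat_lit 234) (nat_lit 5) (nat_lit 243) (nat_lit 5) (nat_lit 244) (nat_lit 5) (nat_lit 335) (nat_lit 320) (nat_lit 290)) (XT.lf (nat_lit 0) (nat_lit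 5620429778) (nat_lit 756) (nat_lit 936554732) (nat_lit 840) (nat_lit 737747897) (nat_lit 234) (nat_lit 5) (nat_lit 243) (nat_lit 5) (nat_lit 244) (nat_lit 5) (nat_lit 336) (nat_lit 320) (nat_lit 289))) (XT.nd (nat_lit 94) (nat_lit 0) (nat_lit 0) (XT.lf (nat_lit 0) (nat_lit 1210155144) (nat_lit 924) (nat_lit 5238455726) (nat_lit 84) (nat_lit 918926407) (nat_lit 223) (nat_lit 5) (nat_lit 234) (nat_lit 5) (nat_lit 224) (nat_lit 5) (nat_lit 337) (nat_lit 320) (nat_lit 288)) (XT.lf (nat_lit 0) (nat_lit 3166805215) (nat_lit 924) (nat_lit 1426565694) (nat_lit 84) (nat_lit 2850120639) (nat_lit 223) (nat_lit 5) (nat_lit 234) (nat_lit 5) (nat_lit 224) (nat_lit 5) (nat_lit 338) (nat_lit 320) (nat_lit 287)))) (XT.nd (nat_lit 188) (nat_lit 1092) (nat_lit 0) (XT.nd (nat_lit 94) (nat_lit 0) (nat_lit 0) (XT.lf (nat_lit 0) (nat_lit 2501216166) (nat_lit 924) (nat_lit 2645555189) (nat_lit 1008) (nat_lit 2376149086)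 (nat_lit 212) (nat_lit 5) (nat_lit 223) (nat_lit 5) (nat_lit 224) (nat_lit 5) (nat_lit 339) (nat_lit 320) (nat_lit 286)) (XT.lf (nat_lit 0) (nat_lit 6529265530) (nat_lit 924) (nat_lit 613130730) (nat_lit 1008) (nat_lit 463778721) (nat_lit 212) (nat_lit 5) (nat_lit 223) (nat_lit 5) (nat_lit 224) (nat_lit 5) (nat_lit 340) (nat_lit 320) (nat_lit 285))) (XT.nd (nat_lit 94) (nat_lit 0) (nat_lit 0) (XT.lf (nat_lit 0) (nat_lit 1462874266) (nat_lit 1092) (nat_lit 4723965257) (nat_lit 84) (nat_lit 1505187479) (nat_lit 199) (nat_lit 5) (nat_lit 212) (nat_lit 5) (nat_lit 200) (nat_lit 5) (nat_lit 341) (nat_lit 320) (nat_lit 284)) (XT.lf (nat_lit 0) (nat_lit 3399235402) (nat_lit 1092) (nat_lit 682578778) (nat_lit 84) (nat_lit 3699785241) (nat_lit 199) (nat_lit 5) (nat_lit 212) (nat_lit 5) (nat_lit 200) (nat_lit 5) (nat_lit 342) (nat_lit 320) (nat_lit 283)))))) (XT.nd (nat_lit 752) (nat_lit 2352) (nat_lit 0)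 (XT.nd (nat_lit 376) (nat_lit 1260) (nat_lit 0) (XT.nd (nat_lit 188) (nat_lit 2520) (nat_lit 0) (XT.nd (nat_lit 94) (nat_lit 0) (nat_lit 0) (XT.lf (nat_lit 0) (nat_lit 3501643079) (nat_lit 1092) (nat_lit 1871507242) (nat_lit 1176) (nat_lit 2501440814) (nat_lit 186) (nat_lit 5) (nat_lit 199) (nat_lit 5) (nat_lit 200) (nat_lit 5) (nat_lit 343) (nat_lit 320) (nat_lit 282)) (XT.lf (nat_lit 0) (nat_lit 7364139740) (nat_lit 1176) (nat_lit 196791884) (nat_lit 84) (nat_lit 410817901) (nat_lit 186) (nat_lit 5) (nat_lit 200) (nat_lit 5) (nat_lit 187) (nat_lit 5) (nat_lit 344) (nat_lit 320) (nat_lit 281))) (XT.nd (nat_lit 94) (nat_lit 1260) (nat_lit 0) (XT.lf (nat_lit 0) (nat_lit 1323465612) (nat_lit 1260) (nat_lit 3964842247) (nat_lit 84) (nat_lit 2783034566) (nat_lit 171) (nat_lit 5) (nat_lit 186) (nat_lit 5) (nat_lit 172) (nat_lit 5) (nat_lit 345) (nat_lit 320) (nat_lit 280)) (XT.lf (nat_lit 0) (nat_lit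 322000512) (nat_lit 1260) (nat_lit 2932359690) (nat_lit 1344) (nat_lit 4920862529) (nat_lit 156) (nat_lit 5) (nat_lit 171) (nat_lit 5) (nat_lit 172) (nat_lit 5) (nat_lit 346) (nat_lit 320) (nat_lit 279)))) (XT.nd (nat_lit 188) (nat_lit 672) (nat_lit 0) (XT.nd (nat_lit 94) (nat_lit 588) (nat_lit 0) (XT.lf (nat_lit 0) (nat_lit 4771878935) (nat_lit 1260) (nat_lit 461372178) (nat_lit 1344) (nat_lit 3049366323) (nat_lit 156) (nat_lit 5) (nat_lit 171) (nat_lit 5) (nat_lit 172) (nat_lit 5) (nat_lit 347) (nat_lit 320) (nat_lit 278)) (XT.lf (nat_lit 0) (nat_lit 912738051) (nat_lit 588) (nat_lit 6339091591) (nat_lit 672) (nat_lit 1142091874) (nat_lit 149) (nat_lit 5) (nat_lit 156) (nat_lit 5) (nat_lit 157) (nat_lit 5) (nat_lit 348) (nat_lit 320) (nat_lit 277))) (XT.nd (nat_lit 94) (nat_lit 588) (nat_lit 0) (XT.lf (nat_lit 0) (nat_lit 798641489) (nat_lit 672) (nat_lit 3027089404) (nat_lit 84) (nat_lit 4682919583)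 (nat_lit 148) (nat_lit 5) (nat_lit 156) (nat_lit 5) (nat_lit 149) (nat_lit 5) (nat_lit 349) (nat_lit 320) (nat_lit 276)) (XT.lf (nat_lit 0) (nat_lit 1532971923) (nat_lit 588) (nat_lit 1209724386) (nat_lit 672) (nat_lit 5884833045) (nat_lit 141) (nat_lit 5) (nat_lit 148) (nat_lit 5) (nat_lit 149) (nat_lit 5) (nat_lit 350) (nat_lit 320) (nat_lit 275))))) (XT.nd (nat_lit 376) (nat_lit 1092) (nat_lit 0) (XT.nd (nat_lit 188) (nat_lit 672) (nat_lit 0) (XT.nd (nat_lit 94) (nat_lit 588) (nat_lit 0) (XT.lf (nat_lit 0) (nat_lit 4744452923) (nat_lit 672) (nat_lit 2519011931) (nat_lit 84) (nat_lit 1486614665) (nat_lit 141) (nat_lit 5) (nat_lit 149) (nat_lit 5) (nat_lit 142) (nat_lit 5) (nat_lit 351) (nat_lit 320) (nat_lit 274)) (XT.lf (nat_lit 0) (nat_lit 2178441685) (nat_lit 588) (nat_lit 4616308812) (nat_lit 672) (nat_lit 2081984854) (nat_lit 134) (nat_lit 5) (nat_lit 141) (nat_lit 5) (nat_lit 142) (nat_lit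 5) (nat_lit 352) (nat_lit 320) (nat_lit 273))) (XT.nd (nat_lit 94) (nat_lit 672) (nat_lit 0) (XT.lf (nat_lit 0) (nat_lit 7023016065) (nat_lit 588) (nat_lit 1865405566) (nat_lit 672) (nat_lit 119394659) (nat_lit 134) (nat_lit 5) (nat_lit 141) (nat_lit 5) (nat_lit 142) (nat_lit 5) (nat_lit 353) (nat_lit 320) (nat_lit 272)) (XT.lf (nat_lit 0) (nat_lit 1859411772) (nat_lit 672) (nat_lit 6289924230) (nat_lit 84) (nat_lit 993188190) (nat_lit 126) (nat_lit 5) (nat_lit 134) (nat_lit 5) (nat_lit 127) (nat_lit 5) (nat_lit 354) (nat_lit 320) (nat_lit 271)))) (XT.nd (nat_lit 188) (nat_lit 588) (nat_lit 0) (XT.nd (nat_lit 94) (nat_lit 504) (nat_lit 0) (XT.lf (nat_lit 0) (nat_lit 3891886059) (nat_lit 672) (nat_lit 1470625585) (nat_lit 84) (nat_lit 3918899588) (nat_lit 126) (nat_lit 5) (nat_lit 134) (nat_lit 5) (nat_lit 127) (nat_lit 5) (nat_lit 355) (nat_lit 320) (nat_lit 270)) (XT.lf (nat_lit 0) (nat_lit 3517312485)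 (nat_lit 504) (nat_lit 2461049136) (nat_lit 588) (nat_lit 3446384747) (nat_lit 120) (nat_lit 5) (nat_lit 126) (nat_lit 5) (nat_lit 127) (nat_lit 5) (nat_lit 356) (nat_lit 320) (nat_lit 269))) (XT.nd (nat_lit 94) (nat_lit 588) (nat_lit 0) (XT.lf (nat_lit 0) (nat_lit 8107439652) (nat_lit 588) (nat_lit 937487399) (nat_lit 84) (nat_lit 528124449) (nat_lit 120) (nat_lit 5) (nat_lit 127) (nat_lit 5) (nat_lit 121) (nat_lit 5) (nat_lit 357) (nat_lit 320) (nat_lit 268)) (XT.lf (nat_lit 0) (nat_lit 589359673) (nat_lit 588) (nat_lit 5535875465) (nat_lit 84) (nat_lit 3599691483) (nat_lit 113) (nat_lit 5) (nat_lit 120) (nat_lit 5) (nat_lit 114) (nat_lit 5) (nat_lit 358) (nat_lit 320) (nat_lit 267))))))))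
noncomputable def xc28 : XT := (XT.nd (nat_lit 55836) (nat_lit 0) (nat_lit 7056) (XT.nd (nat_lit 1410) (nat_lit 1932) (nat_lit 0) (XT.nd (nat_lit 658) (nat_lit 1596) (nat_lit 0) (XT.nd (nat_lit 282) (nat_lit 924) (nat_lit 0) (XT.nd (nat_lit 94) (nat_lit 924) (nat_lit 0) (XT.lf (nat_lit 0) (nat_lit 2647461436) (nat_lit 588) (nat_lit 451524066) (nat_lit 84) (nat_lit 6782873244) (nat_lit 113) (nat_lit 5) (nat_lit 120) (nat_lit 5) (nat_lit 114) (nat_lit 5) (nat_lit 359) (nat_lit 320) (nat_lit 266)) (XT.nd (nat_lit 94) (nat_lit 504) (nat_lit 0) (XT.lf (nat_lit 0) (nat_lit 4776880750) (nat_lit 504) (nat_lit 5207287938) (nat_lit 84) (nat_lit 59105275) (nat_lit 108) (nat_lit 5) (nat_lit 114) (nat_lit 5) (nat_lit 109) (nat_lit 5) (nat_lit 360) (nat_lit 320) (nat_lit 265)) (XT.lf (nat_lit 0) (nat_lit 7562542) (nat_lit 504) (nat_lit 6961107845) (nat_lit 588) (nat_lit 3240967163) (nat_lit 102) (nat_lit 5)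 (nat_lit 108) (nat_lit 5) (nat_lit 109) (nat_lit 5) (nat_lit 361) (nat_lit 320) (nat_lit 264)))) (XT.nd (nat_lit 188) (nat_lit 420) (nat_lit 0) (XT.nd (nat_lit 94) (nat_lit 504) (nat_lit 0) (XT.lf (nat_lit 0) (nat_lit 5442193400) (nat_lit 504) (nat_lit 3800387766) (nat_lit 588) (nat_lit 1137978639) (nat_lit 102) (nat_lit 5) (nat_lit 108) (nat_lit 5) (nat_lit 109) (nat_lit 5) (nat_lit 362) (nat_lit 320) (nat_lit 263)) (XT.lf (nat_lit 0) (nat_lit 439029472) (nat_lit 420) (nat_lit 537663164) (nat_lit 504) (nat_lit 9580616367) (nat_lit 96) (nat_lit 5) (nat_lit 101) (nat_lit 5) (nat_lit 102) (nat_lit 5) (nat_lit 363) (nat_lit 320) (nat_lit 262))) (XT.nd (nat_lit 94) (nat_lit 420) (nat_lit 0) (XT.lf (nat_lit 0) (nat_lit 3174418911) (nat_lit 504) (nat_lit 4741299452) (nat_lit 84) (nat_lit 2822083483) (nat_lit 96) (nat_lit 5) (nat_lit 102) (nat_lit 5) (nat_lit 97) (nat_lit 5) (nat_lit 364) (nat_lit 320)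 (nat_lit 261)) (XT.lf (nat_lit 0) (nat_lit 764331996) (nat_lit 420) (nat_lit 4652425009) (nat_lit 504) (nat_lit 5507644296) (nat_lit 91) (nat_lit 5) (nat_lit 96) (nat_lit 5) (nat_lit 97) (nat_lit 5) (nat_lit 365) (nat_lit 320) (nat_lit 260))))) (XT.nd (nat_lit 376) (nat_lit 756) (nat_lit 0) (XT.nd (nat_lit 188) (nat_lit 504) (nat_lit 0) (XT.nd (nat_lit 94) (nat_lit 336) (nat_lit 0) (XT.lf (nat_lit 0) (nat_lit 6490489084) (nat_lit 420) (nat_lit 1250351263) (nat_lit 504) (nat_lit 3375374846) (nat_lit 91) (nat_lit 5) (nat_lit 96) (nat_lit 5) (nat_lit 97) (nat_lit 5) (nat_lit 366) (nat_lit 320) (nat_lit 259)) (XT.lf (nat_lit 0) (nat_lit 1031551694) (nat_lit 336) (nat_lit 9102166633) (nat_lit 420) (nat_lit 1180142241) (nat_lit 87) (nat_lit 5) (nat_lit 91) (nat_lit 5) (nat_lit 92) (nat_lit 5) (nat_lit 367) (nat_lit 320) (nat_lit 258))) (XT.nd (nat_lit 94) (nat_lit 420) (nat_lit 0) (XT.lf (nat_lit 0)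 (nat_lit 1087086594) (nat_lit 420) (nat_lit 4627738634) (nat_lit 84) (nat_lit 5801527785) (nat_lit 86) (nat_lit 5) (nat_lit 91) (nat_lit 5) (nat_lit 87) (nat_lit 5) (nat_lit 368) (nat_lit 320) (nat_lit 257)) (XT.lf (nat_lit 0) (nat_lit 1166931472) (nat_lit 420) (nat_lit 2211519234) (nat_lit 504) (nat_lit 8346768899) (nat_lit 81) (nat_lit 5) (nat_lit 86) (nat_lit 5) (nat_lit 87) (nat_lit 5) (nat_lit 369) (nat_lit 320) (nat_lit 256)))) (XT.nd (nat_lit 188) (nat_lit 420) (nat_lit 0) (XT.nd (nat_lit 94) (nat_lit 336) (nat_lit 0) (XT.lf (nat_lit 0) (nat_lit 5768235257) (nat_lit 504) (nat_lit 4763639500) (nat_lit 84) (nat_lit 1407630791) (nat_lit 81) (nat_lit 5) (nat_lit 87) (nat_lit 5) (nat_lit 82) (nat_lit 5) (nat_lit 370) (nat_lit 320) (nat_lit 255)) (XT.lf (nat_lit 0) (nat_lit 1165793798) (nat_lit 336) (nat_lit 7066981342) (nat_lit 420) (nat_lit 3927395540) (nat_lit 77) (nat_lit 5) (nat_lit 81) (nat_lit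 5) (nat_lit 82) (nat_lit 5) (nat_lit 371) (nat_lit 320) (nat_lit 254))) (XT.nd (nat_lit 94) (nat_lit 420) (nat_lit 0) (XT.lf (nat_lit 0) (nat_lit 7331243887) (nat_lit 336) (nat_lit 3458565118) (nat_lit 420) (nat_lit 1597131259) (nat_lit 77) (nat_lit 5) (nat_lit 81) (nat_lit 5) (nat_lit 82) (nat_lit 5) (nat_lit 372) (nat_lit 320) (nat_lit 253)) (XT.lf (nat_lit 0) (nat_lit 770867998) (nat_lit 420) (nat_lit 11588818921) (nat_lit 84) (nat_lit 261128381) (nat_lit 72) (nat_lit 5) (nat_lit 77) (nat_lit 5) (nat_lit 73) (nat_lit 5) (nat_lit 373) (nat_lit 320) (nat_lit 252)))))) (XT.nd (nat_lit 752) (nat_lit 924) (nat_lit 0) (XT.nd (nat_lit 376) (nat_lit 336) (nat_lit 0) (XT.nd (nat_lit 188) (nat_lit 336) (nat_lit 0) (XT.nd (nat_lit 94) (nat_lit 336) (nat_lit 0) (XT.lf (nat_lit 0) (nat_lit 3234976562) (nat_lit 420) (nat_lit 5544176366) (nat_lit 84) (nat_lit 4080401892) (nat_lit 72) (nat_lit 5) (nat_lit 77)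 (nat_lit 5) (nat_lit 73) (nat_lit 5) (nat_lit 374) (nat_lit 320) (nat_lit 251)) (XT.lf (nat_lit 0) (nat_lit 656364744) (nat_lit 336) (nat_lit 5095155713) (nat_lit 420) (nat_lit 7354617337) (nat_lit 68) (nat_lit 5) (nat_lit 72) (nat_lit 5) (nat_lit 73) (nat_lit 5) (nat_lit 375) (nat_lit 320) (nat_lit 250))) (XT.nd (nat_lit 94) (nat_lit 336) (nat_lit 0) (XT.lf (nat_lit 0) (nat_lit 7118698493) (nat_lit 336) (nat_lit 1253495744) (nat_lit 420) (nat_lit 4987100578) (nat_lit 68) (nat_lit 5) (nat_lit 72) (nat_lit 5) (nat_lit 73) (nat_lit 5) (nat_lit 376) (nat_lit 320) (nat_lit 249)) (XT.lf (nat_lit 0) (nat_lit 93183546) (nat_lit 336) (nat_lit 10978534005) (nat_lit 420) (nat_lit 2548356646) (nat_lit 64) (nat_lit 5) (nat_lit 68) (nat_lit 5) (nat_lit 69) (nat_lit 5) (nat_lit 377) (nat_lit 320) (nat_lit 248)))) (XT.nd (nat_lit 188) (nat_lit 252) (nat_lit 0) (XT.nd (nat_lit 94) (nat_lit 0) (nat_lit 0) (XT.lf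 (nat_lit 0) (nat_lit 13786894) (nat_lit 420) (nat_lit 7192264345) (nat_lit 84) (nat_lit 6681182999) (nat_lit 63) (nat_lit 5) (nat_lit 68) (nat_lit 5) (nat_lit 64) (nat_lit 5) (nat_lit 378) (nat_lit 320) (nat_lit 247)) (XT.lf (nat_lit 0) (nat_lit 2575821351) (nat_lit 420) (nat_lit 729428981) (nat_lit 84) (nat_lit 10857206026) (nat_lit 63) (nat_lit 5) (nat_lit 68) (nat_lit 5) (nat_lit 64) (nat_lit 5) (nat_lit 379) (nat_lit 320) (nat_lit 246))) (XT.nd (nat_lit 94) (nat_lit 0) (nat_lit 0) (XT.lf (nat_lit 0) (nat_lit 5254795754) (nat_lit 336) (nat_lit 8443286971) (nat_lit 84) (nat_lit 746680729) (nat_lit 60) (nat_lit 5) (nat_lit 64) (nat_lit 5) (nat_lit 61) (nat_lit 5) (nat_lit 380) (nat_lit 320) (nat_lit 245)) (XT.lf (nat_lit 0) (nat_lit 8029587989) (nat_lit 336) (nat_lit 1854706012) (nat_lit 84) (nat_lit 4850812089) (nat_lit 60) (nat_lit 5) (nat_lit 64) (nat_lit 5) (nat_lit 61) (nat_lit 5) (nat_lit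 381) (nat_lit 320) (nat_lit 244))))) (XT.nd (nat_lit 376) (nat_lit 252) (nat_lit 0) (XT.nd (nat_lit 188) (nat_lit 336) (nat_lit 0) (XT.nd (nat_lit 94) (nat_lit 0) (nat_lit 0) (XT.lf (nat_lit 0) (nat_lit 4994180283) (nat_lit 336) (nat_lit 5917455306) (nat_lit 420) (nat_lit 4121831985) (nat_lit 56) (nat_lit 5) (nat_lit 60) (nat_lit 5) (nat_lit 61) (nat_lit 5) (nat_lit 382) (nat_lit 320) (nat_lit 243)) (XT.lf (nat_lit 0) (nat_lit 12052087525) (nat_lit 336) (nat_lit 1823158067) (nat_lit 420) (nat_lit 1465709357) (nat_lit 56) (nat_lit 5) (nat_lit 60) (nat_lit 5) (nat_lit 61) (nat_lit 5) (nat_lit 383) (nat_lit 320) (nat_lit 242))) (XT.nd (nat_lit 94) (nat_lit 0) (nat_lit 0) (XT.lf (nat_lit 0) (nat_lit 1280969834) (nat_lit 336) (nat_lit 11990429808) (nat_lit 84) (nat_lit 2384857787) (nat_lit 52) (nat_lit 5) (nat_lit 56) (nat_lit 5) (nat_lit 53) (nat_lit 5) (nat_lit 384) (nat_lit 320) (nat_lit 241)) (XT.lf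 (nat_lit 0) (nat_lit 4109236336) (nat_lit 336) (nat_lit 5150556464) (nat_lit 84) (nat_lit 6719957128) (nat_lit 52) (nat_lit 5) (nat_lit 56) (nat_lit 5) (nat_lit 53) (nat_lit 5) (nat_lit 385) (nat_lit 320) (nat_lit 240)))) (XT.nd (nat_lit 188) (nat_lit 0) (nat_lit 0) (XT.nd (nat_lit 94) (nat_lit 0) (nat_lit 0) (XT.lf (nat_lit 0) (nat_lit 1898329110) (nat_lit 252) (nat_lit 5119993155) (nat_lit 336) (nat_lit 9294770740) (nat_lit 49) (nat_lit 5) (nat_lit 52) (nat_lit 5) (nat_lit 53) (nat_lit 5) (nat_lit 386) (nat_lit 320) (nat_lit 239)) (XT.lf (nat_lit 0) (nat_lit 9231361158) (nat_lit 252) (nat_lit 813386225) (nat_lit 336) (nat_lit 6610811209) (nat_lit 49) (nat_lit 5) (nat_lit 52) (nat_lit 5) (nat_lit 53) (nat_lit 5) (nat_lit 387) (nat_lit 320) (nat_lit 238))) (XT.nd (nat_lit 53016) (nat_lit 0) (nat_lit 18648) (XT.lf (nat_lit 0) (nat_lit 13175379134) (nat_lit 336) (nat_lit 291238437) (nat_lit 84) (nat_lit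 3541301674) (nat_lit 49) (nat_lit 5) (nat_lit 53) (nat_lit 5) (nat_lit 50) (nat_lit 5) (nat_lit 388) (nat_lit 320) (nat_lit 237)) (XT.lf (nat_lit 0) (nat_lit 1117060688) (nat_lit 0) (nat_lit 1117060688) (nat_lit 420) (nat_lit 1066713788) (nat_lit 271) (nat_lit 5) (nat_lit 271) (nat_lit 3) (nat_lit 276) (nat_lit 3) (nat_lit 321) (nat_lit 321) (nat_lit 303))))))) (XT.nd (nat_lit 1504) (nat_lit 7560) (nat_lit 0) (XT.nd (nat_lit 752) (nat_lit 2268) (nat_lit 0) (XT.nd (nat_lit 376) (nat_lit 1176) (nat_lit 0) (XT.nd (nat_lit 188) (nat_lit 0) (nat_lit 84) (XT.nd (nat_lit 94) (nat_lit 0) (nat_lit 0) (XT.lf (nat_lit 0) (nat_lit 54561708) (nat_lit 588) (nat_lit 1407703805) (nat_lit 588) (nat_lit 5167679528) (nat_lit 264) (nat_lit 3) (nat_lit 271) (nat_lit 3) (nat_lit 271) (nat_lit 5) (nat_lit 322) (nat_lit 321) (nat_lit 302)) (XT.lf (nat_lit 84) (nat_lit 1607289417) (nat_lit 0) (nat_lit 588480800) (nat_lit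 588) (nat_lit 4464986137) (nat_lit 265) (nat_lit 5) (nat_lit 264) (nat_lit 3) (nat_lit 271) (nat_lit 5) (nat_lit 323) (nat_lit 321) (nat_lit 301))) (XT.nd (nat_lit 94) (nat_lit 0) (nat_lit 0) (XT.lf (nat_lit 0) (nat_lit 4336011526) (nat_lit 504) (nat_lit 2000166192) (nat_lit 588) (nat_lit 358499354) (nat_lit 265) (nat_lit 5) (nat_lit 271) (nat_lit 5) (nat_lit 272) (nat_lit 5) (nat_lit 324) (nat_lit 321) (nat_lit 300)) (XT.lf (nat_lit 84) (nat_lit 1115475548) (nat_lit 0) (nat_lit 5361384436) (nat_lit 588) (nat_lit 254885723) (nat_lit 266) (nat_lit 5) (nat_lit 265) (nat_lit 5) (nat_lit 272) (nat_lit 5) (nat_lit 325) (nat_lit 321) (nat_lit 299)))) (XT.nd (nat_lit 188) (nat_lit 672) (nat_lit 0) (XT.nd (nat_lit 94) (nat_lit 0) (nat_lit 0) (XT.lf (nat_lit 0) (nat_lit 1815863729) (nat_lit 588) (nat_lit 2468853546) (nat_lit 672) (nat_lit 2486632287) (nat_lit 258) (nat_lit 5) (nat_lit 265) (nat_lit 5) (nat_lit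 266) (nat_lit 5) (nat_lit 326) (nat_lit 321) (nat_lit 298)) (XT.lf (nat_lit 84) (nat_lit 739710238) (nat_lit 0) (nat_lit 3134089386) (nat_lit 672) (nat_lit 2940564024) (nat_lit 259) (nat_lit 5) (nat_lit 258) (nat_lit 5) (nat_lit 266) (nat_lit 5) (nat_lit 327) (nat_lit 321) (nat_lit 297))) (XT.nd (nat_lit 94) (nat_lit 672) (nat_lit 0) (XT.lf (nat_lit 84) (nat_lit 4050396898) (nat_lit 0) (nat_lit 1892894036) (nat_lit 672) (nat_lit 917080206) (nat_lit 259) (nat_lit 5) (nat_lit 258) (nat_lit 5) (nat_lit 266) (nat_lit 5) (nat_lit 328) (nat_lit 321) (nat_lit 296)) (XT.lf (nat_lit 84) (nat_lit 506208740) (nat_lit 0) (nat_lit 569155367) (nat_lit 756) (nat_lit 5834313435) (nat_lit 251) (nat_lit 5) (nat_lit 250) (nat_lit 5) (nat_lit 259) (nat_lit 5) (nat_lit 329) (nat_lit 321) (nat_lit 295))))) (XT.nd (nat_lit 376) (nat_lit 1596) (nat_lit 0) (XT.nd (nat_lit 188) (nat_lit 756) (nat_lit 0) (XT.nd (nat_lit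 94) (nat_lit 0) (nat_lit 0) (XT.lf (nat_lit 0) (nat_lit 3073590535) (nat_lit 672) (nat_lit 3044390733) (nat_lit 756) (nat_lit 843456978) (nat_lit 251) (nat_lit 5) (nat_lit 259) (nat_lit 5) (nat_lit 260) (nat_lit 5) (nat_lit 330) (nat_lit 321) (nat_lit 294)) (XT.lf (nat_lit 84) (nat_lit 371182549) (nat_lit 0) (nat_lit 4700026925) (nat_lit 756) (nat_lit 1945534405) (nat_lit 252) (nat_lit 5) (nat_lit 251) (nat_lit 5) (nat_lit 260) (nat_lit 5) (nat_lit 331) (nat_lit 321) (nat_lit 293))) (XT.nd (nat_lit 94) (nat_lit 0) (nat_lit 0) (XT.lf (nat_lit 0) (nat_lit 16016452) (nat_lit 756) (nat_lit 3168963804) (nat_lit 840) (nat_lit 3890016689) (nat_lit 242) (nat_lit 5) (nat_lit 251) (nat_lit 5) (nat_lit 252) (nat_lit 5) (nat_lit 332) (nat_lit 321) (nat_lit 292)) (XT.lf (nat_lit 84) (nat_lit 353970429) (nat_lit 0) (nat_lit 1579748094) (nat_lit 840) (nat_lit 5202769548) (nat_lit 243) (nat_lit 5) (nat_lit 242)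 (nat_lit 5) (nat_lit 252) (nat_lit 5) (nat_lit 333) (nat_lit 321) (nat_lit 291)))) (XT.nd (nat_lit 188) (nat_lit 924) (nat_lit 0) (XT.nd (nat_lit 94) (nat_lit 756) (nat_lit 0) (XT.lf (nat_lit 0) (nat_lit 3876694641) (nat_lit 756) (nat_lit 3199809471) (nat_lit 84) (nat_lit 124443441) (nat_lit 243) (nat_lit 5) (nat_lit 252) (nat_lit 5) (nat_lit 244) (nat_lit 5) (nat_lit 334) (nat_lit 321) (nat_lit 290)) (XT.lf (nat_lit 0) (nat_lit 437178368) (nat_lit 756) (nat_lit 5397244535) (nat_lit 840) (nat_lit 1434375403) (nat_lit 234) (nat_lit 5) (nat_lit 243) (nat_lit 5) (nat_lit 244) (nat_lit 5) (nat_lit 335) (nat_lit 321) (nat_lit 289))) (XT.nd (nat_lit 94) (nat_lit 840) (nat_lit 0) (XT.lf (nat_lit 0) (nat_lit 472104310) (nat_lit 840) (nat_lit 3141120616) (nat_lit 84) (nat_lit 3726357607) (nat_lit 233) (nat_lit 5) (nat_lit 243) (nat_lit 5) (nat_lit 234) (nat_lit 5) (nat_lit 336) (nat_lit 321) (nat_lit 288))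 (XT.lf (nat_lit 0) (nat_lit 612176844) (nat_lit 840) (nat_lit 1739752777) (nat_lit 924) (nat_lit 5061923720) (nat_lit 223) (nat_lit 5) (nat_lit 233) (nat_lit 5) (nat_lit 234) (nat_lit 5) (nat_lit 337) (nat_lit 321) (nat_lit 287)))))) (XT.nd (nat_lit 752) (nat_lit 3192) (nat_lit 0) (XT.nd (nat_lit 376) (nat_lit 2352) (nat_lit 0) (XT.nd (nat_lit 188) (nat_lit 1092) (nat_lit 0) (XT.nd (nat_lit 94) (nat_lit 924) (nat_lit 0) (XT.lf (nat_lit 0) (nat_lit 4262581911) (nat_lit 924) (nat_lit 2996349897) (nat_lit 84) (nat_lit 232321989) (nat_lit 223) (nat_lit 5) (nat_lit 234) (nat_lit 5) (nat_lit 224) (nat_lit 5) (nat_lit 338) (nat_lit 321) (nat_lit 286)) (XT.lf (nat_lit 0) (nat_lit 877131484) (nat_lit 924) (nat_lit 5321383306) (nat_lit 1008) (nat_lit 1373553220) (nat_lit 212) (nat_lit 5) (nat_lit 223) (nat_lit 5) (nat_lit 224) (nat_lit 5) (nat_lit 339) (nat_lit 321) (nat_lit 285))) (XT.nd (nat_lit 94) (nat_lit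 1008) (nat_lit 0) (XT.lf (nat_lit 0) (nat_lit 500157363) (nat_lit 1008) (nat_lit 2778329006) (nat_lit 84) (nat_lit 4377585794) (nat_lit 211) (nat_lit 5) (nat_lit 223) (nat_lit 5) (nat_lit 212) (nat_lit 5) (nat_lit 340) (nat_lit 321) (nat_lit 284)) (XT.lf (nat_lit 0) (nat_lit 1220650902) (nat_lit 1008) (nat_lit 1138083682) (nat_lit 1092) (nat_lit 5384885493) (nat_lit 199) (nat_lit 5) (nat_lit 211) (nat_lit 5) (nat_lit 212) (nat_lit 5) (nat_lit 341) (nat_lit 321) (nat_lit 283)))) (XT.nd (nat_lit 188) (nat_lit 1260) (nat_lit 0) (XT.nd (nat_lit 94) (nat_lit 1092) (nat_lit 0) (XT.lf (nat_lit 0) (nat_lit 4257457741) (nat_lit 1092) (nat_lit 2493665343) (nat_lit 84) (nat_lit 1083255699) (nat_lit 199) (nat_lit 5) (nat_lit 212) (nat_lit 5) (nat_lit 200) (nat_lit 5) (nat_lit 342) (nat_lit 321) (nat_lit 282)) (XT.lf (nat_lit 0) (nat_lit 1631715447) (nat_lit 1092) (nat_lit 4555761915) (nat_lit 1176) (nat_lit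 1741265481) (nat_lit 186) (nat_lit 5) (nat_lit 199) (nat_lit 5) (nat_lit 200) (nat_lit 5) (nat_lit 343) (nat_lit 321) (nat_lit 281))) (XT.nd (nat_lit 94) (nat_lit 1176) (nat_lit 0) (XT.lf (nat_lit 0) (nat_lit 119838652) (nat_lit 1176) (nat_lit 2140966605) (nat_lit 84) (nat_lit 5765996772) (nat_lit 185) (nat_lit 5) (nat_lit 199) (nat_lit 5) (nat_lit 186) (nat_lit 5) (nat_lit 344) (nat_lit 321) (nat_lit 280)) (XT.lf (nat_lit 0) (nat_lit 1972951331) (nat_lit 1260) (nat_lit 6010558766) (nat_lit 84) (nat_lit 144743569) (nat_lit 171) (nat_lit 5) (nat_lit 186) (nat_lit 5) (nat_lit 172) (nat_lit 5) (nat_lit 345) (nat_lit 321) (nat_lit 279))))) (XT.nd (nat_lit 376) (nat_lit 1260) (nat_lit 0) (XT.nd (nat_lit 188) (nat_lit 672) (nat_lit 0) (XT.nd (nat_lit 94) (nat_lit 1260) (nat_lit 0) (XT.lf (nat_lit 0) (nat_lit 3876357874) (nat_lit 1260) (nat_lit 1752625447) (nat_lit 84) (nat_lit 2604024590) (nat_lit 171)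 (nat_lit 5) (nat_lit 186) (nat_lit 5) (nat_lit 172) (nat_lit 5) (nat_lit 346) (nat_lit 321) (nat_lit 278)) (XT.lf (nat_lit 0) (nat_lit 2639968064) (nat_lit 1260) (nat_lit 3174200443) (nat_lit 1344) (nat_lit 2527514380) (nat_lit 156) (nat_lit 5) (nat_lit 171) (nat_lit 5) (nat_lit 172) (nat_lit 5) (nat_lit 347) (nat_lit 321) (nat_lit 277))) (XT.nd (nat_lit 94) (nat_lit 672) (nat_lit 0) (XT.lf (nat_lit 0) (nat_lit 7156110582) (nat_lit 1260) (nat_lit 624601656) (nat_lit 1344) (nat_lit 673882240) (nat_lit 156) (nat_lit 5) (nat_lit 171) (nat_lit 5) (nat_lit 172) (nat_lit 5) (nat_lit 348) (nat_lit 321) (nat_lit 276)) (XT.lf (nat_lit 0) (nat_lit 1215858528) (nat_lit 672) (nat_lit 5346368145) (nat_lit 84) (nat_lit 2008261228) (nat_lit 148) (nat_lit 5) (nat_lit 156) (nat_lit 5) (nat_lit 149) (nat_lit 5) (nat_lit 349) (nat_lit 321) (nat_lit 275)))) (XT.nd (nat_lit 188) (nat_lit 672) (nat_lit 0) (XT.nd (nat_lit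 94) (nat_lit 588) (nat_lit 0) (XT.lf (nat_lit 0) (nat_lit 3122851456) (nat_lit 672) (nat_lit 838345791) (nat_lit 84) (nat_lit 4729323914) (nat_lit 148) (nat_lit 5) (nat_lit 156) (nat_lit 5) (nat_lit 149) (nat_lit 5) (nat_lit 350) (nat_lit 321) (nat_lit 274)) (XT.lf (nat_lit 0) (nat_lit 3836168785) (nat_lit 588) (nat_lit 1243759203) (nat_lit 672) (nat_lit 3734525027) (nat_lit 141) (nat_lit 5) (nat_lit 148) (nat_lit 5) (nat_lit 149) (nat_lit 5) (nat_lit 351) (nat_lit 321) (nat_lit 273))) (XT.nd (nat_lit 94) (nat_lit 672) (nat_lit 0) (XT.lf (nat_lit 0) (nat_lit 7076080185) (nat_lit 672) (nat_lit 333331580) (nat_lit 84) (nat_lit 1533361526) (nat_lit 141) (nat_lit 5) (nat_lit 149) (nat_lit 5) (nat_lit 142) (nat_lit 5) (nat_lit 352) (nat_lit 321) (nat_lit 272)) (XT.lf (nat_lit 0) (nat_lit 69641905) (nat_lit 672) (nat_lit 4592422601) (nat_lit 84) (nat_lit 4412531368) (nat_lit 133) (nat_lit 5) (nat_lit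 141) (nat_lit 5) (nat_lit 134) (nat_lit 5) (nat_lit 353) (nat_lit 321) (nat_lit 271))))))))
noncomputable def xc29 : XT := (XT.nd (nat_lit 3008) (nat_lit 252) (nat_lit 0) (XT.nd (nat_lit 1504) (nat_lit 2856) (nat_lit 0) (XT.nd (nat_lit 752) (nat_lit 1848) (nat_lit 0) (XT.nd (nat_lit 376) (nat_lit 1008) (nat_lit 0) (XT.nd (nat_lit 188) (nat_lit 504) (nat_lit 0) (XT.nd (nat_lit 94) (nat_lit 0) (nat_lit 0) (XT.lf (nat_lit 0) (nat_lit 179967338) (nat_lit 588) (nat_lit 1810157164) (nat_lit 672) (nat_lit 7220861347) (nat_lit 126) (nat_lit 5) (nat_lit 133) (nat_lit 5) (nat_lit 134) (nat_lit 5) (nat_lit 354) (nat_lit 321) (nat_lit 270)) (XT.lf (nat_lit 0) (nat_lit 3985108051) (nat_lit 672) (nat_lit 4216277640) (nat_lit 84) (nat_lit 1149647533) (nat_lit 126) (nat_lit 5) (nat_lit 134) (nat_lit 5) (nat_lit 127) (nat_lit 5) (nat_lit 355) (nat_lit 321) (nat_lit 269))) (XT.nd (nat_lit 94) (nat_lit 0) (nat_lit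 0) (XT.lf (nat_lit 0) (nat_lit 695273734) (nat_lit 504) (nat_lit 5329677473) (nat_lit 588) (nat_lit 3470850701) (nat_lit 120) (nat_lit 5) (nat_lit 126) (nat_lit 5) (nat_lit 127) (nat_lit 5) (nat_lit 356) (nat_lit 321) (nat_lit 268)) (XT.lf (nat_lit 0) (nat_lit 5797748821) (nat_lit 504) (nat_lit 2331962679) (nat_lit 588) (nat_lit 1515158642) (nat_lit 120) (nat_lit 5) (nat_lit 126) (nat_lit 5) (nat_lit 127) (nat_lit 5) (nat_lit 357) (nat_lit 321) (nat_lit 267)))) (XT.nd (nat_lit 188) (nat_lit 420) (nat_lit 0) (XT.nd (nat_lit 94) (nat_lit 0) (nat_lit 0) (XT.lf (nat_lit 0) (nat_lit 470529556) (nat_lit 588) (nat_lit 8574812214) (nat_lit 84) (nat_lit 753556929) (nat_lit 113) (nat_lit 5) (nat_lit 120) (nat_lit 5) (nat_lit 114) (nat_lit 5) (nat_lit 358) (nat_lit 321) (nat_lit 266)) (XT.lf (nat_lit 0) (nat_lit 2510159812) (nat_lit 588) (nat_lit 3511719019) (nat_lit 84) (nat_lit 3934536859) (nat_lit 113)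 (nat_lit 5) (nat_lit 120) (nat_lit 5) (nat_lit 114) (nat_lit 5) (nat_lit 359) (nat_lit 321) (nat_lit 265))) (XT.nd (nat_lit 94) (nat_lit 0) (nat_lit 0) (XT.lf (nat_lit 0) (nat_lit 1694434251) (nat_lit 420) (nat_lit 2896427654) (nat_lit 504) (nat_lit 5528460343) (nat_lit 108) (nat_lit 5) (nat_lit 113) (nat_lit 5) (nat_lit 114) (nat_lit 5) (nat_lit 360) (nat_lit 321) (nat_lit 264)) (XT.lf (nat_lit 0) (nat_lit 6737101802) (nat_lit 504) (nat_lit 3203309535) (nat_lit 84) (nat_lit 346669948) (nat_lit 108) (nat_lit 5) (nat_lit 114) (nat_lit 5) (nat_lit 109) (nat_lit 5) (nat_lit 361) (nat_lit 321) (nat_lit 263))))) (XT.nd (nat_lit 376) (nat_lit 840) (nat_lit 0) (XT.nd (nat_lit 188) (nat_lit 420) (nat_lit 0) (XT.nd (nat_lit 94) (nat_lit 84) (nat_lit 0) (XT.lf (nat_lit 0) (nat_lit 2146808057) (nat_lit 504) (nat_lit 6815478784) (nat_lit 588) (nat_lit 1497206586) (nat_lit 102) (nat_lit 5) (nat_lit 108) (nat_lit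 5) (nat_lit 109) (nat_lit 5) (nat_lit 362) (nat_lit 321) (nat_lit 262)) (XT.lf (nat_lit 0) (nat_lit 603244784) (nat_lit 588) (nat_lit 2960924873) (nat_lit 84) (nat_lit 7072839953) (nat_lit 101) (nat_lit 5) (nat_lit 108) (nat_lit 5) (nat_lit 102) (nat_lit 5) (nat_lit 363) (nat_lit 321) (nat_lit 261))) (XT.nd (nat_lit 94) (nat_lit 0) (nat_lit 0) (XT.lf (nat_lit 0) (nat_lit 2545797084) (nat_lit 420) (nat_lit 181768388) (nat_lit 504) (nat_lit 8092164876) (nat_lit 96) (nat_lit 5) (nat_lit 101) (nat_lit 5) (nat_lit 102) (nat_lit 5) (nat_lit 364) (nat_lit 321) (nat_lit 260)) (XT.lf (nat_lit 0) (nat_lit 4944552630) (nat_lit 504) (nat_lit 2801675790) (nat_lit 84) (nat_lit 3260886890) (nat_lit 96) (nat_lit 5) (nat_lit 102) (nat_lit 5) (nat_lit 97) (nat_lit 5) (nat_lit 365) (nat_lit 321) (nat_lit 259)))) (XT.nd (nat_lit 188) (nat_lit 420) (nat_lit 0) (XT.nd (nat_lit 94) (nat_lit 0) (nat_lit 0) (XT.lf (nat_lit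 0) (nat_lit 2848714183) (nat_lit 420) (nat_lit 4376479094) (nat_lit 504) (nat_lit 3975063457) (nat_lit 91) (nat_lit 5) (nat_lit 96) (nat_lit 5) (nat_lit 97) (nat_lit 5) (nat_lit 366) (nat_lit 321) (nat_lit 258)) (XT.lf (nat_lit 0) (nat_lit 8686613686) (nat_lit 420) (nat_lit 884445622) (nat_lit 504) (nat_lit 1828276705) (nat_lit 91) (nat_lit 5) (nat_lit 96) (nat_lit 5) (nat_lit 97) (nat_lit 5) (nat_lit 367) (nat_lit 321) (nat_lit 257))) (XT.nd (nat_lit 94) (nat_lit 0) (nat_lit 0) (XT.lf (nat_lit 0) (nat_lit 400781386) (nat_lit 420) (nat_lit 8517290712) (nat_lit 84) (nat_lit 2685490007) (nat_lit 86) (nat_lit 5) (nat_lit 91) (nat_lit 5) (nat_lit 87) (nat_lit 5) (nat_lit 368) (nat_lit 321) (nat_lit 256)) (XT.lf (nat_lit 0) (nat_lit 2665920750) (nat_lit 420) (nat_lit 2764820451) (nat_lit 84) (nat_lit 6382495784) (nat_lit 86) (nat_lit 5) (nat_lit 91) (nat_lit 5) (nat_lit 87) (nat_lit 5) (nat_lit 369)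 (nat_lit 321) (nat_lit 255)))))) (XT.nd (nat_lit 752) (nat_lit 1344) (nat_lit 0) (XT.nd (nat_lit 376) (nat_lit 756) (nat_lit 0) (XT.nd (nat_lit 188) (nat_lit 336) (nat_lit 0) (XT.nd (nat_lit 94) (nat_lit 0) (nat_lit 0) (XT.lf (nat_lit 0) (nat_lit 3184064754) (nat_lit 420) (nat_lit 1815978852) (nat_lit 504) (nat_lit 7029170091) (nat_lit 81) (nat_lit 5) (nat_lit 86) (nat_lit 5) (nat_lit 87) (nat_lit 5) (nat_lit 370) (nat_lit 321) (nat_lit 254)) (XT.lf (nat_lit 0) (nat_lit 7421553489) (nat_lit 504) (nat_lit 2940094411) (nat_lit 84) (nat_lit 1889542142) (nat_lit 81) (nat_lit 5) (nat_lit 87) (nat_lit 5) (nat_lit 82) (nat_lit 5) (nat_lit 371) (nat_lit 321) (nat_lit 253))) (XT.nd (nat_lit 94) (nat_lit 0) (nat_lit 0) (XT.lf (nat_lit 0) (nat_lit 3147942923) (nat_lit 336) (nat_lit 6787689392) (nat_lit 420) (nat_lit 2543635679) (nat_lit 77) (nat_lit 5) (nat_lit 81) (nat_lit 5) (nat_lit 82) (nat_lit 5) (nat_lit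 372) (nat_lit 321) (nat_lit 252)) (XT.lf (nat_lit 0) (nat_lit 9441642671) (nat_lit 336) (nat_lit 3085330430) (nat_lit 420) (nat_lit 187198859) (nat_lit 77) (nat_lit 5) (nat_lit 81) (nat_lit 5) (nat_lit 82) (nat_lit 5) (nat_lit 373) (nat_lit 321) (nat_lit 251)))) (XT.nd (nat_lit 188) (nat_lit 336) (nat_lit 0) (XT.nd (nat_lit 94) (nat_lit 0) (nat_lit 0) (XT.lf (nat_lit 0) (nat_lit 2204810010) (nat_lit 420) (nat_lit 9995217497) (nat_lit 84) (nat_lit 755228581) (nat_lit 72) (nat_lit 5) (nat_lit 77) (nat_lit 5) (nat_lit 73) (nat_lit 5) (nat_lit 374) (nat_lit 321) (nat_lit 250)) (XT.lf (nat_lit 0) (nat_lit 4701750104) (nat_lit 420) (nat_lit 3825777393) (nat_lit 84) (nat_lit 4674917199) (nat_lit 72) (nat_lit 5) (nat_lit 77) (nat_lit 5) (nat_lit 73) (nat_lit 5) (nat_lit 375) (nat_lit 321) (nat_lit 249))) (XT.nd (nat_lit 94) (nat_lit 0) (nat_lit 0) (XT.lf (nat_lit 0) (nat_lit 2542302261) (nat_lit 336) (nat_lit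 4729532677) (nat_lit 420) (nat_lit 6185301457) (nat_lit 68) (nat_lit 5) (nat_lit 72) (nat_lit 5) (nat_lit 73) (nat_lit 5) (nat_lit 376) (nat_lit 321) (nat_lit 248)) (XT.lf (nat_lit 0) (nat_lit 9144149327) (nat_lit 336) (nat_lit 787724201) (nat_lit 420) (nat_lit 3787243303) (nat_lit 68) (nat_lit 5) (nat_lit 72) (nat_lit 5) (nat_lit 73) (nat_lit 5) (nat_lit 377) (nat_lit 321) (nat_lit 247))))) (XT.nd (nat_lit 376) (nat_lit 672) (nat_lit 0) (XT.nd (nat_lit 188) (nat_lit 252) (nat_lit 0) (XT.nd (nat_lit 94) (nat_lit 84) (nat_lit 0) (XT.lf (nat_lit 0) (nat_lit 1925869272) (nat_lit 336) (nat_lit 10770689078) (nat_lit 420) (nat_lit 1291685526) (nat_lit 64) (nat_lit 5) (nat_lit 68) (nat_lit 5) (nat_lit 69) (nat_lit 5) (nat_lit 378) (nat_lit 321) (nat_lit 246)) (XT.lf (nat_lit 0) (nat_lit 1283237210) (nat_lit 420) (nat_lit 5604626466) (nat_lit 84) (nat_lit 7376359443) (nat_lit 63) (nat_lit 5) (nat_lit 68)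 (nat_lit 5) (nat_lit 64) (nat_lit 5) (nat_lit 379) (nat_lit 321) (nat_lit 245))) (XT.nd (nat_lit 94) (nat_lit 0) (nat_lit 0) (XT.lf (nat_lit 0) (nat_lit 1019460930) (nat_lit 252) (nat_lit 2875509218) (nat_lit 336) (nat_lit 10653591983) (nat_lit 60) (nat_lit 5) (nat_lit 63) (nat_lit 5) (nat_lit 64) (nat_lit 5) (nat_lit 380) (nat_lit 321) (nat_lit 244)) (XT.lf (nat_lit 0) (nat_lit 6630300778) (nat_lit 336) (nat_lit 6930025166) (nat_lit 84) (nat_lit 1279776916) (nat_lit 60) (nat_lit 5) (nat_lit 64) (nat_lit 5) (nat_lit 61) (nat_lit 5) (nat_lit 381) (nat_lit 321) (nat_lit 243)))) (XT.nd (nat_lit 188) (nat_lit 336) (nat_lit 0) (XT.nd (nat_lit 94) (nat_lit 336) (nat_lit 0) (XT.lf (nat_lit 0) (nat_lit 9452865095) (nat_lit 336) (nat_lit 195239994) (nat_lit 84) (nat_lit 5492157583) (nat_lit 60) (nat_lit 5) (nat_lit 64) (nat_lit 5) (nat_lit 61) (nat_lit 5) (nat_lit 382) (nat_lit 321) (nat_lit 242)) (XT.lf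 (nat_lit 0) (nat_lit 6842298113) (nat_lit 336) (nat_lit 5560962508) (nat_lit 420) (nat_lit 3044899288) (nat_lit 56) (nat_lit 5) (nat_lit 60) (nat_lit 5) (nat_lit 61) (nat_lit 5) (nat_lit 383) (nat_lit 321) (nat_lit 241))) (XT.nd (nat_lit 94) (nat_lit 336) (nat_lit 0) (XT.lf (nat_lit 0) (nat_lit 14062477744) (nat_lit 336) (nat_lit 1359390229) (nat_lit 420) (nat_lit 344061553) (nat_lit 56) (nat_lit 5) (nat_lit 60) (nat_lit 5) (nat_lit 61) (nat_lit 5) (nat_lit 384) (nat_lit 321) (nat_lit 240)) (XT.lf (nat_lit 0) (nat_lit 2450012048) (nat_lit 336) (nat_lit 10663739124) (nat_lit 84) (nat_lit 2977009566) (nat_lit 52) (nat_lit 5) (nat_lit 56) (nat_lit 5) (nat_lit 53) (nat_lit 5) (nat_lit 385) (nat_lit 321) (nat_lit 239))))))) (XT.nd (nat_lit 54520) (nat_lit 0) (nat_lit 8316) (XT.nd (nat_lit 53768) (nat_lit 0) (nat_lit 16212) (XT.nd (nat_lit 53392) (nat_lit 0) (nat_lit 17472) (XT.nd (nat_lit 188) (nat_lit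 0) (nat_lit 0) (XT.nd (nat_lit 94) (nat_lit 252) (nat_lit 0) (XT.lf (nat_lit 0) (nat_lit 5330196067) (nat_lit 336) (nat_lit 3667788130) (nat_lit 84) (nat_lit 7426998605) (nat_lit 52) (nat_lit 5) (nat_lit 56) (nat_lit 5) (nat_lit 53) (nat_lit 5) (nat_lit 386) (nat_lit 321) (nat_lit 238)) (XT.lf (nat_lit 0) (nat_lit 3576512196) (nat_lit 252) (nat_lit 4733655323) (nat_lit 336) (nat_lit 8458686063) (nat_lit 49) (nat_lit 5) (nat_lit 52) (nat_lit 5) (nat_lit 53) (nat_lit 5) (nat_lit 387) (nat_lit 321) (nat_lit 237))) (XT.nd (nat_lit 53110) (nat_lit 0) (nat_lit 18060) (XT.lf (nat_lit 0) (nat_lit 11082314821) (nat_lit 252) (nat_lit 313576524) (nat_lit 336) (nat_lit 5726681372) (nat_lit 49) (nat_lit 5) (nat_lit 52) (nat_lit 5) (nat_lit 53) (nat_lit 5) (nat_lit 388) (nat_lit 321) (nat_lit 236)) (XT.lf (nat_lit 0) (nat_lit 1079526344) (nat_lit 588) (nat_lit 1124981006) (nat_lit 588) (nat_lit 1124981006) (nat_lit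 264) (nat_lit 3) (nat_lit 271) (nat_lit 3) (nat_lit 271) (nat_lit 5) (nat_lit 322) (nat_lit 322) (nat_lit 301)))) (XT.nd (nat_lit 188) (nat_lit 588) (nat_lit 0) (XT.nd (nat_lit 94) (nat_lit 0) (nat_lit 0) (XT.lf (nat_lit 84) (nat_lit 726860755) (nat_lit 0) (nat_lit 3524289213) (nat_lit 588) (nat_lit 2440224184) (nat_lit 265) (nat_lit 5) (nat_lit 264) (nat_lit 3) (nat_lit 271) (nat_lit 5) (nat_lit 323) (nat_lit 322) (nat_lit 300)) (XT.lf (nat_lit 84) (nat_lit 3796918025) (nat_lit 0) (nat_lit 2551294675) (nat_lit 588) (nat_lit 378487033) (nat_lit 265) (nat_lit 5) (nat_lit 264) (nat_lit 3) (nat_lit 271) (nat_lit 5) (nat_lit 324) (nat_lit 322) (nat_lit 299))) (XT.nd (nat_lit 94) (nat_lit 0) (nat_lit 0) (XT.lf (nat_lit 84) (nat_lit 139184703) (nat_lit 0) (nat_lit 1494044136) (nat_lit 672) (nat_lit 5131897128) (nat_lit 258) (nat_lit 5) (nat_lit 257) (nat_lit 5) (nat_lit 265) (nat_lit 5) (nat_lit 325)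 (nat_lit 322) (nat_lit 298)) (XT.lf (nat_lit 84) (nat_lit 3314126651) (nat_lit 0) (nat_lit 335851226) (nat_lit 672) (nat_lit 3156249454) (nat_lit 258) (nat_lit 5) (nat_lit 257) (nat_lit 5) (nat_lit 265) (nat_lit 5) (nat_lit 326) (nat_lit 322) (nat_lit 297))))) (XT.nd (nat_lit 376) (nat_lit 672) (nat_lit 0) (XT.nd (nat_lit 188) (nat_lit 0) (nat_lit 0) (XT.nd (nat_lit 94) (nat_lit 672) (nat_lit 0) (XT.lf (nat_lit 0) (nat_lit 5660785092) (nat_lit 588) (nat_lit 316353745) (nat_lit 672) (nat_lit 873613733) (nat_lit 258) (nat_lit 5) (nat_lit 265) (nat_lit 5) (nat_lit 266) (nat_lit 5) (nat_lit 327) (nat_lit 322) (nat_lit 296)) (XT.lf (nat_lit 0) (nat_lit 777747039) (nat_lit 672) (nat_lit 3939012376) (nat_lit 756) (nat_lit 2181037121) (nat_lit 250) (nat_lit 5) (nat_lit 258) (nat_lit 5) (nat_lit 259) (nat_lit 5) (nat_lit 328) (nat_lit 322) (nat_lit 295))) (XT.nd (nat_lit 94) (nat_lit 0) (nat_lit 0) (XT.lf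 (nat_lit 0) (nat_lit 2712117032) (nat_lit 672) (nat_lit 663090418) (nat_lit 756) (nat_lit 3572925421) (nat_lit 250) (nat_lit 5) (nat_lit 258) (nat_lit 5) (nat_lit 259) (nat_lit 5) (nat_lit 329) (nat_lit 322) (nat_lit 294)) (XT.lf (nat_lit 84) (nat_lit 2721712729) (nat_lit 0) (nat_lit 1939371103) (nat_lit 756) (nat_lit 2340373976) (nat_lit 251) (nat_lit 5) (nat_lit 250) (nat_lit 5) (nat_lit 259) (nat_lit 5) (nat_lit 330) (nat_lit 322) (nat_lit 293)))) (XT.nd (nat_lit 188) (nat_lit 0) (nat_lit 0) (XT.nd (nat_lit 94) (nat_lit 672) (nat_lit 0) (XT.lf (nat_lit 84) (nat_lit 6179562520) (nat_lit 0) (nat_lit 427678470) (nat_lit 756) (nat_lit 451150231) (nat_lit 251) (nat_lit 5) (nat_lit 250) (nat_lit 5) (nat_lit 259) (nat_lit 5) (nat_lit 331) (nat_lit 322) (nat_lit 292)) (XT.lf (nat_lit 0) (nat_lit 1435425172) (nat_lit 756) (nat_lit 4511005693) (nat_lit 840) (nat_lit 1171236021) (nat_lit 242) (nat_lit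 5) (nat_lit 251) (nat_lit 5) (nat_lit 252) (nat_lit 5) (nat_lit 332) (nat_lit 322) (nat_lit 291))) (XT.nd (nat_lit 94) (nat_lit 0) (nat_lit 0) (XT.lf (nat_lit 0) (nat_lit 3317683640) (nat_lit 756) (nat_lit 1016790232) (nat_lit 840) (nat_lit 2845824252) (nat_lit 242) (nat_lit 5) (nat_lit 251) (nat_lit 5) (nat_lit 252) (nat_lit 5) (nat_lit 333) (nat_lit 322) (nat_lit 290)) (XT.lf (nat_lit 84) (nat_lit 2589800239) (nat_lit 0) (nat_lit 2628355552) (nat_lit 840) (nat_lit 2027951501) (nat_lit 243) (nat_lit 5) (nat_lit 242) (nat_lit 5) (nat_lit 252) (nat_lit 5) (nat_lit 334) (nat_lit 322) (nat_lit 289)))))) (XT.nd (nat_lit 752) (nat_lit 4284) (nat_lit 0) (XT.nd (nat_lit 376) (nat_lit 2016) (nat_lit 0) (XT.nd (nat_lit 188) (nat_lit 840) (nat_lit 0) (XT.nd (nat_lit 94) (nat_lit 756) (nat_lit 0) (XT.lf (nat_lit 84) (nat_lit 6282865294) (nat_lit 0) (nat_lit 841325699) (nat_lit 840) (nat_lit 191390238) (nat_lit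 243) (nat_lit 5) (nat_lit 242) (nat_lit 5) (nat_lit 252) (nat_lit 5) (nat_lit 335) (nat_lit 322) (nat_lit 288)) (XT.lf (nat_lit 0) (nat_lit 1642520195) (nat_lit 840) (nat_lit 4704908457) (nat_lit 84) (nat_lit 1040096023) (nat_lit 233) (nat_lit 5) (nat_lit 243) (nat_lit 5) (nat_lit 234) (nat_lit 5) (nat_lit 336) (nat_lit 322) (nat_lit 287))) (XT.nd (nat_lit 94) (nat_lit 840) (nat_lit 0) (XT.lf (nat_lit 0) (nat_lit 3487332814) (nat_lit 840) (nat_lit 985394678) (nat_lit 84) (nat_lit 2990184622) (nat_lit 233) (nat_lit 5) (nat_lit 243) (nat_lit 5) (nat_lit 234) (nat_lit 5) (nat_lit 337) (nat_lit 322) (nat_lit 286)) (XT.lf (nat_lit 0) (nat_lit 2858443278) (nat_lit 840) (nat_lit 2499115882) (nat_lit 924) (nat_lit 2184030510) (nat_lit 223) (nat_lit 5) (nat_lit 233) (nat_lit 5) (nat_lit 234) (nat_lit 5) (nat_lit 338) (nat_lit 322) (nat_lit 285)))) (XT.nd (nat_lit 188) (nat_lit 1008) (nat_lit 0) (XT.nd (nat_lit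 94) (nat_lit 1008) (nat_lit 0) (XT.lf (nat_lit 0) (nat_lit 6795178199) (nat_lit 840) (nat_lit 442519300) (nat_lit 924) (nat_lit 386442670) (nat_lit 223) (nat_lit 5) (nat_lit 233) (nat_lit 5) (nat_lit 234) (nat_lit 5) (nat_lit 339) (nat_lit 322) (nat_lit 284)) (XT.lf (nat_lit 0) (nat_lit 1428218775) (nat_lit 1008) (nat_lit 4580728611) (nat_lit 84) (nat_lit 1700164750) (nat_lit 211) (nat_lit 5) (nat_lit 223) (nat_lit 5) (nat_lit 212) (nat_lit 5) (nat_lit 340) (nat_lit 322) (nat_lit 283))) (XT.nd (nat_lit 94) (nat_lit 1008) (nat_lit 0) (XT.lf (nat_lit 0) (nat_lit 3248532504) (nat_lit 1008) (nat_lit 627255115) (nat_lit 84) (nat_lit 3922077486) (nat_lit 211) (nat_lit 5) (nat_lit 223) (nat_lit 5) (nat_lit 212) (nat_lit 5) (nat_lit 341) (nat_lit 322) (nat_lit 282)) (XT.lf (nat_lit 0) (nat_lit 3469788076) (nat_lit 1008) (nat_lit 1634734309) (nat_lit 1092) (nat_lit 2785438910) (nat_lit 199) (nat_lit 5)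 (nat_lit 211) (nat_lit 5) (nat_lit 212) (nat_lit 5) (nat_lit 342) (nat_lit 322) (nat_lit 281))))) (XT.nd (nat_lit 376) (nat_lit 1932) (nat_lit 0) (XT.nd (nat_lit 188) (nat_lit 1176) (nat_lit 0) (XT.nd (nat_lit 94) (nat_lit 1176) (nat_lit 0) (XT.lf (nat_lit 0) (nat_lit 6977977446) (nat_lit 1092) (nat_lit 332620019) (nat_lit 84) (nat_lit 675478694) (nat_lit 199) (nat_lit 5) (nat_lit 212) (nat_lit 5) (nat_lit 200) (nat_lit 5) (nat_lit 343) (nat_lit 322) (nat_lit 280)) (XT.lf (nat_lit 0) (nat_lit 810471167) (nat_lit 1176) (nat_lit 4198403643) (nat_lit 84) (nat_lit 3075946709) (nat_lit 185) (nat_lit 5) (nat_lit 199) (nat_lit 5) (nat_lit 186) (nat_lit 5) (nat_lit 344) (nat_lit 322) (nat_lit 279))) (XT.nd (nat_lit 94) (nat_lit 1176) (nat_lit 0) (XT.lf (nat_lit 0) (nat_lit 2617586142) (nat_lit 1176) (nat_lit 1026357) (nat_lit 84) (nat_lit 5569089884) (nat_lit 185) (nat_lit 5) (nat_lit 199) (nat_lit 5)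 (nat_lit 186) (nat_lit 5) (nat_lit 345) (nat_lit 322) (nat_lit 278)) (XT.lf (nat_lit 0) (nat_lit 4365290965) (nat_lit 1176) (nat_lit 107874495) (nat_lit 1260) (nat_lit 3820773847) (nat_lit 171) (nat_lit 5) (nat_lit 185) (nat_lit 5) (nat_lit 186) (nat_lit 5) (nat_lit 346) (nat_lit 322) (nat_lit 277)))) (XT.nd (nat_lit 188) (nat_lit 672) (nat_lit 0) (XT.nd (nat_lit 94) (nat_lit 0) (nat_lit 0) (XT.lf (nat_lit 0) (nat_lit 399943963) (nat_lit 1260) (nat_lit 5965470158) (nat_lit 1344) (nat_lit 2038613490) (nat_lit 156) (nat_lit 5) (nat_lit 171) (nat_lit 5) (nat_lit 172) (nat_lit 5) (nat_lit 347) (nat_lit 322) (nat_lit 276)) (XT.lf (nat_lit 0) (nat_lit 4894968347) (nat_lit 1260) (nat_lit 3414463653) (nat_lit 1344) (nat_lit 208228091) (nat_lit 156) (nat_lit 5) (nat_lit 171) (nat_lit 5) (nat_lit 172) (nat_lit 5) (nat_lit 348) (nat_lit 322) (nat_lit 275))) (XT.nd (nat_lit 94) (nat_lit 0) (nat_lit 0) (XT.lf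 (nat_lit 0) (nat_lit 847966237) (nat_lit 588) (nat_lit 759605799) (nat_lit 672) (nat_lit 7027835341) (nat_lit 148) (nat_lit 5) (nat_lit 155) (nat_lit 5) (nat_lit 156) (nat_lit 5) (nat_lit 349) (nat_lit 322) (nat_lit 274)) (XT.lf (nat_lit 0) (nat_lit 3485587412) (nat_lit 672) (nat_lit 3293597738) (nat_lit 84) (nat_lit 1977166098) (nat_lit 148) (nat_lit 5) (nat_lit 156) (nat_lit 5) (nat_lit 149) (nat_lit 5) (nat_lit 350) (nat_lit 322) (nat_lit 273))))))))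
noncomputable def xc30 : XT := (XT.nd (nat_lit 2914) (nat_lit 924) (nat_lit 0) (XT.nd (nat_lit 1410) (nat_lit 3024) (nat_lit 0) (XT.nd (nat_lit 658) (nat_lit 2016) (nat_lit 0) (XT.nd (nat_lit 282) (nat_lit 1092) (nat_lit 0) (XT.nd (nat_lit 94) (nat_lit 672) (nat_lit 0) (XT.lf (nat_lit 0) (nat_lit 1310782357) (nat_lit 588) (nat_lit 4086561604) (nat_lit 672) (nat_lit 3484338823) (nat_lit 141) (nat_lit 5) (nat_lit 148) (nat_lit 5) (nat_lit 149) (nat_lit 5) (nat_lit 351) (nat_lit 322) (nat_lit 272)) (XT.nd (nat_lit 94) (nat_lit 672) (nat_lit 0) (XT.lf (nat_lit 0) (nat_lit 6078888596) (nat_lit 588) (nat_lit 1278944621) (nat_lit 672) (nat_lit 1653278649) (nat_lit 141) (nat_lit 5) (nat_lit 148) (nat_lit 5) (nat_lit 149) (nat_lit 5) (nat_lit 352) (nat_lit 322) (nat_lit 271)) (XT.lf (nat_lit 0) (nat_lit 220396791) (nat_lit 672) (nat_lit 7323188899) (nat_lit 84) (nat_lit 1601078749) (nat_lit 133) (nat_lit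 5) (nat_lit 141) (nat_lit 5) (nat_lit 134) (nat_lit 5) (nat_lit 353) (nat_lit 322) (nat_lit 270)))) (XT.nd (nat_lit 188) (nat_lit 504) (nat_lit 0) (XT.nd (nat_lit 94) (nat_lit 588) (nat_lit 0) (XT.lf (nat_lit 0) (nat_lit 2119276144) (nat_lit 672) (nat_lit 2575226702) (nat_lit 84) (nat_lit 4587235279) (nat_lit 133) (nat_lit 5) (nat_lit 141) (nat_lit 5) (nat_lit 134) (nat_lit 5) (nat_lit 354) (nat_lit 322) (nat_lit 269)) (XT.lf (nat_lit 0) (nat_lit 2319207793) (nat_lit 588) (nat_lit 1739039983) (nat_lit 672) (nat_lit 5365252658) (nat_lit 126) (nat_lit 5) (nat_lit 133) (nat_lit 5) (nat_lit 134) (nat_lit 5) (nat_lit 355) (nat_lit 322) (nat_lit 268))) (XT.nd (nat_lit 94) (nat_lit 504) (nat_lit 0) (XT.lf (nat_lit 0) (nat_lit 6055753691) (nat_lit 672) (nat_lit 2210289471) (nat_lit 84) (nat_lit 1303529641) (nat_lit 126) (nat_lit 5) (nat_lit 134) (nat_lit 5) (nat_lit 127) (nat_lit 5) (nat_lit 356) (nat_lit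 322) (nat_lit 267)) (XT.lf (nat_lit 0) (nat_lit 2827701812) (nat_lit 504) (nat_lit 5292560098) (nat_lit 588) (nat_lit 1599619283) (nat_lit 120) (nat_lit 5) (nat_lit 126) (nat_lit 5) (nat_lit 127) (nat_lit 5) (nat_lit 357) (nat_lit 322) (nat_lit 266))))) (XT.nd (nat_lit 376) (nat_lit 1008) (nat_lit 0) (XT.nd (nat_lit 188) (nat_lit 420) (nat_lit 0) (XT.nd (nat_lit 94) (nat_lit 504) (nat_lit 0) (XT.lf (nat_lit 0) (nat_lit 350238437) (nat_lit 588) (nat_lit 1856876789) (nat_lit 84) (nat_lit 7667973958) (nat_lit 119) (nat_lit 5) (nat_lit 126) (nat_lit 5) (nat_lit 120) (nat_lit 5) (nat_lit 358) (nat_lit 322) (nat_lit 265)) (XT.lf (nat_lit 0) (nat_lit 2332334131) (nat_lit 588) (nat_lit 6705617056) (nat_lit 84) (nat_lit 996410852) (nat_lit 113) (nat_lit 5) (nat_lit 120) (nat_lit 5) (nat_lit 114) (nat_lit 5) (nat_lit 359) (nat_lit 322) (nat_lit 264))) (XT.nd (nat_lit 94) (nat_lit 420) (nat_lit 0) (XT.lf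 (nat_lit 0) (nat_lit 4379337119) (nat_lit 588) (nat_lit 1552566196) (nat_lit 84) (nat_lit 4266405212) (nat_lit 113) (nat_lit 5) (nat_lit 120) (nat_lit 5) (nat_lit 114) (nat_lit 5) (nat_lit 360) (nat_lit 322) (nat_lit 263)) (XT.lf (nat_lit 0) (nat_lit 3789531432) (nat_lit 420) (nat_lit 2700330847) (nat_lit 504) (nat_lit 3877304841) (nat_lit 108) (nat_lit 5) (nat_lit 113) (nat_lit 5) (nat_lit 114) (nat_lit 5) (nat_lit 361) (nat_lit 322) (nat_lit 262)))) (XT.nd (nat_lit 188) (nat_lit 420) (nat_lit 0) (XT.nd (nat_lit 94) (nat_lit 588) (nat_lit 0) (XT.lf (nat_lit 0) (nat_lit 8651831153) (nat_lit 504) (nat_lit 1263215928) (nat_lit 84) (nat_lit 626455960) (nat_lit 108) (nat_lit 5) (nat_lit 114) (nat_lit 5) (nat_lit 109) (nat_lit 5) (nat_lit 362) (nat_lit 322) (nat_lit 261)) (XT.lf (nat_lit 0) (nat_lit 189416710) (nat_lit 588) (nat_lit 6494498988) (nat_lit 84) (nat_lit 4036113068) (nat_lit 101) (nat_lit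 5) (nat_lit 108) (nat_lit 5) (nat_lit 102) (nat_lit 5) (nat_lit 363) (nat_lit 322) (nat_lit 260))) (XT.nd (nat_lit 94) (nat_lit 420) (nat_lit 0) (XT.lf (nat_lit 0) (nat_lit 2273232540) (nat_lit 588) (nat_lit 1056798139) (nat_lit 84) (nat_lit 7573958951) (nat_lit 101) (nat_lit 5) (nat_lit 108) (nat_lit 5) (nat_lit 102) (nat_lit 5) (nat_lit 364) (nat_lit 322) (nat_lit 259)) (XT.lf (nat_lit 0) (nat_lit 4433710373) (nat_lit 504) (nat_lit 6499125706) (nat_lit 84) (nat_lit 160258043) (nat_lit 96) (nat_lit 5) (nat_lit 102) (nat_lit 5) (nat_lit 97) (nat_lit 5) (nat_lit 365) (nat_lit 322) (nat_lit 258)))))) (XT.nd (nat_lit 752) (nat_lit 1428) (nat_lit 0) (XT.nd (nat_lit 376) (nat_lit 756) (nat_lit 0) (XT.nd (nat_lit 188) (nat_lit 420) (nat_lit 0) (XT.nd (nat_lit 94) (nat_lit 420) (nat_lit 0) (XT.lf (nat_lit 0) (nat_lit 6671644182) (nat_lit 504) (nat_lit 923370851) (nat_lit 84) (nat_lit 3692525263) (nat_lit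 96) (nat_lit 5) (nat_lit 102) (nat_lit 5) (nat_lit 97) (nat_lit 5) (nat_lit 366) (nat_lit 322) (nat_lit 257)) (XT.lf (nat_lit 0) (nat_lit 4877292045) (nat_lit 420) (nat_lit 4116107274) (nat_lit 504) (nat_lit 2493966442) (nat_lit 91) (nat_lit 5) (nat_lit 96) (nat_lit 5) (nat_lit 97) (nat_lit 5) (nat_lit 367) (nat_lit 322) (nat_lit 256))) (XT.nd (nat_lit 94) (nat_lit 420) (nat_lit 0) (XT.lf (nat_lit 0) (nat_lit 10833732909) (nat_lit 420) (nat_lit 530720550) (nat_lit 504) (nat_lit 329388192) (nat_lit 91) (nat_lit 5) (nat_lit 96) (nat_lit 5) (nat_lit 97) (nat_lit 5) (nat_lit 368) (nat_lit 322) (nat_lit 255)) (XT.lf (nat_lit 0) (nat_lit 1913990805) (nat_lit 420) (nat_lit 6829362499) (nat_lit 84) (nat_lit 3161124771) (nat_lit 86) (nat_lit 5) (nat_lit 91) (nat_lit 5) (nat_lit 87) (nat_lit 5) (nat_lit 369) (nat_lit 322) (nat_lit 254)))) (XT.nd (nat_lit 188) (nat_lit 336) (nat_lit 0) (XT.nd (nat_lit 94)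 (nat_lit 420) (nat_lit 0) (XT.lf (nat_lit 0) (nat_lit 4203360487) (nat_lit 420) (nat_lit 960923382) (nat_lit 84) (nat_lit 6957533825) (nat_lit 86) (nat_lit 5) (nat_lit 91) (nat_lit 5) (nat_lit 87) (nat_lit 5) (nat_lit 370) (nat_lit 322) (nat_lit 253)) (XT.lf (nat_lit 0) (nat_lit 5147929933) (nat_lit 420) (nat_lit 1435086402) (nat_lit 504) (nat_lit 5762053042) (nat_lit 81) (nat_lit 5) (nat_lit 86) (nat_lit 5) (nat_lit 87) (nat_lit 5) (nat_lit 371) (nat_lit 322) (nat_lit 252))) (XT.nd (nat_lit 94) (nat_lit 336) (nat_lit 0) (XT.lf (nat_lit 0) (nat_lit 9039497647) (nat_lit 504) (nat_lit 1174725488) (nat_lit 84) (nat_lit 2360671264) (nat_lit 81) (nat_lit 5) (nat_lit 87) (nat_lit 5) (nat_lit 82) (nat_lit 5) (nat_lit 372) (nat_lit 322) (nat_lit 251)) (XT.lf (nat_lit 0) (nat_lit 5077780694) (nat_lit 336) (nat_lit 6528221393) (nat_lit 420) (nat_lit 1204559956) (nat_lit 77) (nat_lit 5) (nat_lit 81) (nat_lit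 5) (nat_lit 82) (nat_lit 5) (nat_lit 373) (nat_lit 322) (nat_lit 250))))) (XT.nd (nat_lit 376) (nat_lit 672) (nat_lit 0) (XT.nd (nat_lit 188) (nat_lit 336) (nat_lit 0) (XT.nd (nat_lit 94) (nat_lit 336) (nat_lit 0) (XT.lf (nat_lit 0) (nat_lit 1158292868) (nat_lit 420) (nat_lit 1558290618) (nat_lit 84) (nat_lit 10336843841) (nat_lit 76) (nat_lit 5) (nat_lit 81) (nat_lit 5) (nat_lit 77) (nat_lit 5) (nat_lit 374) (nat_lit 322) (nat_lit 249)) (XT.lf (nat_lit 0) (nat_lit 3600783675) (nat_lit 420) (nat_lit 8465244639) (nat_lit 84) (nat_lit 1236238109) (nat_lit 72) (nat_lit 5) (nat_lit 77) (nat_lit 5) (nat_lit 73) (nat_lit 5) (nat_lit 375) (nat_lit 322) (nat_lit 248))) (XT.nd (nat_lit 94) (nat_lit 336) (nat_lit 0) (XT.lf (nat_lit 0) (nat_lit 6133899077) (nat_lit 420) (nat_lit 2164017333) (nat_lit 84) (nat_lit 5260167308) (nat_lit 72) (nat_lit 5) (nat_lit 77) (nat_lit 5) (nat_lit 73) (nat_lit 5) (nat_lit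 376) (nat_lit 322) (nat_lit 247)) (XT.lf (nat_lit 0) (nat_lit 4377687716) (nat_lit 336) (nat_lit 4382703691) (nat_lit 420) (nat_lit 5060695168) (nat_lit 68) (nat_lit 5) (nat_lit 72) (nat_lit 5) (nat_lit 73) (nat_lit 5) (nat_lit 377) (nat_lit 322) (nat_lit 246)))) (XT.nd (nat_lit 188) (nat_lit 336) (nat_lit 0) (XT.nd (nat_lit 94) (nat_lit 336) (nat_lit 0) (XT.lf (nat_lit 0) (nat_lit 11126353794) (nat_lit 336) (nat_lit 336875378) (nat_lit 420) (nat_lit 2628855426) (nat_lit 68) (nat_lit 5) (nat_lit 72) (nat_lit 5) (nat_lit 73) (nat_lit 5) (nat_lit 378) (nat_lit 322) (nat_lit 245)) (XT.lf (nat_lit 0) (nat_lit 3708492386) (nat_lit 336) (nat_lit 10587446335) (nat_lit 420) (nat_lit 73840919) (nat_lit 64) (nat_lit 5) (nat_lit 68) (nat_lit 5) (nat_lit 69) (nat_lit 5) (nat_lit 379) (nat_lit 322) (nat_lit 244))) (XT.nd (nat_lit 94) (nat_lit 252) (nat_lit 0) (XT.lf (nat_lit 0) (nat_lit 2517923137) (nat_lit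 420) (nat_lit 4072882321) (nat_lit 84) (nat_lit 8063991027) (nat_lit 63) (nat_lit 5) (nat_lit 68) (nat_lit 5) (nat_lit 64) (nat_lit 5) (nat_lit 380) (nat_lit 322) (nat_lit 243)) (XT.lf (nat_lit 0) (nat_lit 2733262177) (nat_lit 252) (nat_lit 2456085551) (nat_lit 336) (nat_lit 9758920497) (nat_lit 60) (nat_lit 5) (nat_lit 63) (nat_lit 5) (nat_lit 64) (nat_lit 5) (nat_lit 381) (nat_lit 322) (nat_lit 242))))))) (XT.nd (nat_lit 54614) (nat_lit 0) (nat_lit 10248) (XT.nd (nat_lit 53862) (nat_lit 0) (nat_lit 16128) (XT.nd (nat_lit 376) (nat_lit 504) (nat_lit 0) (XT.nd (nat_lit 188) (nat_lit 84) (nat_lit 0) (XT.nd (nat_lit 94) (nat_lit 336) (nat_lit 0) (XT.lf (nat_lit 0) (nat_lit 7977160740) (nat_lit 336) (nat_lit 5472773302) (nat_lit 84) (nat_lit 1799549962) (nat_lit 60) (nat_lit 5) (nat_lit 64) (nat_lit 5) (nat_lit 61) (nat_lit 5) (nat_lit 382) (nat_lit 322) (nat_lit 241)) (XT.lf (nat_lit 0) (nat_lit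 1443728171) (nat_lit 336) (nat_lit 9421116350) (nat_lit 420) (nat_lit 4694431108) (nat_lit 56) (nat_lit 5) (nat_lit 60) (nat_lit 5) (nat_lit 61) (nat_lit 5) (nat_lit 383) (nat_lit 322) (nat_lit 240))) (XT.nd (nat_lit 94) (nat_lit 84) (nat_lit 0) (XT.lf (nat_lit 0) (nat_lit 8648370546) (nat_lit 336) (nat_lit 5224429655) (nat_lit 420) (nat_lit 2004577252) (nat_lit 56) (nat_lit 5) (nat_lit 60) (nat_lit 5) (nat_lit 61) (nat_lit 5) (nat_lit 384) (nat_lit 322) (nat_lit 239)) (XT.lf (nat_lit 0) (nat_lit 729799930) (nat_lit 420) (nat_lit 174301750) (nat_lit 84) (nat_lit 15301360743) (nat_lit 55) (nat_lit 5) (nat_lit 60) (nat_lit 5) (nat_lit 56) (nat_lit 5) (nat_lit 385) (nat_lit 322) (nat_lit 238)))) (XT.nd (nat_lit 188) (nat_lit 252) (nat_lit 0) (XT.nd (nat_lit 94) (nat_lit 0) (nat_lit 0) (XT.lf (nat_lit 0) (nat_lit 3589223711) (nat_lit 336) (nat_lit 9394054183) (nat_lit 84) (nat_lit 3557040982) (nat_lit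 52) (nat_lit 5) (nat_lit 56) (nat_lit 5) (nat_lit 53) (nat_lit 5) (nat_lit 386) (nat_lit 322) (nat_lit 237)) (XT.lf (nat_lit 0) (nat_lit 6524773115) (nat_lit 336) (nat_lit 2234523605) (nat_lit 84) (nat_lit 8126236843) (nat_lit 52) (nat_lit 5) (nat_lit 56) (nat_lit 5) (nat_lit 53) (nat_lit 5) (nat_lit 387) (nat_lit 322) (nat_lit 236))) (XT.nd (nat_lit 53204) (nat_lit 0) (nat_lit 18060) (XT.lf (nat_lit 0) (nat_lit 5211975357) (nat_lit 252) (nat_lit 4366721984) (nat_lit 336) (nat_lit 7661520263) (nat_lit 49) (nat_lit 5) (nat_lit 52) (nat_lit 5) (nat_lit 53) (nat_lit 5) (nat_lit 388) (nat_lit 322) (nat_lit 235)) (XT.lf (nat_lit 0) (nat_lit 3144904551) (nat_lit 588) (nat_lit 108918784) (nat_lit 588) (nat_lit 108918784) (nat_lit 264) (nat_lit 3) (nat_lit 271) (nat_lit 3) (nat_lit 271) (nat_lit 5) (nat_lit 323) (nat_lit 323) (nat_lit 299))))) (XT.nd (nat_lit 376) (nat_lit 672) (nat_lit 0) (XT.nd (nat_lit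 188) (nat_lit 672) (nat_lit 0) (XT.nd (nat_lit 94) (nat_lit 0) (nat_lit 0) (XT.lf (nat_lit 0) (nat_lit 1553180745) (nat_lit 588) (nat_lit 3949657385) (nat_lit 672) (nat_lit 1258840515) (nat_lit 257) (nat_lit 5) (nat_lit 264) (nat_lit 3) (nat_lit 265) (nat_lit 5) (nat_lit 324) (nat_lit 323) (nat_lit 298)) (XT.lf (nat_lit 0) (nat_lit 3518314663) (nat_lit 588) (nat_lit 907490113) (nat_lit 672) (nat_lit 2375467058) (nat_lit 257) (nat_lit 5) (nat_lit 264) (nat_lit 3) (nat_lit 265) (nat_lit 5) (nat_lit 325) (nat_lit 323) (nat_lit 297))) (XT.nd (nat_lit 94) (nat_lit 672) (nat_lit 0) (XT.lf (nat_lit 84) (nat_lit 2229146545) (nat_lit 0) (nat_lit 3260069881) (nat_lit 672) (nat_lit 1354629484) (nat_lit 258) (nat_lit 5) (nat_lit 257) (nat_lit 5) (nat_lit 265) (nat_lit 5) (nat_lit 326) (nat_lit 323) (nat_lit 296)) (XT.lf (nat_lit 0) (nat_lit 554745412) (nat_lit 672) (nat_lit 1456651763) (nat_lit 756) (nat_lit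 4878238440) (nat_lit 249) (nat_lit 5) (nat_lit 257) (nat_lit 5) (nat_lit 258) (nat_lit 5) (nat_lit 327) (nat_lit 323) (nat_lit 295)))) (XT.nd (nat_lit 188) (nat_lit 672) (nat_lit 0) (XT.nd (nat_lit 94) (nat_lit 0) (nat_lit 84) (XT.lf (nat_lit 84) (nat_lit 1777059324) (nat_lit 0) (nat_lit 662611830) (nat_lit 756) (nat_lit 4498541349) (nat_lit 250) (nat_lit 5) (nat_lit 249) (nat_lit 5) (nat_lit 258) (nat_lit 5) (nat_lit 328) (nat_lit 323) (nat_lit 294)) (XT.lf (nat_lit 0) (nat_lit 4333387451) (nat_lit 672) (nat_lit 1899801145) (nat_lit 756) (nat_lit 756666298) (nat_lit 250) (nat_lit 5) (nat_lit 258) (nat_lit 5) (nat_lit 259) (nat_lit 5) (nat_lit 329) (nat_lit 323) (nat_lit 293))) (XT.nd (nat_lit 94) (nat_lit 756) (nat_lit 0) (XT.lf (nat_lit 84) (nat_lit 1439654967) (nat_lit 0) (nat_lit 4797089664) (nat_lit 756) (nat_lit 807887414) (nat_lit 251) (nat_lit 5) (nat_lit 250) (nat_lit 5) (nat_lit 259)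 (nat_lit 5) (nat_lit 330) (nat_lit 323) (nat_lit 292)) (XT.lf (nat_lit 0) (nat_lit 1027324081) (nat_lit 756) (nat_lit 2235319438) (nat_lit 840) (nat_lit 3839676558) (nat_lit 241) (nat_lit 5) (nat_lit 250) (nat_lit 5) (nat_lit 251) (nat_lit 5) (nat_lit 331) (nat_lit 323) (nat_lit 291)))))) (XT.nd (nat_lit 752) (nat_lit 4284) (nat_lit 0) (XT.nd (nat_lit 376) (nat_lit 840) (nat_lit 0) (XT.nd (nat_lit 188) (nat_lit 756) (nat_lit 0) (XT.nd (nat_lit 94) (nat_lit 0) (nat_lit 84) (XT.lf (nat_lit 84) (nat_lit 1209918056) (nat_lit 0) (nat_lit 1638202221) (nat_lit 840) (nat_lit 4315131436) (nat_lit 242) (nat_lit 5) (nat_lit 241) (nat_lit 5) (nat_lit 251) (nat_lit 5) (nat_lit 332) (nat_lit 323) (nat_lit 290)) (XT.lf (nat_lit 0) (nat_lit 4683523553) (nat_lit 756) (nat_lit 2464547042) (nat_lit 840) (nat_lit 79292579) (nat_lit 242) (nat_lit 5) (nat_lit 251) (nat_lit 5) (nat_lit 252) (nat_lit 5) (nat_lit 333)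 (nat_lit 323) (nat_lit 289))) (XT.nd (nat_lit 94) (nat_lit 840) (nat_lit 0) (XT.lf (nat_lit 84) (nat_lit 1092261592) (nat_lit 0) (nat_lit 5447137116) (nat_lit 840) (nat_lit 755183939) (nat_lit 243) (nat_lit 5) (nat_lit 242) (nat_lit 5) (nat_lit 252) (nat_lit 5) (nat_lit 334) (nat_lit 323) (nat_lit 288)) (XT.lf (nat_lit 0) (nat_lit 1030396818) (nat_lit 840) (nat_lit 2610145590) (nat_lit 924) (nat_lit 3724166941) (nat_lit 232) (nat_lit 5) (nat_lit 242) (nat_lit 5) (nat_lit 243) (nat_lit 5) (nat_lit 335) (nat_lit 323) (nat_lit 287)))) (XT.nd (nat_lit 188) (nat_lit 840) (nat_lit 0) (XT.nd (nat_lit 94) (nat_lit 0) (nat_lit 84) (XT.lf (nat_lit 84) (nat_lit 1061604475) (nat_lit 0) (nat_lit 1744079248) (nat_lit 924) (nat_lit 4632626791) (nat_lit 233) (nat_lit 5) (nat_lit 232) (nat_lit 5) (nat_lit 243) (nat_lit 5) (nat_lit 336) (nat_lit 323) (nat_lit 286)) (XT.lf (nat_lit 0) (nat_lit 4605451503) (nat_lit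 840) (nat_lit 2661628957) (nat_lit 84) (nat_lit 248033162) (nat_lit 233) (nat_lit 5) (nat_lit 243) (nat_lit 5) (nat_lit 234) (nat_lit 5) (nat_lit 337) (nat_lit 323) (nat_lit 285))) (XT.nd (nat_lit 94) (nat_lit 84) (nat_lit 0) (XT.lf (nat_lit 0) (nat_lit 1127854661) (nat_lit 840) (nat_lit 5303731710) (nat_lit 924) (nat_lit 1163590001) (nat_lit 223) (nat_lit 5) (nat_lit 233) (nat_lit 5) (nat_lit 234) (nat_lit 5) (nat_lit 338) (nat_lit 323) (nat_lit 284)) (XT.lf (nat_lit 0) (nat_lit 594448704) (nat_lit 924) (nat_lit 2640213929) (nat_lit 84) (nat_lit 4443755596) (nat_lit 222) (nat_lit 5) (nat_lit 233) (nat_lit 5) (nat_lit 223) (nat_lit 5) (nat_lit 339) (nat_lit 323) (nat_lit 283))))) (XT.nd (nat_lit 376) (nat_lit 2352) (nat_lit 0) (XT.nd (nat_lit 188) (nat_lit 1008) (nat_lit 0) (XT.nd (nat_lit 94) (nat_lit 0) (nat_lit 0) (XT.lf (nat_lit 0) (nat_lit 1273687221) (nat_lit 924) (nat_lit 1066834276) (nat_lit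 1008) (nat_lit 5424645840) (nat_lit 211) (nat_lit 5) (nat_lit 222) (nat_lit 5) (nat_lit 223) (nat_lit 5) (nat_lit 340) (nat_lit 323) (nat_lit 282)) (XT.lf (nat_lit 0) (nat_lit 4124823027) (nat_lit 1008) (nat_lit 2548807011) (nat_lit 84) (nat_lit 1181426118) (nat_lit 211) (nat_lit 5) (nat_lit 223) (nat_lit 5) (nat_lit 212) (nat_lit 5) (nat_lit 341) (nat_lit 323) (nat_lit 281))) (XT.nd (nat_lit 94) (nat_lit 0) (nat_lit 0) (XT.lf (nat_lit 0) (nat_lit 1489144500) (nat_lit 1008) (nat_lit 4447622322) (nat_lit 1092) (nat_lit 2011760775) (nat_lit 199) (nat_lit 5) (nat_lit 211) (nat_lit 5) (nat_lit 212) (nat_lit 5) (nat_lit 342) (nat_lit 323) (nat_lit 280)) (XT.lf (nat_lit 0) (nat_lit 5659391800) (nat_lit 1008) (nat_lit 2119734596) (nat_lit 1092) (nat_lit 266501230) (nat_lit 199) (nat_lit 5) (nat_lit 211) (nat_lit 5) (nat_lit 212) (nat_lit 5) (nat_lit 343) (nat_lit 323) (nat_lit 279)))) (XT.nd (nat_lit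 188) (nat_lit 1176) (nat_lit 0) (XT.nd (nat_lit 94) (nat_lit 0) (nat_lit 0) (XT.lf (nat_lit 0) (nat_lit 1472680376) (nat_lit 1176) (nat_lit 6360992536) (nat_lit 84) (nat_lit 312483022) (nat_lit 185) (nat_lit 5) (nat_lit 199) (nat_lit 5) (nat_lit 186) (nat_lit 5) (nat_lit 344) (nat_lit 323) (nat_lit 278)) (XT.lf (nat_lit 0) (nat_lit 3256292419) (nat_lit 1176) (nat_lit 2184385611) (nat_lit 84) (nat_lit 2809111720) (nat_lit 185) (nat_lit 5) (nat_lit 199) (nat_lit 5) (nat_lit 186) (nat_lit 5) (nat_lit 345) (nat_lit 323) (nat_lit 277))) (XT.nd (nat_lit 94) (nat_lit 0) (nat_lit 0) (XT.lf (nat_lit 0) (nat_lit 2117911854) (nat_lit 1176) (nat_lit 2949538320) (nat_lit 1260) (nat_lit 3289955614) (nat_lit 171) (nat_lit 5) (nat_lit 185) (nat_lit 5) (nat_lit 186) (nat_lit 5) (nat_lit 346) (nat_lit 323) (nat_lit 276)) (XT.lf (nat_lit 0) (nat_lit 6553521580) (nat_lit 1176) (nat_lit 356117303) (nat_lit 1260) (nat_lit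 1559402120) (nat_lit 171) (nat_lit 5) (nat_lit 185) (nat_lit 5) (nat_lit 186) (nat_lit 5) (nat_lit 347) (nat_lit 323) (nat_lit 275))))))))
noncomputable def xc31 : XT := (XT.nd (nat_lit 3008) (nat_lit 1344) (nat_lit 0) (XT.nd (nat_lit 1504) (nat_lit 2856) (nat_lit 0) (XT.nd (nat_lit 752) (nat_lit 2604) (nat_lit 0) (XT.nd (nat_lit 376) (nat_lit 1260) (nat_lit 0) (XT.nd (nat_lit 188) (nat_lit 588) (nat_lit 0) (XT.nd (nat_lit 94) (nat_lit 0) (nat_lit 0) (XT.lf (nat_lit 0) (nat_lit 221177425) (nat_lit 1344) (nat_lit 6061836191) (nat_lit 84) (nat_lit 2300959787) (nat_lit 155) (nat_lit 5) (nat_lit 171) (nat_lit 5) (nat_lit 156) (nat_lit 5) (nat_lit 348) (nat_lit 323) (nat_lit 274)) (XT.lf (nat_lit 0) (nat_lit 2003278407) (nat_lit 1344) (nat_lit 1630101440) (nat_lit 84) (nat_lit 5069211155) (nat_lit 155) (nat_lit 5) (nat_lit 171) (nat_lit 5) (nat_lit 156) (nat_lit 5) (nat_lit 349) (nat_lit 323) (nat_lit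 273))) (XT.nd (nat_lit 94) (nat_lit 0) (nat_lit 0) (XT.lf (nat_lit 0) (nat_lit 2952034132) (nat_lit 588) (nat_lit 872841421) (nat_lit 672) (nat_lit 5000391951) (nat_lit 148) (nat_lit 5) (nat_lit 155) (nat_lit 5) (nat_lit 156) (nat_lit 5) (nat_lit 350) (nat_lit 323) (nat_lit 272)) (XT.lf (nat_lit 0) (nat_lit 5695210297) (nat_lit 672) (nat_lit 1306288740) (nat_lit 84) (nat_lit 1950381573) (nat_lit 148) (nat_lit 5) (nat_lit 156) (nat_lit 5) (nat_lit 149) (nat_lit 5) (nat_lit 351) (nat_lit 323) (nat_lit 271)))) (XT.nd (nat_lit 188) (nat_lit 588) (nat_lit 0) (XT.nd (nat_lit 94) (nat_lit 84) (nat_lit 0) (XT.lf (nat_lit 0) (nat_lit 3415770632) (nat_lit 588) (nat_lit 4207093056) (nat_lit 672) (nat_lit 1459468863) (nat_lit 141) (nat_lit 5) (nat_lit 148) (nat_lit 5) (nat_lit 149) (nat_lit 5) (nat_lit 352) (nat_lit 323) (nat_lit 270)) (XT.lf (nat_lit 0) (nat_lit 357389010) (nat_lit 672) (nat_lit 954309781)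 (nat_lit 84) (nat_lit 7905757124) (nat_lit 140) (nat_lit 5) (nat_lit 148) (nat_lit 5) (nat_lit 141) (nat_lit 5) (nat_lit 353) (nat_lit 323) (nat_lit 269))) (XT.nd (nat_lit 94) (nat_lit 0) (nat_lit 0) (XT.lf (nat_lit 0) (nat_lit 2214916444) (nat_lit 672) (nat_lit 5450682063) (nat_lit 84) (nat_lit 1690206228) (nat_lit 133) (nat_lit 5) (nat_lit 141) (nat_lit 5) (nat_lit 134) (nat_lit 5) (nat_lit 354) (nat_lit 323) (nat_lit 268)) (XT.lf (nat_lit 0) (nat_lit 4112861952) (nat_lit 672) (nat_lit 621218938) (nat_lit 84) (nat_lit 4764750508) (nat_lit 133) (nat_lit 5) (nat_lit 141) (nat_lit 5) (nat_lit 134) (nat_lit 5) (nat_lit 355) (nat_lit 323) (nat_lit 267))))) (XT.nd (nat_lit 376) (nat_lit 924) (nat_lit 0) (XT.nd (nat_lit 188) (nat_lit 1092) (nat_lit 0) (XT.nd (nat_lit 94) (nat_lit 0) (nat_lit 0) (XT.lf (nat_lit 0) (nat_lit 4400134234) (nat_lit 588) (nat_lit 1672989016) (nat_lit 672) (nat_lit 3572930448)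 (nat_lit 126) (nat_lit 5) (nat_lit 133) (nat_lit 5) (nat_lit 134) (nat_lit 5) (nat_lit 356) (nat_lit 323) (nat_lit 266)) (XT.lf (nat_lit 0) (nat_lit 8076518015) (nat_lit 672) (nat_lit 266534532) (nat_lit 84) (nat_lit 1455174584) (nat_lit 126) (nat_lit 5) (nat_lit 134) (nat_lit 5) (nat_lit 127) (nat_lit 5) (nat_lit 357) (nat_lit 323) (nat_lit 265))) (XT.nd (nat_lit 94) (nat_lit 504) (nat_lit 0) (XT.lf (nat_lit 0) (nat_lit 210172659) (nat_lit 588) (nat_lit 5053343258) (nat_lit 84) (nat_lit 4690594992) (nat_lit 119) (nat_lit 5) (nat_lit 126) (nat_lit 5) (nat_lit 120) (nat_lit 5) (nat_lit 358) (nat_lit 323) (nat_lit 264)) (XT.lf (nat_lit 0) (nat_lit 59216799) (nat_lit 504) (nat_lit 2074554094) (nat_lit 588) (nat_lit 7981396750) (nat_lit 113) (nat_lit 5) (nat_lit 119) (nat_lit 5) (nat_lit 120) (nat_lit 5) (nat_lit 359) (nat_lit 323) (nat_lit 263)))) (XT.nd (nat_lit 188) (nat_lit 504) (nat_lit 0) (XT.nd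 (nat_lit 94) (nat_lit 420) (nat_lit 0) (XT.lf (nat_lit 0) (nat_lit 4143927953) (nat_lit 588) (nat_lit 4902412370) (nat_lit 84) (nat_lit 1233907301) (nat_lit 113) (nat_lit 5) (nat_lit 120) (nat_lit 5) (nat_lit 114) (nat_lit 5) (nat_lit 360) (nat_lit 323) (nat_lit 262)) (XT.lf (nat_lit 0) (nat_lit 353753211) (nat_lit 420) (nat_lit 5851261405) (nat_lit 504) (nat_lit 4245602050) (nat_lit 108) (nat_lit 5) (nat_lit 113) (nat_lit 5) (nat_lit 114) (nat_lit 5) (nat_lit 361) (nat_lit 323) (nat_lit 261))) (XT.nd (nat_lit 94) (nat_lit 504) (nat_lit 0) (XT.lf (nat_lit 0) (nat_lit 5830132403) (nat_lit 420) (nat_lit 2514595898) (nat_lit 504) (nat_lit 2280918442) (nat_lit 108) (nat_lit 5) (nat_lit 113) (nat_lit 5) (nat_lit 114) (nat_lit 5) (nat_lit 362) (nat_lit 323) (nat_lit 260)) (XT.lf (nat_lit 0) (nat_lit 630497971) (nat_lit 504) (nat_lit 9901253963) (nat_lit 588) (nat_lit 274734458) (nat_lit 102) (nat_lit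 5) (nat_lit 108) (nat_lit 5) (nat_lit 109) (nat_lit 5) (nat_lit 363) (nat_lit 323) (nat_lit 259)))))) (XT.nd (nat_lit 752) (nat_lit 1092) (nat_lit 0) (XT.nd (nat_lit 376) (nat_lit 840) (nat_lit 0) (XT.nd (nat_lit 188) (nat_lit 420) (nat_lit 0) (XT.nd (nat_lit 94) (nat_lit 420) (nat_lit 0) (XT.lf (nat_lit 0) (nat_lit 1798876311) (nat_lit 588) (nat_lit 4754426694) (nat_lit 84) (nat_lit 4437714712) (nat_lit 101) (nat_lit 5) (nat_lit 108) (nat_lit 5) (nat_lit 102) (nat_lit 5) (nat_lit 364) (nat_lit 323) (nat_lit 258)) (XT.lf (nat_lit 0) (nat_lit 805772174) (nat_lit 420) (nat_lit 3100468061) (nat_lit 504) (nat_lit 7275498937) (nat_lit 96) (nat_lit 5) (nat_lit 101) (nat_lit 5) (nat_lit 102) (nat_lit 5) (nat_lit 365) (nat_lit 323) (nat_lit 257))) (XT.nd (nat_lit 94) (nat_lit 420) (nat_lit 0) (XT.lf (nat_lit 0) (nat_lit 6099493503) (nat_lit 504) (nat_lit 4788900242) (nat_lit 84) (nat_lit 489154878) (nat_lit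 96) (nat_lit 5) (nat_lit 102) (nat_lit 5) (nat_lit 97) (nat_lit 5) (nat_lit 366) (nat_lit 323) (nat_lit 256)) (XT.lf (nat_lit 0) (nat_lit 916520637) (nat_lit 420) (nat_lit 7452211007) (nat_lit 504) (nat_lit 3210240146) (nat_lit 91) (nat_lit 5) (nat_lit 96) (nat_lit 5) (nat_lit 97) (nat_lit 5) (nat_lit 367) (nat_lit 323) (nat_lit 255)))) (XT.nd (nat_lit 188) (nat_lit 420) (nat_lit 0) (XT.nd (nat_lit 94) (nat_lit 420) (nat_lit 0) (XT.lf (nat_lit 0) (nat_lit 6855184410) (nat_lit 420) (nat_lit 3870407540) (nat_lit 504) (nat_lit 1060303091) (nat_lit 91) (nat_lit 5) (nat_lit 96) (nat_lit 5) (nat_lit 97) (nat_lit 5) (nat_lit 368) (nat_lit 323) (nat_lit 254)) (XT.lf (nat_lit 0) (nat_lit 944681302) (nat_lit 336) (nat_lit 167717488) (nat_lit 420) (nat_lit 10886911963) (nat_lit 86) (nat_lit 5) (nat_lit 90) (nat_lit 5) (nat_lit 91) (nat_lit 5) (nat_lit 369) (nat_lit 323) (nat_lit 253))) (XT.nd (nat_lit 94)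 (nat_lit 420) (nat_lit 0) (XT.lf (nat_lit 0) (nat_lit 3386422292) (nat_lit 420) (nat_lit 5202358245) (nat_lit 84) (nat_lit 3628349939) (nat_lit 86) (nat_lit 5) (nat_lit 91) (nat_lit 5) (nat_lit 87) (nat_lit 5) (nat_lit 370) (nat_lit 323) (nat_lit 252)) (XT.lf (nat_lit 0) (nat_lit 804476400) (nat_lit 420) (nat_lit 4906515848) (nat_lit 504) (nat_lit 6731061632) (nat_lit 81) (nat_lit 5) (nat_lit 86) (nat_lit 5) (nat_lit 87) (nat_lit 5) (nat_lit 371) (nat_lit 323) (nat_lit 251))))) (XT.nd (nat_lit 376) (nat_lit 336) (nat_lit 0) (XT.nd (nat_lit 188) (nat_lit 420) (nat_lit 0) (XT.nd (nat_lit 94) (nat_lit 336) (nat_lit 0) (XT.lf (nat_lit 0) (nat_lit 7063460521) (nat_lit 420) (nat_lit 1067759302) (nat_lit 504) (nat_lit 4541765277) (nat_lit 81) (nat_lit 5) (nat_lit 86) (nat_lit 5) (nat_lit 87) (nat_lit 5) (nat_lit 372) (nat_lit 323) (nat_lit 250)) (XT.lf (nat_lit 0) (nat_lit 547893270) (nat_lit 336) (nat_lit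 10083257758) (nat_lit 420) (nat_lit 2279516958) (nat_lit 77) (nat_lit 5) (nat_lit 81) (nat_lit 5) (nat_lit 82) (nat_lit 5) (nat_lit 373) (nat_lit 323) (nat_lit 249))) (XT.nd (nat_lit 94) (nat_lit 336) (nat_lit 0) (XT.lf (nat_lit 0) (nat_lit 91615826) (nat_lit 420) (nat_lit 6195012146) (nat_lit 84) (nat_lit 6867613191) (nat_lit 76) (nat_lit 5) (nat_lit 81) (nat_lit 5) (nat_lit 77) (nat_lit 5) (nat_lit 374) (nat_lit 323) (nat_lit 248)) (XT.lf (nat_lit 0) (nat_lit 103609949) (nat_lit 336) (nat_lit 2360429725) (nat_lit 420) (nat_lit 10941159108) (nat_lit 72) (nat_lit 5) (nat_lit 76) (nat_lit 5) (nat_lit 77) (nat_lit 5) (nat_lit 375) (nat_lit 323) (nat_lit 247)))) (XT.nd (nat_lit 188) (nat_lit 336) (nat_lit 0) (XT.nd (nat_lit 94) (nat_lit 0) (nat_lit 0) (XT.lf (nat_lit 0) (nat_lit 4962298904) (nat_lit 420) (nat_lit 6994412288) (nat_lit 84) (nat_lit 1705366605) (nat_lit 72) (nat_lit 5) (nat_lit 77) (nat_lit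 5) (nat_lit 73) (nat_lit 5) (nat_lit 376) (nat_lit 323) (nat_lit 246)) (XT.lf (nat_lit 0) (nat_lit 7534898301) (nat_lit 420) (nat_lit 554384756) (nat_lit 84) (nat_lit 5837429951) (nat_lit 72) (nat_lit 5) (nat_lit 77) (nat_lit 5) (nat_lit 73) (nat_lit 5) (nat_lit 377) (nat_lit 323) (nat_lit 245))) (XT.nd (nat_lit 94) (nat_lit 0) (nat_lit 0) (XT.lf (nat_lit 0) (nat_lit 6167154258) (nat_lit 336) (nat_lit 4053524075) (nat_lit 420) (nat_lit 3977559541) (nat_lit 68) (nat_lit 5) (nat_lit 72) (nat_lit 5) (nat_lit 73) (nat_lit 5) (nat_lit 378) (nat_lit 323) (nat_lit 244)) (XT.lf (nat_lit 0) (nat_lit 12970687090) (nat_lit 420) (nat_lit 1409436205) (nat_lit 84) (nat_lit 98305316) (nat_lit 68) (nat_lit 5) (nat_lit 73) (nat_lit 5) (nat_lit 69) (nat_lit 5) (nat_lit 379) (nat_lit 323) (nat_lit 243))))))) (XT.nd (nat_lit 54708) (nat_lit 0) (nat_lit 11172) (XT.nd (nat_lit 752) (nat_lit 0) (nat_lit 0) (XT.nd (nat_lit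 376) (nat_lit 672) (nat_lit 0) (XT.nd (nat_lit 188) (nat_lit 252) (nat_lit 0) (XT.nd (nat_lit 94) (nat_lit 0) (nat_lit 0) (XT.lf (nat_lit 0) (nat_lit 1086776342) (nat_lit 420) (nat_lit 9330022989) (nat_lit 84) (nat_lit 4347830264) (nat_lit 63) (nat_lit 5) (nat_lit 68) (nat_lit 5) (nat_lit 64) (nat_lit 5) (nat_lit 380) (nat_lit 323) (nat_lit 242)) (XT.lf (nat_lit 0) (nat_lit 3720983511) (nat_lit 420) (nat_lit 2592766087) (nat_lit 84) (nat_lit 8745481688) (nat_lit 63) (nat_lit 5) (nat_lit 68) (nat_lit 5) (nat_lit 64) (nat_lit 5) (nat_lit 381) (nat_lit 323) (nat_lit 241))) (XT.nd (nat_lit 94) (nat_lit 0) (nat_lit 0) (XT.lf (nat_lit 0) (nat_lit 4401853896) (nat_lit 252) (nat_lit 2053107787) (nat_lit 336) (nat_lit 8907113462) (nat_lit 60) (nat_lit 5) (nat_lit 63) (nat_lit 5) (nat_lit 64) (nat_lit 5) (nat_lit 382) (nat_lit 323) (nat_lit 240)) (XT.lf (nat_lit 0) (nat_lit 9298529421) (nat_lit 336) (nat_lit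 4067390454) (nat_lit 84) (nat_lit 2307283034) (nat_lit 60) (nat_lit 5) (nat_lit 64) (nat_lit 5) (nat_lit 61) (nat_lit 5) (nat_lit 383) (nat_lit 323) (nat_lit 239)))) (XT.nd (nat_lit 188) (nat_lit 336) (nat_lit 0) (XT.nd (nat_lit 94) (nat_lit 0) (nat_lit 0) (XT.lf (nat_lit 0) (nat_lit 3041218161) (nat_lit 336) (nat_lit 9215049134) (nat_lit 420) (nat_lit 3736556260) (nat_lit 56) (nat_lit 5) (nat_lit 60) (nat_lit 5) (nat_lit 61) (nat_lit 5) (nat_lit 384) (nat_lit 323) (nat_lit 238)) (XT.lf (nat_lit 0) (nat_lit 10416732482) (nat_lit 336) (nat_lit 4906695839) (nat_lit 420) (nat_lit 998007987) (nat_lit 56) (nat_lit 5) (nat_lit 60) (nat_lit 5) (nat_lit 61) (nat_lit 5) (nat_lit 385) (nat_lit 323) (nat_lit 237))) (XT.nd (nat_lit 94) (nat_lit 0) (nat_lit 0) (XT.lf (nat_lit 0) (nat_lit 1332806619) (nat_lit 252) (nat_lit 447127503) (nat_lit 336) (nat_lit 14879686380) (nat_lit 52) (nat_lit 5) (nat_lit 55) (nat_lit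 5) (nat_lit 56) (nat_lit 5) (nat_lit 386) (nat_lit 323) (nat_lit 236)) (XT.lf (nat_lit 0) (nat_lit 4701435535) (nat_lit 336) (nat_lit 8177528072) (nat_lit 84) (nat_lit 4126303940) (nat_lit 52) (nat_lit 5) (nat_lit 56) (nat_lit 5) (nat_lit 53) (nat_lit 5) (nat_lit 387) (nat_lit 323) (nat_lit 235))))) (XT.nd (nat_lit 53580) (nat_lit 0) (nat_lit 15792) (XT.nd (nat_lit 53392) (nat_lit 0) (nat_lit 16548) (XT.nd (nat_lit 53298) (nat_lit 0) (nat_lit 17220) (XT.lf (nat_lit 0) (nat_lit 7695793117) (nat_lit 336) (nat_lit 846852773) (nat_lit 84) (nat_lit 8819103297) (nat_lit 52) (nat_lit 5) (nat_lit 56) (nat_lit 5) (nat_lit 53) (nat_lit 5) (nat_lit 388) (nat_lit 323) (nat_lit 234)) (XT.lf (nat_lit 0) (nat_lit 868760234) (nat_lit 0) (nat_lit 868760234) (nat_lit 588) (nat_lit 1662280754) (nat_lit 257) (nat_lit 5) (nat_lit 257) (nat_lit 3) (nat_lit 264) (nat_lit 3) (nat_lit 324) (nat_lit 324) (nat_lit 297)))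 (XT.nd (nat_lit 94) (nat_lit 672) (nat_lit 0) (XT.lf (nat_lit 0) (nat_lit 4812090057) (nat_lit 0) (nat_lit 580204255) (nat_lit 588) (nat_lit 1448435032) (nat_lit 257) (nat_lit 5) (nat_lit 257) (nat_lit 3) (nat_lit 264) (nat_lit 3) (nat_lit 325) (nat_lit 324) (nat_lit 296)) (XT.lf (nat_lit 0) (nat_lit 417528560) (nat_lit 672) (nat_lit 5817345179) (nat_lit 756) (nat_lit 649972988) (nat_lit 249) (nat_lit 5) (nat_lit 257) (nat_lit 5) (nat_lit 258) (nat_lit 5) (nat_lit 326) (nat_lit 324) (nat_lit 295)))) (XT.nd (nat_lit 188) (nat_lit 756) (nat_lit 0) (XT.nd (nat_lit 94) (nat_lit 0) (nat_lit 0) (XT.lf (nat_lit 0) (nat_lit 2265205781) (nat_lit 672) (nat_lit 2692192305) (nat_lit 756) (nat_lit 1973994657) (nat_lit 249) (nat_lit 5) (nat_lit 257) (nat_lit 5) (nat_lit 258) (nat_lit 5) (nat_lit 327) (nat_lit 324) (nat_lit 294)) (XT.lf (nat_lit 84) (nat_lit 497250737) (nat_lit 0) (nat_lit 3606341613) (nat_lit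 756) (nat_lit 2877859900) (nat_lit 250) (nat_lit 5) (nat_lit 249) (nat_lit 5) (nat_lit 258) (nat_lit 5) (nat_lit 328) (nat_lit 324) (nat_lit 293))) (XT.nd (nat_lit 94) (nat_lit 756) (nat_lit 0) (XT.lf (nat_lit 84) (nat_lit 3798780800) (nat_lit 0) (nat_lit 2157686219) (nat_lit 756) (nat_lit 1077936796) (nat_lit 250) (nat_lit 5) (nat_lit 249) (nat_lit 5) (nat_lit 258) (nat_lit 5) (nat_lit 329) (nat_lit 324) (nat_lit 292)) (XT.lf (nat_lit 84) (nat_lit 65081823) (nat_lit 0) (nat_lit 629697984) (nat_lit 840) (nat_lit 6396082793) (nat_lit 241) (nat_lit 5) (nat_lit 240) (nat_lit 5) (nat_lit 250) (nat_lit 5) (nat_lit 330) (nat_lit 324) (nat_lit 291)))))) (XT.nd (nat_lit 752) (nat_lit 3864) (nat_lit 0) (XT.nd (nat_lit 376) (nat_lit 0) (nat_lit 84) (XT.nd (nat_lit 188) (nat_lit 840) (nat_lit 0) (XT.nd (nat_lit 94) (nat_lit 0) (nat_lit 0) (XT.lf (nat_lit 0) (nat_lit 2476220571) (nat_lit 756) (nat_lit 3678092578)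 (nat_lit 840) (nat_lit 995221488) (nat_lit 241) (nat_lit 5) (nat_lit 250) (nat_lit 5) (nat_lit 251) (nat_lit 5) (nat_lit 331) (nat_lit 324) (nat_lit 290)) (XT.lf (nat_lit 0) (nat_lit 4254364066) (nat_lit 756) (nat_lit 276131520) (nat_lit 840) (nat_lit 2681324835) (nat_lit 241) (nat_lit 5) (nat_lit 250) (nat_lit 5) (nat_lit 251) (nat_lit 5) (nat_lit 332) (nat_lit 324) (nat_lit 289))) (XT.nd (nat_lit 94) (nat_lit 840) (nat_lit 0) (XT.lf (nat_lit 84) (nat_lit 3252597927) (nat_lit 0) (nat_lit 2803379001) (nat_lit 840) (nat_lit 1221041062) (nat_lit 242) (nat_lit 5) (nat_lit 241) (nat_lit 5) (nat_lit 251) (nat_lit 5) (nat_lit 333) (nat_lit 324) (nat_lit 288)) (XT.lf (nat_lit 0) (nat_lit 498749062) (nat_lit 840) (nat_lit 496442738) (nat_lit 924) (nat_lit 6350683896) (nat_lit 231) (nat_lit 5) (nat_lit 241) (nat_lit 5) (nat_lit 242) (nat_lit 5) (nat_lit 334) (nat_lit 324) (nat_lit 287)))) (XT.nd (nat_lit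 188) (nat_lit 0) (nat_lit 0) (XT.nd (nat_lit 94) (nat_lit 0) (nat_lit 0) (XT.lf (nat_lit 0) (nat_lit 2226103115) (nat_lit 840) (nat_lit 4278222407) (nat_lit 924) (nat_lit 912830058) (nat_lit 232) (nat_lit 5) (nat_lit 242) (nat_lit 5) (nat_lit 243) (nat_lit 5) (nat_lit 335) (nat_lit 324) (nat_lit 286)) (XT.lf (nat_lit 0) (nat_lit 3963021464) (nat_lit 840) (nat_lit 647002179) (nat_lit 924) (nat_lit 2881948482) (nat_lit 232) (nat_lit 5) (nat_lit 242) (nat_lit 5) (nat_lit 243) (nat_lit 5) (nat_lit 336) (nat_lit 324) (nat_lit 285))) (XT.nd (nat_lit 94) (nat_lit 0) (nat_lit 0) (XT.lf (nat_lit 84) (nat_lit 3114886193) (nat_lit 0) (nat_lit 2611596134) (nat_lit 924) (nat_lit 1843444561) (nat_lit 233) (nat_lit 5) (nat_lit 232) (nat_lit 5) (nat_lit 243) (nat_lit 5) (nat_lit 337) (nat_lit 324) (nat_lit 284)) (XT.lf (nat_lit 84) (nat_lit 6964225871) (nat_lit 0) (nat_lit 530892385) (nat_lit 924) (nat_lit 156656980)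 (nat_lit 233) (nat_lit 5) (nat_lit 232) (nat_lit 5) (nat_lit 243) (nat_lit 5) (nat_lit 338) (nat_lit 324) (nat_lit 283))))) (XT.nd (nat_lit 376) (nat_lit 2184) (nat_lit 0) (XT.nd (nat_lit 188) (nat_lit 924) (nat_lit 0) (XT.nd (nat_lit 94) (nat_lit 0) (nat_lit 0) (XT.lf (nat_lit 0) (nat_lit 1543436178) (nat_lit 924) (nat_lit 4550983008) (nat_lit 84) (nat_lit 1641513579) (nat_lit 222) (nat_lit 5) (nat_lit 233) (nat_lit 5) (nat_lit 223) (nat_lit 5) (nat_lit 339) (nat_lit 324) (nat_lit 282)) (XT.lf (nat_lit 0) (nat_lit 3251648061) (nat_lit 924) (nat_lit 681713880) (nat_lit 84) (nat_lit 3890511245) (nat_lit 222) (nat_lit 5) (nat_lit 233) (nat_lit 5) (nat_lit 223) (nat_lit 5) (nat_lit 340) (nat_lit 324) (nat_lit 281))) (XT.nd (nat_lit 94) (nat_lit 0) (nat_lit 0) (XT.lf (nat_lit 0) (nat_lit 3329626791) (nat_lit 924) (nat_lit 1662997158) (nat_lit 1008) (nat_lit 2922491695) (nat_lit 211) (nat_lit 5) (nat_lit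 222) (nat_lit 5) (nat_lit 223) (nat_lit 5) (nat_lit 341) (nat_lit 324) (nat_lit 280)) (XT.lf (nat_lit 0) (nat_lit 6749988860) (nat_lit 1008) (nat_lit 580456953) (nat_lit 84) (nat_lit 679830938) (nat_lit 211) (nat_lit 5) (nat_lit 223) (nat_lit 5) (nat_lit 212) (nat_lit 5) (nat_lit 342) (nat_lit 324) (nat_lit 279)))) (XT.nd (nat_lit 188) (nat_lit 1092) (nat_lit 0) (XT.nd (nat_lit 94) (nat_lit 0) (nat_lit 0) (XT.lf (nat_lit 0) (nat_lit 445715637) (nat_lit 1092) (nat_lit 4554094945) (nat_lit 84) (nat_lit 3108369415) (nat_lit 198) (nat_lit 5) (nat_lit 211) (nat_lit 5) (nat_lit 199) (nat_lit 5) (nat_lit 343) (nat_lit 324) (nat_lit 278)) (XT.lf (nat_lit 0) (nat_lit 2136097848) (nat_lit 1092) (nat_lit 436590856) (nat_lit 84) (nat_lit 5637298578) (nat_lit 198) (nat_lit 5) (nat_lit 211) (nat_lit 5) (nat_lit 199) (nat_lit 5) (nat_lit 344) (nat_lit 324) (nat_lit 277))) (XT.nd (nat_lit 94) (nat_lit 0) (nat_lit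 0) (XT.lf (nat_lit 0) (nat_lit 3840771718) (nat_lit 1092) (nat_lit 27329561) (nat_lit 1176) (nat_lit 4447114545) (nat_lit 185) (nat_lit 5) (nat_lit 198) (nat_lit 5) (nat_lit 199) (nat_lit 5) (nat_lit 345) (nat_lit 324) (nat_lit 276)) (XT.lf (nat_lit 0) (nat_lit 5636483894) (nat_lit 1176) (nat_lit 232790078) (nat_lit 84) (nat_lit 2554886259) (nat_lit 185) (nat_lit 5) (nat_lit 199) (nat_lit 5) (nat_lit 186) (nat_lit 5) (nat_lit 346) (nat_lit 324) (nat_lit 275))))))))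
noncomputable def xc32 : XT := (XT.nd (nat_lit 2914) (nat_lit 1680) (nat_lit 0) (XT.nd (nat_lit 1410) (nat_lit 3444) (nat_lit 0) (XT.nd (nat_lit 658) (nat_lit 2268) (nat_lit 0) (XT.nd (nat_lit 282) (nat_lit 1260) (nat_lit 0) (XT.nd (nat_lit 94) (nat_lit 1344) (nat_lit 0) (XT.lf (nat_lit 0) (nat_lit 4178800554) (nat_lit 1176) (nat_lit 3275894929) (nat_lit 1260) (nat_lit 1081863077) (nat_lit 171) (nat_lit 5) (nat_lit 185) (nat_lit 5) (nat_lit 186) (nat_lit 5) (nat_lit 347) (nat_lit 324) (nat_lit 274)) (XT.nd (nat_lit 94) (nat_lit 0) (nat_lit 0) (XT.lf (nat_lit 0) (nat_lit 30175942) (nat_lit 1260) (nat_lit 591172769) (nat_lit 1344) (nat_lit 8032087300) (nat_lit 155) (nat_lit 5) (nat_lit 170) (nat_lit 5) (nat_lit 171) (nat_lit 5) (nat_lit 348) (nat_lit 324) (nat_lit 273)) (XT.lf (nat_lit 0) (nat_lit 2376908052) (nat_lit 1344) (nat_lit 4205623905) (nat_lit 84) (nat_lit 2190357986) (nat_lit 155) (nat_lit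 5) (nat_lit 171) (nat_lit 5) (nat_lit 156) (nat_lit 5) (nat_lit 349) (nat_lit 324) (nat_lit 272)))) (XT.nd (nat_lit 188) (nat_lit 672) (nat_lit 0) (XT.nd (nat_lit 94) (nat_lit 0) (nat_lit 0) (XT.lf (nat_lit 0) (nat_lit 305666354) (nat_lit 588) (nat_lit 3847148952) (nat_lit 672) (nat_lit 4744160752) (nat_lit 148) (nat_lit 5) (nat_lit 155) (nat_lit 5) (nat_lit 156) (nat_lit 5) (nat_lit 350) (nat_lit 324) (nat_lit 271)) (XT.lf (nat_lit 0) (nat_lit 4999902262) (nat_lit 588) (nat_lit 984282058) (nat_lit 672) (nat_lit 3040611599) (nat_lit 148) (nat_lit 5) (nat_lit 155) (nat_lit 5) (nat_lit 156) (nat_lit 5) (nat_lit 351) (nat_lit 324) (nat_lit 270))) (XT.nd (nat_lit 94) (nat_lit 84) (nat_lit 0) (XT.lf (nat_lit 0) (nat_lit 633244767) (nat_lit 588) (nat_lit 7223125453) (nat_lit 672) (nat_lit 1300578345) (nat_lit 141) (nat_lit 5) (nat_lit 148) (nat_lit 5) (nat_lit 149) (nat_lit 5) (nat_lit 352) (nat_lit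 324) (nat_lit 269)) (XT.lf (nat_lit 0) (nat_lit 494077800) (nat_lit 672) (nat_lit 3832291996) (nat_lit 84) (nat_lit 4966263927) (nat_lit 140) (nat_lit 5) (nat_lit 148) (nat_lit 5) (nat_lit 141) (nat_lit 5) (nat_lit 353) (nat_lit 324) (nat_lit 268))))) (XT.nd (nat_lit 376) (nat_lit 1092) (nat_lit 0) (XT.nd (nat_lit 188) (nat_lit 588) (nat_lit 0) (XT.nd (nat_lit 94) (nat_lit 0) (nat_lit 0) (XT.lf (nat_lit 0) (nat_lit 967807097) (nat_lit 588) (nat_lit 1320283290) (nat_lit 672) (nat_lit 7144831169) (nat_lit 133) (nat_lit 5) (nat_lit 140) (nat_lit 5) (nat_lit 141) (nat_lit 5) (nat_lit 354) (nat_lit 324) (nat_lit 267)) (XT.lf (nat_lit 0) (nat_lit 4155157650) (nat_lit 672) (nat_lit 3642101005) (nat_lit 84) (nat_lit 1779648503) (nat_lit 133) (nat_lit 5) (nat_lit 141) (nat_lit 5) (nat_lit 134) (nat_lit 5) (nat_lit 355) (nat_lit 324) (nat_lit 266))) (XT.nd (nat_lit 94) (nat_lit 0) (nat_lit 0) (XT.lf (nat_lit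 0) (nat_lit 1300177305) (nat_lit 588) (nat_lit 4767785801) (nat_lit 672) (nat_lit 3657621670) (nat_lit 126) (nat_lit 5) (nat_lit 133) (nat_lit 5) (nat_lit 134) (nat_lit 5) (nat_lit 356) (nat_lit 324) (nat_lit 265)) (XT.lf (nat_lit 0) (nat_lit 6428028738) (nat_lit 588) (nat_lit 1611742957) (nat_lit 672) (nat_lit 1838964822) (nat_lit 126) (nat_lit 5) (nat_lit 133) (nat_lit 5) (nat_lit 134) (nat_lit 5) (nat_lit 357) (nat_lit 324) (nat_lit 264)))) (XT.nd (nat_lit 188) (nat_lit 504) (nat_lit 0) (XT.nd (nat_lit 94) (nat_lit 0) (nat_lit 0) (XT.lf (nat_lit 0) (nat_lit 30982208) (nat_lit 588) (nat_lit 8384531324) (nat_lit 84) (nat_lit 1621096217) (nat_lit 119) (nat_lit 5) (nat_lit 126) (nat_lit 5) (nat_lit 120) (nat_lit 5) (nat_lit 358) (nat_lit 324) (nat_lit 263)) (XT.lf (nat_lit 0) (nat_lit 1937308980) (nat_lit 588) (nat_lit 3291696604) (nat_lit 84) (nat_lit 4969207157) (nat_lit 119) (nat_lit 5) (nat_lit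 126) (nat_lit 5) (nat_lit 120) (nat_lit 5) (nat_lit 359) (nat_lit 324) (nat_lit 262))) (XT.nd (nat_lit 94) (nat_lit 0) (nat_lit 0) (XT.lf (nat_lit 0) (nat_lit 1955482931) (nat_lit 504) (nat_lit 1931221928) (nat_lit 588) (nat_lit 6478437994) (nat_lit 113) (nat_lit 5) (nat_lit 119) (nat_lit 5) (nat_lit 120) (nat_lit 5) (nat_lit 360) (nat_lit 324) (nat_lit 261)) (XT.lf (nat_lit 0) (nat_lit 5909893260) (nat_lit 588) (nat_lit 3160170766) (nat_lit 84) (nat_lit 1466611317) (nat_lit 113) (nat_lit 5) (nat_lit 120) (nat_lit 5) (nat_lit 114) (nat_lit 5) (nat_lit 361) (nat_lit 324) (nat_lit 260)))))) (XT.nd (nat_lit 752) (nat_lit 1512) (nat_lit 0) (XT.nd (nat_lit 376) (nat_lit 924) (nat_lit 0) (XT.nd (nat_lit 188) (nat_lit 588) (nat_lit 0) (XT.nd (nat_lit 94) (nat_lit 0) (nat_lit 0) (XT.lf (nat_lit 0) (nat_lit 2235157097) (nat_lit 420) (nat_lit 5767823641) (nat_lit 504) (nat_lit 2710149195) (nat_lit 108) (nat_lit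 5) (nat_lit 113) (nat_lit 5) (nat_lit 114) (nat_lit 5) (nat_lit 362) (nat_lit 324) (nat_lit 259)) (XT.lf (nat_lit 0) (nat_lit 7821338599) (nat_lit 420) (nat_lit 2338601147) (nat_lit 504) (nat_lit 734956755) (nat_lit 108) (nat_lit 5) (nat_lit 113) (nat_lit 5) (nat_lit 114) (nat_lit 5) (nat_lit 363) (nat_lit 324) (nat_lit 258))) (XT.nd (nat_lit 94) (nat_lit 0) (nat_lit 0) (XT.lf (nat_lit 0) (nat_lit 1279610543) (nat_lit 588) (nat_lit 8599997191) (nat_lit 84) (nat_lit 1202017077) (nat_lit 101) (nat_lit 5) (nat_lit 108) (nat_lit 5) (nat_lit 102) (nat_lit 5) (nat_lit 364) (nat_lit 324) (nat_lit 257)) (XT.lf (nat_lit 0) (nat_lit 3364556333) (nat_lit 588) (nat_lit 3073223825) (nat_lit 84) (nat_lit 4835261510) (nat_lit 101) (nat_lit 5) (nat_lit 108) (nat_lit 5) (nat_lit 102) (nat_lit 5) (nat_lit 365) (nat_lit 324) (nat_lit 256)))) (XT.nd (nat_lit 188) (nat_lit 504) (nat_lit 0) (XT.nd (nat_lit 94) (nat_lit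 0) (nat_lit 0) (XT.lf (nat_lit 0) (nat_lit 2635900269) (nat_lit 420) (nat_lit 2872570353) (nat_lit 504) (nat_lit 5961882859) (nat_lit 96) (nat_lit 5) (nat_lit 101) (nat_lit 5) (nat_lit 102) (nat_lit 5) (nat_lit 366) (nat_lit 324) (nat_lit 255)) (XT.lf (nat_lit 0) (nat_lit 7727262754) (nat_lit 504) (nat_lit 3136734243) (nat_lit 84) (nat_lit 809314578) (nat_lit 96) (nat_lit 5) (nat_lit 102) (nat_lit 5) (nat_lit 97) (nat_lit 5) (nat_lit 367) (nat_lit 324) (nat_lit 254))) (XT.nd (nat_lit 94) (nat_lit 84) (nat_lit 0) (XT.lf (nat_lit 0) (nat_lit 2722243056) (nat_lit 420) (nat_lit 7317347287) (nat_lit 504) (nat_lit 1842001385) (nat_lit 91) (nat_lit 5) (nat_lit 96) (nat_lit 5) (nat_lit 97) (nat_lit 5) (nat_lit 368) (nat_lit 324) (nat_lit 253)) (XT.lf (nat_lit 0) (nat_lit 323341963) (nat_lit 504) (nat_lit 3311922343) (nat_lit 84) (nat_lit 8460666646) (nat_lit 90) (nat_lit 5) (nat_lit 96) (nat_lit 5) (nat_lit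 91) (nat_lit 5) (nat_lit 369) (nat_lit 324) (nat_lit 252))))) (XT.nd (nat_lit 376) (nat_lit 756) (nat_lit 0) (XT.nd (nat_lit 188) (nat_lit 420) (nat_lit 0) (XT.nd (nat_lit 94) (nat_lit 0) (nat_lit 0) (XT.lf (nat_lit 0) (nat_lit 2517908013) (nat_lit 420) (nat_lit 9606078514) (nat_lit 84) (nat_lit 192167015) (nat_lit 86) (nat_lit 5) (nat_lit 91) (nat_lit 5) (nat_lit 87) (nat_lit 5) (nat_lit 370) (nat_lit 324) (nat_lit 251)) (XT.lf (nat_lit 0) (nat_lit 4821799259) (nat_lit 420) (nat_lit 3631701563) (nat_lit 84) (nat_lit 4088215072) (nat_lit 86) (nat_lit 5) (nat_lit 91) (nat_lit 5) (nat_lit 87) (nat_lit 5) (nat_lit 371) (nat_lit 324) (nat_lit 250))) (XT.nd (nat_lit 94) (nat_lit 0) (nat_lit 0) (XT.lf (nat_lit 0) (nat_lit 2538409421) (nat_lit 420) (nat_lit 4655284437) (nat_lit 504) (nat_lit 5580421290) (nat_lit 81) (nat_lit 5) (nat_lit 86) (nat_lit 5) (nat_lit 87) (nat_lit 5) (nat_lit 372) (nat_lit 324)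 (nat_lit 249)) (XT.lf (nat_lit 0) (nat_lit 8935363103) (nat_lit 420) (nat_lit 712969862) (nat_lit 504) (nat_lit 3364841351) (nat_lit 81) (nat_lit 5) (nat_lit 86) (nat_lit 5) (nat_lit 87) (nat_lit 5) (nat_lit 373) (nat_lit 324) (nat_lit 248)))) (XT.nd (nat_lit 188) (nat_lit 336) (nat_lit 0) (XT.nd (nat_lit 94) (nat_lit 84) (nat_lit 0) (XT.lf (nat_lit 0) (nat_lit 2243980596) (nat_lit 336) (nat_lit 9961954595) (nat_lit 420) (nat_lit 1052624878) (nat_lit 77) (nat_lit 5) (nat_lit 81) (nat_lit 5) (nat_lit 82) (nat_lit 5) (nat_lit 374) (nat_lit 324) (nat_lit 247)) (XT.lf (nat_lit 0) (nat_lit 1327376008) (nat_lit 420) (nat_lit 4723942624) (nat_lit 84) (nat_lit 7458907548) (nat_lit 76) (nat_lit 5) (nat_lit 81) (nat_lit 5) (nat_lit 77) (nat_lit 5) (nat_lit 375) (nat_lit 324) (nat_lit 246))) (XT.nd (nat_lit 94) (nat_lit 0) (nat_lit 0) (XT.lf (nat_lit 0) (nat_lit 1747393822) (nat_lit 336) (nat_lit 2003436964)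 (nat_lit 420) (nat_lit 10018534107) (nat_lit 72) (nat_lit 5) (nat_lit 76) (nat_lit 5) (nat_lit 77) (nat_lit 5) (nat_lit 376) (nat_lit 324) (nat_lit 245)) (XT.lf (nat_lit 0) (nat_lit 6292704037) (nat_lit 420) (nat_lit 5578464950) (nat_lit 84) (nat_lit 2163768014) (nat_lit 72) (nat_lit 5) (nat_lit 77) (nat_lit 5) (nat_lit 73) (nat_lit 5) (nat_lit 377) (nat_lit 324) (nat_lit 244))))))) (XT.nd (nat_lit 54802) (nat_lit 0) (nat_lit 11172) (XT.nd (nat_lit 752) (nat_lit 336) (nat_lit 0) (XT.nd (nat_lit 376) (nat_lit 588) (nat_lit 0) (XT.nd (nat_lit 188) (nat_lit 420) (nat_lit 0) (XT.nd (nat_lit 94) (nat_lit 0) (nat_lit 0) (XT.lf (nat_lit 0) (nat_lit 1027460046) (nat_lit 336) (nat_lit 7890484269) (nat_lit 420) (nat_lit 5390348417) (nat_lit 68) (nat_lit 5) (nat_lit 72) (nat_lit 5) (nat_lit 73) (nat_lit 5) (nat_lit 378) (nat_lit 324) (nat_lit 243)) (XT.lf (nat_lit 0) (nat_lit 7915121012) (nat_lit 336) (nat_lit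 3740912879) (nat_lit 420) (nat_lit 2932821399) (nat_lit 68) (nat_lit 5) (nat_lit 72) (nat_lit 5) (nat_lit 73) (nat_lit 5) (nat_lit 379) (nat_lit 324) (nat_lit 242))) (XT.nd (nat_lit 94) (nat_lit 84) (nat_lit 0) (XT.lf (nat_lit 0) (nat_lit 97868025) (nat_lit 336) (nat_lit 14362792257) (nat_lit 420) (nat_lit 417670694) (nat_lit 64) (nat_lit 5) (nat_lit 68) (nat_lit 5) (nat_lit 69) (nat_lit 5) (nat_lit 380) (nat_lit 324) (nat_lit 241)) (XT.lf (nat_lit 0) (nat_lit 2214061845) (nat_lit 420) (nat_lit 8054289985) (nat_lit 84) (nat_lit 4905033066) (nat_lit 63) (nat_lit 5) (nat_lit 68) (nat_lit 5) (nat_lit 64) (nat_lit 5) (nat_lit 381) (nat_lit 324) (nat_lit 240)))) (XT.nd (nat_lit 188) (nat_lit 336) (nat_lit 0) (XT.nd (nat_lit 94) (nat_lit 252) (nat_lit 0) (XT.lf (nat_lit 0) (nat_lit 4895411281) (nat_lit 420) (nat_lit 1160225096) (nat_lit 84) (nat_lit 9422183899) (nat_lit 63) (nat_lit 5) (nat_lit 68) (nat_lit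 5) (nat_lit 64) (nat_lit 5) (nat_lit 382) (nat_lit 324) (nat_lit 239)) (XT.lf (nat_lit 0) (nat_lit 6029426389) (nat_lit 252) (nat_lit 1665402944) (nat_lit 336) (nat_lit 8095455484) (nat_lit 60) (nat_lit 5) (nat_lit 63) (nat_lit 5) (nat_lit 64) (nat_lit 5) (nat_lit 383) (nat_lit 324) (nat_lit 238))) (XT.nd (nat_lit 94) (nat_lit 336) (nat_lit 0) (XT.lf (nat_lit 0) (nat_lit 10597424844) (nat_lit 336) (nat_lit 2709945632) (nat_lit 84) (nat_lit 2804201188) (nat_lit 60) (nat_lit 5) (nat_lit 64) (nat_lit 5) (nat_lit 61) (nat_lit 5) (nat_lit 384) (nat_lit 324) (nat_lit 237)) (XT.lf (nat_lit 0) (nat_lit 4597416667) (nat_lit 336) (nat_lit 9030853321) (nat_lit 420) (nat_lit 2813015489) (nat_lit 56) (nat_lit 5) (nat_lit 60) (nat_lit 5) (nat_lit 61) (nat_lit 5) (nat_lit 385) (nat_lit 324) (nat_lit 236))))) (XT.nd (nat_lit 53674) (nat_lit 0) (nat_lit 15792) (XT.nd (nat_lit 188) (nat_lit 0) (nat_lit 0) (XT.nd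 (nat_lit 94) (nat_lit 336) (nat_lit 0) (XT.lf (nat_lit 0) (nat_lit 12151527623) (nat_lit 336) (nat_lit 4606666339) (nat_lit 420) (nat_lit 22474965) (nat_lit 56) (nat_lit 5) (nat_lit 60) (nat_lit 5) (nat_lit 61) (nat_lit 5) (nat_lit 386) (nat_lit 324) (nat_lit 235)) (XT.lf (nat_lit 0) (nat_lit 2801681796) (nat_lit 252) (nat_lit 2524420) (nat_lit 336) (nat_lit 14324984600) (nat_lit 52) (nat_lit 5) (nat_lit 55) (nat_lit 5) (nat_lit 56) (nat_lit 5) (nat_lit 387) (nat_lit 324) (nat_lit 234))) (XT.nd (nat_lit 53392) (nat_lit 0) (nat_lit 16464) (XT.lf (nat_lit 0) (nat_lit 5789349289) (nat_lit 336) (nat_lit 7010517467) (nat_lit 84) (nat_lit 4686092425) (nat_lit 52) (nat_lit 5) (nat_lit 56) (nat_lit 5) (nat_lit 53) (nat_lit 5) (nat_lit 388) (nat_lit 324) (nat_lit 233)) (XT.lf (nat_lit 0) (nat_lit 191520252) (nat_lit 756) (nat_lit 1624968316) (nat_lit 756) (nat_lit 1624968316) (nat_lit 248) (nat_lit 3) (nat_lit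 257) (nat_lit 3) (nat_lit 257) (nat_lit 5) (nat_lit 325) (nat_lit 325) (nat_lit 295)))) (XT.nd (nat_lit 188) (nat_lit 672) (nat_lit 0) (XT.nd (nat_lit 94) (nat_lit 0) (nat_lit 0) (XT.lf (nat_lit 0) (nat_lit 2168795352) (nat_lit 756) (nat_lit 200311550) (nat_lit 756) (nat_lit 4559153926) (nat_lit 248) (nat_lit 3) (nat_lit 257) (nat_lit 3) (nat_lit 257) (nat_lit 5) (nat_lit 326) (nat_lit 325) (nat_lit 294)) (XT.lf (nat_lit 84) (nat_lit 2962752084) (nat_lit 0) (nat_lit 1004381762) (nat_lit 756) (nat_lit 3009239603) (nat_lit 249) (nat_lit 5) (nat_lit 248) (nat_lit 3) (nat_lit 257) (nat_lit 5) (nat_lit 327) (nat_lit 325) (nat_lit 293))) (XT.nd (nat_lit 94) (nat_lit 756) (nat_lit 0) (XT.lf (nat_lit 0) (nat_lit 5757846127) (nat_lit 672) (nat_lit 842959141) (nat_lit 756) (nat_lit 427141842) (nat_lit 249) (nat_lit 5) (nat_lit 257) (nat_lit 5) (nat_lit 258) (nat_lit 5) (nat_lit 328) (nat_lit 325) (nat_lit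 292)) (XT.lf (nat_lit 0) (nat_lit 478286238) (nat_lit 756) (nat_lit 4663645029) (nat_lit 840) (nat_lit 1940129642) (nat_lit 240) (nat_lit 5) (nat_lit 249) (nat_lit 5) (nat_lit 250) (nat_lit 5) (nat_lit 329) (nat_lit 325) (nat_lit 291)))))) (XT.nd (nat_lit 752) (nat_lit 3864) (nat_lit 0) (XT.nd (nat_lit 376) (nat_lit 0) (nat_lit 0) (XT.nd (nat_lit 188) (nat_lit 756) (nat_lit 0) (XT.nd (nat_lit 94) (nat_lit 0) (nat_lit 0) (XT.lf (nat_lit 0) (nat_lit 2197448620) (nat_lit 756) (nat_lit 1393292010) (nat_lit 840) (nat_lit 3548520607) (nat_lit 240) (nat_lit 5) (nat_lit 249) (nat_lit 5) (nat_lit 250) (nat_lit 5) (nat_lit 330) (nat_lit 325) (nat_lit 290)) (XT.lf (nat_lit 84) (nat_lit 1976852244) (nat_lit 0) (nat_lit 1947476926) (nat_lit 840) (nat_lit 3275315479) (nat_lit 241) (nat_lit 5) (nat_lit 240) (nat_lit 5) (nat_lit 250) (nat_lit 5) (nat_lit 331) (nat_lit 325) (nat_lit 289))) (XT.nd (nat_lit 94) (nat_lit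 756) (nat_lit 0) (XT.lf (nat_lit 84) (nat_lit 5440128800) (nat_lit 0) (nat_lit 215577115) (nat_lit 840) (nat_lit 1607699915) (nat_lit 241) (nat_lit 5) (nat_lit 240) (nat_lit 5) (nat_lit 250) (nat_lit 5) (nat_lit 332) (nat_lit 325) (nat_lit 288)) (XT.lf (nat_lit 0) (nat_lit 79029745) (nat_lit 840) (nat_lit 5672979667) (nat_lit 924) (nat_lit 1578040327) (nat_lit 231) (nat_lit 5) (nat_lit 241) (nat_lit 5) (nat_lit 242) (nat_lit 5) (nat_lit 333) (nat_lit 325) (nat_lit 287)))) (XT.nd (nat_lit 188) (nat_lit 0) (nat_lit 84) (XT.nd (nat_lit 94) (nat_lit 0) (nat_lit 0) (XT.lf (nat_lit 0) (nat_lit 1746077036) (nat_lit 840) (nat_lit 2175737365) (nat_lit 924) (nat_lit 3477674651) (nat_lit 231) (nat_lit 5) (nat_lit 241) (nat_lit 5) (nat_lit 242) (nat_lit 5) (nat_lit 334) (nat_lit 325) (nat_lit 286)) (XT.lf (nat_lit 84) (nat_lit 1416623705) (nat_lit 0) (nat_lit 2003139858) (nat_lit 924) (nat_lit 4052679721)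 (nat_lit 232) (nat_lit 5) (nat_lit 231) (nat_lit 5) (nat_lit 242) (nat_lit 5) (nat_lit 335) (nat_lit 325) (nat_lit 285))) (XT.nd (nat_lit 94) (nat_lit 0) (nat_lit 0) (XT.lf (nat_lit 0) (nat_lit 5110083045) (nat_lit 840) (nat_lit 2424580946) (nat_lit 924) (nat_lit 14056253) (nat_lit 232) (nat_lit 5) (nat_lit 242) (nat_lit 5) (nat_lit 243) (nat_lit 5) (nat_lit 336) (nat_lit 325) (nat_lit 284)) (XT.lf (nat_lit 84) (nat_lit 1282881721) (nat_lit 0) (nat_lit 5546504789) (nat_lit 924) (nat_lit 798673848) (nat_lit 233) (nat_lit 5) (nat_lit 232) (nat_lit 5) (nat_lit 243) (nat_lit 5) (nat_lit 337) (nat_lit 325) (nat_lit 283))))) (XT.nd (nat_lit 376) (nat_lit 2184) (nat_lit 0) (XT.nd (nat_lit 188) (nat_lit 840) (nat_lit 0) (XT.nd (nat_lit 94) (nat_lit 0) (nat_lit 0) (XT.lf (nat_lit 0) (nat_lit 844517165) (nat_lit 924) (nat_lit 2605297895) (nat_lit 1008) (nat_lit 4260682672) (nat_lit 221) (nat_lit 5) (nat_lit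 232) (nat_lit 5) (nat_lit 233) (nat_lit 5) (nat_lit 338) (nat_lit 325) (nat_lit 282)) (XT.lf (nat_lit 84) (nat_lit 1225187990) (nat_lit 0) (nat_lit 1255773122) (nat_lit 1008) (nat_lit 5315522226) (nat_lit 222) (nat_lit 5) (nat_lit 221) (nat_lit 5) (nat_lit 233) (nat_lit 5) (nat_lit 339) (nat_lit 325) (nat_lit 281))) (XT.nd (nat_lit 94) (nat_lit 924) (nat_lit 0) (XT.lf (nat_lit 0) (nat_lit 4152230425) (nat_lit 924) (nat_lit 2709156705) (nat_lit 84) (nat_lit 1024198773) (nat_lit 222) (nat_lit 5) (nat_lit 233) (nat_lit 5) (nat_lit 223) (nat_lit 5) (nat_lit 340) (nat_lit 325) (nat_lit 280)) (XT.lf (nat_lit 0) (nat_lit 1242820385) (nat_lit 924) (nat_lit 4606179364) (nat_lit 1008) (nat_lit 2129207109) (nat_lit 211) (nat_lit 5) (nat_lit 222) (nat_lit 5) (nat_lit 223) (nat_lit 5) (nat_lit 341) (nat_lit 325) (nat_lit 279)))) (XT.nd (nat_lit 188) (nat_lit 1092) (nat_lit 0) (XT.nd (nat_lit 94) (nat_lit 1092)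 (nat_lit 0) (XT.lf (nat_lit 0) (nat_lit 5331418651) (nat_lit 924) (nat_lit 2244659958) (nat_lit 1008) (nat_lit 498248715) (nat_lit 211) (nat_lit 5) (nat_lit 222) (nat_lit 5) (nat_lit 223) (nat_lit 5) (nat_lit 342) (nat_lit 325) (nat_lit 278)) (XT.lf (nat_lit 0) (nat_lit 1126552203) (nat_lit 1092) (nat_lit 6829400807) (nat_lit 84) (nat_lit 218095639) (nat_lit 198) (nat_lit 5) (nat_lit 211) (nat_lit 5) (nat_lit 199) (nat_lit 5) (nat_lit 343) (nat_lit 325) (nat_lit 277))) (XT.nd (nat_lit 94) (nat_lit 1092) (nat_lit 0) (XT.lf (nat_lit 0) (nat_lit 2794269344) (nat_lit 1092) (nat_lit 2730918357) (nat_lit 84) (nat_lit 2751394655) (nat_lit 198) (nat_lit 5) (nat_lit 211) (nat_lit 5) (nat_lit 199) (nat_lit 5) (nat_lit 344) (nat_lit 325) (nat_lit 276)) (XT.lf (nat_lit 0) (nat_lit 1481947449) (nat_lit 1092) (nat_lit 2999645941) (nat_lit 1176) (nat_lit 3901603003) (nat_lit 185) (nat_lit 5) (nat_lit 198) (nat_lit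 5) (nat_lit 199) (nat_lit 5) (nat_lit 345) (nat_lit 325) (nat_lit 275))))))))
noncomputable def xc33 : XT := (XT.nd (nat_lit 2914) (nat_lit 2016) (nat_lit 0) (XT.nd (nat_lit 1410) (nat_lit 3612) (nat_lit 0) (XT.nd (nat_lit 658) (nat_lit 2436) (nat_lit 0) (XT.nd (nat_lit 282) (nat_lit 1848) (nat_lit 0) (XT.nd (nat_lit 94) (nat_lit 1260) (nat_lit 0) (XT.lf (nat_lit 0) (nat_lit 5840058671) (nat_lit 1092) (nat_lit 363329644) (nat_lit 1176) (nat_lit 2290193916) (nat_lit 185) (nat_lit 5) (nat_lit 198) (nat_lit 5) (nat_lit 199) (nat_lit 5) (nat_lit 346) (nat_lit 325) (nat_lit 274)) (XT.nd (nat_lit 94) (nat_lit 84) (nat_lit 0) (XT.lf (nat_lit 0) (nat_lit 1694630314) (nat_lit 1176) (nat_lit 6278715630) (nat_lit 1260) (nat_lit 634124760) (nat_lit 171) (nat_lit 5) (nat_lit 185) (nat_lit 5) (nat_lit 186) (nat_lit 5) (nat_lit 347) (nat_lit 325) (nat_lit 273)) (XT.lf (nat_lit 0) (nat_lit 1039367532) (nat_lit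 1260) (nat_lit 2548524393) (nat_lit 84) (nat_lit 5136996672) (nat_lit 170) (nat_lit 5) (nat_lit 185) (nat_lit 5) (nat_lit 171) (nat_lit 5) (nat_lit 348) (nat_lit 325) (nat_lit 272)))) (XT.nd (nat_lit 188) (nat_lit 588) (nat_lit 0) (XT.nd (nat_lit 94) (nat_lit 0) (nat_lit 0) (XT.lf (nat_lit 0) (nat_lit 1941421796) (nat_lit 1260) (nat_lit 786777463) (nat_lit 1344) (nat_lit 6118184013) (nat_lit 155) (nat_lit 5) (nat_lit 170) (nat_lit 5) (nat_lit 171) (nat_lit 5) (nat_lit 349) (nat_lit 325) (nat_lit 271)) (XT.lf (nat_lit 0) (nat_lit 4473943736) (nat_lit 1344) (nat_lit 2410718655) (nat_lit 84) (nat_lit 2086749662) (nat_lit 155) (nat_lit 5) (nat_lit 171) (nat_lit 5) (nat_lit 156) (nat_lit 5) (nat_lit 350) (nat_lit 325) (nat_lit 270))) (XT.nd (nat_lit 94) (nat_lit 0) (nat_lit 0) (XT.lf (nat_lit 0) (nat_lit 2217076253) (nat_lit 588) (nat_lit 4045335649) (nat_lit 672) (nat_lit 2838143720) (nat_lit 148)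 (nat_lit 5) (nat_lit 155) (nat_lit 5) (nat_lit 156) (nat_lit 5) (nat_lit 351) (nat_lit 325) (nat_lit 269)) (XT.lf (nat_lit 0) (nat_lit 6996734192) (nat_lit 588) (nat_lit 1094171906) (nat_lit 672) (nat_lit 1143148534) (nat_lit 148) (nat_lit 5) (nat_lit 155) (nat_lit 5) (nat_lit 156) (nat_lit 5) (nat_lit 352) (nat_lit 325) (nat_lit 268))))) (XT.nd (nat_lit 376) (nat_lit 1176) (nat_lit 0) (XT.nd (nat_lit 188) (nat_lit 588) (nat_lit 0) (XT.nd (nat_lit 94) (nat_lit 0) (nat_lit 0) (XT.lf (nat_lit 0) (nat_lit 597221194) (nat_lit 672) (nat_lit 6834677129) (nat_lit 84) (nat_lit 1939366069) (nat_lit 140) (nat_lit 5) (nat_lit 148) (nat_lit 5) (nat_lit 141) (nat_lit 5) (nat_lit 353) (nat_lit 325) (nat_lit 267)) (XT.lf (nat_lit 0) (nat_lit 2363925914) (nat_lit 672) (nat_lit 2071667775) (nat_lit 84) (nat_lit 5076810365) (nat_lit 140) (nat_lit 5) (nat_lit 148) (nat_lit 5) (nat_lit 141) (nat_lit 5) (nat_lit 354)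 (nat_lit 325) (nat_lit 266))) (XT.nd (nat_lit 94) (nat_lit 0) (nat_lit 0) (XT.lf (nat_lit 0) (nat_lit 2854046125) (nat_lit 588) (nat_lit 1321535466) (nat_lit 672) (nat_lit 5482502053) (nat_lit 133) (nat_lit 5) (nat_lit 140) (nat_lit 5) (nat_lit 141) (nat_lit 5) (nat_lit 355) (nat_lit 325) (nat_lit 265)) (XT.lf (nat_lit 0) (nat_lit 6046042667) (nat_lit 672) (nat_lit 1892469211) (nat_lit 84) (nat_lit 1869550437) (nat_lit 133) (nat_lit 5) (nat_lit 141) (nat_lit 5) (nat_lit 134) (nat_lit 5) (nat_lit 356) (nat_lit 325) (nat_lit 264)))) (XT.nd (nat_lit 188) (nat_lit 588) (nat_lit 0) (XT.nd (nat_lit 94) (nat_lit 0) (nat_lit 0) (XT.lf (nat_lit 0) (nat_lit 3179852990) (nat_lit 588) (nat_lit 4802629345) (nat_lit 672) (nat_lit 1979822612) (nat_lit 126) (nat_lit 5) (nat_lit 133) (nat_lit 5) (nat_lit 134) (nat_lit 5) (nat_lit 357) (nat_lit 325) (nat_lit 263)) (XT.lf (nat_lit 0) (nat_lit 8407928208) (nat_lit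 588) (nat_lit 1555056382) (nat_lit 672) (nat_lit 158669972) (nat_lit 126) (nat_lit 5) (nat_lit 133) (nat_lit 5) (nat_lit 134) (nat_lit 5) (nat_lit 358) (nat_lit 325) (nat_lit 262))) (XT.nd (nat_lit 94) (nat_lit 0) (nat_lit 0) (XT.lf (nat_lit 0) (nat_lit 1702621520) (nat_lit 588) (nat_lit 6778545952) (nat_lit 84) (nat_lit 1803607079) (nat_lit 119) (nat_lit 5) (nat_lit 126) (nat_lit 5) (nat_lit 120) (nat_lit 5) (nat_lit 359) (nat_lit 325) (nat_lit 261)) (XT.lf (nat_lit 0) (nat_lit 3617476644) (nat_lit 588) (nat_lit 1587028753) (nat_lit 84) (nat_lit 5248261988) (nat_lit 119) (nat_lit 5) (nat_lit 126) (nat_lit 5) (nat_lit 120) (nat_lit 5) (nat_lit 360) (nat_lit 325) (nat_lit 260)))))) (XT.nd (nat_lit 752) (nat_lit 1680) (nat_lit 0) (XT.nd (nat_lit 376) (nat_lit 924) (nat_lit 0) (XT.nd (nat_lit 188) (nat_lit 504) (nat_lit 0) (XT.nd (nat_lit 94) (nat_lit 0) (nat_lit 0) (XT.lf (nat_lit 0) (nat_lit 3799885592)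 (nat_lit 504) (nat_lit 1795390286) (nat_lit 588) (nat_lit 5030411400) (nat_lit 113) (nat_lit 5) (nat_lit 119) (nat_lit 5) (nat_lit 120) (nat_lit 5) (nat_lit 361) (nat_lit 325) (nat_lit 259)) (XT.lf (nat_lit 0) (nat_lit 7634600245) (nat_lit 588) (nat_lit 1474116264) (nat_lit 84) (nat_lit 1695063232) (nat_lit 113) (nat_lit 5) (nat_lit 120) (nat_lit 5) (nat_lit 114) (nat_lit 5) (nat_lit 362) (nat_lit 325) (nat_lit 258))) (XT.nd (nat_lit 94) (nat_lit 84) (nat_lit 0) (XT.lf (nat_lit 0) (nat_lit 4065612027) (nat_lit 420) (nat_lit 5696749003) (nat_lit 504) (nat_lit 1224085476) (nat_lit 108) (nat_lit 5) (nat_lit 113) (nat_lit 5) (nat_lit 114) (nat_lit 5) (nat_lit 363) (nat_lit 325) (nat_lit 257)) (XT.lf (nat_lit 0) (nat_lit 749788965) (nat_lit 504) (nat_lit 1414399452) (nat_lit 84) (nat_lit 9010657438) (nat_lit 107) (nat_lit 5) (nat_lit 113) (nat_lit 5) (nat_lit 108) (nat_lit 5) (nat_lit 364) (nat_lit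 325) (nat_lit 256)))) (XT.nd (nat_lit 188) (nat_lit 420) (nat_lit 0) (XT.nd (nat_lit 94) (nat_lit 0) (nat_lit 0) (XT.lf (nat_lit 0) (nat_lit 2785682095) (nat_lit 588) (nat_lit 7087282863) (nat_lit 84) (nat_lit 1494791528) (nat_lit 101) (nat_lit 5) (nat_lit 108) (nat_lit 5) (nat_lit 102) (nat_lit 5) (nat_lit 365) (nat_lit 325) (nat_lit 255)) (XT.lf (nat_lit 0) (nat_lit 4890428204) (nat_lit 588) (nat_lit 1446280497) (nat_lit 84) (nat_lit 5229556189) (nat_lit 101) (nat_lit 5) (nat_lit 108) (nat_lit 5) (nat_lit 102) (nat_lit 5) (nat_lit 366) (nat_lit 325) (nat_lit 254))) (XT.nd (nat_lit 94) (nat_lit 0) (nat_lit 0) (XT.lf (nat_lit 0) (nat_lit 4417263005) (nat_lit 420) (nat_lit 2656257362) (nat_lit 504) (nat_lit 4696794537) (nat_lit 96) (nat_lit 5) (nat_lit 101) (nat_lit 5) (nat_lit 102) (nat_lit 5) (nat_lit 367) (nat_lit 325) (nat_lit 253)) (XT.lf (nat_lit 0) (nat_lit 9320928546) (nat_lit 504) (nat_lit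 1538091426) (nat_lit 84) (nat_lit 1121542977) (nat_lit 96) (nat_lit 5) (nat_lit 102) (nat_lit 5) (nat_lit 97) (nat_lit 5) (nat_lit 368) (nat_lit 325) (nat_lit 252))))) (XT.nd (nat_lit 376) (nat_lit 840) (nat_lit 0) (XT.nd (nat_lit 188) (nat_lit 336) (nat_lit 0) (XT.nd (nat_lit 94) (nat_lit 84) (nat_lit 0) (XT.lf (nat_lit 0) (nat_lit 4480059655) (nat_lit 420) (nat_lit 7199013006) (nat_lit 504) (nat_lit 516786391) (nat_lit 91) (nat_lit 5) (nat_lit 96) (nat_lit 5) (nat_lit 97) (nat_lit 5) (nat_lit 369) (nat_lit 325) (nat_lit 251)) (XT.lf (nat_lit 0) (nat_lit 1647155810) (nat_lit 504) (nat_lit 1755882184) (nat_lit 84) (nat_lit 9014432511) (nat_lit 90) (nat_lit 5) (nat_lit 96) (nat_lit 5) (nat_lit 91) (nat_lit 5) (nat_lit 370) (nat_lit 325) (nat_lit 250))) (XT.nd (nat_lit 94) (nat_lit 0) (nat_lit 0) (XT.lf (nat_lit 0) (nat_lit 3888381465) (nat_lit 420) (nat_lit 8217826472) (nat_lit 84) (nat_lit 538722932)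 (nat_lit 86) (nat_lit 5) (nat_lit 91) (nat_lit 5) (nat_lit 87) (nat_lit 5) (nat_lit 371) (nat_lit 325) (nat_lit 249)) (XT.lf (nat_lit 0) (nat_lit 6223672859) (nat_lit 420) (nat_lit 2113046399) (nat_lit 84) (nat_lit 4541726482) (nat_lit 86) (nat_lit 5) (nat_lit 91) (nat_lit 5) (nat_lit 87) (nat_lit 5) (nat_lit 372) (nat_lit 325) (nat_lit 248)))) (XT.nd (nat_lit 188) (nat_lit 420) (nat_lit 0) (XT.nd (nat_lit 94) (nat_lit 0) (nat_lit 0) (XT.lf (nat_lit 0) (nat_lit 4226210991) (nat_lit 420) (nat_lit 4419387418) (nat_lit 504) (nat_lit 4472904915) (nat_lit 81) (nat_lit 5) (nat_lit 86) (nat_lit 5) (nat_lit 87) (nat_lit 5) (nat_lit 373) (nat_lit 325) (nat_lit 247)) (XT.lf (nat_lit 0) (nat_lit 10768132042) (nat_lit 420) (nat_lit 369741917) (nat_lit 504) (nat_lit 2227991433) (nat_lit 81) (nat_lit 5) (nat_lit 86) (nat_lit 5) (nat_lit 87) (nat_lit 5) (nat_lit 374) (nat_lit 325) (nat_lit 246))) (XT.nd (nat_lit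 94) (nat_lit 0) (nat_lit 0) (XT.lf (nat_lit 0) (nat_lit 134051836) (nat_lit 420) (nat_lit 9725934745) (nat_lit 84) (nat_lit 3759126233) (nat_lit 76) (nat_lit 5) (nat_lit 81) (nat_lit 5) (nat_lit 77) (nat_lit 5) (nat_lit 375) (nat_lit 325) (nat_lit 245)) (XT.lf (nat_lit 0) (nat_lit 2529429078) (nat_lit 420) (nat_lit 3303854995) (nat_lit 84) (nat_lit 8045824894) (nat_lit 76) (nat_lit 5) (nat_lit 81) (nat_lit 5) (nat_lit 77) (nat_lit 5) (nat_lit 376) (nat_lit 325) (nat_lit 244))))))) (XT.nd (nat_lit 54896) (nat_lit 0) (nat_lit 12264) (XT.nd (nat_lit 752) (nat_lit 672) (nat_lit 0) (XT.nd (nat_lit 376) (nat_lit 672) (nat_lit 0) (XT.nd (nat_lit 188) (nat_lit 336) (nat_lit 0) (XT.nd (nat_lit 94) (nat_lit 0) (nat_lit 0) (XT.lf (nat_lit 0) (nat_lit 3346309721) (nat_lit 336) (nat_lit 1660292214) (nat_lit 420) (nat_lit 9140034824) (nat_lit 72) (nat_lit 5) (nat_lit 76) (nat_lit 5) (nat_lit 77) (nat_lit 5)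 (nat_lit 377) (nat_lit 325) (nat_lit 243)) (XT.lf (nat_lit 0) (nat_lit 7595196314) (nat_lit 420) (nat_lit 4213365598) (nat_lit 84) (nat_lit 2612544200) (nat_lit 72) (nat_lit 5) (nat_lit 77) (nat_lit 5) (nat_lit 73) (nat_lit 5) (nat_lit 378) (nat_lit 325) (nat_lit 242))) (XT.nd (nat_lit 94) (nat_lit 0) (nat_lit 0) (XT.lf (nat_lit 0) (nat_lit 2575713096) (nat_lit 336) (nat_lit 7705628974) (nat_lit 420) (nat_lit 4421898745) (nat_lit 68) (nat_lit 5) (nat_lit 72) (nat_lit 5) (nat_lit 73) (nat_lit 5) (nat_lit 379) (nat_lit 325) (nat_lit 241)) (XT.lf (nat_lit 0) (nat_lit 9625806922) (nat_lit 336) (nat_lit 3443849176) (nat_lit 420) (nat_lit 1923563202) (nat_lit 68) (nat_lit 5) (nat_lit 72) (nat_lit 5) (nat_lit 73) (nat_lit 5) (nat_lit 380) (nat_lit 325) (nat_lit 240)))) (XT.nd (nat_lit 188) (nat_lit 252) (nat_lit 0) (XT.nd (nat_lit 94) (nat_lit 0) (nat_lit 0) (XT.lf (nat_lit 0) (nat_lit 640992217) (nat_lit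 420) (nat_lit 13709417513) (nat_lit 84) (nat_lit 941207289) (nat_lit 63) (nat_lit 5) (nat_lit 68) (nat_lit 5) (nat_lit 64) (nat_lit 5) (nat_lit 381) (nat_lit 325) (nat_lit 239)) (XT.lf (nat_lit 0) (nat_lit 3312326677) (nat_lit 420) (nat_lit 6829584730) (nat_lit 84) (nat_lit 5454453728) (nat_lit 63) (nat_lit 5) (nat_lit 68) (nat_lit 5) (nat_lit 64) (nat_lit 5) (nat_lit 382) (nat_lit 325) (nat_lit 238))) (XT.nd (nat_lit 94) (nat_lit 0) (nat_lit 0) (XT.lf (nat_lit 0) (nat_lit 233142806) (nat_lit 252) (nat_lit 5813161222) (nat_lit 336) (nat_lit 9864500799) (nat_lit 60) (nat_lit 5) (nat_lit 63) (nat_lit 5) (nat_lit 64) (nat_lit 5) (nat_lit 383) (nat_lit 325) (nat_lit 237)) (XT.lf (nat_lit 0) (nat_lit 7619977270) (nat_lit 252) (nat_lit 1291858503) (nat_lit 336) (nat_lit 7321379397) (nat_lit 60) (nat_lit 5) (nat_lit 63) (nat_lit 5) (nat_lit 64) (nat_lit 5) (nat_lit 384) (nat_lit 325) (nat_lit 236)))))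 (XT.nd (nat_lit 53768) (nat_lit 0) (nat_lit 15708) (XT.nd (nat_lit 188) (nat_lit 336) (nat_lit 0) (XT.nd (nat_lit 94) (nat_lit 336) (nat_lit 0) (XT.lf (nat_lit 0) (nat_lit 11876738428) (nat_lit 336) (nat_lit 1396704897) (nat_lit 84) (nat_lit 3291475177) (nat_lit 60) (nat_lit 5) (nat_lit 64) (nat_lit 5) (nat_lit 61) (nat_lit 5) (nat_lit 385) (nat_lit 325) (nat_lit 235)) (XT.lf (nat_lit 0) (nat_lit 6116206319) (nat_lit 336) (nat_lit 8867574672) (nat_lit 420) (nat_lit 1921218321) (nat_lit 56) (nat_lit 5) (nat_lit 60) (nat_lit 5) (nat_lit 61) (nat_lit 5) (nat_lit 386) (nat_lit 325) (nat_lit 234))) (XT.nd (nat_lit 94) (nat_lit 252) (nat_lit 0) (XT.lf (nat_lit 0) (nat_lit 906563379) (nat_lit 420) (nat_lit 3407590914) (nat_lit 84) (nat_lit 12941003280) (nat_lit 55) (nat_lit 5) (nat_lit 60) (nat_lit 5) (nat_lit 56) (nat_lit 5) (nat_lit 387) (nat_lit 325) (nat_lit 233)) (XT.lf (nat_lit 0) (nat_lit 3807599339)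 (nat_lit 336) (nat_lit 13386108864) (nat_lit 84) (nat_lit 420750941) (nat_lit 52) (nat_lit 5) (nat_lit 56) (nat_lit 5) (nat_lit 53) (nat_lit 5) (nat_lit 388) (nat_lit 325) (nat_lit 232)))) (XT.nd (nat_lit 188) (nat_lit 756) (nat_lit 0) (XT.nd (nat_lit 94) (nat_lit 0) (nat_lit 0) (XT.lf (nat_lit 0) (nat_lit 1960164562) (nat_lit 756) (nat_lit 763597960) (nat_lit 756) (nat_lit 763597960) (nat_lit 248) (nat_lit 3) (nat_lit 257) (nat_lit 3) (nat_lit 257) (nat_lit 5) (nat_lit 326) (nat_lit 326) (nat_lit 293)) (XT.lf (nat_lit 84) (nat_lit 1591966245) (nat_lit 0) (nat_lit 4080300196) (nat_lit 756) (nat_lit 1352043105) (nat_lit 249) (nat_lit 5) (nat_lit 248) (nat_lit 3) (nat_lit 257) (nat_lit 5) (nat_lit 327) (nat_lit 326) (nat_lit 292))) (XT.nd (nat_lit 94) (nat_lit 0) (nat_lit 0) (XT.lf (nat_lit 0) (nat_lit 342491968) (nat_lit 756) (nat_lit 2278889594) (nat_lit 840) (nat_lit 4455580620) (nat_lit 239)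 (nat_lit 5) (nat_lit 248) (nat_lit 3) (nat_lit 249) (nat_lit 5) (nat_lit 328) (nat_lit 326) (nat_lit 291)) (XT.lf (nat_lit 84) (nat_lit 939190884) (nat_lit 0) (nat_lit 1065839924) (nat_lit 840) (nat_lit 5127587632) (nat_lit 240) (nat_lit 5) (nat_lit 239) (nat_lit 5) (nat_lit 249) (nat_lit 5) (nat_lit 329) (nat_lit 326) (nat_lit 290)))))) (XT.nd (nat_lit 752) (nat_lit 1848) (nat_lit 0) (XT.nd (nat_lit 376) (nat_lit 840) (nat_lit 0) (XT.nd (nat_lit 188) (nat_lit 840) (nat_lit 0) (XT.nd (nat_lit 94) (nat_lit 0) (nat_lit 0) (XT.lf (nat_lit 0) (nat_lit 3682982455) (nat_lit 756) (nat_lit 2931003841) (nat_lit 840) (nat_lit 577143361) (nat_lit 240) (nat_lit 5) (nat_lit 249) (nat_lit 5) (nat_lit 250) (nat_lit 5) (nat_lit 330) (nat_lit 326) (nat_lit 289)) (XT.lf (nat_lit 84) (nat_lit 390540308) (nat_lit 0) (nat_lit 4974010766) (nat_lit 840) (nat_lit 1888393747) (nat_lit 241) (nat_lit 5) (nat_lit 240) (nat_lit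 5) (nat_lit 250) (nat_lit 5) (nat_lit 331) (nat_lit 326) (nat_lit 288))) (XT.nd (nat_lit 94) (nat_lit 840) (nat_lit 0) (XT.lf (nat_lit 84) (nat_lit 3836344414) (nat_lit 0) (nat_lit 3230227752) (nat_lit 840) (nat_lit 251084795) (nat_lit 241) (nat_lit 5) (nat_lit 240) (nat_lit 5) (nat_lit 250) (nat_lit 5) (nat_lit 332) (nat_lit 326) (nat_lit 287)) (XT.lf (nat_lit 0) (nat_lit 1348769756) (nat_lit 840) (nat_lit 48321264) (nat_lit 924) (nat_lit 5988696960) (nat_lit 230) (nat_lit 5) (nat_lit 240) (nat_lit 5) (nat_lit 241) (nat_lit 5) (nat_lit 333) (nat_lit 326) (nat_lit 286)))) (XT.nd (nat_lit 188) (nat_lit 924) (nat_lit 0) (XT.nd (nat_lit 94) (nat_lit 0) (nat_lit 0) (XT.lf (nat_lit 0) (nat_lit 2973835214) (nat_lit 840) (nat_lit 3942852761) (nat_lit 924) (nat_lit 539863097) (nat_lit 231) (nat_lit 5) (nat_lit 241) (nat_lit 5) (nat_lit 242) (nat_lit 5) (nat_lit 334) (nat_lit 326) (nat_lit 285)) (XT.lf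 (nat_lit 0) (nat_lit 4606648256) (nat_lit 840) (nat_lit 396042209) (nat_lit 924) (nat_lit 2528103492) (nat_lit 231) (nat_lit 5) (nat_lit 241) (nat_lit 5) (nat_lit 242) (nat_lit 5) (nat_lit 335) (nat_lit 326) (nat_lit 284))) (XT.nd (nat_lit 94) (nat_lit 924) (nat_lit 0) (XT.lf (nat_lit 84) (nat_lit 3286001779) (nat_lit 0) (nat_lit 2980312772) (nat_lit 924) (nat_lit 1341736591) (nat_lit 232) (nat_lit 5) (nat_lit 231) (nat_lit 5) (nat_lit 242) (nat_lit 5) (nat_lit 336) (nat_lit 326) (nat_lit 283)) (XT.lf (nat_lit 0) (nat_lit 233434516) (nat_lit 924) (nat_lit 639809859) (nat_lit 1008) (nat_lit 6815887213) (nat_lit 220) (nat_lit 5) (nat_lit 231) (nat_lit 5) (nat_lit 232) (nat_lit 5) (nat_lit 337) (nat_lit 326) (nat_lit 282))))) (XT.nd (nat_lit 376) (nat_lit 1932) (nat_lit 0) (XT.nd (nat_lit 188) (nat_lit 0) (nat_lit 0) (XT.nd (nat_lit 94) (nat_lit 0) (nat_lit 0) (XT.lf (nat_lit 0) (nat_lit 1820810386)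 (nat_lit 924) (nat_lit 4619721388) (nat_lit 1008) (nat_lit 1332069257) (nat_lit 221) (nat_lit 5) (nat_lit 232) (nat_lit 5) (nat_lit 233) (nat_lit 5) (nat_lit 338) (nat_lit 326) (nat_lit 281)) (XT.lf (nat_lit 0) (nat_lit 3420718599) (nat_lit 924) (nat_lit 831121931) (nat_lit 1008) (nat_lit 3607896047) (nat_lit 221) (nat_lit 5) (nat_lit 232) (nat_lit 5) (nat_lit 233) (nat_lit 5) (nat_lit 339) (nat_lit 326) (nat_lit 280))) (XT.nd (nat_lit 94) (nat_lit 0) (nat_lit 84) (XT.lf (nat_lit 84) (nat_lit 3096118384) (nat_lit 0) (nat_lit 1953471625) (nat_lit 1008) (nat_lit 2900573371) (nat_lit 222) (nat_lit 5) (nat_lit 221) (nat_lit 5) (nat_lit 233) (nat_lit 5) (nat_lit 340) (nat_lit 326) (nat_lit 279)) (XT.lf (nat_lit 0) (nat_lit 6692191024) (nat_lit 924) (nat_lit 925641329) (nat_lit 84) (nat_lit 426627807) (nat_lit 222) (nat_lit 5) (nat_lit 233) (nat_lit 5) (nat_lit 223) (nat_lit 5) (nat_lit 341) (nat_lit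 326) (nat_lit 278)))) (XT.nd (nat_lit 188) (nat_lit 1008) (nat_lit 0) (XT.nd (nat_lit 94) (nat_lit 0) (nat_lit 0) (XT.lf (nat_lit 0) (nat_lit 240877814) (nat_lit 1008) (nat_lit 5017338892) (nat_lit 84) (nat_lit 2883302610) (nat_lit 210) (nat_lit 5) (nat_lit 222) (nat_lit 5) (nat_lit 211) (nat_lit 5) (nat_lit 342) (nat_lit 326) (nat_lit 277)) (XT.lf (nat_lit 0) (nat_lit 1818338694) (nat_lit 1008) (nat_lit 976546353) (nat_lit 84) (nat_lit 5447386901) (nat_lit 210) (nat_lit 5) (nat_lit 222) (nat_lit 5) (nat_lit 211) (nat_lit 5) (nat_lit 343) (nat_lit 326) (nat_lit 276))) (XT.nd (nat_lit 94) (nat_lit 0) (nat_lit 0) (XT.lf (nat_lit 0) (nat_lit 3212896461) (nat_lit 1008) (nat_lit 216702607) (nat_lit 1092) (nat_lit 4916945403) (nat_lit 198) (nat_lit 5) (nat_lit 210) (nat_lit 5) (nat_lit 211) (nat_lit 5) (nat_lit 344) (nat_lit 326) (nat_lit 275)) (XT.lf (nat_lit 0) (nat_lit 5079230649) (nat_lit 1092) (nat_lit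 965546977) (nat_lit 84) (nat_lit 2409555457) (nat_lit 198) (nat_lit 5) (nat_lit 211) (nat_lit 5) (nat_lit 199) (nat_lit 5) (nat_lit 345) (nat_lit 326) (nat_lit 274))))))))
noncomputable def xc34 : XT := (XT.nd (nat_lit 2914) (nat_lit 1764) (nat_lit 0) (XT.nd (nat_lit 1410) (nat_lit 3612) (nat_lit 0) (XT.nd (nat_lit 658) (nat_lit 2436) (nat_lit 0) (XT.nd (nat_lit 282) (nat_lit 1848) (nat_lit 0) (XT.nd (nat_lit 94) (nat_lit 1260) (nat_lit 0) (XT.lf (nat_lit 0) (nat_lit 3355594029) (nat_lit 1092) (nat_lit 3415052986) (nat_lit 1176) (nat_lit 1795025787) (nat_lit 185) (nat_lit 5) (nat_lit 198) (nat_lit 5) (nat_lit 199) (nat_lit 5) (nat_lit 346) (nat_lit 326) (nat_lit 273)) (XT.nd (nat_lit 94) (nat_lit 1260) (nat_lit 0) (XT.lf (nat_lit 0) (nat_lit 7791171264) (nat_lit 1092) (nat_lit 690169016) (nat_lit 1176) (nat_lit 200040213) (nat_lit 185) (nat_lit 5) (nat_lit 198) (nat_lit 5) (nat_lit 199) (nat_lit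 5) (nat_lit 347) (nat_lit 326) (nat_lit 272)) (XT.lf (nat_lit 0) (nat_lit 1429443499) (nat_lit 1260) (nat_lit 5240884189) (nat_lit 84) (nat_lit 2129450572) (nat_lit 170) (nat_lit 5) (nat_lit 185) (nat_lit 5) (nat_lit 171) (nat_lit 5) (nat_lit 348) (nat_lit 326) (nat_lit 271)))) (XT.nd (nat_lit 188) (nat_lit 588) (nat_lit 0) (XT.nd (nat_lit 94) (nat_lit 1260) (nat_lit 0) (XT.lf (nat_lit 0) (nat_lit 3080108483) (nat_lit 1260) (nat_lit 806472406) (nat_lit 84) (nat_lit 5035874832) (nat_lit 170) (nat_lit 5) (nat_lit 185) (nat_lit 5) (nat_lit 171) (nat_lit 5) (nat_lit 349) (nat_lit 326) (nat_lit 270)) (XT.lf (nat_lit 0) (nat_lit 3800343661) (nat_lit 1260) (nat_lit 978039859) (nat_lit 1344) (nat_lit 4270561746) (nat_lit 155) (nat_lit 5) (nat_lit 170) (nat_lit 5) (nat_lit 171) (nat_lit 5) (nat_lit 350) (nat_lit 326) (nat_lit 269))) (XT.nd (nat_lit 94) (nat_lit 588) (nat_lit 0) (XT.lf (nat_lit 0) (nat_lit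 6517605390) (nat_lit 1344) (nat_lit 672243752) (nat_lit 84) (nat_lit 1989752696) (nat_lit 155) (nat_lit 5) (nat_lit 171) (nat_lit 5) (nat_lit 156) (nat_lit 5) (nat_lit 351) (nat_lit 326) (nat_lit 268)) (XT.lf (nat_lit 0) (nat_lit 4076632096) (nat_lit 588) (nat_lit 4244716482) (nat_lit 672) (nat_lit 992529378) (nat_lit 148) (nat_lit 5) (nat_lit 155) (nat_lit 5) (nat_lit 156) (nat_lit 5) (nat_lit 352) (nat_lit 326) (nat_lit 267))))) (XT.nd (nat_lit 376) (nat_lit 1176) (nat_lit 0) (XT.nd (nat_lit 188) (nat_lit 588) (nat_lit 0) (XT.nd (nat_lit 94) (nat_lit 588) (nat_lit 0) (XT.lf (nat_lit 0) (nat_lit 683477432) (nat_lit 672) (nat_lit 512366163) (nat_lit 84) (nat_lit 8257075990) (nat_lit 147) (nat_lit 5) (nat_lit 155) (nat_lit 5) (nat_lit 148) (nat_lit 5) (nat_lit 353) (nat_lit 326) (nat_lit 266)) (XT.lf (nat_lit 0) (nat_lit 2416133733) (nat_lit 672) (nat_lit 5218753383) (nat_lit 84) (nat_lit 1960225225)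 (nat_lit 140) (nat_lit 5) (nat_lit 148) (nat_lit 5) (nat_lit 141) (nat_lit 5) (nat_lit 354) (nat_lit 326) (nat_lit 265))) (XT.nd (nat_lit 94) (nat_lit 588) (nat_lit 0) (XT.lf (nat_lit 0) (nat_lit 4183383403) (nat_lit 672) (nat_lit 365891537) (nat_lit 84) (nat_lit 5192879894) (nat_lit 140) (nat_lit 5) (nat_lit 148) (nat_lit 5) (nat_lit 141) (nat_lit 5) (nat_lit 355) (nat_lit 326) (nat_lit 264)) (XT.lf (nat_lit 0) (nat_lit 4690261170) (nat_lit 588) (nat_lit 1325027017) (nat_lit 672) (nat_lit 3878031831) (nat_lit 133) (nat_lit 5) (nat_lit 140) (nat_lit 5) (nat_lit 141) (nat_lit 5) (nat_lit 356) (nat_lit 326) (nat_lit 263)))) (XT.nd (nat_lit 188) (nat_lit 588) (nat_lit 0) (XT.nd (nat_lit 94) (nat_lit 588) (nat_lit 0) (XT.lf (nat_lit 0) (nat_lit 7892265391) (nat_lit 672) (nat_lit 197056629) (nat_lit 84) (nat_lit 1960053463) (nat_lit 133) (nat_lit 5) (nat_lit 141) (nat_lit 5) (nat_lit 134) (nat_lit 5)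 (nat_lit 357) (nat_lit 326) (nat_lit 262)) (XT.lf (nat_lit 0) (nat_lit 5010256937) (nat_lit 588) (nat_lit 4844728747) (nat_lit 672) (nat_lit 354300985) (nat_lit 126) (nat_lit 5) (nat_lit 133) (nat_lit 5) (nat_lit 134) (nat_lit 5) (nat_lit 358) (nat_lit 326) (nat_lit 261))) (XT.nd (nat_lit 94) (nat_lit 504) (nat_lit 0) (XT.lf (nat_lit 0) (nat_lit 1443678958) (nat_lit 672) (nat_lit 44441585) (nat_lit 84) (nat_lit 8886382901) (nat_lit 125) (nat_lit 5) (nat_lit 133) (nat_lit 5) (nat_lit 126) (nat_lit 5) (nat_lit 359) (nat_lit 326) (nat_lit 260)) (XT.lf (nat_lit 0) (nat_lit 3328504432) (nat_lit 588) (nat_lit 5231010341) (nat_lit 84) (nat_lit 1983908124) (nat_lit 119) (nat_lit 5) (nat_lit 126) (nat_lit 5) (nat_lit 120) (nat_lit 5) (nat_lit 360) (nat_lit 326) (nat_lit 259)))))) (XT.nd (nat_lit 752) (nat_lit 1680) (nat_lit 0) (XT.nd (nat_lit 376) (nat_lit 924) (nat_lit 0) (XT.nd (nat_lit 188) (nat_lit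 504) (nat_lit 0) (XT.nd (nat_lit 94) (nat_lit 0) (nat_lit 0) (XT.lf (nat_lit 0) (nat_lit 66554232) (nat_lit 504) (nat_lit 5189022651) (nat_lit 588) (nat_lit 5462312689) (nat_lit 113) (nat_lit 5) (nat_lit 119) (nat_lit 5) (nat_lit 120) (nat_lit 5) (nat_lit 361) (nat_lit 326) (nat_lit 258)) (XT.lf (nat_lit 0) (nat_lit 5597111656) (nat_lit 504) (nat_lit 1666606789) (nat_lit 588) (nat_lit 3633223324) (nat_lit 113) (nat_lit 5) (nat_lit 119) (nat_lit 5) (nat_lit 120) (nat_lit 5) (nat_lit 362) (nat_lit 326) (nat_lit 257))) (XT.nd (nat_lit 94) (nat_lit 84) (nat_lit 0) (XT.lf (nat_lit 0) (nat_lit 163481354) (nat_lit 420) (nat_lit 9160310893) (nat_lit 504) (nat_lit 1757870442) (nat_lit 108) (nat_lit 5) (nat_lit 113) (nat_lit 5) (nat_lit 114) (nat_lit 5) (nat_lit 363) (nat_lit 326) (nat_lit 256)) (XT.lf (nat_lit 0) (nat_lit 212360418) (nat_lit 504) (nat_lit 5423050159) (nat_lit 84) (nat_lit 5635249376) (nat_lit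 107) (nat_lit 5) (nat_lit 113) (nat_lit 5) (nat_lit 108) (nat_lit 5) (nat_lit 364) (nat_lit 326) (nat_lit 255)))) (XT.nd (nat_lit 188) (nat_lit 420) (nat_lit 0) (XT.nd (nat_lit 94) (nat_lit 0) (nat_lit 0) (XT.lf (nat_lit 0) (nat_lit 190863579) (nat_lit 504) (nat_lit 1989628076) (nat_lit 588) (nat_lit 9285133333) (nat_lit 101) (nat_lit 5) (nat_lit 107) (nat_lit 5) (nat_lit 108) (nat_lit 5) (nat_lit 365) (nat_lit 326) (nat_lit 254)) (XT.lf (nat_lit 0) (nat_lit 4252684772) (nat_lit 588) (nat_lit 5630833347) (nat_lit 84) (nat_lit 1781612783) (nat_lit 101) (nat_lit 5) (nat_lit 108) (nat_lit 5) (nat_lit 102) (nat_lit 5) (nat_lit 366) (nat_lit 326) (nat_lit 253))) (XT.nd (nat_lit 94) (nat_lit 0) (nat_lit 0) (XT.lf (nat_lit 0) (nat_lit 133388345) (nat_lit 420) (nat_lit 6248172987) (nat_lit 504) (nat_lit 5489266360) (nat_lit 96) (nat_lit 5) (nat_lit 101) (nat_lit 5) (nat_lit 102) (nat_lit 5) (nat_lit 367)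 (nat_lit 326) (nat_lit 252)) (XT.lf (nat_lit 0) (nat_lit 6154348458) (nat_lit 420) (nat_lit 2450819150) (nat_lit 504) (nat_lit 3476641904) (nat_lit 96) (nat_lit 5) (nat_lit 101) (nat_lit 5) (nat_lit 102) (nat_lit 5) (nat_lit 368) (nat_lit 326) (nat_lit 251))))) (XT.nd (nat_lit 376) (nat_lit 840) (nat_lit 0) (XT.nd (nat_lit 188) (nat_lit 336) (nat_lit 0) (XT.nd (nat_lit 94) (nat_lit 84) (nat_lit 0) (XT.lf (nat_lit 0) (nat_lit 11565888) (nat_lit 420) (nat_lit 10872773959) (nat_lit 504) (nat_lit 1415154069) (nat_lit 91) (nat_lit 5) (nat_lit 96) (nat_lit 5) (nat_lit 97) (nat_lit 5) (nat_lit 369) (nat_lit 326) (nat_lit 250)) (XT.lf (nat_lit 0) (nat_lit 753935346) (nat_lit 504) (nat_lit 6334974324) (nat_lit 84) (nat_lit 5432844309) (nat_lit 90) (nat_lit 5) (nat_lit 96) (nat_lit 5) (nat_lit 91) (nat_lit 5) (nat_lit 370) (nat_lit 326) (nat_lit 249))) (XT.nd (nat_lit 94) (nat_lit 336) (nat_lit 0) (XT.lf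 (nat_lit 0) (nat_lit 2935248576) (nat_lit 504) (nat_lit 248187428) (nat_lit 84) (nat_lit 9567593232) (nat_lit 90) (nat_lit 5) (nat_lit 96) (nat_lit 5) (nat_lit 91) (nat_lit 5) (nat_lit 371) (nat_lit 326) (nat_lit 248)) (XT.lf (nat_lit 0) (nat_lit 5225634485) (nat_lit 420) (nat_lit 6884161062) (nat_lit 84) (nat_lit 876112735) (nat_lit 86) (nat_lit 5) (nat_lit 91) (nat_lit 5) (nat_lit 87) (nat_lit 5) (nat_lit 372) (nat_lit 326) (nat_lit 247)))) (XT.nd (nat_lit 188) (nat_lit 420) (nat_lit 0) (XT.nd (nat_lit 94) (nat_lit 420) (nat_lit 0) (XT.lf (nat_lit 0) (nat_lit 7595433119) (nat_lit 420) (nat_lit 642262835) (nat_lit 84) (nat_lit 4989850233) (nat_lit 86) (nat_lit 5) (nat_lit 91) (nat_lit 5) (nat_lit 87) (nat_lit 5) (nat_lit 373) (nat_lit 326) (nat_lit 246)) (XT.lf (nat_lit 0) (nat_lit 5872131346) (nat_lit 420) (nat_lit 4197971913) (nat_lit 504) (nat_lit 3405349190) (nat_lit 81) (nat_lit 5) (nat_lit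 86) (nat_lit 5) (nat_lit 87) (nat_lit 5) (nat_lit 374) (nat_lit 326) (nat_lit 245))) (XT.nd (nat_lit 94) (nat_lit 420) (nat_lit 0) (XT.lf (nat_lit 0) (nat_lit 12566063406) (nat_lit 420) (nat_lit 37147643) (nat_lit 504) (nat_lit 1128090523) (nat_lit 81) (nat_lit 5) (nat_lit 86) (nat_lit 5) (nat_lit 87) (nat_lit 5) (nat_lit 375) (nat_lit 326) (nat_lit 244)) (XT.lf (nat_lit 0) (nat_lit 1266453770) (nat_lit 420) (nat_lit 8501396373) (nat_lit 84) (nat_lit 4224472951) (nat_lit 76) (nat_lit 5) (nat_lit 81) (nat_lit 5) (nat_lit 77) (nat_lit 5) (nat_lit 376) (nat_lit 326) (nat_lit 243))))))) (XT.nd (nat_lit 54990) (nat_lit 0) (nat_lit 10920) (XT.nd (nat_lit 752) (nat_lit 420) (nat_lit 0) (XT.nd (nat_lit 376) (nat_lit 672) (nat_lit 0) (XT.nd (nat_lit 188) (nat_lit 336) (nat_lit 0) (XT.nd (nat_lit 94) (nat_lit 336) (nat_lit 0) (XT.lf (nat_lit 0) (nat_lit 3700826881) (nat_lit 420) (nat_lit 1930818786) (nat_lit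 84) (nat_lit 8629503457) (nat_lit 76) (nat_lit 5) (nat_lit 81) (nat_lit 5) (nat_lit 77) (nat_lit 5) (nat_lit 377) (nat_lit 326) (nat_lit 242)) (XT.lf (nat_lit 0) (nat_lit 4904418010) (nat_lit 336) (nat_lit 1330001199) (nat_lit 420) (nat_lit 8302863161) (nat_lit 72) (nat_lit 5) (nat_lit 76) (nat_lit 5) (nat_lit 77) (nat_lit 5) (nat_lit 378) (nat_lit 326) (nat_lit 241))) (XT.nd (nat_lit 94) (nat_lit 336) (nat_lit 0) (XT.lf (nat_lit 0) (nat_lit 8872831784) (nat_lit 420) (nat_lit 2895282355) (nat_lit 84) (nat_lit 3052748357) (nat_lit 72) (nat_lit 5) (nat_lit 77) (nat_lit 5) (nat_lit 73) (nat_lit 5) (nat_lit 379) (nat_lit 326) (nat_lit 240)) (XT.lf (nat_lit 0) (nat_lit 4083307091) (nat_lit 336) (nat_lit 7539427853) (nat_lit 420) (nat_lit 3489271398) (nat_lit 68) (nat_lit 5) (nat_lit 72) (nat_lit 5) (nat_lit 73) (nat_lit 5) (nat_lit 380) (nat_lit 326) (nat_lit 239)))) (XT.nd (nat_lit 188) (nat_lit 252)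 (nat_lit 0) (XT.nd (nat_lit 94) (nat_lit 420) (nat_lit 0) (XT.lf (nat_lit 0) (nat_lit 11303243850) (nat_lit 336) (nat_lit 3161368544) (nat_lit 420) (nat_lit 947013486) (nat_lit 68) (nat_lit 5) (nat_lit 72) (nat_lit 5) (nat_lit 73) (nat_lit 5) (nat_lit 381) (nat_lit 326) (nat_lit 238)) (XT.lf (nat_lit 0) (nat_lit 1662011281) (nat_lit 420) (nat_lit 12697074839) (nat_lit 84) (nat_lit 1359996585) (nat_lit 63) (nat_lit 5) (nat_lit 68) (nat_lit 5) (nat_lit 64) (nat_lit 5) (nat_lit 382) (nat_lit 326) (nat_lit 237))) (XT.nd (nat_lit 94) (nat_lit 252) (nat_lit 0) (XT.lf (nat_lit 0) (nat_lit 4384307445) (nat_lit 420) (nat_lit 5652311884) (nat_lit 84) (nat_lit 5997265086) (nat_lit 63) (nat_lit 5) (nat_lit 68) (nat_lit 5) (nat_lit 64) (nat_lit 5) (nat_lit 383) (nat_lit 326) (nat_lit 236)) (XT.lf (nat_lit 0) (nat_lit 1608746885) (nat_lit 252) (nat_lit 5576384671) (nat_lit 336) (nat_lit 9173115676) (nat_lit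 60) (nat_lit 5) (nat_lit 63) (nat_lit 5) (nat_lit 64) (nat_lit 5) (nat_lit 384) (nat_lit 326) (nat_lit 235))))) (XT.nd (nat_lit 53862) (nat_lit 0) (nat_lit 15456) (XT.nd (nat_lit 188) (nat_lit 420) (nat_lit 0) (XT.nd (nat_lit 94) (nat_lit 0) (nat_lit 0) (XT.lf (nat_lit 0) (nat_lit 9177323963) (nat_lit 252) (nat_lit 931418736) (nat_lit 336) (nat_lit 6582457529) (nat_lit 60) (nat_lit 5) (nat_lit 63) (nat_lit 5) (nat_lit 64) (nat_lit 5) (nat_lit 385) (nat_lit 326) (nat_lit 234)) (XT.lf (nat_lit 0) (nat_lit 13139243653) (nat_lit 336) (nat_lit 124119189) (nat_lit 84) (nat_lit 3770225043) (nat_lit 60) (nat_lit 5) (nat_lit 64) (nat_lit 5) (nat_lit 61) (nat_lit 5) (nat_lit 386) (nat_lit 326) (nat_lit 233))) (XT.nd (nat_lit 94) (nat_lit 84) (nat_lit 0) (XT.lf (nat_lit 0) (nat_lit 7601292237) (nat_lit 336) (nat_lit 8724322764) (nat_lit 420) (nat_lit 1058704402) (nat_lit 56) (nat_lit 5) (nat_lit 60) (nat_lit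 5) (nat_lit 61) (nat_lit 5) (nat_lit 387) (nat_lit 326) (nat_lit 232)) (XT.lf (nat_lit 0) (nat_lit 1809677775) (nat_lit 420) (nat_lit 2227697702) (nat_lit 84) (nat_lit 13708159892) (nat_lit 55) (nat_lit 5) (nat_lit 60) (nat_lit 5) (nat_lit 56) (nat_lit 5) (nat_lit 388) (nat_lit 326) (nat_lit 231)))) (XT.nd (nat_lit 188) (nat_lit 0) (nat_lit 0) (XT.nd (nat_lit 94) (nat_lit 0) (nat_lit 0) (XT.lf (nat_lit 0) (nat_lit 70669234) (nat_lit 0) (nat_lit 70669234) (nat_lit 756) (nat_lit 3396511534) (nat_lit 239) (nat_lit 5) (nat_lit 239) (nat_lit 3) (nat_lit 248) (nat_lit 3) (nat_lit 327) (nat_lit 327) (nat_lit 291)) (XT.lf (nat_lit 0) (nat_lit 1917605303) (nat_lit 756) (nat_lit 3809746490) (nat_lit 840) (nat_lit 1401684457) (nat_lit 239) (nat_lit 5) (nat_lit 248) (nat_lit 3) (nat_lit 249) (nat_lit 5) (nat_lit 328) (nat_lit 327) (nat_lit 290))) (XT.nd (nat_lit 94) (nat_lit 0) (nat_lit 0) (XT.lf (nat_lit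 0) (nat_lit 3540179324) (nat_lit 756) (nat_lit 626692646) (nat_lit 840) (nat_lit 3019094050) (nat_lit 239) (nat_lit 5) (nat_lit 248) (nat_lit 3) (nat_lit 249) (nat_lit 5) (nat_lit 329) (nat_lit 327) (nat_lit 289)) (XT.lf (nat_lit 84) (nat_lit 2671061975) (nat_lit 0) (nat_lit 2505072056) (nat_lit 840) (nat_lit 2069675510) (nat_lit 240) (nat_lit 5) (nat_lit 239) (nat_lit 5) (nat_lit 249) (nat_lit 5) (nat_lit 330) (nat_lit 327) (nat_lit 288)))))) (XT.nd (nat_lit 752) (nat_lit 2940) (nat_lit 0) (XT.nd (nat_lit 376) (nat_lit 840) (nat_lit 0) (XT.nd (nat_lit 188) (nat_lit 0) (nat_lit 0) (XT.nd (nat_lit 94) (nat_lit 756) (nat_lit 0) (XT.lf (nat_lit 84) (nat_lit 6048005618) (nat_lit 0) (nat_lit 759980332) (nat_lit 840) (nat_lit 501200543) (nat_lit 240) (nat_lit 5) (nat_lit 239) (nat_lit 5) (nat_lit 249) (nat_lit 5) (nat_lit 331) (nat_lit 327) (nat_lit 287)) (XT.lf (nat_lit 0) (nat_lit 1065296778) (nat_lit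 840) (nat_lit 5235843425) (nat_lit 924) (nat_lit 1073956313) (nat_lit 230) (nat_lit 5) (nat_lit 240) (nat_lit 5) (nat_lit 241) (nat_lit 5) (nat_lit 332) (nat_lit 327) (nat_lit 286))) (XT.nd (nat_lit 94) (nat_lit 0) (nat_lit 0) (XT.lf (nat_lit 0) (nat_lit 2632242317) (nat_lit 840) (nat_lit 1822356948) (nat_lit 924) (nat_lit 2989460470) (nat_lit 230) (nat_lit 5) (nat_lit 240) (nat_lit 5) (nat_lit 241) (nat_lit 5) (nat_lit 333) (nat_lit 327) (nat_lit 285)) (XT.lf (nat_lit 84) (nat_lit 1692883732) (nat_lit 0) (nat_lit 2514382442) (nat_lit 924) (nat_lit 3309120347) (nat_lit 231) (nat_lit 5) (nat_lit 230) (nat_lit 5) (nat_lit 241) (nat_lit 5) (nat_lit 334) (nat_lit 327) (nat_lit 284)))) (XT.nd (nat_lit 188) (nat_lit 840) (nat_lit 0) (XT.nd (nat_lit 94) (nat_lit 0) (nat_lit 84) (XT.lf (nat_lit 84) (nat_lit 5317583758) (nat_lit 0) (nat_lit 476443376) (nat_lit 924) (nat_lit 1798044466) (nat_lit 231) (nat_lit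 5) (nat_lit 230) (nat_lit 5) (nat_lit 241) (nat_lit 5) (nat_lit 335) (nat_lit 327) (nat_lit 283)) (XT.lf (nat_lit 84) (nat_lit 1357627331) (nat_lit 0) (nat_lit 6047258095) (nat_lit 924) (nat_lit 265966464) (nat_lit 232) (nat_lit 5) (nat_lit 231) (nat_lit 5) (nat_lit 242) (nat_lit 5) (nat_lit 336) (nat_lit 327) (nat_lit 282))) (XT.nd (nat_lit 94) (nat_lit 0) (nat_lit 0) (XT.lf (nat_lit 0) (nat_lit 1262804116) (nat_lit 924) (nat_lit 2658600842) (nat_lit 1008) (nat_lit 3831034885) (nat_lit 220) (nat_lit 5) (nat_lit 231) (nat_lit 5) (nat_lit 232) (nat_lit 5) (nat_lit 337) (nat_lit 327) (nat_lit 281)) (XT.lf (nat_lit 84) (nat_lit 1090256582) (nat_lit 0) (nat_lit 1702239075) (nat_lit 1008) (nat_lit 5045198027) (nat_lit 221) (nat_lit 5) (nat_lit 220) (nat_lit 5) (nat_lit 232) (nat_lit 5) (nat_lit 338) (nat_lit 327) (nat_lit 280))))) (XT.nd (nat_lit 376) (nat_lit 2016) (nat_lit 0) (XT.nd (nat_lit 188)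 (nat_lit 1008) (nat_lit 0) (XT.nd (nat_lit 94) (nat_lit 0) (nat_lit 0) (XT.lf (nat_lit 0) (nat_lit 4352003551) (nat_lit 924) (nat_lit 2959929631) (nat_lit 1008) (nat_lit 614160358) (nat_lit 221) (nat_lit 5) (nat_lit 232) (nat_lit 5) (nat_lit 233) (nat_lit 5) (nat_lit 339) (nat_lit 327) (nat_lit 279)) (XT.lf (nat_lit 84) (nat_lit 907659415) (nat_lit 0) (nat_lit 5028841500) (nat_lit 1008) (nat_lit 2081401426) (nat_lit 222) (nat_lit 5) (nat_lit 221) (nat_lit 5) (nat_lit 233) (nat_lit 5) (nat_lit 340) (nat_lit 327) (nat_lit 278))) (XT.nd (nat_lit 94) (nat_lit 1008) (nat_lit 0) (XT.lf (nat_lit 84) (nat_lit 4917887556) (nat_lit 0) (nat_lit 2634212929) (nat_lit 1008) (nat_lit 560957976) (nat_lit 222) (nat_lit 5) (nat_lit 221) (nat_lit 5) (nat_lit 233) (nat_lit 5) (nat_lit 341) (nat_lit 327) (nat_lit 277)) (XT.lf (nat_lit 84) (nat_lit 809414025) (nat_lit 0) (nat_lit 138338687) (nat_lit 1092) (nat_lit 7264253024)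 (nat_lit 210) (nat_lit 5) (nat_lit 209) (nat_lit 5) (nat_lit 222) (nat_lit 5) (nat_lit 342) (nat_lit 327) (nat_lit 276)))) (XT.nd (nat_lit 188) (nat_lit 1092) (nat_lit 0) (XT.nd (nat_lit 94) (nat_lit 1008) (nat_lit 0) (XT.lf (nat_lit 0) (nat_lit 2502007610) (nat_lit 1008) (nat_lit 3377843112) (nat_lit 84) (nat_lit 2433648940) (nat_lit 210) (nat_lit 5) (nat_lit 222) (nat_lit 5) (nat_lit 211) (nat_lit 5) (nat_lit 343) (nat_lit 327) (nat_lit 275)) (XT.lf (nat_lit 0) (nat_lit 746605784) (nat_lit 1008) (nat_lit 3321715690) (nat_lit 1092) (nat_lit 4350842906) (nat_lit 198) (nat_lit 5) (nat_lit 210) (nat_lit 5) (nat_lit 211) (nat_lit 5) (nat_lit 344) (nat_lit 327) (nat_lit 274))) (XT.nd (nat_lit 94) (nat_lit 1092) (nat_lit 0) (XT.lf (nat_lit 0) (nat_lit 5030124880) (nat_lit 1008) (nat_lit 643424125) (nat_lit 1092) (nat_lit 2854778634) (nat_lit 198) (nat_lit 5) (nat_lit 210) (nat_lit 5) (nat_lit 211) (nat_lit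 5) (nat_lit 345) (nat_lit 327) (nat_lit 273)) (XT.lf (nat_lit 0) (nat_lit 761604679) (nat_lit 1092) (nat_lit 6552103072) (nat_lit 1176) (nat_lit 1327538622) (nat_lit 185) (nat_lit 5) (nat_lit 198) (nat_lit 5) (nat_lit 199) (nat_lit 5) (nat_lit 346) (nat_lit 327) (nat_lit 272))))))))
noncomputable def xc35 : XT := (XT.nd (nat_lit 3008) (nat_lit 1680) (nat_lit 0) (XT.nd (nat_lit 1504) (nat_lit 3108) (nat_lit 0) (XT.nd (nat_lit 752) (nat_lit 2268) (nat_lit 0) (XT.nd (nat_lit 376) (nat_lit 1260) (nat_lit 0) (XT.nd (nat_lit 188) (nat_lit 1260) (nat_lit 0) (XT.nd (nat_lit 94) (nat_lit 1176) (nat_lit 0) (XT.lf (nat_lit 0) (nat_lit 242281675) (nat_lit 1176) (nat_lit 3579513691) (nat_lit 84) (nat_lit 4935718879) (nat_lit 184) (nat_lit 5) (nat_lit 198) (nat_lit 5) (nat_lit 185) (nat_lit 5) (nat_lit 347) (nat_lit 327) (nat_lit 271)) (XT.lf (nat_lit 0) (nat_lit 818606936) (nat_lit 1176) (nat_lit 982464501)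 (nat_lit 1260) (nat_lit 7076824385) (nat_lit 170) (nat_lit 5) (nat_lit 184) (nat_lit 5) (nat_lit 185) (nat_lit 5) (nat_lit 348) (nat_lit 327) (nat_lit 270))) (XT.nd (nat_lit 94) (nat_lit 1260) (nat_lit 0) (XT.lf (nat_lit 0) (nat_lit 3423355858) (nat_lit 1260) (nat_lit 3632569241) (nat_lit 84) (nat_lit 1945536283) (nat_lit 170) (nat_lit 5) (nat_lit 185) (nat_lit 5) (nat_lit 171) (nat_lit 5) (nat_lit 349) (nat_lit 327) (nat_lit 269)) (XT.lf (nat_lit 0) (nat_lit 901033772) (nat_lit 1260) (nat_lit 4174342219) (nat_lit 1344) (nat_lit 4053998198) (nat_lit 155) (nat_lit 5) (nat_lit 170) (nat_lit 5) (nat_lit 171) (nat_lit 5) (nat_lit 350) (nat_lit 327) (nat_lit 268)))) (XT.nd (nat_lit 188) (nat_lit 672) (nat_lit 0) (XT.nd (nat_lit 94) (nat_lit 588) (nat_lit 0) (XT.lf (nat_lit 0) (nat_lit 5611666830) (nat_lit 1260) (nat_lit 1165415811) (nat_lit 1344) (nat_lit 2484108151) (nat_lit 155) (nat_lit 5) (nat_lit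 170) (nat_lit 5) (nat_lit 171) (nat_lit 5) (nat_lit 351) (nat_lit 327) (nat_lit 267)) (XT.lf (nat_lit 0) (nat_lit 1034627583) (nat_lit 588) (nat_lit 7488284925) (nat_lit 672) (nat_lit 874325372) (nat_lit 148) (nat_lit 5) (nat_lit 155) (nat_lit 5) (nat_lit 156) (nat_lit 5) (nat_lit 352) (nat_lit 327) (nat_lit 266))) (XT.nd (nat_lit 94) (nat_lit 588) (nat_lit 0) (XT.lf (nat_lit 0) (nat_lit 782055509) (nat_lit 672) (nat_lit 3655647291) (nat_lit 84) (nat_lit 5099093843) (nat_lit 147) (nat_lit 5) (nat_lit 155) (nat_lit 5) (nat_lit 148) (nat_lit 5) (nat_lit 353) (nat_lit 327) (nat_lit 265)) (XT.lf (nat_lit 0) (nat_lit 1173698877) (nat_lit 588) (nat_lit 1274003939) (nat_lit 672) (nat_lit 7233327575) (nat_lit 140) (nat_lit 5) (nat_lit 147) (nat_lit 5) (nat_lit 148) (nat_lit 5) (nat_lit 354) (nat_lit 327) (nat_lit 264))))) (XT.nd (nat_lit 376) (nat_lit 1092) (nat_lit 0) (XT.nd (nat_lit 188) (nat_lit 588)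 (nat_lit 0) (XT.nd (nat_lit 94) (nat_lit 588) (nat_lit 0) (XT.lf (nat_lit 0) (nat_lit 4186229116) (nat_lit 672) (nat_lit 3658882711) (nat_lit 84) (nat_lit 1983852582) (nat_lit 140) (nat_lit 5) (nat_lit 148) (nat_lit 5) (nat_lit 141) (nat_lit 5) (nat_lit 355) (nat_lit 327) (nat_lit 263)) (XT.lf (nat_lit 0) (nat_lit 1315236795) (nat_lit 588) (nat_lit 4654457350) (nat_lit 672) (nat_lit 4011917599) (nat_lit 133) (nat_lit 5) (nat_lit 140) (nat_lit 5) (nat_lit 141) (nat_lit 5) (nat_lit 356) (nat_lit 327) (nat_lit 262))) (XT.nd (nat_lit 94) (nat_lit 588) (nat_lit 0) (XT.lf (nat_lit 0) (nat_lit 6481071429) (nat_lit 588) (nat_lit 1330698731) (nat_lit 672) (nat_lit 2326972198) (nat_lit 133) (nat_lit 5) (nat_lit 140) (nat_lit 5) (nat_lit 141) (nat_lit 5) (nat_lit 357) (nat_lit 327) (nat_lit 261)) (XT.lf (nat_lit 0) (nat_lit 1477466336) (nat_lit 588) (nat_lit 8235042061) (nat_lit 672) (nat_lit 588031904) (nat_lit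 126) (nat_lit 5) (nat_lit 133) (nat_lit 5) (nat_lit 134) (nat_lit 5) (nat_lit 358) (nat_lit 327) (nat_lit 260)))) (XT.nd (nat_lit 188) (nat_lit 504) (nat_lit 0) (XT.nd (nat_lit 94) (nat_lit 504) (nat_lit 0) (XT.lf (nat_lit 0) (nat_lit 1199394890) (nat_lit 672) (nat_lit 3682438742) (nat_lit 84) (nat_lit 5584469997) (nat_lit 125) (nat_lit 5) (nat_lit 133) (nat_lit 5) (nat_lit 126) (nat_lit 5) (nat_lit 359) (nat_lit 327) (nat_lit 259)) (XT.lf (nat_lit 0) (nat_lit 1606004835) (nat_lit 504) (nat_lit 1408270749) (nat_lit 588) (nat_lit 7623070819) (nat_lit 119) (nat_lit 5) (nat_lit 125) (nat_lit 5) (nat_lit 126) (nat_lit 5) (nat_lit 360) (nat_lit 327) (nat_lit 258))) (XT.nd (nat_lit 94) (nat_lit 504) (nat_lit 0) (XT.lf (nat_lit 0) (nat_lit 4912763623) (nat_lit 588) (nat_lit 3737557025) (nat_lit 84) (nat_lit 2162374215) (nat_lit 119) (nat_lit 5) (nat_lit 126) (nat_lit 5) (nat_lit 120) (nat_lit 5) (nat_lit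 361) (nat_lit 327) (nat_lit 257)) (XT.lf (nat_lit 0) (nat_lit 1702754254) (nat_lit 504) (nat_lit 5167367888) (nat_lit 588) (nat_lit 4123171955) (nat_lit 113) (nat_lit 5) (nat_lit 119) (nat_lit 5) (nat_lit 120) (nat_lit 5) (nat_lit 362) (nat_lit 327) (nat_lit 256)))))) (XT.nd (nat_lit 752) (nat_lit 1260) (nat_lit 0) (XT.nd (nat_lit 376) (nat_lit 840) (nat_lit 0) (XT.nd (nat_lit 188) (nat_lit 588) (nat_lit 0) (XT.nd (nat_lit 94) (nat_lit 420) (nat_lit 0) (XT.lf (nat_lit 0) (nat_lit 7351630244) (nat_lit 504) (nat_lit 1544444368) (nat_lit 588) (nat_lit 2282986903) (nat_lit 113) (nat_lit 5) (nat_lit 119) (nat_lit 5) (nat_lit 120) (nat_lit 5) (nat_lit 363) (nat_lit 327) (nat_lit 255)) (XT.lf (nat_lit 0) (nat_lit 1782146795) (nat_lit 420) (nat_lit 9211725587) (nat_lit 504) (nat_lit 376242625) (nat_lit 108) (nat_lit 5) (nat_lit 113) (nat_lit 5) (nat_lit 114) (nat_lit 5) (nat_lit 364) (nat_lit 327) (nat_lit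 254))) (XT.nd (nat_lit 94) (nat_lit 504) (nat_lit 0) (XT.lf (nat_lit 0) (nat_lit 1584143195) (nat_lit 504) (nat_lit 3989653723) (nat_lit 84) (nat_lit 5991865161) (nat_lit 107) (nat_lit 5) (nat_lit 113) (nat_lit 5) (nat_lit 108) (nat_lit 5) (nat_lit 365) (nat_lit 327) (nat_lit 253)) (XT.lf (nat_lit 0) (nat_lit 1777029506) (nat_lit 504) (nat_lit 1809711738) (nat_lit 588) (nat_lit 8180534911) (nat_lit 101) (nat_lit 5) (nat_lit 107) (nat_lit 5) (nat_lit 108) (nat_lit 5) (nat_lit 366) (nat_lit 327) (nat_lit 252)))) (XT.nd (nat_lit 188) (nat_lit 420) (nat_lit 0) (XT.nd (nat_lit 94) (nat_lit 420) (nat_lit 0) (XT.lf (nat_lit 0) (nat_lit 5684282861) (nat_lit 588) (nat_lit 4226501676) (nat_lit 84) (nat_lit 2063148176) (nat_lit 101) (nat_lit 5) (nat_lit 108) (nat_lit 5) (nat_lit 102) (nat_lit 5) (nat_lit 367) (nat_lit 327) (nat_lit 251)) (XT.lf (nat_lit 0) (nat_lit 1695222581) (nat_lit 420) (nat_lit 6158796883)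 (nat_lit 504) (nat_lit 4332530303) (nat_lit 96) (nat_lit 5) (nat_lit 101) (nat_lit 5) (nat_lit 102) (nat_lit 5) (nat_lit 368) (nat_lit 327) (nat_lit 250))) (XT.nd (nat_lit 94) (nat_lit 420) (nat_lit 0) (XT.lf (nat_lit 0) (nat_lit 7851437733) (nat_lit 420) (nat_lit 2255585187) (nat_lit 504) (nat_lit 2298014901) (nat_lit 96) (nat_lit 5) (nat_lit 101) (nat_lit 5) (nat_lit 102) (nat_lit 5) (nat_lit 369) (nat_lit 327) (nat_lit 249)) (XT.lf (nat_lit 0) (nat_lit 1545826923) (nat_lit 420) (nat_lit 10889772268) (nat_lit 504) (nat_lit 194278476) (nat_lit 91) (nat_lit 5) (nat_lit 96) (nat_lit 5) (nat_lit 97) (nat_lit 5) (nat_lit 370) (nat_lit 327) (nat_lit 248))))) (XT.nd (nat_lit 376) (nat_lit 420) (nat_lit 0) (XT.nd (nat_lit 188) (nat_lit 420) (nat_lit 0) (XT.nd (nat_lit 94) (nat_lit 336) (nat_lit 0) (XT.lf (nat_lit 0) (nat_lit 1979153496) (nat_lit 504) (nat_lit 5010100037) (nat_lit 84) (nat_lit 5870322596)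 (nat_lit 90) (nat_lit 5) (nat_lit 96) (nat_lit 5) (nat_lit 91) (nat_lit 5) (nat_lit 371) (nat_lit 327) (nat_lit 247)) (XT.lf (nat_lit 0) (nat_lit 1239350674) (nat_lit 336) (nat_lit 2963441658) (nat_lit 420) (nat_lit 8893681768) (nat_lit 86) (nat_lit 5) (nat_lit 90) (nat_lit 5) (nat_lit 91) (nat_lit 5) (nat_lit 372) (nat_lit 327) (nat_lit 246))) (XT.nd (nat_lit 94) (nat_lit 420) (nat_lit 0) (XT.lf (nat_lit 0) (nat_lit 6532937572) (nat_lit 420) (nat_lit 5601195645) (nat_lit 84) (nat_lit 1205184424) (nat_lit 86) (nat_lit 5) (nat_lit 91) (nat_lit 5) (nat_lit 87) (nat_lit 5) (nat_lit 373) (nat_lit 327) (nat_lit 245)) (XT.lf (nat_lit 0) (nat_lit 800190924) (nat_lit 420) (nat_lit 8147820465) (nat_lit 504) (nat_lit 4641015970) (nat_lit 81) (nat_lit 5) (nat_lit 86) (nat_lit 5) (nat_lit 87) (nat_lit 5) (nat_lit 374) (nat_lit 327) (nat_lit 244)))) (XT.nd (nat_lit 188) (nat_lit 84) (nat_lit 0) (XT.nd (nat_lit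 94) (nat_lit 336) (nat_lit 0) (XT.lf (nat_lit 0) (nat_lit 7480224804) (nat_lit 420) (nat_lit 3990234826) (nat_lit 504) (nat_lit 2374751750) (nat_lit 81) (nat_lit 5) (nat_lit 86) (nat_lit 5) (nat_lit 87) (nat_lit 5) (nat_lit 375) (nat_lit 327) (nat_lit 243)) (XT.lf (nat_lit 0) (nat_lit 225174866) (nat_lit 336) (nat_lit 13827308626) (nat_lit 420) (nat_lit 57110150) (nat_lit 77) (nat_lit 5) (nat_lit 81) (nat_lit 5) (nat_lit 82) (nat_lit 5) (nat_lit 376) (nat_lit 327) (nat_lit 242))) (XT.nd (nat_lit 94) (nat_lit 0) (nat_lit 0) (XT.lf (nat_lit 0) (nat_lit 2368054113) (nat_lit 420) (nat_lit 7327164615) (nat_lit 84) (nat_lit 4683540942) (nat_lit 76) (nat_lit 5) (nat_lit 81) (nat_lit 5) (nat_lit 77) (nat_lit 5) (nat_lit 377) (nat_lit 327) (nat_lit 241)) (XT.lf (nat_lit 0) (nat_lit 4844479580) (nat_lit 420) (nat_lit 601099030) (nat_lit 84) (nat_lit 9211042738) (nat_lit 76) (nat_lit 5) (nat_lit 81) (nat_lit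 5) (nat_lit 77) (nat_lit 5) (nat_lit 378) (nat_lit 327) (nat_lit 240))))))) (XT.nd (nat_lit 55084) (nat_lit 0) (nat_lit 9576) (XT.nd (nat_lit 752) (nat_lit 336) (nat_lit 0) (XT.nd (nat_lit 376) (nat_lit 672) (nat_lit 0) (XT.nd (nat_lit 188) (nat_lit 336) (nat_lit 0) (XT.nd (nat_lit 94) (nat_lit 0) (nat_lit 0) (XT.lf (nat_lit 0) (nat_lit 6425590514) (nat_lit 336) (nat_lit 1011620736) (nat_lit 420) (nat_lit 7504373687) (nat_lit 72) (nat_lit 5) (nat_lit 76) (nat_lit 5) (nat_lit 77) (nat_lit 5) (nat_lit 379) (nat_lit 327) (nat_lit 239)) (XT.lf (nat_lit 0) (nat_lit 10128534675) (nat_lit 420) (nat_lit 1620575916) (nat_lit 84) (nat_lit 3485388241) (nat_lit 72) (nat_lit 5) (nat_lit 77) (nat_lit 5) (nat_lit 73) (nat_lit 5) (nat_lit 380) (nat_lit 327) (nat_lit 238))) (XT.nd (nat_lit 94) (nat_lit 0) (nat_lit 0) (XT.lf (nat_lit 0) (nat_lit 5554022537) (nat_lit 336) (nat_lit 7391051362) (nat_lit 420) (nat_lit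 2589816907) (nat_lit 68) (nat_lit 5) (nat_lit 72) (nat_lit 5) (nat_lit 73) (nat_lit 5) (nat_lit 381) (nat_lit 327) (nat_lit 237)) (XT.lf (nat_lit 0) (nat_lit 12951288965) (nat_lit 336) (nat_lit 2892559768) (nat_lit 420) (nat_lit 537840) (nat_lit 68) (nat_lit 5) (nat_lit 72) (nat_lit 5) (nat_lit 73) (nat_lit 5) (nat_lit 382) (nat_lit 327) (nat_lit 236)))) (XT.nd (nat_lit 188) (nat_lit 252) (nat_lit 0) (XT.nd (nat_lit 94) (nat_lit 0) (nat_lit 0) (XT.lf (nat_lit 0) (nat_lit 2656154112) (nat_lit 420) (nat_lit 11736083796) (nat_lit 84) (nat_lit 1768930217) (nat_lit 63) (nat_lit 5) (nat_lit 68) (nat_lit 5) (nat_lit 64) (nat_lit 5) (nat_lit 383) (nat_lit 327) (nat_lit 235)) (XT.lf (nat_lit 0) (nat_lit 5432615788) (nat_lit 420) (nat_lit 4519062514) (nat_lit 84) (nat_lit 6534594431) (nat_lit 63) (nat_lit 5) (nat_lit 68) (nat_lit 5) (nat_lit 64) (nat_lit 5) (nat_lit 384) (nat_lit 327) (nat_lit 234))) (XT.nd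 (nat_lit 94) (nat_lit 0) (nat_lit 0) (XT.lf (nat_lit 0) (nat_lit 2947055286) (nat_lit 252) (nat_lit 5356107743) (nat_lit 336) (nat_lit 8517665215) (nat_lit 60) (nat_lit 5) (nat_lit 63) (nat_lit 5) (nat_lit 64) (nat_lit 5) (nat_lit 385) (nat_lit 327) (nat_lit 233)) (XT.lf (nat_lit 0) (nat_lit 10705115521) (nat_lit 252) (nat_lit 583081232) (nat_lit 336) (nat_lit 5876393457) (nat_lit 60) (nat_lit 5) (nat_lit 63) (nat_lit 5) (nat_lit 64) (nat_lit 5) (nat_lit 386) (nat_lit 327) (nat_lit 232))))) (XT.nd (nat_lit 53956) (nat_lit 0) (nat_lit 14532) (XT.nd (nat_lit 53768) (nat_lit 0) (nat_lit 15372) (XT.nd (nat_lit 94) (nat_lit 0) (nat_lit 0) (XT.lf (nat_lit 0) (nat_lit 1133301969) (nat_lit 336) (nat_lit 13265196293) (nat_lit 420) (nat_lit 3119115552) (nat_lit 56) (nat_lit 5) (nat_lit 60) (nat_lit 5) (nat_lit 61) (nat_lit 5) (nat_lit 387) (nat_lit 327) (nat_lit 231)) (XT.lf (nat_lit 0) (nat_lit 9056213583)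 (nat_lit 336) (nat_lit 8600267597) (nat_lit 420) (nat_lit 223135466) (nat_lit 56) (nat_lit 5) (nat_lit 60) (nat_lit 5) (nat_lit 61) (nat_lit 5) (nat_lit 388) (nat_lit 327) (nat_lit 230))) (XT.nd (nat_lit 94) (nat_lit 0) (nat_lit 0) (XT.lf (nat_lit 0) (nat_lit 873490877) (nat_lit 0) (nat_lit 873490877) (nat_lit 756) (nat_lit 1845120330) (nat_lit 239) (nat_lit 5) (nat_lit 239) (nat_lit 3) (nat_lit 248) (nat_lit 3) (nat_lit 328) (nat_lit 328) (nat_lit 289)) (XT.lf (nat_lit 0) (nat_lit 4988207668) (nat_lit 0) (nat_lit 82292173) (nat_lit 756) (nat_lit 2172087622) (nat_lit 239) (nat_lit 5) (nat_lit 239) (nat_lit 3) (nat_lit 248) (nat_lit 3) (nat_lit 329) (nat_lit 328) (nat_lit 288)))) (XT.nd (nat_lit 188) (nat_lit 0) (nat_lit 0) (XT.nd (nat_lit 94) (nat_lit 840) (nat_lit 0) (XT.lf (nat_lit 84) (nat_lit 995733159) (nat_lit 0) (nat_lit 5664665214) (nat_lit 840) (nat_lit 643484583) (nat_lit 240) (nat_lit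 5) (nat_lit 239) (nat_lit 5) (nat_lit 249) (nat_lit 5) (nat_lit 330) (nat_lit 328) (nat_lit 287)) (XT.lf (nat_lit 0) (nat_lit 878130456) (nat_lit 840) (nat_lit 3019700994) (nat_lit 924) (nat_lit 3470092264) (nat_lit 229) (nat_lit 5) (nat_lit 239) (nat_lit 5) (nat_lit 240) (nat_lit 5) (nat_lit 331) (nat_lit 328) (nat_lit 286))) (XT.nd (nat_lit 94) (nat_lit 0) (nat_lit 0) (XT.lf (nat_lit 84) (nat_lit 335598864) (nat_lit 0) (nat_lit 2043306720) (nat_lit 924) (nat_lit 5056526199) (nat_lit 230) (nat_lit 5) (nat_lit 229) (nat_lit 5) (nat_lit 240) (nat_lit 5) (nat_lit 332) (nat_lit 328) (nat_lit 285)) (XT.lf (nat_lit 84) (nat_lit 3821792140) (nat_lit 0) (nat_lit 77973360) (nat_lit 924) (nat_lit 3606074518) (nat_lit 230) (nat_lit 5) (nat_lit 229) (nat_lit 5) (nat_lit 240) (nat_lit 5) (nat_lit 333) (nat_lit 328) (nat_lit 284)))))) (XT.nd (nat_lit 752) (nat_lit 3276) (nat_lit 0) (XT.nd (nat_lit 376) (nat_lit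 840) (nat_lit 0) (XT.nd (nat_lit 188) (nat_lit 924) (nat_lit 0) (XT.nd (nat_lit 94) (nat_lit 0) (nat_lit 0) (XT.lf (nat_lit 0) (nat_lit 5431365209) (nat_lit 840) (nat_lit 217202049) (nat_lit 924) (nat_lit 1930962902) (nat_lit 230) (nat_lit 5) (nat_lit 240) (nat_lit 5) (nat_lit 241) (nat_lit 5) (nat_lit 334) (nat_lit 328) (nat_lit 283)) (XT.lf (nat_lit 84) (nat_lit 3387223052) (nat_lit 0) (nat_lit 3602987733) (nat_lit 924) (nat_lit 665900780) (nat_lit 231) (nat_lit 5) (nat_lit 230) (nat_lit 5) (nat_lit 241) (nat_lit 5) (nat_lit 335) (nat_lit 328) (nat_lit 282))) (XT.nd (nat_lit 94) (nat_lit 0) (nat_lit 84) (XT.lf (nat_lit 0) (nat_lit 794810645) (nat_lit 924) (nat_lit 671563903) (nat_lit 1008) (nat_lit 6269956934) (nat_lit 219) (nat_lit 5) (nat_lit 230) (nat_lit 5) (nat_lit 231) (nat_lit 5) (nat_lit 336) (nat_lit 328) (nat_lit 281)) (XT.lf (nat_lit 0) (nat_lit 2272978096) (nat_lit 924) (nat_lit 4772002060)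 (nat_lit 1008) (nat_lit 774278844) (nat_lit 220) (nat_lit 5) (nat_lit 231) (nat_lit 5) (nat_lit 232) (nat_lit 5) (nat_lit 337) (nat_lit 328) (nat_lit 280)))) (XT.nd (nat_lit 188) (nat_lit 924) (nat_lit 0) (XT.nd (nat_lit 94) (nat_lit 0) (nat_lit 0) (XT.lf (nat_lit 0) (nat_lit 3768239590) (nat_lit 924) (nat_lit 1060702650) (nat_lit 1008) (nat_lit 3076655801) (nat_lit 220) (nat_lit 5) (nat_lit 231) (nat_lit 5) (nat_lit 232) (nat_lit 5) (nat_lit 338) (nat_lit 328) (nat_lit 279)) (XT.lf (nat_lit 84) (nat_lit 2784172887) (nat_lit 0) (nat_lit 2503747116) (nat_lit 1008) (nat_lit 2707323495) (nat_lit 221) (nat_lit 5) (nat_lit 220) (nat_lit 5) (nat_lit 232) (nat_lit 5) (nat_lit 339) (nat_lit 328) (nat_lit 278))) (XT.nd (nat_lit 94) (nat_lit 924) (nat_lit 0) (XT.lf (nat_lit 84) (nat_lit 6734360588) (nat_lit 0) (nat_lit 83408513) (nat_lit 1008) (nat_lit 1270971945) (nat_lit 221) (nat_lit 5) (nat_lit 220)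 (nat_lit 5) (nat_lit 232) (nat_lit 5) (nat_lit 340) (nat_lit 328) (nat_lit 277)) (XT.lf (nat_lit 0) (nat_lit 207971468) (nat_lit 1008) (nat_lit 5573651829) (nat_lit 1092) (nat_lit 2403347354) (nat_lit 209) (nat_lit 5) (nat_lit 221) (nat_lit 5) (nat_lit 222) (nat_lit 5) (nat_lit 341) (nat_lit 328) (nat_lit 276))))) (XT.nd (nat_lit 376) (nat_lit 2352) (nat_lit 0) (XT.nd (nat_lit 188) (nat_lit 924) (nat_lit 0) (XT.nd (nat_lit 94) (nat_lit 0) (nat_lit 0) (XT.lf (nat_lit 0) (nat_lit 1676187818) (nat_lit 1008) (nat_lit 1606549226) (nat_lit 1092) (nat_lit 5001950667) (nat_lit 209) (nat_lit 5) (nat_lit 221) (nat_lit 5) (nat_lit 222) (nat_lit 5) (nat_lit 342) (nat_lit 328) (nat_lit 275)) (XT.lf (nat_lit 84) (nat_lit 2496159186) (nat_lit 0) (nat_lit 673385196) (nat_lit 1092) (nat_lit 5218508006) (nat_lit 210) (nat_lit 5) (nat_lit 209) (nat_lit 5) (nat_lit 222) (nat_lit 5) (nat_lit 343) (nat_lit 328) (nat_lit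 274))) (XT.nd (nat_lit 94) (nat_lit 1008) (nat_lit 0) (XT.lf (nat_lit 0) (nat_lit 4701588021) (nat_lit 1008) (nat_lit 1791916696) (nat_lit 84) (nat_lit 2001283021) (nat_lit 210) (nat_lit 5) (nat_lit 222) (nat_lit 5) (nat_lit 211) (nat_lit 5) (nat_lit 344) (nat_lit 328) (nat_lit 273)) (XT.lf (nat_lit 0) (nat_lit 2439723885) (nat_lit 1008) (nat_lit 3829348170) (nat_lit 1092) (nat_lit 2336052533) (nat_lit 198) (nat_lit 5) (nat_lit 210) (nat_lit 5) (nat_lit 211) (nat_lit 5) (nat_lit 345) (nat_lit 328) (nat_lit 272)))) (XT.nd (nat_lit 188) (nat_lit 1176) (nat_lit 0) (XT.nd (nat_lit 94) (nat_lit 1176) (nat_lit 0) (XT.lf (nat_lit 0) (nat_lit 6803086808) (nat_lit 1008) (nat_lit 1058824915) (nat_lit 1092) (nat_lit 857591254) (nat_lit 198) (nat_lit 5) (nat_lit 210) (nat_lit 5) (nat_lit 211) (nat_lit 5) (nat_lit 346) (nat_lit 328) (nat_lit 271)) (XT.lf (nat_lit 0) (nat_lit 654540727) (nat_lit 1176) (nat_lit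 6385319122) (nat_lit 84) (nat_lit 1797268799) (nat_lit 184) (nat_lit 5) (nat_lit 198) (nat_lit 5) (nat_lit 185) (nat_lit 5) (nat_lit 347) (nat_lit 328) (nat_lit 270))) (XT.nd (nat_lit 94) (nat_lit 1176) (nat_lit 0) (XT.lf (nat_lit 0) (nat_lit 2186660122) (nat_lit 1176) (nat_lit 2019357474) (nat_lit 84) (nat_lit 4752329422) (nat_lit 184) (nat_lit 5) (nat_lit 198) (nat_lit 5) (nat_lit 185) (nat_lit 5) (nat_lit 348) (nat_lit 328) (nat_lit 269)) (XT.lf (nat_lit 0) (nat_lit 2494358325) (nat_lit 1176) (nat_lit 1257306852) (nat_lit 1260) (nat_lit 5332001395) (nat_lit 170) (nat_lit 5) (nat_lit 184) (nat_lit 5) (nat_lit 185) (nat_lit 5) (nat_lit 349) (nat_lit 328) (nat_lit 268))))))))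
noncomputable def xc36 : XT := (XT.nd (nat_lit 2914) (nat_lit 1344) (nat_lit 0) (XT.nd (nat_lit 1410) (nat_lit 3444) (nat_lit 0) (XT.nd (nat_lit 658) (nat_lit 2268) (nat_lit 0) (XT.nd (nat_lit 282) (nat_lit 1260) (nat_lit 0) (XT.nd (nat_lit 94) (nat_lit 1260) (nat_lit 0) (XT.lf (nat_lit 0) (nat_lit 5365088539) (nat_lit 1260) (nat_lit 2077354147) (nat_lit 84) (nat_lit 1770329173) (nat_lit 170) (nat_lit 5) (nat_lit 185) (nat_lit 5) (nat_lit 171) (nat_lit 5) (nat_lit 350) (nat_lit 328) (nat_lit 267)) (XT.nd (nat_lit 94) (nat_lit 0) (nat_lit 0) (XT.lf (nat_lit 0) (nat_lit 2575941346) (nat_lit 1260) (nat_lit 4453004287) (nat_lit 1344) (nat_lit 2316811885) (nat_lit 155) (nat_lit 5) (nat_lit 170) (nat_lit 5) (nat_lit 171) (nat_lit 5) (nat_lit 351) (nat_lit 328) (nat_lit 266)) (XT.lf (nat_lit 0) (nat_lit 7379896991) (nat_lit 1260) (nat_lit 1349341200) (nat_lit 1344) (nat_lit 753965125) (nat_lit 155) (nat_lit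 5) (nat_lit 170) (nat_lit 5) (nat_lit 171) (nat_lit 5) (nat_lit 352) (nat_lit 328) (nat_lit 265)))) (XT.nd (nat_lit 188) (nat_lit 588) (nat_lit 0) (XT.nd (nat_lit 94) (nat_lit 0) (nat_lit 0) (XT.lf (nat_lit 0) (nat_lit 849456690) (nat_lit 672) (nat_lit 6926298986) (nat_lit 84) (nat_lit 1848520728) (nat_lit 147) (nat_lit 5) (nat_lit 155) (nat_lit 5) (nat_lit 148) (nat_lit 5) (nat_lit 353) (nat_lit 328) (nat_lit 264)) (XT.lf (nat_lit 0) (nat_lit 2487496543) (nat_lit 672) (nat_lit 2135673086) (nat_lit 84) (nat_lit 5146198572) (nat_lit 147) (nat_lit 5) (nat_lit 155) (nat_lit 5) (nat_lit 148) (nat_lit 5) (nat_lit 354) (nat_lit 328) (nat_lit 263))) (XT.nd (nat_lit 94) (nat_lit 0) (nat_lit 0) (XT.lf (nat_lit 0) (nat_lit 2822576569) (nat_lit 588) (nat_lit 1347058561) (nat_lit 672) (nat_lit 5749387678) (nat_lit 140) (nat_lit 5) (nat_lit 147) (nat_lit 5) (nat_lit 148) (nat_lit 5) (nat_lit 355) (nat_lit 328)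 (nat_lit 262)) (XT.lf (nat_lit 0) (nat_lit 5911977523) (nat_lit 672) (nat_lit 2150746211) (nat_lit 84) (nat_lit 2010208202) (nat_lit 140) (nat_lit 5) (nat_lit 148) (nat_lit 5) (nat_lit 141) (nat_lit 5) (nat_lit 356) (nat_lit 328) (nat_lit 261))))) (XT.nd (nat_lit 376) (nat_lit 1008) (nat_lit 0) (XT.nd (nat_lit 188) (nat_lit 672) (nat_lit 0) (XT.nd (nat_lit 94) (nat_lit 0) (nat_lit 0) (XT.lf (nat_lit 0) (nat_lit 2956735086) (nat_lit 588) (nat_lit 4761004570) (nat_lit 672) (nat_lit 2513439605) (nat_lit 133) (nat_lit 5) (nat_lit 140) (nat_lit 5) (nat_lit 141) (nat_lit 5) (nat_lit 357) (nat_lit 328) (nat_lit 260)) (XT.lf (nat_lit 0) (nat_lit 8230883365) (nat_lit 588) (nat_lit 1338496877) (nat_lit 672) (nat_lit 825096392) (nat_lit 133) (nat_lit 5) (nat_lit 140) (nat_lit 5) (nat_lit 141) (nat_lit 5) (nat_lit 358) (nat_lit 328) (nat_lit 259))) (XT.nd (nat_lit 94) (nat_lit 0) (nat_lit 0) (XT.lf (nat_lit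 0) (nat_lit 917994353) (nat_lit 672) (nat_lit 7461503356) (nat_lit 84) (nat_lit 2182304456) (nat_lit 125) (nat_lit 5) (nat_lit 133) (nat_lit 5) (nat_lit 126) (nat_lit 5) (nat_lit 359) (nat_lit 328) (nat_lit 258)) (XT.lf (nat_lit 0) (nat_lit 2703190676) (nat_lit 672) (nat_lit 2219668477) (nat_lit 84) (nat_lit 5810900569) (nat_lit 125) (nat_lit 5) (nat_lit 133) (nat_lit 5) (nat_lit 126) (nat_lit 5) (nat_lit 360) (nat_lit 328) (nat_lit 257)))) (XT.nd (nat_lit 188) (nat_lit 504) (nat_lit 0) (XT.nd (nat_lit 94) (nat_lit 0) (nat_lit 0) (XT.lf (nat_lit 0) (nat_lit 3212004453) (nat_lit 504) (nat_lit 1332736189) (nat_lit 588) (nat_lit 6366099226) (nat_lit 119) (nat_lit 5) (nat_lit 125) (nat_lit 5) (nat_lit 126) (nat_lit 5) (nat_lit 361) (nat_lit 328) (nat_lit 256)) (XT.lf (nat_lit 0) (nat_lit 6459339725) (nat_lit 588) (nat_lit 2294038880) (nat_lit 84) (nat_lit 2339366138) (nat_lit 119) (nat_lit 5) (nat_lit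 126) (nat_lit 5) (nat_lit 120) (nat_lit 5) (nat_lit 362) (nat_lit 328) (nat_lit 255))) (XT.nd (nat_lit 94) (nat_lit 0) (nat_lit 0) (XT.lf (nat_lit 0) (nat_lit 3294230316) (nat_lit 504) (nat_lit 5155242687) (nat_lit 588) (nat_lit 2830135929) (nat_lit 113) (nat_lit 5) (nat_lit 119) (nat_lit 5) (nat_lit 120) (nat_lit 5) (nat_lit 363) (nat_lit 328) (nat_lit 254)) (XT.lf (nat_lit 0) (nat_lit 9067706758) (nat_lit 504) (nat_lit 1428499799) (nat_lit 588) (nat_lit 976009340) (nat_lit 113) (nat_lit 5) (nat_lit 119) (nat_lit 5) (nat_lit 120) (nat_lit 5) (nat_lit 364) (nat_lit 328) (nat_lit 253)))))) (XT.nd (nat_lit 752) (nat_lit 1512) (nat_lit 0) (XT.nd (nat_lit 376) (nat_lit 924) (nat_lit 0) (XT.nd (nat_lit 188) (nat_lit 504) (nat_lit 0) (XT.nd (nat_lit 94) (nat_lit 0) (nat_lit 0) (XT.lf (nat_lit 0) (nat_lit 945674884) (nat_lit 504) (nat_lit 8322282142) (nat_lit 84) (nat_lit 2401511370) (nat_lit 107) (nat_lit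 5) (nat_lit 113) (nat_lit 5) (nat_lit 108) (nat_lit 5) (nat_lit 365) (nat_lit 328) (nat_lit 252)) (XT.lf (nat_lit 0) (nat_lit 2918699223) (nat_lit 504) (nat_lit 2604877370) (nat_lit 84) (nat_lit 6348412807) (nat_lit 107) (nat_lit 5) (nat_lit 113) (nat_lit 5) (nat_lit 108) (nat_lit 5) (nat_lit 366) (nat_lit 328) (nat_lit 251))) (XT.nd (nat_lit 94) (nat_lit 0) (nat_lit 0) (XT.lf (nat_lit 0) (nat_lit 3320056689) (nat_lit 504) (nat_lit 1638152228) (nat_lit 588) (nat_lit 7122197143) (nat_lit 101) (nat_lit 5) (nat_lit 107) (nat_lit 5) (nat_lit 108) (nat_lit 5) (nat_lit 367) (nat_lit 328) (nat_lit 250)) (XT.lf (nat_lit 0) (nat_lit 7083972950) (nat_lit 588) (nat_lit 2870351425) (nat_lit 84) (nat_lit 2340036503) (nat_lit 101) (nat_lit 5) (nat_lit 108) (nat_lit 5) (nat_lit 102) (nat_lit 5) (nat_lit 368) (nat_lit 328) (nat_lit 249)))) (XT.nd (nat_lit 188) (nat_lit 504) (nat_lit 0) (XT.nd (nat_lit 94) (nat_lit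 0) (nat_lit 0) (XT.lf (nat_lit 0) (nat_lit 3214485881) (nat_lit 420) (nat_lit 6082630170) (nat_lit 504) (nat_lit 3216946737) (nat_lit 96) (nat_lit 5) (nat_lit 101) (nat_lit 5) (nat_lit 102) (nat_lit 5) (nat_lit 369) (nat_lit 328) (nat_lit 248)) (XT.lf (nat_lit 0) (nat_lit 9512618363) (nat_lit 420) (nat_lit 2069922044) (nat_lit 504) (nat_lit 1157674304) (nat_lit 96) (nat_lit 5) (nat_lit 101) (nat_lit 5) (nat_lit 102) (nat_lit 5) (nat_lit 370) (nat_lit 328) (nat_lit 247))) (XT.nd (nat_lit 94) (nat_lit 0) (nat_lit 0) (XT.lf (nat_lit 0) (nat_lit 971370876) (nat_lit 504) (nat_lit 9943849187) (nat_lit 84) (nat_lit 2056883030) (nat_lit 90) (nat_lit 5) (nat_lit 96) (nat_lit 5) (nat_lit 91) (nat_lit 5) (nat_lit 371) (nat_lit 328) (nat_lit 246)) (XT.lf (nat_lit 0) (nat_lit 3172094025) (nat_lit 504) (nat_lit 3732442329) (nat_lit 84) (nat_lit 6305168213) (nat_lit 90) (nat_lit 5) (nat_lit 96) (nat_lit 5) (nat_lit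 91) (nat_lit 5) (nat_lit 372) (nat_lit 328) (nat_lit 245))))) (XT.nd (nat_lit 376) (nat_lit 756) (nat_lit 0) (XT.nd (nat_lit 188) (nat_lit 420) (nat_lit 0) (XT.nd (nat_lit 94) (nat_lit 0) (nat_lit 0) (XT.lf (nat_lit 0) (nat_lit 2690492289) (nat_lit 336) (nat_lit 2752525113) (nat_lit 420) (nat_lit 8011322927) (nat_lit 86) (nat_lit 5) (nat_lit 90) (nat_lit 5) (nat_lit 91) (nat_lit 5) (nat_lit 373) (nat_lit 328) (nat_lit 244)) (XT.lf (nat_lit 0) (nat_lit 7813414390) (nat_lit 420) (nat_lit 4365244099) (nat_lit 84) (nat_lit 1526746976) (nat_lit 86) (nat_lit 5) (nat_lit 91) (nat_lit 5) (nat_lit 87) (nat_lit 5) (nat_lit 374) (nat_lit 328) (nat_lit 243))) (XT.nd (nat_lit 94) (nat_lit 0) (nat_lit 0) (XT.lf (nat_lit 0) (nat_lit 2214419484) (nat_lit 420) (nat_lit 8068297560) (nat_lit 504) (nat_lit 3680481483) (nat_lit 81) (nat_lit 5) (nat_lit 86) (nat_lit 5) (nat_lit 87) (nat_lit 5) (nat_lit 375) (nat_lit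 328) (nat_lit 242)) (XT.lf (nat_lit 0) (nat_lit 9054362453) (nat_lit 420) (nat_lit 3795420008) (nat_lit 504) (nat_lit 1378261325) (nat_lit 81) (nat_lit 5) (nat_lit 86) (nat_lit 5) (nat_lit 87) (nat_lit 5) (nat_lit 376) (nat_lit 328) (nat_lit 241)))) (XT.nd (nat_lit 188) (nat_lit 336) (nat_lit 0) (XT.nd (nat_lit 94) (nat_lit 0) (nat_lit 0) (XT.lf (nat_lit 0) (nat_lit 974952294) (nat_lit 420) (nat_lit 12912741573) (nat_lit 84) (nat_lit 612842297) (nat_lit 76) (nat_lit 5) (nat_lit 81) (nat_lit 5) (nat_lit 77) (nat_lit 5) (nat_lit 377) (nat_lit 328) (nat_lit 240)) (XT.lf (nat_lit 0) (nat_lit 3441647088) (nat_lit 420) (nat_lit 6199752059) (nat_lit 84) (nat_lit 5137303653) (nat_lit 76) (nat_lit 5) (nat_lit 81) (nat_lit 5) (nat_lit 77) (nat_lit 5) (nat_lit 378) (nat_lit 328) (nat_lit 239))) (XT.nd (nat_lit 94) (nat_lit 0) (nat_lit 0) (XT.lf (nat_lit 0) (nat_lit 702565439) (nat_lit 336) (nat_lit 5267352844)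 (nat_lit 420) (nat_lit 9095694576) (nat_lit 72) (nat_lit 5) (nat_lit 76) (nat_lit 5) (nat_lit 77) (nat_lit 5) (nat_lit 379) (nat_lit 328) (nat_lit 238)) (XT.lf (nat_lit 0) (nat_lit 7913522678) (nat_lit 336) (nat_lit 704255625) (nat_lit 420) (nat_lit 6742064641) (nat_lit 72) (nat_lit 5) (nat_lit 76) (nat_lit 5) (nat_lit 77) (nat_lit 5) (nat_lit 380) (nat_lit 328) (nat_lit 237))))))) (XT.nd (nat_lit 55178) (nat_lit 0) (nat_lit 8316) (XT.nd (nat_lit 54426) (nat_lit 0) (nat_lit 13692) (XT.nd (nat_lit 376) (nat_lit 588) (nat_lit 0) (XT.nd (nat_lit 188) (nat_lit 420) (nat_lit 0) (XT.nd (nat_lit 94) (nat_lit 336) (nat_lit 0) (XT.lf (nat_lit 0) (nat_lit 11365106276) (nat_lit 420) (nat_lit 385787681) (nat_lit 84) (nat_lit 3911429229) (nat_lit 72) (nat_lit 5) (nat_lit 77) (nat_lit 5) (nat_lit 73) (nat_lit 5) (nat_lit 381) (nat_lit 328) (nat_lit 236)) (XT.lf (nat_lit 0) (nat_lit 6991466319) (nat_lit 336)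 (nat_lit 7259724813) (nat_lit 420) (nat_lit 1721020103) (nat_lit 68) (nat_lit 5) (nat_lit 72) (nat_lit 5) (nat_lit 73) (nat_lit 5) (nat_lit 382) (nat_lit 328) (nat_lit 235))) (XT.nd (nat_lit 94) (nat_lit 336) (nat_lit 0) (XT.lf (nat_lit 0) (nat_lit 900448928) (nat_lit 420) (nat_lit 1727020020) (nat_lit 84) (nat_lit 13664094778) (nat_lit 67) (nat_lit 5) (nat_lit 72) (nat_lit 5) (nat_lit 68) (nat_lit 5) (nat_lit 383) (nat_lit 328) (nat_lit 234)) (XT.lf (nat_lit 0) (nat_lit 3625915551) (nat_lit 420) (nat_lit 10823293759) (nat_lit 84) (nat_lit 2168999475) (nat_lit 63) (nat_lit 5) (nat_lit 68) (nat_lit 5) (nat_lit 64) (nat_lit 5) (nat_lit 384) (nat_lit 328) (nat_lit 233)))) (XT.nd (nat_lit 188) (nat_lit 336) (nat_lit 0) (XT.nd (nat_lit 94) (nat_lit 252) (nat_lit 0) (XT.lf (nat_lit 0) (nat_lit 6459746510) (nat_lit 420) (nat_lit 3426602787) (nat_lit 84) (nat_lit 7067526780) (nat_lit 63) (nat_lit 5) (nat_lit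 68) (nat_lit 5) (nat_lit 64) (nat_lit 5) (nat_lit 385) (nat_lit 328) (nat_lit 232)) (XT.lf (nat_lit 0) (nat_lit 4251459022) (nat_lit 252) (nat_lit 5151470523) (nat_lit 336) (nat_lit 7895974009) (nat_lit 60) (nat_lit 5) (nat_lit 63) (nat_lit 5) (nat_lit 64) (nat_lit 5) (nat_lit 386) (nat_lit 328) (nat_lit 231))) (XT.nd (nat_lit 94) (nat_lit 336) (nat_lit 0) (XT.lf (nat_lit 0) (nat_lit 12206843818) (nat_lit 252) (nat_lit 245893618) (nat_lit 336) (nat_lit 5201014229) (nat_lit 60) (nat_lit 5) (nat_lit 63) (nat_lit 5) (nat_lit 64) (nat_lit 5) (nat_lit 387) (nat_lit 328) (nat_lit 230)) (XT.lf (nat_lit 0) (nat_lit 2358449163) (nat_lit 336) (nat_lit 13288603783) (nat_lit 420) (nat_lit 2370620991) (nat_lit 56) (nat_lit 5) (nat_lit 60) (nat_lit 5) (nat_lit 61) (nat_lit 5) (nat_lit 388) (nat_lit 328) (nat_lit 229))))) (XT.nd (nat_lit 376) (nat_lit 756) (nat_lit 0) (XT.nd (nat_lit 188) (nat_lit 0) (nat_lit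 84) (XT.nd (nat_lit 94) (nat_lit 924) (nat_lit 0) (XT.lf (nat_lit 0) (nat_lit 1654433623) (nat_lit 0) (nat_lit 1654433623) (nat_lit 756) (nat_lit 342092800) (nat_lit 239) (nat_lit 5) (nat_lit 239) (nat_lit 3) (nat_lit 248) (nat_lit 3) (nat_lit 329) (nat_lit 329) (nat_lit 287)) (XT.lf (nat_lit 0) (nat_lit 773341530) (nat_lit 924) (nat_lit 769120894) (nat_lit 924) (nat_lit 5822213854) (nat_lit 228) (nat_lit 3) (nat_lit 239) (nat_lit 3) (nat_lit 239) (nat_lit 5) (nat_lit 330) (nat_lit 329) (nat_lit 286))) (XT.nd (nat_lit 94) (nat_lit 0) (nat_lit 0) (XT.lf (nat_lit 0) (nat_lit 2231986810) (nat_lit 840) (nat_lit 4867919115) (nat_lit 924) (nat_lit 330202256) (nat_lit 229) (nat_lit 5) (nat_lit 239) (nat_lit 5) (nat_lit 240) (nat_lit 5) (nat_lit 331) (nat_lit 329) (nat_lit 285)) (XT.lf (nat_lit 0) (nat_lit 3702379736) (nat_lit 840) (nat_lit 1534462857) (nat_lit 924) (nat_lit 2261747572) (nat_lit 229) (nat_lit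 5) (nat_lit 239) (nat_lit 5) (nat_lit 240) (nat_lit 5) (nat_lit 332) (nat_lit 329) (nat_lit 284)))) (XT.nd (nat_lit 188) (nat_lit 840) (nat_lit 0) (XT.nd (nat_lit 94) (nat_lit 0) (nat_lit 0) (XT.lf (nat_lit 84) (nat_lit 1906046691) (nat_lit 0) (nat_lit 3275638364) (nat_lit 924) (nat_lit 2388620615) (nat_lit 230) (nat_lit 5) (nat_lit 229) (nat_lit 5) (nat_lit 240) (nat_lit 5) (nat_lit 333) (nat_lit 329) (nat_lit 283)) (XT.lf (nat_lit 84) (nat_lit 5451377808) (nat_lit 0) (nat_lit 1217237262) (nat_lit 924) (nat_lit 976779696) (nat_lit 230) (nat_lit 5) (nat_lit 229) (nat_lit 5) (nat_lit 240) (nat_lit 5) (nat_lit 334) (nat_lit 329) (nat_lit 282))) (XT.nd (nat_lit 94) (nat_lit 0) (nat_lit 0) (XT.lf (nat_lit 0) (nat_lit 439008589) (nat_lit 924) (nat_lit 6360505575) (nat_lit 1008) (nat_lit 924070082) (nat_lit 219) (nat_lit 5) (nat_lit 230) (nat_lit 5) (nat_lit 231) (nat_lit 5) (nat_lit 335) (nat_lit 329)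 (nat_lit 281)) (XT.lf (nat_lit 0) (nat_lit 1862125106) (nat_lit 924) (nat_lit 2785161941) (nat_lit 1008) (nat_lit 3157116978) (nat_lit 219) (nat_lit 5) (nat_lit 230) (nat_lit 5) (nat_lit 231) (nat_lit 5) (nat_lit 336) (nat_lit 329) (nat_lit 280)))))) (XT.nd (nat_lit 752) (nat_lit 4452) (nat_lit 0) (XT.nd (nat_lit 376) (nat_lit 924) (nat_lit 0) (XT.nd (nat_lit 188) (nat_lit 0) (nat_lit 84) (XT.nd (nat_lit 94) (nat_lit 0) (nat_lit 0) (XT.lf (nat_lit 84) (nat_lit 883985670) (nat_lit 0) (nat_lit 2403961814) (nat_lit 1008) (nat_lit 4601006710) (nat_lit 220) (nat_lit 5) (nat_lit 219) (nat_lit 5) (nat_lit 231) (nat_lit 5) (nat_lit 337) (nat_lit 329) (nat_lit 279)) (XT.lf (nat_lit 84) (nat_lit 4689895766) (nat_lit 0) (nat_lit 47408314) (nat_lit 1008) (nat_lit 3239417080) (nat_lit 220) (nat_lit 5) (nat_lit 219) (nat_lit 5) (nat_lit 231) (nat_lit 5) (nat_lit 338) (nat_lit 329) (nat_lit 278))) (XT.nd (nat_lit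 94) (nat_lit 0) (nat_lit 0) (XT.lf (nat_lit 84) (nat_lit 498556797) (nat_lit 0) (nat_lit 5713426223) (nat_lit 1008) (nat_lit 1855782939) (nat_lit 221) (nat_lit 5) (nat_lit 220) (nat_lit 5) (nat_lit 232) (nat_lit 5) (nat_lit 339) (nat_lit 329) (nat_lit 277)) (XT.lf (nat_lit 84) (nat_lit 4433546512) (nat_lit 0) (nat_lit 3286222023) (nat_lit 1008) (nat_lit 442204740) (nat_lit 221) (nat_lit 5) (nat_lit 220) (nat_lit 5) (nat_lit 232) (nat_lit 5) (nat_lit 340) (nat_lit 329) (nat_lit 276)))) (XT.nd (nat_lit 188) (nat_lit 0) (nat_lit 84) (XT.nd (nat_lit 94) (nat_lit 0) (nat_lit 84) (XT.lf (nat_lit 84) (nat_lit 190633236) (nat_lit 0) (nat_lit 761189969) (nat_lit 1092) (nat_lit 7308248087) (nat_lit 209) (nat_lit 5) (nat_lit 208) (nat_lit 5) (nat_lit 221) (nat_lit 5) (nat_lit 341) (nat_lit 329) (nat_lit 275)) (XT.lf (nat_lit 0) (nat_lit 2391589091) (nat_lit 1008) (nat_lit 4110839280) (nat_lit 1092) (nat_lit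 1858257297) (nat_lit 209) (nat_lit 5) (nat_lit 221) (nat_lit 5) (nat_lit 222) (nat_lit 5) (nat_lit 342) (nat_lit 329) (nat_lit 274))) (XT.nd (nat_lit 94) (nat_lit 0) (nat_lit 0) (XT.lf (nat_lit 0) (nat_lit 3840433142) (nat_lit 1008) (nat_lit 72199971) (nat_lit 1092) (nat_lit 4552795131) (nat_lit 209) (nat_lit 5) (nat_lit 221) (nat_lit 5) (nat_lit 222) (nat_lit 5) (nat_lit 343) (nat_lit 329) (nat_lit 273)) (XT.lf (nat_lit 84) (nat_lit 4138074539) (nat_lit 0) (nat_lit 1194007479) (nat_lit 1092) (nat_lit 3241334706) (nat_lit 210) (nat_lit 5) (nat_lit 209) (nat_lit 5) (nat_lit 222) (nat_lit 5) (nat_lit 344) (nat_lit 329) (nat_lit 272))))) (XT.nd (nat_lit 376) (nat_lit 2436) (nat_lit 0) (XT.nd (nat_lit 188) (nat_lit 1176) (nat_lit 0) (XT.nd (nat_lit 94) (nat_lit 1008) (nat_lit 0) (XT.lf (nat_lit 0) (nat_lit 6845199695) (nat_lit 1008) (nat_lit 255268213) (nat_lit 84) (nat_lit 1584956739) (nat_lit 210)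 (nat_lit 5) (nat_lit 222) (nat_lit 5) (nat_lit 211) (nat_lit 5) (nat_lit 345) (nat_lit 329) (nat_lit 271)) (XT.lf (nat_lit 0) (nat_lit 4087729370) (nat_lit 1008) (nat_lit 4328789845) (nat_lit 1092) (nat_lit 383968343) (nat_lit 198) (nat_lit 5) (nat_lit 210) (nat_lit 5) (nat_lit 211) (nat_lit 5) (nat_lit 346) (nat_lit 329) (nat_lit 270))) (XT.nd (nat_lit 94) (nat_lit 1092) (nat_lit 0) (XT.lf (nat_lit 0) (nat_lit 1058875052) (nat_lit 1092) (nat_lit 394382466) (nat_lit 84) (nat_lit 7466557205) (nat_lit 197) (nat_lit 5) (nat_lit 210) (nat_lit 5) (nat_lit 198) (nat_lit 5) (nat_lit 347) (nat_lit 329) (nat_lit 269)) (XT.lf (nat_lit 0) (nat_lit 2554866267) (nat_lit 1176) (nat_lit 4957906241) (nat_lit 84) (nat_lit 1529380044) (nat_lit 184) (nat_lit 5) (nat_lit 198) (nat_lit 5) (nat_lit 185) (nat_lit 5) (nat_lit 348) (nat_lit 329) (nat_lit 268)))) (XT.nd (nat_lit 188) (nat_lit 1260) (nat_lit 0) (XT.nd (nat_lit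 94) (nat_lit 1176) (nat_lit 0) (XT.lf (nat_lit 0) (nat_lit 4078171885) (nat_lit 1176) (nat_lit 508120281) (nat_lit 84) (nat_lit 4582465500) (nat_lit 184) (nat_lit 5) (nat_lit 198) (nat_lit 5) (nat_lit 185) (nat_lit 5) (nat_lit 349) (nat_lit 329) (nat_lit 267)) (XT.lf (nat_lit 0) (nat_lit 4125597012) (nat_lit 1176) (nat_lit 1526309322) (nat_lit 1260) (nat_lit 3647180854) (nat_lit 170) (nat_lit 5) (nat_lit 184) (nat_lit 5) (nat_lit 185) (nat_lit 5) (nat_lit 350) (nat_lit 329) (nat_lit 266))) (XT.nd (nat_lit 94) (nat_lit 1260) (nat_lit 0) (XT.lf (nat_lit 0) (nat_lit 7259505240) (nat_lit 1260) (nat_lit 571014039) (nat_lit 84) (nat_lit 1603273907) (nat_lit 170) (nat_lit 5) (nat_lit 185) (nat_lit 5) (nat_lit 171) (nat_lit 5) (nat_lit 351) (nat_lit 329) (nat_lit 265)) (XT.lf (nat_lit 0) (nat_lit 4206501292) (nat_lit 1260) (nat_lit 4731218605) (nat_lit 1344) (nat_lit 634213066) (nat_lit 155) (nat_lit 5)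 (nat_lit 170) (nat_lit 5) (nat_lit 171) (nat_lit 5) (nat_lit 352) (nat_lit 329) (nat_lit 264))))))))
noncomputable def xc37 : XT := (XT.nd (nat_lit 2914) (nat_lit 672) (nat_lit 0) (XT.nd (nat_lit 1410) (nat_lit 3276) (nat_lit 0) (XT.nd (nat_lit 658) (nat_lit 2100) (nat_lit 0) (XT.nd (nat_lit 282) (nat_lit 1260) (nat_lit 0) (XT.nd (nat_lit 94) (nat_lit 588) (nat_lit 0) (XT.lf (nat_lit 0) (nat_lit 906446895) (nat_lit 1344) (nat_lit 614633039) (nat_lit 84) (nat_lit 8193734161) (nat_lit 154) (nat_lit 5) (nat_lit 170) (nat_lit 5) (nat_lit 155) (nat_lit 5) (nat_lit 353) (nat_lit 329) (nat_lit 263)) (XT.nd (nat_lit 94) (nat_lit 0) (nat_lit 0) (XT.lf (nat_lit 0) (nat_lit 2507930069) (nat_lit 672) (nat_lit 5551909680) (nat_lit 84) (nat_lit 1801191800) (nat_lit 147) (nat_lit 5) (nat_lit 155) (nat_lit 5) (nat_lit 148) (nat_lit 5) (nat_lit 354) (nat_lit 329) (nat_lit 262)) (XT.lf (nat_lit 0) (nat_lit 4147548312)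 (nat_lit 672) (nat_lit 663647864) (nat_lit 84) (nat_lit 5200793704) (nat_lit 147) (nat_lit 5) (nat_lit 155) (nat_lit 5) (nat_lit 148) (nat_lit 5) (nat_lit 355) (nat_lit 329) (nat_lit 261)))) (XT.nd (nat_lit 188) (nat_lit 672) (nat_lit 0) (XT.nd (nat_lit 94) (nat_lit 0) (nat_lit 0) (XT.lf (nat_lit 0) (nat_lit 4428289521) (nat_lit 588) (nat_lit 1420305178) (nat_lit 672) (nat_lit 4318570483) (nat_lit 140) (nat_lit 5) (nat_lit 147) (nat_lit 5) (nat_lit 148) (nat_lit 5) (nat_lit 356) (nat_lit 329) (nat_lit 260)) (XT.lf (nat_lit 0) (nat_lit 7597642564) (nat_lit 672) (nat_lit 690239865) (nat_lit 84) (nat_lit 2039258006) (nat_lit 140) (nat_lit 5) (nat_lit 148) (nat_lit 5) (nat_lit 141) (nat_lit 5) (nat_lit 357) (nat_lit 329) (nat_lit 259))) (XT.nd (nat_lit 94) (nat_lit 84) (nat_lit 0) (XT.lf (nat_lit 0) (nat_lit 4555514609) (nat_lit 588) (nat_lit 4872647506) (nat_lit 672) (nat_lit 1062935053) (nat_lit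 133) (nat_lit 5) (nat_lit 140) (nat_lit 5) (nat_lit 141) (nat_lit 5) (nat_lit 358) (nat_lit 329) (nat_lit 258)) (XT.lf (nat_lit 0) (nat_lit 619289467) (nat_lit 672) (nat_lit 722829871) (nat_lit 84) (nat_lit 9318361420) (nat_lit 132) (nat_lit 5) (nat_lit 140) (nat_lit 5) (nat_lit 133) (nat_lit 5) (nat_lit 359) (nat_lit 329) (nat_lit 257))))) (XT.nd (nat_lit 376) (nat_lit 1008) (nat_lit 0) (XT.nd (nat_lit 188) (nat_lit 504) (nat_lit 0) (XT.nd (nat_lit 94) (nat_lit 0) (nat_lit 0) (XT.lf (nat_lit 0) (nat_lit 2370596260) (nat_lit 672) (nat_lit 6157927654) (nat_lit 84) (nat_lit 2304954631) (nat_lit 125) (nat_lit 5) (nat_lit 133) (nat_lit 5) (nat_lit 126) (nat_lit 5) (nat_lit 360) (nat_lit 329) (nat_lit 256)) (XT.lf (nat_lit 0) (nat_lit 4167841810) (nat_lit 672) (nat_lit 803325713) (nat_lit 84) (nat_lit 6040743160) (nat_lit 125) (nat_lit 5) (nat_lit 133) (nat_lit 5) (nat_lit 126) (nat_lit 5) (nat_lit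 361) (nat_lit 329) (nat_lit 255))) (XT.nd (nat_lit 94) (nat_lit 0) (nat_lit 0) (XT.lf (nat_lit 0) (nat_lit 4776758848) (nat_lit 504) (nat_lit 1261696800) (nat_lit 588) (nat_lit 5156701661) (nat_lit 119) (nat_lit 5) (nat_lit 125) (nat_lit 5) (nat_lit 126) (nat_lit 5) (nat_lit 362) (nat_lit 329) (nat_lit 254)) (XT.lf (nat_lit 0) (nat_lit 7971993697) (nat_lit 588) (nat_lit 896515570) (nat_lit 84) (nat_lit 2515231633) (nat_lit 119) (nat_lit 5) (nat_lit 126) (nat_lit 5) (nat_lit 120) (nat_lit 5) (nat_lit 363) (nat_lit 329) (nat_lit 253)))) (XT.nd (nat_lit 188) (nat_lit 420) (nat_lit 0) (XT.nd (nat_lit 94) (nat_lit 84) (nat_lit 0) (XT.lf (nat_lit 0) (nat_lit 4845025776) (nat_lit 504) (nat_lit 5152348608) (nat_lit 588) (nat_lit 1579634987) (nat_lit 113) (nat_lit 5) (nat_lit 119) (nat_lit 5) (nat_lit 120) (nat_lit 5) (nat_lit 364) (nat_lit 329) (nat_lit 252)) (XT.lf (nat_lit 0) (nat_lit 285537353) (nat_lit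 588) (nat_lit 1029971587) (nat_lit 84) (nat_lit 10460995444) (nat_lit 112) (nat_lit 5) (nat_lit 119) (nat_lit 5) (nat_lit 113) (nat_lit 5) (nat_lit 365) (nat_lit 329) (nat_lit 251))) (XT.nd (nat_lit 94) (nat_lit 0) (nat_lit 0) (XT.lf (nat_lit 0) (nat_lit 2223590501) (nat_lit 504) (nat_lit 7111304039) (nat_lit 84) (nat_lit 2645199129) (nat_lit 107) (nat_lit 5) (nat_lit 113) (nat_lit 5) (nat_lit 108) (nat_lit 5) (nat_lit 366) (nat_lit 329) (nat_lit 250)) (XT.lf (nat_lit 0) (nat_lit 4219411045) (nat_lit 504) (nat_lit 1264920228) (nat_lit 84) (nat_lit 6705508315) (nat_lit 107) (nat_lit 5) (nat_lit 113) (nat_lit 5) (nat_lit 108) (nat_lit 5) (nat_lit 367) (nat_lit 329) (nat_lit 249)))))) (XT.nd (nat_lit 752) (nat_lit 1512) (nat_lit 0) (XT.nd (nat_lit 376) (nat_lit 840) (nat_lit 0) (XT.nd (nat_lit 188) (nat_lit 420) (nat_lit 0) (XT.nd (nat_lit 94) (nat_lit 0) (nat_lit 0) (XT.lf (nat_lit 0) (nat_lit 4823858878)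 (nat_lit 504) (nat_lit 1474410696) (nat_lit 588) (nat_lit 6106950044) (nat_lit 101) (nat_lit 5) (nat_lit 107) (nat_lit 5) (nat_lit 108) (nat_lit 5) (nat_lit 368) (nat_lit 329) (nat_lit 248)) (XT.lf (nat_lit 0) (nat_lit 8455094838) (nat_lit 588) (nat_lit 1558643792) (nat_lit 84) (nat_lit 2612889952) (nat_lit 101) (nat_lit 5) (nat_lit 108) (nat_lit 5) (nat_lit 102) (nat_lit 5) (nat_lit 369) (nat_lit 329) (nat_lit 247))) (XT.nd (nat_lit 94) (nat_lit 0) (nat_lit 0) (XT.lf (nat_lit 0) (nat_lit 4695034533) (nat_lit 420) (nat_lit 6019156941) (nat_lit 504) (nat_lit 2139395873) (nat_lit 96) (nat_lit 5) (nat_lit 101) (nat_lit 5) (nat_lit 102) (nat_lit 5) (nat_lit 370) (nat_lit 329) (nat_lit 246)) (XT.lf (nat_lit 0) (nat_lit 11141796987) (nat_lit 420) (nat_lit 1893231225) (nat_lit 504) (nat_lit 52541168) (nat_lit 96) (nat_lit 5) (nat_lit 101) (nat_lit 5) (nat_lit 102) (nat_lit 5) (nat_lit 371) (nat_lit 329)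 (nat_lit 245)))) (XT.nd (nat_lit 188) (nat_lit 336) (nat_lit 0) (XT.nd (nat_lit 94) (nat_lit 0) (nat_lit 0) (XT.lf (nat_lit 0) (nat_lit 2101061443) (nat_lit 504) (nat_lit 8855795042) (nat_lit 84) (nat_lit 2369789461) (nat_lit 90) (nat_lit 5) (nat_lit 96) (nat_lit 5) (nat_lit 91) (nat_lit 5) (nat_lit 372) (nat_lit 329) (nat_lit 244)) (XT.lf (nat_lit 0) (nat_lit 4335751449) (nat_lit 504) (nat_lit 2498425676) (nat_lit 84) (nat_lit 6738206696) (nat_lit 90) (nat_lit 5) (nat_lit 96) (nat_lit 5) (nat_lit 91) (nat_lit 5) (nat_lit 373) (nat_lit 329) (nat_lit 243))) (XT.nd (nat_lit 94) (nat_lit 0) (nat_lit 0) (XT.lf (nat_lit 0) (nat_lit 4104001001) (nat_lit 336) (nat_lit 2552491955) (nat_lit 420) (nat_lit 7168460338) (nat_lit 86) (nat_lit 5) (nat_lit 90) (nat_lit 5) (nat_lit 91) (nat_lit 5) (nat_lit 374) (nat_lit 329) (nat_lit 242)) (XT.lf (nat_lit 0) (nat_lit 9070051425) (nat_lit 420) (nat_lit 3172808628)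 (nat_lit 84) (nat_lit 1841572874) (nat_lit 86) (nat_lit 5) (nat_lit 91) (nat_lit 5) (nat_lit 87) (nat_lit 5) (nat_lit 375) (nat_lit 329) (nat_lit 241))))) (XT.nd (nat_lit 376) (nat_lit 672) (nat_lit 0) (XT.nd (nat_lit 188) (nat_lit 420) (nat_lit 0) (XT.nd (nat_lit 94) (nat_lit 0) (nat_lit 0) (XT.lf (nat_lit 0) (nat_lit 3591270423) (nat_lit 420) (nat_lit 8004985455) (nat_lit 504) (nat_lit 2754261969) (nat_lit 81) (nat_lit 5) (nat_lit 86) (nat_lit 5) (nat_lit 87) (nat_lit 5) (nat_lit 376) (nat_lit 329) (nat_lit 240)) (XT.lf (nat_lit 0) (nat_lit 10598244157) (nat_lit 420) (nat_lit 3612815588) (nat_lit 504) (nat_lit 413168429) (nat_lit 81) (nat_lit 5) (nat_lit 86) (nat_lit 5) (nat_lit 87) (nat_lit 5) (nat_lit 377) (nat_lit 329) (nat_lit 239))) (XT.nd (nat_lit 94) (nat_lit 0) (nat_lit 0) (XT.lf (nat_lit 0) (nat_lit 1977551690) (nat_lit 420) (nat_lit 11992135961) (nat_lit 84) (nat_lit 935360074) (nat_lit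 76) (nat_lit 5) (nat_lit 81) (nat_lit 5) (nat_lit 77) (nat_lit 5) (nat_lit 378) (nat_lit 329) (nat_lit 238)) (XT.lf (nat_lit 0) (nat_lit 4489897303) (nat_lit 420) (nat_lit 5115853495) (nat_lit 84) (nat_lit 5586697042) (nat_lit 76) (nat_lit 5) (nat_lit 81) (nat_lit 5) (nat_lit 77) (nat_lit 5) (nat_lit 379) (nat_lit 329) (nat_lit 237)))) (XT.nd (nat_lit 188) (nat_lit 336) (nat_lit 0) (XT.nd (nat_lit 94) (nat_lit 0) (nat_lit 0) (XT.lf (nat_lit 0) (nat_lit 1981083615) (nat_lit 336) (nat_lit 5097496019) (nat_lit 420) (nat_lit 8409885553) (nat_lit 72) (nat_lit 5) (nat_lit 76) (nat_lit 5) (nat_lit 77) (nat_lit 5) (nat_lit 380) (nat_lit 329) (nat_lit 236)) (XT.lf (nat_lit 0) (nat_lit 9371745070) (nat_lit 336) (nat_lit 407055711) (nat_lit 420) (nat_lit 6013569434) (nat_lit 72) (nat_lit 5) (nat_lit 76) (nat_lit 5) (nat_lit 77) (nat_lit 5) (nat_lit 381) (nat_lit 329) (nat_lit 235))) (XT.nd (nat_lit 94) (nat_lit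 0) (nat_lit 0) (XT.lf (nat_lit 0) (nat_lit 828539260) (nat_lit 336) (nat_lit 11764658501) (nat_lit 420) (nat_lit 3511222384) (nat_lit 68) (nat_lit 5) (nat_lit 72) (nat_lit 5) (nat_lit 73) (nat_lit 5) (nat_lit 382) (nat_lit 329) (nat_lit 234)) (XT.lf (nat_lit 0) (nat_lit 8399082970) (nat_lit 336) (nat_lit 7144725446) (nat_lit 420) (nat_lit 880491867) (nat_lit 68) (nat_lit 5) (nat_lit 72) (nat_lit 5) (nat_lit 73) (nat_lit 5) (nat_lit 383) (nat_lit 329) (nat_lit 233))))))) (XT.nd (nat_lit 55272) (nat_lit 0) (nat_lit 6720) (XT.nd (nat_lit 54520) (nat_lit 0) (nat_lit 12432) (XT.nd (nat_lit 376) (nat_lit 0) (nat_lit 0) (XT.nd (nat_lit 188) (nat_lit 252) (nat_lit 0) (XT.nd (nat_lit 94) (nat_lit 336) (nat_lit 0) (XT.lf (nat_lit 0) (nat_lit 1776733858) (nat_lit 420) (nat_lit 597885016) (nat_lit 84) (nat_lit 14379153348) (nat_lit 67) (nat_lit 5) (nat_lit 72) (nat_lit 5) (nat_lit 68) (nat_lit 5) (nat_lit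 384) (nat_lit 329) (nat_lit 232)) (XT.lf (nat_lit 0) (nat_lit 4573675782) (nat_lit 420) (nat_lit 9955728880) (nat_lit 84) (nat_lit 2561151514) (nat_lit 63) (nat_lit 5) (nat_lit 68) (nat_lit 5) (nat_lit 64) (nat_lit 5) (nat_lit 385) (nat_lit 329) (nat_lit 231))) (XT.nd (nat_lit 94) (nat_lit 252) (nat_lit 0) (XT.lf (nat_lit 0) (nat_lit 7468085279) (nat_lit 420) (nat_lit 2371863305) (nat_lit 84) (nat_lit 7597107976) (nat_lit 63) (nat_lit 5) (nat_lit 68) (nat_lit 5) (nat_lit 64) (nat_lit 5) (nat_lit 386) (nat_lit 329) (nat_lit 230)) (XT.lf (nat_lit 0) (nat_lit 5525191950) (nat_lit 252) (nat_lit 4961665075) (nat_lit 336) (nat_lit 7305988149) (nat_lit 60) (nat_lit 5) (nat_lit 63) (nat_lit 5) (nat_lit 64) (nat_lit 5) (nat_lit 387) (nat_lit 329) (nat_lit 229)))) (XT.nd (nat_lit 53956) (nat_lit 0) (nat_lit 14112) (XT.nd (nat_lit 53862) (nat_lit 0) (nat_lit 14112) (XT.lf (nat_lit 0) (nat_lit 13605583700)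 (nat_lit 336) (nat_lit 4473992585) (nat_lit 84) (nat_lit 79467969) (nat_lit 60) (nat_lit 5) (nat_lit 64) (nat_lit 5) (nat_lit 61) (nat_lit 5) (nat_lit 388) (nat_lit 329) (nat_lit 228)) (XT.lf (nat_lit 0) (nat_lit 1094779836) (nat_lit 924) (nat_lit 1309644636) (nat_lit 924) (nat_lit 1309644636) (nat_lit 228) (nat_lit 3) (nat_lit 239) (nat_lit 3) (nat_lit 239) (nat_lit 5) (nat_lit 330) (nat_lit 330) (nat_lit 285))) (XT.nd (nat_lit 94) (nat_lit 0) (nat_lit 0) (XT.lf (nat_lit 84) (nat_lit 664244015) (nat_lit 0) (nat_lit 2935303646) (nat_lit 924) (nat_lit 3895544629) (nat_lit 229) (nat_lit 5) (nat_lit 228) (nat_lit 3) (nat_lit 239) (nat_lit 5) (nat_lit 331) (nat_lit 330) (nat_lit 284)) (XT.lf (nat_lit 84) (nat_lit 4071814177) (nat_lit 0) (nat_lit 952703180) (nat_lit 924) (nat_lit 2540480244) (nat_lit 229) (nat_lit 5) (nat_lit 228) (nat_lit 3) (nat_lit 239) (nat_lit 5) (nat_lit 332) (nat_lit 330) (nat_lit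 283))))) (XT.nd (nat_lit 376) (nat_lit 840) (nat_lit 0) (XT.nd (nat_lit 188) (nat_lit 0) (nat_lit 0) (XT.nd (nat_lit 94) (nat_lit 924) (nat_lit 0) (XT.lf (nat_lit 0) (nat_lit 6450745281) (nat_lit 840) (nat_lit 95126617) (nat_lit 924) (nat_lit 1092492393) (nat_lit 229) (nat_lit 5) (nat_lit 239) (nat_lit 5) (nat_lit 240) (nat_lit 5) (nat_lit 333) (nat_lit 330) (nat_lit 282)) (XT.lf (nat_lit 0) (nat_lit 193612220) (nat_lit 924) (nat_lit 4282150580) (nat_lit 1008) (nat_lit 3238468441) (nat_lit 218) (nat_lit 5) (nat_lit 229) (nat_lit 5) (nat_lit 230) (nat_lit 5) (nat_lit 334) (nat_lit 330) (nat_lit 281))) (XT.nd (nat_lit 94) (nat_lit 0) (nat_lit 0) (XT.lf (nat_lit 0) (nat_lit 1543532270) (nat_lit 924) (nat_lit 766296033) (nat_lit 1008) (nat_lit 5483768837) (nat_lit 218) (nat_lit 5) (nat_lit 229) (nat_lit 5) (nat_lit 230) (nat_lit 5) (nat_lit 335) (nat_lit 330) (nat_lit 280)) (XT.lf (nat_lit 84) (nat_lit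 2882904866) (nat_lit 0) (nat_lit 30360938) (nat_lit 1008) (nat_lit 4962804904) (nat_lit 219) (nat_lit 5) (nat_lit 218) (nat_lit 5) (nat_lit 230) (nat_lit 5) (nat_lit 336) (nat_lit 330) (nat_lit 279)))) (XT.nd (nat_lit 188) (nat_lit 924) (nat_lit 0) (XT.nd (nat_lit 94) (nat_lit 0) (nat_lit 0) (XT.lf (nat_lit 0) (nat_lit 4307110325) (nat_lit 924) (nat_lit 1355661704) (nat_lit 1008) (nat_lit 2298858961) (nat_lit 219) (nat_lit 5) (nat_lit 230) (nat_lit 5) (nat_lit 231) (nat_lit 5) (nat_lit 337) (nat_lit 330) (nat_lit 278)) (XT.lf (nat_lit 84) (nat_lit 2408726462) (nat_lit 0) (nat_lit 3311796670) (nat_lit 1008) (nat_lit 2330002435) (nat_lit 220) (nat_lit 5) (nat_lit 219) (nat_lit 5) (nat_lit 231) (nat_lit 5) (nat_lit 338) (nat_lit 330) (nat_lit 277))) (XT.nd (nat_lit 94) (nat_lit 924) (nat_lit 0) (XT.lf (nat_lit 84) (nat_lit 6285176348) (nat_lit 0) (nat_lit 860205322) (nat_lit 1008) (nat_lit 997731169)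 (nat_lit 220) (nat_lit 5) (nat_lit 219) (nat_lit 5) (nat_lit 231) (nat_lit 5) (nat_lit 339) (nat_lit 330) (nat_lit 276)) (XT.lf (nat_lit 0) (nat_lit 359389521) (nat_lit 1008) (nat_lit 6208570061) (nat_lit 1092) (nat_lit 1670736052) (nat_lit 208) (nat_lit 5) (nat_lit 220) (nat_lit 5) (nat_lit 221) (nat_lit 5) (nat_lit 340) (nat_lit 330) (nat_lit 275)))))) (XT.nd (nat_lit 752) (nat_lit 3696) (nat_lit 0) (XT.nd (nat_lit 376) (nat_lit 2016) (nat_lit 0) (XT.nd (nat_lit 188) (nat_lit 0) (nat_lit 84) (XT.nd (nat_lit 94) (nat_lit 0) (nat_lit 0) (XT.lf (nat_lit 0) (nat_lit 1721908789) (nat_lit 1008) (nat_lit 2312268984) (nat_lit 1092) (nat_lit 4303218547) (nat_lit 208) (nat_lit 5) (nat_lit 220) (nat_lit 5) (nat_lit 221) (nat_lit 5) (nat_lit 341) (nat_lit 330) (nat_lit 274)) (XT.lf (nat_lit 84) (nat_lit 1705046980) (nat_lit 0) (nat_lit 1395165259) (nat_lit 1092) (nat_lit 5339684855) (nat_lit 209) (nat_lit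 5) (nat_lit 208) (nat_lit 5) (nat_lit 221) (nat_lit 5) (nat_lit 342) (nat_lit 330) (nat_lit 273))) (XT.nd (nat_lit 94) (nat_lit 0) (nat_lit 0) (XT.lf (nat_lit 0) (nat_lit 4515724812) (nat_lit 1008) (nat_lit 2697712292) (nat_lit 1092) (nat_lit 1332243797) (nat_lit 209) (nat_lit 5) (nat_lit 221) (nat_lit 5) (nat_lit 222) (nat_lit 5) (nat_lit 343) (nat_lit 330) (nat_lit 272)) (XT.lf (nat_lit 84) (nat_lit 1445542910) (nat_lit 0) (nat_lit 4516608423) (nat_lit 1092) (nat_lit 2692914800) (nat_lit 210) (nat_lit 5) (nat_lit 209) (nat_lit 5) (nat_lit 222) (nat_lit 5) (nat_lit 344) (nat_lit 330) (nat_lit 271)))) (XT.nd (nat_lit 188) (nat_lit 1092) (nat_lit 0) (XT.nd (nat_lit 94) (nat_lit 1008) (nat_lit 0) (XT.lf (nat_lit 84) (nat_lit 5739293387) (nat_lit 0) (nat_lit 1701522233) (nat_lit 1092) (nat_lit 1327330954) (nat_lit 210) (nat_lit 5) (nat_lit 209) (nat_lit 5) (nat_lit 222) (nat_lit 5) (nat_lit 345) (nat_lit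 330) (nat_lit 270)) (XT.lf (nat_lit 0) (nat_lit 63909077) (nat_lit 1092) (nat_lit 7624942969) (nat_lit 84) (nat_lit 1196231965) (nat_lit 197) (nat_lit 5) (nat_lit 210) (nat_lit 5) (nat_lit 198) (nat_lit 5) (nat_lit 346) (nat_lit 330) (nat_lit 269))) (XT.nd (nat_lit 94) (nat_lit 1092) (nat_lit 0) (XT.lf (nat_lit 0) (nat_lit 1481120581) (nat_lit 1092) (nat_lit 3325062387) (nat_lit 84) (nat_lit 4198697272) (nat_lit 197) (nat_lit 5) (nat_lit 210) (nat_lit 5) (nat_lit 198) (nat_lit 5) (nat_lit 347) (nat_lit 330) (nat_lit 268)) (XT.lf (nat_lit 0) (nat_lit 1096024791) (nat_lit 1092) (nat_lit 1819609058) (nat_lit 1176) (nat_lit 6213463135) (nat_lit 184) (nat_lit 5) (nat_lit 197) (nat_lit 5) (nat_lit 198) (nat_lit 5) (nat_lit 348) (nat_lit 330) (nat_lit 267))))) (XT.nd (nat_lit 376) (nat_lit 1260) (nat_lit 0) (XT.nd (nat_lit 188) (nat_lit 1260) (nat_lit 0) (XT.nd (nat_lit 94) (nat_lit 1176) (nat_lit 0)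 (XT.lf (nat_lit 0) (nat_lit 4404242312) (nat_lit 1176) (nat_lit 3580606616) (nat_lit 84) (nat_lit 1271927654) (nat_lit 184) (nat_lit 5) (nat_lit 198) (nat_lit 5) (nat_lit 185) (nat_lit 5) (nat_lit 349) (nat_lit 330) (nat_lit 266)) (XT.lf (nat_lit 0) (nat_lit 977295809) (nat_lit 1176) (nat_lit 4953712740) (nat_lit 1260) (nat_lit 3457539194) (nat_lit 170) (nat_lit 5) (nat_lit 184) (nat_lit 5) (nat_lit 185) (nat_lit 5) (nat_lit 350) (nat_lit 330) (nat_lit 265))) (XT.nd (nat_lit 94) (nat_lit 1260) (nat_lit 0) (XT.lf (nat_lit 0) (nat_lit 5716428677) (nat_lit 1176) (nat_lit 1790105262) (nat_lit 1260) (nat_lit 2017713649) (nat_lit 170) (nat_lit 5) (nat_lit 184) (nat_lit 5) (nat_lit 185) (nat_lit 5) (nat_lit 351) (nat_lit 330) (nat_lit 264)) (XT.lf (nat_lit 0) (nat_lit 908190802) (nat_lit 1260) (nat_lit 8211785797) (nat_lit 1344) (nat_lit 544384646) (nat_lit 155) (nat_lit 5) (nat_lit 170) (nat_lit 5) (nat_lit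 171) (nat_lit 5) (nat_lit 352) (nat_lit 330) (nat_lit 263)))) (XT.nd (nat_lit 188) (nat_lit 588) (nat_lit 0) (XT.nd (nat_lit 94) (nat_lit 588) (nat_lit 0) (XT.lf (nat_lit 0) (nat_lit 978805675) (nat_lit 1344) (nat_lit 4020787638) (nat_lit 84) (nat_lit 4808123619) (nat_lit 154) (nat_lit 5) (nat_lit 170) (nat_lit 5) (nat_lit 155) (nat_lit 5) (nat_lit 353) (nat_lit 330) (nat_lit 262)) (XT.lf (nat_lit 0) (nat_lit 838956950) (nat_lit 588) (nat_lit 1674881976) (nat_lit 672) (nat_lit 7442117072) (nat_lit 147) (nat_lit 5) (nat_lit 154) (nat_lit 5) (nat_lit 155) (nat_lit 5) (nat_lit 354) (nat_lit 330) (nat_lit 261))) (XT.nd (nat_lit 94) (nat_lit 588) (nat_lit 0) (XT.lf (nat_lit 0) (nat_lit 4122417361) (nat_lit 672) (nat_lit 4227112199) (nat_lit 84) (nat_lit 1758343257) (nat_lit 147) (nat_lit 5) (nat_lit 155) (nat_lit 5) (nat_lit 148) (nat_lit 5) (nat_lit 355) (nat_lit 330) (nat_lit 260)) (XT.lf (nat_lit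 0) (nat_lit 779572213) (nat_lit 588) (nat_lit 4994313156) (nat_lit 672) (nat_lit 4490676603) (nat_lit 140) (nat_lit 5) (nat_lit 147) (nat_lit 5) (nat_lit 148) (nat_lit 5) (nat_lit 356) (nat_lit 330) (nat_lit 259))))))))
noncomputable def xc38 : XT := (XT.nd (nat_lit 2914) (nat_lit 252) (nat_lit 0) (XT.nd (nat_lit 1410) (nat_lit 2772) (nat_lit 0) (XT.nd (nat_lit 658) (nat_lit 1932) (nat_lit 0) (XT.nd (nat_lit 282) (nat_lit 1092) (nat_lit 0) (XT.nd (nat_lit 94) (nat_lit 672) (nat_lit 0) (XT.lf (nat_lit 0) (nat_lit 5994860193) (nat_lit 588) (nat_lit 1493864339) (nat_lit 672) (nat_lit 2936864683) (nat_lit 140) (nat_lit 5) (nat_lit 147) (nat_lit 5) (nat_lit 148) (nat_lit 5) (nat_lit 357) (nat_lit 330) (nat_lit 258)) (XT.nd (nat_lit 94) (nat_lit 84) (nat_lit 0) (XT.lf (nat_lit 0) (nat_lit 740998328) (nat_lit 588) (nat_lit 8513419239) (nat_lit 672) (nat_lit 1337098154) (nat_lit 133) (nat_lit 5) (nat_lit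 140) (nat_lit 5) (nat_lit 141) (nat_lit 5) (nat_lit 358) (nat_lit 330) (nat_lit 257)) (XT.lf (nat_lit 0) (nat_lit 336788537) (nat_lit 672) (nat_lit 4649240563) (nat_lit 84) (nat_lit 5775383451) (nat_lit 132) (nat_lit 5) (nat_lit 140) (nat_lit 5) (nat_lit 133) (nat_lit 5) (nat_lit 359) (nat_lit 330) (nat_lit 256)))) (XT.nd (nat_lit 188) (nat_lit 504) (nat_lit 0) (XT.nd (nat_lit 94) (nat_lit 0) (nat_lit 0) (XT.lf (nat_lit 0) (nat_lit 680299514) (nat_lit 588) (nat_lit 1333280615) (nat_lit 672) (nat_lit 8923088523) (nat_lit 125) (nat_lit 5) (nat_lit 132) (nat_lit 5) (nat_lit 133) (nat_lit 5) (nat_lit 360) (nat_lit 330) (nat_lit 255)) (XT.lf (nat_lit 0) (nat_lit 3784971831) (nat_lit 672) (nat_lit 4902924883) (nat_lit 84) (nat_lit 2428001885) (nat_lit 125) (nat_lit 5) (nat_lit 133) (nat_lit 5) (nat_lit 126) (nat_lit 5) (nat_lit 361) (nat_lit 330) (nat_lit 254))) (XT.nd (nat_lit 94) (nat_lit 0) (nat_lit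 0) (XT.lf (nat_lit 0) (nat_lit 581732622) (nat_lit 504) (nat_lit 5020870084) (nat_lit 588) (nat_lit 5698153555) (nat_lit 119) (nat_lit 5) (nat_lit 125) (nat_lit 5) (nat_lit 126) (nat_lit 5) (nat_lit 362) (nat_lit 330) (nat_lit 253)) (XT.lf (nat_lit 0) (nat_lit 6304164037) (nat_lit 504) (nat_lit 1194899317) (nat_lit 588) (nat_lit 3991409740) (nat_lit 119) (nat_lit 5) (nat_lit 125) (nat_lit 5) (nat_lit 126) (nat_lit 5) (nat_lit 363) (nat_lit 330) (nat_lit 252))))) (XT.nd (nat_lit 376) (nat_lit 924) (nat_lit 0) (XT.nd (nat_lit 188) (nat_lit 504) (nat_lit 0) (XT.nd (nat_lit 94) (nat_lit 0) (nat_lit 0) (XT.lf (nat_lit 0) (nat_lit 467889475) (nat_lit 504) (nat_lit 8990926702) (nat_lit 588) (nat_lit 2226914533) (nat_lit 113) (nat_lit 5) (nat_lit 119) (nat_lit 5) (nat_lit 120) (nat_lit 5) (nat_lit 364) (nat_lit 330) (nat_lit 251)) (XT.lf (nat_lit 0) (nat_lit 6358996164) (nat_lit 504) (nat_lit 5158411800)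 (nat_lit 588) (nat_lit 368276728) (nat_lit 113) (nat_lit 5) (nat_lit 119) (nat_lit 5) (nat_lit 120) (nat_lit 5) (nat_lit 365) (nat_lit 330) (nat_lit 250))) (XT.nd (nat_lit 94) (nat_lit 0) (nat_lit 0) (XT.lf (nat_lit 0) (nat_lit 299492596) (nat_lit 420) (nat_lit 1195727274) (nat_lit 504) (nat_lit 10596631187) (nat_lit 107) (nat_lit 5) (nat_lit 112) (nat_lit 5) (nat_lit 113) (nat_lit 5) (nat_lit 366) (nat_lit 330) (nat_lit 249)) (XT.lf (nat_lit 0) (nat_lit 3468114571) (nat_lit 504) (nat_lit 5947843681) (nat_lit 84) (nat_lit 2886344544) (nat_lit 107) (nat_lit 5) (nat_lit 113) (nat_lit 5) (nat_lit 108) (nat_lit 5) (nat_lit 367) (nat_lit 330) (nat_lit 248)))) (XT.nd (nat_lit 188) (nat_lit 420) (nat_lit 0) (XT.nd (nat_lit 94) (nat_lit 0) (nat_lit 0) (XT.lf (nat_lit 0) (nat_lit 34503984) (nat_lit 504) (nat_lit 5455332090) (nat_lit 588) (nat_lit 7029578381) (nat_lit 101) (nat_lit 5) (nat_lit 107) (nat_lit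 5) (nat_lit 108) (nat_lit 5) (nat_lit 368) (nat_lit 330) (nat_lit 247)) (XT.lf (nat_lit 0) (nat_lit 6292168280) (nat_lit 504) (nat_lit 1317977451) (nat_lit 588) (nat_lit 5131790167) (nat_lit 101) (nat_lit 5) (nat_lit 107) (nat_lit 5) (nat_lit 108) (nat_lit 5) (nat_lit 369) (nat_lit 330) (nat_lit 246))) (XT.nd (nat_lit 94) (nat_lit 420) (nat_lit 0) (XT.lf (nat_lit 0) (nat_lit 9800841848) (nat_lit 588) (nat_lit 287825413) (nat_lit 84) (nat_lit 2882295930) (nat_lit 101) (nat_lit 5) (nat_lit 108) (nat_lit 5) (nat_lit 102) (nat_lit 5) (nat_lit 370) (nat_lit 330) (nat_lit 245)) (XT.lf (nat_lit 0) (nat_lit 6140545834) (nat_lit 420) (nat_lit 5967898173) (nat_lit 504) (nat_lit 1096914288) (nat_lit 96) (nat_lit 5) (nat_lit 101) (nat_lit 5) (nat_lit 102) (nat_lit 5) (nat_lit 371) (nat_lit 330) (nat_lit 244)))))) (XT.nd (nat_lit 752) (nat_lit 1092) (nat_lit 0) (XT.nd (nat_lit 376) (nat_lit 840) (nat_lit 0)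 (XT.nd (nat_lit 188) (nat_lit 336) (nat_lit 0) (XT.nd (nat_lit 94) (nat_lit 420) (nat_lit 0) (XT.lf (nat_lit 0) (nat_lit 1000403156) (nat_lit 504) (nat_lit 714441851) (nat_lit 84) (nat_lit 11732206081) (nat_lit 95) (nat_lit 5) (nat_lit 101) (nat_lit 5) (nat_lit 96) (nat_lit 5) (nat_lit 372) (nat_lit 330) (nat_lit 243)) (XT.lf (nat_lit 0) (nat_lit 3201466688) (nat_lit 504) (nat_lit 7814682561) (nat_lit 84) (nat_lit 2677663182) (nat_lit 90) (nat_lit 5) (nat_lit 96) (nat_lit 5) (nat_lit 91) (nat_lit 5) (nat_lit 373) (nat_lit 330) (nat_lit 242))) (XT.nd (nat_lit 94) (nat_lit 336) (nat_lit 0) (XT.lf (nat_lit 0) (nat_lit 5472982635) (nat_lit 504) (nat_lit 1304653852) (nat_lit 84) (nat_lit 7170236428) (nat_lit 90) (nat_lit 5) (nat_lit 96) (nat_lit 5) (nat_lit 91) (nat_lit 5) (nat_lit 374) (nat_lit 330) (nat_lit 241)) (XT.lf (nat_lit 0) (nat_lit 5483407150) (nat_lit 336) (nat_lit 2362680710) (nat_lit 420)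 (nat_lit 6362492114) (nat_lit 86) (nat_lit 5) (nat_lit 90) (nat_lit 5) (nat_lit 91) (nat_lit 5) (nat_lit 375) (nat_lit 330) (nat_lit 240)))) (XT.nd (nat_lit 188) (nat_lit 420) (nat_lit 0) (XT.nd (nat_lit 94) (nat_lit 420) (nat_lit 0) (XT.lf (nat_lit 0) (nat_lit 10305707123) (nat_lit 420) (nat_lit 2020568254) (nat_lit 84) (nat_lit 2150400500) (nat_lit 86) (nat_lit 5) (nat_lit 91) (nat_lit 5) (nat_lit 87) (nat_lit 5) (nat_lit 376) (nat_lit 330) (nat_lit 239)) (XT.lf (nat_lit 0) (nat_lit 4934203516) (nat_lit 420) (nat_lit 7957302959) (nat_lit 504) (nat_lit 1859762899) (nat_lit 81) (nat_lit 5) (nat_lit 86) (nat_lit 5) (nat_lit 87) (nat_lit 5) (nat_lit 377) (nat_lit 330) (nat_lit 238))) (XT.nd (nat_lit 94) (nat_lit 336) (nat_lit 0) (XT.lf (nat_lit 0) (nat_lit 512895806) (nat_lit 504) (nat_lit 2923676405) (nat_lit 84) (nat_lit 11597334860) (nat_lit 80) (nat_lit 5) (nat_lit 86) (nat_lit 5) (nat_lit 81)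 (nat_lit 5) (nat_lit 378) (nat_lit 330) (nat_lit 237)) (XT.lf (nat_lit 0) (nat_lit 2954354749) (nat_lit 420) (nat_lit 11118996035) (nat_lit 84) (nat_lit 1250094933) (nat_lit 76) (nat_lit 5) (nat_lit 81) (nat_lit 5) (nat_lit 77) (nat_lit 5) (nat_lit 379) (nat_lit 330) (nat_lit 236))))) (XT.nd (nat_lit 376) (nat_lit 420) (nat_lit 0) (XT.nd (nat_lit 188) (nat_lit 336) (nat_lit 0) (XT.nd (nat_lit 94) (nat_lit 336) (nat_lit 0) (XT.lf (nat_lit 0) (nat_lit 5515348114) (nat_lit 420) (nat_lit 4072334920) (nat_lit 84) (nat_lit 6032622281) (nat_lit 76) (nat_lit 5) (nat_lit 81) (nat_lit 5) (nat_lit 77) (nat_lit 5) (nat_lit 380) (nat_lit 330) (nat_lit 235)) (XT.lf (nat_lit 0) (nat_lit 3225775066) (nat_lit 336) (nat_lit 4941364993) (nat_lit 420) (nat_lit 7758534404) (nat_lit 72) (nat_lit 5) (nat_lit 76) (nat_lit 5) (nat_lit 77) (nat_lit 5) (nat_lit 381) (nat_lit 330) (nat_lit 234))) (XT.nd (nat_lit 94) (nat_lit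 336) (nat_lit 0) (XT.lf (nat_lit 0) (nat_lit 10803634259) (nat_lit 336) (nat_lit 119213105) (nat_lit 420) (nat_lit 5316648638) (nat_lit 72) (nat_lit 5) (nat_lit 76) (nat_lit 5) (nat_lit 77) (nat_lit 5) (nat_lit 382) (nat_lit 330) (nat_lit 233)) (XT.lf (nat_lit 0) (nat_lit 2016378604) (nat_lit 336) (nat_lit 11794500090) (nat_lit 420) (nat_lit 2750385426) (nat_lit 68) (nat_lit 5) (nat_lit 72) (nat_lit 5) (nat_lit 73) (nat_lit 5) (nat_lit 383) (nat_lit 330) (nat_lit 232)))) (XT.nd (nat_lit 188) (nat_lit 0) (nat_lit 0) (XT.nd (nat_lit 94) (nat_lit 420) (nat_lit 0) (XT.lf (nat_lit 0) (nat_lit 9780165329) (nat_lit 336) (nat_lit 7045379670) (nat_lit 420) (nat_lit 65961352) (nat_lit 68) (nat_lit 5) (nat_lit 72) (nat_lit 5) (nat_lit 73) (nat_lit 5) (nat_lit 384) (nat_lit 330) (nat_lit 231)) (XT.lf (nat_lit 0) (nat_lit 507230829) (nat_lit 336) (nat_lit 2128200664) (nat_lit 420) (nat_lit 14595792620) (nat_lit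 63) (nat_lit 5) (nat_lit 67) (nat_lit 5) (nat_lit 68) (nat_lit 5) (nat_lit 385) (nat_lit 330) (nat_lit 230))) (XT.nd (nat_lit 94) (nat_lit 0) (nat_lit 0) (XT.lf (nat_lit 0) (nat_lit 5501707778) (nat_lit 420) (nat_lit 9130577868) (nat_lit 84) (nat_lit 2946292265) (nat_lit 63) (nat_lit 5) (nat_lit 68) (nat_lit 5) (nat_lit 64) (nat_lit 5) (nat_lit 386) (nat_lit 330) (nat_lit 229)) (XT.lf (nat_lit 0) (nat_lit 8459915916) (nat_lit 420) (nat_lit 1351929031) (nat_lit 84) (nat_lit 8124347629) (nat_lit 63) (nat_lit 5) (nat_lit 68) (nat_lit 5) (nat_lit 64) (nat_lit 5) (nat_lit 387) (nat_lit 330) (nat_lit 228))))))) (XT.nd (nat_lit 55366) (nat_lit 0) (nat_lit 5460) (XT.nd (nat_lit 54614) (nat_lit 0) (nat_lit 12348) (XT.nd (nat_lit 54238) (nat_lit 0) (nat_lit 13188) (XT.nd (nat_lit 54050) (nat_lit 0) (nat_lit 13188) (XT.nd (nat_lit 53956) (nat_lit 0) (nat_lit 14112) (XT.lf (nat_lit 0) (nat_lit 6771340919)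 (nat_lit 252) (nat_lit 4785932537) (nat_lit 336) (nat_lit 6745768152) (nat_lit 60) (nat_lit 5) (nat_lit 63) (nat_lit 5) (nat_lit 64) (nat_lit 5) (nat_lit 388) (nat_lit 330) (nat_lit 227)) (XT.lf (nat_lit 0) (nat_lit 2485206127) (nat_lit 924) (nat_lit 648217110) (nat_lit 924) (nat_lit 648217110) (nat_lit 228) (nat_lit 3) (nat_lit 239) (nat_lit 3) (nat_lit 239) (nat_lit 5) (nat_lit 331) (nat_lit 331) (nat_lit 283))) (XT.nd (nat_lit 94) (nat_lit 924) (nat_lit 0) (XT.lf (nat_lit 84) (nat_lit 2071865521) (nat_lit 0) (nat_lit 4285091229) (nat_lit 924) (nat_lit 1277440875) (nat_lit 229) (nat_lit 5) (nat_lit 228) (nat_lit 3) (nat_lit 239) (nat_lit 5) (nat_lit 332) (nat_lit 331) (nat_lit 282)) (XT.lf (nat_lit 0) (nat_lit 37862578) (nat_lit 924) (nat_lit 2168018460) (nat_lit 1008) (nat_lit 5502999594) (nat_lit 217) (nat_lit 5) (nat_lit 228) (nat_lit 3) (nat_lit 229) (nat_lit 5) (nat_lit 333) (nat_lit 331)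 (nat_lit 281)))) (XT.nd (nat_lit 188) (nat_lit 0) (nat_lit 84) (XT.nd (nat_lit 94) (nat_lit 0) (nat_lit 84) (XT.lf (nat_lit 84) (nat_lit 1314459775) (nat_lit 0) (nat_lit 15322852) (nat_lit 1008) (nat_lit 6456660434) (nat_lit 218) (nat_lit 5) (nat_lit 217) (nat_lit 5) (nat_lit 229) (nat_lit 5) (nat_lit 334) (nat_lit 331) (nat_lit 280)) (XT.lf (nat_lit 0) (nat_lit 2655714812) (nat_lit 924) (nat_lit 2969964274) (nat_lit 1008) (nat_lit 2240901809) (nat_lit 218) (nat_lit 5) (nat_lit 229) (nat_lit 5) (nat_lit 230) (nat_lit 5) (nat_lit 335) (nat_lit 331) (nat_lit 279))) (XT.nd (nat_lit 94) (nat_lit 0) (nat_lit 0) (XT.lf (nat_lit 84) (nat_lit 621533564) (nat_lit 0) (nat_lit 3359030911) (nat_lit 1008) (nat_lit 3969887282) (nat_lit 219) (nat_lit 5) (nat_lit 218) (nat_lit 5) (nat_lit 230) (nat_lit 5) (nat_lit 336) (nat_lit 331) (nat_lit 278)) (XT.lf (nat_lit 84) (nat_lit 4354369484) (nat_lit 0) (nat_lit 974900434)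 (nat_lit 1008) (nat_lit 2708145591) (nat_lit 219) (nat_lit 5) (nat_lit 218) (nat_lit 5) (nat_lit 230) (nat_lit 5) (nat_lit 337) (nat_lit 331) (nat_lit 277))))) (XT.nd (nat_lit 376) (nat_lit 0) (nat_lit 84) (XT.nd (nat_lit 188) (nat_lit 1008) (nat_lit 0) (XT.nd (nat_lit 94) (nat_lit 0) (nat_lit 0) (XT.lf (nat_lit 84) (nat_lit 30462417) (nat_lit 0) (nat_lit 6658130160) (nat_lit 1008) (nat_lit 1439388074) (nat_lit 220) (nat_lit 5) (nat_lit 219) (nat_lit 5) (nat_lit 231) (nat_lit 5) (nat_lit 338) (nat_lit 331) (nat_lit 276)) (XT.lf (nat_lit 84) (nat_lit 3893205450) (nat_lit 0) (nat_lit 4198893054) (nat_lit 1008) (nat_lit 129156466) (nat_lit 220) (nat_lit 5) (nat_lit 219) (nat_lit 5) (nat_lit 231) (nat_lit 5) (nat_lit 339) (nat_lit 331) (nat_lit 275))) (XT.nd (nat_lit 94) (nat_lit 0) (nat_lit 84) (XT.lf (nat_lit 0) (nat_lit 1153978272) (nat_lit 1008) (nat_lit 485178820) (nat_lit 1092) (nat_lit 6679185103)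 (nat_lit 207) (nat_lit 5) (nat_lit 219) (nat_lit 5) (nat_lit 220) (nat_lit 5) (nat_lit 340) (nat_lit 331) (nat_lit 274)) (XT.lf (nat_lit 0) (nat_lit 2475503046) (nat_lit 1008) (nat_lit 4915572486) (nat_lit 1092) (nat_lit 1027239709) (nat_lit 208) (nat_lit 5) (nat_lit 220) (nat_lit 5) (nat_lit 221) (nat_lit 5) (nat_lit 341) (nat_lit 331) (nat_lit 273)))) (XT.nd (nat_lit 188) (nat_lit 0) (nat_lit 84) (XT.nd (nat_lit 94) (nat_lit 0) (nat_lit 0) (XT.lf (nat_lit 0) (nat_lit 3817577548) (nat_lit 1008) (nat_lit 945467463) (nat_lit 1092) (nat_lit 3758899157) (nat_lit 208) (nat_lit 5) (nat_lit 220) (nat_lit 5) (nat_lit 221) (nat_lit 5) (nat_lit 342) (nat_lit 331) (nat_lit 272)) (XT.lf (nat_lit 84) (nat_lit 3178287885) (nat_lit 0) (nat_lit 2013077894) (nat_lit 1092) (nat_lit 3437654009) (nat_lit 209) (nat_lit 5) (nat_lit 208) (nat_lit 5) (nat_lit 221) (nat_lit 5) (nat_lit 343) (nat_lit 331) (nat_lit 271)))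 (XT.nd (nat_lit 94) (nat_lit 0) (nat_lit 0) (XT.lf (nat_lit 0) (nat_lit 6585769134) (nat_lit 1008) (nat_lit 1330390133) (nat_lit 1092) (nat_lit 823845365) (nat_lit 209) (nat_lit 5) (nat_lit 221) (nat_lit 5) (nat_lit 222) (nat_lit 5) (nat_lit 344) (nat_lit 331) (nat_lit 270)) (XT.lf (nat_lit 84) (nat_lit 2922964161) (nat_lit 0) (nat_lit 5110062530) (nat_lit 1092) (nat_lit 821038367) (nat_lit 210) (nat_lit 5) (nat_lit 209) (nat_lit 5) (nat_lit 222) (nat_lit 5) (nat_lit 345) (nat_lit 331) (nat_lit 269)))))) (XT.nd (nat_lit 752) (nat_lit 2436) (nat_lit 0) (XT.nd (nat_lit 376) (nat_lit 2520) (nat_lit 0) (XT.nd (nat_lit 188) (nat_lit 1008) (nat_lit 0) (XT.nd (nat_lit 94) (nat_lit 0) (nat_lit 84) (XT.lf (nat_lit 0) (nat_lit 518323632) (nat_lit 1092) (nat_lit 1673627549) (nat_lit 1176) (nat_lit 6780200876) (nat_lit 196) (nat_lit 5) (nat_lit 209) (nat_lit 5) (nat_lit 210) (nat_lit 5) (nat_lit 346) (nat_lit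 331) (nat_lit 268)) (XT.lf (nat_lit 0) (nat_lit 1880283234) (nat_lit 1092) (nat_lit 6372839918) (nat_lit 84) (nat_lit 840517268) (nat_lit 197) (nat_lit 5) (nat_lit 210) (nat_lit 5) (nat_lit 198) (nat_lit 5) (nat_lit 347) (nat_lit 331) (nat_lit 267))) (XT.nd (nat_lit 94) (nat_lit 1092) (nat_lit 0) (XT.lf (nat_lit 0) (nat_lit 3287162825) (nat_lit 1092) (nat_lit 1987094511) (nat_lit 84) (nat_lit 3944462408) (nat_lit 197) (nat_lit 5) (nat_lit 210) (nat_lit 5) (nat_lit 198) (nat_lit 5) (nat_lit 348) (nat_lit 331) (nat_lit 266)) (XT.lf (nat_lit 0) (nat_lit 2552529990) (nat_lit 1092) (nat_lit 2174557260) (nat_lit 1176) (nat_lit 4620805204) (nat_lit 184) (nat_lit 5) (nat_lit 197) (nat_lit 5) (nat_lit 198) (nat_lit 5) (nat_lit 349) (nat_lit 331) (nat_lit 265)))) (XT.nd (nat_lit 188) (nat_lit 1344) (nat_lit 0) (XT.nd (nat_lit 94) (nat_lit 1176) (nat_lit 0) (XT.lf (nat_lit 0) (nat_lit 6207337681) (nat_lit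 1176) (nat_lit 2249588758) (nat_lit 84) (nat_lit 1024164293) (nat_lit 184) (nat_lit 5) (nat_lit 198) (nat_lit 5) (nat_lit 185) (nat_lit 5) (nat_lit 350) (nat_lit 331) (nat_lit 264)) (XT.lf (nat_lit 0) (nat_lit 2430948426) (nat_lit 1176) (nat_lit 5313981073) (nat_lit 1260) (nat_lit 1873029806) (nat_lit 170) (nat_lit 5) (nat_lit 184) (nat_lit 5) (nat_lit 185) (nat_lit 5) (nat_lit 351) (nat_lit 331) (nat_lit 263))) (XT.nd (nat_lit 94) (nat_lit 1344) (nat_lit 0) (XT.lf (nat_lit 0) (nat_lit 7270769831) (nat_lit 1176) (nat_lit 2049300605) (nat_lit 1260) (nat_lit 439181404) (nat_lit 170) (nat_lit 5) (nat_lit 184) (nat_lit 5) (nat_lit 185) (nat_lit 5) (nat_lit 352) (nat_lit 331) (nat_lit 262)) (XT.lf (nat_lit 0) (nat_lit 1022359463) (nat_lit 1344) (nat_lit 7557807701) (nat_lit 84) (nat_lit 1324226034) (nat_lit 154) (nat_lit 5) (nat_lit 170) (nat_lit 5) (nat_lit 155) (nat_lit 5) (nat_lit 353) (nat_lit 331)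 (nat_lit 261))))) (XT.nd (nat_lit 376) (nat_lit 1260) (nat_lit 0) (XT.nd (nat_lit 188) (nat_lit 588) (nat_lit 0) (XT.nd (nat_lit 94) (nat_lit 588) (nat_lit 0) (XT.lf (nat_lit 0) (nat_lit 2534513591) (nat_lit 1344) (nat_lit 2728151162) (nat_lit 84) (nat_lit 4790681181) (nat_lit 154) (nat_lit 5) (nat_lit 170) (nat_lit 5) (nat_lit 155) (nat_lit 5) (nat_lit 354) (nat_lit 331) (nat_lit 260)) (XT.lf (nat_lit 0) (nat_lit 2263530272) (nat_lit 588) (nat_lit 1821062886) (nat_lit 672) (nat_lit 6122451061) (nat_lit 147) (nat_lit 5) (nat_lit 154) (nat_lit 5) (nat_lit 155) (nat_lit 5) (nat_lit 355) (nat_lit 331) (nat_lit 259))) (XT.nd (nat_lit 94) (nat_lit 588) (nat_lit 0) (XT.lf (nat_lit 0) (nat_lit 5696980061) (nat_lit 672) (nat_lit 2948180660) (nat_lit 84) (nat_lit 1719770814) (nat_lit 147) (nat_lit 5) (nat_lit 155) (nat_lit 5) (nat_lit 148) (nat_lit 5) (nat_lit 356) (nat_lit 331) (nat_lit 258)) (XT.lf (nat_lit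 0) (nat_lit 2194922473) (nat_lit 588) (nat_lit 5174191099) (nat_lit 672) (nat_lit 3158151353) (nat_lit 140) (nat_lit 5) (nat_lit 147) (nat_lit 5) (nat_lit 148) (nat_lit 5) (nat_lit 357) (nat_lit 331) (nat_lit 257)))) (XT.nd (nat_lit 188) (nat_lit 588) (nat_lit 0) (XT.nd (nat_lit 94) (nat_lit 672) (nat_lit 0) (XT.lf (nat_lit 0) (nat_lit 7526126477) (nat_lit 588) (nat_lit 1567853618) (nat_lit 672) (nat_lit 1600460383) (nat_lit 140) (nat_lit 5) (nat_lit 147) (nat_lit 5) (nat_lit 148) (nat_lit 5) (nat_lit 358) (nat_lit 331) (nat_lit 256)) (XT.lf (nat_lit 0) (nat_lit 18835773) (nat_lit 672) (nat_lit 8721255131) (nat_lit 84) (nat_lit 2126137101) (nat_lit 132) (nat_lit 5) (nat_lit 140) (nat_lit 5) (nat_lit 133) (nat_lit 5) (nat_lit 359) (nat_lit 331) (nat_lit 255))) (XT.nd (nat_lit 94) (nat_lit 588) (nat_lit 0) (XT.lf (nat_lit 0) (nat_lit 1676185905) (nat_lit 672) (nat_lit 3418291383) (nat_lit 84) (nat_lit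 5947612256) (nat_lit 132) (nat_lit 5) (nat_lit 140) (nat_lit 5) (nat_lit 133) (nat_lit 5) (nat_lit 360) (nat_lit 331) (nat_lit 254)) (XT.lf (nat_lit 0) (nat_lit 2057699343) (nat_lit 588) (nat_lit 1319908836) (nat_lit 672) (nat_lit 7845831941) (nat_lit 125) (nat_lit 5) (nat_lit 132) (nat_lit 5) (nat_lit 133) (nat_lit 5) (nat_lit 361) (nat_lit 331) (nat_lit 253))))))))
noncomputable def xc39 : XT := (XT.nd (nat_lit 56964) (nat_lit 0) (nat_lit 3696) (XT.nd (nat_lit 1504) (nat_lit 1932) (nat_lit 0) (XT.nd (nat_lit 752) (nat_lit 1260) (nat_lit 0) (XT.nd (nat_lit 376) (nat_lit 1008) (nat_lit 0) (XT.nd (nat_lit 188) (nat_lit 504) (nat_lit 0) (XT.nd (nat_lit 94) (nat_lit 504) (nat_lit 0) (XT.lf (nat_lit 0) (nat_lit 5164670183) (nat_lit 672) (nat_lit 3692919029) (nat_lit 84) (nat_lit 2551646556) (nat_lit 125) (nat_lit 5) (nat_lit 133) (nat_lit 5) (nat_lit 126) (nat_lit 5) (nat_lit 362) (nat_lit 331) (nat_lit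 252)) (XT.lf (nat_lit 0) (nat_lit 1942973362) (nat_lit 504) (nat_lit 5069895811) (nat_lit 588) (nat_lit 4587551588) (nat_lit 119) (nat_lit 5) (nat_lit 125) (nat_lit 5) (nat_lit 126) (nat_lit 5) (nat_lit 363) (nat_lit 331) (nat_lit 251))) (XT.nd (nat_lit 94) (nat_lit 504) (nat_lit 0) (XT.lf (nat_lit 0) (nat_lit 7797938241) (nat_lit 504) (nat_lit 1132105154) (nat_lit 588) (nat_lit 2866932058) (nat_lit 119) (nat_lit 5) (nat_lit 125) (nat_lit 5) (nat_lit 126) (nat_lit 5) (nat_lit 364) (nat_lit 331) (nat_lit 250)) (XT.lf (nat_lit 0) (nat_lit 1810683068) (nat_lit 504) (nat_lit 9116472691) (nat_lit 588) (nat_lit 1071637203) (nat_lit 113) (nat_lit 5) (nat_lit 119) (nat_lit 5) (nat_lit 120) (nat_lit 5) (nat_lit 365) (nat_lit 331) (nat_lit 249)))) (XT.nd (nat_lit 188) (nat_lit 504) (nat_lit 0) (XT.nd (nat_lit 94) (nat_lit 420) (nat_lit 0) (XT.lf (nat_lit 0) (nat_lit 791414336) (nat_lit 588) (nat_lit 4373775742)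 (nat_lit 84) (nat_lit 7040415231) (nat_lit 112) (nat_lit 5) (nat_lit 119) (nat_lit 5) (nat_lit 113) (nat_lit 5) (nat_lit 366) (nat_lit 331) (nat_lit 248)) (XT.lf (nat_lit 0) (nat_lit 1610651696) (nat_lit 420) (nat_lit 1071395822) (nat_lit 504) (nat_lit 9736494897) (nat_lit 107) (nat_lit 5) (nat_lit 112) (nat_lit 5) (nat_lit 113) (nat_lit 5) (nat_lit 367) (nat_lit 331) (nat_lit 247))) (XT.nd (nat_lit 94) (nat_lit 504) (nat_lit 0) (XT.lf (nat_lit 0) (nat_lit 4682362886) (nat_lit 504) (nat_lit 4828513435) (nat_lit 84) (nat_lit 3125436945) (nat_lit 107) (nat_lit 5) (nat_lit 113) (nat_lit 5) (nat_lit 108) (nat_lit 5) (nat_lit 368) (nat_lit 331) (nat_lit 246)) (XT.lf (nat_lit 0) (nat_lit 1320581468) (nat_lit 504) (nat_lit 5424171115) (nat_lit 588) (nat_lit 6115836239) (nat_lit 101) (nat_lit 5) (nat_lit 107) (nat_lit 5) (nat_lit 108) (nat_lit 5) (nat_lit 369) (nat_lit 331) (nat_lit 245))))) (XT.nd (nat_lit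 376) (nat_lit 336) (nat_lit 0) (XT.nd (nat_lit 188) (nat_lit 504) (nat_lit 0) (XT.nd (nat_lit 94) (nat_lit 420) (nat_lit 0) (XT.lf (nat_lit 0) (nat_lit 7728547274) (nat_lit 504) (nat_lit 1168370233) (nat_lit 588) (nat_lit 4193870577) (nat_lit 101) (nat_lit 5) (nat_lit 107) (nat_lit 5) (nat_lit 108) (nat_lit 5) (nat_lit 370) (nat_lit 331) (nat_lit 244)) (XT.lf (nat_lit 0) (nat_lit 964300137) (nat_lit 420) (nat_lit 10169239901) (nat_lit 504) (nat_lit 2193788105) (nat_lit 96) (nat_lit 5) (nat_lit 101) (nat_lit 5) (nat_lit 102) (nat_lit 5) (nat_lit 371) (nat_lit 331) (nat_lit 243))) (XT.nd (nat_lit 94) (nat_lit 504) (nat_lit 0) (XT.lf (nat_lit 0) (nat_lit 7554529638) (nat_lit 420) (nat_lit 5928409833) (nat_lit 504) (nat_lit 86685265) (nat_lit 96) (nat_lit 5) (nat_lit 101) (nat_lit 5) (nat_lit 102) (nat_lit 5) (nat_lit 372) (nat_lit 331) (nat_lit 242)) (XT.lf (nat_lit 0) (nat_lit 488843080) (nat_lit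 420) (nat_lit 1539262590) (nat_lit 504) (nat_lit 11790958575) (nat_lit 90) (nat_lit 5) (nat_lit 95) (nat_lit 5) (nat_lit 96) (nat_lit 5) (nat_lit 373) (nat_lit 331) (nat_lit 241)))) (XT.nd (nat_lit 188) (nat_lit 336) (nat_lit 0) (XT.nd (nat_lit 94) (nat_lit 0) (nat_lit 0) (XT.lf (nat_lit 0) (nat_lit 4275334612) (nat_lit 504) (nat_lit 6817351586) (nat_lit 84) (nat_lit 2981180971) (nat_lit 90) (nat_lit 5) (nat_lit 96) (nat_lit 5) (nat_lit 91) (nat_lit 5) (nat_lit 374) (nat_lit 331) (nat_lit 240)) (XT.lf (nat_lit 0) (nat_lit 6586515729) (nat_lit 504) (nat_lit 147898854) (nat_lit 84) (nat_lit 7602030796) (nat_lit 90) (nat_lit 5) (nat_lit 96) (nat_lit 5) (nat_lit 91) (nat_lit 5) (nat_lit 375) (nat_lit 331) (nat_lit 239))) (XT.nd (nat_lit 94) (nat_lit 0) (nat_lit 0) (XT.lf (nat_lit 0) (nat_lit 6832079520) (nat_lit 336) (nat_lit 2182466774) (nat_lit 420) (nat_lit 5590955685) (nat_lit 86) (nat_lit 5) (nat_lit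 90) (nat_lit 5) (nat_lit 91) (nat_lit 5) (nat_lit 376) (nat_lit 331) (nat_lit 238)) (XT.lf (nat_lit 0) (nat_lit 11523120542) (nat_lit 420) (nat_lit 905367945) (nat_lit 84) (nat_lit 2453936401) (nat_lit 86) (nat_lit 5) (nat_lit 91) (nat_lit 5) (nat_lit 87) (nat_lit 5) (nat_lit 377) (nat_lit 331) (nat_lit 237)))))) (XT.nd (nat_lit 752) (nat_lit 336) (nat_lit 0) (XT.nd (nat_lit 376) (nat_lit 756) (nat_lit 0) (XT.nd (nat_lit 188) (nat_lit 336) (nat_lit 0) (XT.nd (nat_lit 94) (nat_lit 84) (nat_lit 0) (XT.lf (nat_lit 0) (nat_lit 6246519357) (nat_lit 420) (nat_lit 7924712726) (nat_lit 504) (nat_lit 994519940) (nat_lit 81) (nat_lit 5) (nat_lit 86) (nat_lit 5) (nat_lit 87) (nat_lit 5) (nat_lit 378) (nat_lit 331) (nat_lit 236)) (XT.lf (nat_lit 0) (nat_lit 1405042990) (nat_lit 504) (nat_lit 1862365719) (nat_lit 84) (nat_lit 12190019421) (nat_lit 80) (nat_lit 5) (nat_lit 86) (nat_lit 5) (nat_lit 81) (nat_lit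 5) (nat_lit 379) (nat_lit 331) (nat_lit 235))) (XT.nd (nat_lit 94) (nat_lit 0) (nat_lit 0) (XT.lf (nat_lit 0) (nat_lit 3907794994) (nat_lit 420) (nat_lit 10290435644) (nat_lit 84) (nat_lit 1557815575) (nat_lit 76) (nat_lit 5) (nat_lit 81) (nat_lit 5) (nat_lit 77) (nat_lit 5) (nat_lit 380) (nat_lit 331) (nat_lit 234)) (XT.lf (nat_lit 0) (nat_lit 6520429531) (nat_lit 420) (nat_lit 3066223150) (nat_lit 84) (nat_lit 6475948321) (nat_lit 76) (nat_lit 5) (nat_lit 81) (nat_lit 5) (nat_lit 77) (nat_lit 5) (nat_lit 381) (nat_lit 331) (nat_lit 233)))) (XT.nd (nat_lit 188) (nat_lit 420) (nat_lit 0) (XT.nd (nat_lit 94) (nat_lit 0) (nat_lit 0) (XT.lf (nat_lit 0) (nat_lit 4439768549) (nat_lit 336) (nat_lit 4798291111) (nat_lit 420) (nat_lit 7139515797) (nat_lit 72) (nat_lit 5) (nat_lit 76) (nat_lit 5) (nat_lit 77) (nat_lit 5) (nat_lit 382) (nat_lit 331) (nat_lit 232)) (XT.lf (nat_lit 0) (nat_lit 12053921093)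 (nat_lit 420) (nat_lit 4490680398) (nat_lit 84) (nat_lit 156917470) (nat_lit 72) (nat_lit 5) (nat_lit 77) (nat_lit 5) (nat_lit 73) (nat_lit 5) (nat_lit 383) (nat_lit 331) (nat_lit 231))) (XT.nd (nat_lit 94) (nat_lit 84) (nat_lit 0) (XT.lf (nat_lit 0) (nat_lit 3173093137) (nat_lit 336) (nat_lit 11843784084) (nat_lit 420) (nat_lit 2016445269) (nat_lit 68) (nat_lit 5) (nat_lit 72) (nat_lit 5) (nat_lit 73) (nat_lit 5) (nat_lit 384) (nat_lit 331) (nat_lit 230)) (XT.lf (nat_lit 0) (nat_lit 710589260) (nat_lit 420) (nat_lit 6243295650) (nat_lit 84) (nat_lit 10420099815) (nat_lit 67) (nat_lit 5) (nat_lit 72) (nat_lit 5) (nat_lit 68) (nat_lit 5) (nat_lit 385) (nat_lit 331) (nat_lit 229))))) (XT.nd (nat_lit 54332) (nat_lit 0) (nat_lit 12936) (XT.nd (nat_lit 188) (nat_lit 0) (nat_lit 0) (XT.nd (nat_lit 94) (nat_lit 0) (nat_lit 0) (XT.lf (nat_lit 0) (nat_lit 1592584858) (nat_lit 336) (nat_lit 1886763087) (nat_lit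 420) (nat_lit 14244925249) (nat_lit 63) (nat_lit 5) (nat_lit 67) (nat_lit 5) (nat_lit 68) (nat_lit 5) (nat_lit 386) (nat_lit 331) (nat_lit 228)) (XT.lf (nat_lit 0) (nat_lit 6412184331) (nat_lit 420) (nat_lit 8345184356) (nat_lit 84) (nat_lit 3325289202) (nat_lit 63) (nat_lit 5) (nat_lit 68) (nat_lit 5) (nat_lit 64) (nat_lit 5) (nat_lit 387) (nat_lit 331) (nat_lit 227))) (XT.nd (nat_lit 54050) (nat_lit 0) (nat_lit 13860) (XT.lf (nat_lit 0) (nat_lit 9437427297) (nat_lit 420) (nat_lit 364029769) (nat_lit 84) (nat_lit 8650221911) (nat_lit 63) (nat_lit 5) (nat_lit 68) (nat_lit 5) (nat_lit 64) (nat_lit 5) (nat_lit 388) (nat_lit 331) (nat_lit 226)) (XT.lf (nat_lit 0) (nat_lit 3839414395) (nat_lit 924) (nat_lit 7170772) (nat_lit 924) (nat_lit 7170772) (nat_lit 228) (nat_lit 3) (nat_lit 239) (nat_lit 3) (nat_lit 239) (nat_lit 5) (nat_lit 332) (nat_lit 332) (nat_lit 281)))) (XT.nd (nat_lit 188) (nat_lit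 0) (nat_lit 0) (XT.nd (nat_lit 94) (nat_lit 0) (nat_lit 0) (XT.lf (nat_lit 0) (nat_lit 1237577305) (nat_lit 924) (nat_lit 4352869654) (nat_lit 1008) (nat_lit 2191981940) (nat_lit 217) (nat_lit 5) (nat_lit 228) (nat_lit 3) (nat_lit 229) (nat_lit 5) (nat_lit 333) (nat_lit 332) (nat_lit 280)) (XT.lf (nat_lit 0) (nat_lit 2493043223) (nat_lit 924) (nat_lit 908893495) (nat_lit 1008) (nat_lit 4459200534) (nat_lit 217) (nat_lit 5) (nat_lit 228) (nat_lit 3) (nat_lit 229) (nat_lit 5) (nat_lit 334) (nat_lit 332) (nat_lit 279))) (XT.nd (nat_lit 94) (nat_lit 0) (nat_lit 84) (XT.lf (nat_lit 84) (nat_lit 2665077072) (nat_lit 0) (nat_lit 1099770667) (nat_lit 1008) (nat_lit 4178101954) (nat_lit 218) (nat_lit 5) (nat_lit 217) (nat_lit 5) (nat_lit 229) (nat_lit 5) (nat_lit 335) (nat_lit 332) (nat_lit 278)) (XT.lf (nat_lit 0) (nat_lit 5050679146) (nat_lit 924) (nat_lit 1701111629) (nat_lit 1008) (nat_lit 1276249624)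 (nat_lit 218) (nat_lit 5) (nat_lit 229) (nat_lit 5) (nat_lit 230) (nat_lit 5) (nat_lit 336) (nat_lit 332) (nat_lit 277))))))) (XT.nd (nat_lit 1504) (nat_lit 5292) (nat_lit 0) (XT.nd (nat_lit 752) (nat_lit 3108) (nat_lit 0) (XT.nd (nat_lit 376) (nat_lit 0) (nat_lit 0) (XT.nd (nat_lit 188) (nat_lit 924) (nat_lit 0) (XT.nd (nat_lit 94) (nat_lit 0) (nat_lit 0) (XT.lf (nat_lit 84) (nat_lit 1984817893) (nat_lit 0) (nat_lit 4375946176) (nat_lit 1008) (nat_lit 1755446560) (nat_lit 219) (nat_lit 5) (nat_lit 218) (nat_lit 5) (nat_lit 230) (nat_lit 5) (nat_lit 337) (nat_lit 332) (nat_lit 276)) (XT.lf (nat_lit 84) (nat_lit 5790474668) (nat_lit 0) (nat_lit 1893607969) (nat_lit 1008) (nat_lit 523819725) (nat_lit 219) (nat_lit 5) (nat_lit 218) (nat_lit 5) (nat_lit 230) (nat_lit 5) (nat_lit 338) (nat_lit 332) (nat_lit 275))) (XT.nd (nat_lit 94) (nat_lit 0) (nat_lit 0) (XT.lf (nat_lit 0) (nat_lit 707948527) (nat_lit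 1008) (nat_lit 6907575174) (nat_lit 1092) (nat_lit 687363525) (nat_lit 207) (nat_lit 5) (nat_lit 219) (nat_lit 5) (nat_lit 220) (nat_lit 5) (nat_lit 339) (nat_lit 332) (nat_lit 274)) (XT.lf (nat_lit 0) (nat_lit 1968193852) (nat_lit 1008) (nat_lit 3079313938) (nat_lit 1092) (nat_lit 3353083012) (nat_lit 207) (nat_lit 5) (nat_lit 219) (nat_lit 5) (nat_lit 220) (nat_lit 5) (nat_lit 340) (nat_lit 332) (nat_lit 273)))) (XT.nd (nat_lit 188) (nat_lit 0) (nat_lit 84) (XT.nd (nat_lit 94) (nat_lit 0) (nat_lit 84) (XT.lf (nat_lit 84) (nat_lit 854115492) (nat_lit 0) (nat_lit 2380196385) (nat_lit 1092) (nat_lit 5267955459) (nat_lit 208) (nat_lit 5) (nat_lit 207) (nat_lit 5) (nat_lit 220) (nat_lit 5) (nat_lit 341) (nat_lit 332) (nat_lit 272)) (XT.lf (nat_lit 0) (nat_lit 4534245317) (nat_lit 1008) (nat_lit 3668700252) (nat_lit 1092) (nat_lit 404255010) (nat_lit 208) (nat_lit 5) (nat_lit 220) (nat_lit 5) (nat_lit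 221) (nat_lit 5) (nat_lit 342) (nat_lit 332) (nat_lit 271))) (XT.nd (nat_lit 94) (nat_lit 0) (nat_lit 0) (XT.lf (nat_lit 84) (nat_lit 387456769) (nat_lit 0) (nat_lit 5475049449) (nat_lit 1092) (nat_lit 2853174717) (nat_lit 209) (nat_lit 5) (nat_lit 208) (nat_lit 5) (nat_lit 221) (nat_lit 5) (nat_lit 343) (nat_lit 332) (nat_lit 270)) (XT.lf (nat_lit 84) (nat_lit 4614092263) (nat_lit 0) (nat_lit 2616459842) (nat_lit 1092) (nat_lit 1596942181) (nat_lit 209) (nat_lit 5) (nat_lit 208) (nat_lit 5) (nat_lit 221) (nat_lit 5) (nat_lit 344) (nat_lit 332) (nat_lit 269))))) (XT.nd (nat_lit 376) (nat_lit 2184) (nat_lit 0) (XT.nd (nat_lit 188) (nat_lit 0) (nat_lit 0) (XT.nd (nat_lit 94) (nat_lit 1092) (nat_lit 0) (XT.lf (nat_lit 0) (nat_lit 8606862406) (nat_lit 1008) (nat_lit 5183987) (nat_lit 1092) (nat_lit 331673418) (nat_lit 209) (nat_lit 5) (nat_lit 221) (nat_lit 5) (nat_lit 222) (nat_lit 5) (nat_lit 345)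 (nat_lit 332) (nat_lit 268)) (XT.lf (nat_lit 0) (nat_lit 975489314) (nat_lit 1092) (nat_lit 4709691877) (nat_lit 1176) (nat_lit 3377047584) (nat_lit 196) (nat_lit 5) (nat_lit 209) (nat_lit 5) (nat_lit 210) (nat_lit 5) (nat_lit 346) (nat_lit 332) (nat_lit 267))) (XT.nd (nat_lit 94) (nat_lit 0) (nat_lit 84) (XT.lf (nat_lit 0) (nat_lit 2285967296) (nat_lit 1092) (nat_lit 373144187) (nat_lit 1176) (nat_lit 6526183672) (nat_lit 196) (nat_lit 5) (nat_lit 209) (nat_lit 5) (nat_lit 210) (nat_lit 5) (nat_lit 347) (nat_lit 332) (nat_lit 266)) (XT.lf (nat_lit 0) (nat_lit 3646991368) (nat_lit 1092) (nat_lit 5168180701) (nat_lit 84) (nat_lit 496610667) (nat_lit 197) (nat_lit 5) (nat_lit 210) (nat_lit 5) (nat_lit 198) (nat_lit 5) (nat_lit 348) (nat_lit 332) (nat_lit 265)))) (XT.nd (nat_lit 188) (nat_lit 1176) (nat_lit 0) (XT.nd (nat_lit 94) (nat_lit 1092) (nat_lit 0) (XT.lf (nat_lit 0) (nat_lit 5046262794) (nat_lit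 1092) (nat_lit 691518594) (nat_lit 84) (nat_lit 3704425291) (nat_lit 197) (nat_lit 5) (nat_lit 210) (nat_lit 5) (nat_lit 198) (nat_lit 5) (nat_lit 349) (nat_lit 332) (nat_lit 264)) (XT.lf (nat_lit 0) (nat_lit 3971008478) (nat_lit 1092) (nat_lit 2522912020) (nat_lit 1176) (nat_lit 3082492961) (nat_lit 184) (nat_lit 5) (nat_lit 197) (nat_lit 5) (nat_lit 198) (nat_lit 5) (nat_lit 350) (nat_lit 332) (nat_lit 263))) (XT.nd (nat_lit 94) (nat_lit 1176) (nat_lit 0) (XT.lf (nat_lit 0) (nat_lit 7968605506) (nat_lit 1176) (nat_lit 961212478) (nat_lit 84) (nat_lit 785381077) (nat_lit 184) (nat_lit 5) (nat_lit 198) (nat_lit 5) (nat_lit 185) (nat_lit 5) (nat_lit 351) (nat_lit 332) (nat_lit 262)) (XT.lf (nat_lit 0) (nat_lit 3846448037) (nat_lit 1176) (nat_lit 5672907481) (nat_lit 1260) (nat_lit 337896763) (nat_lit 170) (nat_lit 5) (nat_lit 184) (nat_lit 5) (nat_lit 185) (nat_lit 5) (nat_lit 352) (nat_lit 332)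 (nat_lit 261)))))) (XT.nd (nat_lit 752) (nat_lit 2100) (nat_lit 0) (XT.nd (nat_lit 376) (nat_lit 1260) (nat_lit 0) (XT.nd (nat_lit 188) (nat_lit 588) (nat_lit 0) (XT.nd (nat_lit 94) (nat_lit 1260) (nat_lit 0) (XT.lf (nat_lit 0) (nat_lit 1071296939) (nat_lit 1260) (nat_lit 1222360778) (nat_lit 84) (nat_lit 7710245132) (nat_lit 169) (nat_lit 5) (nat_lit 184) (nat_lit 5) (nat_lit 170) (nat_lit 5) (nat_lit 353) (nat_lit 332) (nat_lit 260)) (XT.lf (nat_lit 0) (nat_lit 2534917379) (nat_lit 1344) (nat_lit 6412444743) (nat_lit 84) (nat_lit 1206975973) (nat_lit 154) (nat_lit 5) (nat_lit 170) (nat_lit 5) (nat_lit 155) (nat_lit 5) (nat_lit 354) (nat_lit 332) (nat_lit 259))) (XT.nd (nat_lit 94) (nat_lit 588) (nat_lit 0) (XT.lf (nat_lit 0) (nat_lit 4049274368) (nat_lit 1344) (nat_lit 1477862502) (nat_lit 84) (nat_lit 4781996915) (nat_lit 154) (nat_lit 5) (nat_lit 170) (nat_lit 5) (nat_lit 155) (nat_lit 5) (nat_lit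 355) (nat_lit 332) (nat_lit 258)) (XT.lf (nat_lit 0) (nat_lit 3650509245) (nat_lit 588) (nat_lit 1966122193) (nat_lit 672) (nat_lit 4851765537) (nat_lit 147) (nat_lit 5) (nat_lit 154) (nat_lit 5) (nat_lit 155) (nat_lit 5) (nat_lit 356) (nat_lit 332) (nat_lit 257)))) (XT.nd (nat_lit 188) (nat_lit 672) (nat_lit 0) (XT.nd (nat_lit 94) (nat_lit 588) (nat_lit 0) (XT.lf (nat_lit 0) (nat_lit 7235492609) (nat_lit 672) (nat_lit 1711576682) (nat_lit 84) (nat_lit 1685283496) (nat_lit 147) (nat_lit 5) (nat_lit 155) (nat_lit 5) (nat_lit 148) (nat_lit 5) (nat_lit 357) (nat_lit 332) (nat_lit 256)) (XT.lf (nat_lit 0) (nat_lit 3572828864) (nat_lit 588) (nat_lit 5357740472) (nat_lit 672) (nat_lit 1869876242) (nat_lit 140) (nat_lit 5) (nat_lit 147) (nat_lit 5) (nat_lit 148) (nat_lit 5) (nat_lit 358) (nat_lit 332) (nat_lit 255))) (XT.nd (nat_lit 94) (nat_lit 672) (nat_lit 0) (XT.lf (nat_lit 0) (nat_lit 9025753686)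 (nat_lit 588) (nat_lit 1642387905) (nat_lit 672) (nat_lit 305736669) (nat_lit 140) (nat_lit 5) (nat_lit 147) (nat_lit 5) (nat_lit 148) (nat_lit 5) (nat_lit 359) (nat_lit 332) (nat_lit 254)) (XT.lf (nat_lit 0) (nat_lit 1309977267) (nat_lit 672) (nat_lit 7652381720) (nat_lit 84) (nat_lit 2188918593) (nat_lit 132) (nat_lit 5) (nat_lit 140) (nat_lit 5) (nat_lit 133) (nat_lit 5) (nat_lit 360) (nat_lit 332) (nat_lit 253))))) (XT.nd (nat_lit 376) (nat_lit 1008) (nat_lit 0) (XT.nd (nat_lit 188) (nat_lit 504) (nat_lit 0) (XT.nd (nat_lit 94) (nat_lit 588) (nat_lit 0) (XT.lf (nat_lit 0) (nat_lit 2979458298) (nat_lit 672) (nat_lit 2229081810) (nat_lit 84) (nat_lit 6125067205) (nat_lit 132) (nat_lit 5) (nat_lit 140) (nat_lit 5) (nat_lit 133) (nat_lit 5) (nat_lit 361) (nat_lit 332) (nat_lit 252)) (XT.lf (nat_lit 0) (nat_lit 3398524341) (nat_lit 588) (nat_lit 1309199572) (nat_lit 672) (nat_lit 6813463249) (nat_lit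 125) (nat_lit 5) (nat_lit 132) (nat_lit 5) (nat_lit 133) (nat_lit 5) (nat_lit 362) (nat_lit 332) (nat_lit 251))) (XT.nd (nat_lit 94) (nat_lit 504) (nat_lit 0) (XT.lf (nat_lit 0) (nat_lit 6513077343) (nat_lit 672) (nat_lit 2524515724) (nat_lit 84) (nat_lit 2676084174) (nat_lit 125) (nat_lit 5) (nat_lit 133) (nat_lit 5) (nat_lit 126) (nat_lit 5) (nat_lit 363) (nat_lit 332) (nat_lit 250)) (XT.lf (nat_lit 0) (nat_lit 3267912352) (nat_lit 504) (nat_lit 5126224586) (nat_lit 588) (nat_lit 3517197578) (nat_lit 119) (nat_lit 5) (nat_lit 125) (nat_lit 5) (nat_lit 126) (nat_lit 5) (nat_lit 364) (nat_lit 332) (nat_lit 249)))) (XT.nd (nat_lit 188) (nat_lit 420) (nat_lit 0) (XT.nd (nat_lit 94) (nat_lit 588) (nat_lit 0) (XT.lf (nat_lit 0) (nat_lit 9261633465) (nat_lit 504) (nat_lit 1073089572) (nat_lit 588) (nat_lit 1780143362) (nat_lit 119) (nat_lit 5) (nat_lit 125) (nat_lit 5) (nat_lit 126) (nat_lit 5) (nat_lit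 365) (nat_lit 332) (nat_lit 248)) (XT.lf (nat_lit 0) (nat_lit 47206282) (nat_lit 588) (nat_lit 9206378711) (nat_lit 84) (nat_lit 3069801412) (nat_lit 112) (nat_lit 5) (nat_lit 119) (nat_lit 5) (nat_lit 113) (nat_lit 5) (nat_lit 366) (nat_lit 332) (nat_lit 247))) (XT.nd (nat_lit 94) (nat_lit 420) (nat_lit 0) (XT.lf (nat_lit 0) (nat_lit 1911713811) (nat_lit 588) (nat_lit 3265412111) (nat_lit 84) (nat_lit 7359998369) (nat_lit 112) (nat_lit 5) (nat_lit 119) (nat_lit 5) (nat_lit 113) (nat_lit 5) (nat_lit 367) (nat_lit 332) (nat_lit 246)) (XT.lf (nat_lit 0) (nat_lit 2886395436) (nat_lit 420) (nat_lit 952530749) (nat_lit 504) (nat_lit 8918178561) (nat_lit 107) (nat_lit 5) (nat_lit 112) (nat_lit 5) (nat_lit 113) (nat_lit 5) (nat_lit 368) (nat_lit 332) (nat_lit 245))))))))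
noncomputable def xc40 : XT := (XT.nd (nat_lit 56964) (nat_lit 0) (nat_lit 2268) (XT.nd (nat_lit 1410) (nat_lit 756) (nat_lit 0) (XT.nd (nat_lit 658) (nat_lit 1512) (nat_lit 0) (XT.nd (nat_lit 282) (nat_lit 924) (nat_lit 0) (XT.nd (nat_lit 94) (nat_lit 504) (nat_lit 0) (XT.lf (nat_lit 0) (nat_lit 5869308349) (nat_lit 504) (nat_lit 3750100334) (nat_lit 84) (nat_lit 3362947877) (nat_lit 107) (nat_lit 5) (nat_lit 113) (nat_lit 5) (nat_lit 108) (nat_lit 5) (nat_lit 369) (nat_lit 332) (nat_lit 244)) (XT.nd (nat_lit 94) (nat_lit 0) (nat_lit 0) (XT.lf (nat_lit 0) (nat_lit 2571474588) (nat_lit 504) (nat_lit 5403258830) (nat_lit 588) (nat_lit 5239240166) (nat_lit 101) (nat_lit 5) (nat_lit 107) (nat_lit 5) (nat_lit 108) (nat_lit 5) (nat_lit 370) (nat_lit 332) (nat_lit 243)) (XT.lf (nat_lit 0) (nat_lit 9136399495) (nat_lit 504) (nat_lit 1025132583) (nat_lit 588) (nat_lit 3290491393) (nat_lit 101) (nat_lit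 5) (nat_lit 107) (nat_lit 5) (nat_lit 108) (nat_lit 5) (nat_lit 371) (nat_lit 332) (nat_lit 242)))) (XT.nd (nat_lit 188) (nat_lit 420) (nat_lit 0) (XT.nd (nat_lit 94) (nat_lit 84) (nat_lit 0) (XT.lf (nat_lit 0) (nat_lit 2187178101) (nat_lit 420) (nat_lit 10262156627) (nat_lit 504) (nat_lit 1246847912) (nat_lit 96) (nat_lit 5) (nat_lit 101) (nat_lit 5) (nat_lit 102) (nat_lit 5) (nat_lit 372) (nat_lit 332) (nat_lit 241)) (XT.lf (nat_lit 0) (nat_lit 876525747) (nat_lit 504) (nat_lit 5014904149) (nat_lit 84) (nat_lit 8054962336) (nat_lit 95) (nat_lit 5) (nat_lit 101) (nat_lit 5) (nat_lit 96) (nat_lit 5) (nat_lit 373) (nat_lit 332) (nat_lit 240))) (XT.nd (nat_lit 94) (nat_lit 0) (nat_lit 0) (XT.lf (nat_lit 0) (nat_lit 1671727380) (nat_lit 420) (nat_lit 1364440691) (nat_lit 504) (nat_lit 11167668111) (nat_lit 90) (nat_lit 5) (nat_lit 95) (nat_lit 5) (nat_lit 96) (nat_lit 5) (nat_lit 374) (nat_lit 332)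 (nat_lit 239)) (XT.lf (nat_lit 0) (nat_lit 5325287481) (nat_lit 504) (nat_lit 5860809403) (nat_lit 84) (nat_lit 3280992395) (nat_lit 90) (nat_lit 5) (nat_lit 96) (nat_lit 5) (nat_lit 91) (nat_lit 5) (nat_lit 375) (nat_lit 332) (nat_lit 238))))) (XT.nd (nat_lit 376) (nat_lit 756) (nat_lit 0) (XT.nd (nat_lit 188) (nat_lit 420) (nat_lit 0) (XT.nd (nat_lit 94) (nat_lit 0) (nat_lit 0) (XT.lf (nat_lit 0) (nat_lit 994312161) (nat_lit 336) (nat_lit 6694204385) (nat_lit 420) (nat_lit 7049586035) (nat_lit 86) (nat_lit 5) (nat_lit 90) (nat_lit 5) (nat_lit 91) (nat_lit 5) (nat_lit 376) (nat_lit 332) (nat_lit 237)) (XT.lf (nat_lit 0) (nat_lit 8153235851) (nat_lit 336) (nat_lit 2011260263) (nat_lit 420) (nat_lit 4851519503) (nat_lit 86) (nat_lit 5) (nat_lit 90) (nat_lit 5) (nat_lit 91) (nat_lit 5) (nat_lit 377) (nat_lit 332) (nat_lit 236))) (XT.nd (nat_lit 94) (nat_lit 0) (nat_lit 0) (XT.lf (nat_lit 0) (nat_lit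 179290245) (nat_lit 420) (nat_lit 12547352747) (nat_lit 504) (nat_lit 2575290632) (nat_lit 81) (nat_lit 5) (nat_lit 86) (nat_lit 5) (nat_lit 87) (nat_lit 5) (nat_lit 378) (nat_lit 332) (nat_lit 235)) (XT.lf (nat_lit 0) (nat_lit 7531369680) (nat_lit 420) (nat_lit 7906719051) (nat_lit 504) (nat_lit 156190918) (nat_lit 81) (nat_lit 5) (nat_lit 86) (nat_lit 5) (nat_lit 87) (nat_lit 5) (nat_lit 379) (nat_lit 332) (nat_lit 234)))) (XT.nd (nat_lit 188) (nat_lit 336) (nat_lit 0) (XT.nd (nat_lit 94) (nat_lit 336) (nat_lit 0) (XT.lf (nat_lit 0) (nat_lit 2273624961) (nat_lit 504) (nat_lit 835174218) (nat_lit 84) (nat_lit 12786434033) (nat_lit 80) (nat_lit 5) (nat_lit 86) (nat_lit 5) (nat_lit 81) (nat_lit 5) (nat_lit 380) (nat_lit 332) (nat_lit 233)) (XT.lf (nat_lit 0) (nat_lit 4840194838) (nat_lit 420) (nat_lit 9503729474) (nat_lit 84) (nat_lit 1859256229) (nat_lit 76) (nat_lit 5) (nat_lit 81) (nat_lit 5)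 (nat_lit 77) (nat_lit 5) (nat_lit 381) (nat_lit 332) (nat_lit 232))) (XT.nd (nat_lit 94) (nat_lit 336) (nat_lit 0) (XT.lf (nat_lit 0) (nat_lit 7507465712) (nat_lit 420) (nat_lit 2094696020) (nat_lit 84) (nat_lit 6917514331) (nat_lit 76) (nat_lit 5) (nat_lit 81) (nat_lit 5) (nat_lit 77) (nat_lit 5) (nat_lit 382) (nat_lit 332) (nat_lit 231)) (XT.lf (nat_lit 0) (nat_lit 5626048824) (nat_lit 336) (nat_lit 4667647675) (nat_lit 420) (nat_lit 6550821980) (nat_lit 72) (nat_lit 5) (nat_lit 76) (nat_lit 5) (nat_lit 77) (nat_lit 5) (nat_lit 383) (nat_lit 332) (nat_lit 230)))))) (XT.nd (nat_lit 54802) (nat_lit 0) (nat_lit 12012) (XT.nd (nat_lit 376) (nat_lit 0) (nat_lit 0) (XT.nd (nat_lit 188) (nat_lit 420) (nat_lit 0) (XT.nd (nat_lit 94) (nat_lit 336) (nat_lit 0) (XT.lf (nat_lit 0) (nat_lit 13173921831) (nat_lit 420) (nat_lit 3581874682) (nat_lit 84) (nat_lit 423017118) (nat_lit 72) (nat_lit 5) (nat_lit 77)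 (nat_lit 5) (nat_lit 73) (nat_lit 5) (nat_lit 384) (nat_lit 332) (nat_lit 229)) (XT.lf (nat_lit 0) (nat_lit 4301581411) (nat_lit 336) (nat_lit 11912029070) (nat_lit 420) (nat_lit 1307354576) (nat_lit 68) (nat_lit 5) (nat_lit 72) (nat_lit 5) (nat_lit 73) (nat_lit 5) (nat_lit 385) (nat_lit 332) (nat_lit 228))) (XT.nd (nat_lit 94) (nat_lit 336) (nat_lit 0) (XT.lf (nat_lit 0) (nat_lit 1464495961) (nat_lit 420) (nat_lit 5411900467) (nat_lit 84) (nat_lit 10995915568) (nat_lit 67) (nat_lit 5) (nat_lit 72) (nat_lit 5) (nat_lit 68) (nat_lit 5) (nat_lit 386) (nat_lit 332) (nat_lit 227)) (XT.lf (nat_lit 0) (nat_lit 2649069259) (nat_lit 336) (nat_lit 1655606910) (nat_lit 420) (nat_lit 13928808826) (nat_lit 63) (nat_lit 5) (nat_lit 67) (nat_lit 5) (nat_lit 68) (nat_lit 5) (nat_lit 387) (nat_lit 332) (nat_lit 226)))) (XT.nd (nat_lit 54238) (nat_lit 0) (nat_lit 12936) (XT.nd (nat_lit 54144) (nat_lit 0) (nat_lit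 12936) (XT.lf (nat_lit 0) (nat_lit 7307184718) (nat_lit 420) (nat_lit 7597037815) (nat_lit 84) (nat_lit 3698973950) (nat_lit 63) (nat_lit 5) (nat_lit 68) (nat_lit 5) (nat_lit 64) (nat_lit 5) (nat_lit 388) (nat_lit 332) (nat_lit 225)) (XT.lf (nat_lit 0) (nat_lit 609160670) (nat_lit 0) (nat_lit 609160670) (nat_lit 924) (nat_lit 2711373162) (nat_lit 217) (nat_lit 5) (nat_lit 217) (nat_lit 3) (nat_lit 228) (nat_lit 3) (nat_lit 333) (nat_lit 333) (nat_lit 279))) (XT.nd (nat_lit 94) (nat_lit 0) (nat_lit 0) (XT.lf (nat_lit 0) (nat_lit 3657272359) (nat_lit 924) (nat_lit 3197858153) (nat_lit 1008) (nat_lit 1084062711) (nat_lit 217) (nat_lit 5) (nat_lit 228) (nat_lit 3) (nat_lit 229) (nat_lit 5) (nat_lit 334) (nat_lit 333) (nat_lit 278)) (XT.lf (nat_lit 84) (nat_lit 318201966) (nat_lit 0) (nat_lit 4565863863) (nat_lit 1008) (nat_lit 3138339464) (nat_lit 218) (nat_lit 5) (nat_lit 217) (nat_lit 5) (nat_lit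 229) (nat_lit 5) (nat_lit 335) (nat_lit 333) (nat_lit 277))))) (XT.nd (nat_lit 376) (nat_lit 0) (nat_lit 0) (XT.nd (nat_lit 188) (nat_lit 924) (nat_lit 0) (XT.nd (nat_lit 94) (nat_lit 0) (nat_lit 84) (XT.lf (nat_lit 84) (nat_lit 3980945591) (nat_lit 0) (nat_lit 2154526563) (nat_lit 1008) (nat_lit 1973104460) (nat_lit 218) (nat_lit 5) (nat_lit 217) (nat_lit 5) (nat_lit 229) (nat_lit 5) (nat_lit 336) (nat_lit 333) (nat_lit 276)) (XT.lf (nat_lit 0) (nat_lit 7384585126) (nat_lit 924) (nat_lit 472145381) (nat_lit 1008) (nat_lit 341891963) (nat_lit 218) (nat_lit 5) (nat_lit 229) (nat_lit 5) (nat_lit 230) (nat_lit 5) (nat_lit 337) (nat_lit 333) (nat_lit 275))) (XT.nd (nat_lit 94) (nat_lit 0) (nat_lit 0) (XT.lf (nat_lit 0) (nat_lit 383833749) (nat_lit 1008) (nat_lit 4983068748) (nat_lit 1092) (nat_lit 2924103294) (nat_lit 206) (nat_lit 5) (nat_lit 218) (nat_lit 5) (nat_lit 219) (nat_lit 5) (nat_lit 338)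 (nat_lit 333) (nat_lit 274)) (XT.lf (nat_lit 0) (nat_lit 1564839541) (nat_lit 1008) (nat_lit 1208176705) (nat_lit 1092) (nat_lit 5614082101) (nat_lit 206) (nat_lit 5) (nat_lit 218) (nat_lit 5) (nat_lit 219) (nat_lit 5) (nat_lit 339) (nat_lit 333) (nat_lit 273)))) (XT.nd (nat_lit 188) (nat_lit 0) (nat_lit 84) (XT.nd (nat_lit 94) (nat_lit 0) (nat_lit 84) (XT.lf (nat_lit 84) (nat_lit 2708392592) (nat_lit 0) (nat_lit 58864206) (nat_lit 1092) (nat_lit 5719321253) (nat_lit 207) (nat_lit 5) (nat_lit 206) (nat_lit 5) (nat_lit 219) (nat_lit 5) (nat_lit 340) (nat_lit 333) (nat_lit 272)) (XT.lf (nat_lit 0) (nat_lit 4005398868) (nat_lit 1008) (nat_lit 1873457620) (nat_lit 1092) (nat_lit 2710277459) (nat_lit 207) (nat_lit 5) (nat_lit 219) (nat_lit 5) (nat_lit 220) (nat_lit 5) (nat_lit 341) (nat_lit 333) (nat_lit 271))) (XT.nd (nat_lit 94) (nat_lit 0) (nat_lit 0) (XT.lf (nat_lit 84) (nat_lit 2165246891) (nat_lit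 0) (nat_lit 3098994345) (nat_lit 1092) (nat_lit 3431097603) (nat_lit 208) (nat_lit 5) (nat_lit 207) (nat_lit 5) (nat_lit 220) (nat_lit 5) (nat_lit 342) (nat_lit 333) (nat_lit 270)) (XT.lf (nat_lit 84) (nat_lit 6338925941) (nat_lit 0) (nat_lit 203866496) (nat_lit 1092) (nat_lit 2262555831) (nat_lit 208) (nat_lit 5) (nat_lit 207) (nat_lit 5) (nat_lit 220) (nat_lit 5) (nat_lit 343) (nat_lit 333) (nat_lit 269))))))) (XT.nd (nat_lit 1504) (nat_lit 4200) (nat_lit 0) (XT.nd (nat_lit 752) (nat_lit 3696) (nat_lit 0) (XT.nd (nat_lit 376) (nat_lit 924) (nat_lit 0) (XT.nd (nat_lit 188) (nat_lit 0) (nat_lit 0) (XT.nd (nat_lit 94) (nat_lit 1092) (nat_lit 0) (XT.lf (nat_lit 84) (nat_lit 1700493814) (nat_lit 0) (nat_lit 6166475312) (nat_lit 1092) (nat_lit 1051545252) (nat_lit 209) (nat_lit 5) (nat_lit 208) (nat_lit 5) (nat_lit 221) (nat_lit 5) (nat_lit 344) (nat_lit 333) (nat_lit 268)) (XT.lf (nat_lit 0) (nat_lit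 183749572) (nat_lit 1092) (nat_lit 3021168340) (nat_lit 1176) (nat_lit 5830418046) (nat_lit 195) (nat_lit 5) (nat_lit 208) (nat_lit 5) (nat_lit 209) (nat_lit 5) (nat_lit 345) (nat_lit 333) (nat_lit 267))) (XT.nd (nat_lit 94) (nat_lit 0) (nat_lit 84) (XT.lf (nat_lit 84) (nat_lit 1291457201) (nat_lit 0) (nat_lit 121559766) (nat_lit 1176) (nat_lit 7743059562) (nat_lit 196) (nat_lit 5) (nat_lit 195) (nat_lit 5) (nat_lit 209) (nat_lit 5) (nat_lit 346) (nat_lit 333) (nat_lit 266)) (XT.lf (nat_lit 0) (nat_lit 2705816086) (nat_lit 1092) (nat_lit 3539630994) (nat_lit 1176) (nat_lit 3034258788) (nat_lit 196) (nat_lit 5) (nat_lit 209) (nat_lit 5) (nat_lit 210) (nat_lit 5) (nat_lit 347) (nat_lit 333) (nat_lit 265)))) (XT.nd (nat_lit 188) (nat_lit 1008) (nat_lit 0) (XT.nd (nat_lit 94) (nat_lit 0) (nat_lit 84) (XT.lf (nat_lit 84) (nat_lit 906507647) (nat_lit 0) (nat_lit 3108269168) (nat_lit 1176) (nat_lit 5393010175)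 (nat_lit 197) (nat_lit 5) (nat_lit 196) (nat_lit 5) (nat_lit 210) (nat_lit 5) (nat_lit 348) (nat_lit 333) (nat_lit 264)) (XT.lf (nat_lit 0) (nat_lit 5368522550) (nat_lit 1092) (nat_lit 4007508887) (nat_lit 84) (nat_lit 163575988) (nat_lit 197) (nat_lit 5) (nat_lit 210) (nat_lit 5) (nat_lit 198) (nat_lit 5) (nat_lit 349) (nat_lit 333) (nat_lit 263))) (XT.nd (nat_lit 94) (nat_lit 0) (nat_lit 0) (XT.lf (nat_lit 0) (nat_lit 576378440) (nat_lit 1092) (nat_lit 6191979187) (nat_lit 1176) (nat_lit 2906921082) (nat_lit 184) (nat_lit 5) (nat_lit 197) (nat_lit 5) (nat_lit 198) (nat_lit 5) (nat_lit 350) (nat_lit 333) (nat_lit 262)) (XT.lf (nat_lit 0) (nat_lit 5355010622) (nat_lit 1092) (nat_lit 2865465288) (nat_lit 1176) (nat_lit 1594294361) (nat_lit 184) (nat_lit 5) (nat_lit 197) (nat_lit 5) (nat_lit 198) (nat_lit 5) (nat_lit 351) (nat_lit 333) (nat_lit 261))))) (XT.nd (nat_lit 376) (nat_lit 1176) (nat_lit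 0) (XT.nd (nat_lit 188) (nat_lit 1260) (nat_lit 0) (XT.nd (nat_lit 94) (nat_lit 84) (nat_lit 0) (XT.lf (nat_lit 0) (nat_lit 293714378) (nat_lit 1176) (nat_lit 9401406170) (nat_lit 1260) (nat_lit 264014219) (nat_lit 170) (nat_lit 5) (nat_lit 184) (nat_lit 5) (nat_lit 185) (nat_lit 5) (nat_lit 352) (nat_lit 333) (nat_lit 260)) (XT.lf (nat_lit 0) (nat_lit 1129463232) (nat_lit 1260) (nat_lit 4890280568) (nat_lit 84) (nat_lit 4086474964) (nat_lit 169) (nat_lit 5) (nat_lit 184) (nat_lit 5) (nat_lit 170) (nat_lit 5) (nat_lit 353) (nat_lit 333) (nat_lit 259))) (XT.nd (nat_lit 94) (nat_lit 0) (nat_lit 0) (XT.lf (nat_lit 0) (nat_lit 692881) (nat_lit 1260) (nat_lit 2530619053) (nat_lit 1344) (nat_lit 7727220956) (nat_lit 154) (nat_lit 5) (nat_lit 169) (nat_lit 5) (nat_lit 170) (nat_lit 5) (nat_lit 354) (nat_lit 333) (nat_lit 258)) (XT.lf (nat_lit 0) (nat_lit 4007785648) (nat_lit 1344) (nat_lit 5311484887)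 (nat_lit 84) (nat_lit 1095219524) (nat_lit 154) (nat_lit 5) (nat_lit 170) (nat_lit 5) (nat_lit 155) (nat_lit 5) (nat_lit 355) (nat_lit 333) (nat_lit 257)))) (XT.nd (nat_lit 188) (nat_lit 588) (nat_lit 0) (XT.nd (nat_lit 94) (nat_lit 588) (nat_lit 0) (XT.lf (nat_lit 0) (nat_lit 5526889248) (nat_lit 1344) (nat_lit 266535078) (nat_lit 84) (nat_lit 4781800776) (nat_lit 154) (nat_lit 5) (nat_lit 170) (nat_lit 5) (nat_lit 155) (nat_lit 5) (nat_lit 356) (nat_lit 333) (nat_lit 256)) (XT.lf (nat_lit 0) (nat_lit 5003377397) (nat_lit 588) (nat_lit 2110342375) (nat_lit 672) (nat_lit 3626445607) (nat_lit 147) (nat_lit 5) (nat_lit 154) (nat_lit 5) (nat_lit 155) (nat_lit 5) (nat_lit 357) (nat_lit 333) (nat_lit 255))) (XT.nd (nat_lit 94) (nat_lit 588) (nat_lit 0) (XT.lf (nat_lit 0) (nat_lit 8741654519) (nat_lit 672) (nat_lit 513937841) (nat_lit 84) (nat_lit 1654702928) (nat_lit 147) (nat_lit 5) (nat_lit 155) (nat_lit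 5) (nat_lit 148) (nat_lit 5) (nat_lit 358) (nat_lit 333) (nat_lit 254)) (XT.lf (nat_lit 0) (nat_lit 4916754910) (nat_lit 588) (nat_lit 5545170432) (nat_lit 672) (nat_lit 622343864) (nat_lit 140) (nat_lit 5) (nat_lit 147) (nat_lit 5) (nat_lit 148) (nat_lit 5) (nat_lit 359) (nat_lit 333) (nat_lit 253)))))) (XT.nd (nat_lit 752) (nat_lit 1848) (nat_lit 0) (XT.nd (nat_lit 376) (nat_lit 1092) (nat_lit 0) (XT.nd (nat_lit 188) (nat_lit 588) (nat_lit 0) (XT.nd (nat_lit 94) (nat_lit 588) (nat_lit 0) (XT.lf (nat_lit 0) (nat_lit 932197569) (nat_lit 672) (nat_lit 775968747) (nat_lit 84) (nat_lit 9555634951) (nat_lit 139) (nat_lit 5) (nat_lit 147) (nat_lit 5) (nat_lit 140) (nat_lit 5) (nat_lit 360) (nat_lit 333) (nat_lit 252)) (XT.lf (nat_lit 0) (nat_lit 2565768639) (nat_lit 672) (nat_lit 6627818886) (nat_lit 84) (nat_lit 2253641085) (nat_lit 132) (nat_lit 5) (nat_lit 140) (nat_lit 5) (nat_lit 133) (nat_lit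 5) (nat_lit 361) (nat_lit 333) (nat_lit 251))) (XT.nd (nat_lit 94) (nat_lit 588) (nat_lit 0) (XT.lf (nat_lit 0) (nat_lit 4249902294) (nat_lit 672) (nat_lit 1078348161) (nat_lit 84) (nat_lit 6307901681) (nat_lit 132) (nat_lit 5) (nat_lit 140) (nat_lit 5) (nat_lit 133) (nat_lit 5) (nat_lit 362) (nat_lit 333) (nat_lit 250)) (XT.lf (nat_lit 0) (nat_lit 4706148860) (nat_lit 588) (nat_lit 1301056830) (nat_lit 672) (nat_lit 5822897169) (nat_lit 125) (nat_lit 5) (nat_lit 132) (nat_lit 5) (nat_lit 133) (nat_lit 5) (nat_lit 363) (nat_lit 333) (nat_lit 249)))) (XT.nd (nat_lit 188) (nat_lit 588) (nat_lit 0) (XT.nd (nat_lit 94) (nat_lit 504) (nat_lit 0) (XT.lf (nat_lit 0) (nat_lit 7833426825) (nat_lit 672) (nat_lit 1394491109) (nat_lit 84) (nat_lit 2801505941) (nat_lit 125) (nat_lit 5) (nat_lit 133) (nat_lit 5) (nat_lit 126) (nat_lit 5) (nat_lit 364) (nat_lit 333) (nat_lit 248)) (XT.lf (nat_lit 0) (nat_lit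 4559888632) (nat_lit 504) (nat_lit 5189740705) (nat_lit 588) (nat_lit 2484075974) (nat_lit 119) (nat_lit 5) (nat_lit 125) (nat_lit 5) (nat_lit 126) (nat_lit 5) (nat_lit 365) (nat_lit 333) (nat_lit 247))) (XT.nd (nat_lit 94) (nat_lit 588) (nat_lit 0) (XT.lf (nat_lit 0) (nat_lit 10698646459) (nat_lit 504) (nat_lit 1017640882) (nat_lit 588) (nat_lit 728074331) (nat_lit 119) (nat_lit 5) (nat_lit 125) (nat_lit 5) (nat_lit 126) (nat_lit 5) (nat_lit 366) (nat_lit 333) (nat_lit 246)) (XT.lf (nat_lit 0) (nat_lit 1113240961) (nat_lit 588) (nat_lit 8279097350) (nat_lit 84) (nat_lit 3267109708) (nat_lit 112) (nat_lit 5) (nat_lit 119) (nat_lit 5) (nat_lit 113) (nat_lit 5) (nat_lit 367) (nat_lit 333) (nat_lit 245))))) (XT.nd (nat_lit 376) (nat_lit 924) (nat_lit 0) (XT.nd (nat_lit 188) (nat_lit 504) (nat_lit 0) (XT.nd (nat_lit 94) (nat_lit 420) (nat_lit 0) (XT.lf (nat_lit 0) (nat_lit 3002675410) (nat_lit 588)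 (nat_lit 2194954355) (nat_lit 84) (nat_lit 7682948081) (nat_lit 112) (nat_lit 5) (nat_lit 119) (nat_lit 5) (nat_lit 113) (nat_lit 5) (nat_lit 368) (nat_lit 333) (nat_lit 244)) (XT.lf (nat_lit 0) (nat_lit 4129952319) (nat_lit 420) (nat_lit 838768141) (nat_lit 504) (nat_lit 8139054878) (nat_lit 107) (nat_lit 5) (nat_lit 112) (nat_lit 5) (nat_lit 113) (nat_lit 5) (nat_lit 369) (nat_lit 333) (nat_lit 243))) (XT.nd (nat_lit 94) (nat_lit 504) (nat_lit 0) (XT.lf (nat_lit 0) (nat_lit 7031790254) (nat_lit 504) (nat_lit 2709555456) (nat_lit 84) (nat_lit 3599332423) (nat_lit 107) (nat_lit 5) (nat_lit 113) (nat_lit 5) (nat_lit 108) (nat_lit 5) (nat_lit 370) (nat_lit 333) (nat_lit 242)) (XT.lf (nat_lit 0) (nat_lit 3790362323) (nat_lit 504) (nat_lit 5392260715) (nat_lit 588) (nat_lit 4397198632) (nat_lit 101) (nat_lit 5) (nat_lit 107) (nat_lit 5) (nat_lit 108) (nat_lit 5) (nat_lit 371) (nat_lit 333) (nat_lit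 241)))) (XT.nd (nat_lit 188) (nat_lit 504) (nat_lit 0) (XT.nd (nat_lit 94) (nat_lit 420) (nat_lit 0) (XT.lf (nat_lit 0) (nat_lit 10518980312) (nat_lit 504) (nat_lit 887832308) (nat_lit 588) (nat_lit 2419090855) (nat_lit 101) (nat_lit 5) (nat_lit 107) (nat_lit 5) (nat_lit 108) (nat_lit 5) (nat_lit 372) (nat_lit 333) (nat_lit 240)) (XT.lf (nat_lit 0) (nat_lit 3378204849) (nat_lit 420) (nat_lit 10370039733) (nat_lit 504) (nat_lit 329635726) (nat_lit 96) (nat_lit 5) (nat_lit 101) (nat_lit 5) (nat_lit 102) (nat_lit 5) (nat_lit 373) (nat_lit 333) (nat_lit 239))) (XT.nd (nat_lit 94) (nat_lit 420) (nat_lit 0) (XT.lf (nat_lit 0) (nat_lit 1811549281) (nat_lit 504) (nat_lit 4053290257) (nat_lit 84) (nat_lit 8471339508) (nat_lit 95) (nat_lit 5) (nat_lit 101) (nat_lit 5) (nat_lit 96) (nat_lit 5) (nat_lit 374) (nat_lit 333) (nat_lit 238)) (XT.lf (nat_lit 0) (nat_lit 2823037659) (nat_lit 420) (nat_lit 1197060426)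 (nat_lit 504) (nat_lit 10581763833) (nat_lit 90) (nat_lit 5) (nat_lit 95) (nat_lit 5) (nat_lit 96) (nat_lit 5) (nat_lit 375) (nat_lit 333) (nat_lit 237))))))))
noncomputable def xc41 : XT := (XT.nd (nat_lit 57058) (nat_lit 0) (nat_lit 1092) (XT.nd (nat_lit 55554) (nat_lit 0) (nat_lit 10164) (XT.nd (nat_lit 658) (nat_lit 1092) (nat_lit 0) (XT.nd (nat_lit 282) (nat_lit 840) (nat_lit 0) (XT.nd (nat_lit 94) (nat_lit 336) (nat_lit 0) (XT.lf (nat_lit 0) (nat_lit 6353829998) (nat_lit 504) (nat_lit 4942220704) (nat_lit 84) (nat_lit 3577721720) (nat_lit 90) (nat_lit 5) (nat_lit 96) (nat_lit 5) (nat_lit 91) (nat_lit 5) (nat_lit 376) (nat_lit 333) (nat_lit 236)) (XT.nd (nat_lit 94) (nat_lit 0) (nat_lit 0) (XT.lf (nat_lit 0) (nat_lit 2107824967) (nat_lit 336) (nat_lit 6665243610) (nat_lit 420) (nat_lit 6380331040) (nat_lit 86) (nat_lit 5) (nat_lit 90) (nat_lit 5) (nat_lit 91) (nat_lit 5) (nat_lit 377) (nat_lit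 333) (nat_lit 235)) (XT.lf (nat_lit 0) (nat_lit 9449952772) (nat_lit 336) (nat_lit 1848503987) (nat_lit 420) (nat_lit 4141975208) (nat_lit 86) (nat_lit 5) (nat_lit 90) (nat_lit 5) (nat_lit 91) (nat_lit 5) (nat_lit 378) (nat_lit 333) (nat_lit 234)))) (XT.nd (nat_lit 188) (nat_lit 336) (nat_lit 0) (XT.nd (nat_lit 94) (nat_lit 84) (nat_lit 0) (XT.lf (nat_lit 0) (nat_lit 1250158993) (nat_lit 420) (nat_lit 12675486867) (nat_lit 504) (nat_lit 1809671079) (nat_lit 81) (nat_lit 5) (nat_lit 86) (nat_lit 5) (nat_lit 87) (nat_lit 5) (nat_lit 379) (nat_lit 333) (nat_lit 233)) (XT.lf (nat_lit 0) (nat_lit 644622520) (nat_lit 504) (nat_lit 7251733860) (nat_lit 84) (nat_lit 8140635176) (nat_lit 80) (nat_lit 5) (nat_lit 86) (nat_lit 5) (nat_lit 81) (nat_lit 5) (nat_lit 380) (nat_lit 333) (nat_lit 232))) (XT.nd (nat_lit 94) (nat_lit 0) (nat_lit 0) (XT.lf (nat_lit 0) (nat_lit 163858277) (nat_lit 336) (nat_lit 2958540717)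 (nat_lit 420) (nat_lit 13225213984) (nat_lit 76) (nat_lit 5) (nat_lit 80) (nat_lit 5) (nat_lit 81) (nat_lit 5) (nat_lit 381) (nat_lit 333) (nat_lit 231)) (XT.lf (nat_lit 0) (nat_lit 5753772814) (nat_lit 420) (nat_lit 8756303664) (nat_lit 84) (nat_lit 2155118926) (nat_lit 76) (nat_lit 5) (nat_lit 81) (nat_lit 5) (nat_lit 77) (nat_lit 5) (nat_lit 382) (nat_lit 333) (nat_lit 230))))) (XT.nd (nat_lit 376) (nat_lit 420) (nat_lit 0) (XT.nd (nat_lit 188) (nat_lit 336) (nat_lit 0) (XT.nd (nat_lit 94) (nat_lit 336) (nat_lit 0) (XT.lf (nat_lit 0) (nat_lit 8478682043) (nat_lit 420) (nat_lit 1155073119) (nat_lit 84) (nat_lit 7358132004) (nat_lit 76) (nat_lit 5) (nat_lit 81) (nat_lit 5) (nat_lit 77) (nat_lit 5) (nat_lit 383) (nat_lit 333) (nat_lit 229)) (XT.lf (nat_lit 0) (nat_lit 6787465994) (nat_lit 336) (nat_lit 4548847649) (nat_lit 420) (nat_lit 5990555904) (nat_lit 72) (nat_lit 5) (nat_lit 76) (nat_lit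 5) (nat_lit 77) (nat_lit 5) (nat_lit 384) (nat_lit 333) (nat_lit 228))) (XT.nd (nat_lit 94) (nat_lit 336) (nat_lit 0) (XT.lf (nat_lit 0) (nat_lit 14283988297) (nat_lit 420) (nat_lit 2705707463) (nat_lit 84) (nat_lit 682094777) (nat_lit 72) (nat_lit 5) (nat_lit 77) (nat_lit 5) (nat_lit 73) (nat_lit 5) (nat_lit 385) (nat_lit 333) (nat_lit 227)) (XT.lf (nat_lit 0) (nat_lit 5404608945) (nat_lit 336) (nat_lit 11998800315) (nat_lit 420) (nat_lit 621168435) (nat_lit 68) (nat_lit 5) (nat_lit 72) (nat_lit 5) (nat_lit 73) (nat_lit 5) (nat_lit 386) (nat_lit 333) (nat_lit 226)))) (XT.nd (nat_lit 54332) (nat_lit 0) (nat_lit 12936) (XT.nd (nat_lit 94) (nat_lit 336) (nat_lit 0) (XT.lf (nat_lit 0) (nat_lit 2198966257) (nat_lit 420) (nat_lit 4614040634) (nat_lit 84) (nat_lit 11573896305) (nat_lit 67) (nat_lit 5) (nat_lit 72) (nat_lit 5) (nat_lit 68) (nat_lit 5) (nat_lit 387) (nat_lit 333) (nat_lit 225)) (XT.lf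 (nat_lit 0) (nat_lit 3679344293) (nat_lit 336) (nat_lit 1434034596) (nat_lit 420) (nat_lit 13645886796) (nat_lit 63) (nat_lit 5) (nat_lit 67) (nat_lit 5) (nat_lit 68) (nat_lit 5) (nat_lit 388) (nat_lit 333) (nat_lit 224))) (XT.nd (nat_lit 94) (nat_lit 0) (nat_lit 0) (XT.lf (nat_lit 0) (nat_lit 1208521507) (nat_lit 0) (nat_lit 1208521507) (nat_lit 924) (nat_lit 1593137594) (nat_lit 217) (nat_lit 5) (nat_lit 217) (nat_lit 3) (nat_lit 228) (nat_lit 3) (nat_lit 334) (nat_lit 334) (nat_lit 277)) (XT.lf (nat_lit 0) (nat_lit 6012789130) (nat_lit 924) (nat_lit 2081994868) (nat_lit 1008) (nat_lit 10279863) (nat_lit 217) (nat_lit 5) (nat_lit 228) (nat_lit 3) (nat_lit 229) (nat_lit 5) (nat_lit 335) (nat_lit 334) (nat_lit 276)))))) (XT.nd (nat_lit 752) (nat_lit 1764) (nat_lit 0) (XT.nd (nat_lit 376) (nat_lit 0) (nat_lit 84) (XT.nd (nat_lit 188) (nat_lit 0) (nat_lit 0) (XT.nd (nat_lit 94) (nat_lit 1008) (nat_lit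 0) (XT.lf (nat_lit 84) (nat_lit 1527666672) (nat_lit 0) (nat_lit 5694842474) (nat_lit 1008) (nat_lit 970023092) (nat_lit 218) (nat_lit 5) (nat_lit 217) (nat_lit 5) (nat_lit 229) (nat_lit 5) (nat_lit 336) (nat_lit 334) (nat_lit 275)) (XT.lf (nat_lit 0) (nat_lit 161066341) (nat_lit 1008) (nat_lit 3019578977) (nat_lit 1092) (nat_lit 5102650723) (nat_lit 205) (nat_lit 5) (nat_lit 217) (nat_lit 5) (nat_lit 218) (nat_lit 5) (nat_lit 337) (nat_lit 334) (nat_lit 274))) (XT.nd (nat_lit 94) (nat_lit 0) (nat_lit 84) (XT.lf (nat_lit 84) (nat_lit 716247484) (nat_lit 0) (nat_lit 556030958) (nat_lit 1092) (nat_lit 7105331920) (nat_lit 206) (nat_lit 5) (nat_lit 205) (nat_lit 5) (nat_lit 218) (nat_lit 5) (nat_lit 338) (nat_lit 334) (nat_lit 273)) (XT.lf (nat_lit 0) (nat_lit 2428208568) (nat_lit 1008) (nat_lit 3893155484) (nat_lit 1092) (nat_lit 2153132422) (nat_lit 206) (nat_lit 5) (nat_lit 218) (nat_lit 5) (nat_lit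 219) (nat_lit 5) (nat_lit 339) (nat_lit 334) (nat_lit 272)))) (XT.nd (nat_lit 188) (nat_lit 0) (nat_lit 84) (XT.nd (nat_lit 94) (nat_lit 0) (nat_lit 0) (XT.lf (nat_lit 0) (nat_lit 3585435025) (nat_lit 1008) (nat_lit 41115863) (nat_lit 1092) (nat_lit 4948821097) (nat_lit 206) (nat_lit 5) (nat_lit 218) (nat_lit 5) (nat_lit 219) (nat_lit 5) (nat_lit 340) (nat_lit 334) (nat_lit 271)) (XT.lf (nat_lit 84) (nat_lit 3981153393) (nat_lit 0) (nat_lit 796739961) (nat_lit 1092) (nat_lit 3901443956) (nat_lit 207) (nat_lit 5) (nat_lit 206) (nat_lit 5) (nat_lit 219) (nat_lit 5) (nat_lit 341) (nat_lit 334) (nat_lit 270))) (XT.nd (nat_lit 94) (nat_lit 0) (nat_lit 0) (XT.lf (nat_lit 0) (nat_lit 5990165605) (nat_lit 1008) (nat_lit 705949656) (nat_lit 1092) (nat_lit 2090861827) (nat_lit 207) (nat_lit 5) (nat_lit 219) (nat_lit 5) (nat_lit 220) (nat_lit 5) (nat_lit 342) (nat_lit 334) (nat_lit 269)) (XT.lf (nat_lit 84)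 (nat_lit 3441918818) (nat_lit 0) (nat_lit 3802193290) (nat_lit 1092) (nat_lit 1653649232) (nat_lit 208) (nat_lit 5) (nat_lit 207) (nat_lit 5) (nat_lit 220) (nat_lit 5) (nat_lit 343) (nat_lit 334) (nat_lit 268))))) (XT.nd (nat_lit 376) (nat_lit 924) (nat_lit 0) (XT.nd (nat_lit 188) (nat_lit 0) (nat_lit 0) (XT.nd (nat_lit 94) (nat_lit 1008) (nat_lit 0) (XT.lf (nat_lit 84) (nat_lit 7705515584) (nat_lit 0) (nat_lit 802437942) (nat_lit 1092) (nat_lit 504819595) (nat_lit 208) (nat_lit 5) (nat_lit 207) (nat_lit 5) (nat_lit 220) (nat_lit 5) (nat_lit 344) (nat_lit 334) (nat_lit 267)) (XT.lf (nat_lit 0) (nat_lit 682221140) (nat_lit 1092) (nat_lit 6159271749) (nat_lit 1176) (nat_lit 2289105283) (nat_lit 195) (nat_lit 5) (nat_lit 208) (nat_lit 5) (nat_lit 209) (nat_lit 5) (nat_lit 345) (nat_lit 334) (nat_lit 266))) (XT.nd (nat_lit 94) (nat_lit 0) (nat_lit 0) (XT.lf (nat_lit 0) (nat_lit 1882638497) (nat_lit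 1092) (nat_lit 1883766406) (nat_lit 1176) (nat_lit 5485831932) (nat_lit 195) (nat_lit 5) (nat_lit 208) (nat_lit 5) (nat_lit 209) (nat_lit 5) (nat_lit 346) (nat_lit 334) (nat_lit 265)) (XT.lf (nat_lit 84) (nat_lit 2546198322) (nat_lit 0) (nat_lit 564952859) (nat_lit 1176) (nat_lit 6266675228) (nat_lit 196) (nat_lit 5) (nat_lit 195) (nat_lit 5) (nat_lit 209) (nat_lit 5) (nat_lit 347) (nat_lit 334) (nat_lit 264)))) (XT.nd (nat_lit 188) (nat_lit 1008) (nat_lit 0) (XT.nd (nat_lit 94) (nat_lit 0) (nat_lit 0) (XT.lf (nat_lit 0) (nat_lit 4390404738) (nat_lit 1092) (nat_lit 2409745233) (nat_lit 1176) (nat_lit 2706679497) (nat_lit 196) (nat_lit 5) (nat_lit 209) (nat_lit 5) (nat_lit 210) (nat_lit 5) (nat_lit 348) (nat_lit 334) (nat_lit 263)) (XT.lf (nat_lit 84) (nat_lit 2157659188) (nat_lit 0) (nat_lit 3546039135) (nat_lit 1176) (nat_lit 3936194970) (nat_lit 197) (nat_lit 5) (nat_lit 196) (nat_lit 5) (nat_lit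 210) (nat_lit 5) (nat_lit 349) (nat_lit 334) (nat_lit 262))) (XT.nd (nat_lit 94) (nat_lit 1008) (nat_lit 0) (XT.lf (nat_lit 84) (nat_lit 6888069944) (nat_lit 0) (nat_lit 162650857) (nat_lit 1176) (nat_lit 2726457112) (nat_lit 197) (nat_lit 5) (nat_lit 196) (nat_lit 5) (nat_lit 210) (nat_lit 5) (nat_lit 350) (nat_lit 334) (nat_lit 261)) (XT.lf (nat_lit 0) (nat_lit 1821700755) (nat_lit 1092) (nat_lit 6636831677) (nat_lit 1176) (nat_lit 1459494356) (nat_lit 184) (nat_lit 5) (nat_lit 197) (nat_lit 5) (nat_lit 198) (nat_lit 5) (nat_lit 351) (nat_lit 334) (nat_lit 260))))))) (XT.nd (nat_lit 1504) (nat_lit 3528) (nat_lit 0) (XT.nd (nat_lit 752) (nat_lit 1848) (nat_lit 0) (XT.nd (nat_lit 376) (nat_lit 1176) (nat_lit 0) (XT.nd (nat_lit 188) (nat_lit 1260) (nat_lit 0) (XT.nd (nat_lit 94) (nat_lit 1260) (nat_lit 0) (XT.lf (nat_lit 0) (nat_lit 6707924010) (nat_lit 1092) (nat_lit 3202975960) (nat_lit 1176)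 (nat_lit 152186921) (nat_lit 184) (nat_lit 5) (nat_lit 197) (nat_lit 5) (nat_lit 198) (nat_lit 5) (nat_lit 352) (nat_lit 334) (nat_lit 259)) (XT.lf (nat_lit 0) (nat_lit 1161241204) (nat_lit 1260) (nat_lit 8693058036) (nat_lit 84) (nat_lit 358201143) (nat_lit 169) (nat_lit 5) (nat_lit 184) (nat_lit 5) (nat_lit 170) (nat_lit 5) (nat_lit 353) (nat_lit 334) (nat_lit 258))) (XT.nd (nat_lit 94) (nat_lit 1260) (nat_lit 0) (XT.lf (nat_lit 0) (nat_lit 2549628126) (nat_lit 1260) (nat_lit 3813968633) (nat_lit 84) (nat_lit 4001646582) (nat_lit 169) (nat_lit 5) (nat_lit 184) (nat_lit 5) (nat_lit 170) (nat_lit 5) (nat_lit 354) (nat_lit 334) (nat_lit 257)) (XT.lf (nat_lit 0) (nat_lit 1211743624) (nat_lit 1260) (nat_lit 2753052709) (nat_lit 1344) (nat_lit 6558267594) (nat_lit 154) (nat_lit 5) (nat_lit 169) (nat_lit 5) (nat_lit 170) (nat_lit 5) (nat_lit 355) (nat_lit 334) (nat_lit 256)))) (XT.nd (nat_lit 188) (nat_lit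 588) (nat_lit 0) (XT.nd (nat_lit 94) (nat_lit 588) (nat_lit 0) (XT.lf (nat_lit 0) (nat_lit 5444656739) (nat_lit 1344) (nat_lit 4251738852) (nat_lit 84) (nat_lit 988604219) (nat_lit 154) (nat_lit 5) (nat_lit 170) (nat_lit 5) (nat_lit 155) (nat_lit 5) (nat_lit 356) (nat_lit 334) (nat_lit 255)) (XT.lf (nat_lit 0) (nat_lit 927143874) (nat_lit 588) (nat_lit 6052753182) (nat_lit 672) (nat_lit 3871613596) (nat_lit 147) (nat_lit 5) (nat_lit 154) (nat_lit 5) (nat_lit 155) (nat_lit 5) (nat_lit 357) (nat_lit 334) (nat_lit 254))) (XT.nd (nat_lit 94) (nat_lit 588) (nat_lit 0) (XT.lf (nat_lit 0) (nat_lit 6325458052) (nat_lit 588) (nat_lit 2253996238) (nat_lit 672) (nat_lit 2443059790) (nat_lit 147) (nat_lit 5) (nat_lit 154) (nat_lit 5) (nat_lit 155) (nat_lit 5) (nat_lit 358) (nat_lit 334) (nat_lit 253)) (XT.lf (nat_lit 0) (nat_lit 660828393) (nat_lit 588) (nat_lit 9564525731) (nat_lit 672) (nat_lit 973386551)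 (nat_lit 140) (nat_lit 5) (nat_lit 147) (nat_lit 5) (nat_lit 148) (nat_lit 5) (nat_lit 359) (nat_lit 334) (nat_lit 252))))) (XT.nd (nat_lit 376) (nat_lit 588) (nat_lit 0) (XT.nd (nat_lit 188) (nat_lit 588) (nat_lit 0) (XT.nd (nat_lit 94) (nat_lit 588) (nat_lit 0) (XT.lf (nat_lit 0) (nat_lit 576311144) (nat_lit 672) (nat_lit 5154559975) (nat_lit 84) (nat_lit 5647873976) (nat_lit 139) (nat_lit 5) (nat_lit 147) (nat_lit 5) (nat_lit 140) (nat_lit 5) (nat_lit 360) (nat_lit 334) (nat_lit 251)) (XT.lf (nat_lit 0) (nat_lit 364979032) (nat_lit 588) (nat_lit 1768417943) (nat_lit 672) (nat_lit 9431089737) (nat_lit 132) (nat_lit 5) (nat_lit 139) (nat_lit 5) (nat_lit 140) (nat_lit 5) (nat_lit 361) (nat_lit 334) (nat_lit 250))) (XT.nd (nat_lit 94) (nat_lit 588) (nat_lit 0) (XT.lf (nat_lit 0) (nat_lit 3789402131) (nat_lit 672) (nat_lit 5644511604) (nat_lit 84) (nat_lit 2320359502) (nat_lit 132) (nat_lit 5) (nat_lit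 140) (nat_lit 5) (nat_lit 133) (nat_lit 5) (nat_lit 362) (nat_lit 334) (nat_lit 249)) (XT.lf (nat_lit 0) (nat_lit 37748535) (nat_lit 588) (nat_lit 5453276246) (nat_lit 672) (nat_lit 6458888189) (nat_lit 125) (nat_lit 5) (nat_lit 132) (nat_lit 5) (nat_lit 133) (nat_lit 5) (nat_lit 363) (nat_lit 334) (nat_lit 248)))) (XT.nd (nat_lit 188) (nat_lit 588) (nat_lit 0) (XT.nd (nat_lit 94) (nat_lit 0) (nat_lit 0) (XT.lf (nat_lit 0) (nat_lit 5983791794) (nat_lit 588) (nat_lit 1295391835) (nat_lit 672) (nat_lit 4871210271) (nat_lit 125) (nat_lit 5) (nat_lit 132) (nat_lit 5) (nat_lit 133) (nat_lit 5) (nat_lit 364) (nat_lit 334) (nat_lit 247)) (XT.lf (nat_lit 0) (nat_lit 9128809649) (nat_lit 672) (nat_lit 299781317) (nat_lit 84) (nat_lit 2928099183) (nat_lit 125) (nat_lit 5) (nat_lit 133) (nat_lit 5) (nat_lit 126) (nat_lit 5) (nat_lit 365) (nat_lit 334) (nat_lit 246))) (XT.nd (nat_lit 94) (nat_lit 84) (nat_lit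 0) (XT.lf (nat_lit 0) (nat_lit 5822087223) (nat_lit 504) (nat_lit 5260344211) (nat_lit 588) (nat_lit 1485323173) (nat_lit 119) (nat_lit 5) (nat_lit 125) (nat_lit 5) (nat_lit 126) (nat_lit 5) (nat_lit 366) (nat_lit 334) (nat_lit 245)) (XT.lf (nat_lit 0) (nat_lit 286398193) (nat_lit 588) (nat_lit 676269451) (nat_lit 84) (nat_lit 11822938834) (nat_lit 118) (nat_lit 5) (nat_lit 125) (nat_lit 5) (nat_lit 119) (nat_lit 5) (nat_lit 367) (nat_lit 334) (nat_lit 244)))))) (XT.nd (nat_lit 752) (nat_lit 1596) (nat_lit 0) (XT.nd (nat_lit 376) (nat_lit 1008) (nat_lit 0) (XT.nd (nat_lit 188) (nat_lit 420) (nat_lit 0) (XT.nd (nat_lit 94) (nat_lit 0) (nat_lit 0) (XT.lf (nat_lit 0) (nat_lit 2150143224) (nat_lit 588) (nat_lit 7393081805) (nat_lit 84) (nat_lit 3464297524) (nat_lit 112) (nat_lit 5) (nat_lit 119) (nat_lit 5) (nat_lit 113) (nat_lit 5) (nat_lit 368) (nat_lit 334) (nat_lit 243)) (XT.lf (nat_lit 0) (nat_lit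 4067032403) (nat_lit 588) (nat_lit 1159454961) (nat_lit 84) (nat_lit 8009722470) (nat_lit 112) (nat_lit 5) (nat_lit 119) (nat_lit 5) (nat_lit 113) (nat_lit 5) (nat_lit 369) (nat_lit 334) (nat_lit 242))) (XT.nd (nat_lit 94) (nat_lit 0) (nat_lit 0) (XT.lf (nat_lit 0) (nat_lit 5344401383) (nat_lit 420) (nat_lit 729763469) (nat_lit 504) (nat_lit 7396640570) (nat_lit 107) (nat_lit 5) (nat_lit 112) (nat_lit 5) (nat_lit 113) (nat_lit 5) (nat_lit 370) (nat_lit 334) (nat_lit 241)) (XT.lf (nat_lit 0) (nat_lit 8172523069) (nat_lit 504) (nat_lit 1703983897) (nat_lit 84) (nat_lit 3835030474) (nat_lit 107) (nat_lit 5) (nat_lit 113) (nat_lit 5) (nat_lit 108) (nat_lit 5) (nat_lit 371) (nat_lit 334) (nat_lit 240)))) (XT.nd (nat_lit 188) (nat_lit 504) (nat_lit 0) (XT.nd (nat_lit 94) (nat_lit 0) (nat_lit 0) (XT.lf (nat_lit 0) (nat_lit 4980275942) (nat_lit 504) (nat_lit 5390869068) (nat_lit 588) (nat_lit 3587255095)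 (nat_lit 101) (nat_lit 5) (nat_lit 107) (nat_lit 5) (nat_lit 108) (nat_lit 5) (nat_lit 372) (nat_lit 334) (nat_lit 239)) (XT.lf (nat_lit 0) (nat_lit 11879406759) (nat_lit 504) (nat_lit 756060027) (nat_lit 588) (nat_lit 1577236886) (nat_lit 101) (nat_lit 5) (nat_lit 107) (nat_lit 5) (nat_lit 108) (nat_lit 5) (nat_lit 373) (nat_lit 334) (nat_lit 238))) (XT.nd (nat_lit 94) (nat_lit 0) (nat_lit 0) (XT.lf (nat_lit 0) (nat_lit 549360516) (nat_lit 504) (nat_lit 9937731113) (nat_lit 84) (nat_lit 3985451201) (nat_lit 95) (nat_lit 5) (nat_lit 101) (nat_lit 5) (nat_lit 96) (nat_lit 5) (nat_lit 374) (nat_lit 334) (nat_lit 237)) (XT.lf (nat_lit 0) (nat_lit 2722458831) (nat_lit 504) (nat_lit 3126664799) (nat_lit 84) (nat_lit 8890177876) (nat_lit 95) (nat_lit 5) (nat_lit 101) (nat_lit 5) (nat_lit 96) (nat_lit 5) (nat_lit 375) (nat_lit 334) (nat_lit 236))))) (XT.nd (nat_lit 376) (nat_lit 840) (nat_lit 0) (XT.nd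 (nat_lit 188) (nat_lit 336) (nat_lit 0) (XT.nd (nat_lit 94) (nat_lit 0) (nat_lit 0) (XT.lf (nat_lit 0) (nat_lit 3945676247) (nat_lit 420) (nat_lit 1036616799) (nat_lit 504) (nat_lit 10031147825) (nat_lit 90) (nat_lit 5) (nat_lit 95) (nat_lit 5) (nat_lit 96) (nat_lit 5) (nat_lit 376) (nat_lit 334) (nat_lit 235)) (XT.lf (nat_lit 0) (nat_lit 7363357040) (nat_lit 504) (nat_lit 4058898127) (nat_lit 84) (nat_lit 3871969719) (nat_lit 90) (nat_lit 5) (nat_lit 96) (nat_lit 5) (nat_lit 91) (nat_lit 5) (nat_lit 377) (nat_lit 334) (nat_lit 234))) (XT.nd (nat_lit 94) (nat_lit 0) (nat_lit 0) (XT.lf (nat_lit 0) (nat_lit 3192535295) (nat_lit 336) (nat_lit 6648604720) (nat_lit 420) (nat_lit 5741556622) (nat_lit 86) (nat_lit 5) (nat_lit 90) (nat_lit 5) (nat_lit 91) (nat_lit 5) (nat_lit 378) (nat_lit 334) (nat_lit 233)) (XT.lf (nat_lit 0) (nat_lit 10725175218) (nat_lit 336) (nat_lit 1693671535) (nat_lit 420) (nat_lit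 3460230242) (nat_lit 86) (nat_lit 5) (nat_lit 90) (nat_lit 5) (nat_lit 91) (nat_lit 5) (nat_lit 379) (nat_lit 334) (nat_lit 232)))) (XT.nd (nat_lit 188) (nat_lit 336) (nat_lit 0) (XT.nd (nat_lit 94) (nat_lit 84) (nat_lit 0) (XT.lf (nat_lit 0) (nat_lit 2291990316) (nat_lit 420) (nat_lit 12821717669) (nat_lit 504) (nat_lit 1069467600) (nat_lit 81) (nat_lit 5) (nat_lit 86) (nat_lit 5) (nat_lit 87) (nat_lit 5) (nat_lit 380) (nat_lit 334) (nat_lit 231)) (XT.lf (nat_lit 0) (nat_lit 1420262341) (nat_lit 504) (nat_lit 6478130287) (nat_lit 84) (nat_lit 8595990252) (nat_lit 80) (nat_lit 5) (nat_lit 86) (nat_lit 5) (nat_lit 81) (nat_lit 5) (nat_lit 381) (nat_lit 334) (nat_lit 230))) (XT.nd (nat_lit 94) (nat_lit 0) (nat_lit 0) (XT.lf (nat_lit 0) (nat_lit 1150212402) (nat_lit 336) (nat_lit 2809565704) (nat_lit 420) (nat_lit 12854952640) (nat_lit 76) (nat_lit 5) (nat_lit 80) (nat_lit 5) (nat_lit 81) (nat_lit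 5) (nat_lit 382) (nat_lit 334) (nat_lit 229)) (XT.lf (nat_lit 0) (nat_lit 6650650426) (nat_lit 420) (nat_lit 8045726967) (nat_lit 84) (nat_lit 2446075641) (nat_lit 76) (nat_lit 5) (nat_lit 81) (nat_lit 5) (nat_lit 77) (nat_lit 5) (nat_lit 383) (nat_lit 334) (nat_lit 228))))))))
noncomputable def xc42 : XT := (XT.nd (nat_lit 57152) (nat_lit 0) (nat_lit 0) (XT.nd (nat_lit 55648) (nat_lit 0) (nat_lit 6048) (XT.nd (nat_lit 54896) (nat_lit 0) (nat_lit 10668) (XT.nd (nat_lit 282) (nat_lit 420) (nat_lit 0) (XT.nd (nat_lit 94) (nat_lit 336) (nat_lit 0) (XT.lf (nat_lit 0) (nat_lit 9436211852) (nat_lit 420) (nat_lit 244807054) (nat_lit 84) (nat_lit 7798587758) (nat_lit 76) (nat_lit 5) (nat_lit 81) (nat_lit 5) (nat_lit 77) (nat_lit 5) (nat_lit 384) (nat_lit 334) (nat_lit 227)) (XT.nd (nat_lit 94) (nat_lit 0) (nat_lit 0) (XT.lf (nat_lit 0) (nat_lit 7926744328) (nat_lit 336) (nat_lit 4441341493) (nat_lit 420)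 (nat_lit 5456924731) (nat_lit 72) (nat_lit 5) (nat_lit 76) (nat_lit 5) (nat_lit 77) (nat_lit 5) (nat_lit 385) (nat_lit 334) (nat_lit 226)) (XT.lf (nat_lit 0) (nat_lit 15386321512) (nat_lit 420) (nat_lit 1859719237) (nat_lit 84) (nat_lit 934801137) (nat_lit 72) (nat_lit 5) (nat_lit 77) (nat_lit 5) (nat_lit 73) (nat_lit 5) (nat_lit 386) (nat_lit 334) (nat_lit 225)))) (XT.nd (nat_lit 54426) (nat_lit 0) (nat_lit 11508) (XT.nd (nat_lit 94) (nat_lit 0) (nat_lit 0) (XT.lf (nat_lit 0) (nat_lit 43104116) (nat_lit 420) (nat_lit 12060168265) (nat_lit 84) (nat_lit 6441277481) (nat_lit 67) (nat_lit 5) (nat_lit 72) (nat_lit 5) (nat_lit 68) (nat_lit 5) (nat_lit 387) (nat_lit 334) (nat_lit 224)) (XT.lf (nat_lit 0) (nat_lit 2915831104) (nat_lit 420) (nat_lit 3847365382) (nat_lit 84) (nat_lit 12154974321) (nat_lit 67) (nat_lit 5) (nat_lit 72) (nat_lit 5) (nat_lit 68) (nat_lit 5) (nat_lit 388) (nat_lit 334) (nat_lit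 223))) (XT.nd (nat_lit 94) (nat_lit 1092) (nat_lit 0) (XT.lf (nat_lit 0) (nat_lit 1792506454) (nat_lit 0) (nat_lit 1792506454) (nat_lit 924) (nat_lit 510215573) (nat_lit 217) (nat_lit 5) (nat_lit 217) (nat_lit 3) (nat_lit 228) (nat_lit 3) (nat_lit 335) (nat_lit 335) (nat_lit 275)) (XT.lf (nat_lit 0) (nat_lit 39626793) (nat_lit 1092) (nat_lit 1012726110) (nat_lit 1092) (nat_lit 7227393081) (nat_lit 204) (nat_lit 3) (nat_lit 217) (nat_lit 3) (nat_lit 217) (nat_lit 5) (nat_lit 336) (nat_lit 335) (nat_lit 274))))) (XT.nd (nat_lit 376) (nat_lit 924) (nat_lit 0) (XT.nd (nat_lit 188) (nat_lit 0) (nat_lit 0) (XT.nd (nat_lit 94) (nat_lit 0) (nat_lit 0) (XT.lf (nat_lit 0) (nat_lit 1111349893) (nat_lit 1008) (nat_lit 5678173083) (nat_lit 1092) (nat_lit 1581962732) (nat_lit 205) (nat_lit 5) (nat_lit 217) (nat_lit 5) (nat_lit 218) (nat_lit 5) (nat_lit 337) (nat_lit 335) (nat_lit 273)) (XT.lf (nat_lit 0) (nat_lit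 2195973259) (nat_lit 1008) (nat_lit 1967414636) (nat_lit 1092) (nat_lit 4303251083) (nat_lit 205) (nat_lit 5) (nat_lit 217) (nat_lit 5) (nat_lit 218) (nat_lit 5) (nat_lit 338) (nat_lit 335) (nat_lit 272))) (XT.nd (nat_lit 94) (nat_lit 0) (nat_lit 84) (XT.lf (nat_lit 84) (nat_lit 1869283170) (nat_lit 0) (nat_lit 1422987290) (nat_lit 1092) (nat_lit 5273083700) (nat_lit 206) (nat_lit 5) (nat_lit 205) (nat_lit 5) (nat_lit 218) (nat_lit 5) (nat_lit 339) (nat_lit 335) (nat_lit 271)) (XT.lf (nat_lit 0) (nat_lit 4417220163) (nat_lit 1008) (nat_lit 2841691758) (nat_lit 1092) (nat_lit 1408324970) (nat_lit 206) (nat_lit 5) (nat_lit 218) (nat_lit 5) (nat_lit 219) (nat_lit 5) (nat_lit 340) (nat_lit 335) (nat_lit 270)))) (XT.nd (nat_lit 188) (nat_lit 1008) (nat_lit 0) (XT.nd (nat_lit 94) (nat_lit 0) (nat_lit 0) (XT.lf (nat_lit 84) (nat_lit 1113612702) (nat_lit 0) (nat_lit 4450444797) (nat_lit 1092) (nat_lit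 3208551128) (nat_lit 207) (nat_lit 5) (nat_lit 206) (nat_lit 5) (nat_lit 219) (nat_lit 5) (nat_lit 341) (nat_lit 335) (nat_lit 269)) (XT.lf (nat_lit 84) (nat_lit 5223699526) (nat_lit 0) (nat_lit 1514496272) (nat_lit 1092) (nat_lit 2143233308) (nat_lit 207) (nat_lit 5) (nat_lit 206) (nat_lit 5) (nat_lit 219) (nat_lit 5) (nat_lit 342) (nat_lit 335) (nat_lit 268))) (XT.nd (nat_lit 94) (nat_lit 1092) (nat_lit 0) (XT.lf (nat_lit 84) (nat_lit 434822442) (nat_lit 0) (nat_lit 7496796738) (nat_lit 1092) (nat_lit 1062445485) (nat_lit 208) (nat_lit 5) (nat_lit 207) (nat_lit 5) (nat_lit 220) (nat_lit 5) (nat_lit 343) (nat_lit 335) (nat_lit 267)) (XT.lf (nat_lit 0) (nat_lit 67831038) (nat_lit 1092) (nat_lit 4422942556) (nat_lit 1176) (nat_lit 4618817533) (nat_lit 194) (nat_lit 5) (nat_lit 207) (nat_lit 5) (nat_lit 208) (nat_lit 5) (nat_lit 344) (nat_lit 335) (nat_lit 266)))))) (XT.nd (nat_lit 752) (nat_lit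 3780) (nat_lit 0) (XT.nd (nat_lit 376) (nat_lit 840) (nat_lit 0) (XT.nd (nat_lit 188) (nat_lit 0) (nat_lit 84) (XT.nd (nat_lit 94) (nat_lit 0) (nat_lit 84) (XT.lf (nat_lit 0) (nat_lit 1177418148) (nat_lit 1092) (nat_lit 195649402) (nat_lit 1176) (nat_lit 7856263725) (nat_lit 194) (nat_lit 5) (nat_lit 207) (nat_lit 5) (nat_lit 208) (nat_lit 5) (nat_lit 345) (nat_lit 335) (nat_lit 265)) (XT.lf (nat_lit 0) (nat_lit 2346742568) (nat_lit 1092) (nat_lit 5151780985) (nat_lit 1176) (nat_lit 1853410815) (nat_lit 195) (nat_lit 5) (nat_lit 208) (nat_lit 5) (nat_lit 209) (nat_lit 5) (nat_lit 346) (nat_lit 335) (nat_lit 264))) (XT.nd (nat_lit 94) (nat_lit 0) (nat_lit 0) (XT.lf (nat_lit 0) (nat_lit 3535287355) (nat_lit 1092) (nat_lit 782736762) (nat_lit 1176) (nat_lit 5160729583) (nat_lit 195) (nat_lit 5) (nat_lit 208) (nat_lit 5) (nat_lit 209) (nat_lit 5) (nat_lit 347) (nat_lit 335) (nat_lit 263)) (XT.lf (nat_lit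 84) (nat_lit 3768778452) (nat_lit 0) (nat_lit 996404508) (nat_lit 1176) (nat_lit 4844084363) (nat_lit 196) (nat_lit 5) (nat_lit 195) (nat_lit 5) (nat_lit 209) (nat_lit 5) (nat_lit 348) (nat_lit 335) (nat_lit 262)))) (XT.nd (nat_lit 188) (nat_lit 1008) (nat_lit 0) (XT.nd (nat_lit 94) (nat_lit 0) (nat_lit 0) (XT.lf (nat_lit 0) (nat_lit 6033488517) (nat_lit 1092) (nat_lit 1316918643) (nat_lit 1176) (nat_lit 2393302586) (nat_lit 196) (nat_lit 5) (nat_lit 209) (nat_lit 5) (nat_lit 210) (nat_lit 5) (nat_lit 349) (nat_lit 335) (nat_lit 261)) (XT.lf (nat_lit 84) (nat_lit 3376085176) (nat_lit 0) (nat_lit 3977165234) (nat_lit 1176) (nat_lit 2528589887) (nat_lit 197) (nat_lit 5) (nat_lit 196) (nat_lit 5) (nat_lit 210) (nat_lit 5) (nat_lit 350) (nat_lit 335) (nat_lit 260))) (XT.nd (nat_lit 94) (nat_lit 1008) (nat_lit 0) (XT.lf (nat_lit 84) (nat_lit 8214805452) (nat_lit 0) (nat_lit 482816718) (nat_lit 1176)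 (nat_lit 1326997493) (nat_lit 197) (nat_lit 5) (nat_lit 196) (nat_lit 5) (nat_lit 210) (nat_lit 5) (nat_lit 351) (nat_lit 335) (nat_lit 259)) (XT.lf (nat_lit 0) (nat_lit 3033888738) (nat_lit 1092) (nat_lit 7080156737) (nat_lit 1176) (nat_lit 56739119) (nat_lit 184) (nat_lit 5) (nat_lit 197) (nat_lit 5) (nat_lit 198) (nat_lit 5) (nat_lit 352) (nat_lit 335) (nat_lit 258))))) (XT.nd (nat_lit 376) (nat_lit 1260) (nat_lit 0) (XT.nd (nat_lit 188) (nat_lit 1260) (nat_lit 0) (XT.nd (nat_lit 94) (nat_lit 1176) (nat_lit 0) (XT.lf (nat_lit 0) (nat_lit 1223309055) (nat_lit 1176) (nat_lit 2300510064) (nat_lit 84) (nat_lit 6797321943) (nat_lit 183) (nat_lit 5) (nat_lit 197) (nat_lit 5) (nat_lit 184) (nat_lit 5) (nat_lit 353) (nat_lit 335) (nat_lit 257)) (XT.lf (nat_lit 0) (nat_lit 2541982321) (nat_lit 1260) (nat_lit 7766451377) (nat_lit 84) (nat_lit 167565982) (nat_lit 169) (nat_lit 5) (nat_lit 184) (nat_lit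 5) (nat_lit 170) (nat_lit 5) (nat_lit 354) (nat_lit 335) (nat_lit 256))) (XT.nd (nat_lit 94) (nat_lit 1260) (nat_lit 0) (XT.lf (nat_lit 0) (nat_lit 3932819766) (nat_lit 1260) (nat_lit 2775573711) (nat_lit 84) (nat_lit 3926180256) (nat_lit 169) (nat_lit 5) (nat_lit 184) (nat_lit 5) (nat_lit 170) (nat_lit 5) (nat_lit 355) (nat_lit 335) (nat_lit 255)) (XT.lf (nat_lit 0) (nat_lit 2389607815) (nat_lit 1260) (nat_lit 2973748809) (nat_lit 1344) (nat_lit 5434655559) (nat_lit 154) (nat_lit 5) (nat_lit 169) (nat_lit 5) (nat_lit 170) (nat_lit 5) (nat_lit 356) (nat_lit 335) (nat_lit 254)))) (XT.nd (nat_lit 188) (nat_lit 672) (nat_lit 0) (XT.nd (nat_lit 94) (nat_lit 588) (nat_lit 0) (XT.lf (nat_lit 0) (nat_lit 6849053584) (nat_lit 1344) (nat_lit 3230181223) (nat_lit 84) (nat_lit 886796712) (nat_lit 154) (nat_lit 5) (nat_lit 170) (nat_lit 5) (nat_lit 155) (nat_lit 5) (nat_lit 357) (nat_lit 335) (nat_lit 253))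 (XT.lf (nat_lit 0) (nat_lit 2092802202) (nat_lit 588) (nat_lit 6312339265) (nat_lit 672) (nat_lit 2733219107) (nat_lit 147) (nat_lit 5) (nat_lit 154) (nat_lit 5) (nat_lit 155) (nat_lit 5) (nat_lit 358) (nat_lit 335) (nat_lit 252))) (XT.nd (nat_lit 94) (nat_lit 672) (nat_lit 0) (XT.lf (nat_lit 0) (nat_lit 7619924719) (nat_lit 588) (nat_lit 2397347666) (nat_lit 672) (nat_lit 1298348771) (nat_lit 147) (nat_lit 5) (nat_lit 154) (nat_lit 5) (nat_lit 155) (nat_lit 5) (nat_lit 359) (nat_lit 335) (nat_lit 251)) (XT.lf (nat_lit 0) (nat_lit 186701034) (nat_lit 672) (nat_lit 9687307374) (nat_lit 84) (nat_lit 1623860270) (nat_lit 139) (nat_lit 5) (nat_lit 147) (nat_lit 5) (nat_lit 140) (nat_lit 5) (nat_lit 360) (nat_lit 335) (nat_lit 250))))))) (XT.nd (nat_lit 1504) (nat_lit 2352) (nat_lit 0) (XT.nd (nat_lit 752) (nat_lit 1428) (nat_lit 0) (XT.nd (nat_lit 376) (nat_lit 1092) (nat_lit 0) (XT.nd (nat_lit 188)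 (nat_lit 588) (nat_lit 0) (XT.nd (nat_lit 94) (nat_lit 588) (nat_lit 0) (XT.lf (nat_lit 0) (nat_lit 1729255894) (nat_lit 672) (nat_lit 4185794068) (nat_lit 84) (nat_lit 5769015407) (nat_lit 139) (nat_lit 5) (nat_lit 147) (nat_lit 5) (nat_lit 140) (nat_lit 5) (nat_lit 361) (nat_lit 335) (nat_lit 249)) (XT.lf (nat_lit 0) (nat_lit 1488317357) (nat_lit 588) (nat_lit 1822352564) (nat_lit 672) (nat_lit 8565438294) (nat_lit 132) (nat_lit 5) (nat_lit 139) (nat_lit 5) (nat_lit 140) (nat_lit 5) (nat_lit 362) (nat_lit 335) (nat_lit 248))) (XT.nd (nat_lit 94) (nat_lit 588) (nat_lit 0) (XT.lf (nat_lit 0) (nat_lit 4983921629) (nat_lit 672) (nat_lit 4699564883) (nat_lit 84) (nat_lit 2389130608) (nat_lit 132) (nat_lit 5) (nat_lit 140) (nat_lit 5) (nat_lit 133) (nat_lit 5) (nat_lit 363) (nat_lit 335) (nat_lit 247)) (XT.lf (nat_lit 0) (nat_lit 1142238727) (nat_lit 588) (nat_lit 5573479679) (nat_lit 672) (nat_lit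 5559088026) (nat_lit 125) (nat_lit 5) (nat_lit 132) (nat_lit 5) (nat_lit 133) (nat_lit 5) (nat_lit 364) (nat_lit 335) (nat_lit 246)))) (XT.nd (nat_lit 188) (nat_lit 588) (nat_lit 0) (XT.nd (nat_lit 94) (nat_lit 504) (nat_lit 0) (XT.lf (nat_lit 0) (nat_lit 7234526650) (nat_lit 588) (nat_lit 1292122663) (nat_lit 672) (nat_lit 3955631231) (nat_lit 125) (nat_lit 5) (nat_lit 132) (nat_lit 5) (nat_lit 133) (nat_lit 5) (nat_lit 365) (nat_lit 335) (nat_lit 245)) (XT.lf (nat_lit 0) (nat_lit 777703254) (nat_lit 504) (nat_lit 9631956312) (nat_lit 588) (nat_lit 2285820295) (nat_lit 119) (nat_lit 5) (nat_lit 125) (nat_lit 5) (nat_lit 126) (nat_lit 5) (nat_lit 366) (nat_lit 335) (nat_lit 244))) (XT.nd (nat_lit 94) (nat_lit 588) (nat_lit 0) (XT.lf (nat_lit 0) (nat_lit 7057549096) (nat_lit 504) (nat_lit 5337950262) (nat_lit 588) (nat_lit 518218169) (nat_lit 119) (nat_lit 5) (nat_lit 125) (nat_lit 5) (nat_lit 126)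 (nat_lit 5) (nat_lit 367) (nat_lit 335) (nat_lit 243)) (XT.lf (nat_lit 0) (nat_lit 361114581) (nat_lit 504) (nat_lit 900379314) (nat_lit 588) (nat_lit 11877128621) (nat_lit 112) (nat_lit 5) (nat_lit 118) (nat_lit 5) (nat_lit 119) (nat_lit 5) (nat_lit 368) (nat_lit 335) (nat_lit 242))))) (XT.nd (nat_lit 376) (nat_lit 1008) (nat_lit 0) (XT.nd (nat_lit 188) (nat_lit 420) (nat_lit 0) (XT.nd (nat_lit 94) (nat_lit 0) (nat_lit 0) (XT.lf (nat_lit 0) (nat_lit 3160547260) (nat_lit 588) (nat_lit 6545604333) (nat_lit 84) (nat_lit 3661707951) (nat_lit 112) (nat_lit 5) (nat_lit 119) (nat_lit 5) (nat_lit 113) (nat_lit 5) (nat_lit 369) (nat_lit 335) (nat_lit 241)) (XT.lf (nat_lit 0) (nat_lit 5107392637) (nat_lit 588) (nat_lit 156112468) (nat_lit 84) (nat_lit 8340772883) (nat_lit 112) (nat_lit 5) (nat_lit 119) (nat_lit 5) (nat_lit 113) (nat_lit 5) (nat_lit 370) (nat_lit 335) (nat_lit 240))) (XT.nd (nat_lit 94)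 (nat_lit 0) (nat_lit 0) (XT.lf (nat_lit 0) (nat_lit 6532681859) (nat_lit 420) (nat_lit 625190432) (nat_lit 504) (nat_lit 6688587902) (nat_lit 107) (nat_lit 5) (nat_lit 112) (nat_lit 5) (nat_lit 113) (nat_lit 5) (nat_lit 371) (nat_lit 335) (nat_lit 239)) (XT.lf (nat_lit 0) (nat_lit 9294104743) (nat_lit 504) (nat_lit 730635300) (nat_lit 84) (nat_lit 4070467927) (nat_lit 107) (nat_lit 5) (nat_lit 113) (nat_lit 5) (nat_lit 108) (nat_lit 5) (nat_lit 372) (nat_lit 335) (nat_lit 238)))) (XT.nd (nat_lit 188) (nat_lit 504) (nat_lit 0) (XT.nd (nat_lit 94) (nat_lit 0) (nat_lit 0) (XT.lf (nat_lit 0) (nat_lit 6144108529) (nat_lit 504) (nat_lit 5398801692) (nat_lit 588) (nat_lit 2807079841) (nat_lit 101) (nat_lit 5) (nat_lit 107) (nat_lit 5) (nat_lit 108) (nat_lit 5) (nat_lit 373) (nat_lit 335) (nat_lit 237)) (XT.lf (nat_lit 0) (nat_lit 13220666932) (nat_lit 504) (nat_lit 629427801) (nat_lit 588) (nat_lit 762619130)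 (nat_lit 101) (nat_lit 5) (nat_lit 107) (nat_lit 5) (nat_lit 108) (nat_lit 5) (nat_lit 374) (nat_lit 335) (nat_lit 236))) (XT.nd (nat_lit 94) (nat_lit 0) (nat_lit 0) (XT.lf (nat_lit 0) (nat_lit 1397455964) (nat_lit 504) (nat_lit 9218169683) (nat_lit 84) (nat_lit 4264915885) (nat_lit 95) (nat_lit 5) (nat_lit 101) (nat_lit 5) (nat_lit 96) (nat_lit 5) (nat_lit 375) (nat_lit 335) (nat_lit 235)) (XT.lf (nat_lit 0) (nat_lit 3611525442) (nat_lit 504) (nat_lit 2232412934) (nat_lit 84) (nat_lit 9312127045) (nat_lit 95) (nat_lit 5) (nat_lit 101) (nat_lit 5) (nat_lit 96) (nat_lit 5) (nat_lit 376) (nat_lit 335) (nat_lit 234)))))) (XT.nd (nat_lit 752) (nat_lit 756) (nat_lit 0) (XT.nd (nat_lit 376) (nat_lit 840) (nat_lit 0) (XT.nd (nat_lit 188) (nat_lit 336) (nat_lit 0) (XT.nd (nat_lit 94) (nat_lit 0) (nat_lit 0) (XT.lf (nat_lit 0) (nat_lit 5042411561) (nat_lit 420) (nat_lit 882631469) (nat_lit 504) (nat_lit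 9513844043) (nat_lit 90) (nat_lit 5) (nat_lit 95) (nat_lit 5) (nat_lit 96) (nat_lit 5) (nat_lit 377) (nat_lit 335) (nat_lit 233)) (XT.lf (nat_lit 0) (nat_lit 8356160986) (nat_lit 504) (nat_lit 3208293312) (nat_lit 84) (nat_lit 4164315395) (nat_lit 90) (nat_lit 5) (nat_lit 96) (nat_lit 5) (nat_lit 91) (nat_lit 5) (nat_lit 378) (nat_lit 335) (nat_lit 232))) (XT.nd (nat_lit 94) (nat_lit 0) (nat_lit 0) (XT.lf (nat_lit 0) (nat_lit 4251150056) (nat_lit 336) (nat_lit 6643900171) (nat_lit 420) (nat_lit 5131274950) (nat_lit 86) (nat_lit 5) (nat_lit 90) (nat_lit 5) (nat_lit 91) (nat_lit 5) (nat_lit 379) (nat_lit 335) (nat_lit 231)) (XT.lf (nat_lit 0) (nat_lit 11981725331) (nat_lit 336) (nat_lit 1546265477) (nat_lit 420) (nat_lit 2804300867) (nat_lit 86) (nat_lit 5) (nat_lit 90) (nat_lit 5) (nat_lit 91) (nat_lit 5) (nat_lit 380) (nat_lit 335) (nat_lit 230)))) (XT.nd (nat_lit 188) (nat_lit 336) (nat_lit 0)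 (XT.nd (nat_lit 94) (nat_lit 84) (nat_lit 0) (XT.lf (nat_lit 0) (nat_lit 3307424126) (nat_lit 420) (nat_lit 12985769892) (nat_lit 504) (nat_lit 352665200) (nat_lit 81) (nat_lit 5) (nat_lit 86) (nat_lit 5) (nat_lit 87) (nat_lit 5) (nat_lit 381) (nat_lit 335) (nat_lit 229)) (XT.lf (nat_lit 0) (nat_lit 2175756576) (nat_lit 504) (nat_lit 5738214992) (nat_lit 84) (nat_lit 9052885908) (nat_lit 80) (nat_lit 5) (nat_lit 86) (nat_lit 5) (nat_lit 81) (nat_lit 5) (nat_lit 382) (nat_lit 335) (nat_lit 228))) (XT.nd (nat_lit 94) (nat_lit 0) (nat_lit 0) (XT.lf (nat_lit 0) (nat_lit 2109818574) (nat_lit 336) (nat_lit 2669768185) (nat_lit 420) (nat_lit 12517613413) (nat_lit 76) (nat_lit 5) (nat_lit 80) (nat_lit 5) (nat_lit 81) (nat_lit 5) (nat_lit 383) (nat_lit 335) (nat_lit 227)) (XT.lf (nat_lit 0) (nat_lit 7532858625) (nat_lit 420) (nat_lit 7369702408) (nat_lit 84) (nat_lit 2732770332) (nat_lit 76) (nat_lit 5)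 (nat_lit 81) (nat_lit 5) (nat_lit 77) (nat_lit 5) (nat_lit 384) (nat_lit 335) (nat_lit 226))))) (XT.nd (nat_lit 54708) (nat_lit 0) (nat_lit 11508) (XT.nd (nat_lit 188) (nat_lit 420) (nat_lit 0) (XT.nd (nat_lit 94) (nat_lit 0) (nat_lit 0) (XT.lf (nat_lit 0) (nat_lit 651232715) (nat_lit 336) (nat_lit 9737130089) (nat_lit 420) (nat_lit 7594672161) (nat_lit 72) (nat_lit 5) (nat_lit 76) (nat_lit 5) (nat_lit 77) (nat_lit 5) (nat_lit 385) (nat_lit 335) (nat_lit 225)) (XT.lf (nat_lit 0) (nat_lit 9046490625) (nat_lit 336) (nat_lit 4344615119) (nat_lit 420) (nat_lit 4948233707) (nat_lit 72) (nat_lit 5) (nat_lit 76) (nat_lit 5) (nat_lit 77) (nat_lit 5) (nat_lit 386) (nat_lit 335) (nat_lit 224))) (XT.nd (nat_lit 94) (nat_lit 420) (nat_lit 0) (XT.lf (nat_lit 0) (nat_lit 16483045068) (nat_lit 420) (nat_lit 1041574111) (nat_lit 84) (nat_lit 1181756959) (nat_lit 72) (nat_lit 5) (nat_lit 77) (nat_lit 5) (nat_lit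 73) (nat_lit 5) (nat_lit 387) (nat_lit 335) (nat_lit 223)) (XT.lf (nat_lit 0) (nat_lit 676334967) (nat_lit 420) (nat_lit 11543238875) (nat_lit 84) (nat_lit 6861565443) (nat_lit 67) (nat_lit 5) (nat_lit 72) (nat_lit 5) (nat_lit 68) (nat_lit 5) (nat_lit 388) (nat_lit 335) (nat_lit 222)))) (XT.nd (nat_lit 188) (nat_lit 0) (nat_lit 84) (XT.nd (nat_lit 94) (nat_lit 0) (nat_lit 0) (XT.lf (nat_lit 0) (nat_lit 529743442) (nat_lit 1092) (nat_lit 1827476235) (nat_lit 1092) (nat_lit 1827476235) (nat_lit 204) (nat_lit 3) (nat_lit 217) (nat_lit 3) (nat_lit 217) (nat_lit 5) (nat_lit 336) (nat_lit 336) (nat_lit 273)) (XT.lf (nat_lit 84) (nat_lit 4109807) (nat_lit 0) (nat_lit 2065892199) (nat_lit 1092) (nat_lit 6393007068) (nat_lit 205) (nat_lit 5) (nat_lit 204) (nat_lit 3) (nat_lit 217) (nat_lit 5) (nat_lit 337) (nat_lit 336) (nat_lit 272))) (XT.nd (nat_lit 94) (nat_lit 0) (nat_lit 0) (XT.lf (nat_lit 0) (nat_lit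 3115636921) (nat_lit 1008) (nat_lit 4739050595) (nat_lit 1092) (nat_lit 704684564) (nat_lit 205) (nat_lit 5) (nat_lit 217) (nat_lit 5) (nat_lit 218) (nat_lit 5) (nat_lit 338) (nat_lit 336) (nat_lit 271)) (XT.lf (nat_lit 0) (nat_lit 4175392778) (nat_lit 1008) (nat_lit 949283988) (nat_lit 1092) (nat_lit 3534545654) (nat_lit 205) (nat_lit 5) (nat_lit 217) (nat_lit 5) (nat_lit 218) (nat_lit 5) (nat_lit 339) (nat_lit 336) (nat_lit 270))))))))
noncomputable def xc43 : XT := (XT.nd (nat_lit 3008) (nat_lit 2940) (nat_lit 0) (XT.nd (nat_lit 1504) (nat_lit 5208) (nat_lit 0) (XT.nd (nat_lit 752) (nat_lit 2100) (nat_lit 0) (XT.nd (nat_lit 376) (nat_lit 924) (nat_lit 0) (XT.nd (nat_lit 188) (nat_lit 0) (nat_lit 84) (XT.nd (nat_lit 94) (nat_lit 0) (nat_lit 84) (XT.lf (nat_lit 84) (nat_lit 2991954428) (nat_lit 0) (nat_lit 2267143025) (nat_lit 1092) (nat_lit 3503282830) (nat_lit 206) (nat_lit 5) (nat_lit 205)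 (nat_lit 5) (nat_lit 218) (nat_lit 5) (nat_lit 340) (nat_lit 336) (nat_lit 269)) (XT.lf (nat_lit 0) (nat_lit 6355906377) (nat_lit 1008) (nat_lit 1825746930) (nat_lit 1092) (nat_lit 687636247) (nat_lit 206) (nat_lit 5) (nat_lit 218) (nat_lit 5) (nat_lit 219) (nat_lit 5) (nat_lit 341) (nat_lit 336) (nat_lit 268))) (XT.nd (nat_lit 94) (nat_lit 0) (nat_lit 0) (XT.lf (nat_lit 84) (nat_lit 2237420628) (nat_lit 0) (nat_lit 5257602910) (nat_lit 1092) (nat_lit 1484172742) (nat_lit 207) (nat_lit 5) (nat_lit 206) (nat_lit 5) (nat_lit 219) (nat_lit 5) (nat_lit 342) (nat_lit 336) (nat_lit 267)) (XT.lf (nat_lit 84) (nat_lit 6439050846) (nat_lit 0) (nat_lit 2213955208) (nat_lit 1092) (nat_lit 439923588) (nat_lit 207) (nat_lit 5) (nat_lit 206) (nat_lit 5) (nat_lit 219) (nat_lit 5) (nat_lit 343) (nat_lit 336) (nat_lit 266)))) (XT.nd (nat_lit 188) (nat_lit 0) (nat_lit 0) (XT.nd (nat_lit 94) (nat_lit 0) (nat_lit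 0) (XT.lf (nat_lit 0) (nat_lit 614271209) (nat_lit 1092) (nat_lit 7659672580) (nat_lit 1176) (nat_lit 936283407) (nat_lit 194) (nat_lit 5) (nat_lit 207) (nat_lit 5) (nat_lit 208) (nat_lit 5) (nat_lit 344) (nat_lit 336) (nat_lit 265)) (XT.lf (nat_lit 0) (nat_lit 1707959132) (nat_lit 1092) (nat_lit 3443176806) (nat_lit 1176) (nat_lit 4179340024) (nat_lit 194) (nat_lit 5) (nat_lit 207) (nat_lit 5) (nat_lit 208) (nat_lit 5) (nat_lit 345) (nat_lit 336) (nat_lit 264))) (XT.nd (nat_lit 94) (nat_lit 0) (nat_lit 84) (XT.lf (nat_lit 84) (nat_lit 896018109) (nat_lit 0) (nat_lit 1915717368) (nat_lit 1176) (nat_lit 6643340742) (nat_lit 195) (nat_lit 5) (nat_lit 194) (nat_lit 5) (nat_lit 208) (nat_lit 5) (nat_lit 346) (nat_lit 336) (nat_lit 263)) (XT.lf (nat_lit 0) (nat_lit 3966824169) (nat_lit 1092) (nat_lit 4182506612) (nat_lit 1176) (nat_lit 1433598279) (nat_lit 195) (nat_lit 5) (nat_lit 208) (nat_lit 5)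 (nat_lit 209) (nat_lit 5) (nat_lit 347) (nat_lit 336) (nat_lit 262))))) (XT.nd (nat_lit 376) (nat_lit 2184) (nat_lit 0) (XT.nd (nat_lit 188) (nat_lit 0) (nat_lit 84) (XT.nd (nat_lit 94) (nat_lit 0) (nat_lit 0) (XT.lf (nat_lit 84) (nat_lit 290545682) (nat_lit 0) (nat_lit 4858136229) (nat_lit 1176) (nat_lit 4566230864) (nat_lit 196) (nat_lit 5) (nat_lit 195) (nat_lit 5) (nat_lit 209) (nat_lit 5) (nat_lit 348) (nat_lit 336) (nat_lit 261)) (XT.lf (nat_lit 84) (nat_lit 4962239750) (nat_lit 0) (nat_lit 1417005535) (nat_lit 1176) (nat_lit 3471270292) (nat_lit 196) (nat_lit 5) (nat_lit 195) (nat_lit 5) (nat_lit 209) (nat_lit 5) (nat_lit 349) (nat_lit 336) (nat_lit 260))) (XT.nd (nat_lit 94) (nat_lit 0) (nat_lit 0) (XT.lf (nat_lit 0) (nat_lit 7639105895) (nat_lit 1092) (nat_lit 258189849) (nat_lit 1176) (nat_lit 2093174717) (nat_lit 196) (nat_lit 5) (nat_lit 209) (nat_lit 5) (nat_lit 210) (nat_lit 5) (nat_lit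 350) (nat_lit 336) (nat_lit 259)) (XT.lf (nat_lit 84) (nat_lit 4564837061) (nat_lit 0) (nat_lit 4402583429) (nat_lit 1176) (nat_lit 1166337552) (nat_lit 197) (nat_lit 5) (nat_lit 196) (nat_lit 5) (nat_lit 210) (nat_lit 5) (nat_lit 351) (nat_lit 336) (nat_lit 258)))) (XT.nd (nat_lit 188) (nat_lit 1092) (nat_lit 0) (XT.nd (nat_lit 94) (nat_lit 0) (nat_lit 84) (XT.lf (nat_lit 0) (nat_lit 28841903) (nat_lit 1176) (nat_lit 765355680) (nat_lit 1260) (nat_lit 9487911932) (nat_lit 182) (nat_lit 5) (nat_lit 196) (nat_lit 5) (nat_lit 197) (nat_lit 5) (nat_lit 352) (nat_lit 336) (nat_lit 257)) (XT.lf (nat_lit 0) (nat_lit 1279595008) (nat_lit 1176) (nat_lit 6230245906) (nat_lit 84) (nat_lit 2923478594) (nat_lit 183) (nat_lit 5) (nat_lit 197) (nat_lit 5) (nat_lit 184) (nat_lit 5) (nat_lit 353) (nat_lit 336) (nat_lit 256))) (XT.nd (nat_lit 94) (nat_lit 1176) (nat_lit 0) (XT.lf (nat_lit 0) (nat_lit 2557965512)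 (nat_lit 1176) (nat_lit 1281957354) (nat_lit 84) (nat_lit 6749487888) (nat_lit 183) (nat_lit 5) (nat_lit 197) (nat_lit 5) (nat_lit 184) (nat_lit 5) (nat_lit 354) (nat_lit 336) (nat_lit 255)) (XT.lf (nat_lit 0) (nat_lit 3869483183) (nat_lit 1176) (nat_lit 17571001) (nat_lit 1260) (nat_lit 6862805945) (nat_lit 169) (nat_lit 5) (nat_lit 183) (nat_lit 5) (nat_lit 184) (nat_lit 5) (nat_lit 355) (nat_lit 336) (nat_lit 254)))))) (XT.nd (nat_lit 752) (nat_lit 2100) (nat_lit 0) (XT.nd (nat_lit 376) (nat_lit 1260) (nat_lit 0) (XT.nd (nat_lit 188) (nat_lit 588) (nat_lit 0) (XT.nd (nat_lit 94) (nat_lit 1260) (nat_lit 0) (XT.lf (nat_lit 0) (nat_lit 5282497069) (nat_lit 1260) (nat_lit 1772203181) (nat_lit 84) (nat_lit 3859673342) (nat_lit 169) (nat_lit 5) (nat_lit 184) (nat_lit 5) (nat_lit 170) (nat_lit 5) (nat_lit 356) (nat_lit 336) (nat_lit 253)) (XT.lf (nat_lit 0) (nat_lit 3537280481) (nat_lit 1260) (nat_lit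 3193138028) (nat_lit 1344) (nat_lit 4353129232) (nat_lit 154) (nat_lit 5) (nat_lit 169) (nat_lit 5) (nat_lit 170) (nat_lit 5) (nat_lit 357) (nat_lit 336) (nat_lit 252))) (XT.nd (nat_lit 94) (nat_lit 588) (nat_lit 0) (XT.lf (nat_lit 0) (nat_lit 8224340577) (nat_lit 1344) (nat_lit 2243940467) (nat_lit 84) (nat_lit 789481645) (nat_lit 154) (nat_lit 5) (nat_lit 170) (nat_lit 5) (nat_lit 155) (nat_lit 5) (nat_lit 358) (nat_lit 336) (nat_lit 251)) (XT.lf (nat_lit 0) (nat_lit 3228113380) (nat_lit 588) (nat_lit 6575235210) (nat_lit 672) (nat_lit 1632688677) (nat_lit 147) (nat_lit 5) (nat_lit 154) (nat_lit 5) (nat_lit 155) (nat_lit 5) (nat_lit 359) (nat_lit 336) (nat_lit 250)))) (XT.nd (nat_lit 188) (nat_lit 588) (nat_lit 0) (XT.nd (nat_lit 94) (nat_lit 672) (nat_lit 0) (XT.lf (nat_lit 0) (nat_lit 8889810918) (nat_lit 588) (nat_lit 2540652336) (nat_lit 672) (nat_lit 189214765) (nat_lit 147) (nat_lit 5)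 (nat_lit 154) (nat_lit 5) (nat_lit 155) (nat_lit 5) (nat_lit 360) (nat_lit 336) (nat_lit 249)) (XT.lf (nat_lit 0) (nat_lit 1294880138) (nat_lit 672) (nat_lit 8887244356) (nat_lit 84) (nat_lit 1625687934) (nat_lit 139) (nat_lit 5) (nat_lit 147) (nat_lit 5) (nat_lit 140) (nat_lit 5) (nat_lit 361) (nat_lit 336) (nat_lit 248))) (XT.nd (nat_lit 94) (nat_lit 588) (nat_lit 0) (XT.lf (nat_lit 0) (nat_lit 2851597719) (nat_lit 672) (nat_lit 3252453095) (nat_lit 84) (nat_lit 5896563399) (nat_lit 139) (nat_lit 5) (nat_lit 147) (nat_lit 5) (nat_lit 140) (nat_lit 5) (nat_lit 362) (nat_lit 336) (nat_lit 247)) (XT.lf (nat_lit 0) (nat_lit 2581500155) (nat_lit 588) (nat_lit 1877854587) (nat_lit 672) (nat_lit 7739750736) (nat_lit 132) (nat_lit 5) (nat_lit 139) (nat_lit 5) (nat_lit 140) (nat_lit 5) (nat_lit 363) (nat_lit 336) (nat_lit 246))))) (XT.nd (nat_lit 376) (nat_lit 1008) (nat_lit 0) (XT.nd (nat_lit 188) (nat_lit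 504) (nat_lit 0) (XT.nd (nat_lit 94) (nat_lit 588) (nat_lit 0) (XT.lf (nat_lit 0) (nat_lit 6152232221) (nat_lit 672) (nat_lit 3790234109) (nat_lit 84) (nat_lit 2460013048) (nat_lit 132) (nat_lit 5) (nat_lit 140) (nat_lit 5) (nat_lit 133) (nat_lit 5) (nat_lit 364) (nat_lit 336) (nat_lit 245)) (XT.lf (nat_lit 0) (nat_lit 2216526377) (nat_lit 588) (nat_lit 5699780257) (nat_lit 672) (nat_lit 4695069066) (nat_lit 125) (nat_lit 5) (nat_lit 132) (nat_lit 5) (nat_lit 133) (nat_lit 5) (nat_lit 365) (nat_lit 336) (nat_lit 244))) (XT.nd (nat_lit 94) (nat_lit 504) (nat_lit 0) (XT.lf (nat_lit 0) (nat_lit 8461291079) (nat_lit 588) (nat_lit 1291173904) (nat_lit 672) (nat_lit 3073531624) (nat_lit 125) (nat_lit 5) (nat_lit 132) (nat_lit 5) (nat_lit 133) (nat_lit 5) (nat_lit 366) (nat_lit 336) (nat_lit 243)) (XT.lf (nat_lit 0) (nat_lit 1830936543) (nat_lit 504) (nat_lit 9843046773) (nat_lit 588) (nat_lit 1372196167)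 (nat_lit 119) (nat_lit 5) (nat_lit 125) (nat_lit 5) (nat_lit 126) (nat_lit 5) (nat_lit 367) (nat_lit 336) (nat_lit 242)))) (XT.nd (nat_lit 188) (nat_lit 420) (nat_lit 0) (XT.nd (nat_lit 94) (nat_lit 504) (nat_lit 0) (XT.lf (nat_lit 0) (nat_lit 411633968) (nat_lit 588) (nat_lit 5006697883) (nat_lit 84) (nat_lit 7853389944) (nat_lit 118) (nat_lit 5) (nat_lit 125) (nat_lit 5) (nat_lit 119) (nat_lit 5) (nat_lit 368) (nat_lit 336) (nat_lit 241)) (XT.lf (nat_lit 0) (nat_lit 1381972505) (nat_lit 504) (nat_lit 834825677) (nat_lit 588) (nat_lit 11286991562) (nat_lit 112) (nat_lit 5) (nat_lit 118) (nat_lit 5) (nat_lit 119) (nat_lit 5) (nat_lit 369) (nat_lit 336) (nat_lit 240))) (XT.nd (nat_lit 94) (nat_lit 420) (nat_lit 0) (XT.lf (nat_lit 0) (nat_lit 4146964902) (nat_lit 588) (nat_lit 5734083005) (nat_lit 84) (nat_lit 3859674471) (nat_lit 112) (nat_lit 5) (nat_lit 119) (nat_lit 5) (nat_lit 113) (nat_lit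 5) (nat_lit 370) (nat_lit 336) (nat_lit 239)) (XT.lf (nat_lit 0) (nat_lit 834012193) (nat_lit 420) (nat_lit 5300251515) (nat_lit 504) (nat_lit 7850549728) (nat_lit 107) (nat_lit 5) (nat_lit 112) (nat_lit 5) (nat_lit 113) (nat_lit 5) (nat_lit 371) (nat_lit 336) (nat_lit 238))))))) (XT.nd (nat_lit 1504) (nat_lit 0) (nat_lit 0) (XT.nd (nat_lit 752) (nat_lit 1512) (nat_lit 0) (XT.nd (nat_lit 376) (nat_lit 840) (nat_lit 0) (XT.nd (nat_lit 188) (nat_lit 84) (nat_lit 0) (XT.nd (nat_lit 94) (nat_lit 504) (nat_lit 0) (XT.lf (nat_lit 0) (nat_lit 7697602305) (nat_lit 420) (nat_lit 524739867) (nat_lit 504) (nat_lit 6012676697) (nat_lit 107) (nat_lit 5) (nat_lit 112) (nat_lit 5) (nat_lit 113) (nat_lit 5) (nat_lit 372) (nat_lit 336) (nat_lit 237)) (XT.lf (nat_lit 0) (nat_lit 217346303) (nat_lit 504) (nat_lit 10183767542) (nat_lit 588) (nat_lit 4090800786) (nat_lit 101) (nat_lit 5) (nat_lit 107) (nat_lit 5) (nat_lit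 108) (nat_lit 5) (nat_lit 373) (nat_lit 336) (nat_lit 236))) (XT.nd (nat_lit 94) (nat_lit 84) (nat_lit 0) (XT.lf (nat_lit 0) (nat_lit 7284623989) (nat_lit 504) (nat_lit 5415800669) (nat_lit 588) (nat_lit 2054462273) (nat_lit 101) (nat_lit 5) (nat_lit 107) (nat_lit 5) (nat_lit 108) (nat_lit 5) (nat_lit 374) (nat_lit 336) (nat_lit 235)) (XT.lf (nat_lit 0) (nat_lit 26432510) (nat_lit 588) (nat_lit 480868417) (nat_lit 84) (nat_lit 14518929458) (nat_lit 100) (nat_lit 5) (nat_lit 107) (nat_lit 5) (nat_lit 101) (nat_lit 5) (nat_lit 375) (nat_lit 336) (nat_lit 234)))) (XT.nd (nat_lit 188) (nat_lit 420) (nat_lit 0) (XT.nd (nat_lit 94) (nat_lit 0) (nat_lit 0) (XT.lf (nat_lit 0) (nat_lit 2223256193) (nat_lit 504) (nat_lit 8535441172) (nat_lit 84) (nat_lit 4543585530) (nat_lit 95) (nat_lit 5) (nat_lit 101) (nat_lit 5) (nat_lit 96) (nat_lit 5) (nat_lit 376) (nat_lit 336) (nat_lit 233)) (XT.lf (nat_lit 0) (nat_lit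 4480916400) (nat_lit 504) (nat_lit 1368051728) (nat_lit 84) (nat_lit 9737823058) (nat_lit 95) (nat_lit 5) (nat_lit 101) (nat_lit 5) (nat_lit 96) (nat_lit 5) (nat_lit 377) (nat_lit 336) (nat_lit 232))) (XT.nd (nat_lit 94) (nat_lit 0) (nat_lit 0) (XT.lf (nat_lit 0) (nat_lit 6115886781) (nat_lit 420) (nat_lit 734651148) (nat_lit 504) (nat_lit 9027991369) (nat_lit 90) (nat_lit 5) (nat_lit 95) (nat_lit 5) (nat_lit 96) (nat_lit 5) (nat_lit 378) (nat_lit 336) (nat_lit 231)) (XT.lf (nat_lit 0) (nat_lit 9334438648) (nat_lit 504) (nat_lit 2387988470) (nat_lit 84) (nat_lit 4455317610) (nat_lit 90) (nat_lit 5) (nat_lit 96) (nat_lit 5) (nat_lit 91) (nat_lit 5) (nat_lit 379) (nat_lit 336) (nat_lit 230))))) (XT.nd (nat_lit 376) (nat_lit 672) (nat_lit 0) (XT.nd (nat_lit 188) (nat_lit 504) (nat_lit 0) (XT.nd (nat_lit 94) (nat_lit 0) (nat_lit 0) (XT.lf (nat_lit 0) (nat_lit 5286252379) (nat_lit 336) (nat_lit 6650774259)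 (nat_lit 420) (nat_lit 4547605157) (nat_lit 86) (nat_lit 5) (nat_lit 90) (nat_lit 5) (nat_lit 91) (nat_lit 5) (nat_lit 380) (nat_lit 336) (nat_lit 229)) (XT.lf (nat_lit 0) (nat_lit 13222310899) (nat_lit 336) (nat_lit 1405815658) (nat_lit 420) (nat_lit 2172305581) (nat_lit 86) (nat_lit 5) (nat_lit 90) (nat_lit 5) (nat_lit 91) (nat_lit 5) (nat_lit 381) (nat_lit 336) (nat_lit 228))) (XT.nd (nat_lit 94) (nat_lit 0) (nat_lit 0) (XT.lf (nat_lit 0) (nat_lit 335965749) (nat_lit 504) (nat_lit 12828048641) (nat_lit 84) (nat_lit 3959619640) (nat_lit 80) (nat_lit 5) (nat_lit 86) (nat_lit 5) (nat_lit 81) (nat_lit 5) (nat_lit 382) (nat_lit 336) (nat_lit 227)) (XT.lf (nat_lit 0) (nat_lit 2912993045) (nat_lit 504) (nat_lit 5029732539) (nat_lit 84) (nat_lit 9512064105) (nat_lit 80) (nat_lit 5) (nat_lit 86) (nat_lit 5) (nat_lit 81) (nat_lit 5) (nat_lit 383) (nat_lit 336) (nat_lit 226)))) (XT.nd (nat_lit 188) (nat_lit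 336) (nat_lit 0) (XT.nd (nat_lit 94) (nat_lit 0) (nat_lit 0) (XT.lf (nat_lit 0) (nat_lit 3045108418) (nat_lit 336) (nat_lit 2538640107) (nat_lit 420) (nat_lit 12211656466) (nat_lit 76) (nat_lit 5) (nat_lit 80) (nat_lit 5) (nat_lit 81) (nat_lit 5) (nat_lit 384) (nat_lit 336) (nat_lit 225)) (XT.lf (nat_lit 0) (nat_lit 8402343947) (nat_lit 420) (nat_lit 6726059417) (nat_lit 84) (nat_lit 3015820858) (nat_lit 76) (nat_lit 5) (nat_lit 81) (nat_lit 5) (nat_lit 77) (nat_lit 5) (nat_lit 385) (nat_lit 336) (nat_lit 224))) (XT.nd (nat_lit 94) (nat_lit 0) (nat_lit 0) (XT.lf (nat_lit 0) (nat_lit 1527025974) (nat_lit 336) (nat_lit 9805975430) (nat_lit 420) (nat_lit 7169697990) (nat_lit 72) (nat_lit 5) (nat_lit 76) (nat_lit 5) (nat_lit 77) (nat_lit 5) (nat_lit 386) (nat_lit 336) (nat_lit 223)) (XT.lf (nat_lit 0) (nat_lit 10149202119) (nat_lit 336) (nat_lit 4258187978) (nat_lit 420) (nat_lit 4462880392) (nat_lit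 72) (nat_lit 5) (nat_lit 76) (nat_lit 5) (nat_lit 77) (nat_lit 5) (nat_lit 387) (nat_lit 336) (nat_lit 222)))))) (XT.nd (nat_lit 55178) (nat_lit 0) (nat_lit 10164) (XT.nd (nat_lit 54802) (nat_lit 0) (nat_lit 10164) (XT.nd (nat_lit 54614) (nat_lit 0) (nat_lit 11088) (XT.nd (nat_lit 54520) (nat_lit 0) (nat_lit 11088) (XT.lf (nat_lit 0) (nat_lit 17576211046) (nat_lit 420) (nat_lit 249052172) (nat_lit 84) (nat_lit 1423555024) (nat_lit 72) (nat_lit 5) (nat_lit 77) (nat_lit 5) (nat_lit 73) (nat_lit 5) (nat_lit 388) (nat_lit 336) (nat_lit 221)) (XT.lf (nat_lit 0) (nat_lit 1530658514) (nat_lit 1092) (nat_lit 1373981345) (nat_lit 1092) (nat_lit 1373981345) (nat_lit 204) (nat_lit 3) (nat_lit 217) (nat_lit 3) (nat_lit 217) (nat_lit 5) (nat_lit 337) (nat_lit 337) (nat_lit 271))) (XT.nd (nat_lit 94) (nat_lit 0) (nat_lit 0) (XT.lf (nat_lit 84) (nat_lit 1010904412) (nat_lit 0) (nat_lit 3043539965) (nat_lit 1092)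 (nat_lit 4600775182) (nat_lit 205) (nat_lit 5) (nat_lit 204) (nat_lit 3) (nat_lit 217) (nat_lit 5) (nat_lit 338) (nat_lit 337) (nat_lit 270)) (XT.lf (nat_lit 84) (nat_lit 4919611328) (nat_lit 0) (nat_lit 148730527) (nat_lit 1092) (nat_lit 3688141578) (nat_lit 205) (nat_lit 5) (nat_lit 204) (nat_lit 3) (nat_lit 217) (nat_lit 5) (nat_lit 339) (nat_lit 337) (nat_lit 269)))) (XT.nd (nat_lit 188) (nat_lit 1008) (nat_lit 0) (XT.nd (nat_lit 94) (nat_lit 0) (nat_lit 0) (XT.lf (nat_lit 84) (nat_lit 38305055) (nat_lit 0) (nat_lit 6066412996) (nat_lit 1092) (nat_lit 2756379782) (nat_lit 206) (nat_lit 5) (nat_lit 205) (nat_lit 5) (nat_lit 218) (nat_lit 5) (nat_lit 340) (nat_lit 337) (nat_lit 268)) (XT.lf (nat_lit 84) (nat_lit 4087079036) (nat_lit 0) (nat_lit 3090615999) (nat_lit 1092) (nat_lit 1791062641) (nat_lit 206) (nat_lit 5) (nat_lit 205) (nat_lit 5) (nat_lit 218) (nat_lit 5) (nat_lit 341) (nat_lit 337)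 (nat_lit 267))) (XT.nd (nat_lit 94) (nat_lit 1008) (nat_lit 0) (XT.lf (nat_lit 84) (nat_lit 8238084465) (nat_lit 0) (nat_lit 11093827) (nat_lit 1092) (nat_lit 831549703) (nat_lit 206) (nat_lit 5) (nat_lit 205) (nat_lit 5) (nat_lit 218) (nat_lit 5) (nat_lit 342) (nat_lit 337) (nat_lit 266)) (XT.lf (nat_lit 0) (nat_lit 183767764) (nat_lit 1092) (nat_lit 5864682344) (nat_lit 1176) (nat_lit 3146725939) (nat_lit 193) (nat_lit 5) (nat_lit 206) (nat_lit 5) (nat_lit 207) (nat_lit 5) (nat_lit 343) (nat_lit 337) (nat_lit 265))))) (XT.nd (nat_lit 376) (nat_lit 0) (nat_lit 168) (XT.nd (nat_lit 188) (nat_lit 0) (nat_lit 84) (XT.nd (nat_lit 94) (nat_lit 0) (nat_lit 84) (XT.lf (nat_lit 0) (nat_lit 1189347223) (nat_lit 1092) (nat_lit 1695496958) (nat_lit 1176) (nat_lit 6428735122) (nat_lit 193) (nat_lit 5) (nat_lit 206) (nat_lit 5) (nat_lit 207) (nat_lit 5) (nat_lit 344) (nat_lit 337) (nat_lit 264)) (XT.lf (nat_lit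 0) (nat_lit 2223081057) (nat_lit 1092) (nat_lit 6809410304) (nat_lit 1176) (nat_lit 403166050) (nat_lit 194) (nat_lit 5) (nat_lit 207) (nat_lit 5) (nat_lit 208) (nat_lit 5) (nat_lit 345) (nat_lit 337) (nat_lit 263))) (XT.nd (nat_lit 94) (nat_lit 0) (nat_lit 0) (XT.lf (nat_lit 0) (nat_lit 3303257821) (nat_lit 1092) (nat_lit 2497877495) (nat_lit 1176) (nat_lit 3759860167) (nat_lit 194) (nat_lit 5) (nat_lit 207) (nat_lit 5) (nat_lit 208) (nat_lit 5) (nat_lit 346) (nat_lit 337) (nat_lit 262)) (XT.lf (nat_lit 84) (nat_lit 1961212928) (nat_lit 0) (nat_lit 2443942821) (nat_lit 1176) (nat_lit 5285317253) (nat_lit 195) (nat_lit 5) (nat_lit 194) (nat_lit 5) (nat_lit 208) (nat_lit 5) (nat_lit 347) (nat_lit 337) (nat_lit 261)))) (XT.nd (nat_lit 188) (nat_lit 0) (nat_lit 0) (XT.nd (nat_lit 94) (nat_lit 0) (nat_lit 0) (XT.lf (nat_lit 0) (nat_lit 5546550284) (nat_lit 1092) (nat_lit 3248666320) (nat_lit 1176)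 (nat_lit 1028482123) (nat_lit 195) (nat_lit 5) (nat_lit 208) (nat_lit 5) (nat_lit 209) (nat_lit 5) (nat_lit 348) (nat_lit 337) (nat_lit 260)) (XT.lf (nat_lit 84) (nat_lit 1348192096) (nat_lit 0) (nat_lit 5383209337) (nat_lit 1176) (nat_lit 3229298759) (nat_lit 196) (nat_lit 5) (nat_lit 195) (nat_lit 5) (nat_lit 209) (nat_lit 5) (nat_lit 349) (nat_lit 337) (nat_lit 259))) (XT.nd (nat_lit 94) (nat_lit 0) (nat_lit 84) (XT.lf (nat_lit 84) (nat_lit 6129485626) (nat_lit 0) (nat_lit 1827796304) (nat_lit 1176) (nat_lit 2144419050) (nat_lit 196) (nat_lit 5) (nat_lit 195) (nat_lit 5) (nat_lit 209) (nat_lit 5) (nat_lit 350) (nat_lit 337) (nat_lit 258)) (XT.lf (nat_lit 84) (nat_lit 784567281) (nat_lit 0) (nat_lit 8434087655) (nat_lit 1176) (nat_lit 1028367600) (nat_lit 197) (nat_lit 5) (nat_lit 196) (nat_lit 5) (nat_lit 210) (nat_lit 5) (nat_lit 351) (nat_lit 337) (nat_lit 257))))))))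
noncomputable def xc44 : XT := (XT.nd (nat_lit 2914) (nat_lit 1176) (nat_lit 0) (XT.nd (nat_lit 1410) (nat_lit 3276) (nat_lit 0) (XT.nd (nat_lit 658) (nat_lit 2436) (nat_lit 0) (XT.nd (nat_lit 282) (nat_lit 2352) (nat_lit 0) (XT.nd (nat_lit 94) (nat_lit 0) (nat_lit 0) (XT.lf (nat_lit 0) (nat_lit 151219391) (nat_lit 1176) (nat_lit 4670446182) (nat_lit 1260) (nat_lit 5574079904) (nat_lit 182) (nat_lit 5) (nat_lit 196) (nat_lit 5) (nat_lit 197) (nat_lit 5) (nat_lit 352) (nat_lit 337) (nat_lit 256)) (XT.nd (nat_lit 94) (nat_lit 0) (nat_lit 84) (XT.lf (nat_lit 84) (nat_lit 239655861) (nat_lit 0) (nat_lit 1082748066) (nat_lit 1260) (nat_lit 9226962146) (nat_lit 183) (nat_lit 5) (nat_lit 182) (nat_lit 5) (nat_lit 197) (nat_lit 5) (nat_lit 353) (nat_lit 337) (nat_lit 255)) (XT.lf (nat_lit 0) (nat_lit 2578135466) (nat_lit 1176) (nat_lit 5361262010) (nat_lit 84) (nat_lit 2766761871) (nat_lit 183) (nat_lit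 5) (nat_lit 197) (nat_lit 5) (nat_lit 184) (nat_lit 5) (nat_lit 354) (nat_lit 337) (nat_lit 254)))) (XT.nd (nat_lit 188) (nat_lit 1260) (nat_lit 0) (XT.nd (nat_lit 94) (nat_lit 1176) (nat_lit 0) (XT.lf (nat_lit 0) (nat_lit 3858153611) (nat_lit 1176) (nat_lit 295278916) (nat_lit 84) (nat_lit 6714670504) (nat_lit 183) (nat_lit 5) (nat_lit 197) (nat_lit 5) (nat_lit 184) (nat_lit 5) (nat_lit 355) (nat_lit 337) (nat_lit 253)) (XT.lf (nat_lit 0) (nat_lit 5000654473) (nat_lit 1176) (nat_lit 200583665) (nat_lit 1260) (nat_lit 5832970653) (nat_lit 169) (nat_lit 5) (nat_lit 183) (nat_lit 5) (nat_lit 184) (nat_lit 5) (nat_lit 356) (nat_lit 337) (nat_lit 252))) (XT.nd (nat_lit 94) (nat_lit 1260) (nat_lit 0) (XT.lf (nat_lit 0) (nat_lit 6601960491) (nat_lit 1260) (nat_lit 801108986) (nat_lit 84) (nat_lit 3801750355) (nat_lit 169) (nat_lit 5) (nat_lit 184) (nat_lit 5) (nat_lit 170) (nat_lit 5) (nat_lit 357) (nat_lit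 337) (nat_lit 251)) (XT.lf (nat_lit 0) (nat_lit 4657617418) (nat_lit 1260) (nat_lit 3411636245) (nat_lit 1344) (nat_lit 3310600294) (nat_lit 154) (nat_lit 5) (nat_lit 169) (nat_lit 5) (nat_lit 170) (nat_lit 5) (nat_lit 358) (nat_lit 337) (nat_lit 250))))) (XT.nd (nat_lit 376) (nat_lit 1176) (nat_lit 0) (XT.nd (nat_lit 188) (nat_lit 672) (nat_lit 0) (XT.nd (nat_lit 94) (nat_lit 588) (nat_lit 0) (XT.lf (nat_lit 0) (nat_lit 9573733992) (nat_lit 1344) (nat_lit 1290289512) (nat_lit 84) (nat_lit 696360582) (nat_lit 154) (nat_lit 5) (nat_lit 170) (nat_lit 5) (nat_lit 155) (nat_lit 5) (nat_lit 359) (nat_lit 337) (nat_lit 249)) (XT.lf (nat_lit 0) (nat_lit 4335916450) (nat_lit 588) (nat_lit 6841797355) (nat_lit 672) (nat_lit 567024222) (nat_lit 147) (nat_lit 5) (nat_lit 154) (nat_lit 5) (nat_lit 155) (nat_lit 5) (nat_lit 360) (nat_lit 337) (nat_lit 248))) (XT.nd (nat_lit 94) (nat_lit 588) (nat_lit 0) (XT.lf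 (nat_lit 0) (nat_lit 869974320) (nat_lit 672) (nat_lit 1805399045) (nat_lit 84) (nat_lit 9259260132) (nat_lit 146) (nat_lit 5) (nat_lit 154) (nat_lit 5) (nat_lit 147) (nat_lit 5) (nat_lit 361) (nat_lit 337) (nat_lit 247)) (XT.lf (nat_lit 0) (nat_lit 2373012123) (nat_lit 672) (nat_lit 8125789070) (nat_lit 84) (nat_lit 1630262000) (nat_lit 139) (nat_lit 5) (nat_lit 147) (nat_lit 5) (nat_lit 140) (nat_lit 5) (nat_lit 362) (nat_lit 337) (nat_lit 246)))) (XT.nd (nat_lit 188) (nat_lit 588) (nat_lit 0) (XT.nd (nat_lit 94) (nat_lit 588) (nat_lit 0) (XT.lf (nat_lit 0) (nat_lit 3946160777) (nat_lit 672) (nat_lit 2351897934) (nat_lit 84) (nat_lit 6030551007) (nat_lit 139) (nat_lit 5) (nat_lit 147) (nat_lit 5) (nat_lit 140) (nat_lit 5) (nat_lit 363) (nat_lit 337) (nat_lit 245)) (XT.lf (nat_lit 0) (nat_lit 3647288337) (nat_lit 588) (nat_lit 1934973944) (nat_lit 672) (nat_lit 6951441131) (nat_lit 132) (nat_lit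 5) (nat_lit 139) (nat_lit 5) (nat_lit 140) (nat_lit 5) (nat_lit 364) (nat_lit 337) (nat_lit 244))) (XT.nd (nat_lit 94) (nat_lit 588) (nat_lit 0) (XT.lf (nat_lit 0) (nat_lit 7297109249) (nat_lit 672) (nat_lit 2913915945) (nat_lit 84) (nat_lit 2533067396) (nat_lit 132) (nat_lit 5) (nat_lit 140) (nat_lit 5) (nat_lit 133) (nat_lit 5) (nat_lit 365) (nat_lit 337) (nat_lit 243)) (XT.lf (nat_lit 0) (nat_lit 3263341226) (nat_lit 588) (nat_lit 5832217898) (nat_lit 672) (nat_lit 3864301193) (nat_lit 125) (nat_lit 5) (nat_lit 132) (nat_lit 5) (nat_lit 133) (nat_lit 5) (nat_lit 366) (nat_lit 337) (nat_lit 242)))))) (XT.nd (nat_lit 752) (nat_lit 1260) (nat_lit 0) (XT.nd (nat_lit 376) (nat_lit 924) (nat_lit 0) (XT.nd (nat_lit 188) (nat_lit 588) (nat_lit 0) (XT.nd (nat_lit 94) (nat_lit 504) (nat_lit 0) (XT.lf (nat_lit 0) (nat_lit 9666895886) (nat_lit 588) (nat_lit 1292476339) (nat_lit 672) (nat_lit 2222417237)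 (nat_lit 125) (nat_lit 5) (nat_lit 132) (nat_lit 5) (nat_lit 133) (nat_lit 5) (nat_lit 367) (nat_lit 337) (nat_lit 241)) (XT.lf (nat_lit 0) (nat_lit 2856646232) (nat_lit 504) (nat_lit 10064939902) (nat_lit 588) (nat_lit 487545540) (nat_lit 119) (nat_lit 5) (nat_lit 125) (nat_lit 5) (nat_lit 126) (nat_lit 5) (nat_lit 368) (nat_lit 337) (nat_lit 240))) (XT.nd (nat_lit 94) (nat_lit 504) (nat_lit 0) (XT.lf (nat_lit 0) (nat_lit 1305294149) (nat_lit 588) (nat_lit 4195427683) (nat_lit 84) (nat_lit 8141287366) (nat_lit 118) (nat_lit 5) (nat_lit 125) (nat_lit 5) (nat_lit 119) (nat_lit 5) (nat_lit 369) (nat_lit 337) (nat_lit 239)) (XT.lf (nat_lit 0) (nat_lit 2375476629) (nat_lit 504) (nat_lit 772619042) (nat_lit 588) (nat_lit 10733480546) (nat_lit 112) (nat_lit 5) (nat_lit 118) (nat_lit 5) (nat_lit 119) (nat_lit 5) (nat_lit 370) (nat_lit 337) (nat_lit 238)))) (XT.nd (nat_lit 188) (nat_lit 504) (nat_lit 0)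 (XT.nd (nat_lit 94) (nat_lit 420) (nat_lit 0) (XT.lf (nat_lit 0) (nat_lit 5111793517) (nat_lit 588) (nat_lit 4956073015) (nat_lit 84) (nat_lit 4058521808) (nat_lit 112) (nat_lit 5) (nat_lit 119) (nat_lit 5) (nat_lit 113) (nat_lit 5) (nat_lit 371) (nat_lit 337) (nat_lit 237)) (XT.lf (nat_lit 0) (nat_lit 1799750996) (nat_lit 420) (nat_lit 5343524810) (nat_lit 504) (nat_lit 7235028508) (nat_lit 107) (nat_lit 5) (nat_lit 112) (nat_lit 5) (nat_lit 113) (nat_lit 5) (nat_lit 372) (nat_lit 337) (nat_lit 236))) (XT.nd (nat_lit 94) (nat_lit 504) (nat_lit 0) (XT.lf (nat_lit 0) (nat_lit 8841849244) (nat_lit 420) (nat_lit 428118713) (nat_lit 504) (nat_lit 5366806793) (nat_lit 107) (nat_lit 5) (nat_lit 112) (nat_lit 5) (nat_lit 113) (nat_lit 5) (nat_lit 373) (nat_lit 337) (nat_lit 235)) (XT.lf (nat_lit 0) (nat_lit 1152208637) (nat_lit 504) (nat_lit 10348537778) (nat_lit 588) (nat_lit 3401068535) (nat_lit 101)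 (nat_lit 5) (nat_lit 107) (nat_lit 5) (nat_lit 108) (nat_lit 5) (nat_lit 374) (nat_lit 337) (nat_lit 234))))) (XT.nd (nat_lit 376) (nat_lit 756) (nat_lit 0) (XT.nd (nat_lit 188) (nat_lit 0) (nat_lit 0) (XT.nd (nat_lit 94) (nat_lit 504) (nat_lit 0) (XT.lf (nat_lit 0) (nat_lit 8404465569) (nat_lit 504) (nat_lit 5441631203) (nat_lit 588) (nat_lit 1327303642) (nat_lit 101) (nat_lit 5) (nat_lit 107) (nat_lit 5) (nat_lit 108) (nat_lit 5) (nat_lit 375) (nat_lit 337) (nat_lit 233)) (XT.lf (nat_lit 0) (nat_lit 403703263) (nat_lit 420) (nat_lit 378276959) (nat_lit 504) (nat_lit 14671269592) (nat_lit 95) (nat_lit 5) (nat_lit 100) (nat_lit 5) (nat_lit 101) (nat_lit 5) (nat_lit 376) (nat_lit 337) (nat_lit 232))) (XT.nd (nat_lit 94) (nat_lit 0) (nat_lit 0) (XT.lf (nat_lit 0) (nat_lit 3028832708) (nat_lit 504) (nat_lit 7887297034) (nat_lit 84) (nat_lit 4821963195) (nat_lit 95) (nat_lit 5) (nat_lit 101) (nat_lit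 5) (nat_lit 96) (nat_lit 5) (nat_lit 377) (nat_lit 337) (nat_lit 231)) (XT.lf (nat_lit 0) (nat_lit 5332701979) (nat_lit 504) (nat_lit 531222044) (nat_lit 84) (nat_lit 10167889885) (nat_lit 95) (nat_lit 5) (nat_lit 101) (nat_lit 5) (nat_lit 96) (nat_lit 5) (nat_lit 378) (nat_lit 337) (nat_lit 230)))) (XT.nd (nat_lit 188) (nat_lit 336) (nat_lit 0) (XT.nd (nat_lit 94) (nat_lit 0) (nat_lit 0) (XT.lf (nat_lit 0) (nat_lit 7168628039) (nat_lit 420) (nat_lit 592246093) (nat_lit 504) (nat_lit 8571837053) (nat_lit 90) (nat_lit 5) (nat_lit 95) (nat_lit 5) (nat_lit 96) (nat_lit 5) (nat_lit 379) (nat_lit 337) (nat_lit 229)) (XT.lf (nat_lit 0) (nat_lit 10300297834) (nat_lit 504) (nat_lit 1595688411) (nat_lit 84) (nat_lit 4745516637) (nat_lit 90) (nat_lit 5) (nat_lit 96) (nat_lit 5) (nat_lit 91) (nat_lit 5) (nat_lit 380) (nat_lit 337) (nat_lit 228))) (XT.nd (nat_lit 94) (nat_lit 0) (nat_lit 0) (XT.lf (nat_lit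 0) (nat_lit 6300309666) (nat_lit 336) (nat_lit 6668901581) (nat_lit 420) (nat_lit 3988766989) (nat_lit 86) (nat_lit 5) (nat_lit 90) (nat_lit 5) (nat_lit 91) (nat_lit 5) (nat_lit 381) (nat_lit 337) (nat_lit 227)) (XT.lf (nat_lit 0) (nat_lit 14449533348) (nat_lit 336) (nat_lit 1271877597) (nat_lit 420) (nat_lit 1562458902) (nat_lit 86) (nat_lit 5) (nat_lit 90) (nat_lit 5) (nat_lit 91) (nat_lit 5) (nat_lit 382) (nat_lit 337) (nat_lit 226))))))) (XT.nd (nat_lit 56024) (nat_lit 0) (nat_lit 5628) (XT.nd (nat_lit 55272) (nat_lit 0) (nat_lit 10080) (XT.nd (nat_lit 376) (nat_lit 336) (nat_lit 0) (XT.nd (nat_lit 188) (nat_lit 336) (nat_lit 0) (XT.nd (nat_lit 94) (nat_lit 0) (nat_lit 0) (XT.lf (nat_lit 0) (nat_lit 998436733) (nat_lit 504) (nat_lit 12357910582) (nat_lit 84) (nat_lit 4260536015) (nat_lit 80) (nat_lit 5) (nat_lit 86) (nat_lit 5) (nat_lit 81) (nat_lit 5) (nat_lit 383) (nat_lit 337) (nat_lit 225))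 (XT.lf (nat_lit 0) (nat_lit 3633773139) (nat_lit 504) (nat_lit 4350547313) (nat_lit 84) (nat_lit 9974249121) (nat_lit 80) (nat_lit 5) (nat_lit 86) (nat_lit 5) (nat_lit 81) (nat_lit 5) (nat_lit 384) (nat_lit 337) (nat_lit 224))) (XT.nd (nat_lit 94) (nat_lit 0) (nat_lit 0) (XT.lf (nat_lit 0) (nat_lit 3958400860) (nat_lit 336) (nat_lit 2415703144) (nat_lit 420) (nat_lit 11935640859) (nat_lit 76) (nat_lit 5) (nat_lit 80) (nat_lit 5) (nat_lit 81) (nat_lit 5) (nat_lit 385) (nat_lit 337) (nat_lit 223)) (XT.lf (nat_lit 0) (nat_lit 9260974321) (nat_lit 420) (nat_lit 6112746409) (nat_lit 84) (nat_lit 3295820808) (nat_lit 76) (nat_lit 5) (nat_lit 81) (nat_lit 5) (nat_lit 77) (nat_lit 5) (nat_lit 386) (nat_lit 337) (nat_lit 222)))) (XT.nd (nat_lit 54708) (nat_lit 0) (nat_lit 11088) (XT.nd (nat_lit 94) (nat_lit 0) (nat_lit 0) (XT.lf (nat_lit 0) (nat_lit 2379940419) (nat_lit 336) (nat_lit 9889702660) (nat_lit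 420) (nat_lit 6769448808) (nat_lit 72) (nat_lit 5) (nat_lit 76) (nat_lit 5) (nat_lit 77) (nat_lit 5) (nat_lit 387) (nat_lit 337) (nat_lit 221)) (XT.lf (nat_lit 0) (nat_lit 11237273974) (nat_lit 336) (nat_lit 4181611255) (nat_lit 420) (nat_lit 3999349209) (nat_lit 72) (nat_lit 5) (nat_lit 76) (nat_lit 5) (nat_lit 77) (nat_lit 5) (nat_lit 388) (nat_lit 337) (nat_lit 220))) (XT.nd (nat_lit 94) (nat_lit 0) (nat_lit 0) (XT.lf (nat_lit 0) (nat_lit 2505056702) (nat_lit 1092) (nat_lit 936061209) (nat_lit 1092) (nat_lit 936061209) (nat_lit 204) (nat_lit 3) (nat_lit 217) (nat_lit 3) (nat_lit 217) (nat_lit 5) (nat_lit 338) (nat_lit 338) (nat_lit 269)) (XT.lf (nat_lit 84) (nat_lit 1990115804) (nat_lit 0) (nat_lit 3997953904) (nat_lit 1092) (nat_lit 2868667324) (nat_lit 205) (nat_lit 5) (nat_lit 204) (nat_lit 3) (nat_lit 217) (nat_lit 5) (nat_lit 339) (nat_lit 338) (nat_lit 268))))) (XT.nd (nat_lit 376) (nat_lit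 0) (nat_lit 84) (XT.nd (nat_lit 188) (nat_lit 1008) (nat_lit 0) (XT.nd (nat_lit 94) (nat_lit 0) (nat_lit 84) (XT.lf (nat_lit 84) (nat_lit 5988446521) (nat_lit 0) (nat_lit 991161121) (nat_lit 1092) (nat_lit 1983124551) (nat_lit 205) (nat_lit 5) (nat_lit 204) (nat_lit 3) (nat_lit 217) (nat_lit 5) (nat_lit 340) (nat_lit 338) (nat_lit 267)) (XT.lf (nat_lit 84) (nat_lit 1015537678) (nat_lit 0) (nat_lit 6981860418) (nat_lit 1092) (nat_lit 1074684113) (nat_lit 206) (nat_lit 5) (nat_lit 205) (nat_lit 5) (nat_lit 218) (nat_lit 5) (nat_lit 341) (nat_lit 338) (nat_lit 266))) (XT.nd (nat_lit 94) (nat_lit 1092) (nat_lit 0) (XT.lf (nat_lit 84) (nat_lit 5157345263) (nat_lit 0) (nat_lit 3895426742) (nat_lit 1092) (nat_lit 131797372) (nat_lit 206) (nat_lit 5) (nat_lit 205) (nat_lit 5) (nat_lit 218) (nat_lit 5) (nat_lit 342) (nat_lit 338) (nat_lit 265)) (XT.lf (nat_lit 84) (nat_lit 97987967) (nat_lit 0) (nat_lit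 693821960) (nat_lit 1176) (nat_lit 8509379014) (nat_lit 193) (nat_lit 5) (nat_lit 192) (nat_lit 5) (nat_lit 206) (nat_lit 5) (nat_lit 343) (nat_lit 338) (nat_lit 264)))) (XT.nd (nat_lit 188) (nat_lit 0) (nat_lit 0) (XT.nd (nat_lit 94) (nat_lit 0) (nat_lit 0) (XT.lf (nat_lit 0) (nat_lit 1775325934) (nat_lit 1092) (nat_lit 5037086383) (nat_lit 1176) (nat_lit 2607872506) (nat_lit 193) (nat_lit 5) (nat_lit 206) (nat_lit 5) (nat_lit 207) (nat_lit 5) (nat_lit 344) (nat_lit 338) (nat_lit 263)) (XT.lf (nat_lit 0) (nat_lit 2764877288) (nat_lit 1092) (nat_lit 772054653) (nat_lit 1176) (nat_lit 6006786291) (nat_lit 193) (nat_lit 5) (nat_lit 206) (nat_lit 5) (nat_lit 207) (nat_lit 5) (nat_lit 345) (nat_lit 338) (nat_lit 262))) (XT.nd (nat_lit 94) (nat_lit 0) (nat_lit 84) (XT.lf (nat_lit 84) (nat_lit 3673983026) (nat_lit 0) (nat_lit 115992751) (nat_lit 1176) (nat_lit 5880761830) (nat_lit 194) (nat_lit 5) (nat_lit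 193) (nat_lit 5) (nat_lit 207) (nat_lit 5) (nat_lit 346) (nat_lit 338) (nat_lit 261)) (XT.lf (nat_lit 0) (nat_lit 4857780114) (nat_lit 1092) (nat_lit 1584412825) (nat_lit 1176) (nat_lit 3359073110) (nat_lit 194) (nat_lit 5) (nat_lit 207) (nat_lit 5) (nat_lit 208) (nat_lit 5) (nat_lit 347) (nat_lit 338) (nat_lit 260)))))) (XT.nd (nat_lit 752) (nat_lit 3612) (nat_lit 0) (XT.nd (nat_lit 376) (nat_lit 1008) (nat_lit 0) (XT.nd (nat_lit 188) (nat_lit 0) (nat_lit 84) (XT.nd (nat_lit 94) (nat_lit 0) (nat_lit 84) (XT.lf (nat_lit 84) (nat_lit 2998760105) (nat_lit 0) (nat_lit 2960991835) (nat_lit 1176) (nat_lit 3975949811) (nat_lit 195) (nat_lit 5) (nat_lit 194) (nat_lit 5) (nat_lit 208) (nat_lit 5) (nat_lit 348) (nat_lit 338) (nat_lit 259)) (XT.lf (nat_lit 0) (nat_lit 7089816800) (nat_lit 1092) (nat_lit 2347619863) (nat_lit 1176) (nat_lit 636936640) (nat_lit 195) (nat_lit 5) (nat_lit 208) (nat_lit 5) (nat_lit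 209) (nat_lit 5) (nat_lit 349) (nat_lit 338) (nat_lit 258))) (XT.nd (nat_lit 94) (nat_lit 0) (nat_lit 0) (XT.lf (nat_lit 84) (nat_lit 2377355027) (nat_lit 0) (nat_lit 5902259601) (nat_lit 1176) (nat_lit 1936867672) (nat_lit 196) (nat_lit 5) (nat_lit 195) (nat_lit 5) (nat_lit 209) (nat_lit 5) (nat_lit 350) (nat_lit 338) (nat_lit 257)) (XT.lf (nat_lit 84) (nat_lit 7273289775) (nat_lit 0) (nat_lit 2229769983) (nat_lit 1176) (nat_lit 859906913) (nat_lit 196) (nat_lit 5) (nat_lit 195) (nat_lit 5) (nat_lit 209) (nat_lit 5) (nat_lit 351) (nat_lit 338) (nat_lit 256)))) (XT.nd (nat_lit 188) (nat_lit 0) (nat_lit 0) (XT.nd (nat_lit 94) (nat_lit 0) (nat_lit 0) (XT.lf (nat_lit 0) (nat_lit 251843590) (nat_lit 1176) (nat_lit 8712851393) (nat_lit 1260) (nat_lit 1548906070) (nat_lit 182) (nat_lit 5) (nat_lit 196) (nat_lit 5) (nat_lit 197) (nat_lit 5) (nat_lit 352) (nat_lit 338) (nat_lit 255)) (XT.lf (nat_lit 0)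 (nat_lit 1408564757) (nat_lit 1176) (nat_lit 3817068633) (nat_lit 1260) (nat_lit 5442045019) (nat_lit 182) (nat_lit 5) (nat_lit 196) (nat_lit 5) (nat_lit 197) (nat_lit 5) (nat_lit 353) (nat_lit 338) (nat_lit 254))) (XT.nd (nat_lit 94) (nat_lit 0) (nat_lit 84) (XT.lf (nat_lit 84) (nat_lit 1230596364) (nat_lit 0) (nat_lit 1357255304) (nat_lit 1260) (nat_lit 8238935546) (nat_lit 183) (nat_lit 5) (nat_lit 182) (nat_lit 5) (nat_lit 197) (nat_lit 5) (nat_lit 354) (nat_lit 338) (nat_lit 253)) (XT.lf (nat_lit 0) (nat_lit 3843294222) (nat_lit 1176) (nat_lit 4526821076) (nat_lit 84) (nat_lit 2619374416) (nat_lit 183) (nat_lit 5) (nat_lit 197) (nat_lit 5) (nat_lit 184) (nat_lit 5) (nat_lit 355) (nat_lit 338) (nat_lit 252))))) (XT.nd (nat_lit 376) (nat_lit 1260) (nat_lit 0) (XT.nd (nat_lit 188) (nat_lit 1260) (nat_lit 0) (XT.nd (nat_lit 94) (nat_lit 0) (nat_lit 0) (XT.lf (nat_lit 0) (nat_lit 675330946) (nat_lit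 1176) (nat_lit 4458277114) (nat_lit 1260) (nat_lit 6023591453) (nat_lit 169) (nat_lit 5) (nat_lit 183) (nat_lit 5) (nat_lit 184) (nat_lit 5) (nat_lit 356) (nat_lit 338) (nat_lit 251)) (XT.lf (nat_lit 0) (nat_lit 6107490767) (nat_lit 1176) (nat_lit 378611292) (nat_lit 1260) (nat_lit 4843175656) (nat_lit 169) (nat_lit 5) (nat_lit 183) (nat_lit 5) (nat_lit 184) (nat_lit 5) (nat_lit 357) (nat_lit 338) (nat_lit 250))) (XT.nd (nat_lit 94) (nat_lit 0) (nat_lit 0) (XT.lf (nat_lit 0) (nat_lit 143113973) (nat_lit 1260) (nat_lit 7752624051) (nat_lit 1344) (nat_lit 3610323251) (nat_lit 154) (nat_lit 5) (nat_lit 169) (nat_lit 5) (nat_lit 170) (nat_lit 5) (nat_lit 358) (nat_lit 338) (nat_lit 249)) (XT.lf (nat_lit 0) (nat_lit 5753344171) (nat_lit 1260) (nat_lit 3629645693) (nat_lit 1344) (nat_lit 2304137537) (nat_lit 154) (nat_lit 5) (nat_lit 169) (nat_lit 5) (nat_lit 170) (nat_lit 5) (nat_lit 359) (nat_lit 338)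 (nat_lit 248)))) (XT.nd (nat_lit 188) (nat_lit 588) (nat_lit 0) (XT.nd (nat_lit 94) (nat_lit 672) (nat_lit 0) (XT.lf (nat_lit 0) (nat_lit 10900311830) (nat_lit 1344) (nat_lit 366636834) (nat_lit 84) (nat_lit 607151001) (nat_lit 154) (nat_lit 5) (nat_lit 170) (nat_lit 5) (nat_lit 155) (nat_lit 5) (nat_lit 360) (nat_lit 338) (nat_lit 247)) (XT.lf (nat_lit 0) (nat_lit 457519442) (nat_lit 672) (nat_lit 6650238476) (nat_lit 84) (nat_lit 4956780898) (nat_lit 146) (nat_lit 5) (nat_lit 154) (nat_lit 5) (nat_lit 147) (nat_lit 5) (nat_lit 361) (nat_lit 338) (nat_lit 246))) (XT.nd (nat_lit 94) (nat_lit 588) (nat_lit 0) (XT.lf (nat_lit 0) (nat_lit 1896226720) (nat_lit 672) (nat_lit 912732232) (nat_lit 84) (nat_lit 9451956486) (nat_lit 146) (nat_lit 5) (nat_lit 154) (nat_lit 5) (nat_lit 147) (nat_lit 5) (nat_lit 362) (nat_lit 338) (nat_lit 245)) (XT.lf (nat_lit 0) (nat_lit 3423828824) (nat_lit 672) (nat_lit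 7400505700) (nat_lit 84) (nat_lit 1637510351) (nat_lit 139) (nat_lit 5) (nat_lit 147) (nat_lit 5) (nat_lit 140) (nat_lit 5) (nat_lit 363) (nat_lit 338) (nat_lit 244))))))))
noncomputable def xc45 : XT := (XT.nd (nat_lit 57622) (nat_lit 0) (nat_lit 2352) (XT.nd (nat_lit 1504) (nat_lit 1512) (nat_lit 0) (XT.nd (nat_lit 752) (nat_lit 1848) (nat_lit 0) (XT.nd (nat_lit 376) (nat_lit 1092) (nat_lit 0) (XT.nd (nat_lit 188) (nat_lit 588) (nat_lit 0) (XT.nd (nat_lit 94) (nat_lit 588) (nat_lit 0) (XT.lf (nat_lit 0) (nat_lit 5015639132) (nat_lit 672) (nat_lit 1481622792) (nat_lit 84) (nat_lit 6171021412) (nat_lit 139) (nat_lit 5) (nat_lit 147) (nat_lit 5) (nat_lit 140) (nat_lit 5) (nat_lit 364) (nat_lit 338) (nat_lit 243)) (XT.lf (nat_lit 0) (nat_lit 4688315223) (nat_lit 588) (nat_lit 1993761892) (nat_lit 672) (nat_lit 6198063235) (nat_lit 132) (nat_lit 5) (nat_lit 139) (nat_lit 5) (nat_lit 140) (nat_lit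 5) (nat_lit 365) (nat_lit 338) (nat_lit 242))) (XT.nd (nat_lit 94) (nat_lit 588) (nat_lit 0) (XT.lf (nat_lit 0) (nat_lit 8421206861) (nat_lit 672) (nat_lit 2068139733) (nat_lit 84) (nat_lit 2608356199) (nat_lit 132) (nat_lit 5) (nat_lit 140) (nat_lit 5) (nat_lit 133) (nat_lit 5) (nat_lit 366) (nat_lit 338) (nat_lit 241)) (XT.lf (nat_lit 0) (nat_lit 4285286196) (nat_lit 588) (nat_lit 5970841928) (nat_lit 672) (nat_lit 3064385243) (nat_lit 125) (nat_lit 5) (nat_lit 132) (nat_lit 5) (nat_lit 133) (nat_lit 5) (nat_lit 367) (nat_lit 338) (nat_lit 240)))) (XT.nd (nat_lit 188) (nat_lit 504) (nat_lit 0) (XT.nd (nat_lit 94) (nat_lit 588) (nat_lit 0) (XT.lf (nat_lit 0) (nat_lit 10854033572) (nat_lit 588) (nat_lit 1295966641) (nat_lit 672) (nat_lit 1399919865) (nat_lit 125) (nat_lit 5) (nat_lit 132) (nat_lit 5) (nat_lit 133) (nat_lit 5) (nat_lit 368) (nat_lit 338) (nat_lit 239)) (XT.lf (nat_lit 0) (nat_lit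 363269180) (nat_lit 588) (nat_lit 9930765700) (nat_lit 84) (nat_lit 3490462889) (nat_lit 118) (nat_lit 5) (nat_lit 125) (nat_lit 5) (nat_lit 119) (nat_lit 5) (nat_lit 369) (nat_lit 338) (nat_lit 238))) (XT.nd (nat_lit 94) (nat_lit 504) (nat_lit 0) (XT.lf (nat_lit 0) (nat_lit 2175173270) (nat_lit 588) (nat_lit 3415011753) (nat_lit 84) (nat_lit 8434819723) (nat_lit 118) (nat_lit 5) (nat_lit 125) (nat_lit 5) (nat_lit 119) (nat_lit 5) (nat_lit 370) (nat_lit 338) (nat_lit 237)) (XT.lf (nat_lit 0) (nat_lit 3344134602) (nat_lit 504) (nat_lit 713554795) (nat_lit 588) (nat_lit 10214575580) (nat_lit 112) (nat_lit 5) (nat_lit 118) (nat_lit 5) (nat_lit 119) (nat_lit 5) (nat_lit 371) (nat_lit 338) (nat_lit 236))))) (XT.nd (nat_lit 376) (nat_lit 924) (nat_lit 0) (XT.nd (nat_lit 188) (nat_lit 504) (nat_lit 0) (XT.nd (nat_lit 94) (nat_lit 420) (nat_lit 0) (XT.lf (nat_lit 0) (nat_lit 6057323462) (nat_lit 588) (nat_lit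 4209258475) (nat_lit 84) (nat_lit 4258566748) (nat_lit 112) (nat_lit 5) (nat_lit 119) (nat_lit 5) (nat_lit 113) (nat_lit 5) (nat_lit 372) (nat_lit 338) (nat_lit 235)) (XT.lf (nat_lit 0) (nat_lit 2740460875) (nat_lit 420) (nat_lit 5394739922) (nat_lit 504) (nat_lit 6649894699) (nat_lit 107) (nat_lit 5) (nat_lit 112) (nat_lit 5) (nat_lit 113) (nat_lit 5) (nat_lit 373) (nat_lit 338) (nat_lit 234))) (XT.nd (nat_lit 94) (nat_lit 504) (nat_lit 0) (XT.lf (nat_lit 0) (nat_lit 9967995352) (nat_lit 420) (nat_lit 335049040) (nat_lit 504) (nat_lit 4748990934) (nat_lit 107) (nat_lit 5) (nat_lit 112) (nat_lit 5) (nat_lit 113) (nat_lit 5) (nat_lit 374) (nat_lit 338) (nat_lit 233)) (XT.lf (nat_lit 0) (nat_lit 2061826217) (nat_lit 504) (nat_lit 10526330332) (nat_lit 588) (nat_lit 2737282631) (nat_lit 101) (nat_lit 5) (nat_lit 107) (nat_lit 5) (nat_lit 108) (nat_lit 5) (nat_lit 375) (nat_lit 338) (nat_lit 232))))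 (XT.nd (nat_lit 188) (nat_lit 420) (nat_lit 0) (XT.nd (nat_lit 94) (nat_lit 504) (nat_lit 0) (XT.lf (nat_lit 0) (nat_lit 9506163924) (nat_lit 504) (nat_lit 5476080548) (nat_lit 588) (nat_lit 623610168) (nat_lit 101) (nat_lit 5) (nat_lit 107) (nat_lit 5) (nat_lit 108) (nat_lit 5) (nat_lit 376) (nat_lit 338) (nat_lit 231)) (XT.lf (nat_lit 0) (nat_lit 1272497427) (nat_lit 420) (nat_lit 248948013) (nat_lit 504) (nat_lit 14372861423) (nat_lit 95) (nat_lit 5) (nat_lit 100) (nat_lit 5) (nat_lit 101) (nat_lit 5) (nat_lit 377) (nat_lit 338) (nat_lit 230))) (XT.nd (nat_lit 94) (nat_lit 420) (nat_lit 0) (XT.lf (nat_lit 0) (nat_lit 3816161851) (nat_lit 504) (nat_lit 7271613775) (nat_lit 84) (nat_lit 5100536785) (nat_lit 95) (nat_lit 5) (nat_lit 101) (nat_lit 5) (nat_lit 96) (nat_lit 5) (nat_lit 378) (nat_lit 338) (nat_lit 229)) (XT.lf (nat_lit 0) (nat_lit 285898029) (nat_lit 420) (nat_lit 5885712033) (nat_lit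 504) (nat_lit 10319791045) (nat_lit 90) (nat_lit 5) (nat_lit 95) (nat_lit 5) (nat_lit 96) (nat_lit 5) (nat_lit 379) (nat_lit 338) (nat_lit 228)))))) (XT.nd (nat_lit 752) (nat_lit 336) (nat_lit 0) (XT.nd (nat_lit 376) (nat_lit 840) (nat_lit 0) (XT.nd (nat_lit 188) (nat_lit 336) (nat_lit 0) (XT.nd (nat_lit 94) (nat_lit 0) (nat_lit 0) (XT.lf (nat_lit 0) (nat_lit 8203052188) (nat_lit 420) (nat_lit 455008679) (nat_lit 504) (nat_lit 8143730541) (nat_lit 90) (nat_lit 5) (nat_lit 95) (nat_lit 5) (nat_lit 96) (nat_lit 5) (nat_lit 380) (nat_lit 338) (nat_lit 227)) (XT.lf (nat_lit 0) (nat_lit 11255763576) (nat_lit 504) (nat_lit 829213024) (nat_lit 84) (nat_lit 5035435626) (nat_lit 90) (nat_lit 5) (nat_lit 96) (nat_lit 5) (nat_lit 91) (nat_lit 5) (nat_lit 381) (nat_lit 338) (nat_lit 226))) (XT.nd (nat_lit 94) (nat_lit 0) (nat_lit 0) (XT.lf (nat_lit 0) (nat_lit 7295681211) (nat_lit 336) (nat_lit 6697985589)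 (nat_lit 420) (nat_lit 3453074808) (nat_lit 86) (nat_lit 5) (nat_lit 90) (nat_lit 5) (nat_lit 91) (nat_lit 5) (nat_lit 382) (nat_lit 338) (nat_lit 225)) (XT.lf (nat_lit 0) (nat_lit 15665895323) (nat_lit 336) (nat_lit 1144030975) (nat_lit 420) (nat_lit 973065493) (nat_lit 86) (nat_lit 5) (nat_lit 90) (nat_lit 5) (nat_lit 91) (nat_lit 5) (nat_lit 383) (nat_lit 338) (nat_lit 224)))) (XT.nd (nat_lit 188) (nat_lit 336) (nat_lit 0) (XT.nd (nat_lit 94) (nat_lit 0) (nat_lit 0) (XT.lf (nat_lit 0) (nat_lit 1643331875) (nat_lit 504) (nat_lit 11922747704) (nat_lit 84) (nat_lit 4560025001) (nat_lit 80) (nat_lit 5) (nat_lit 86) (nat_lit 5) (nat_lit 81) (nat_lit 5) (nat_lit 384) (nat_lit 338) (nat_lit 223)) (XT.lf (nat_lit 0) (nat_lit 4339817440) (nat_lit 504) (nat_lit 3698636358) (nat_lit 84) (nat_lit 10440149319) (nat_lit 80) (nat_lit 5) (nat_lit 86) (nat_lit 5) (nat_lit 81) (nat_lit 5) (nat_lit 385) (nat_lit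 338) (nat_lit 222))) (XT.nd (nat_lit 94) (nat_lit 0) (nat_lit 0) (XT.lf (nat_lit 0) (nat_lit 4851909404) (nat_lit 336) (nat_lit 2300507006) (nat_lit 420) (nat_lit 11688219179) (nat_lit 76) (nat_lit 5) (nat_lit 80) (nat_lit 5) (nat_lit 81) (nat_lit 5) (nat_lit 386) (nat_lit 338) (nat_lit 221)) (XT.lf (nat_lit 0) (nat_lit 10110544578) (nat_lit 420) (nat_lit 5527823786) (nat_lit 84) (nat_lit 3573341227) (nat_lit 76) (nat_lit 5) (nat_lit 81) (nat_lit 5) (nat_lit 77) (nat_lit 5) (nat_lit 387) (nat_lit 338) (nat_lit 220))))) (XT.nd (nat_lit 54990) (nat_lit 0) (nat_lit 10080) (XT.nd (nat_lit 54802) (nat_lit 0) (nat_lit 11088) (XT.nd (nat_lit 54708) (nat_lit 0) (nat_lit 11088) (XT.lf (nat_lit 0) (nat_lit 3212111245) (nat_lit 336) (nat_lit 9988022514) (nat_lit 420) (nat_lit 6392515190) (nat_lit 72) (nat_lit 5) (nat_lit 76) (nat_lit 5) (nat_lit 77) (nat_lit 5) (nat_lit 388) (nat_lit 338) (nat_lit 219)) (XT.lf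 (nat_lit 0) (nat_lit 3455388376) (nat_lit 1092) (nat_lit 512508040) (nat_lit 1092) (nat_lit 512508040) (nat_lit 204) (nat_lit 3) (nat_lit 217) (nat_lit 3) (nat_lit 217) (nat_lit 5) (nat_lit 339) (nat_lit 339) (nat_lit 267))) (XT.nd (nat_lit 94) (nat_lit 0) (nat_lit 0) (XT.lf (nat_lit 84) (nat_lit 2944233699) (nat_lit 0) (nat_lit 4931454345) (nat_lit 1092) (nat_lit 1191949407) (nat_lit 205) (nat_lit 5) (nat_lit 204) (nat_lit 3) (nat_lit 217) (nat_lit 5) (nat_lit 340) (nat_lit 339) (nat_lit 266)) (XT.lf (nat_lit 84) (nat_lit 7036463433) (nat_lit 0) (nat_lit 1810761803) (nat_lit 1092) (nat_lit 331183397) (nat_lit 205) (nat_lit 5) (nat_lit 204) (nat_lit 3) (nat_lit 217) (nat_lit 5) (nat_lit 341) (nat_lit 339) (nat_lit 265)))) (XT.nd (nat_lit 188) (nat_lit 0) (nat_lit 0) (XT.nd (nat_lit 94) (nat_lit 0) (nat_lit 0) (XT.lf (nat_lit 0) (nat_lit 545326326) (nat_lit 1092) (nat_lit 7331834889) (nat_lit 1176)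 (nat_lit 1415223041) (nat_lit 192) (nat_lit 5) (nat_lit 205) (nat_lit 5) (nat_lit 206) (nat_lit 5) (nat_lit 342) (nat_lit 339) (nat_lit 264)) (XT.lf (nat_lit 0) (nat_lit 1450053893) (nat_lit 1092) (nat_lit 3218808205) (nat_lit 1176) (nat_lit 4740623673) (nat_lit 192) (nat_lit 5) (nat_lit 205) (nat_lit 5) (nat_lit 206) (nat_lit 5) (nat_lit 343) (nat_lit 339) (nat_lit 263))) (XT.nd (nat_lit 94) (nat_lit 0) (nat_lit 84) (XT.lf (nat_lit 84) (nat_lit 1019757986) (nat_lit 0) (nat_lit 1341683445) (nat_lit 1176) (nat_lit 7169333901) (nat_lit 193) (nat_lit 5) (nat_lit 192) (nat_lit 5) (nat_lit 206) (nat_lit 5) (nat_lit 344) (nat_lit 339) (nat_lit 262)) (XT.lf (nat_lit 0) (nat_lit 3323585370) (nat_lit 1092) (nat_lit 4242269640) (nat_lit 1176) (nat_lit 2089204910) (nat_lit 193) (nat_lit 5) (nat_lit 206) (nat_lit 5) (nat_lit 207) (nat_lit 5) (nat_lit 345) (nat_lit 339) (nat_lit 261))))))) (XT.nd (nat_lit 1504)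 (nat_lit 3864) (nat_lit 0) (XT.nd (nat_lit 752) (nat_lit 2940) (nat_lit 0) (XT.nd (nat_lit 376) (nat_lit 1008) (nat_lit 0) (XT.nd (nat_lit 188) (nat_lit 0) (nat_lit 84) (XT.nd (nat_lit 94) (nat_lit 0) (nat_lit 0) (XT.lf (nat_lit 84) (nat_lit 125612861) (nat_lit 0) (nat_lit 4174874192) (nat_lit 1176) (nat_lit 5483066262) (nat_lit 194) (nat_lit 5) (nat_lit 193) (nat_lit 5) (nat_lit 207) (nat_lit 5) (nat_lit 346) (nat_lit 339) (nat_lit 260)) (XT.lf (nat_lit 84) (nat_lit 4693576806) (nat_lit 0) (nat_lit 628020269) (nat_lit 1176) (nat_lit 4593912806) (nat_lit 194) (nat_lit 5) (nat_lit 193) (nat_lit 5) (nat_lit 207) (nat_lit 5) (nat_lit 347) (nat_lit 339) (nat_lit 259))) (XT.nd (nat_lit 94) (nat_lit 0) (nat_lit 0) (XT.lf (nat_lit 0) (nat_lit 6375390752) (nat_lit 1092) (nat_lit 700282475) (nat_lit 1176) (nat_lit 2975744200) (nat_lit 194) (nat_lit 5) (nat_lit 207) (nat_lit 5) (nat_lit 208) (nat_lit 5)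 (nat_lit 348) (nat_lit 339) (nat_lit 258)) (XT.lf (nat_lit 84) (nat_lit 4011251694) (nat_lit 0) (nat_lit 3468080361) (nat_lit 1176) (nat_lit 2711566359) (nat_lit 195) (nat_lit 5) (nat_lit 194) (nat_lit 5) (nat_lit 208) (nat_lit 5) (nat_lit 349) (nat_lit 339) (nat_lit 257)))) (XT.nd (nat_lit 188) (nat_lit 1176) (nat_lit 0) (XT.nd (nat_lit 94) (nat_lit 0) (nat_lit 0) (XT.lf (nat_lit 0) (nat_lit 8600343341) (nat_lit 1092) (nat_lit 1476860367) (nat_lit 1176) (nat_lit 257892278) (nat_lit 195) (nat_lit 5) (nat_lit 208) (nat_lit 5) (nat_lit 209) (nat_lit 5) (nat_lit 350) (nat_lit 339) (nat_lit 256)) (XT.lf (nat_lit 84) (nat_lit 3380636436) (nat_lit 0) (nat_lit 6416356311) (nat_lit 1176) (nat_lit 685415733) (nat_lit 196) (nat_lit 5) (nat_lit 195) (nat_lit 5) (nat_lit 209) (nat_lit 5) (nat_lit 351) (nat_lit 339) (nat_lit 255))) (XT.nd (nat_lit 94) (nat_lit 0) (nat_lit 84) (XT.lf (nat_lit 0) (nat_lit 378184765)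 (nat_lit 1176) (nat_lit 2241871939) (nat_lit 1260) (nat_lit 8014301049) (nat_lit 181) (nat_lit 5) (nat_lit 195) (nat_lit 5) (nat_lit 196) (nat_lit 5) (nat_lit 352) (nat_lit 339) (nat_lit 254)) (XT.lf (nat_lit 0) (nat_lit 1475718107) (nat_lit 1176) (nat_lit 8009682629) (nat_lit 1260) (nat_lit 1304832201) (nat_lit 182) (nat_lit 5) (nat_lit 196) (nat_lit 5) (nat_lit 197) (nat_lit 5) (nat_lit 353) (nat_lit 339) (nat_lit 253))))) (XT.nd (nat_lit 376) (nat_lit 1932) (nat_lit 0) (XT.nd (nat_lit 188) (nat_lit 1092) (nat_lit 0) (XT.nd (nat_lit 94) (nat_lit 0) (nat_lit 0) (XT.lf (nat_lit 0) (nat_lit 2631714136) (nat_lit 1176) (nat_lit 2995120201) (nat_lit 1260) (nat_lit 5323227679) (nat_lit 182) (nat_lit 5) (nat_lit 196) (nat_lit 5) (nat_lit 197) (nat_lit 5) (nat_lit 354) (nat_lit 339) (nat_lit 252)) (XT.lf (nat_lit 84) (nat_lit 2194793761) (nat_lit 0) (nat_lit 1626104546) (nat_lit 1260) (nat_lit 7293874878)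 (nat_lit 183) (nat_lit 5) (nat_lit 182) (nat_lit 5) (nat_lit 197) (nat_lit 5) (nat_lit 355) (nat_lit 339) (nat_lit 251))) (XT.nd (nat_lit 94) (nat_lit 1176) (nat_lit 0) (XT.lf (nat_lit 0) (nat_lit 5078222319) (nat_lit 1176) (nat_lit 3724479988) (nat_lit 84) (nat_lit 2480790683) (nat_lit 183) (nat_lit 5) (nat_lit 197) (nat_lit 5) (nat_lit 184) (nat_lit 5) (nat_lit 356) (nat_lit 339) (nat_lit 250)) (XT.lf (nat_lit 0) (nat_lit 1624539088) (nat_lit 1176) (nat_lit 4759025542) (nat_lit 1260) (nat_lit 5073440830) (nat_lit 169) (nat_lit 5) (nat_lit 183) (nat_lit 5) (nat_lit 184) (nat_lit 5) (nat_lit 357) (nat_lit 339) (nat_lit 249)))) (XT.nd (nat_lit 188) (nat_lit 672) (nat_lit 0) (XT.nd (nat_lit 94) (nat_lit 1260) (nat_lit 0) (XT.lf (nat_lit 0) (nat_lit 7192606959) (nat_lit 1176) (nat_lit 552105664) (nat_lit 1260) (nat_lit 3890550181) (nat_lit 169) (nat_lit 5) (nat_lit 183) (nat_lit 5) (nat_lit 184) (nat_lit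 5) (nat_lit 358) (nat_lit 339) (nat_lit 248)) (XT.lf (nat_lit 0) (nat_lit 1075561014) (nat_lit 1260) (nat_lit 8097494385) (nat_lit 1344) (nat_lit 2645059390) (nat_lit 154) (nat_lit 5) (nat_lit 169) (nat_lit 5) (nat_lit 170) (nat_lit 5) (nat_lit 359) (nat_lit 339) (nat_lit 247))) (XT.nd (nat_lit 94) (nat_lit 672) (nat_lit 0) (XT.lf (nat_lit 0) (nat_lit 6827064518) (nat_lit 1260) (nat_lit 3847556047) (nat_lit 1344) (nat_lit 1330957237) (nat_lit 154) (nat_lit 5) (nat_lit 169) (nat_lit 5) (nat_lit 170) (nat_lit 5) (nat_lit 360) (nat_lit 339) (nat_lit 246)) (XT.lf (nat_lit 0) (nat_lit 12984901) (nat_lit 672) (nat_lit 11659078457) (nat_lit 84) (nat_lit 526903648) (nat_lit 146) (nat_lit 5) (nat_lit 154) (nat_lit 5) (nat_lit 147) (nat_lit 5) (nat_lit 361) (nat_lit 339) (nat_lit 245)))))) (XT.nd (nat_lit 752) (nat_lit 2100) (nat_lit 0) (XT.nd (nat_lit 376) (nat_lit 1176) (nat_lit 0) (XT.nd (nat_lit 188)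 (nat_lit 588) (nat_lit 0) (XT.nd (nat_lit 94) (nat_lit 0) (nat_lit 0) (XT.lf (nat_lit 0) (nat_lit 1442267522) (nat_lit 672) (nat_lit 5930494384) (nat_lit 84) (nat_lit 5022880977) (nat_lit 146) (nat_lit 5) (nat_lit 154) (nat_lit 5) (nat_lit 147) (nat_lit 5) (nat_lit 362) (nat_lit 339) (nat_lit 244)) (XT.lf (nat_lit 0) (nat_lit 2895853810) (nat_lit 672) (nat_lit 47637261) (nat_lit 84) (nat_lit 9655317755) (nat_lit 146) (nat_lit 5) (nat_lit 154) (nat_lit 5) (nat_lit 147) (nat_lit 5) (nat_lit 363) (nat_lit 339) (nat_lit 243))) (XT.nd (nat_lit 94) (nat_lit 0) (nat_lit 0) (XT.lf (nat_lit 0) (nat_lit 4449935466) (nat_lit 672) (nat_lit 6709091667) (nat_lit 84) (nat_lit 1647367579) (nat_lit 139) (nat_lit 5) (nat_lit 147) (nat_lit 5) (nat_lit 140) (nat_lit 5) (nat_lit 364) (nat_lit 339) (nat_lit 242)) (XT.lf (nat_lit 0) (nat_lit 6062605177) (nat_lit 672) (nat_lit 639247006) (nat_lit 84) (nat_lit 6318027703)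 (nat_lit 139) (nat_lit 5) (nat_lit 147) (nat_lit 5) (nat_lit 140) (nat_lit 5) (nat_lit 365) (nat_lit 339) (nat_lit 241)))) (XT.nd (nat_lit 188) (nat_lit 588) (nat_lit 0) (XT.nd (nat_lit 94) (nat_lit 0) (nat_lit 0) (XT.lf (nat_lit 0) (nat_lit 5707094792) (nat_lit 588) (nat_lit 2054271072) (nat_lit 672) (nat_lit 5477302210) (nat_lit 132) (nat_lit 5) (nat_lit 139) (nat_lit 5) (nat_lit 140) (nat_lit 5) (nat_lit 366) (nat_lit 339) (nat_lit 240)) (XT.lf (nat_lit 0) (nat_lit 9527066118) (nat_lit 672) (nat_lit 1250559369) (nat_lit 84) (nat_lit 2685944035) (nat_lit 132) (nat_lit 5) (nat_lit 140) (nat_lit 5) (nat_lit 133) (nat_lit 5) (nat_lit 367) (nat_lit 339) (nat_lit 239))) (XT.nd (nat_lit 94) (nat_lit 0) (nat_lit 0) (XT.lf (nat_lit 0) (nat_lit 5284845567) (nat_lit 588) (nat_lit 6115710887) (nat_lit 672) (nat_lit 2293045063) (nat_lit 125) (nat_lit 5) (nat_lit 132) (nat_lit 5) (nat_lit 133) (nat_lit 5)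 (nat_lit 368) (nat_lit 339) (nat_lit 238)) (XT.lf (nat_lit 0) (nat_lit 12025286410) (nat_lit 588) (nat_lit 1301587098) (nat_lit 672) (nat_lit 603789561) (nat_lit 125) (nat_lit 5) (nat_lit 132) (nat_lit 5) (nat_lit 133) (nat_lit 5) (nat_lit 369) (nat_lit 339) (nat_lit 237))))) (XT.nd (nat_lit 376) (nat_lit 1008) (nat_lit 0) (XT.nd (nat_lit 188) (nat_lit 504) (nat_lit 0) (XT.nd (nat_lit 94) (nat_lit 0) (nat_lit 0) (XT.lf (nat_lit 0) (nat_lit 1180691815) (nat_lit 588) (nat_lit 9348806380) (nat_lit 84) (nat_lit 3643034771) (nat_lit 118) (nat_lit 5) (nat_lit 125) (nat_lit 5) (nat_lit 119) (nat_lit 5) (nat_lit 370) (nat_lit 339) (nat_lit 236)) (XT.lf (nat_lit 0) (nat_lit 3023462021) (nat_lit 588) (nat_lit 2663207454) (nat_lit 84) (nat_lit 8734328388) (nat_lit 118) (nat_lit 5) (nat_lit 125) (nat_lit 5) (nat_lit 119) (nat_lit 5) (nat_lit 371) (nat_lit 339) (nat_lit 235))) (XT.nd (nat_lit 94) (nat_lit 0)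 (nat_lit 0) (XT.lf (nat_lit 0) (nat_lit 4290338246) (nat_lit 504) (nat_lit 657439695) (nat_lit 588) (nat_lit 9728375105) (nat_lit 112) (nat_lit 5) (nat_lit 118) (nat_lit 5) (nat_lit 119) (nat_lit 5) (nat_lit 372) (nat_lit 339) (nat_lit 234)) (XT.lf (nat_lit 0) (nat_lit 6985745155) (nat_lit 588) (nat_lit 3491444676) (nat_lit 84) (nat_lit 4460118911) (nat_lit 112) (nat_lit 5) (nat_lit 119) (nat_lit 5) (nat_lit 113) (nat_lit 5) (nat_lit 373) (nat_lit 339) (nat_lit 233)))) (XT.nd (nat_lit 188) (nat_lit 588) (nat_lit 0) (XT.nd (nat_lit 94) (nat_lit 0) (nat_lit 0) (XT.lf (nat_lit 0) (nat_lit 3658490848) (nat_lit 420) (nat_lit 5453753737) (nat_lit 504) (nat_lit 6093255556) (nat_lit 107) (nat_lit 5) (nat_lit 112) (nat_lit 5) (nat_lit 113) (nat_lit 5) (nat_lit 374) (nat_lit 339) (nat_lit 232)) (XT.lf (nat_lit 0) (nat_lit 11078507200) (nat_lit 420) (nat_lit 245267129) (nat_lit 504) (nat_lit 4157348056) (nat_lit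 107) (nat_lit 5) (nat_lit 112) (nat_lit 5) (nat_lit 113) (nat_lit 5) (nat_lit 375) (nat_lit 339) (nat_lit 231))) (XT.nd (nat_lit 94) (nat_lit 84) (nat_lit 0) (XT.lf (nat_lit 0) (nat_lit 2948500798) (nat_lit 504) (nat_lit 10717072096) (nat_lit 588) (nat_lit 2097544233) (nat_lit 101) (nat_lit 5) (nat_lit 107) (nat_lit 5) (nat_lit 108) (nat_lit 5) (nat_lit 376) (nat_lit 339) (nat_lit 230)) (XT.lf (nat_lit 0) (nat_lit 57371638) (nat_lit 588) (nat_lit 5461006018) (nat_lit 84) (nat_lit 10534193780) (nat_lit 100) (nat_lit 5) (nat_lit 107) (nat_lit 5) (nat_lit 101) (nat_lit 5) (nat_lit 377) (nat_lit 339) (nat_lit 229))))))))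
noncomputable def xc46 : XT := (XT.nd (nat_lit 57622) (nat_lit 0) (nat_lit 0) (XT.nd (nat_lit 56118) (nat_lit 0) (nat_lit 7812) (XT.nd (nat_lit 658) (nat_lit 840) (nat_lit 0) (XT.nd (nat_lit 282) (nat_lit 336) (nat_lit 0) (XT.nd (nat_lit 94) (nat_lit 420) (nat_lit 0) (XT.lf (nat_lit 0) (nat_lit 2118178303) (nat_lit 420) (nat_lit 123814648) (nat_lit 504) (nat_lit 14107896585) (nat_lit 95) (nat_lit 5) (nat_lit 100) (nat_lit 5) (nat_lit 101) (nat_lit 5) (nat_lit 378) (nat_lit 339) (nat_lit 228)) (XT.nd (nat_lit 94) (nat_lit 420) (nat_lit 0) (XT.lf (nat_lit 0) (nat_lit 4587130977) (nat_lit 504) (nat_lit 6686385649) (nat_lit 84) (nat_lit 5379780331) (nat_lit 95) (nat_lit 5) (nat_lit 101) (nat_lit 5) (nat_lit 96) (nat_lit 5) (nat_lit 379) (nat_lit 339) (nat_lit 227)) (XT.lf (nat_lit 0) (nat_lit 1089975269) (nat_lit 420) (nat_lit 5911793300) (nat_lit 504) (nat_lit 9964082228) (nat_lit 90) (nat_lit 5)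 (nat_lit 95) (nat_lit 5) (nat_lit 96) (nat_lit 5) (nat_lit 380) (nat_lit 339) (nat_lit 226)))) (XT.nd (nat_lit 188) (nat_lit 336) (nat_lit 0) (XT.nd (nat_lit 94) (nat_lit 0) (nat_lit 0) (XT.lf (nat_lit 0) (nat_lit 9221474141) (nat_lit 420) (nat_lit 322552052) (nat_lit 504) (nat_lit 7742117653) (nat_lit 90) (nat_lit 5) (nat_lit 95) (nat_lit 5) (nat_lit 96) (nat_lit 5) (nat_lit 381) (nat_lit 339) (nat_lit 225)) (XT.lf (nat_lit 0) (nat_lit 12202784025) (nat_lit 504) (nat_lit 86490170) (nat_lit 84) (nat_lit 5325582012) (nat_lit 90) (nat_lit 5) (nat_lit 96) (nat_lit 5) (nat_lit 91) (nat_lit 5) (nat_lit 382) (nat_lit 339) (nat_lit 224))) (XT.nd (nat_lit 94) (nat_lit 0) (nat_lit 0) (XT.lf (nat_lit 0) (nat_lit 8274625410) (nat_lit 336) (nat_lit 6737757244) (nat_lit 420) (nat_lit 2938931930) (nat_lit 86) (nat_lit 5) (nat_lit 90) (nat_lit 5) (nat_lit 91) (nat_lit 5) (nat_lit 383) (nat_lit 339) (nat_lit 223))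 (XT.lf (nat_lit 0) (nat_lit 16873807875) (nat_lit 336) (nat_lit 1021878202) (nat_lit 420) (nat_lit 402514620) (nat_lit 86) (nat_lit 5) (nat_lit 90) (nat_lit 5) (nat_lit 91) (nat_lit 5) (nat_lit 384) (nat_lit 339) (nat_lit 222))))) (XT.nd (nat_lit 55084) (nat_lit 0) (nat_lit 9660) (XT.nd (nat_lit 188) (nat_lit 336) (nat_lit 0) (XT.nd (nat_lit 94) (nat_lit 0) (nat_lit 0) (XT.lf (nat_lit 0) (nat_lit 2272273684) (nat_lit 504) (nat_lit 11520791907) (nat_lit 84) (nat_lit 4858643930) (nat_lit 80) (nat_lit 5) (nat_lit 86) (nat_lit 5) (nat_lit 81) (nat_lit 5) (nat_lit 385) (nat_lit 339) (nat_lit 221)) (XT.lf (nat_lit 0) (nat_lit 5032771043) (nat_lit 504) (nat_lit 3072082606) (nat_lit 84) (nat_lit 10910458826) (nat_lit 80) (nat_lit 5) (nat_lit 86) (nat_lit 5) (nat_lit 81) (nat_lit 5) (nat_lit 386) (nat_lit 339) (nat_lit 220))) (XT.nd (nat_lit 94) (nat_lit 0) (nat_lit 0) (XT.lf (nat_lit 0) (nat_lit 5727749011)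 (nat_lit 336) (nat_lit 2192627851) (nat_lit 420) (nat_lit 11468132504) (nat_lit 76) (nat_lit 5) (nat_lit 80) (nat_lit 5) (nat_lit 81) (nat_lit 5) (nat_lit 387) (nat_lit 339) (nat_lit 219)) (XT.lf (nat_lit 0) (nat_lit 10952781668) (nat_lit 420) (nat_lit 4969457335) (nat_lit 84) (nat_lit 3848932259) (nat_lit 76) (nat_lit 5) (nat_lit 81) (nat_lit 5) (nat_lit 77) (nat_lit 5) (nat_lit 388) (nat_lit 339) (nat_lit 218)))) (XT.nd (nat_lit 188) (nat_lit 0) (nat_lit 0) (XT.nd (nat_lit 94) (nat_lit 1092) (nat_lit 0) (XT.lf (nat_lit 0) (nat_lit 4383991088) (nat_lit 1092) (nat_lit 102173974) (nat_lit 1092) (nat_lit 102173974) (nat_lit 204) (nat_lit 3) (nat_lit 217) (nat_lit 3) (nat_lit 217) (nat_lit 5) (nat_lit 340) (nat_lit 340) (nat_lit 265)) (XT.lf (nat_lit 0) (nat_lit 425412832) (nat_lit 1092) (nat_lit 5416549354) (nat_lit 1176) (nat_lit 3445923416) (nat_lit 191) (nat_lit 5) (nat_lit 204) (nat_lit 3) (nat_lit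 205) (nat_lit 5) (nat_lit 341) (nat_lit 340) (nat_lit 264))) (XT.nd (nat_lit 94) (nat_lit 0) (nat_lit 84) (XT.lf (nat_lit 0) (nat_lit 1247249907) (nat_lit 1092) (nat_lit 1349764289) (nat_lit 1176) (nat_lit 6806228547) (nat_lit 191) (nat_lit 5) (nat_lit 204) (nat_lit 3) (nat_lit 205) (nat_lit 5) (nat_lit 342) (nat_lit 340) (nat_lit 263)) (XT.lf (nat_lit 0) (nat_lit 2098730962) (nat_lit 1092) (nat_lit 6650889247) (nat_lit 1176) (nat_lit 772351269) (nat_lit 192) (nat_lit 5) (nat_lit 205) (nat_lit 5) (nat_lit 206) (nat_lit 5) (nat_lit 343) (nat_lit 340) (nat_lit 262)))))) (XT.nd (nat_lit 752) (nat_lit 1932) (nat_lit 0) (XT.nd (nat_lit 376) (nat_lit 0) (nat_lit 84) (XT.nd (nat_lit 188) (nat_lit 0) (nat_lit 84) (XT.nd (nat_lit 94) (nat_lit 0) (nat_lit 0) (XT.lf (nat_lit 0) (nat_lit 2985832060) (nat_lit 1092) (nat_lit 2440711587) (nat_lit 1176) (nat_lit 4217474943) (nat_lit 192) (nat_lit 5) (nat_lit 205)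 (nat_lit 5) (nat_lit 206) (nat_lit 5) (nat_lit 344) (nat_lit 340) (nat_lit 261)) (XT.lf (nat_lit 84) (nat_lit 1916436482) (nat_lit 0) (nat_lit 1972985722) (nat_lit 1176) (nat_lit 5880665702) (nat_lit 193) (nat_lit 5) (nat_lit 192) (nat_lit 5) (nat_lit 206) (nat_lit 5) (nat_lit 345) (nat_lit 340) (nat_lit 260))) (XT.nd (nat_lit 94) (nat_lit 0) (nat_lit 0) (XT.lf (nat_lit 0) (nat_lit 4832473493) (nat_lit 1092) (nat_lit 3477908609) (nat_lit 1176) (nat_lit 1589242005) (nat_lit 193) (nat_lit 5) (nat_lit 206) (nat_lit 5) (nat_lit 207) (nat_lit 5) (nat_lit 346) (nat_lit 340) (nat_lit 259)) (XT.lf (nat_lit 84) (nat_lit 1012268905) (nat_lit 0) (nat_lit 4793856083) (nat_lit 1176) (nat_lit 4226905940) (nat_lit 194) (nat_lit 5) (nat_lit 193) (nat_lit 5) (nat_lit 207) (nat_lit 5) (nat_lit 347) (nat_lit 340) (nat_lit 258)))) (XT.nd (nat_lit 188) (nat_lit 0) (nat_lit 84) (XT.nd (nat_lit 94) (nat_lit 0) (nat_lit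 84) (XT.lf (nat_lit 84) (nat_lit 5691556594) (nat_lit 0) (nat_lit 1126215892) (nat_lit 1176) (nat_lit 3352456103) (nat_lit 194) (nat_lit 5) (nat_lit 193) (nat_lit 5) (nat_lit 207) (nat_lit 5) (nat_lit 348) (nat_lit 340) (nat_lit 257)) (XT.lf (nat_lit 84) (nat_lit 160012960) (nat_lit 0) (nat_lit 7701303526) (nat_lit 1176) (nat_lit 2450229987) (nat_lit 195) (nat_lit 5) (nat_lit 194) (nat_lit 5) (nat_lit 208) (nat_lit 5) (nat_lit 349) (nat_lit 340) (nat_lit 256))) (XT.nd (nat_lit 94) (nat_lit 0) (nat_lit 0) (XT.lf (nat_lit 84) (nat_lit 5001161104) (nat_lit 0) (nat_lit 3966371778) (nat_lit 1176) (nat_lit 1488679259) (nat_lit 195) (nat_lit 5) (nat_lit 194) (nat_lit 5) (nat_lit 208) (nat_lit 5) (nat_lit 350) (nat_lit 340) (nat_lit 255)) (XT.lf (nat_lit 84) (nat_lit 9970909544) (nat_lit 0) (nat_lit 111850440) (nat_lit 1176) (nat_lit 523230867) (nat_lit 195) (nat_lit 5) (nat_lit 194) (nat_lit 5) (nat_lit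 208) (nat_lit 5) (nat_lit 351) (nat_lit 340) (nat_lit 254))))) (XT.nd (nat_lit 376) (nat_lit 1008) (nat_lit 0) (XT.nd (nat_lit 188) (nat_lit 0) (nat_lit 84) (XT.nd (nat_lit 94) (nat_lit 0) (nat_lit 0) (XT.lf (nat_lit 0) (nat_lit 518094679) (nat_lit 1176) (nat_lit 6403202664) (nat_lit 1260) (nat_lit 3837191507) (nat_lit 181) (nat_lit 5) (nat_lit 195) (nat_lit 5) (nat_lit 196) (nat_lit 5) (nat_lit 352) (nat_lit 340) (nat_lit 253)) (XT.lf (nat_lit 0) (nat_lit 1564575654) (nat_lit 1176) (nat_lit 1430646303) (nat_lit 1260) (nat_lit 7920695194) (nat_lit 181) (nat_lit 5) (nat_lit 195) (nat_lit 5) (nat_lit 196) (nat_lit 5) (nat_lit 353) (nat_lit 340) (nat_lit 252))) (XT.nd (nat_lit 94) (nat_lit 0) (nat_lit 0) (XT.lf (nat_lit 0) (nat_lit 2666487160) (nat_lit 1176) (nat_lit 7340788165) (nat_lit 1260) (nat_lit 1070114361) (nat_lit 182) (nat_lit 5) (nat_lit 196) (nat_lit 5) (nat_lit 197) (nat_lit 5) (nat_lit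 354) (nat_lit 340) (nat_lit 251)) (XT.lf (nat_lit 0) (nat_lit 3823769939) (nat_lit 1176) (nat_lit 2202269979) (nat_lit 1260) (nat_lit 5217038289) (nat_lit 182) (nat_lit 5) (nat_lit 196) (nat_lit 5) (nat_lit 197) (nat_lit 5) (nat_lit 355) (nat_lit 340) (nat_lit 250)))) (XT.nd (nat_lit 188) (nat_lit 1092) (nat_lit 0) (XT.nd (nat_lit 94) (nat_lit 0) (nat_lit 84) (XT.lf (nat_lit 84) (nat_lit 3134687443) (nat_lit 0) (nat_lit 1889923579) (nat_lit 1260) (nat_lit 6388901197) (nat_lit 183) (nat_lit 5) (nat_lit 182) (nat_lit 5) (nat_lit 197) (nat_lit 5) (nat_lit 356) (nat_lit 340) (nat_lit 249)) (XT.lf (nat_lit 0) (nat_lit 6285926958) (nat_lit 1176) (nat_lit 2951922069) (nat_lit 84) (nat_lit 2350515597) (nat_lit 183) (nat_lit 5) (nat_lit 197) (nat_lit 5) (nat_lit 184) (nat_lit 5) (nat_lit 357) (nat_lit 340) (nat_lit 248))) (XT.nd (nat_lit 94) (nat_lit 0) (nat_lit 0) (XT.lf (nat_lit 0) (nat_lit 2548898046)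 (nat_lit 1176) (nat_lit 5059209932) (nat_lit 1260) (nat_lit 4159701585) (nat_lit 169) (nat_lit 5) (nat_lit 183) (nat_lit 5) (nat_lit 184) (nat_lit 5) (nat_lit 358) (nat_lit 340) (nat_lit 247)) (XT.lf (nat_lit 0) (nat_lit 8258504377) (nat_lit 1176) (nat_lit 721497595) (nat_lit 1260) (nat_lit 2972371085) (nat_lit 169) (nat_lit 5) (nat_lit 183) (nat_lit 5) (nat_lit 184) (nat_lit 5) (nat_lit 359) (nat_lit 340) (nat_lit 246))))))) (XT.nd (nat_lit 1504) (nat_lit 2604) (nat_lit 0) (XT.nd (nat_lit 752) (nat_lit 2100) (nat_lit 0) (XT.nd (nat_lit 376) (nat_lit 1176) (nat_lit 0) (XT.nd (nat_lit 188) (nat_lit 672) (nat_lit 0) (XT.nd (nat_lit 94) (nat_lit 0) (nat_lit 0) (XT.lf (nat_lit 0) (nat_lit 1982701652) (nat_lit 1260) (nat_lit 8446264831) (nat_lit 1344) (nat_lit 1712465127) (nat_lit 154) (nat_lit 5) (nat_lit 169) (nat_lit 5) (nat_lit 170) (nat_lit 5) (nat_lit 360) (nat_lit 340) (nat_lit 245)) (XT.lf (nat_lit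 0) (nat_lit 7881268499) (nat_lit 1260) (nat_lit 4065745460) (nat_lit 1344) (nat_lit 388414066) (nat_lit 154) (nat_lit 5) (nat_lit 169) (nat_lit 5) (nat_lit 170) (nat_lit 5) (nat_lit 361) (nat_lit 340) (nat_lit 244))) (XT.nd (nat_lit 94) (nat_lit 0) (nat_lit 0) (XT.lf (nat_lit 0) (nat_lit 956114736) (nat_lit 672) (nat_lit 11116373872) (nat_lit 84) (nat_lit 462513331) (nat_lit 146) (nat_lit 5) (nat_lit 154) (nat_lit 5) (nat_lit 147) (nat_lit 5) (nat_lit 362) (nat_lit 340) (nat_lit 243)) (XT.lf (nat_lit 0) (nat_lit 2400817380) (nat_lit 672) (nat_lit 5241926751) (nat_lit 84) (nat_lit 5095705827) (nat_lit 146) (nat_lit 5) (nat_lit 154) (nat_lit 5) (nat_lit 147) (nat_lit 5) (nat_lit 363) (nat_lit 340) (nat_lit 242)))) (XT.nd (nat_lit 188) (nat_lit 588) (nat_lit 0) (XT.nd (nat_lit 94) (nat_lit 0) (nat_lit 0) (XT.lf (nat_lit 0) (nat_lit 807944642) (nat_lit 588) (nat_lit 3071174379) (nat_lit 672) (nat_lit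 9069205338) (nat_lit 139) (nat_lit 5) (nat_lit 146) (nat_lit 5) (nat_lit 147) (nat_lit 5) (nat_lit 364) (nat_lit 340) (nat_lit 241)) (XT.lf (nat_lit 0) (nat_lit 5453818843) (nat_lit 672) (nat_lit 6049369786) (nat_lit 84) (nat_lit 1659774672) (nat_lit 139) (nat_lit 5) (nat_lit 147) (nat_lit 5) (nat_lit 140) (nat_lit 5) (nat_lit 365) (nat_lit 340) (nat_lit 240))) (XT.nd (nat_lit 94) (nat_lit 0) (nat_lit 0) (XT.lf (nat_lit 0) (nat_lit 181025153) (nat_lit 588) (nat_lit 6910232588) (nat_lit 672) (nat_lit 6292347647) (nat_lit 132) (nat_lit 5) (nat_lit 139) (nat_lit 5) (nat_lit 140) (nat_lit 5) (nat_lit 366) (nat_lit 340) (nat_lit 239)) (XT.lf (nat_lit 0) (nat_lit 6706029488) (nat_lit 588) (nat_lit 2116555556) (nat_lit 672) (nat_lit 4786966810) (nat_lit 132) (nat_lit 5) (nat_lit 139) (nat_lit 5) (nat_lit 140) (nat_lit 5) (nat_lit 367) (nat_lit 340) (nat_lit 238))))) (XT.nd (nat_lit 376) (nat_lit 924)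 (nat_lit 0) (XT.nd (nat_lit 188) (nat_lit 588) (nat_lit 0) (XT.nd (nat_lit 94) (nat_lit 588) (nat_lit 0) (XT.lf (nat_lit 0) (nat_lit 10617122659) (nat_lit 672) (nat_lit 458945642) (nat_lit 84) (nat_lit 2765897556) (nat_lit 132) (nat_lit 5) (nat_lit 140) (nat_lit 5) (nat_lit 133) (nat_lit 5) (nat_lit 368) (nat_lit 340) (nat_lit 237)) (XT.lf (nat_lit 0) (nat_lit 6264392711) (nat_lit 588) (nat_lit 6266892366) (nat_lit 672) (nat_lit 1548120007) (nat_lit 125) (nat_lit 5) (nat_lit 132) (nat_lit 5) (nat_lit 133) (nat_lit 5) (nat_lit 369) (nat_lit 340) (nat_lit 236))) (XT.nd (nat_lit 94) (nat_lit 504) (nat_lit 0) (XT.lf (nat_lit 0) (nat_lit 164832197) (nat_lit 672) (nat_lit 1142788665) (nat_lit 84) (nat_lit 13016637426) (nat_lit 124) (nat_lit 5) (nat_lit 132) (nat_lit 5) (nat_lit 125) (nat_lit 5) (nat_lit 370) (nat_lit 340) (nat_lit 235)) (XT.lf (nat_lit 0) (nat_lit 1976339319) (nat_lit 588) (nat_lit 8799897123)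 (nat_lit 84) (nat_lit 3797436565) (nat_lit 118) (nat_lit 5) (nat_lit 125) (nat_lit 5) (nat_lit 119) (nat_lit 5) (nat_lit 371) (nat_lit 340) (nat_lit 234)))) (XT.nd (nat_lit 188) (nat_lit 420) (nat_lit 0) (XT.nd (nat_lit 94) (nat_lit 504) (nat_lit 0) (XT.lf (nat_lit 0) (nat_lit 3852250105) (nat_lit 588) (nat_lit 1937886738) (nat_lit 84) (nat_lit 9040155084) (nat_lit 118) (nat_lit 5) (nat_lit 125) (nat_lit 5) (nat_lit 119) (nat_lit 5) (nat_lit 372) (nat_lit 340) (nat_lit 233)) (XT.lf (nat_lit 0) (nat_lit 5216371049) (nat_lit 504) (nat_lit 604091208) (nat_lit 588) (nat_lit 9273089264) (nat_lit 112) (nat_lit 5) (nat_lit 118) (nat_lit 5) (nat_lit 119) (nat_lit 5) (nat_lit 373) (nat_lit 340) (nat_lit 232))) (XT.nd (nat_lit 94) (nat_lit 420) (nat_lit 0) (XT.lf (nat_lit 0) (nat_lit 7899155750) (nat_lit 588) (nat_lit 2800550771) (nat_lit 84) (nat_lit 4663481495) (nat_lit 112) (nat_lit 5) (nat_lit 119) (nat_lit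 5) (nat_lit 113) (nat_lit 5) (nat_lit 374) (nat_lit 340) (nat_lit 231)) (XT.lf (nat_lit 0) (nat_lit 4556082454) (nat_lit 420) (nat_lit 5520440736) (nat_lit 504) (nat_lit 5563322538) (nat_lit 107) (nat_lit 5) (nat_lit 112) (nat_lit 5) (nat_lit 113) (nat_lit 5) (nat_lit 375) (nat_lit 340) (nat_lit 230)))))) (XT.nd (nat_lit 752) (nat_lit 840) (nat_lit 0) (XT.nd (nat_lit 376) (nat_lit 756) (nat_lit 0) (XT.nd (nat_lit 188) (nat_lit 504) (nat_lit 0) (XT.nd (nat_lit 94) (nat_lit 504) (nat_lit 0) (XT.lf (nat_lit 0) (nat_lit 12175752591) (nat_lit 420) (nat_lit 158522606) (nat_lit 504) (nat_lit 3590096959) (nat_lit 107) (nat_lit 5) (nat_lit 112) (nat_lit 5) (nat_lit 113) (nat_lit 5) (nat_lit 376) (nat_lit 340) (nat_lit 229)) (XT.lf (nat_lit 0) (nat_lit 3814427586) (nat_lit 504) (nat_lit 10920714387) (nat_lit 588) (nat_lit 1480051220) (nat_lit 101) (nat_lit 5) (nat_lit 107) (nat_lit 5) (nat_lit 108) (nat_lit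 5) (nat_lit 377) (nat_lit 340) (nat_lit 228))) (XT.nd (nat_lit 94) (nat_lit 420) (nat_lit 0) (XT.lf (nat_lit 0) (nat_lit 706803376) (nat_lit 588) (nat_lit 4856148234) (nat_lit 84) (nat_lit 10950795353) (nat_lit 100) (nat_lit 5) (nat_lit 107) (nat_lit 5) (nat_lit 101) (nat_lit 5) (nat_lit 378) (nat_lit 340) (nat_lit 227)) (XT.lf (nat_lit 0) (nat_lit 2942875460) (nat_lit 420) (nat_lit 2539169) (nat_lit 504) (nat_lit 13874944700) (nat_lit 95) (nat_lit 5) (nat_lit 100) (nat_lit 5) (nat_lit 101) (nat_lit 5) (nat_lit 379) (nat_lit 340) (nat_lit 226)))) (XT.nd (nat_lit 188) (nat_lit 336) (nat_lit 0) (XT.nd (nat_lit 94) (nat_lit 420) (nat_lit 0) (XT.lf (nat_lit 0) (nat_lit 5343544293) (nat_lit 504) (nat_lit 6129717779) (nat_lit 84) (nat_lit 5660155212) (nat_lit 95) (nat_lit 5) (nat_lit 101) (nat_lit 5) (nat_lit 96) (nat_lit 5) (nat_lit 380) (nat_lit 340) (nat_lit 225)) (XT.lf (nat_lit 0) (nat_lit 1872509854)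 (nat_lit 420) (nat_lit 5947295751) (nat_lit 504) (nat_lit 9635893235) (nat_lit 90) (nat_lit 5) (nat_lit 95) (nat_lit 5) (nat_lit 96) (nat_lit 5) (nat_lit 381) (nat_lit 340) (nat_lit 224))) (XT.nd (nat_lit 94) (nat_lit 336) (nat_lit 0) (XT.lf (nat_lit 0) (nat_lit 10226113828) (nat_lit 420) (nat_lit 194508858) (nat_lit 504) (nat_lit 7365535105) (nat_lit 90) (nat_lit 5) (nat_lit 95) (nat_lit 5) (nat_lit 96) (nat_lit 5) (nat_lit 382) (nat_lit 340) (nat_lit 223)) (XT.lf (nat_lit 0) (nat_lit 647077852) (nat_lit 336) (nat_lit 12502378302) (nat_lit 420) (nat_lit 4975591093) (nat_lit 86) (nat_lit 5) (nat_lit 90) (nat_lit 5) (nat_lit 91) (nat_lit 5) (nat_lit 383) (nat_lit 340) (nat_lit 222))))) (XT.nd (nat_lit 376) (nat_lit 336) (nat_lit 0) (XT.nd (nat_lit 188) (nat_lit 420) (nat_lit 0) (XT.nd (nat_lit 94) (nat_lit 84) (nat_lit 0) (XT.lf (nat_lit 0) (nat_lit 9239306591) (nat_lit 336) (nat_lit 6787973746)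 (nat_lit 420) (nat_lit 2444825289) (nat_lit 86) (nat_lit 5) (nat_lit 90) (nat_lit 5) (nat_lit 91) (nat_lit 5) (nat_lit 384) (nat_lit 340) (nat_lit 221)) (XT.lf (nat_lit 0) (nat_lit 147783896) (nat_lit 420) (nat_lit 755766853) (nat_lit 84) (nat_lit 17926321052) (nat_lit 85) (nat_lit 5) (nat_lit 90) (nat_lit 5) (nat_lit 86) (nat_lit 5) (nat_lit 385) (nat_lit 340) (nat_lit 220))) (XT.nd (nat_lit 94) (nat_lit 0) (nat_lit 0) (XT.lf (nat_lit 0) (nat_lit 2886809933) (nat_lit 504) (nat_lit 11150383778) (nat_lit 84) (nat_lit 5156932401) (nat_lit 80) (nat_lit 5) (nat_lit 86) (nat_lit 5) (nat_lit 81) (nat_lit 5) (nat_lit 386) (nat_lit 340) (nat_lit 219)) (XT.lf (nat_lit 0) (nat_lit 5714208581) (nat_lit 504) (nat_lit 2469068496) (nat_lit 84) (nat_lit 11385859148) (nat_lit 80) (nat_lit 5) (nat_lit 86) (nat_lit 5) (nat_lit 81) (nat_lit 5) (nat_lit 387) (nat_lit 340) (nat_lit 218)))) (XT.nd (nat_lit 54990) (nat_lit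 0) (nat_lit 9660) (XT.nd (nat_lit 54896) (nat_lit 0) (nat_lit 9660) (XT.lf (nat_lit 0) (nat_lit 6587942613) (nat_lit 336) (nat_lit 2091666781) (nat_lit 420) (nat_lit 11274205651) (nat_lit 76) (nat_lit 5) (nat_lit 80) (nat_lit 5) (nat_lit 81) (nat_lit 5) (nat_lit 388) (nat_lit 340) (nat_lit 217)) (XT.lf (nat_lit 0) (nat_lit 293130377) (nat_lit 0) (nat_lit 293130377) (nat_lit 1092) (nat_lit 4114427616) (nat_lit 191) (nat_lit 5) (nat_lit 191) (nat_lit 3) (nat_lit 204) (nat_lit 3) (nat_lit 341) (nat_lit 341) (nat_lit 263))) (XT.nd (nat_lit 94) (nat_lit 0) (nat_lit 0) (XT.lf (nat_lit 0) (nat_lit 1973818274) (nat_lit 1092) (nat_lit 4750734937) (nat_lit 1176) (nat_lit 2792826706) (nat_lit 191) (nat_lit 5) (nat_lit 204) (nat_lit 3) (nat_lit 205) (nat_lit 5) (nat_lit 342) (nat_lit 341) (nat_lit 262)) (XT.lf (nat_lit 0) (nat_lit 2775582994) (nat_lit 1092) (nat_lit 586071880) (nat_lit 1176) (nat_lit 6275974226)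 (nat_lit 191) (nat_lit 5) (nat_lit 204) (nat_lit 3) (nat_lit 205) (nat_lit 5) (nat_lit 343) (nat_lit 341) (nat_lit 261))))))))
noncomputable def xc47 : XT := (XT.nd (nat_lit 3008) (nat_lit 2688) (nat_lit 0) (XT.nd (nat_lit 1504) (nat_lit 4788) (nat_lit 0) (XT.nd (nat_lit 752) (nat_lit 1932) (nat_lit 0) (XT.nd (nat_lit 376) (nat_lit 0) (nat_lit 84) (XT.nd (nat_lit 188) (nat_lit 0) (nat_lit 0) (XT.nd (nat_lit 94) (nat_lit 0) (nat_lit 0) (XT.lf (nat_lit 0) (nat_lit 3610505075) (nat_lit 1092) (nat_lit 6001230620) (nat_lit 1176) (nat_lit 149534001) (nat_lit 192) (nat_lit 5) (nat_lit 205) (nat_lit 5) (nat_lit 206) (nat_lit 5) (nat_lit 344) (nat_lit 341) (nat_lit 260)) (XT.lf (nat_lit 0) (nat_lit 4482020792) (nat_lit 1092) (nat_lit 1689481184) (nat_lit 1176) (nat_lit 3716826564) (nat_lit 192) (nat_lit 5) (nat_lit 205) (nat_lit 5) (nat_lit 206) (nat_lit 5) (nat_lit 345) (nat_lit 341) (nat_lit 259))) (XT.nd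 (nat_lit 94) (nat_lit 0) (nat_lit 84) (XT.lf (nat_lit 84) (nat_lit 2790298468) (nat_lit 0) (nat_lit 2589298277) (nat_lit 1176) (nat_lit 4639658755) (nat_lit 193) (nat_lit 5) (nat_lit 192) (nat_lit 5) (nat_lit 206) (nat_lit 5) (nat_lit 346) (nat_lit 341) (nat_lit 258)) (XT.lf (nat_lit 0) (nat_lit 6305735531) (nat_lit 1092) (nat_lit 2741799905) (nat_lit 1176) (nat_lit 1106577995) (nat_lit 193) (nat_lit 5) (nat_lit 206) (nat_lit 5) (nat_lit 207) (nat_lit 5) (nat_lit 347) (nat_lit 341) (nat_lit 257)))) (XT.nd (nat_lit 188) (nat_lit 0) (nat_lit 84) (XT.nd (nat_lit 94) (nat_lit 0) (nat_lit 0) (XT.lf (nat_lit 84) (nat_lit 1874843268) (nat_lit 0) (nat_lit 5403064983) (nat_lit 1176) (nat_lit 3014612062) (nat_lit 194) (nat_lit 5) (nat_lit 193) (nat_lit 5) (nat_lit 207) (nat_lit 5) (nat_lit 348) (nat_lit 341) (nat_lit 256)) (XT.lf (nat_lit 84) (nat_lit 6670270569) (nat_lit 0) (nat_lit 1611840444) (nat_lit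 1176) (nat_lit 2152931673) (nat_lit 194) (nat_lit 5) (nat_lit 193) (nat_lit 5) (nat_lit 207) (nat_lit 5) (nat_lit 349) (nat_lit 341) (nat_lit 255))) (XT.nd (nat_lit 94) (nat_lit 0) (nat_lit 0) (XT.lf (nat_lit 84) (nat_lit 1009057873) (nat_lit 0) (nat_lit 8315108657) (nat_lit 1176) (nat_lit 1257490197) (nat_lit 195) (nat_lit 5) (nat_lit 194) (nat_lit 5) (nat_lit 208) (nat_lit 5) (nat_lit 350) (nat_lit 341) (nat_lit 254)) (XT.lf (nat_lit 84) (nat_lit 5970850815) (nat_lit 0) (nat_lit 4456980432) (nat_lit 1176) (nat_lit 303973919) (nat_lit 195) (nat_lit 5) (nat_lit 194) (nat_lit 5) (nat_lit 208) (nat_lit 5) (nat_lit 351) (nat_lit 341) (nat_lit 253))))) (XT.nd (nat_lit 376) (nat_lit 924) (nat_lit 0) (XT.nd (nat_lit 188) (nat_lit 0) (nat_lit 84) (XT.nd (nat_lit 94) (nat_lit 0) (nat_lit 84) (XT.lf (nat_lit 84) (nat_lit 175768677) (nat_lit 0) (nat_lit 467777862) (nat_lit 1260) (nat_lit 10243400742) (nat_lit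 181) (nat_lit 5) (nat_lit 180) (nat_lit 5) (nat_lit 195) (nat_lit 5) (nat_lit 352) (nat_lit 341) (nat_lit 252)) (XT.lf (nat_lit 0) (nat_lit 1674458244) (nat_lit 1176) (nat_lit 5742403799) (nat_lit 1260) (nat_lit 3628001537) (nat_lit 181) (nat_lit 5) (nat_lit 195) (nat_lit 5) (nat_lit 196) (nat_lit 5) (nat_lit 353) (nat_lit 341) (nat_lit 251))) (XT.nd (nat_lit 94) (nat_lit 0) (nat_lit 84) (XT.lf (nat_lit 0) (nat_lit 2719105861) (nat_lit 1176) (nat_lit 645512348) (nat_lit 1260) (nat_lit 7843456133) (nat_lit 181) (nat_lit 5) (nat_lit 195) (nat_lit 5) (nat_lit 196) (nat_lit 5) (nat_lit 354) (nat_lit 341) (nat_lit 250)) (XT.lf (nat_lit 0) (nat_lit 3827165638) (nat_lit 1176) (nat_lit 6704017802) (nat_lit 1260) (nat_lit 844075831) (nat_lit 182) (nat_lit 5) (nat_lit 196) (nat_lit 5) (nat_lit 197) (nat_lit 5) (nat_lit 355) (nat_lit 341) (nat_lit 249)))) (XT.nd (nat_lit 188) (nat_lit 1092) (nat_lit 0) (XT.nd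 (nat_lit 94) (nat_lit 0) (nat_lit 0) (XT.lf (nat_lit 0) (nat_lit 4987690672) (nat_lit 1176) (nat_lit 1436305061) (nat_lit 1260) (nat_lit 5122926175) (nat_lit 182) (nat_lit 5) (nat_lit 196) (nat_lit 5) (nat_lit 197) (nat_lit 5) (nat_lit 356) (nat_lit 341) (nat_lit 248)) (XT.lf (nat_lit 84) (nat_lit 4052603897) (nat_lit 0) (nat_lit 2149313242) (nat_lit 1260) (nat_lit 5521288445) (nat_lit 183) (nat_lit 5) (nat_lit 182) (nat_lit 5) (nat_lit 197) (nat_lit 5) (nat_lit 357) (nat_lit 341) (nat_lit 247))) (XT.nd (nat_lit 94) (nat_lit 1176) (nat_lit 0) (XT.lf (nat_lit 0) (nat_lit 7469280871) (nat_lit 1176) (nat_lit 2206949410) (nat_lit 84) (nat_lit 2228082806) (nat_lit 183) (nat_lit 5) (nat_lit 197) (nat_lit 5) (nat_lit 184) (nat_lit 5) (nat_lit 358) (nat_lit 341) (nat_lit 246)) (XT.lf (nat_lit 0) (nat_lit 3450723444) (nat_lit 1176) (nat_lit 5359363668) (nat_lit 1260) (nat_lit 3279739621) (nat_lit 169) (nat_lit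 5) (nat_lit 183) (nat_lit 5) (nat_lit 184) (nat_lit 5) (nat_lit 359) (nat_lit 341) (nat_lit 245)))))) (XT.nd (nat_lit 752) (nat_lit 1680) (nat_lit 0) (XT.nd (nat_lit 376) (nat_lit 1176) (nat_lit 0) (XT.nd (nat_lit 188) (nat_lit 672) (nat_lit 0) (XT.nd (nat_lit 94) (nat_lit 1260) (nat_lit 0) (XT.lf (nat_lit 0) (nat_lit 9307578397) (nat_lit 1176) (nat_lit 887198288) (nat_lit 1260) (nat_lit 2086053856) (nat_lit 169) (nat_lit 5) (nat_lit 183) (nat_lit 5) (nat_lit 184) (nat_lit 5) (nat_lit 360) (nat_lit 341) (nat_lit 244)) (XT.lf (nat_lit 0) (nat_lit 2866835173) (nat_lit 1260) (nat_lit 8799422419) (nat_lit 1344) (nat_lit 809982878) (nat_lit 154) (nat_lit 5) (nat_lit 169) (nat_lit 5) (nat_lit 170) (nat_lit 5) (nat_lit 361) (nat_lit 341) (nat_lit 243))) (XT.nd (nat_lit 94) (nat_lit 588) (nat_lit 0) (XT.lf (nat_lit 0) (nat_lit 515743193) (nat_lit 1344) (nat_lit 3763630367) (nat_lit 84) (nat_lit 8397388833)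 (nat_lit 153) (nat_lit 5) (nat_lit 169) (nat_lit 5) (nat_lit 154) (nat_lit 5) (nat_lit 362) (nat_lit 341) (nat_lit 242)) (XT.lf (nat_lit 0) (nat_lit 1873421317) (nat_lit 672) (nat_lit 10608619977) (nat_lit 84) (nat_lit 400794966) (nat_lit 146) (nat_lit 5) (nat_lit 154) (nat_lit 5) (nat_lit 147) (nat_lit 5) (nat_lit 363) (nat_lit 341) (nat_lit 241)))) (XT.nd (nat_lit 188) (nat_lit 588) (nat_lit 0) (XT.nd (nat_lit 94) (nat_lit 588) (nat_lit 0) (XT.lf (nat_lit 0) (nat_lit 3335582813) (nat_lit 672) (nat_lit 4582441727) (nat_lit 84) (nat_lit 5175184997) (nat_lit 146) (nat_lit 5) (nat_lit 154) (nat_lit 5) (nat_lit 147) (nat_lit 5) (nat_lit 364) (nat_lit 341) (nat_lit 240)) (XT.lf (nat_lit 0) (nat_lit 1640918525) (nat_lit 588) (nat_lit 3199960662) (nat_lit 672) (nat_lit 8469065641) (nat_lit 139) (nat_lit 5) (nat_lit 146) (nat_lit 5) (nat_lit 147) (nat_lit 5) (nat_lit 365) (nat_lit 341) (nat_lit 239)))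 (XT.nd (nat_lit 94) (nat_lit 588) (nat_lit 0) (XT.lf (nat_lit 0) (nat_lit 6437855043) (nat_lit 672) (nat_lit 5419280863) (nat_lit 84) (nat_lit 1674678730) (nat_lit 139) (nat_lit 5) (nat_lit 147) (nat_lit 5) (nat_lit 140) (nat_lit 5) (nat_lit 366) (nat_lit 341) (nat_lit 238)) (XT.lf (nat_lit 0) (nat_lit 990069355) (nat_lit 588) (nat_lit 7118176800) (nat_lit 672) (nat_lit 5651356460) (nat_lit 132) (nat_lit 5) (nat_lit 139) (nat_lit 5) (nat_lit 140) (nat_lit 5) (nat_lit 367) (nat_lit 341) (nat_lit 237))))) (XT.nd (nat_lit 376) (nat_lit 1008) (nat_lit 0) (XT.nd (nat_lit 188) (nat_lit 84) (nat_lit 0) (XT.nd (nat_lit 94) (nat_lit 588) (nat_lit 0) (XT.lf (nat_lit 0) (nat_lit 7687417604) (nat_lit 588) (nat_lit 2180670897) (nat_lit 672) (nat_lit 4124982012) (nat_lit 132) (nat_lit 5) (nat_lit 139) (nat_lit 5) (nat_lit 140) (nat_lit 5) (nat_lit 368) (nat_lit 341) (nat_lit 236)) (XT.lf (nat_lit 0) (nat_lit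 314967156) (nat_lit 588) (nat_lit 11381774470) (nat_lit 672) (nat_lit 2536346050) (nat_lit 125) (nat_lit 5) (nat_lit 132) (nat_lit 5) (nat_lit 133) (nat_lit 5) (nat_lit 369) (nat_lit 341) (nat_lit 235))) (XT.nd (nat_lit 94) (nat_lit 84) (nat_lit 0) (XT.lf (nat_lit 0) (nat_lit 7226197409) (nat_lit 588) (nat_lit 6424462860) (nat_lit 672) (nat_lit 827557850) (nat_lit 125) (nat_lit 5) (nat_lit 132) (nat_lit 5) (nat_lit 133) (nat_lit 5) (nat_lit 370) (nat_lit 341) (nat_lit 234)) (XT.lf (nat_lit 0) (nat_lit 899911836) (nat_lit 672) (nat_lit 410014940) (nat_lit 84) (nat_lit 13420961877) (nat_lit 124) (nat_lit 5) (nat_lit 132) (nat_lit 5) (nat_lit 125) (nat_lit 5) (nat_lit 371) (nat_lit 341) (nat_lit 233)))) (XT.nd (nat_lit 188) (nat_lit 504) (nat_lit 0) (XT.nd (nat_lit 94) (nat_lit 0) (nat_lit 0) (XT.lf (nat_lit 0) (nat_lit 2752216124) (nat_lit 588) (nat_lit 8282130017) (nat_lit 84) (nat_lit 3953880871)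 (nat_lit 118) (nat_lit 5) (nat_lit 125) (nat_lit 5) (nat_lit 119) (nat_lit 5) (nat_lit 372) (nat_lit 341) (nat_lit 232)) (XT.lf (nat_lit 0) (nat_lit 4663532777) (nat_lit 588) (nat_lit 1237029146) (nat_lit 84) (nat_lit 9352642464) (nat_lit 118) (nat_lit 5) (nat_lit 125) (nat_lit 5) (nat_lit 119) (nat_lit 5) (nat_lit 373) (nat_lit 341) (nat_lit 231))) (XT.nd (nat_lit 94) (nat_lit 0) (nat_lit 0) (XT.lf (nat_lit 0) (nat_lit 6124415255) (nat_lit 504) (nat_lit 553336879) (nat_lit 588) (nat_lit 8847033573) (nat_lit 112) (nat_lit 5) (nat_lit 118) (nat_lit 5) (nat_lit 119) (nat_lit 5) (nat_lit 374) (nat_lit 341) (nat_lit 230)) (XT.lf (nat_lit 0) (nat_lit 8799565469) (nat_lit 588) (nat_lit 2134602881) (nat_lit 84) (nat_lit 4868951984) (nat_lit 112) (nat_lit 5) (nat_lit 119) (nat_lit 5) (nat_lit 113) (nat_lit 5) (nat_lit 375) (nat_lit 341) (nat_lit 229))))))) (XT.nd (nat_lit 56400) (nat_lit 0) (nat_lit 7476)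 (XT.nd (nat_lit 752) (nat_lit 840) (nat_lit 0) (XT.nd (nat_lit 376) (nat_lit 840) (nat_lit 0) (XT.nd (nat_lit 188) (nat_lit 588) (nat_lit 0) (XT.nd (nat_lit 94) (nat_lit 0) (nat_lit 0) (XT.lf (nat_lit 0) (nat_lit 5435376748) (nat_lit 420) (nat_lit 5594692272) (nat_lit 504) (nat_lit 5058405186) (nat_lit 107) (nat_lit 5) (nat_lit 112) (nat_lit 5) (nat_lit 113) (nat_lit 5) (nat_lit 376) (nat_lit 341) (nat_lit 228)) (XT.lf (nat_lit 0) (nat_lit 13262007519) (nat_lit 420) (nat_lit 74577618) (nat_lit 504) (nat_lit 3045550327) (nat_lit 107) (nat_lit 5) (nat_lit 112) (nat_lit 5) (nat_lit 113) (nat_lit 5) (nat_lit 377) (nat_lit 341) (nat_lit 227))) (XT.nd (nat_lit 94) (nat_lit 84) (nat_lit 0) (XT.lf (nat_lit 0) (nat_lit 4661702118) (nat_lit 504) (nat_lit 11137232160) (nat_lit 588) (nat_lit 883092271) (nat_lit 101) (nat_lit 5) (nat_lit 107) (nat_lit 5) (nat_lit 108) (nat_lit 5) (nat_lit 378) (nat_lit 341)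 (nat_lit 226)) (XT.lf (nat_lit 0) (nat_lit 1338536829) (nat_lit 588) (nat_lit 4277270550) (nat_lit 84) (nat_lit 11374121512) (nat_lit 100) (nat_lit 5) (nat_lit 107) (nat_lit 5) (nat_lit 101) (nat_lit 5) (nat_lit 379) (nat_lit 341) (nat_lit 225)))) (XT.nd (nat_lit 188) (nat_lit 420) (nat_lit 0) (XT.nd (nat_lit 94) (nat_lit 0) (nat_lit 0) (XT.lf (nat_lit 0) (nat_lit 3634528032) (nat_lit 504) (nat_lit 13558579906) (nat_lit 84) (nat_lit 112951681) (nat_lit 95) (nat_lit 5) (nat_lit 101) (nat_lit 5) (nat_lit 96) (nat_lit 5) (nat_lit 380) (nat_lit 341) (nat_lit 224)) (XT.lf (nat_lit 0) (nat_lit 6087128393) (nat_lit 504) (nat_lit 5599819662) (nat_lit 84) (nat_lit 5942111317) (nat_lit 95) (nat_lit 5) (nat_lit 101) (nat_lit 5) (nat_lit 96) (nat_lit 5) (nat_lit 381) (nat_lit 341) (nat_lit 223))) (XT.nd (nat_lit 94) (nat_lit 0) (nat_lit 0) (XT.lf (nat_lit 0) (nat_lit 2635476862) (nat_lit 420) (nat_lit 5992006124)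 (nat_lit 504) (nat_lit 9333857336) (nat_lit 90) (nat_lit 5) (nat_lit 95) (nat_lit 5) (nat_lit 96) (nat_lit 5) (nat_lit 382) (nat_lit 341) (nat_lit 222)) (XT.lf (nat_lit 0) (nat_lit 11219102789) (nat_lit 420) (nat_lit 70530047) (nat_lit 504) (nat_lit 7012605337) (nat_lit 90) (nat_lit 5) (nat_lit 95) (nat_lit 5) (nat_lit 96) (nat_lit 5) (nat_lit 383) (nat_lit 341) (nat_lit 221))))) (XT.nd (nat_lit 376) (nat_lit 0) (nat_lit 0) (XT.nd (nat_lit 188) (nat_lit 504) (nat_lit 0) (XT.nd (nat_lit 94) (nat_lit 0) (nat_lit 0) (XT.lf (nat_lit 0) (nat_lit 1362065352) (nat_lit 336) (nat_lit 12729958180) (nat_lit 420) (nat_lit 4559543681) (nat_lit 86) (nat_lit 5) (nat_lit 90) (nat_lit 5) (nat_lit 91) (nat_lit 5) (nat_lit 384) (nat_lit 341) (nat_lit 220)) (XT.lf (nat_lit 0) (nat_lit 10191801482) (nat_lit 336) (nat_lit 6848417354) (nat_lit 420) (nat_lit 1969320392) (nat_lit 86) (nat_lit 5) (nat_lit 90) (nat_lit 5)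 (nat_lit 91) (nat_lit 5) (nat_lit 385) (nat_lit 341) (nat_lit 219))) (XT.nd (nat_lit 94) (nat_lit 420) (nat_lit 0) (XT.lf (nat_lit 0) (nat_lit 674683064) (nat_lit 420) (nat_lit 111673470) (nat_lit 84) (nat_lit 18592015457) (nat_lit 85) (nat_lit 5) (nat_lit 90) (nat_lit 5) (nat_lit 86) (nat_lit 5) (nat_lit 386) (nat_lit 341) (nat_lit 218)) (XT.lf (nat_lit 0) (nat_lit 3488418509) (nat_lit 504) (nat_lit 10809966565) (nat_lit 84) (nat_lit 5455413729) (nat_lit 80) (nat_lit 5) (nat_lit 86) (nat_lit 5) (nat_lit 81) (nat_lit 5) (nat_lit 387) (nat_lit 341) (nat_lit 217)))) (XT.nd (nat_lit 55084) (nat_lit 0) (nat_lit 9324) (XT.nd (nat_lit 54990) (nat_lit 0) (nat_lit 9324) (XT.lf (nat_lit 0) (nat_lit 6385638992) (nat_lit 504) (nat_lit 1887869943) (nat_lit 84) (nat_lit 11867020704) (nat_lit 80) (nat_lit 5) (nat_lit 86) (nat_lit 5) (nat_lit 81) (nat_lit 5) (nat_lit 388) (nat_lit 341) (nat_lit 216)) (XT.lf (nat_lit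 0) (nat_lit 676453287) (nat_lit 0) (nat_lit 676453287) (nat_lit 1092) (nat_lit 3464838979) (nat_lit 191) (nat_lit 5) (nat_lit 191) (nat_lit 3) (nat_lit 204) (nat_lit 3) (nat_lit 342) (nat_lit 342) (nat_lit 261))) (XT.nd (nat_lit 94) (nat_lit 0) (nat_lit 0) (XT.lf (nat_lit 0) (nat_lit 3480523686) (nat_lit 1092) (nat_lit 4112494521) (nat_lit 1176) (nat_lit 2163561821) (nat_lit 191) (nat_lit 5) (nat_lit 204) (nat_lit 3) (nat_lit 205) (nat_lit 5) (nat_lit 343) (nat_lit 342) (nat_lit 260)) (XT.lf (nat_lit 84) (nat_lit 157439993) (nat_lit 0) (nat_lit 4108254835) (nat_lit 1176) (nat_lit 5616045619) (nat_lit 192) (nat_lit 5) (nat_lit 191) (nat_lit 5) (nat_lit 205) (nat_lit 5) (nat_lit 344) (nat_lit 342) (nat_lit 259)))))) (XT.nd (nat_lit 752) (nat_lit 924) (nat_lit 0) (XT.nd (nat_lit 376) (nat_lit 924) (nat_lit 0) (XT.nd (nat_lit 188) (nat_lit 0) (nat_lit 84) (XT.nd (nat_lit 94) (nat_lit 0) (nat_lit 84)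 (XT.lf (nat_lit 84) (nat_lit 4624985772) (nat_lit 0) (nat_lit 463938553) (nat_lit 1176) (nat_lit 4921350053) (nat_lit 192) (nat_lit 5) (nat_lit 191) (nat_lit 5) (nat_lit 205) (nat_lit 5) (nat_lit 345) (nat_lit 342) (nat_lit 258)) (XT.lf (nat_lit 0) (nat_lit 5942349802) (nat_lit 1092) (nat_lit 963040771) (nat_lit 1176) (nat_lit 3237161008) (nat_lit 192) (nat_lit 5) (nat_lit 205) (nat_lit 5) (nat_lit 206) (nat_lit 5) (nat_lit 346) (nat_lit 342) (nat_lit 257))) (XT.nd (nat_lit 94) (nat_lit 0) (nat_lit 84) (XT.lf (nat_lit 84) (nat_lit 3643513399) (nat_lit 0) (nat_lit 3192119071) (nat_lit 1176) (nat_lit 3442787704) (nat_lit 193) (nat_lit 5) (nat_lit 192) (nat_lit 5) (nat_lit 206) (nat_lit 5) (nat_lit 347) (nat_lit 342) (nat_lit 256)) (XT.lf (nat_lit 0) (nat_lit 7746946274) (nat_lit 1092) (nat_lit 2031852977) (nat_lit 1176) (nat_lit 639877824) (nat_lit 193) (nat_lit 5) (nat_lit 206) (nat_lit 5) (nat_lit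 207) (nat_lit 5) (nat_lit 348) (nat_lit 342) (nat_lit 255)))) (XT.nd (nat_lit 188) (nat_lit 1092) (nat_lit 0) (XT.nd (nat_lit 94) (nat_lit 0) (nat_lit 0) (XT.lf (nat_lit 84) (nat_lit 2715522816) (nat_lit 0) (nat_lit 6003834677) (nat_lit 1176) (nat_lit 1842819247) (nat_lit 194) (nat_lit 5) (nat_lit 193) (nat_lit 5) (nat_lit 207) (nat_lit 5) (nat_lit 349) (nat_lit 342) (nat_lit 254)) (XT.lf (nat_lit 84) (nat_lit 7631965336) (nat_lit 0) (nat_lit 2086096380) (nat_lit 1176) (nat_lit 992052461) (nat_lit 194) (nat_lit 5) (nat_lit 193) (nat_lit 5) (nat_lit 207) (nat_lit 5) (nat_lit 350) (nat_lit 342) (nat_lit 253))) (XT.nd (nat_lit 94) (nat_lit 1176) (nat_lit 0) (XT.lf (nat_lit 84) (nat_lit 1835111044) (nat_lit 0) (nat_lit 8925355607) (nat_lit 1176) (nat_lit 101655953) (nat_lit 195) (nat_lit 5) (nat_lit 194) (nat_lit 5) (nat_lit 208) (nat_lit 5) (nat_lit 351) (nat_lit 342) (nat_lit 252)) (XT.lf (nat_lit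 0) (nat_lit 829199268) (nat_lit 1176) (nat_lit 4103402426) (nat_lit 1260) (nat_lit 6085007118) (nat_lit 180) (nat_lit 5) (nat_lit 194) (nat_lit 5) (nat_lit 195) (nat_lit 5) (nat_lit 352) (nat_lit 342) (nat_lit 251))))) (XT.nd (nat_lit 376) (nat_lit 924) (nat_lit 0) (XT.nd (nat_lit 188) (nat_lit 0) (nat_lit 84) (XT.nd (nat_lit 94) (nat_lit 0) (nat_lit 84) (XT.lf (nat_lit 84) (nat_lit 970595289) (nat_lit 0) (nat_lit 802937445) (nat_lit 1260) (nat_lit 9404610034) (nat_lit 181) (nat_lit 5) (nat_lit 180) (nat_lit 5) (nat_lit 195) (nat_lit 5) (nat_lit 353) (nat_lit 342) (nat_lit 250)) (XT.lf (nat_lit 0) (nat_lit 2800024940) (nat_lit 1176) (nat_lit 5110740627) (nat_lit 1260) (nat_lit 3431152344) (nat_lit 181) (nat_lit 5) (nat_lit 195) (nat_lit 5) (nat_lit 196) (nat_lit 5) (nat_lit 354) (nat_lit 342) (nat_lit 249))) (XT.nd (nat_lit 94) (nat_lit 0) (nat_lit 84) (XT.lf (nat_lit 84) (nat_lit 117943478) (nat_lit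 0) (nat_lit 3727881874) (nat_lit 1260) (nat_lit 7665164413) (nat_lit 182) (nat_lit 5) (nat_lit 181) (nat_lit 5) (nat_lit 196) (nat_lit 5) (nat_lit 355) (nat_lit 342) (nat_lit 248)) (XT.lf (nat_lit 0) (nat_lit 4960628796) (nat_lit 1176) (nat_lit 6097339291) (nat_lit 1260) (nat_lit 626074549) (nat_lit 182) (nat_lit 5) (nat_lit 196) (nat_lit 5) (nat_lit 197) (nat_lit 5) (nat_lit 356) (nat_lit 342) (nat_lit 247)))) (XT.nd (nat_lit 188) (nat_lit 1092) (nat_lit 0) (XT.nd (nat_lit 94) (nat_lit 0) (nat_lit 0) (XT.lf (nat_lit 0) (nat_lit 6126300216) (nat_lit 1176) (nat_lit 695123295) (nat_lit 1260) (nat_lit 5040377498) (nat_lit 182) (nat_lit 5) (nat_lit 196) (nat_lit 5) (nat_lit 197) (nat_lit 5) (nat_lit 357) (nat_lit 342) (nat_lit 246)) (XT.lf (nat_lit 84) (nat_lit 4950764001) (nat_lit 0) (nat_lit 2404849249) (nat_lit 1260) (nat_lit 4688454303) (nat_lit 183) (nat_lit 5) (nat_lit 182) (nat_lit 5) (nat_lit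 197) (nat_lit 5) (nat_lit 358) (nat_lit 342) (nat_lit 245))) (XT.nd (nat_lit 94) (nat_lit 1176) (nat_lit 0) (XT.lf (nat_lit 0) (nat_lit 8631031184) (nat_lit 1176) (nat_lit 1487475621) (nat_lit 84) (nat_lit 2113053051) (nat_lit 183) (nat_lit 5) (nat_lit 197) (nat_lit 5) (nat_lit 184) (nat_lit 5) (nat_lit 359) (nat_lit 342) (nat_lit 244)) (XT.lf (nat_lit 0) (nat_lit 4332224651) (nat_lit 1176) (nat_lit 5660004545) (nat_lit 1260) (nat_lit 2431055731) (nat_lit 169) (nat_lit 5) (nat_lit 183) (nat_lit 5) (nat_lit 184) (nat_lit 5) (nat_lit 360) (nat_lit 342) (nat_lit 243))))))))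
noncomputable def xc48 : XT := (XT.nd (nat_lit 57904) (nat_lit 0) (nat_lit 2688) (XT.nd (nat_lit 1410) (nat_lit 2688) (nat_lit 0) (XT.nd (nat_lit 658) (nat_lit 2268) (nat_lit 0) (XT.nd (nat_lit 282) (nat_lit 1176) (nat_lit 0) (XT.nd (nat_lit 94) (nat_lit 1344) (nat_lit 0) (XT.lf (nat_lit 0) (nat_lit 10342125656) (nat_lit 1176) (nat_lit 1049600612) (nat_lit 1260) (nat_lit 1229144134) (nat_lit 169) (nat_lit 5) (nat_lit 183) (nat_lit 5) (nat_lit 184) (nat_lit 5) (nat_lit 361) (nat_lit 342) (nat_lit 242)) (XT.nd (nat_lit 94) (nat_lit 0) (nat_lit 0) (XT.lf (nat_lit 0) (nat_lit 63553744) (nat_lit 1344) (nat_lit 9093252035) (nat_lit 84) (nat_lit 3665958761) (nat_lit 153) (nat_lit 5) (nat_lit 169) (nat_lit 5) (nat_lit 154) (nat_lit 5) (nat_lit 362) (nat_lit 342) (nat_lit 241)) (XT.lf (nat_lit 0) (nat_lit 1387095349) (nat_lit 1344) (nat_lit 3103320066) (nat_lit 84) (nat_lit 8539461761) (nat_lit 153) (nat_lit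 5) (nat_lit 169) (nat_lit 5) (nat_lit 154) (nat_lit 5) (nat_lit 363) (nat_lit 342) (nat_lit 240)))) (XT.nd (nat_lit 188) (nat_lit 588) (nat_lit 0) (XT.nd (nat_lit 94) (nat_lit 0) (nat_lit 0) (XT.lf (nat_lit 0) (nat_lit 2767236492) (nat_lit 672) (nat_lit 10133924376) (nat_lit 84) (nat_lit 341564440) (nat_lit 146) (nat_lit 5) (nat_lit 154) (nat_lit 5) (nat_lit 147) (nat_lit 5) (nat_lit 364) (nat_lit 342) (nat_lit 239)) (XT.lf (nat_lit 0) (nat_lit 4248866351) (nat_lit 672) (nat_lit 3950056531) (nat_lit 84) (nat_lit 5261261542) (nat_lit 146) (nat_lit 5) (nat_lit 154) (nat_lit 5) (nat_lit 147) (nat_lit 5) (nat_lit 365) (nat_lit 342) (nat_lit 238))) (XT.nd (nat_lit 94) (nat_lit 0) (nat_lit 0) (XT.lf (nat_lit 0) (nat_lit 2452456896) (nat_lit 588) (nat_lit 3330506614) (nat_lit 672) (nat_lit 7900990511) (nat_lit 139) (nat_lit 5) (nat_lit 146) (nat_lit 5) (nat_lit 147) (nat_lit 5) (nat_lit 366) (nat_lit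 342) (nat_lit 237)) (XT.lf (nat_lit 0) (nat_lit 7404316771) (nat_lit 672) (nat_lit 4816876711) (nat_lit 84) (nat_lit 1692032691) (nat_lit 139) (nat_lit 5) (nat_lit 147) (nat_lit 5) (nat_lit 140) (nat_lit 5) (nat_lit 367) (nat_lit 342) (nat_lit 236))))) (XT.nd (nat_lit 376) (nat_lit 1092) (nat_lit 0) (XT.nd (nat_lit 188) (nat_lit 588) (nat_lit 0) (XT.nd (nat_lit 94) (nat_lit 0) (nat_lit 0) (XT.lf (nat_lit 0) (nat_lit 1777254185) (nat_lit 588) (nat_lit 7332322759) (nat_lit 672) (nat_lit 5038767248) (nat_lit 132) (nat_lit 5) (nat_lit 139) (nat_lit 5) (nat_lit 140) (nat_lit 5) (nat_lit 368) (nat_lit 342) (nat_lit 235)) (XT.lf (nat_lit 0) (nat_lit 8653460276) (nat_lit 588) (nat_lit 2246674185) (nat_lit 672) (nat_lit 3489382049) (nat_lit 132) (nat_lit 5) (nat_lit 139) (nat_lit 5) (nat_lit 140) (nat_lit 5) (nat_lit 369) (nat_lit 342) (nat_lit 234))) (XT.nd (nat_lit 94) (nat_lit 0) (nat_lit 0) (XT.lf (nat_lit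 0) (nat_lit 1075749099) (nat_lit 588) (nat_lit 11693677920) (nat_lit 672) (nat_lit 1867770647) (nat_lit 125) (nat_lit 5) (nat_lit 132) (nat_lit 5) (nat_lit 133) (nat_lit 5) (nat_lit 370) (nat_lit 342) (nat_lit 233)) (XT.lf (nat_lit 0) (nat_lit 8172432777) (nat_lit 588) (nat_lit 6588507635) (nat_lit 672) (nat_lit 129408096) (nat_lit 125) (nat_lit 5) (nat_lit 132) (nat_lit 5) (nat_lit 133) (nat_lit 5) (nat_lit 371) (nat_lit 342) (nat_lit 232)))) (XT.nd (nat_lit 188) (nat_lit 504) (nat_lit 0) (XT.nd (nat_lit 94) (nat_lit 0) (nat_lit 0) (XT.lf (nat_lit 0) (nat_lit 306694478) (nat_lit 504) (nat_lit 1311384802) (nat_lit 588) (nat_lit 13532876087) (nat_lit 118) (nat_lit 5) (nat_lit 124) (nat_lit 5) (nat_lit 125) (nat_lit 5) (nat_lit 372) (nat_lit 342) (nat_lit 231)) (XT.lf (nat_lit 0) (nat_lit 3510234228) (nat_lit 588) (nat_lit 7793706351) (nat_lit 84) (nat_lit 4112577615) (nat_lit 118) (nat_lit 5) (nat_lit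 125) (nat_lit 5) (nat_lit 119) (nat_lit 5) (nat_lit 373) (nat_lit 342) (nat_lit 230))) (XT.nd (nat_lit 94) (nat_lit 504) (nat_lit 0) (XT.lf (nat_lit 0) (nat_lit 5459217033) (nat_lit 588) (nat_lit 558715199) (nat_lit 84) (nat_lit 9672134668) (nat_lit 118) (nat_lit 5) (nat_lit 125) (nat_lit 5) (nat_lit 119) (nat_lit 5) (nat_lit 374) (nat_lit 342) (nat_lit 229)) (XT.lf (nat_lit 0) (nat_lit 7016558566) (nat_lit 504) (nat_lit 505013745) (nat_lit 588) (nat_lit 8448622949) (nat_lit 112) (nat_lit 5) (nat_lit 118) (nat_lit 5) (nat_lit 119) (nat_lit 5) (nat_lit 375) (nat_lit 342) (nat_lit 228)))))) (XT.nd (nat_lit 752) (nat_lit 840) (nat_lit 0) (XT.nd (nat_lit 376) (nat_lit 924) (nat_lit 0) (XT.nd (nat_lit 188) (nat_lit 504) (nat_lit 0) (XT.nd (nat_lit 94) (nat_lit 420) (nat_lit 0) (XT.lf (nat_lit 0) (nat_lit 9688903593) (nat_lit 588) (nat_lit 1491727580) (nat_lit 84) (nat_lit 5076822828) (nat_lit 112) (nat_lit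 5) (nat_lit 119) (nat_lit 5) (nat_lit 113) (nat_lit 5) (nat_lit 376) (nat_lit 342) (nat_lit 227)) (XT.lf (nat_lit 0) (nat_lit 6298420915) (nat_lit 420) (nat_lit 5676415888) (nat_lit 504) (nat_lit 4576905360) (nat_lit 107) (nat_lit 5) (nat_lit 112) (nat_lit 5) (nat_lit 113) (nat_lit 5) (nat_lit 377) (nat_lit 342) (nat_lit 226))) (XT.nd (nat_lit 94) (nat_lit 504) (nat_lit 0) (XT.lf (nat_lit 0) (nat_lit 14332734127) (nat_lit 504) (nat_lit 2515380456) (nat_lit 84) (nat_lit 6661363) (nat_lit 107) (nat_lit 5) (nat_lit 113) (nat_lit 5) (nat_lit 108) (nat_lit 5) (nat_lit 378) (nat_lit 342) (nat_lit 225)) (XT.lf (nat_lit 0) (nat_lit 5492326774) (nat_lit 504) (nat_lit 11366623271) (nat_lit 588) (nat_lit 305041269) (nat_lit 101) (nat_lit 5) (nat_lit 107) (nat_lit 5) (nat_lit 108) (nat_lit 5) (nat_lit 379) (nat_lit 342) (nat_lit 224)))) (XT.nd (nat_lit 188) (nat_lit 420) (nat_lit 0) (XT.nd (nat_lit 94) (nat_lit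 420) (nat_lit 0) (XT.lf (nat_lit 0) (nat_lit 1954175404) (nat_lit 588) (nat_lit 3722619366) (nat_lit 84) (nat_lit 11804705417) (nat_lit 100) (nat_lit 5) (nat_lit 107) (nat_lit 5) (nat_lit 101) (nat_lit 5) (nat_lit 380) (nat_lit 342) (nat_lit 223)) (XT.lf (nat_lit 0) (nat_lit 4309852971) (nat_lit 504) (nat_lit 13272337643) (nat_lit 84) (nat_lit 225225133) (nat_lit 95) (nat_lit 5) (nat_lit 101) (nat_lit 5) (nat_lit 96) (nat_lit 5) (nat_lit 381) (nat_lit 342) (nat_lit 222))) (XT.nd (nat_lit 94) (nat_lit 420) (nat_lit 0) (XT.lf (nat_lit 0) (nat_lit 6819537486) (nat_lit 504) (nat_lit 5094999048) (nat_lit 84) (nat_lit 6226088152) (nat_lit 95) (nat_lit 5) (nat_lit 101) (nat_lit 5) (nat_lit 96) (nat_lit 5) (nat_lit 382) (nat_lit 342) (nat_lit 221)) (XT.lf (nat_lit 0) (nat_lit 3380760144) (nat_lit 420) (nat_lit 6045733223) (nat_lit 504) (nat_lit 9056692646) (nat_lit 90) (nat_lit 5) (nat_lit 95) (nat_lit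 5) (nat_lit 96) (nat_lit 5) (nat_lit 383) (nat_lit 342) (nat_lit 220))))) (XT.nd (nat_lit 376) (nat_lit 0) (nat_lit 0) (XT.nd (nat_lit 188) (nat_lit 504) (nat_lit 0) (XT.nd (nat_lit 94) (nat_lit 336) (nat_lit 0) (XT.lf (nat_lit 0) (nat_lit 12153252046) (nat_lit 504) (nat_lit 6632793276) (nat_lit 84) (nat_lit 48746125) (nat_lit 90) (nat_lit 5) (nat_lit 96) (nat_lit 5) (nat_lit 91) (nat_lit 5) (nat_lit 384) (nat_lit 342) (nat_lit 219)) (XT.lf (nat_lit 0) (nat_lit 2058573617) (nat_lit 336) (nat_lit 12972832067) (nat_lit 420) (nat_lit 4163466248) (nat_lit 86) (nat_lit 5) (nat_lit 90) (nat_lit 5) (nat_lit 91) (nat_lit 5) (nat_lit 385) (nat_lit 342) (nat_lit 218))) (XT.nd (nat_lit 94) (nat_lit 504) (nat_lit 0) (XT.lf (nat_lit 0) (nat_lit 11134105337) (nat_lit 336) (nat_lit 6918894285) (nat_lit 420) (nat_lit 1511056564) (nat_lit 86) (nat_lit 5) (nat_lit 90) (nat_lit 5) (nat_lit 91) (nat_lit 5) (nat_lit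 386) (nat_lit 342) (nat_lit 217)) (XT.lf (nat_lit 0) (nat_lit 523686607) (nat_lit 420) (nat_lit 668744931) (nat_lit 504) (nat_lit 18751685826) (nat_lit 80) (nat_lit 5) (nat_lit 85) (nat_lit 5) (nat_lit 86) (nat_lit 5) (nat_lit 387) (nat_lit 342) (nat_lit 216)))) (XT.nd (nat_lit 55178) (nat_lit 0) (nat_lit 9324) (XT.nd (nat_lit 55084) (nat_lit 0) (nat_lit 9324) (XT.lf (nat_lit 0) (nat_lit 4078511990) (nat_lit 504) (nat_lit 10498080505) (nat_lit 84) (nat_lit 5754596318) (nat_lit 80) (nat_lit 5) (nat_lit 86) (nat_lit 5) (nat_lit 81) (nat_lit 5) (nat_lit 388) (nat_lit 342) (nat_lit 215)) (XT.lf (nat_lit 0) (nat_lit 1049776387) (nat_lit 0) (nat_lit 1049776387) (nat_lit 1092) (nat_lit 2840137277) (nat_lit 191) (nat_lit 5) (nat_lit 191) (nat_lit 3) (nat_lit 204) (nat_lit 3) (nat_lit 343) (nat_lit 343) (nat_lit 259))) (XT.nd (nat_lit 94) (nat_lit 0) (nat_lit 0) (XT.lf (nat_lit 0) (nat_lit 4949338363) (nat_lit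 1092) (nat_lit 3499925853) (nat_lit 1176) (nat_lit 1556350958) (nat_lit 191) (nat_lit 5) (nat_lit 204) (nat_lit 3) (nat_lit 205) (nat_lit 5) (nat_lit 344) (nat_lit 343) (nat_lit 258)) (XT.lf (nat_lit 84) (nat_lit 890891565) (nat_lit 0) (nat_lit 4834438282) (nat_lit 1176) (nat_lit 4410262126) (nat_lit 192) (nat_lit 5) (nat_lit 191) (nat_lit 5) (nat_lit 205) (nat_lit 5) (nat_lit 345) (nat_lit 343) (nat_lit 257))))))) (XT.nd (nat_lit 1504) (nat_lit 4788) (nat_lit 0) (XT.nd (nat_lit 752) (nat_lit 840) (nat_lit 0) (XT.nd (nat_lit 376) (nat_lit 1008) (nat_lit 0) (XT.nd (nat_lit 188) (nat_lit 0) (nat_lit 84) (XT.nd (nat_lit 94) (nat_lit 0) (nat_lit 84) (XT.lf (nat_lit 84) (nat_lit 5471238619) (nat_lit 0) (nat_lit 1063231275) (nat_lit 1176) (nat_lit 3734752824) (nat_lit 192) (nat_lit 5) (nat_lit 191) (nat_lit 5) (nat_lit 205) (nat_lit 5) (nat_lit 346) (nat_lit 343) (nat_lit 256)) (XT.lf (nat_lit 0) (nat_lit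 7370378413) (nat_lit 1092) (nat_lit 259417291) (nat_lit 1176) (nat_lit 2777041083) (nat_lit 192) (nat_lit 5) (nat_lit 205) (nat_lit 5) (nat_lit 206) (nat_lit 5) (nat_lit 347) (nat_lit 343) (nat_lit 255))) (XT.nd (nat_lit 94) (nat_lit 0) (nat_lit 84) (XT.lf (nat_lit 84) (nat_lit 4478151987) (nat_lit 0) (nat_lit 3782879198) (nat_lit 1176) (nat_lit 2286705878) (nat_lit 193) (nat_lit 5) (nat_lit 192) (nat_lit 5) (nat_lit 206) (nat_lit 5) (nat_lit 348) (nat_lit 343) (nat_lit 254)) (XT.lf (nat_lit 0) (nat_lit 9159521198) (nat_lit 1092) (nat_lit 1346083215) (nat_lit 1176) (nat_lit 187872810) (nat_lit 193) (nat_lit 5) (nat_lit 206) (nat_lit 5) (nat_lit 207) (nat_lit 5) (nat_lit 349) (nat_lit 343) (nat_lit 253)))) (XT.nd (nat_lit 188) (nat_lit 0) (nat_lit 84) (XT.nd (nat_lit 94) (nat_lit 1176) (nat_lit 0) (XT.lf (nat_lit 84) (nat_lit 3536393015) (nat_lit 0) (nat_lit 6597445564) (nat_lit 1176) (nat_lit 708329880)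 (nat_lit 194) (nat_lit 5) (nat_lit 193) (nat_lit 5) (nat_lit 207) (nat_lit 5) (nat_lit 350) (nat_lit 343) (nat_lit 252)) (XT.lf (nat_lit 0) (nat_lit 130705012) (nat_lit 1176) (nat_lit 2418106673) (nat_lit 1260) (nat_lit 8446767881) (nat_lit 179) (nat_lit 5) (nat_lit 193) (nat_lit 5) (nat_lit 194) (nat_lit 5) (nat_lit 351) (nat_lit 343) (nat_lit 251))) (XT.nd (nat_lit 94) (nat_lit 0) (nat_lit 0) (XT.lf (nat_lit 0) (nat_lit 1000427678) (nat_lit 1176) (nat_lit 8522668894) (nat_lit 1260) (nat_lit 1629734663) (nat_lit 180) (nat_lit 5) (nat_lit 194) (nat_lit 5) (nat_lit 195) (nat_lit 5) (nat_lit 352) (nat_lit 343) (nat_lit 250)) (XT.lf (nat_lit 0) (nat_lit 1925036535) (nat_lit 1176) (nat_lit 3474905937) (nat_lit 1260) (nat_lit 5914034177) (nat_lit 180) (nat_lit 5) (nat_lit 194) (nat_lit 5) (nat_lit 195) (nat_lit 5) (nat_lit 353) (nat_lit 343) (nat_lit 249))))) (XT.nd (nat_lit 376) (nat_lit 924) (nat_lit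 0) (XT.nd (nat_lit 188) (nat_lit 0) (nat_lit 84) (XT.nd (nat_lit 94) (nat_lit 0) (nat_lit 84) (XT.lf (nat_lit 84) (nat_lit 1743943096) (nat_lit 0) (nat_lit 1129717855) (nat_lit 1260) (nat_lit 8606446017) (nat_lit 181) (nat_lit 5) (nat_lit 180) (nat_lit 5) (nat_lit 195) (nat_lit 5) (nat_lit 354) (nat_lit 343) (nat_lit 248)) (XT.lf (nat_lit 0) (nat_lit 3897630126) (nat_lit 1176) (nat_lit 4506276734) (nat_lit 1260) (nat_lit 3245945487) (nat_lit 181) (nat_lit 5) (nat_lit 195) (nat_lit 5) (nat_lit 196) (nat_lit 5) (nat_lit 355) (nat_lit 343) (nat_lit 247))) (XT.nd (nat_lit 94) (nat_lit 0) (nat_lit 84) (XT.lf (nat_lit 84) (nat_lit 871838619) (nat_lit 0) (nat_lit 4080656361) (nat_lit 1260) (nat_lit 6872226440) (nat_lit 182) (nat_lit 5) (nat_lit 181) (nat_lit 5) (nat_lit 196) (nat_lit 5) (nat_lit 356) (nat_lit 343) (nat_lit 246)) (XT.lf (nat_lit 0) (nat_lit 6069621275) (nat_lit 1176) (nat_lit 5518831393)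 (nat_lit 1260) (nat_lit 415500997) (nat_lit 182) (nat_lit 5) (nat_lit 196) (nat_lit 5) (nat_lit 197) (nat_lit 5) (nat_lit 357) (nat_lit 343) (nat_lit 245)))) (XT.nd (nat_lit 188) (nat_lit 1092) (nat_lit 0) (XT.nd (nat_lit 94) (nat_lit 0) (nat_lit 0) (XT.lf (nat_lit 84) (nat_lit 23736754) (nat_lit 0) (nat_lit 7218788033) (nat_lit 1260) (nat_lit 4945404717) (nat_lit 183) (nat_lit 5) (nat_lit 182) (nat_lit 5) (nat_lit 197) (nat_lit 5) (nat_lit 358) (nat_lit 343) (nat_lit 244)) (XT.lf (nat_lit 84) (nat_lit 5831289926) (nat_lit 0) (nat_lit 2657083904) (nat_lit 1260) (nat_lit 3887951560) (nat_lit 183) (nat_lit 5) (nat_lit 182) (nat_lit 5) (nat_lit 197) (nat_lit 5) (nat_lit 359) (nat_lit 343) (nat_lit 243))) (XT.nd (nat_lit 94) (nat_lit 1176) (nat_lit 0) (XT.lf (nat_lit 0) (nat_lit 9773807805) (nat_lit 1176) (nat_lit 791518995) (nat_lit 84) (nat_lit 2005012614) (nat_lit 183) (nat_lit 5) (nat_lit 197)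 (nat_lit 5) (nat_lit 184) (nat_lit 5) (nat_lit 360) (nat_lit 343) (nat_lit 242)) (XT.lf (nat_lit 0) (nat_lit 5195511688) (nat_lit 1176) (nat_lit 5961636113) (nat_lit 1260) (nat_lit 1611277366) (nat_lit 169) (nat_lit 5) (nat_lit 183) (nat_lit 5) (nat_lit 184) (nat_lit 5) (nat_lit 361) (nat_lit 343) (nat_lit 241)))))) (XT.nd (nat_lit 752) (nat_lit 1680) (nat_lit 0) (XT.nd (nat_lit 376) (nat_lit 1176) (nat_lit 0) (XT.nd (nat_lit 188) (nat_lit 588) (nat_lit 0) (XT.nd (nat_lit 94) (nat_lit 1344) (nat_lit 0) (XT.lf (nat_lit 0) (nat_lit 11364350880) (nat_lit 1176) (nat_lit 1209080312) (nat_lit 1260) (nat_lit 399309684) (nat_lit 169) (nat_lit 5) (nat_lit 183) (nat_lit 5) (nat_lit 184) (nat_lit 5) (nat_lit 362) (nat_lit 343) (nat_lit 240)) (XT.lf (nat_lit 0) (nat_lit 896411677) (nat_lit 1344) (nat_lit 8615351332) (nat_lit 84) (nat_lit 3669288264) (nat_lit 153) (nat_lit 5) (nat_lit 169) (nat_lit 5) (nat_lit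 154) (nat_lit 5) (nat_lit 363) (nat_lit 343) (nat_lit 239))) (XT.nd (nat_lit 94) (nat_lit 588) (nat_lit 0) (XT.lf (nat_lit 0) (nat_lit 2235457065) (nat_lit 1344) (nat_lit 2467586401) (nat_lit 84) (nat_lit 8692102643) (nat_lit 153) (nat_lit 5) (nat_lit 169) (nat_lit 5) (nat_lit 154) (nat_lit 5) (nat_lit 364) (nat_lit 343) (nat_lit 238)) (XT.lf (nat_lit 0) (nat_lit 3639783736) (nat_lit 672) (nat_lit 9690506722) (nat_lit 84) (nat_lit 284647292) (nat_lit 146) (nat_lit 5) (nat_lit 154) (nat_lit 5) (nat_lit 147) (nat_lit 5) (nat_lit 365) (nat_lit 343) (nat_lit 237)))) (XT.nd (nat_lit 188) (nat_lit 588) (nat_lit 0) (XT.nd (nat_lit 94) (nat_lit 588) (nat_lit 0) (XT.lf (nat_lit 0) (nat_lit 5142866467) (nat_lit 672) (nat_lit 3342892805) (nat_lit 84) (nat_lit 5353891542) (nat_lit 146) (nat_lit 5) (nat_lit 154) (nat_lit 5) (nat_lit 147) (nat_lit 5) (nat_lit 366) (nat_lit 343) (nat_lit 236)) (XT.lf (nat_lit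 0) (nat_lit 3244581659) (nat_lit 588) (nat_lit 3462985798) (nat_lit 672) (nat_lit 7363067734) (nat_lit 139) (nat_lit 5) (nat_lit 146) (nat_lit 5) (nat_lit 147) (nat_lit 5) (nat_lit 367) (nat_lit 343) (nat_lit 235))) (XT.nd (nat_lit 94) (nat_lit 588) (nat_lit 0) (XT.lf (nat_lit 0) (nat_lit 8355380270) (nat_lit 672) (nat_lit 4240313564) (nat_lit 84) (nat_lit 1711795085) (nat_lit 139) (nat_lit 5) (nat_lit 147) (nat_lit 5) (nat_lit 140) (nat_lit 5) (nat_lit 368) (nat_lit 343) (nat_lit 234)) (XT.lf (nat_lit 0) (nat_lit 2544571951) (nat_lit 588) (nat_lit 7552858617) (nat_lit 672) (nat_lit 4452697816) (nat_lit 132) (nat_lit 5) (nat_lit 139) (nat_lit 5) (nat_lit 140) (nat_lit 5) (nat_lit 369) (nat_lit 343) (nat_lit 233))))) (XT.nd (nat_lit 376) (nat_lit 504) (nat_lit 0) (XT.nd (nat_lit 188) (nat_lit 588) (nat_lit 0) (XT.nd (nat_lit 94) (nat_lit 588) (nat_lit 0) (XT.lf (nat_lit 0) (nat_lit 9606268104) (nat_lit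 588) (nat_lit 2314624094) (nat_lit 672) (nat_lit 2878303851) (nat_lit 132) (nat_lit 5) (nat_lit 139) (nat_lit 5) (nat_lit 140) (nat_lit 5) (nat_lit 370) (nat_lit 343) (nat_lit 232)) (XT.lf (nat_lit 0) (nat_lit 1816224917) (nat_lit 588) (nat_lit 12016634751) (nat_lit 672) (nat_lit 1221884845) (nat_lit 125) (nat_lit 5) (nat_lit 132) (nat_lit 5) (nat_lit 133) (nat_lit 5) (nat_lit 371) (nat_lit 343) (nat_lit 231))) (XT.nd (nat_lit 94) (nat_lit 504) (nat_lit 0) (XT.lf (nat_lit 0) (nat_lit 537487290) (nat_lit 672) (nat_lit 6216205767) (nat_lit 84) (nat_lit 8562266965) (nat_lit 124) (nat_lit 5) (nat_lit 132) (nat_lit 5) (nat_lit 125) (nat_lit 5) (nat_lit 372) (nat_lit 343) (nat_lit 230)) (XT.lf (nat_lit 0) (nat_lit 1010979459) (nat_lit 504) (nat_lit 1311038973) (nat_lit 588) (nat_lit 13262743422) (nat_lit 118) (nat_lit 5) (nat_lit 124) (nat_lit 5) (nat_lit 125) (nat_lit 5) (nat_lit 373) (nat_lit 343)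 (nat_lit 229)))) (XT.nd (nat_lit 188) (nat_lit 0) (nat_lit 0) (XT.nd (nat_lit 94) (nat_lit 504) (nat_lit 0) (XT.lf (nat_lit 0) (nat_lit 4252219190) (nat_lit 588) (nat_lit 7332930336) (nat_lit 84) (nat_lit 4273734487) (nat_lit 118) (nat_lit 5) (nat_lit 125) (nat_lit 5) (nat_lit 119) (nat_lit 5) (nat_lit 374) (nat_lit 343) (nat_lit 228)) (XT.lf (nat_lit 0) (nat_lit 100847758) (nat_lit 504) (nat_lit 6141249114) (nat_lit 588) (nat_lit 9899099529) (nat_lit 112) (nat_lit 5) (nat_lit 118) (nat_lit 5) (nat_lit 119) (nat_lit 5) (nat_lit 375) (nat_lit 343) (nat_lit 227))) (XT.nd (nat_lit 94) (nat_lit 0) (nat_lit 0) (XT.lf (nat_lit 0) (nat_lit 7894800495) (nat_lit 504) (nat_lit 458967777) (nat_lit 588) (nat_lit 8076366084) (nat_lit 112) (nat_lit 5) (nat_lit 118) (nat_lit 5) (nat_lit 119) (nat_lit 5) (nat_lit 376) (nat_lit 343) (nat_lit 226)) (XT.lf (nat_lit 0) (nat_lit 10569024146) (nat_lit 588) (nat_lit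 870145740) (nat_lit 84) (nat_lit 5287382094) (nat_lit 112) (nat_lit 5) (nat_lit 119) (nat_lit 5) (nat_lit 113) (nat_lit 5) (nat_lit 377) (nat_lit 343) (nat_lit 225))))))))
noncomputable def xc49 : XT := (XT.nd (nat_lit 57998) (nat_lit 0) (nat_lit 504) (XT.nd (nat_lit 56494) (nat_lit 0) (nat_lit 7392) (XT.nd (nat_lit 658) (nat_lit 840) (nat_lit 0) (XT.nd (nat_lit 282) (nat_lit 840) (nat_lit 0) (XT.nd (nat_lit 94) (nat_lit 588) (nat_lit 0) (XT.lf (nat_lit 0) (nat_lit 7147174527) (nat_lit 420) (nat_lit 5765534690) (nat_lit 504) (nat_lit 4117311793) (nat_lit 107) (nat_lit 5) (nat_lit 112) (nat_lit 5) (nat_lit 113) (nat_lit 5) (nat_lit 378) (nat_lit 343) (nat_lit 224)) (XT.nd (nat_lit 94) (nat_lit 588) (nat_lit 0) (XT.lf (nat_lit 0) (nat_lit 15325247802) (nat_lit 504) (nat_lit 1933274771) (nat_lit 84) (nat_lit 84132743) (nat_lit 107) (nat_lit 5) (nat_lit 113) (nat_lit 5) (nat_lit 108) (nat_lit 5) (nat_lit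 379) (nat_lit 343) (nat_lit 223)) (XT.lf (nat_lit 0) (nat_lit 250659363) (nat_lit 588) (nat_lit 11355717276) (nat_lit 84) (nat_lit 6055026408) (nat_lit 100) (nat_lit 5) (nat_lit 107) (nat_lit 5) (nat_lit 101) (nat_lit 5) (nat_lit 380) (nat_lit 343) (nat_lit 222)))) (XT.nd (nat_lit 188) (nat_lit 420) (nat_lit 0) (XT.nd (nat_lit 94) (nat_lit 420) (nat_lit 0) (XT.lf (nat_lit 0) (nat_lit 2555248087) (nat_lit 588) (nat_lit 3190533878) (nat_lit 84) (nat_lit 12243077195) (nat_lit 100) (nat_lit 5) (nat_lit 107) (nat_lit 5) (nat_lit 101) (nat_lit 5) (nat_lit 381) (nat_lit 343) (nat_lit 221)) (XT.lf (nat_lit 0) (nat_lit 4972930348) (nat_lit 504) (nat_lit 13017289128) (nat_lit 84) (nat_lit 334616349) (nat_lit 95) (nat_lit 5) (nat_lit 101) (nat_lit 5) (nat_lit 96) (nat_lit 5) (nat_lit 382) (nat_lit 343) (nat_lit 220))) (XT.nd (nat_lit 94) (nat_lit 420) (nat_lit 0) (XT.lf (nat_lit 0) (nat_lit 7542358355) (nat_lit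 504) (nat_lit 4613656161) (nat_lit 84) (nat_lit 6512515906) (nat_lit 95) (nat_lit 5) (nat_lit 101) (nat_lit 5) (nat_lit 96) (nat_lit 5) (nat_lit 383) (nat_lit 343) (nat_lit 219)) (XT.lf (nat_lit 0) (nat_lit 4110158230) (nat_lit 420) (nat_lit 6108306950) (nat_lit 504) (nat_lit 8803197451) (nat_lit 90) (nat_lit 5) (nat_lit 95) (nat_lit 5) (nat_lit 96) (nat_lit 5) (nat_lit 384) (nat_lit 343) (nat_lit 218))))) (XT.nd (nat_lit 55460) (nat_lit 0) (nat_lit 9324) (XT.nd (nat_lit 188) (nat_lit 504) (nat_lit 0) (XT.nd (nat_lit 94) (nat_lit 336) (nat_lit 0) (XT.lf (nat_lit 0) (nat_lit 13013304921) (nat_lit 504) (nat_lit 6207648644) (nat_lit 84) (nat_lit 163295973) (nat_lit 90) (nat_lit 5) (nat_lit 96) (nat_lit 5) (nat_lit 91) (nat_lit 5) (nat_lit 385) (nat_lit 343) (nat_lit 217)) (XT.lf (nat_lit 0) (nat_lit 2738340349) (nat_lit 336) (nat_lit 13230972767) (nat_lit 420) (nat_lit 3786095052) (nat_lit 86) (nat_lit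 5) (nat_lit 90) (nat_lit 5) (nat_lit 91) (nat_lit 5) (nat_lit 386) (nat_lit 343) (nat_lit 216))) (XT.nd (nat_lit 94) (nat_lit 504) (nat_lit 0) (XT.lf (nat_lit 0) (nat_lit 12068137743) (nat_lit 336) (nat_lit 6999233675) (nat_lit 420) (nat_lit 1068742451) (nat_lit 86) (nat_lit 5) (nat_lit 90) (nat_lit 5) (nat_lit 91) (nat_lit 5) (nat_lit 387) (nat_lit 343) (nat_lit 215)) (XT.lf (nat_lit 0) (nat_lit 1143600691) (nat_lit 420) (nat_lit 554615731) (nat_lit 504) (nat_lit 18829482623) (nat_lit 80) (nat_lit 5) (nat_lit 85) (nat_lit 5) (nat_lit 86) (nat_lit 5) (nat_lit 388) (nat_lit 343) (nat_lit 214)))) (XT.nd (nat_lit 188) (nat_lit 0) (nat_lit 0) (XT.nd (nat_lit 94) (nat_lit 0) (nat_lit 0) (XT.lf (nat_lit 0) (nat_lit 1414033843) (nat_lit 0) (nat_lit 1414033843) (nat_lit 1092) (nat_lit 2238521836) (nat_lit 191) (nat_lit 5) (nat_lit 191) (nat_lit 3) (nat_lit 204) (nat_lit 3) (nat_lit 344) (nat_lit 344) (nat_lit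 257)) (XT.lf (nat_lit 0) (nat_lit 6383895399) (nat_lit 1092) (nat_lit 2911226292) (nat_lit 1176) (nat_lit 969506076) (nat_lit 191) (nat_lit 5) (nat_lit 204) (nat_lit 3) (nat_lit 205) (nat_lit 5) (nat_lit 345) (nat_lit 344) (nat_lit 256))) (XT.nd (nat_lit 94) (nat_lit 0) (nat_lit 0) (XT.lf (nat_lit 84) (nat_lit 1604514694) (nat_lit 0) (nat_lit 5547796251) (nat_lit 1176) (nat_lit 3247193552) (nat_lit 192) (nat_lit 5) (nat_lit 191) (nat_lit 5) (nat_lit 205) (nat_lit 5) (nat_lit 346) (nat_lit 344) (nat_lit 255)) (XT.lf (nat_lit 84) (nat_lit 6302265469) (nat_lit 0) (nat_lit 1646899883) (nat_lit 1176) (nat_lit 2589148382) (nat_lit 192) (nat_lit 5) (nat_lit 191) (nat_lit 5) (nat_lit 205) (nat_lit 5) (nat_lit 347) (nat_lit 344) (nat_lit 254)))))) (XT.nd (nat_lit 752) (nat_lit 924) (nat_lit 0) (XT.nd (nat_lit 376) (nat_lit 0) (nat_lit 0) (XT.nd (nat_lit 188) (nat_lit 1092) (nat_lit 0) (XT.nd (nat_lit 94)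 (nat_lit 0) (nat_lit 0) (XT.lf (nat_lit 84) (nat_lit 431689366) (nat_lit 0) (nat_lit 8341966949) (nat_lit 1176) (nat_lit 1907565409) (nat_lit 193) (nat_lit 5) (nat_lit 192) (nat_lit 5) (nat_lit 206) (nat_lit 5) (nat_lit 348) (nat_lit 344) (nat_lit 253)) (XT.lf (nat_lit 84) (nat_lit 5296192641) (nat_lit 0) (nat_lit 4362947302) (nat_lit 1176) (nat_lit 1168234326) (nat_lit 193) (nat_lit 5) (nat_lit 192) (nat_lit 5) (nat_lit 206) (nat_lit 5) (nat_lit 349) (nat_lit 344) (nat_lit 252))) (XT.nd (nat_lit 94) (nat_lit 1092) (nat_lit 0) (XT.lf (nat_lit 84) (nat_lit 10293552506) (nat_lit 0) (nat_lit 255631765) (nat_lit 1176) (nat_lit 429430973) (nat_lit 193) (nat_lit 5) (nat_lit 192) (nat_lit 5) (nat_lit 206) (nat_lit 5) (nat_lit 350) (nat_lit 344) (nat_lit 251)) (XT.lf (nat_lit 0) (nat_lit 384248967) (nat_lit 1176) (nat_lit 6796999296) (nat_lit 1260) (nat_lit 3951315348) (nat_lit 179) (nat_lit 5) (nat_lit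 193) (nat_lit 5) (nat_lit 194) (nat_lit 5) (nat_lit 351) (nat_lit 344) (nat_lit 250)))) (XT.nd (nat_lit 188) (nat_lit 0) (nat_lit 84) (XT.nd (nat_lit 94) (nat_lit 0) (nat_lit 84) (XT.lf (nat_lit 0) (nat_lit 1202191226) (nat_lit 1176) (nat_lit 1790711771) (nat_lit 1260) (nat_lit 8298485414) (nat_lit 179) (nat_lit 5) (nat_lit 193) (nat_lit 5) (nat_lit 194) (nat_lit 5) (nat_lit 352) (nat_lit 344) (nat_lit 249)) (XT.lf (nat_lit 0) (nat_lit 2070208750) (nat_lit 1176) (nat_lit 8048641620) (nat_lit 1260) (nat_lit 1335400339) (nat_lit 180) (nat_lit 5) (nat_lit 194) (nat_lit 5) (nat_lit 195) (nat_lit 5) (nat_lit 353) (nat_lit 344) (nat_lit 248))) (XT.nd (nat_lit 94) (nat_lit 0) (nat_lit 0) (XT.lf (nat_lit 0) (nat_lit 2992271360) (nat_lit 1176) (nat_lit 2870699386) (nat_lit 1260) (nat_lit 5758225723) (nat_lit 180) (nat_lit 5) (nat_lit 194) (nat_lit 5) (nat_lit 195) (nat_lit 5) (nat_lit 354) (nat_lit 344)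 (nat_lit 247)) (XT.lf (nat_lit 84) (nat_lit 2497769493) (nat_lit 0) (nat_lit 1448925902) (nat_lit 1260) (nat_lit 7846350851) (nat_lit 181) (nat_lit 5) (nat_lit 180) (nat_lit 5) (nat_lit 195) (nat_lit 5) (nat_lit 355) (nat_lit 344) (nat_lit 246))))) (XT.nd (nat_lit 376) (nat_lit 1092) (nat_lit 0) (XT.nd (nat_lit 188) (nat_lit 0) (nat_lit 84) (XT.nd (nat_lit 94) (nat_lit 0) (nat_lit 0) (XT.lf (nat_lit 0) (nat_lit 4969978426) (nat_lit 1176) (nat_lit 3927178947) (nat_lit 1260) (nat_lit 3071722921) (nat_lit 181) (nat_lit 5) (nat_lit 195) (nat_lit 5) (nat_lit 196) (nat_lit 5) (nat_lit 356) (nat_lit 344) (nat_lit 245)) (XT.lf (nat_lit 84) (nat_lit 1605277062) (nat_lit 0) (nat_lit 4430183255) (nat_lit 1260) (nat_lit 6114218565) (nat_lit 182) (nat_lit 5) (nat_lit 181) (nat_lit 5) (nat_lit 196) (nat_lit 5) (nat_lit 357) (nat_lit 344) (nat_lit 244))) (XT.nd (nat_lit 94) (nat_lit 0) (nat_lit 0) (XT.lf (nat_lit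 0) (nat_lit 7156765636) (nat_lit 1176) (nat_lit 4966677346) (nat_lit 1260) (nat_lit 211776199) (nat_lit 182) (nat_lit 5) (nat_lit 196) (nat_lit 5) (nat_lit 197) (nat_lit 5) (nat_lit 358) (nat_lit 344) (nat_lit 243)) (XT.lf (nat_lit 84) (nat_lit 735131386) (nat_lit 0) (nat_lit 7610195536) (nat_lit 1260) (nat_lit 4180022808) (nat_lit 183) (nat_lit 5) (nat_lit 182) (nat_lit 5) (nat_lit 197) (nat_lit 5) (nat_lit 359) (nat_lit 344) (nat_lit 242)))) (XT.nd (nat_lit 188) (nat_lit 1176) (nat_lit 0) (XT.nd (nat_lit 94) (nat_lit 0) (nat_lit 84) (XT.lf (nat_lit 84) (nat_lit 6696211661) (nat_lit 0) (nat_lit 2906547744) (nat_lit 1260) (nat_lit 3117459960) (nat_lit 183) (nat_lit 5) (nat_lit 182) (nat_lit 5) (nat_lit 197) (nat_lit 5) (nat_lit 360) (nat_lit 344) (nat_lit 241)) (XT.lf (nat_lit 0) (nat_lit 10900131366) (nat_lit 1176) (nat_lit 117196043) (nat_lit 84) (nat_lit 1903571864) (nat_lit 183) (nat_lit 5)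 (nat_lit 197) (nat_lit 5) (nat_lit 184) (nat_lit 5) (nat_lit 361) (nat_lit 344) (nat_lit 240))) (XT.nd (nat_lit 94) (nat_lit 84) (nat_lit 0) (XT.lf (nat_lit 0) (nat_lit 6042601751) (nat_lit 1176) (nat_lit 6264748965) (nat_lit 1260) (nat_lit 818150858) (nat_lit 169) (nat_lit 5) (nat_lit 183) (nat_lit 5) (nat_lit 184) (nat_lit 5) (nat_lit 362) (nat_lit 344) (nat_lit 239)) (XT.lf (nat_lit 0) (nat_lit 397751142) (nat_lit 1260) (nat_lit 964229508) (nat_lit 84) (nat_lit 11974605712) (nat_lit 168) (nat_lit 5) (nat_lit 183) (nat_lit 5) (nat_lit 169) (nat_lit 5) (nat_lit 363) (nat_lit 344) (nat_lit 238))))))) (XT.nd (nat_lit 1504) (nat_lit 1764) (nat_lit 0) (XT.nd (nat_lit 752) (nat_lit 2100) (nat_lit 0) (XT.nd (nat_lit 376) (nat_lit 1176) (nat_lit 0) (XT.nd (nat_lit 188) (nat_lit 588) (nat_lit 0) (XT.nd (nat_lit 94) (nat_lit 0) (nat_lit 0) (XT.lf (nat_lit 0) (nat_lit 1706555343) (nat_lit 1344) (nat_lit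 8166206760) (nat_lit 84) (nat_lit 3678839756) (nat_lit 153) (nat_lit 5) (nat_lit 169) (nat_lit 5) (nat_lit 154) (nat_lit 5) (nat_lit 364) (nat_lit 344) (nat_lit 237)) (XT.lf (nat_lit 0) (nat_lit 3062958947) (nat_lit 1344) (nat_lit 1854618738) (nat_lit 84) (nat_lit 8855266542) (nat_lit 153) (nat_lit 5) (nat_lit 169) (nat_lit 5) (nat_lit 154) (nat_lit 5) (nat_lit 365) (nat_lit 344) (nat_lit 236))) (XT.nd (nat_lit 94) (nat_lit 0) (nat_lit 0) (XT.lf (nat_lit 0) (nat_lit 4493185136) (nat_lit 672) (nat_lit 9276692387) (nat_lit 84) (nat_lit 229878122) (nat_lit 146) (nat_lit 5) (nat_lit 154) (nat_lit 5) (nat_lit 147) (nat_lit 5) (nat_lit 366) (nat_lit 344) (nat_lit 235)) (XT.lf (nat_lit 0) (nat_lit 6019684392) (nat_lit 672) (nat_lit 2759170330) (nat_lit 84) (nat_lit 5453043639) (nat_lit 146) (nat_lit 5) (nat_lit 154) (nat_lit 5) (nat_lit 147) (nat_lit 5) (nat_lit 367) (nat_lit 344) (nat_lit 234)))) (XT.nd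 (nat_lit 188) (nat_lit 588) (nat_lit 0) (XT.nd (nat_lit 94) (nat_lit 0) (nat_lit 0) (XT.lf (nat_lit 0) (nat_lit 4019222394) (nat_lit 588) (nat_lit 3597570051) (nat_lit 672) (nat_lit 6853492717) (nat_lit 139) (nat_lit 5) (nat_lit 146) (nat_lit 5) (nat_lit 147) (nat_lit 5) (nat_lit 368) (nat_lit 344) (nat_lit 233)) (XT.lf (nat_lit 0) (nat_lit 9293131881) (nat_lit 672) (nat_lit 3687845858) (nat_lit 84) (nat_lit 1733929796) (nat_lit 139) (nat_lit 5) (nat_lit 147) (nat_lit 5) (nat_lit 140) (nat_lit 5) (nat_lit 369) (nat_lit 344) (nat_lit 232))) (XT.nd (nat_lit 94) (nat_lit 0) (nat_lit 0) (XT.lf (nat_lit 0) (nat_lit 3293922720) (nat_lit 588) (nat_lit 7779978050) (nat_lit 672) (nat_lit 3891366459) (nat_lit 132) (nat_lit 5) (nat_lit 139) (nat_lit 5) (nat_lit 140) (nat_lit 5) (nat_lit 370) (nat_lit 344) (nat_lit 231)) (XT.lf (nat_lit 0) (nat_lit 10547867420) (nat_lit 588) (nat_lit 2384580948) (nat_lit 672)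 (nat_lit 2289980839) (nat_lit 132) (nat_lit 5) (nat_lit 139) (nat_lit 5) (nat_lit 140) (nat_lit 5) (nat_lit 371) (nat_lit 344) (nat_lit 230))))) (XT.nd (nat_lit 376) (nat_lit 924) (nat_lit 0) (XT.nd (nat_lit 188) (nat_lit 504) (nat_lit 0) (XT.nd (nat_lit 94) (nat_lit 84) (nat_lit 0) (XT.lf (nat_lit 0) (nat_lit 2538261240) (nat_lit 588) (nat_lit 12350879193) (nat_lit 672) (nat_lit 596915487) (nat_lit 125) (nat_lit 5) (nat_lit 132) (nat_lit 5) (nat_lit 133) (nat_lit 5) (nat_lit 372) (nat_lit 344) (nat_lit 229)) (XT.lf (nat_lit 0) (nat_lit 1183432490) (nat_lit 672) (nat_lit 5741021502) (nat_lit 84) (nat_lit 8831060823) (nat_lit 124) (nat_lit 5) (nat_lit 132) (nat_lit 5) (nat_lit 125) (nat_lit 5) (nat_lit 373) (nat_lit 344) (nat_lit 228))) (XT.nd (nat_lit 94) (nat_lit 0) (nat_lit 0) (XT.lf (nat_lit 0) (nat_lit 1696492316) (nat_lit 504) (nat_lit 1312960986) (nat_lit 588) (nat_lit 13023318770) (nat_lit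 118) (nat_lit 5) (nat_lit 124) (nat_lit 5) (nat_lit 125) (nat_lit 5) (nat_lit 374) (nat_lit 344) (nat_lit 227)) (XT.lf (nat_lit 0) (nat_lit 4979915782) (nat_lit 588) (nat_lit 6898203187) (nat_lit 84) (nat_lit 4437557365) (nat_lit 118) (nat_lit 5) (nat_lit 125) (nat_lit 5) (nat_lit 119) (nat_lit 5) (nat_lit 375) (nat_lit 344) (nat_lit 226)))) (XT.nd (nat_lit 188) (nat_lit 420) (nat_lit 0) (XT.nd (nat_lit 94) (nat_lit 0) (nat_lit 0) (XT.lf (nat_lit 0) (nat_lit 752169474) (nat_lit 504) (nat_lit 6266072626) (nat_lit 588) (nat_lit 9588581685) (nat_lit 112) (nat_lit 5) (nat_lit 118) (nat_lit 5) (nat_lit 119) (nat_lit 5) (nat_lit 376) (nat_lit 344) (nat_lit 225)) (XT.lf (nat_lit 0) (nat_lit 8761058377) (nat_lit 504) (nat_lit 415053353) (nat_lit 588) (nat_lit 7728860145) (nat_lit 112) (nat_lit 5) (nat_lit 118) (nat_lit 5) (nat_lit 119) (nat_lit 5) (nat_lit 377) (nat_lit 344) (nat_lit 224))) (XT.nd (nat_lit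 94) (nat_lit 420) (nat_lit 0) (XT.lf (nat_lit 0) (nat_lit 11441711277) (nat_lit 588) (nat_lit 268166723) (nat_lit 84) (nat_lit 5500914087) (nat_lit 112) (nat_lit 5) (nat_lit 119) (nat_lit 5) (nat_lit 113) (nat_lit 5) (nat_lit 378) (nat_lit 344) (nat_lit 223)) (XT.lf (nat_lit 0) (nat_lit 7983515471) (nat_lit 420) (nat_lit 5861986757) (nat_lit 504) (nat_lit 3678194963) (nat_lit 107) (nat_lit 5) (nat_lit 112) (nat_lit 5) (nat_lit 113) (nat_lit 5) (nat_lit 379) (nat_lit 344) (nat_lit 222)))))) (XT.nd (nat_lit 752) (nat_lit 0) (nat_lit 0) (XT.nd (nat_lit 376) (nat_lit 756) (nat_lit 0) (XT.nd (nat_lit 188) (nat_lit 420) (nat_lit 0) (XT.nd (nat_lit 94) (nat_lit 588) (nat_lit 0) (XT.lf (nat_lit 0) (nat_lit 16315245269) (nat_lit 504) (nat_lit 1371452957) (nat_lit 84) (nat_lit 159492561) (nat_lit 107) (nat_lit 5) (nat_lit 113) (nat_lit 5) (nat_lit 108) (nat_lit 5) (nat_lit 380) (nat_lit 344) (nat_lit 221))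 (XT.lf (nat_lit 0) (nat_lit 784827126) (nat_lit 588) (nat_lit 11071375135) (nat_lit 84) (nat_lit 6318454497) (nat_lit 100) (nat_lit 5) (nat_lit 107) (nat_lit 5) (nat_lit 101) (nat_lit 5) (nat_lit 381) (nat_lit 344) (nat_lit 220))) (XT.nd (nat_lit 94) (nat_lit 420) (nat_lit 0) (XT.lf (nat_lit 0) (nat_lit 3143214251) (nat_lit 588) (nat_lit 2679440517) (nat_lit 84) (nat_lit 12689764943) (nat_lit 100) (nat_lit 5) (nat_lit 107) (nat_lit 5) (nat_lit 101) (nat_lit 5) (nat_lit 382) (nat_lit 344) (nat_lit 219)) (XT.lf (nat_lit 0) (nat_lit 5625258787) (nat_lit 504) (nat_lit 12792086580) (nat_lit 84) (nat_lit 441397664) (nat_lit 95) (nat_lit 5) (nat_lit 101) (nat_lit 5) (nat_lit 96) (nat_lit 5) (nat_lit 383) (nat_lit 344) (nat_lit 218)))) (XT.nd (nat_lit 188) (nat_lit 336) (nat_lit 0) (XT.nd (nat_lit 94) (nat_lit 420) (nat_lit 0) (XT.lf (nat_lit 0) (nat_lit 8257115056) (nat_lit 504) (nat_lit 4154278252) (nat_lit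 84) (nat_lit 6801816455) (nat_lit 95) (nat_lit 5) (nat_lit 101) (nat_lit 5) (nat_lit 96) (nat_lit 5) (nat_lit 384) (nat_lit 344) (nat_lit 217)) (XT.lf (nat_lit 0) (nat_lit 4825389909) (nat_lit 420) (nat_lit 6179577395) (nat_lit 504) (nat_lit 8572245797) (nat_lit 90) (nat_lit 5) (nat_lit 95) (nat_lit 5) (nat_lit 96) (nat_lit 5) (nat_lit 385) (nat_lit 344) (nat_lit 216))) (XT.nd (nat_lit 94) (nat_lit 336) (nat_lit 0) (XT.lf (nat_lit 0) (nat_lit 13870718221) (nat_lit 504) (nat_lit 5805577198) (nat_lit 84) (nat_lit 274790634) (nat_lit 90) (nat_lit 5) (nat_lit 96) (nat_lit 5) (nat_lit 91) (nat_lit 5) (nat_lit 386) (nat_lit 344) (nat_lit 215)) (XT.lf (nat_lit 0) (nat_lit 3403023809) (nat_lit 336) (nat_lit 13504380165) (nat_lit 420) (nat_lit 3426235369) (nat_lit 86) (nat_lit 5) (nat_lit 90) (nat_lit 5) (nat_lit 91) (nat_lit 5) (nat_lit 387) (nat_lit 344) (nat_lit 214))))) (XT.nd (nat_lit 55554) (nat_lit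 0) (nat_lit 7728) (XT.nd (nat_lit 55366) (nat_lit 0) (nat_lit 8820) (XT.nd (nat_lit 55272) (nat_lit 0) (nat_lit 8820) (XT.lf (nat_lit 0) (nat_lit 12995748137) (nat_lit 336) (nat_lit 7089286622) (nat_lit 420) (nat_lit 641151779) (nat_lit 86) (nat_lit 5) (nat_lit 90) (nat_lit 5) (nat_lit 91) (nat_lit 5) (nat_lit 388) (nat_lit 344) (nat_lit 213)) (XT.lf (nat_lit 0) (nat_lit 1770116998) (nat_lit 0) (nat_lit 1770116998) (nat_lit 1092) (nat_lit 1658284184) (nat_lit 191) (nat_lit 5) (nat_lit 191) (nat_lit 3) (nat_lit 204) (nat_lit 3) (nat_lit 345) (nat_lit 345) (nat_lit 255))) (XT.nd (nat_lit 94) (nat_lit 0) (nat_lit 0) (XT.lf (nat_lit 0) (nat_lit 7787663071) (nat_lit 1092) (nat_lit 2344686809) (nat_lit 1176) (nat_lit 401423372) (nat_lit 191) (nat_lit 5) (nat_lit 204) (nat_lit 3) (nat_lit 205) (nat_lit 5) (nat_lit 346) (nat_lit 345) (nat_lit 254)) (XT.lf (nat_lit 84) (nat_lit 2300115855) (nat_lit 0) (nat_lit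 6249930789) (nat_lit 1176) (nat_lit 2123592828) (nat_lit 192) (nat_lit 5) (nat_lit 191) (nat_lit 5) (nat_lit 205) (nat_lit 5) (nat_lit 347) (nat_lit 345) (nat_lit 253)))) (XT.nd (nat_lit 188) (nat_lit 1092) (nat_lit 0) (XT.nd (nat_lit 94) (nat_lit 0) (nat_lit 84) (XT.lf (nat_lit 84) (nat_lit 7119940928) (nat_lit 0) (nat_lit 2216404599) (nat_lit 1176) (nat_lit 1481369891) (nat_lit 192) (nat_lit 5) (nat_lit 191) (nat_lit 5) (nat_lit 205) (nat_lit 5) (nat_lit 348) (nat_lit 345) (nat_lit 252)) (XT.lf (nat_lit 84) (nat_lit 1108422662) (nat_lit 0) (nat_lit 9045217927) (nat_lit 1176) (nat_lit 812294577) (nat_lit 193) (nat_lit 5) (nat_lit 192) (nat_lit 5) (nat_lit 206) (nat_lit 5) (nat_lit 349) (nat_lit 345) (nat_lit 251))) (XT.nd (nat_lit 94) (nat_lit 1176) (nat_lit 0) (XT.lf (nat_lit 84) (nat_lit 6099527561) (nat_lit 0) (nat_lit 4933633749) (nat_lit 1176) (nat_lit 84351458) (nat_lit 193) (nat_lit 5)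 (nat_lit 192) (nat_lit 5) (nat_lit 206) (nat_lit 5) (nat_lit 350) (nat_lit 345) (nat_lit 250)) (XT.lf (nat_lit 0) (nat_lit 631458540) (nat_lit 1176) (nat_lit 52454061) (nat_lit 1260) (nat_lit 10590202825) (nat_lit 178) (nat_lit 5) (nat_lit 192) (nat_lit 5) (nat_lit 193) (nat_lit 5) (nat_lit 351) (nat_lit 345) (nat_lit 249))))))))
noncomputable def xc50 : XT := (XT.nd (nat_lit 2914) (nat_lit 1176) (nat_lit 0) (XT.nd (nat_lit 1410) (nat_lit 4452) (nat_lit 0) (XT.nd (nat_lit 658) (nat_lit 2184) (nat_lit 0) (XT.nd (nat_lit 282) (nat_lit 0) (nat_lit 84) (XT.nd (nat_lit 94) (nat_lit 0) (nat_lit 0) (XT.lf (nat_lit 0) (nat_lit 1432247371) (nat_lit 1176) (nat_lit 6321357719) (nat_lit 1260) (nat_lit 3679868884) (nat_lit 179) (nat_lit 5) (nat_lit 193) (nat_lit 5) (nat_lit 194) (nat_lit 5) (nat_lit 352) (nat_lit 345) (nat_lit 248)) (XT.nd (nat_lit 94) (nat_lit 0) (nat_lit 84) (XT.lf (nat_lit 0) (nat_lit 2244539424)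 (nat_lit 1176) (nat_lit 1184674333) (nat_lit 1260) (nat_lit 8168812865) (nat_lit 179) (nat_lit 5) (nat_lit 193) (nat_lit 5) (nat_lit 194) (nat_lit 5) (nat_lit 353) (nat_lit 345) (nat_lit 247)) (XT.lf (nat_lit 0) (nat_lit 3112396303) (nat_lit 1176) (nat_lit 7602281714) (nat_lit 1260) (nat_lit 1051938582) (nat_lit 180) (nat_lit 5) (nat_lit 194) (nat_lit 5) (nat_lit 195) (nat_lit 5) (nat_lit 354) (nat_lit 345) (nat_lit 246)))) (XT.nd (nat_lit 188) (nat_lit 0) (nat_lit 84) (XT.nd (nat_lit 94) (nat_lit 0) (nat_lit 0) (XT.lf (nat_lit 0) (nat_lit 4033574734) (nat_lit 1176) (nat_lit 2289034781) (nat_lit 1260) (nat_lit 5616871750) (nat_lit 180) (nat_lit 5) (nat_lit 194) (nat_lit 5) (nat_lit 195) (nat_lit 5) (nat_lit 355) (nat_lit 345) (nat_lit 245)) (XT.lf (nat_lit 84) (nat_lit 3233941248) (nat_lit 0) (nat_lit 1761331855) (nat_lit 1260) (nat_lit 7121906759) (nat_lit 181) (nat_lit 5) (nat_lit 180) (nat_lit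 5) (nat_lit 195) (nat_lit 5) (nat_lit 356) (nat_lit 345) (nat_lit 244))) (XT.nd (nat_lit 94) (nat_lit 0) (nat_lit 0) (XT.lf (nat_lit 0) (nat_lit 6019652194) (nat_lit 1176) (nat_lit 3371711169) (nat_lit 1260) (nat_lit 2907864683) (nat_lit 181) (nat_lit 5) (nat_lit 195) (nat_lit 5) (nat_lit 196) (nat_lit 5) (nat_lit 357) (nat_lit 345) (nat_lit 243)) (XT.lf (nat_lit 84) (nat_lit 2320117704) (nat_lit 0) (nat_lit 4777159072) (nat_lit 1260) (nat_lit 5388818024) (nat_lit 182) (nat_lit 5) (nat_lit 181) (nat_lit 5) (nat_lit 196) (nat_lit 5) (nat_lit 358) (nat_lit 345) (nat_lit 242))))) (XT.nd (nat_lit 376) (nat_lit 1344) (nat_lit 0) (XT.nd (nat_lit 188) (nat_lit 1092) (nat_lit 0) (XT.nd (nat_lit 94) (nat_lit 0) (nat_lit 0) (XT.lf (nat_lit 0) (nat_lit 8224570426) (nat_lit 1176) (nat_lit 4439158683) (nat_lit 1260) (nat_lit 14349837) (nat_lit 182) (nat_lit 5) (nat_lit 196) (nat_lit 5) (nat_lit 197) (nat_lit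 5) (nat_lit 359) (nat_lit 345) (nat_lit 241)) (XT.lf (nat_lit 84) (nat_lit 1427071772) (nat_lit 0) (nat_lit 8003308512) (nat_lit 1260) (nat_lit 3444132088) (nat_lit 183) (nat_lit 5) (nat_lit 182) (nat_lit 5) (nat_lit 197) (nat_lit 5) (nat_lit 360) (nat_lit 345) (nat_lit 240))) (XT.nd (nat_lit 94) (nat_lit 1092) (nat_lit 0) (XT.lf (nat_lit 84) (nat_lit 7547473200) (nat_lit 0) (nat_lit 3153751078) (nat_lit 1260) (nat_lit 2374778512) (nat_lit 183) (nat_lit 5) (nat_lit 182) (nat_lit 5) (nat_lit 197) (nat_lit 5) (nat_lit 361) (nat_lit 345) (nat_lit 239)) (XT.lf (nat_lit 0) (nat_lit 547977625) (nat_lit 1176) (nat_lit 11469710620) (nat_lit 1260) (nat_lit 1265653753) (nat_lit 169) (nat_lit 5) (nat_lit 183) (nat_lit 5) (nat_lit 184) (nat_lit 5) (nat_lit 362) (nat_lit 345) (nat_lit 238)))) (XT.nd (nat_lit 188) (nat_lit 1260) (nat_lit 0) (XT.nd (nat_lit 94) (nat_lit 84) (nat_lit 0) (XT.lf (nat_lit 0) (nat_lit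 6875425390) (nat_lit 1176) (nat_lit 6569821954) (nat_lit 1260) (nat_lit 49534078) (nat_lit 169) (nat_lit 5) (nat_lit 183) (nat_lit 5) (nat_lit 184) (nat_lit 5) (nat_lit 363) (nat_lit 345) (nat_lit 237)) (XT.lf (nat_lit 0) (nat_lit 1164716561) (nat_lit 1260) (nat_lit 344218108) (nat_lit 84) (nat_lit 12203755177) (nat_lit 168) (nat_lit 5) (nat_lit 183) (nat_lit 5) (nat_lit 169) (nat_lit 5) (nat_lit 364) (nat_lit 345) (nat_lit 236))) (XT.nd (nat_lit 94) (nat_lit 0) (nat_lit 0) (XT.lf (nat_lit 0) (nat_lit 2496041489) (nat_lit 1344) (nat_lit 7744207278) (nat_lit 84) (nat_lit 3694448463) (nat_lit 153) (nat_lit 5) (nat_lit 169) (nat_lit 5) (nat_lit 154) (nat_lit 5) (nat_lit 365) (nat_lit 345) (nat_lit 235)) (XT.lf (nat_lit 0) (nat_lit 3871633624) (nat_lit 1344) (nat_lit 1262698384) (nat_lit 84) (nat_lit 9028927950) (nat_lit 153) (nat_lit 5) (nat_lit 169) (nat_lit 5) (nat_lit 154) (nat_lit 5) (nat_lit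 366) (nat_lit 345) (nat_lit 234)))))) (XT.nd (nat_lit 752) (nat_lit 2016) (nat_lit 0) (XT.nd (nat_lit 376) (nat_lit 1260) (nat_lit 0) (XT.nd (nat_lit 188) (nat_lit 588) (nat_lit 0) (XT.nd (nat_lit 94) (nat_lit 0) (nat_lit 0) (XT.lf (nat_lit 0) (nat_lit 5329468002) (nat_lit 672) (nat_lit 8890906499) (nat_lit 84) (nat_lit 177100049) (nat_lit 146) (nat_lit 5) (nat_lit 154) (nat_lit 5) (nat_lit 147) (nat_lit 5) (nat_lit 367) (nat_lit 345) (nat_lit 233)) (XT.lf (nat_lit 0) (nat_lit 6881330566) (nat_lit 672) (nat_lit 2197201111) (nat_lit 84) (nat_lit 5558698622) (nat_lit 146) (nat_lit 5) (nat_lit 154) (nat_lit 5) (nat_lit 147) (nat_lit 5) (nat_lit 368) (nat_lit 345) (nat_lit 232))) (XT.nd (nat_lit 94) (nat_lit 0) (nat_lit 0) (XT.lf (nat_lit 0) (nat_lit 4778222372) (nat_lit 588) (nat_lit 3734429831) (nat_lit 672) (nat_lit 6370562246) (nat_lit 139) (nat_lit 5) (nat_lit 146) (nat_lit 5) (nat_lit 147) (nat_lit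 5) (nat_lit 369) (nat_lit 345) (nat_lit 231)) (XT.lf (nat_lit 0) (nat_lit 10219574252) (nat_lit 672) (nat_lit 3157820368) (nat_lit 84) (nat_lit 1758405847) (nat_lit 139) (nat_lit 5) (nat_lit 147) (nat_lit 5) (nat_lit 140) (nat_lit 5) (nat_lit 370) (nat_lit 345) (nat_lit 230)))) (XT.nd (nat_lit 188) (nat_lit 672) (nat_lit 0) (XT.nd (nat_lit 94) (nat_lit 0) (nat_lit 0) (XT.lf (nat_lit 0) (nat_lit 4027120279) (nat_lit 588) (nat_lit 8013880430) (nat_lit 672) (nat_lit 3353085970) (nat_lit 132) (nat_lit 5) (nat_lit 139) (nat_lit 5) (nat_lit 140) (nat_lit 5) (nat_lit 371) (nat_lit 345) (nat_lit 229)) (XT.lf (nat_lit 0) (nat_lit 11480206236) (nat_lit 588) (nat_lit 2456606763) (nat_lit 672) (nat_lit 1722737077) (nat_lit 132) (nat_lit 5) (nat_lit 139) (nat_lit 5) (nat_lit 140) (nat_lit 5) (nat_lit 372) (nat_lit 345) (nat_lit 228))) (XT.nd (nat_lit 94) (nat_lit 0) (nat_lit 0) (XT.lf (nat_lit 0) (nat_lit 8650751)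 (nat_lit 672) (nat_lit 12687919983) (nat_lit 84) (nat_lit 3234900470) (nat_lit 124) (nat_lit 5) (nat_lit 132) (nat_lit 5) (nat_lit 125) (nat_lit 5) (nat_lit 373) (nat_lit 345) (nat_lit 227)) (XT.lf (nat_lit 0) (nat_lit 1812601769) (nat_lit 672) (nat_lit 5289564298) (nat_lit 84) (nat_lit 9107233905) (nat_lit 124) (nat_lit 5) (nat_lit 132) (nat_lit 5) (nat_lit 125) (nat_lit 5) (nat_lit 374) (nat_lit 345) (nat_lit 226))))) (XT.nd (nat_lit 376) (nat_lit 1008) (nat_lit 0) (XT.nd (nat_lit 188) (nat_lit 504) (nat_lit 0) (XT.nd (nat_lit 94) (nat_lit 0) (nat_lit 0) (XT.lf (nat_lit 0) (nat_lit 2364960348) (nat_lit 504) (nat_lit 1317088098) (nat_lit 588) (nat_lit 12813295405) (nat_lit 118) (nat_lit 5) (nat_lit 124) (nat_lit 5) (nat_lit 125) (nat_lit 5) (nat_lit 375) (nat_lit 345) (nat_lit 225)) (XT.lf (nat_lit 0) (nat_lit 5694993354) (nat_lit 588) (nat_lit 6488017547) (nat_lit 84) (nat_lit 4604250721) (nat_lit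 118) (nat_lit 5) (nat_lit 125) (nat_lit 5) (nat_lit 119) (nat_lit 5) (nat_lit 376) (nat_lit 345) (nat_lit 224))) (XT.nd (nat_lit 94) (nat_lit 0) (nat_lit 0) (XT.lf (nat_lit 0) (nat_lit 1385815983) (nat_lit 504) (nat_lit 6398051448) (nat_lit 588) (nat_lit 9303620766) (nat_lit 112) (nat_lit 5) (nat_lit 118) (nat_lit 5) (nat_lit 119) (nat_lit 5) (nat_lit 377) (nat_lit 345) (nat_lit 223)) (XT.lf (nat_lit 0) (nat_lit 9617173065) (nat_lit 504) (nat_lit 373132762) (nat_lit 588) (nat_lit 7404785784) (nat_lit 112) (nat_lit 5) (nat_lit 118) (nat_lit 5) (nat_lit 119) (nat_lit 5) (nat_lit 378) (nat_lit 345) (nat_lit 222)))) (XT.nd (nat_lit 188) (nat_lit 588) (nat_lit 0) (XT.nd (nat_lit 94) (nat_lit 0) (nat_lit 0) (XT.lf (nat_lit 0) (nat_lit 322102487) (nat_lit 420) (nat_lit 11989678126) (nat_lit 504) (nat_lit 5398693710) (nat_lit 107) (nat_lit 5) (nat_lit 112) (nat_lit 5) (nat_lit 113) (nat_lit 5) (nat_lit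 379) (nat_lit 345) (nat_lit 221)) (XT.lf (nat_lit 0) (nat_lit 8809245564) (nat_lit 420) (nat_lit 5965724601) (nat_lit 504) (nat_lit 3258202246) (nat_lit 107) (nat_lit 5) (nat_lit 112) (nat_lit 5) (nat_lit 113) (nat_lit 5) (nat_lit 380) (nat_lit 345) (nat_lit 220))) (XT.nd (nat_lit 94) (nat_lit 588) (nat_lit 0) (XT.lf (nat_lit 0) (nat_lit 17304504713) (nat_lit 504) (nat_lit 828356695) (nat_lit 84) (nat_lit 232932098) (nat_lit 107) (nat_lit 5) (nat_lit 113) (nat_lit 5) (nat_lit 108) (nat_lit 5) (nat_lit 381) (nat_lit 345) (nat_lit 219)) (XT.lf (nat_lit 0) (nat_lit 1304788173) (nat_lit 588) (nat_lit 10814381071) (nat_lit 84) (nat_lit 6585091076) (nat_lit 100) (nat_lit 5) (nat_lit 107) (nat_lit 5) (nat_lit 101) (nat_lit 5) (nat_lit 382) (nat_lit 345) (nat_lit 218))))))) (XT.nd (nat_lit 56776) (nat_lit 0) (nat_lit 4452) (XT.nd (nat_lit 56024) (nat_lit 0) (nat_lit 7728) (XT.nd (nat_lit 376) (nat_lit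 336) (nat_lit 0) (XT.nd (nat_lit 188) (nat_lit 420) (nat_lit 0) (XT.nd (nat_lit 94) (nat_lit 420) (nat_lit 0) (XT.lf (nat_lit 0) (nat_lit 3719468186) (nat_lit 588) (nat_lit 2187847695) (nat_lit 84) (nat_lit 13145295702) (nat_lit 100) (nat_lit 5) (nat_lit 107) (nat_lit 5) (nat_lit 101) (nat_lit 5) (nat_lit 383) (nat_lit 345) (nat_lit 217)) (XT.lf (nat_lit 0) (nat_lit 6268274755) (nat_lit 504) (nat_lit 12595472872) (nat_lit 84) (nat_lit 545828984) (nat_lit 95) (nat_lit 5) (nat_lit 101) (nat_lit 5) (nat_lit 96) (nat_lit 5) (nat_lit 384) (nat_lit 345) (nat_lit 216))) (XT.nd (nat_lit 94) (nat_lit 420) (nat_lit 0) (XT.lf (nat_lit 0) (nat_lit 8965273366) (nat_lit 504) (nat_lit 3715434458) (nat_lit 84) (nat_lit 7094404338) (nat_lit 95) (nat_lit 5) (nat_lit 101) (nat_lit 5) (nat_lit 96) (nat_lit 5) (nat_lit 385) (nat_lit 345) (nat_lit 215)) (XT.lf (nat_lit 0) (nat_lit 5528099510) (nat_lit 420) (nat_lit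 6259413992) (nat_lit 504) (nat_lit 8362783349) (nat_lit 90) (nat_lit 5) (nat_lit 95) (nat_lit 5) (nat_lit 96) (nat_lit 5) (nat_lit 386) (nat_lit 345) (nat_lit 214)))) (XT.nd (nat_lit 55460) (nat_lit 0) (nat_lit 8820) (XT.nd (nat_lit 94) (nat_lit 336) (nat_lit 0) (XT.lf (nat_lit 0) (nat_lit 14727045397) (nat_lit 504) (nat_lit 5425214488) (nat_lit 84) (nat_lit 383511100) (nat_lit 90) (nat_lit 5) (nat_lit 96) (nat_lit 5) (nat_lit 91) (nat_lit 5) (nat_lit 387) (nat_lit 345) (nat_lit 213)) (XT.lf (nat_lit 0) (nat_lit 4054207981) (nat_lit 336) (nat_lit 13793080440) (nat_lit 420) (nat_lit 3082757435) (nat_lit 86) (nat_lit 5) (nat_lit 90) (nat_lit 5) (nat_lit 91) (nat_lit 5) (nat_lit 388) (nat_lit 345) (nat_lit 212))) (XT.nd (nat_lit 94) (nat_lit 0) (nat_lit 0) (XT.lf (nat_lit 0) (nat_lit 2118877158) (nat_lit 0) (nat_lit 2118877158) (nat_lit 1092) (nat_lit 1097802426) (nat_lit 191) (nat_lit 5) (nat_lit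 191) (nat_lit 3) (nat_lit 204) (nat_lit 3) (nat_lit 346) (nat_lit 346) (nat_lit 253)) (XT.lf (nat_lit 0) (nat_lit 9013024815) (nat_lit 0) (nat_lit 152395723) (nat_lit 1092) (nat_lit 1647755512) (nat_lit 191) (nat_lit 5) (nat_lit 191) (nat_lit 3) (nat_lit 204) (nat_lit 3) (nat_lit 347) (nat_lit 346) (nat_lit 252))))) (XT.nd (nat_lit 376) (nat_lit 0) (nat_lit 0) (XT.nd (nat_lit 188) (nat_lit 1092) (nat_lit 0) (XT.nd (nat_lit 94) (nat_lit 0) (nat_lit 0) (XT.lf (nat_lit 84) (nat_lit 2979417870) (nat_lit 0) (nat_lit 6942377955) (nat_lit 1176) (nat_lit 1036375426) (nat_lit 192) (nat_lit 5) (nat_lit 191) (nat_lit 5) (nat_lit 205) (nat_lit 5) (nat_lit 348) (nat_lit 346) (nat_lit 251)) (XT.lf (nat_lit 84) (nat_lit 7926062009) (nat_lit 0) (nat_lit 2773138719) (nat_lit 1176) (nat_lit 408407894) (nat_lit 192) (nat_lit 5) (nat_lit 191) (nat_lit 5) (nat_lit 205) (nat_lit 5) (nat_lit 349) (nat_lit 346) (nat_lit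 250))) (XT.nd (nat_lit 94) (nat_lit 0) (nat_lit 0) (XT.lf (nat_lit 0) (nat_lit 244804207) (nat_lit 1176) (nat_lit 9496286591) (nat_lit 1260) (nat_lit 1520077870) (nat_lit 178) (nat_lit 5) (nat_lit 192) (nat_lit 5) (nat_lit 193) (nat_lit 5) (nat_lit 350) (nat_lit 346) (nat_lit 249)) (XT.lf (nat_lit 0) (nat_lit 948931150) (nat_lit 1176) (nat_lit 4537681089) (nat_lit 1260) (nat_lit 5931455018) (nat_lit 178) (nat_lit 5) (nat_lit 192) (nat_lit 5) (nat_lit 193) (nat_lit 5) (nat_lit 351) (nat_lit 346) (nat_lit 248)))) (XT.nd (nat_lit 188) (nat_lit 0) (nat_lit 84) (XT.nd (nat_lit 94) (nat_lit 0) (nat_lit 84) (XT.lf (nat_lit 84) (nat_lit 568729018) (nat_lit 0) (nat_lit 1091138086) (nat_lit 1260) (nat_lit 9920272873) (nat_lit 179) (nat_lit 5) (nat_lit 178) (nat_lit 5) (nat_lit 193) (nat_lit 5) (nat_lit 352) (nat_lit 346) (nat_lit 247)) (XT.lf (nat_lit 0) (nat_lit 2452188055) (nat_lit 1176) (nat_lit 5870455935)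 (nat_lit 1260) (nat_lit 3422665813) (nat_lit 179) (nat_lit 5) (nat_lit 193) (nat_lit 5) (nat_lit 194) (nat_lit 5) (nat_lit 353) (nat_lit 346) (nat_lit 246))) (XT.nd (nat_lit 94) (nat_lit 0) (nat_lit 84) (XT.lf (nat_lit 0) (nat_lit 3260393338) (nat_lit 1176) (nat_lit 598328625) (nat_lit 1260) (nat_lit 8056984885) (nat_lit 179) (nat_lit 5) (nat_lit 193) (nat_lit 5) (nat_lit 194) (nat_lit 5) (nat_lit 354) (nat_lit 346) (nat_lit 245)) (XT.lf (nat_lit 0) (nat_lit 4129588807) (nat_lit 1176) (nat_lit 7182014644) (nat_lit 1260) (nat_lit 778544561) (nat_lit 180) (nat_lit 5) (nat_lit 194) (nat_lit 5) (nat_lit 195) (nat_lit 5) (nat_lit 355) (nat_lit 346) (nat_lit 244)))))) (XT.nd (nat_lit 752) (nat_lit 2520) (nat_lit 0) (XT.nd (nat_lit 376) (nat_lit 924) (nat_lit 0) (XT.nd (nat_lit 188) (nat_lit 0) (nat_lit 84) (XT.nd (nat_lit 94) (nat_lit 0) (nat_lit 0) (XT.lf (nat_lit 0) (nat_lit 5051495195) (nat_lit 1176)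 (nat_lit 1728253862) (nat_lit 1260) (nat_lit 5489307826) (nat_lit 180) (nat_lit 5) (nat_lit 194) (nat_lit 5) (nat_lit 195) (nat_lit 5) (nat_lit 356) (nat_lit 346) (nat_lit 243)) (XT.lf (nat_lit 84) (nat_lit 3954240350) (nat_lit 0) (nat_lit 2067671835) (nat_lit 1260) (nat_lit 6430827777) (nat_lit 181) (nat_lit 5) (nat_lit 180) (nat_lit 5) (nat_lit 195) (nat_lit 5) (nat_lit 357) (nat_lit 346) (nat_lit 242))) (XT.nd (nat_lit 94) (nat_lit 0) (nat_lit 0) (XT.lf (nat_lit 0) (nat_lit 7049119519) (nat_lit 1176) (nat_lit 2838228566) (nat_lit 1260) (nat_lit 2753786715) (nat_lit 181) (nat_lit 5) (nat_lit 195) (nat_lit 5) (nat_lit 196) (nat_lit 5) (nat_lit 358) (nat_lit 346) (nat_lit 241)) (XT.lf (nat_lit 84) (nat_lit 3018133273) (nat_lit 0) (nat_lit 5122255653) (nat_lit 1260) (nat_lit 4693825860) (nat_lit 182) (nat_lit 5) (nat_lit 181) (nat_lit 5) (nat_lit 196) (nat_lit 5) (nat_lit 359) (nat_lit 346) (nat_lit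 240)))) (XT.nd (nat_lit 188) (nat_lit 1008) (nat_lit 0) (XT.nd (nat_lit 94) (nat_lit 0) (nat_lit 84) (XT.lf (nat_lit 84) (nat_lit 9096345897) (nat_lit 0) (nat_lit 180830177) (nat_lit 1260) (nat_lit 3755557490) (nat_lit 182) (nat_lit 5) (nat_lit 181) (nat_lit 5) (nat_lit 196) (nat_lit 5) (nat_lit 360) (nat_lit 346) (nat_lit 239)) (XT.lf (nat_lit 84) (nat_lit 2101316147) (nat_lit 0) (nat_lit 8398754274) (nat_lit 1260) (nat_lit 2735606297) (nat_lit 183) (nat_lit 5) (nat_lit 182) (nat_lit 5) (nat_lit 197) (nat_lit 5) (nat_lit 361) (nat_lit 346) (nat_lit 238))) (XT.nd (nat_lit 94) (nat_lit 1092) (nat_lit 0) (XT.lf (nat_lit 84) (nat_lit 8386938388) (nat_lit 0) (nat_lit 3399185462) (nat_lit 1260) (nat_lit 1657818223) (nat_lit 183) (nat_lit 5) (nat_lit 182) (nat_lit 5) (nat_lit 197) (nat_lit 5) (nat_lit 362) (nat_lit 346) (nat_lit 237)) (XT.lf (nat_lit 0) (nat_lit 1196985484) (nat_lit 1176) (nat_lit 11927520890)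 (nat_lit 1260) (nat_lit 533563846) (nat_lit 169) (nat_lit 5) (nat_lit 183) (nat_lit 5) (nat_lit 184) (nat_lit 5) (nat_lit 363) (nat_lit 346) (nat_lit 236))))) (XT.nd (nat_lit 376) (nat_lit 1176) (nat_lit 0) (XT.nd (nat_lit 188) (nat_lit 0) (nat_lit 0) (XT.nd (nat_lit 94) (nat_lit 1260) (nat_lit 0) (XT.lf (nat_lit 0) (nat_lit 683017120) (nat_lit 1260) (nat_lit 6187409107) (nat_lit 84) (nat_lit 7005918102) (nat_lit 168) (nat_lit 5) (nat_lit 183) (nat_lit 5) (nat_lit 169) (nat_lit 5) (nat_lit 364) (nat_lit 346) (nat_lit 235)) (XT.lf (nat_lit 0) (nat_lit 262259549) (nat_lit 1260) (nat_lit 1651610416) (nat_lit 1344) (nat_lit 12187508199) (nat_lit 153) (nat_lit 5) (nat_lit 168) (nat_lit 5) (nat_lit 169) (nat_lit 5) (nat_lit 365) (nat_lit 346) (nat_lit 234))) (XT.nd (nat_lit 94) (nat_lit 0) (nat_lit 0) (XT.lf (nat_lit 0) (nat_lit 3266831383) (nat_lit 1344) (nat_lit 7347835519) (nat_lit 84) (nat_lit 3715964841)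 (nat_lit 153) (nat_lit 5) (nat_lit 169) (nat_lit 5) (nat_lit 154) (nat_lit 5) (nat_lit 366) (nat_lit 346) (nat_lit 233)) (XT.lf (nat_lit 0) (nat_lit 4663422098) (nat_lit 1344) (nat_lit 690192949) (nat_lit 84) (nat_lit 9213080181) (nat_lit 153) (nat_lit 5) (nat_lit 169) (nat_lit 5) (nat_lit 154) (nat_lit 5) (nat_lit 367) (nat_lit 346) (nat_lit 232)))) (XT.nd (nat_lit 188) (nat_lit 588) (nat_lit 0) (XT.nd (nat_lit 94) (nat_lit 0) (nat_lit 0) (XT.lf (nat_lit 0) (nat_lit 6150571112) (nat_lit 672) (nat_lit 8531668326) (nat_lit 84) (nat_lit 126164190) (nat_lit 146) (nat_lit 5) (nat_lit 154) (nat_lit 5) (nat_lit 147) (nat_lit 5) (nat_lit 368) (nat_lit 346) (nat_lit 231)) (XT.lf (nat_lit 0) (nat_lit 7729730745) (nat_lit 672) (nat_lit 1655383777) (nat_lit 84) (nat_lit 5670849036) (nat_lit 146) (nat_lit 5) (nat_lit 154) (nat_lit 5) (nat_lit 147) (nat_lit 5) (nat_lit 369) (nat_lit 346) (nat_lit 230))) (XT.nd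 (nat_lit 94) (nat_lit 0) (nat_lit 0) (XT.lf (nat_lit 0) (nat_lit 5523344241) (nat_lit 588) (nat_lit 3873734551) (nat_lit 672) (nat_lit 5912668602) (nat_lit 139) (nat_lit 5) (nat_lit 146) (nat_lit 5) (nat_lit 147) (nat_lit 5) (nat_lit 370) (nat_lit 346) (nat_lit 229)) (XT.lf (nat_lit 0) (nat_lit 11136632225) (nat_lit 672) (nat_lit 2648670668) (nat_lit 84) (nat_lit 1785197194) (nat_lit 139) (nat_lit 5) (nat_lit 147) (nat_lit 5) (nat_lit 140) (nat_lit 5) (nat_lit 371) (nat_lit 346) (nat_lit 228))))))))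
noncomputable def xc51 : XT := (XT.nd (nat_lit 58374) (nat_lit 0) (nat_lit 0) (XT.nd (nat_lit 1504) (nat_lit 0) (nat_lit 0) (XT.nd (nat_lit 752) (nat_lit 1848) (nat_lit 0) (XT.nd (nat_lit 376) (nat_lit 1008) (nat_lit 0) (XT.nd (nat_lit 188) (nat_lit 672) (nat_lit 0) (XT.nd (nat_lit 94) (nat_lit 0) (nat_lit 0) (XT.lf (nat_lit 0) (nat_lit 4745897764) (nat_lit 588) (nat_lit 8254771006) (nat_lit 672) (nat_lit 2836257979) (nat_lit 132) (nat_lit 5) (nat_lit 139) (nat_lit 5) (nat_lit 140) (nat_lit 5) (nat_lit 372) (nat_lit 346) (nat_lit 227)) (XT.lf (nat_lit 0) (nat_lit 12405159876) (nat_lit 588) (nat_lit 2530765318) (nat_lit 672) (nat_lit 1174981743) (nat_lit 132) (nat_lit 5) (nat_lit 139) (nat_lit 5) (nat_lit 140) (nat_lit 5) (nat_lit 373) (nat_lit 346) (nat_lit 226))) (XT.nd (nat_lit 94) (nat_lit 0) (nat_lit 0) (XT.lf (nat_lit 0) (nat_lit 585285326) (nat_lit 672) (nat_lit 12463035400) (nat_lit 84)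 (nat_lit 3342861325) (nat_lit 124) (nat_lit 5) (nat_lit 132) (nat_lit 5) (nat_lit 125) (nat_lit 5) (nat_lit 374) (nat_lit 346) (nat_lit 225)) (XT.lf (nat_lit 0) (nat_lit 2426567252) (nat_lit 672) (nat_lit 4860365613) (nat_lit 84) (nat_lit 9391046885) (nat_lit 124) (nat_lit 5) (nat_lit 132) (nat_lit 5) (nat_lit 125) (nat_lit 5) (nat_lit 375) (nat_lit 346) (nat_lit 224)))) (XT.nd (nat_lit 188) (nat_lit 504) (nat_lit 0) (XT.nd (nat_lit 94) (nat_lit 0) (nat_lit 0) (XT.lf (nat_lit 0) (nat_lit 3018031188) (nat_lit 504) (nat_lit 1323363191) (nat_lit 588) (nat_lit 12631455293) (nat_lit 118) (nat_lit 5) (nat_lit 124) (nat_lit 5) (nat_lit 125) (nat_lit 5) (nat_lit 376) (nat_lit 346) (nat_lit 223)) (XT.lf (nat_lit 0) (nat_lit 6399050902) (nat_lit 588) (nat_lit 6100952223) (nat_lit 84) (nat_lit 4774018015) (nat_lit 118) (nat_lit 5) (nat_lit 125) (nat_lit 5) (nat_lit 119) (nat_lit 5) (nat_lit 377) (nat_lit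 346) (nat_lit 222))) (XT.nd (nat_lit 94) (nat_lit 0) (nat_lit 0) (XT.lf (nat_lit 0) (nat_lit 2003393314) (nat_lit 504) (nat_lit 6537204456) (nat_lit 588) (nat_lit 9042981655) (nat_lit 112) (nat_lit 5) (nat_lit 118) (nat_lit 5) (nat_lit 119) (nat_lit 5) (nat_lit 378) (nat_lit 346) (nat_lit 221)) (XT.lf (nat_lit 0) (nat_lit 10464914327) (nat_lit 504) (nat_lit 333075740) (nat_lit 588) (nat_lit 7102902432) (nat_lit 112) (nat_lit 5) (nat_lit 118) (nat_lit 5) (nat_lit 119) (nat_lit 5) (nat_lit 379) (nat_lit 346) (nat_lit 220))))) (XT.nd (nat_lit 376) (nat_lit 840) (nat_lit 0) (XT.nd (nat_lit 188) (nat_lit 588) (nat_lit 0) (XT.nd (nat_lit 94) (nat_lit 0) (nat_lit 0) (XT.lf (nat_lit 0) (nat_lit 900915686) (nat_lit 420) (nat_lit 12279347345) (nat_lit 504) (nat_lit 5045762710) (nat_lit 107) (nat_lit 5) (nat_lit 112) (nat_lit 5) (nat_lit 113) (nat_lit 5) (nat_lit 380) (nat_lit 346) (nat_lit 219)) (XT.lf (nat_lit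 0) (nat_lit 9626095867) (nat_lit 420) (nat_lit 6076714664) (nat_lit 504) (nat_lit 2856053351) (nat_lit 107) (nat_lit 5) (nat_lit 112) (nat_lit 5) (nat_lit 113) (nat_lit 5) (nat_lit 381) (nat_lit 346) (nat_lit 218))) (XT.nd (nat_lit 94) (nat_lit 588) (nat_lit 0) (XT.lf (nat_lit 0) (nat_lit 18294751255) (nat_lit 504) (nat_lit 302505303) (nat_lit 84) (nat_lit 304633758) (nat_lit 107) (nat_lit 5) (nat_lit 113) (nat_lit 5) (nat_lit 108) (nat_lit 5) (nat_lit 382) (nat_lit 346) (nat_lit 217)) (XT.lf (nat_lit 0) (nat_lit 1811851729) (nat_lit 588) (nat_lit 10583495963) (nat_lit 84) (nat_lit 6855301877) (nat_lit 100) (nat_lit 5) (nat_lit 107) (nat_lit 5) (nat_lit 101) (nat_lit 5) (nat_lit 383) (nat_lit 346) (nat_lit 216)))) (XT.nd (nat_lit 188) (nat_lit 420) (nat_lit 0) (XT.nd (nat_lit 94) (nat_lit 420) (nat_lit 0) (XT.lf (nat_lit 0) (nat_lit 4285343408) (nat_lit 588) (nat_lit 1714340854) (nat_lit 84) (nat_lit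 13610196387) (nat_lit 100) (nat_lit 5) (nat_lit 107) (nat_lit 5) (nat_lit 101) (nat_lit 5) (nat_lit 384) (nat_lit 346) (nat_lit 215)) (XT.lf (nat_lit 0) (nat_lit 6903356841) (nat_lit 504) (nat_lit 12426276727) (nat_lit 84) (nat_lit 648158600) (nat_lit 95) (nat_lit 5) (nat_lit 101) (nat_lit 5) (nat_lit 96) (nat_lit 5) (nat_lit 385) (nat_lit 346) (nat_lit 214))) (XT.nd (nat_lit 94) (nat_lit 420) (nat_lit 0) (XT.lf (nat_lit 0) (nat_lit 9668245007) (nat_lit 504) (nat_lit 3295770957) (nat_lit 84) (nat_lit 7390687678) (nat_lit 95) (nat_lit 5) (nat_lit 101) (nat_lit 5) (nat_lit 96) (nat_lit 5) (nat_lit 386) (nat_lit 346) (nat_lit 213)) (XT.lf (nat_lit 0) (nat_lit 6219861907) (nat_lit 420) (nat_lit 6347704731) (nat_lit 504) (nat_lit 8173823489) (nat_lit 90) (nat_lit 5) (nat_lit 95) (nat_lit 5) (nat_lit 96) (nat_lit 5) (nat_lit 387) (nat_lit 346) (nat_lit 212)))))) (XT.nd (nat_lit 56118) (nat_lit 0) (nat_lit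 7476) (XT.nd (nat_lit 55742) (nat_lit 0) (nat_lit 7308) (XT.nd (nat_lit 55554) (nat_lit 0) (nat_lit 7308) (XT.nd (nat_lit 55460) (nat_lit 0) (nat_lit 8484) (XT.lf (nat_lit 0) (nat_lit 15583792784) (nat_lit 504) (nat_lit 5065273188) (nat_lit 84) (nat_lit 489725403) (nat_lit 90) (nat_lit 5) (nat_lit 96) (nat_lit 5) (nat_lit 91) (nat_lit 5) (nat_lit 388) (nat_lit 346) (nat_lit 211)) (XT.lf (nat_lit 0) (nat_lit 2461128221) (nat_lit 0) (nat_lit 2461128221) (nat_lit 1092) (nat_lit 555535931) (nat_lit 191) (nat_lit 5) (nat_lit 191) (nat_lit 3) (nat_lit 204) (nat_lit 3) (nat_lit 347) (nat_lit 347) (nat_lit 251))) (XT.nd (nat_lit 94) (nat_lit 1176) (nat_lit 0) (XT.lf (nat_lit 0) (nat_lit 9824550994) (nat_lit 0) (nat_lit 698103029) (nat_lit 1092) (nat_lit 580293870) (nat_lit 191) (nat_lit 5) (nat_lit 191) (nat_lit 3) (nat_lit 204) (nat_lit 3) (nat_lit 348) (nat_lit 347) (nat_lit 250)) (XT.lf (nat_lit 0)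 (nat_lit 17051328) (nat_lit 1176) (nat_lit 7609388870) (nat_lit 1260) (nat_lit 3626841798) (nat_lit 177) (nat_lit 5) (nat_lit 191) (nat_lit 5) (nat_lit 192) (nat_lit 5) (nat_lit 349) (nat_lit 347) (nat_lit 249)))) (XT.nd (nat_lit 188) (nat_lit 0) (nat_lit 84) (XT.nd (nat_lit 94) (nat_lit 0) (nat_lit 84) (XT.lf (nat_lit 0) (nat_lit 620255159) (nat_lit 1176) (nat_lit 2691914447) (nat_lit 1260) (nat_lit 8095834966) (nat_lit 177) (nat_lit 5) (nat_lit 191) (nat_lit 5) (nat_lit 192) (nat_lit 5) (nat_lit 350) (nat_lit 347) (nat_lit 248)) (XT.lf (nat_lit 0) (nat_lit 1256146171) (nat_lit 1176) (nat_lit 9169516439) (nat_lit 1260) (nat_lit 1141306216) (nat_lit 178) (nat_lit 5) (nat_lit 192) (nat_lit 5) (nat_lit 193) (nat_lit 5) (nat_lit 351) (nat_lit 347) (nat_lit 247))) (XT.nd (nat_lit 94) (nat_lit 0) (nat_lit 0) (XT.lf (nat_lit 0) (nat_lit 1952154267) (nat_lit 1176) (nat_lit 4079968075) (nat_lit 1260) (nat_lit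 5697385085) (nat_lit 178) (nat_lit 5) (nat_lit 192) (nat_lit 5) (nat_lit 193) (nat_lit 5) (nat_lit 352) (nat_lit 347) (nat_lit 246)) (XT.lf (nat_lit 84) (nat_lit 1173812340) (nat_lit 0) (nat_lit 1487867453) (nat_lit 1260) (nat_lit 9235498841) (nat_lit 179) (nat_lit 5) (nat_lit 178) (nat_lit 5) (nat_lit 193) (nat_lit 5) (nat_lit 353) (nat_lit 347) (nat_lit 245))))) (XT.nd (nat_lit 376) (nat_lit 0) (nat_lit 84) (XT.nd (nat_lit 188) (nat_lit 0) (nat_lit 84) (XT.nd (nat_lit 94) (nat_lit 0) (nat_lit 0) (XT.lf (nat_lit 0) (nat_lit 3446644699) (nat_lit 1176) (nat_lit 5442796858) (nat_lit 1260) (nat_lit 3178848344) (nat_lit 179) (nat_lit 5) (nat_lit 193) (nat_lit 5) (nat_lit 194) (nat_lit 5) (nat_lit 354) (nat_lit 347) (nat_lit 244)) (XT.lf (nat_lit 0) (nat_lit 4252274072) (nat_lit 1176) (nat_lit 30091342) (nat_lit 1260) (nat_lit 7962289147) (nat_lit 179) (nat_lit 5) (nat_lit 193) (nat_lit 5) (nat_lit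 194) (nat_lit 5) (nat_lit 355) (nat_lit 347) (nat_lit 243))) (XT.nd (nat_lit 94) (nat_lit 0) (nat_lit 0) (XT.lf (nat_lit 0) (nat_lit 5124266004) (nat_lit 1176) (nat_lit 6786356673) (nat_lit 1260) (nat_lit 514454221) (nat_lit 180) (nat_lit 5) (nat_lit 194) (nat_lit 5) (nat_lit 195) (nat_lit 5) (nat_lit 356) (nat_lit 347) (nat_lit 242)) (XT.lf (nat_lit 0) (nat_lit 6048466781) (nat_lit 1176) (nat_lit 1186782633) (nat_lit 1260) (nat_lit 5374912617) (nat_lit 180) (nat_lit 5) (nat_lit 194) (nat_lit 5) (nat_lit 195) (nat_lit 5) (nat_lit 357) (nat_lit 347) (nat_lit 241)))) (XT.nd (nat_lit 188) (nat_lit 0) (nat_lit 84) (XT.nd (nat_lit 94) (nat_lit 0) (nat_lit 84) (XT.lf (nat_lit 84) (nat_lit 4660369554) (nat_lit 0) (nat_lit 2368650077) (nat_lit 1260) (nat_lit 5770951985) (nat_lit 181) (nat_lit 5) (nat_lit 180) (nat_lit 5) (nat_lit 195) (nat_lit 5) (nat_lit 358) (nat_lit 347) (nat_lit 240)) (XT.lf (nat_lit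 0) (nat_lit 8060741808) (nat_lit 1176) (nat_lit 2325172068) (nat_lit 1260) (nat_lit 2608938813) (nat_lit 181) (nat_lit 5) (nat_lit 195) (nat_lit 5) (nat_lit 196) (nat_lit 5) (nat_lit 359) (nat_lit 347) (nat_lit 239))) (XT.nd (nat_lit 94) (nat_lit 0) (nat_lit 0) (XT.lf (nat_lit 84) (nat_lit 3701015886) (nat_lit 0) (nat_lit 5466122029) (nat_lit 1260) (nat_lit 4027159530) (nat_lit 182) (nat_lit 5) (nat_lit 181) (nat_lit 5) (nat_lit 196) (nat_lit 5) (nat_lit 360) (nat_lit 347) (nat_lit 238)) (XT.lf (nat_lit 84) (nat_lit 9944322309) (nat_lit 0) (nat_lit 370914021) (nat_lit 1260) (nat_lit 3084261976) (nat_lit 182) (nat_lit 5) (nat_lit 181) (nat_lit 5) (nat_lit 196) (nat_lit 5) (nat_lit 361) (nat_lit 347) (nat_lit 237))))))) (XT.nd (nat_lit 1504) (nat_lit 2352) (nat_lit 0) (XT.nd (nat_lit 752) (nat_lit 2352) (nat_lit 0) (XT.nd (nat_lit 376) (nat_lit 1848) (nat_lit 0) (XT.nd (nat_lit 188) (nat_lit 1176)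 (nat_lit 0) (XT.nd (nat_lit 94) (nat_lit 0) (nat_lit 0) (XT.lf (nat_lit 84) (nat_lit 2759541061) (nat_lit 0) (nat_lit 8797145884) (nat_lit 1260) (nat_lit 2052428229) (nat_lit 183) (nat_lit 5) (nat_lit 182) (nat_lit 5) (nat_lit 197) (nat_lit 5) (nat_lit 362) (nat_lit 347) (nat_lit 236)) (XT.lf (nat_lit 84) (nat_lit 9216396471) (nat_lit 0) (nat_lit 3643325086) (nat_lit 1260) (nat_lit 964595238) (nat_lit 183) (nat_lit 5) (nat_lit 182) (nat_lit 5) (nat_lit 197) (nat_lit 5) (nat_lit 363) (nat_lit 347) (nat_lit 235))) (XT.nd (nat_lit 94) (nat_lit 0) (nat_lit 0) (XT.lf (nat_lit 0) (nat_lit 172844252) (nat_lit 1260) (nat_lit 12217947895) (nat_lit 84) (nat_lit 1654561918) (nat_lit 168) (nat_lit 5) (nat_lit 183) (nat_lit 5) (nat_lit 169) (nat_lit 5) (nat_lit 364) (nat_lit 347) (nat_lit 234)) (XT.lf (nat_lit 0) (nat_lit 1394469681) (nat_lit 1260) (nat_lit 5779160921) (nat_lit 84) (nat_lit 7097046051) (nat_lit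 168) (nat_lit 5) (nat_lit 183) (nat_lit 5) (nat_lit 169) (nat_lit 5) (nat_lit 365) (nat_lit 347) (nat_lit 233)))) (XT.nd (nat_lit 188) (nat_lit 588) (nat_lit 0) (XT.nd (nat_lit 94) (nat_lit 0) (nat_lit 0) (XT.lf (nat_lit 0) (nat_lit 858175536) (nat_lit 1260) (nat_lit 1789600147) (nat_lit 1344) (nat_lit 11855155794) (nat_lit 153) (nat_lit 5) (nat_lit 168) (nat_lit 5) (nat_lit 169) (nat_lit 5) (nat_lit 366) (nat_lit 347) (nat_lit 232)) (XT.lf (nat_lit 0) (nat_lit 4020796971) (nat_lit 1344) (nat_lit 6975662442) (nat_lit 84) (nat_lit 3743253876) (nat_lit 153) (nat_lit 5) (nat_lit 169) (nat_lit 5) (nat_lit 154) (nat_lit 5) (nat_lit 367) (nat_lit 347) (nat_lit 231))) (XT.nd (nat_lit 94) (nat_lit 588) (nat_lit 0) (XT.lf (nat_lit 0) (nat_lit 5440179757) (nat_lit 1344) (nat_lit 135551027) (nat_lit 84) (nat_lit 9407734809) (nat_lit 153) (nat_lit 5) (nat_lit 169) (nat_lit 5) (nat_lit 154) (nat_lit 5) (nat_lit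 368) (nat_lit 347) (nat_lit 230)) (XT.lf (nat_lit 0) (nat_lit 6958350636) (nat_lit 672) (nat_lit 8197585980) (nat_lit 84) (nat_lit 76929169) (nat_lit 146) (nat_lit 5) (nat_lit 154) (nat_lit 5) (nat_lit 147) (nat_lit 5) (nat_lit 369) (nat_lit 347) (nat_lit 229))))) (XT.nd (nat_lit 376) (nat_lit 1176) (nat_lit 0) (XT.nd (nat_lit 188) (nat_lit 588) (nat_lit 0) (XT.nd (nat_lit 94) (nat_lit 588) (nat_lit 0) (XT.lf (nat_lit 0) (nat_lit 8566731784) (nat_lit 672) (nat_lit 1132198304) (nat_lit 84) (nat_lit 5789498831) (nat_lit 146) (nat_lit 5) (nat_lit 154) (nat_lit 5) (nat_lit 147) (nat_lit 5) (nat_lit 370) (nat_lit 347) (nat_lit 228)) (XT.lf (nat_lit 0) (nat_lit 6256275407) (nat_lit 588) (nat_lit 4015652898) (nat_lit 672) (nat_lit 5478294007) (nat_lit 139) (nat_lit 5) (nat_lit 146) (nat_lit 5) (nat_lit 147) (nat_lit 5) (nat_lit 371) (nat_lit 347) (nat_lit 227))) (XT.nd (nat_lit 94) (nat_lit 588) (nat_lit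 0) (XT.lf (nat_lit 0) (nat_lit 12046158420) (nat_lit 672) (nat_lit 2158911907) (nat_lit 84) (nat_lit 1814282539) (nat_lit 139) (nat_lit 5) (nat_lit 147) (nat_lit 5) (nat_lit 140) (nat_lit 5) (nat_lit 372) (nat_lit 347) (nat_lit 226)) (XT.lf (nat_lit 0) (nat_lit 5451913001) (nat_lit 588) (nat_lit 8502861079) (nat_lit 672) (nat_lit 2339367615) (nat_lit 132) (nat_lit 5) (nat_lit 139) (nat_lit 5) (nat_lit 140) (nat_lit 5) (nat_lit 373) (nat_lit 347) (nat_lit 225)))) (XT.nd (nat_lit 188) (nat_lit 504) (nat_lit 0) (XT.nd (nat_lit 94) (nat_lit 672) (nat_lit 0) (XT.lf (nat_lit 0) (nat_lit 13324536327) (nat_lit 588) (nat_lit 2607122204) (nat_lit 672) (nat_lit 645203910) (nat_lit 132) (nat_lit 5) (nat_lit 139) (nat_lit 5) (nat_lit 140) (nat_lit 5) (nat_lit 374) (nat_lit 347) (nat_lit 224)) (XT.lf (nat_lit 0) (nat_lit 1146132652) (nat_lit 672) (nat_lit 12266163729) (nat_lit 84) (nat_lit 3453434508) (nat_lit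 124) (nat_lit 5) (nat_lit 132) (nat_lit 5) (nat_lit 125) (nat_lit 5) (nat_lit 375) (nat_lit 347) (nat_lit 223))) (XT.nd (nat_lit 94) (nat_lit 504) (nat_lit 0) (XT.lf (nat_lit 0) (nat_lit 3026829091) (nat_lit 672) (nat_lit 4452038006) (nat_lit 84) (nat_lit 9682766002) (nat_lit 124) (nat_lit 5) (nat_lit 132) (nat_lit 5) (nat_lit 125) (nat_lit 5) (nat_lit 376) (nat_lit 347) (nat_lit 222)) (XT.lf (nat_lit 0) (nat_lit 3657277968) (nat_lit 504) (nat_lit 1331734508) (nat_lit 588) (nat_lit 12476664411) (nat_lit 118) (nat_lit 5) (nat_lit 124) (nat_lit 5) (nat_lit 125) (nat_lit 5) (nat_lit 377) (nat_lit 347) (nat_lit 221)))))) (XT.nd (nat_lit 752) (nat_lit 840) (nat_lit 0) (XT.nd (nat_lit 376) (nat_lit 588) (nat_lit 0) (XT.nd (nat_lit 188) (nat_lit 420) (nat_lit 0) (XT.nd (nat_lit 94) (nat_lit 504) (nat_lit 0) (XT.lf (nat_lit 0) (nat_lit 7093621870) (nat_lit 588) (nat_lit 5735667236) (nat_lit 84) (nat_lit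 4947062076) (nat_lit 118) (nat_lit 5) (nat_lit 125) (nat_lit 5) (nat_lit 119) (nat_lit 5) (nat_lit 378) (nat_lit 347) (nat_lit 220)) (XT.lf (nat_lit 0) (nat_lit 2606433044) (nat_lit 504) (nat_lit 6683562332) (nat_lit 588) (nat_lit 8805507100) (nat_lit 112) (nat_lit 5) (nat_lit 118) (nat_lit 5) (nat_lit 119) (nat_lit 5) (nat_lit 379) (nat_lit 347) (nat_lit 219))) (XT.nd (nat_lit 94) (nat_lit 420) (nat_lit 0) (XT.lf (nat_lit 0) (nat_lit 11305985961) (nat_lit 504) (nat_lit 294759024) (nat_lit 588) (nat_lit 6822043868) (nat_lit 112) (nat_lit 5) (nat_lit 118) (nat_lit 5) (nat_lit 119) (nat_lit 5) (nat_lit 380) (nat_lit 347) (nat_lit 218)) (XT.lf (nat_lit 0) (nat_lit 1464421736) (nat_lit 420) (nat_lit 12581726139) (nat_lit 504) (nat_lit 4711800676) (nat_lit 107) (nat_lit 5) (nat_lit 112) (nat_lit 5) (nat_lit 113) (nat_lit 5) (nat_lit 381) (nat_lit 347) (nat_lit 217)))) (XT.nd (nat_lit 188) (nat_lit 84)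 (nat_lit 0) (XT.nd (nat_lit 94) (nat_lit 504) (nat_lit 0) (XT.lf (nat_lit 0) (nat_lit 10435731733) (nat_lit 420) (nat_lit 6194936855) (nat_lit 504) (nat_lit 2470536005) (nat_lit 107) (nat_lit 5) (nat_lit 112) (nat_lit 5) (nat_lit 113) (nat_lit 5) (nat_lit 382) (nat_lit 347) (nat_lit 216)) (XT.lf (nat_lit 0) (nat_lit 211638914) (nat_lit 504) (nat_lit 19078056961) (nat_lit 588) (nat_lit 165167124) (nat_lit 101) (nat_lit 5) (nat_lit 107) (nat_lit 5) (nat_lit 108) (nat_lit 5) (nat_lit 383) (nat_lit 347) (nat_lit 215))) (XT.nd (nat_lit 94) (nat_lit 0) (nat_lit 0) (XT.lf (nat_lit 0) (nat_lit 2307266675) (nat_lit 588) (nat_lit 10377561742) (nat_lit 84) (nat_lit 7129448131) (nat_lit 100) (nat_lit 5) (nat_lit 107) (nat_lit 5) (nat_lit 101) (nat_lit 5) (nat_lit 384) (nat_lit 347) (nat_lit 214)) (XT.lf (nat_lit 0) (nat_lit 4842116713) (nat_lit 588) (nat_lit 1257577779) (nat_lit 84) (nat_lit 14084994704) (nat_lit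 100) (nat_lit 5) (nat_lit 107) (nat_lit 5) (nat_lit 101) (nat_lit 5) (nat_lit 385) (nat_lit 347) (nat_lit 213))))) (XT.nd (nat_lit 55836) (nat_lit 0) (nat_lit 7224) (XT.nd (nat_lit 188) (nat_lit 420) (nat_lit 0) (XT.nd (nat_lit 94) (nat_lit 0) (nat_lit 0) (XT.lf (nat_lit 0) (nat_lit 7531829818) (nat_lit 504) (nat_lit 12283408199) (nat_lit 84) (nat_lit 748623950) (nat_lit 95) (nat_lit 5) (nat_lit 101) (nat_lit 5) (nat_lit 96) (nat_lit 5) (nat_lit 386) (nat_lit 347) (nat_lit 212)) (XT.lf (nat_lit 0) (nat_lit 10367391651) (nat_lit 504) (nat_lit 2894006387) (nat_lit 84) (nat_lit 7691069077) (nat_lit 95) (nat_lit 5) (nat_lit 101) (nat_lit 5) (nat_lit 96) (nat_lit 5) (nat_lit 387) (nat_lit 347) (nat_lit 211))) (XT.nd (nat_lit 55554) (nat_lit 0) (nat_lit 8484) (XT.lf (nat_lit 0) (nat_lit 6902187251) (nat_lit 420) (nat_lit 6444355422) (nat_lit 504) (nat_lit 8004443642) (nat_lit 90) (nat_lit 5) (nat_lit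 95) (nat_lit 5) (nat_lit 96) (nat_lit 5) (nat_lit 388) (nat_lit 347) (nat_lit 210)) (XT.lf (nat_lit 0) (nat_lit 2797649172) (nat_lit 0) (nat_lit 2797649172) (nat_lit 1092) (nat_lit 30020306) (nat_lit 191) (nat_lit 5) (nat_lit 191) (nat_lit 3) (nat_lit 204) (nat_lit 3) (nat_lit 348) (nat_lit 348) (nat_lit 249)))) (XT.nd (nat_lit 188) (nat_lit 0) (nat_lit 84) (XT.nd (nat_lit 94) (nat_lit 0) (nat_lit 84) (XT.lf (nat_lit 0) (nat_lit 446197121) (nat_lit 1260) (nat_lit 778415329) (nat_lit 1260) (nat_lit 10178656733) (nat_lit 176) (nat_lit 3) (nat_lit 191) (nat_lit 3) (nat_lit 191) (nat_lit 5) (nat_lit 349) (nat_lit 348) (nat_lit 248)) (XT.lf (nat_lit 0) (nat_lit 1020190729) (nat_lit 1176) (nat_lit 7273558961) (nat_lit 1260) (nat_lit 3265136963) (nat_lit 177) (nat_lit 5) (nat_lit 191) (nat_lit 5) (nat_lit 192) (nat_lit 5) (nat_lit 350) (nat_lit 348) (nat_lit 247))) (XT.nd (nat_lit 94) (nat_lit 0) (nat_lit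 84) (XT.lf (nat_lit 0) (nat_lit 1612287922) (nat_lit 1176) (nat_lit 2224990739) (nat_lit 1260) (nat_lit 7881904103) (nat_lit 177) (nat_lit 5) (nat_lit 191) (nat_lit 5) (nat_lit 192) (nat_lit 5) (nat_lit 351) (nat_lit 348) (nat_lit 246)) (XT.lf (nat_lit 0) (nat_lit 2240194810) (nat_lit 1176) (nat_lit 8868054897) (nat_lit 1260) (nat_lit 775532215) (nat_lit 178) (nat_lit 5) (nat_lit 192) (nat_lit 5) (nat_lit 193) (nat_lit 5) (nat_lit 352) (nat_lit 348) (nat_lit 245))))))))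
noncomputable def xc52 : XT := (XT.nd (nat_lit 2914) (nat_lit 1008) (nat_lit 0) (XT.nd (nat_lit 1410) (nat_lit 3864) (nat_lit 0) (XT.nd (nat_lit 658) (nat_lit 2100) (nat_lit 0) (XT.nd (nat_lit 282) (nat_lit 0) (nat_lit 84) (XT.nd (nat_lit 94) (nat_lit 0) (nat_lit 0) (XT.lf (nat_lit 0) (nat_lit 2929519142) (nat_lit 1176) (nat_lit 3642612713) (nat_lit 1260) (nat_lit 5479944320) (nat_lit 178) (nat_lit 5) (nat_lit 192) (nat_lit 5) (nat_lit 193) (nat_lit 5) (nat_lit 353) (nat_lit 348) (nat_lit 244)) (XT.nd (nat_lit 94) (nat_lit 0) (nat_lit 84) (XT.lf (nat_lit 84) (nat_lit 1763293326) (nat_lit 0) (nat_lit 1875603886) (nat_lit 1260) (nat_lit 8586574347) (nat_lit 179) (nat_lit 5) (nat_lit 178) (nat_lit 5) (nat_lit 193) (nat_lit 5) (nat_lit 354) (nat_lit 348) (nat_lit 243)) (XT.lf (nat_lit 0) (nat_lit 4418072130) (nat_lit 1176) (nat_lit 5036967034) (nat_lit 1260) (nat_lit 2947606722) (nat_lit 179) (nat_lit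 5) (nat_lit 193) (nat_lit 5) (nat_lit 194) (nat_lit 5) (nat_lit 355) (nat_lit 348) (nat_lit 242)))) (XT.nd (nat_lit 188) (nat_lit 0) (nat_lit 84) (XT.nd (nat_lit 94) (nat_lit 0) (nat_lit 84) (XT.lf (nat_lit 84) (nat_lit 531923256) (nat_lit 0) (nat_lit 4695777928) (nat_lit 1260) (nat_lit 7357253491) (nat_lit 180) (nat_lit 5) (nat_lit 179) (nat_lit 5) (nat_lit 194) (nat_lit 5) (nat_lit 356) (nat_lit 348) (nat_lit 241)) (XT.lf (nat_lit 0) (nat_lit 6098796635) (nat_lit 1176) (nat_lit 6413909660) (nat_lit 1260) (nat_lit 258941786) (nat_lit 180) (nat_lit 5) (nat_lit 194) (nat_lit 5) (nat_lit 195) (nat_lit 5) (nat_lit 357) (nat_lit 348) (nat_lit 240))) (XT.nd (nat_lit 94) (nat_lit 0) (nat_lit 0) (XT.lf (nat_lit 0) (nat_lit 7026816562) (nat_lit 1176) (nat_lit 663126196) (nat_lit 1260) (nat_lit 5273105568) (nat_lit 180) (nat_lit 5) (nat_lit 194) (nat_lit 5) (nat_lit 195) (nat_lit 5) (nat_lit 358) (nat_lit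 348) (nat_lit 239)) (XT.lf (nat_lit 84) (nat_lit 5353957616) (nat_lit 0) (nat_lit 2664941068) (nat_lit 1260) (nat_lit 5140234163) (nat_lit 181) (nat_lit 5) (nat_lit 180) (nat_lit 5) (nat_lit 195) (nat_lit 5) (nat_lit 359) (nat_lit 348) (nat_lit 238))))) (XT.nd (nat_lit 376) (nat_lit 2352) (nat_lit 0) (XT.nd (nat_lit 188) (nat_lit 0) (nat_lit 0) (XT.nd (nat_lit 94) (nat_lit 0) (nat_lit 0) (XT.lf (nat_lit 0) (nat_lit 9056780957) (nat_lit 1176) (nat_lit 1831063196) (nat_lit 1260) (nat_lit 2472802695) (nat_lit 181) (nat_lit 5) (nat_lit 195) (nat_lit 5) (nat_lit 196) (nat_lit 5) (nat_lit 360) (nat_lit 348) (nat_lit 237)) (XT.lf (nat_lit 84) (nat_lit 4370382319) (nat_lit 0) (nat_lit 5809386213) (nat_lit 1260) (nat_lit 3386845929) (nat_lit 182) (nat_lit 5) (nat_lit 181) (nat_lit 5) (nat_lit 196) (nat_lit 5) (nat_lit 361) (nat_lit 348) (nat_lit 236))) (XT.nd (nat_lit 94) (nat_lit 0) (nat_lit 84) (XT.lf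 (nat_lit 84) (nat_lit 10784725722) (nat_lit 0) (nat_lit 556100202) (nat_lit 1260) (nat_lit 2437830237) (nat_lit 182) (nat_lit 5) (nat_lit 181) (nat_lit 5) (nat_lit 196) (nat_lit 5) (nat_lit 362) (nat_lit 348) (nat_lit 235)) (XT.lf (nat_lit 84) (nat_lit 3403346643) (nat_lit 0) (nat_lit 9199083620) (nat_lit 1260) (nat_lit 1392683084) (nat_lit 183) (nat_lit 5) (nat_lit 182) (nat_lit 5) (nat_lit 197) (nat_lit 5) (nat_lit 363) (nat_lit 348) (nat_lit 234)))) (XT.nd (nat_lit 188) (nat_lit 1260) (nat_lit 0) (XT.nd (nat_lit 94) (nat_lit 1176) (nat_lit 0) (XT.lf (nat_lit 84) (nat_lit 10037567347) (nat_lit 0) (nat_lit 3886628100) (nat_lit 1260) (nat_lit 293224366) (nat_lit 183) (nat_lit 5) (nat_lit 182) (nat_lit 5) (nat_lit 197) (nat_lit 5) (nat_lit 364) (nat_lit 348) (nat_lit 233)) (XT.lf (nat_lit 0) (nat_lit 848866518) (nat_lit 1260) (nat_lit 12007913071) (nat_lit 84) (nat_lit 1588616645) (nat_lit 168)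 (nat_lit 5) (nat_lit 183) (nat_lit 5) (nat_lit 169) (nat_lit 5) (nat_lit 365) (nat_lit 348) (nat_lit 232))) (XT.nd (nat_lit 94) (nat_lit 1260) (nat_lit 0) (XT.lf (nat_lit 0) (nat_lit 2087601771) (nat_lit 1260) (nat_lit 5392755883) (nat_lit 84) (nat_lit 7197741772) (nat_lit 168) (nat_lit 5) (nat_lit 183) (nat_lit 5) (nat_lit 169) (nat_lit 5) (nat_lit 366) (nat_lit 348) (nat_lit 231)) (XT.lf (nat_lit 0) (nat_lit 1438212629) (nat_lit 1260) (nat_lit 1926652670) (nat_lit 1344) (nat_lit 11552899589) (nat_lit 153) (nat_lit 5) (nat_lit 168) (nat_lit 5) (nat_lit 169) (nat_lit 5) (nat_lit 367) (nat_lit 348) (nat_lit 230)))))) (XT.nd (nat_lit 752) (nat_lit 2100) (nat_lit 0) (XT.nd (nat_lit 376) (nat_lit 1176) (nat_lit 0) (XT.nd (nat_lit 188) (nat_lit 0) (nat_lit 0) (XT.nd (nat_lit 94) (nat_lit 588) (nat_lit 0) (XT.lf (nat_lit 0) (nat_lit 4759726701) (nat_lit 1344) (nat_lit 6626342305) (nat_lit 84) (nat_lit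 3776194428) (nat_lit 153) (nat_lit 5) (nat_lit 169) (nat_lit 5) (nat_lit 154) (nat_lit 5) (nat_lit 368) (nat_lit 348) (nat_lit 229)) (XT.lf (nat_lit 0) (nat_lit 410717416) (nat_lit 588) (nat_lit 5796912714) (nat_lit 672) (nat_lit 9206151810) (nat_lit 146) (nat_lit 5) (nat_lit 153) (nat_lit 5) (nat_lit 154) (nat_lit 5) (nat_lit 369) (nat_lit 348) (nat_lit 228))) (XT.nd (nat_lit 94) (nat_lit 0) (nat_lit 0) (XT.lf (nat_lit 0) (nat_lit 7754585735) (nat_lit 672) (nat_lit 7887351438) (nat_lit 84) (nat_lit 29260660) (nat_lit 146) (nat_lit 5) (nat_lit 154) (nat_lit 5) (nat_lit 147) (nat_lit 5) (nat_lit 370) (nat_lit 348) (nat_lit 227)) (XT.lf (nat_lit 0) (nat_lit 9394107116) (nat_lit 672) (nat_lit 626201028) (nat_lit 84) (nat_lit 5914663034) (nat_lit 146) (nat_lit 5) (nat_lit 154) (nat_lit 5) (nat_lit 147) (nat_lit 5) (nat_lit 371) (nat_lit 348) (nat_lit 226)))) (XT.nd (nat_lit 188) (nat_lit 588) (nat_lit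 0) (XT.nd (nat_lit 94) (nat_lit 0) (nat_lit 0) (XT.lf (nat_lit 0) (nat_lit 6978633137) (nat_lit 588) (nat_lit 4160353149) (nat_lit 672) (nat_lit 5066005393) (nat_lit 139) (nat_lit 5) (nat_lit 146) (nat_lit 5) (nat_lit 147) (nat_lit 5) (nat_lit 372) (nat_lit 348) (nat_lit 225)) (XT.lf (nat_lit 0) (nat_lit 12949938523) (nat_lit 672) (nat_lit 1687135876) (nat_lit 84) (nat_lit 1845645155) (nat_lit 139) (nat_lit 5) (nat_lit 147) (nat_lit 5) (nat_lit 140) (nat_lit 5) (nat_lit 373) (nat_lit 348) (nat_lit 224))) (XT.nd (nat_lit 94) (nat_lit 0) (nat_lit 0) (XT.lf (nat_lit 0) (nat_lit 6146753550) (nat_lit 588) (nat_lit 8758368199) (nat_lit 672) (nat_lit 1860978464) (nat_lit 132) (nat_lit 5) (nat_lit 139) (nat_lit 5) (nat_lit 140) (nat_lit 5) (nat_lit 374) (nat_lit 348) (nat_lit 223)) (XT.lf (nat_lit 0) (nat_lit 14240081309) (nat_lit 588) (nat_lit 2685744887) (nat_lit 672) (nat_lit 131967620) (nat_lit 132)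 (nat_lit 5) (nat_lit 139) (nat_lit 5) (nat_lit 140) (nat_lit 5) (nat_lit 375) (nat_lit 348) (nat_lit 222))))) (XT.nd (nat_lit 376) (nat_lit 924) (nat_lit 0) (XT.nd (nat_lit 188) (nat_lit 504) (nat_lit 0) (XT.nd (nat_lit 94) (nat_lit 0) (nat_lit 0) (XT.lf (nat_lit 0) (nat_lit 1692618401) (nat_lit 672) (nat_lit 12096150024) (nat_lit 84) (nat_lit 3566734350) (nat_lit 124) (nat_lit 5) (nat_lit 132) (nat_lit 5) (nat_lit 125) (nat_lit 5) (nat_lit 376) (nat_lit 348) (nat_lit 221)) (XT.lf (nat_lit 0) (nat_lit 3614820147) (nat_lit 672) (nat_lit 4063270392) (nat_lit 84) (nat_lit 9982663358) (nat_lit 124) (nat_lit 5) (nat_lit 132) (nat_lit 5) (nat_lit 125) (nat_lit 5) (nat_lit 377) (nat_lit 348) (nat_lit 220))) (XT.nd (nat_lit 94) (nat_lit 0) (nat_lit 0) (XT.lf (nat_lit 0) (nat_lit 4284204191) (nat_lit 504) (nat_lit 1342155410) (nat_lit 588) (nat_lit 12347868348) (nat_lit 118) (nat_lit 5) (nat_lit 124) (nat_lit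 5) (nat_lit 125) (nat_lit 5) (nat_lit 378) (nat_lit 348) (nat_lit 219)) (XT.lf (nat_lit 0) (nat_lit 7780178703) (nat_lit 588) (nat_lit 5390899140) (nat_lit 84) (nat_lit 5123585467) (nat_lit 118) (nat_lit 5) (nat_lit 125) (nat_lit 5) (nat_lit 119) (nat_lit 5) (nat_lit 379) (nat_lit 348) (nat_lit 218)))) (XT.nd (nat_lit 188) (nat_lit 420) (nat_lit 0) (XT.nd (nat_lit 94) (nat_lit 0) (nat_lit 0) (XT.lf (nat_lit 0) (nat_lit 3196397109) (nat_lit 504) (nat_lit 6837167272) (nat_lit 588) (nat_lit 8590113442) (nat_lit 112) (nat_lit 5) (nat_lit 118) (nat_lit 5) (nat_lit 119) (nat_lit 5) (nat_lit 380) (nat_lit 348) (nat_lit 217)) (XT.lf (nat_lit 0) (nat_lit 12142030660) (nat_lit 504) (nat_lit 258065941) (nat_lit 588) (nat_lit 6561114048) (nat_lit 112) (nat_lit 5) (nat_lit 118) (nat_lit 5) (nat_lit 119) (nat_lit 5) (nat_lit 381) (nat_lit 348) (nat_lit 216))) (XT.nd (nat_lit 94) (nat_lit 0) (nat_lit 0) (XT.lf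 (nat_lit 0) (nat_lit 2014036903) (nat_lit 420) (nat_lit 12896965061) (nat_lit 504) (nat_lit 4395679991) (nat_lit 107) (nat_lit 5) (nat_lit 112) (nat_lit 5) (nat_lit 113) (nat_lit 5) (nat_lit 382) (nat_lit 348) (nat_lit 215)) (XT.lf (nat_lit 0) (nat_lit 11239757583) (nat_lit 420) (nat_lit 6320384123) (nat_lit 504) (nat_lit 2100501886) (nat_lit 107) (nat_lit 5) (nat_lit 112) (nat_lit 5) (nat_lit 113) (nat_lit 5) (nat_lit 383) (nat_lit 348) (nat_lit 214))))))) (XT.nd (nat_lit 57152) (nat_lit 0) (nat_lit 3024) (XT.nd (nat_lit 56400) (nat_lit 0) (nat_lit 6972) (XT.nd (nat_lit 56024) (nat_lit 0) (nat_lit 6804) (XT.nd (nat_lit 188) (nat_lit 420) (nat_lit 0) (XT.nd (nat_lit 94) (nat_lit 0) (nat_lit 0) (XT.lf (nat_lit 0) (nat_lit 261410560) (nat_lit 588) (nat_lit 19310692189) (nat_lit 84) (nat_lit 452967327) (nat_lit 100) (nat_lit 5) (nat_lit 107) (nat_lit 5) (nat_lit 101) (nat_lit 5) (nat_lit 384) (nat_lit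 348) (nat_lit 213)) (XT.lf (nat_lit 0) (nat_lit 2792225456) (nat_lit 588) (nat_lit 10195497040) (nat_lit 84) (nat_lit 7407887328) (nat_lit 100) (nat_lit 5) (nat_lit 107) (nat_lit 5) (nat_lit 101) (nat_lit 5) (nat_lit 385) (nat_lit 348) (nat_lit 212))) (XT.nd (nat_lit 94) (nat_lit 420) (nat_lit 0) (XT.lf (nat_lit 0) (nat_lit 5391012040) (nat_lit 588) (nat_lit 816284186) (nat_lit 84) (nat_lit 14570220033) (nat_lit 100) (nat_lit 5) (nat_lit 107) (nat_lit 5) (nat_lit 101) (nat_lit 5) (nat_lit 386) (nat_lit 348) (nat_lit 211)) (XT.lf (nat_lit 0) (nat_lit 8154968492) (nat_lit 504) (nat_lit 12165854426) (nat_lit 84) (nat_lit 847452348) (nat_lit 95) (nat_lit 5) (nat_lit 101) (nat_lit 5) (nat_lit 96) (nat_lit 5) (nat_lit 387) (nat_lit 348) (nat_lit 210)))) (XT.nd (nat_lit 188) (nat_lit 0) (nat_lit 84) (XT.nd (nat_lit 94) (nat_lit 0) (nat_lit 0) (XT.lf (nat_lit 0) (nat_lit 470768130) (nat_lit 1260) (nat_lit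 2653664471) (nat_lit 1260) (nat_lit 2653664471) (nat_lit 176) (nat_lit 3) (nat_lit 191) (nat_lit 3) (nat_lit 191) (nat_lit 5) (nat_lit 349) (nat_lit 349) (nat_lit 247)) (XT.lf (nat_lit 0) (nat_lit 1432564913) (nat_lit 1260) (nat_lit 299752525) (nat_lit 1260) (nat_lit 9982001171) (nat_lit 176) (nat_lit 3) (nat_lit 191) (nat_lit 3) (nat_lit 191) (nat_lit 5) (nat_lit 350) (nat_lit 349) (nat_lit 246))) (XT.nd (nat_lit 94) (nat_lit 0) (nat_lit 0) (XT.lf (nat_lit 0) (nat_lit 1995869371) (nat_lit 1176) (nat_lit 6960036466) (nat_lit 1260) (nat_lit 2919590186) (nat_lit 177) (nat_lit 5) (nat_lit 191) (nat_lit 5) (nat_lit 192) (nat_lit 5) (nat_lit 351) (nat_lit 349) (nat_lit 245)) (XT.lf (nat_lit 0) (nat_lit 2578203084) (nat_lit 1176) (nat_lit 1775498458) (nat_lit 1260) (nat_lit 7687777842) (nat_lit 177) (nat_lit 5) (nat_lit 191) (nat_lit 5) (nat_lit 192) (nat_lit 5) (nat_lit 352) (nat_lit 349) (nat_lit 244)))))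 (XT.nd (nat_lit 376) (nat_lit 0) (nat_lit 84) (XT.nd (nat_lit 188) (nat_lit 0) (nat_lit 0) (XT.nd (nat_lit 94) (nat_lit 0) (nat_lit 0) (XT.lf (nat_lit 0) (nat_lit 3199439729) (nat_lit 1176) (nat_lit 8590645666) (nat_lit 1260) (nat_lit 421747388) (nat_lit 178) (nat_lit 5) (nat_lit 192) (nat_lit 5) (nat_lit 193) (nat_lit 5) (nat_lit 353) (nat_lit 349) (nat_lit 243)) (XT.lf (nat_lit 0) (nat_lit 3883462070) (nat_lit 1176) (nat_lit 3224268884) (nat_lit 1260) (nat_lit 5278273918) (nat_lit 178) (nat_lit 5) (nat_lit 192) (nat_lit 5) (nat_lit 193) (nat_lit 5) (nat_lit 354) (nat_lit 349) (nat_lit 242))) (XT.nd (nat_lit 94) (nat_lit 0) (nat_lit 84) (XT.lf (nat_lit 84) (nat_lit 2338641570) (nat_lit 0) (nat_lit 2255277045) (nat_lit 1260) (nat_lit 7971337701) (nat_lit 179) (nat_lit 5) (nat_lit 178) (nat_lit 5) (nat_lit 193) (nat_lit 5) (nat_lit 355) (nat_lit 349) (nat_lit 241)) (XT.lf (nat_lit 0) (nat_lit 5368814022)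 (nat_lit 1176) (nat_lit 4651631772) (nat_lit 1260) (nat_lit 2728176433) (nat_lit 179) (nat_lit 5) (nat_lit 193) (nat_lit 5) (nat_lit 194) (nat_lit 5) (nat_lit 356) (nat_lit 349) (nat_lit 240)))) (XT.nd (nat_lit 188) (nat_lit 0) (nat_lit 84) (XT.nd (nat_lit 94) (nat_lit 0) (nat_lit 84) (XT.lf (nat_lit 84) (nat_lit 1079065969) (nat_lit 0) (nat_lit 5104940993) (nat_lit 1260) (nat_lit 6753000418) (nat_lit 180) (nat_lit 5) (nat_lit 179) (nat_lit 5) (nat_lit 194) (nat_lit 5) (nat_lit 357) (nat_lit 349) (nat_lit 239)) (XT.lf (nat_lit 0) (nat_lit 7055445755) (nat_lit 1176) (nat_lit 6063356158) (nat_lit 1260) (nat_lit 11317391) (nat_lit 180) (nat_lit 5) (nat_lit 194) (nat_lit 5) (nat_lit 195) (nat_lit 5) (nat_lit 358) (nat_lit 349) (nat_lit 238))) (XT.nd (nat_lit 94) (nat_lit 0) (nat_lit 0) (XT.lf (nat_lit 0) (nat_lit 7988771759) (nat_lit 1176) (nat_lit 155863873) (nat_lit 1260) (nat_lit 5183344707) (nat_lit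 180) (nat_lit 5) (nat_lit 194) (nat_lit 5) (nat_lit 195) (nat_lit 5) (nat_lit 359) (nat_lit 349) (nat_lit 237)) (XT.lf (nat_lit 84) (nat_lit 6036564256) (nat_lit 0) (nat_lit 2957191579) (nat_lit 1260) (nat_lit 4536738877) (nat_lit 181) (nat_lit 5) (nat_lit 180) (nat_lit 5) (nat_lit 195) (nat_lit 5) (nat_lit 360) (nat_lit 349) (nat_lit 236)))))) (XT.nd (nat_lit 752) (nat_lit 1848) (nat_lit 0) (XT.nd (nat_lit 376) (nat_lit 2352) (nat_lit 0) (XT.nd (nat_lit 188) (nat_lit 0) (nat_lit 0) (XT.nd (nat_lit 94) (nat_lit 0) (nat_lit 0) (XT.lf (nat_lit 0) (nat_lit 10039406145) (nat_lit 1176) (nat_lit 1354499159) (nat_lit 1260) (nat_lit 2344890176) (nat_lit 181) (nat_lit 5) (nat_lit 195) (nat_lit 5) (nat_lit 196) (nat_lit 5) (nat_lit 361) (nat_lit 349) (nat_lit 235)) (XT.lf (nat_lit 84) (nat_lit 5027778976) (nat_lit 0) (nat_lit 6152656887) (nat_lit 1260) (nat_lit 2771014803) (nat_lit 182) (nat_lit 5) (nat_lit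 181) (nat_lit 5) (nat_lit 196) (nat_lit 5) (nat_lit 362) (nat_lit 349) (nat_lit 234))) (XT.nd (nat_lit 94) (nat_lit 0) (nat_lit 84) (XT.lf (nat_lit 84) (nat_lit 11619223987) (nat_lit 0) (nat_lit 736850283) (nat_lit 1260) (nat_lit 1814424849) (nat_lit 182) (nat_lit 5) (nat_lit 181) (nat_lit 5) (nat_lit 196) (nat_lit 5) (nat_lit 363) (nat_lit 349) (nat_lit 233)) (XT.lf (nat_lit 84) (nat_lit 4034261588) (nat_lit 0) (nat_lit 9605156382) (nat_lit 1260) (nat_lit 754552189) (nat_lit 183) (nat_lit 5) (nat_lit 182) (nat_lit 5) (nat_lit 197) (nat_lit 5) (nat_lit 364) (nat_lit 349) (nat_lit 232)))) (XT.nd (nat_lit 188) (nat_lit 1176) (nat_lit 0) (XT.nd (nat_lit 94) (nat_lit 0) (nat_lit 84) (XT.lf (nat_lit 0) (nat_lit 351099478) (nat_lit 1260) (nat_lit 3774892974) (nat_lit 1344) (nat_lit 10497461652) (nat_lit 167) (nat_lit 5) (nat_lit 182) (nat_lit 5) (nat_lit 183) (nat_lit 5) (nat_lit 365) (nat_lit 349) (nat_lit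 231)) (XT.lf (nat_lit 0) (nat_lit 1506660668) (nat_lit 1260) (nat_lit 11824674865) (nat_lit 84) (nat_lit 1527327901) (nat_lit 168) (nat_lit 5) (nat_lit 183) (nat_lit 5) (nat_lit 169) (nat_lit 5) (nat_lit 366) (nat_lit 349) (nat_lit 230))) (XT.nd (nat_lit 94) (nat_lit 1260) (nat_lit 0) (XT.lf (nat_lit 0) (nat_lit 2764140654) (nat_lit 1260) (nat_lit 5026892348) (nat_lit 84) (nat_lit 7307900002) (nat_lit 168) (nat_lit 5) (nat_lit 183) (nat_lit 5) (nat_lit 169) (nat_lit 5) (nat_lit 367) (nat_lit 349) (nat_lit 229)) (XT.lf (nat_lit 0) (nat_lit 2003832217) (nat_lit 1260) (nat_lit 2063031305) (nat_lit 1344) (nat_lit 11279342474) (nat_lit 153) (nat_lit 5) (nat_lit 168) (nat_lit 5) (nat_lit 169) (nat_lit 5) (nat_lit 368) (nat_lit 349) (nat_lit 228))))) (XT.nd (nat_lit 376) (nat_lit 1260) (nat_lit 0) (XT.nd (nat_lit 188) (nat_lit 0) (nat_lit 0) (XT.nd (nat_lit 94) (nat_lit 588) (nat_lit 0) (XT.lf (nat_lit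 0) (nat_lit 5485331040) (nat_lit 1344) (nat_lit 6298607916) (nat_lit 84) (nat_lit 3814678616) (nat_lit 153) (nat_lit 5) (nat_lit 169) (nat_lit 5) (nat_lit 154) (nat_lit 5) (nat_lit 369) (nat_lit 349) (nat_lit 227)) (XT.lf (nat_lit 0) (nat_lit 944401590) (nat_lit 588) (nat_lit 6020306516) (nat_lit 672) (nat_lit 8893362413) (nat_lit 146) (nat_lit 5) (nat_lit 153) (nat_lit 5) (nat_lit 154) (nat_lit 5) (nat_lit 370) (nat_lit 349) (nat_lit 226))) (XT.nd (nat_lit 94) (nat_lit 0) (nat_lit 0) (XT.lf (nat_lit 0) (nat_lit 8523843458) (nat_lit 588) (nat_lit 17306773) (nat_lit 672) (nat_lit 7582595430) (nat_lit 146) (nat_lit 5) (nat_lit 153) (nat_lit 5) (nat_lit 154) (nat_lit 5) (nat_lit 371) (nat_lit 349) (nat_lit 225)) (XT.lf (nat_lit 0) (nat_lit 10213561943) (nat_lit 672) (nat_lit 136019932) (nat_lit 84) (nat_lit 6046367454) (nat_lit 146) (nat_lit 5) (nat_lit 154) (nat_lit 5) (nat_lit 147) (nat_lit 5) (nat_lit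 372) (nat_lit 349) (nat_lit 224)))) (XT.nd (nat_lit 188) (nat_lit 672) (nat_lit 0) (XT.nd (nat_lit 94) (nat_lit 0) (nat_lit 0) (XT.lf (nat_lit 0) (nat_lit 7691969385) (nat_lit 588) (nat_lit 4308003467) (nat_lit 672) (nat_lit 4674449469) (nat_lit 139) (nat_lit 5) (nat_lit 146) (nat_lit 5) (nat_lit 147) (nat_lit 5) (nat_lit 373) (nat_lit 349) (nat_lit 223)) (XT.lf (nat_lit 0) (nat_lit 13849696318) (nat_lit 672) (nat_lit 1232006348) (nat_lit 84) (nat_lit 1879272724) (nat_lit 139) (nat_lit 5) (nat_lit 147) (nat_lit 5) (nat_lit 140) (nat_lit 5) (nat_lit 374) (nat_lit 349) (nat_lit 222))) (XT.nd (nat_lit 94) (nat_lit 84) (nat_lit 0) (XT.lf (nat_lit 0) (nat_lit 6831941490) (nat_lit 588) (nat_lit 9021516349) (nat_lit 672) (nat_lit 1399727811) (nat_lit 132) (nat_lit 5) (nat_lit 139) (nat_lit 5) (nat_lit 140) (nat_lit 5) (nat_lit 375) (nat_lit 349) (nat_lit 221)) (XT.lf (nat_lit 0) (nat_lit 358948986) (nat_lit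 672) (nat_lit 2404129104) (nat_lit 84) (nat_lit 14790909434) (nat_lit 131) (nat_lit 5) (nat_lit 139) (nat_lit 5) (nat_lit 132) (nat_lit 5) (nat_lit 376) (nat_lit 349) (nat_lit 220))))))))
noncomputable def xc53 : XT := (XT.nd (nat_lit 58656) (nat_lit 0) (nat_lit 0) (XT.nd (nat_lit 57152) (nat_lit 0) (nat_lit 4452) (XT.nd (nat_lit 658) (nat_lit 588) (nat_lit 0) (XT.nd (nat_lit 282) (nat_lit 924) (nat_lit 0) (XT.nd (nat_lit 94) (nat_lit 504) (nat_lit 0) (XT.lf (nat_lit 0) (nat_lit 2226101985) (nat_lit 672) (nat_lit 11951919230) (nat_lit 84) (nat_lit 3682876551) (nat_lit 124) (nat_lit 5) (nat_lit 132) (nat_lit 5) (nat_lit 125) (nat_lit 5) (nat_lit 377) (nat_lit 349) (nat_lit 219)) (XT.nd (nat_lit 94) (nat_lit 504) (nat_lit 0) (XT.lf (nat_lit 0) (nat_lit 4191910414) (nat_lit 672) (nat_lit 3692823557) (nat_lit 84) (nat_lit 10291017211) (nat_lit 124) (nat_lit 5) (nat_lit 132) (nat_lit 5) (nat_lit 125)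 (nat_lit 5) (nat_lit 378) (nat_lit 349) (nat_lit 218)) (XT.lf (nat_lit 0) (nat_lit 4900248352) (nat_lit 504) (nat_lit 1354584147) (nat_lit 588) (nat_lit 12244088172) (nat_lit 118) (nat_lit 5) (nat_lit 124) (nat_lit 5) (nat_lit 125) (nat_lit 5) (nat_lit 379) (nat_lit 349) (nat_lit 217)))) (XT.nd (nat_lit 188) (nat_lit 420) (nat_lit 0) (XT.nd (nat_lit 94) (nat_lit 504) (nat_lit 0) (XT.lf (nat_lit 0) (nat_lit 8460137158) (nat_lit 588) (nat_lit 5065456623) (nat_lit 84) (nat_lit 5303790842) (nat_lit 118) (nat_lit 5) (nat_lit 125) (nat_lit 5) (nat_lit 119) (nat_lit 5) (nat_lit 380) (nat_lit 349) (nat_lit 216)) (XT.lf (nat_lit 0) (nat_lit 3774682342) (nat_lit 504) (nat_lit 6998072723) (nat_lit 588) (nat_lit 8395786616) (nat_lit 112) (nat_lit 5) (nat_lit 118) (nat_lit 5) (nat_lit 119) (nat_lit 5) (nat_lit 381) (nat_lit 349) (nat_lit 215))) (XT.nd (nat_lit 94) (nat_lit 420) (nat_lit 0) (XT.lf (nat_lit 0)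 (nat_lit 12974634608) (nat_lit 504) (nat_lit 222886009) (nat_lit 588) (nat_lit 6319083169) (nat_lit 112) (nat_lit 5) (nat_lit 118) (nat_lit 5) (nat_lit 119) (nat_lit 5) (nat_lit 382) (nat_lit 349) (nat_lit 214)) (XT.lf (nat_lit 0) (nat_lit 2551112279) (nat_lit 420) (nat_lit 13225232422) (nat_lit 504) (nat_lit 4096336605) (nat_lit 107) (nat_lit 5) (nat_lit 112) (nat_lit 5) (nat_lit 113) (nat_lit 5) (nat_lit 383) (nat_lit 349) (nat_lit 213))))) (XT.nd (nat_lit 56118) (nat_lit 0) (nat_lit 6384) (XT.nd (nat_lit 188) (nat_lit 0) (nat_lit 0) (XT.nd (nat_lit 94) (nat_lit 588) (nat_lit 0) (XT.lf (nat_lit 0) (nat_lit 12039721445) (nat_lit 420) (nat_lit 6453062064) (nat_lit 504) (nat_lit 1744862782) (nat_lit 107) (nat_lit 5) (nat_lit 112) (nat_lit 5) (nat_lit 113) (nat_lit 5) (nat_lit 384) (nat_lit 349) (nat_lit 212)) (XT.lf (nat_lit 0) (nat_lit 672884703) (nat_lit 588) (nat_lit 19410992029) (nat_lit 84)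 (nat_lit 529231835) (nat_lit 100) (nat_lit 5) (nat_lit 107) (nat_lit 5) (nat_lit 101) (nat_lit 5) (nat_lit 385) (nat_lit 349) (nat_lit 211))) (XT.nd (nat_lit 94) (nat_lit 0) (nat_lit 0) (XT.lf (nat_lit 0) (nat_lit 3267867778) (nat_lit 588) (nat_lit 10036293091) (nat_lit 84) (nat_lit 7690973936) (nat_lit 100) (nat_lit 5) (nat_lit 107) (nat_lit 5) (nat_lit 101) (nat_lit 5) (nat_lit 386) (nat_lit 349) (nat_lit 210)) (XT.lf (nat_lit 0) (nat_lit 5933204109) (nat_lit 588) (nat_lit 389249546) (nat_lit 84) (nat_lit 15066404293) (nat_lit 100) (nat_lit 5) (nat_lit 107) (nat_lit 5) (nat_lit 101) (nat_lit 5) (nat_lit 387) (nat_lit 349) (nat_lit 209)))) (XT.nd (nat_lit 188) (nat_lit 0) (nat_lit 84) (XT.nd (nat_lit 94) (nat_lit 0) (nat_lit 0) (XT.lf (nat_lit 0) (nat_lit 957212474) (nat_lit 1260) (nat_lit 2489577675) (nat_lit 1260) (nat_lit 2489577675) (nat_lit 176) (nat_lit 3) (nat_lit 191) (nat_lit 3) (nat_lit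 191) (nat_lit 5) (nat_lit 350) (nat_lit 350) (nat_lit 245)) (XT.lf (nat_lit 84) (nat_lit 167725358) (nat_lit 0) (nat_lit 2226557520) (nat_lit 1260) (nat_lit 9642150593) (nat_lit 177) (nat_lit 5) (nat_lit 176) (nat_lit 3) (nat_lit 191) (nat_lit 5) (nat_lit 351) (nat_lit 350) (nat_lit 244))) (XT.nd (nat_lit 94) (nat_lit 0) (nat_lit 0) (XT.lf (nat_lit 0) (nat_lit 2946567321) (nat_lit 1176) (nat_lit 6667631732) (nat_lit 1260) (nat_lit 2589135772) (nat_lit 177) (nat_lit 5) (nat_lit 191) (nat_lit 5) (nat_lit 192) (nat_lit 5) (nat_lit 352) (nat_lit 350) (nat_lit 243)) (XT.lf (nat_lit 0) (nat_lit 3520424778) (nat_lit 1176) (nat_lit 1342155812) (nat_lit 1260) (nat_lit 7512545041) (nat_lit 177) (nat_lit 5) (nat_lit 191) (nat_lit 5) (nat_lit 192) (nat_lit 5) (nat_lit 353) (nat_lit 350) (nat_lit 242)))))) (XT.nd (nat_lit 752) (nat_lit 2100) (nat_lit 0) (XT.nd (nat_lit 376) (nat_lit 0) (nat_lit 84) (XT.nd (nat_lit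 188) (nat_lit 0) (nat_lit 0) (XT.nd (nat_lit 94) (nat_lit 0) (nat_lit 0) (XT.lf (nat_lit 0) (nat_lit 4136255304) (nat_lit 1176) (nat_lit 8336110463) (nat_lit 1260) (nat_lit 78993273) (nat_lit 178) (nat_lit 5) (nat_lit 192) (nat_lit 5) (nat_lit 193) (nat_lit 5) (nat_lit 354) (nat_lit 350) (nat_lit 241)) (XT.lf (nat_lit 0) (nat_lit 4816308052) (nat_lit 1176) (nat_lit 2823662413) (nat_lit 1260) (nat_lit 5091567246) (nat_lit 178) (nat_lit 5) (nat_lit 192) (nat_lit 5) (nat_lit 193) (nat_lit 5) (nat_lit 355) (nat_lit 350) (nat_lit 240))) (XT.nd (nat_lit 94) (nat_lit 0) (nat_lit 84) (XT.lf (nat_lit 84) (nat_lit 2901259525) (nat_lit 0) (nat_lit 2627775626) (nat_lit 1260) (nat_lit 7387748191) (nat_lit 179) (nat_lit 5) (nat_lit 178) (nat_lit 5) (nat_lit 193) (nat_lit 5) (nat_lit 356) (nat_lit 350) (nat_lit 239)) (XT.lf (nat_lit 0) (nat_lit 6301110158) (nat_lit 1176) (nat_lit 4285530548) (nat_lit 1260) (nat_lit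 2519835573) (nat_lit 179) (nat_lit 5) (nat_lit 193) (nat_lit 5) (nat_lit 194) (nat_lit 5) (nat_lit 357) (nat_lit 350) (nat_lit 238)))) (XT.nd (nat_lit 188) (nat_lit 0) (nat_lit 84) (XT.nd (nat_lit 94) (nat_lit 0) (nat_lit 0) (XT.lf (nat_lit 84) (nat_lit 1612130771) (nat_lit 0) (nat_lit 5510978023) (nat_lit 1260) (nat_lit 6177976444) (nat_lit 180) (nat_lit 5) (nat_lit 179) (nat_lit 5) (nat_lit 194) (nat_lit 5) (nat_lit 358) (nat_lit 350) (nat_lit 237)) (XT.lf (nat_lit 84) (nat_lit 7764993289) (nat_lit 0) (nat_lit 233634197) (nat_lit 1260) (nat_lit 5502066432) (nat_lit 180) (nat_lit 5) (nat_lit 179) (nat_lit 5) (nat_lit 194) (nat_lit 5) (nat_lit 359) (nat_lit 350) (nat_lit 236))) (XT.nd (nat_lit 94) (nat_lit 0) (nat_lit 0) (XT.lf (nat_lit 84) (nat_lit 343049534) (nat_lit 0) (nat_lit 8596714556) (nat_lit 1260) (nat_lit 4765372663) (nat_lit 181) (nat_lit 5) (nat_lit 180) (nat_lit 5) (nat_lit 195) (nat_lit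 5) (nat_lit 360) (nat_lit 350) (nat_lit 235)) (XT.lf (nat_lit 84) (nat_lit 6709684854) (nat_lit 0) (nat_lit 3246022587) (nat_lit 1260) (nat_lit 3958633945) (nat_lit 181) (nat_lit 5) (nat_lit 180) (nat_lit 5) (nat_lit 195) (nat_lit 5) (nat_lit 361) (nat_lit 350) (nat_lit 234))))) (XT.nd (nat_lit 376) (nat_lit 2352) (nat_lit 0) (XT.nd (nat_lit 188) (nat_lit 0) (nat_lit 0) (XT.nd (nat_lit 94) (nat_lit 0) (nat_lit 0) (XT.lf (nat_lit 0) (nat_lit 11010700271) (nat_lit 1176) (nat_lit 894148242) (nat_lit 1260) (nat_lit 2224741453) (nat_lit 181) (nat_lit 5) (nat_lit 195) (nat_lit 5) (nat_lit 196) (nat_lit 5) (nat_lit 362) (nat_lit 350) (nat_lit 233)) (XT.lf (nat_lit 84) (nat_lit 5674686611) (nat_lit 0) (nat_lit 6496525016) (nat_lit 1260) (nat_lit 2177892534) (nat_lit 182) (nat_lit 5) (nat_lit 181) (nat_lit 5) (nat_lit 196) (nat_lit 5) (nat_lit 363) (nat_lit 350) (nat_lit 232))) (XT.nd (nat_lit 94) (nat_lit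 0) (nat_lit 84) (XT.lf (nat_lit 84) (nat_lit 12449426207) (nat_lit 0) (nat_lit 913604746) (nat_lit 1260) (nat_lit 1212301562) (nat_lit 182) (nat_lit 5) (nat_lit 181) (nat_lit 5) (nat_lit 196) (nat_lit 5) (nat_lit 364) (nat_lit 350) (nat_lit 231)) (XT.lf (nat_lit 84) (nat_lit 4653747862) (nat_lit 0) (nat_lit 10015943041) (nat_lit 1260) (nat_lit 136307062) (nat_lit 183) (nat_lit 5) (nat_lit 182) (nat_lit 5) (nat_lit 197) (nat_lit 5) (nat_lit 365) (nat_lit 350) (nat_lit 230)))) (XT.nd (nat_lit 188) (nat_lit 1176) (nat_lit 0) (XT.nd (nat_lit 94) (nat_lit 0) (nat_lit 84) (XT.lf (nat_lit 0) (nat_lit 971706037) (nat_lit 1260) (nat_lit 3390965803) (nat_lit 1344) (nat_lit 10680091600) (nat_lit 167) (nat_lit 5) (nat_lit 182) (nat_lit 5) (nat_lit 183) (nat_lit 5) (nat_lit 366) (nat_lit 350) (nat_lit 229)) (XT.lf (nat_lit 0) (nat_lit 2147890420) (nat_lit 1260) (nat_lit 11667137236) (nat_lit 84) (nat_lit 1470454512)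 (nat_lit 168) (nat_lit 5) (nat_lit 183) (nat_lit 5) (nat_lit 169) (nat_lit 5) (nat_lit 367) (nat_lit 350) (nat_lit 228))) (XT.nd (nat_lit 94) (nat_lit 1260) (nat_lit 0) (XT.lf (nat_lit 0) (nat_lit 3425734710) (nat_lit 1260) (nat_lit 4680341958) (nat_lit 84) (nat_lit 7427434841) (nat_lit 168) (nat_lit 5) (nat_lit 183) (nat_lit 5) (nat_lit 169) (nat_lit 5) (nat_lit 368) (nat_lit 350) (nat_lit 227)) (XT.lf (nat_lit 0) (nat_lit 2556428293) (nat_lit 1260) (nat_lit 2198990540) (nat_lit 1344) (nat_lit 11033177453) (nat_lit 153) (nat_lit 5) (nat_lit 168) (nat_lit 5) (nat_lit 169) (nat_lit 5) (nat_lit 369) (nat_lit 350) (nat_lit 226))))))) (XT.nd (nat_lit 1504) (nat_lit 588) (nat_lit 0) (XT.nd (nat_lit 752) (nat_lit 2016) (nat_lit 0) (XT.nd (nat_lit 376) (nat_lit 672) (nat_lit 0) (XT.nd (nat_lit 188) (nat_lit 588) (nat_lit 0) (XT.nd (nat_lit 94) (nat_lit 588) (nat_lit 0) (XT.lf (nat_lit 0) (nat_lit 6199247685)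 (nat_lit 1344) (nat_lit 5991266164) (nat_lit 84) (nat_lit 3858611250) (nat_lit 153) (nat_lit 5) (nat_lit 169) (nat_lit 5) (nat_lit 154) (nat_lit 5) (nat_lit 370) (nat_lit 350) (nat_lit 225)) (XT.lf (nat_lit 0) (nat_lit 1464167941) (nat_lit 588) (nat_lit 6247561408) (nat_lit 672) (nat_lit 8604998848) (nat_lit 146) (nat_lit 5) (nat_lit 153) (nat_lit 5) (nat_lit 154) (nat_lit 5) (nat_lit 371) (nat_lit 350) (nat_lit 224))) (XT.nd (nat_lit 94) (nat_lit 588) (nat_lit 0) (XT.lf (nat_lit 0) (nat_lit 9256679445) (nat_lit 588) (nat_lit 63113060) (nat_lit 672) (nat_lit 7271078693) (nat_lit 146) (nat_lit 5) (nat_lit 153) (nat_lit 5) (nat_lit 154) (nat_lit 5) (nat_lit 372) (nat_lit 350) (nat_lit 223)) (XT.lf (nat_lit 0) (nat_lit 346409498) (nat_lit 588) (nat_lit 10683658561) (nat_lit 672) (nat_lit 5841568810) (nat_lit 139) (nat_lit 5) (nat_lit 146) (nat_lit 5) (nat_lit 147) (nat_lit 5) (nat_lit 373) (nat_lit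 350) (nat_lit 222)))) (XT.nd (nat_lit 188) (nat_lit 672) (nat_lit 0) (XT.nd (nat_lit 94) (nat_lit 0) (nat_lit 0) (XT.lf (nat_lit 0) (nat_lit 8397775364) (nat_lit 588) (nat_lit 4458772202) (nat_lit 672) (nat_lit 4302348061) (nat_lit 139) (nat_lit 5) (nat_lit 146) (nat_lit 5) (nat_lit 147) (nat_lit 5) (nat_lit 374) (nat_lit 350) (nat_lit 221)) (XT.lf (nat_lit 0) (nat_lit 14747098452) (nat_lit 672) (nat_lit 792254687) (nat_lit 84) (nat_lit 1915157188) (nat_lit 139) (nat_lit 5) (nat_lit 147) (nat_lit 5) (nat_lit 140) (nat_lit 5) (nat_lit 375) (nat_lit 350) (nat_lit 220))) (XT.nd (nat_lit 94) (nat_lit 84) (nat_lit 0) (XT.lf (nat_lit 0) (nat_lit 7508937940) (nat_lit 588) (nat_lit 9292536148) (nat_lit 672) (nat_lit 954322146) (nat_lit 132) (nat_lit 5) (nat_lit 139) (nat_lit 5) (nat_lit 140) (nat_lit 5) (nat_lit 376) (nat_lit 350) (nat_lit 219)) (XT.lf (nat_lit 0) (nat_lit 833685046) (nat_lit 672) (nat_lit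 2007963629) (nat_lit 84) (nat_lit 15224273483) (nat_lit 131) (nat_lit 5) (nat_lit 139) (nat_lit 5) (nat_lit 132) (nat_lit 5) (nat_lit 377) (nat_lit 350) (nat_lit 218))))) (XT.nd (nat_lit 376) (nat_lit 924) (nat_lit 0) (XT.nd (nat_lit 188) (nat_lit 504) (nat_lit 0) (XT.nd (nat_lit 94) (nat_lit 0) (nat_lit 0) (XT.lf (nat_lit 0) (nat_lit 2747880833) (nat_lit 672) (nat_lit 11832472004) (nat_lit 84) (nat_lit 3801978335) (nat_lit 124) (nat_lit 5) (nat_lit 132) (nat_lit 5) (nat_lit 125) (nat_lit 5) (nat_lit 378) (nat_lit 350) (nat_lit 217)) (XT.lf (nat_lit 0) (nat_lit 4759411211) (nat_lit 672) (nat_lit 3339525931) (nat_lit 84) (nat_lit 10608112278) (nat_lit 124) (nat_lit 5) (nat_lit 132) (nat_lit 5) (nat_lit 125) (nat_lit 5) (nat_lit 379) (nat_lit 350) (nat_lit 216))) (XT.nd (nat_lit 94) (nat_lit 0) (nat_lit 0) (XT.lf (nat_lit 0) (nat_lit 5506788309) (nat_lit 504) (nat_lit 1368983642) (nat_lit 588) (nat_lit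 12164416542) (nat_lit 118) (nat_lit 5) (nat_lit 124) (nat_lit 5) (nat_lit 125) (nat_lit 5) (nat_lit 380) (nat_lit 350) (nat_lit 215)) (XT.lf (nat_lit 0) (nat_lit 9134860392) (nat_lit 588) (nat_lit 4758216352) (nat_lit 84) (nat_lit 5487881297) (nat_lit 118) (nat_lit 5) (nat_lit 125) (nat_lit 5) (nat_lit 119) (nat_lit 5) (nat_lit 381) (nat_lit 350) (nat_lit 214)))) (XT.nd (nat_lit 188) (nat_lit 420) (nat_lit 0) (XT.nd (nat_lit 94) (nat_lit 0) (nat_lit 0) (XT.lf (nat_lit 0) (nat_lit 4342624782) (nat_lit 504) (nat_lit 7166343148) (nat_lit 588) (nat_lit 8221578370) (nat_lit 112) (nat_lit 5) (nat_lit 118) (nat_lit 5) (nat_lit 119) (nat_lit 5) (nat_lit 382) (nat_lit 350) (nat_lit 213)) (XT.lf (nat_lit 0) (nat_lit 13805331870) (nat_lit 504) (nat_lit 189114573) (nat_lit 588) (nat_lit 6094983970) (nat_lit 112) (nat_lit 5) (nat_lit 118) (nat_lit 5) (nat_lit 119) (nat_lit 5) (nat_lit 383) (nat_lit 350) (nat_lit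 212))) (XT.nd (nat_lit 94) (nat_lit 0) (nat_lit 0) (XT.lf (nat_lit 0) (nat_lit 3076938012) (nat_lit 420) (nat_lit 13566714072) (nat_lit 504) (nat_lit 3812766353) (nat_lit 107) (nat_lit 5) (nat_lit 112) (nat_lit 5) (nat_lit 113) (nat_lit 5) (nat_lit 384) (nat_lit 350) (nat_lit 211)) (XT.lf (nat_lit 0) (nat_lit 12837119268) (nat_lit 420) (nat_lit 6592988564) (nat_lit 504) (nat_lit 1402586966) (nat_lit 107) (nat_lit 5) (nat_lit 112) (nat_lit 5) (nat_lit 113) (nat_lit 5) (nat_lit 385) (nat_lit 350) (nat_lit 210)))))) (XT.nd (nat_lit 56588) (nat_lit 0) (nat_lit 6552) (XT.nd (nat_lit 56212) (nat_lit 0) (nat_lit 6468) (XT.nd (nat_lit 56024) (nat_lit 0) (nat_lit 6384) (XT.nd (nat_lit 94) (nat_lit 0) (nat_lit 0) (XT.lf (nat_lit 0) (nat_lit 1073532951) (nat_lit 588) (nat_lit 19541798624) (nat_lit 84) (nat_lit 604186449) (nat_lit 100) (nat_lit 5) (nat_lit 107) (nat_lit 5) (nat_lit 101) (nat_lit 5) (nat_lit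 386) (nat_lit 350) (nat_lit 209)) (XT.lf (nat_lit 0) (nat_lit 3735284110) (nat_lit 588) (nat_lit 9899009879) (nat_lit 84) (nat_lit 7979060104) (nat_lit 100) (nat_lit 5) (nat_lit 107) (nat_lit 5) (nat_lit 101) (nat_lit 5) (nat_lit 387) (nat_lit 350) (nat_lit 208))) (XT.nd (nat_lit 94) (nat_lit 0) (nat_lit 0) (XT.lf (nat_lit 0) (nat_lit 1431136974) (nat_lit 1260) (nat_lit 2334557465) (nat_lit 1260) (nat_lit 2334557465) (nat_lit 176) (nat_lit 3) (nat_lit 191) (nat_lit 3) (nat_lit 191) (nat_lit 5) (nat_lit 351) (nat_lit 351) (nat_lit 243)) (XT.lf (nat_lit 84) (nat_lit 627668131) (nat_lit 0) (nat_lit 2707297914) (nat_lit 1260) (nat_lit 9034842922) (nat_lit 177) (nat_lit 5) (nat_lit 176) (nat_lit 3) (nat_lit 191) (nat_lit 5) (nat_lit 352) (nat_lit 351) (nat_lit 242)))) (XT.nd (nat_lit 188) (nat_lit 0) (nat_lit 0) (XT.nd (nat_lit 94) (nat_lit 0) (nat_lit 0) (XT.lf (nat_lit 0) (nat_lit 3874649390) (nat_lit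 1176) (nat_lit 6395226120) (nat_lit 1260) (nat_lit 2272765052) (nat_lit 177) (nat_lit 5) (nat_lit 191) (nat_lit 5) (nat_lit 192) (nat_lit 5) (nat_lit 353) (nat_lit 351) (nat_lit 241)) (XT.lf (nat_lit 0) (nat_lit 4441265724) (nat_lit 1176) (nat_lit 923746153) (nat_lit 1260) (nat_lit 7355353633) (nat_lit 177) (nat_lit 5) (nat_lit 191) (nat_lit 5) (nat_lit 192) (nat_lit 5) (nat_lit 354) (nat_lit 351) (nat_lit 240))) (XT.nd (nat_lit 94) (nat_lit 0) (nat_lit 84) (XT.lf (nat_lit 84) (nat_lit 4796705169) (nat_lit 0) (nat_lit 258689641) (nat_lit 1260) (nat_lit 7847141753) (nat_lit 178) (nat_lit 5) (nat_lit 177) (nat_lit 5) (nat_lit 192) (nat_lit 5) (nat_lit 355) (nat_lit 351) (nat_lit 239)) (XT.lf (nat_lit 0) (nat_lit 5730278035) (nat_lit 1176) (nat_lit 2439586785) (nat_lit 1260) (nat_lit 4919066936) (nat_lit 178) (nat_lit 5) (nat_lit 192) (nat_lit 5) (nat_lit 193) (nat_lit 5) (nat_lit 356) (nat_lit 351)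 (nat_lit 238))))) (XT.nd (nat_lit 376) (nat_lit 0) (nat_lit 168) (XT.nd (nat_lit 188) (nat_lit 0) (nat_lit 84) (XT.nd (nat_lit 94) (nat_lit 0) (nat_lit 84) (XT.lf (nat_lit 84) (nat_lit 3452486875) (nat_lit 0) (nat_lit 2993950087) (nat_lit 1260) (nat_lit 6833879043) (nat_lit 179) (nat_lit 5) (nat_lit 178) (nat_lit 5) (nat_lit 193) (nat_lit 5) (nat_lit 357) (nat_lit 351) (nat_lit 237)) (XT.lf (nat_lit 0) (nat_lit 7217103323) (nat_lit 1176) (nat_lit 3937472676) (nat_lit 1260) (nat_lit 2321902359) (nat_lit 179) (nat_lit 5) (nat_lit 193) (nat_lit 5) (nat_lit 194) (nat_lit 5) (nat_lit 358) (nat_lit 351) (nat_lit 236))) (XT.nd (nat_lit 94) (nat_lit 0) (nat_lit 0) (XT.lf (nat_lit 84) (nat_lit 2132445700) (nat_lit 0) (nat_lit 5914679311) (nat_lit 1260) (nat_lit 5630339975) (nat_lit 180) (nat_lit 5) (nat_lit 179) (nat_lit 5) (nat_lit 194) (nat_lit 5) (nat_lit 359) (nat_lit 351) (nat_lit 235)) (XT.lf (nat_lit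 84) (nat_lit 8456147948) (nat_lit 0) (nat_lit 472072298) (nat_lit 1260) (nat_lit 4955501471) (nat_lit 180) (nat_lit 5) (nat_lit 179) (nat_lit 5) (nat_lit 194) (nat_lit 5) (nat_lit 360) (nat_lit 351) (nat_lit 234)))) (XT.nd (nat_lit 188) (nat_lit 0) (nat_lit 84) (XT.nd (nat_lit 94) (nat_lit 0) (nat_lit 0) (XT.lf (nat_lit 84) (nat_lit 831033904) (nat_lit 0) (nat_lit 9048902654) (nat_lit 1260) (nat_lit 4214928893) (nat_lit 181) (nat_lit 5) (nat_lit 180) (nat_lit 5) (nat_lit 195) (nat_lit 5) (nat_lit 361) (nat_lit 351) (nat_lit 233)) (XT.lf (nat_lit 84) (nat_lit 7374754899) (nat_lit 0) (nat_lit 3532031090) (nat_lit 1260) (nat_lit 3404184274) (nat_lit 181) (nat_lit 5) (nat_lit 180) (nat_lit 5) (nat_lit 195) (nat_lit 5) (nat_lit 362) (nat_lit 351) (nat_lit 232))) (XT.nd (nat_lit 94) (nat_lit 0) (nat_lit 0) (XT.lf (nat_lit 0) (nat_lit 11972666055) (nat_lit 1176) (nat_lit 448745438) (nat_lit 1260) (nat_lit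 2111923486) (nat_lit 181) (nat_lit 5) (nat_lit 195) (nat_lit 5) (nat_lit 196) (nat_lit 5) (nat_lit 363) (nat_lit 351) (nat_lit 231)) (XT.lf (nat_lit 84) (nat_lit 6312524782) (nat_lit 0) (nat_lit 6841565382) (nat_lit 1260) (nat_lit 1605796269) (nat_lit 182) (nat_lit 5) (nat_lit 181) (nat_lit 5) (nat_lit 196) (nat_lit 5) (nat_lit 364) (nat_lit 351) (nat_lit 230))))))))
noncomputable def xc54 : XT := (XT.nd (nat_lit 58844) (nat_lit 0) (nat_lit 588) (XT.nd (nat_lit 1410) (nat_lit 2016) (nat_lit 0) (XT.nd (nat_lit 658) (nat_lit 2436) (nat_lit 0) (XT.nd (nat_lit 282) (nat_lit 1176) (nat_lit 0) (XT.nd (nat_lit 94) (nat_lit 1176) (nat_lit 0) (XT.lf (nat_lit 84) (nat_lit 13276887219) (nat_lit 0) (nat_lit 1086784360) (nat_lit 1260) (nat_lit 629803578) (nat_lit 182) (nat_lit 5) (nat_lit 181) (nat_lit 5) (nat_lit 196) (nat_lit 5) (nat_lit 365) (nat_lit 351) (nat_lit 229)) (XT.nd (nat_lit 94) (nat_lit 0) (nat_lit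 0) (XT.lf (nat_lit 0) (nat_lit 454647805) (nat_lit 1260) (nat_lit 9972774866) (nat_lit 1344) (nat_lit 4803966316) (nat_lit 167) (nat_lit 5) (nat_lit 182) (nat_lit 5) (nat_lit 183) (nat_lit 5) (nat_lit 366) (nat_lit 351) (nat_lit 228)) (XT.lf (nat_lit 0) (nat_lit 1575910075) (nat_lit 1260) (nat_lit 3024060637) (nat_lit 1344) (nat_lit 10875794657) (nat_lit 167) (nat_lit 5) (nat_lit 182) (nat_lit 5) (nat_lit 183) (nat_lit 5) (nat_lit 367) (nat_lit 351) (nat_lit 227)))) (XT.nd (nat_lit 188) (nat_lit 1260) (nat_lit 0) (XT.nd (nat_lit 94) (nat_lit 0) (nat_lit 0) (XT.lf (nat_lit 0) (nat_lit 2774142508) (nat_lit 1260) (nat_lit 11534280324) (nat_lit 84) (nat_lit 1417769933) (nat_lit 168) (nat_lit 5) (nat_lit 183) (nat_lit 5) (nat_lit 169) (nat_lit 5) (nat_lit 368) (nat_lit 351) (nat_lit 226)) (XT.lf (nat_lit 0) (nat_lit 4073958572) (nat_lit 1260) (nat_lit 4351945393) (nat_lit 84) (nat_lit 7556279037) (nat_lit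 168) (nat_lit 5) (nat_lit 183) (nat_lit 5) (nat_lit 169) (nat_lit 5) (nat_lit 369) (nat_lit 351) (nat_lit 225))) (XT.nd (nat_lit 94) (nat_lit 0) (nat_lit 0) (XT.lf (nat_lit 0) (nat_lit 3097331821) (nat_lit 1260) (nat_lit 2334776728) (nat_lit 1344) (nat_lit 10813182774) (nat_lit 153) (nat_lit 5) (nat_lit 168) (nat_lit 5) (nat_lit 169) (nat_lit 5) (nat_lit 370) (nat_lit 351) (nat_lit 224)) (XT.lf (nat_lit 0) (nat_lit 6903046506) (nat_lit 1344) (nat_lit 5703193810) (nat_lit 84) (nat_lit 3907909294) (nat_lit 153) (nat_lit 5) (nat_lit 169) (nat_lit 5) (nat_lit 154) (nat_lit 5) (nat_lit 371) (nat_lit 351) (nat_lit 223))))) (XT.nd (nat_lit 376) (nat_lit 1260) (nat_lit 0) (XT.nd (nat_lit 188) (nat_lit 588) (nat_lit 0) (XT.nd (nat_lit 94) (nat_lit 0) (nat_lit 0) (XT.lf (nat_lit 0) (nat_lit 1971316943) (nat_lit 588) (nat_lit 6478956294) (nat_lit 672) (nat_lit 8339853086) (nat_lit 146) (nat_lit 5) (nat_lit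 153) (nat_lit 5) (nat_lit 154) (nat_lit 5) (nat_lit 372) (nat_lit 351) (nat_lit 222)) (XT.lf (nat_lit 0) (nat_lit 9984111831) (nat_lit 588) (nat_lit 107693873) (nat_lit 672) (nat_lit 6981156950) (nat_lit 146) (nat_lit 5) (nat_lit 153) (nat_lit 5) (nat_lit 154) (nat_lit 5) (nat_lit 373) (nat_lit 351) (nat_lit 221))) (XT.nd (nat_lit 94) (nat_lit 0) (nat_lit 0) (XT.lf (nat_lit 0) (nat_lit 818012363) (nat_lit 588) (nat_lit 11025069901) (nat_lit 672) (nat_lit 5519403359) (nat_lit 139) (nat_lit 5) (nat_lit 146) (nat_lit 5) (nat_lit 147) (nat_lit 5) (nat_lit 374) (nat_lit 351) (nat_lit 220)) (XT.lf (nat_lit 0) (nat_lit 9097485887) (nat_lit 588) (nat_lit 4612828167) (nat_lit 672) (nat_lit 3948493731) (nat_lit 139) (nat_lit 5) (nat_lit 146) (nat_lit 5) (nat_lit 147) (nat_lit 5) (nat_lit 375) (nat_lit 351) (nat_lit 219)))) (XT.nd (nat_lit 188) (nat_lit 672) (nat_lit 0) (XT.nd (nat_lit 94) (nat_lit 588) (nat_lit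 0) (XT.lf (nat_lit 0) (nat_lit 15643758973) (nat_lit 672) (nat_lit 366675687) (nat_lit 84) (nat_lit 1953294610) (nat_lit 139) (nat_lit 5) (nat_lit 147) (nat_lit 5) (nat_lit 140) (nat_lit 5) (nat_lit 376) (nat_lit 351) (nat_lit 218)) (XT.lf (nat_lit 0) (nat_lit 8179147361) (nat_lit 588) (nat_lit 9571665054) (nat_lit 672) (nat_lit 523532921) (nat_lit 132) (nat_lit 5) (nat_lit 139) (nat_lit 5) (nat_lit 140) (nat_lit 5) (nat_lit 377) (nat_lit 351) (nat_lit 217))) (XT.nd (nat_lit 94) (nat_lit 588) (nat_lit 0) (XT.lf (nat_lit 0) (nat_lit 1296029551) (nat_lit 672) (nat_lit 1626794915) (nat_lit 84) (nat_lit 15671233346) (nat_lit 131) (nat_lit 5) (nat_lit 139) (nat_lit 5) (nat_lit 132) (nat_lit 5) (nat_lit 378) (nat_lit 351) (nat_lit 216)) (XT.lf (nat_lit 0) (nat_lit 3259194428) (nat_lit 672) (nat_lit 11736880792) (nat_lit 84) (nat_lit 3924158608) (nat_lit 124) (nat_lit 5) (nat_lit 132) (nat_lit 5) (nat_lit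 125) (nat_lit 5) (nat_lit 379) (nat_lit 351) (nat_lit 215)))))) (XT.nd (nat_lit 56682) (nat_lit 0) (nat_lit 6384) (XT.nd (nat_lit 376) (nat_lit 1008) (nat_lit 0) (XT.nd (nat_lit 188) (nat_lit 504) (nat_lit 0) (XT.nd (nat_lit 94) (nat_lit 504) (nat_lit 0) (XT.lf (nat_lit 0) (nat_lit 5318579149) (nat_lit 672) (nat_lit 3002269600) (nat_lit 84) (nat_lit 10934240038) (nat_lit 124) (nat_lit 5) (nat_lit 132) (nat_lit 5) (nat_lit 125) (nat_lit 5) (nat_lit 380) (nat_lit 351) (nat_lit 214)) (XT.lf (nat_lit 0) (nat_lit 6105145418) (nat_lit 504) (nat_lit 1385321293) (nat_lit 588) (nat_lit 12108014063) (nat_lit 118) (nat_lit 5) (nat_lit 124) (nat_lit 5) (nat_lit 125) (nat_lit 5) (nat_lit 381) (nat_lit 351) (nat_lit 213))) (XT.nd (nat_lit 94) (nat_lit 504) (nat_lit 0) (XT.lf (nat_lit 0) (nat_lit 9805662843) (nat_lit 588) (nat_lit 4468119059) (nat_lit 84) (nat_lit 5676060698) (nat_lit 118) (nat_lit 5) (nat_lit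 125) (nat_lit 5) (nat_lit 119) (nat_lit 5) (nat_lit 382) (nat_lit 351) (nat_lit 212)) (XT.lf (nat_lit 0) (nat_lit 4901503742) (nat_lit 504) (nat_lit 7342053814) (nat_lit 588) (nat_lit 8066602717) (nat_lit 112) (nat_lit 5) (nat_lit 118) (nat_lit 5) (nat_lit 119) (nat_lit 5) (nat_lit 383) (nat_lit 351) (nat_lit 211)))) (XT.nd (nat_lit 188) (nat_lit 588) (nat_lit 0) (XT.nd (nat_lit 94) (nat_lit 420) (nat_lit 0) (XT.lf (nat_lit 0) (nat_lit 14635608541) (nat_lit 504) (nat_lit 156652449) (nat_lit 588) (nat_lit 5887908243) (nat_lit 112) (nat_lit 5) (nat_lit 118) (nat_lit 5) (nat_lit 119) (nat_lit 5) (nat_lit 384) (nat_lit 351) (nat_lit 210)) (XT.lf (nat_lit 0) (nat_lit 3592747297) (nat_lit 420) (nat_lit 13921613201) (nat_lit 504) (nat_lit 3544021480) (nat_lit 107) (nat_lit 5) (nat_lit 112) (nat_lit 5) (nat_lit 113) (nat_lit 5) (nat_lit 385) (nat_lit 351) (nat_lit 209))) (XT.nd (nat_lit 94) (nat_lit 588)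 (nat_lit 0) (XT.lf (nat_lit 0) (nat_lit 13633399006) (nat_lit 420) (nat_lit 6740193471) (nat_lit 504) (nat_lit 1072695775) (nat_lit 107) (nat_lit 5) (nat_lit 112) (nat_lit 5) (nat_lit 113) (nat_lit 5) (nat_lit 386) (nat_lit 351) (nat_lit 208)) (XT.lf (nat_lit 0) (nat_lit 1464360589) (nat_lit 588) (nat_lit 19702448694) (nat_lit 84) (nat_lit 677998402) (nat_lit 100) (nat_lit 5) (nat_lit 107) (nat_lit 5) (nat_lit 101) (nat_lit 5) (nat_lit 387) (nat_lit 351) (nat_lit 207))))) (XT.nd (nat_lit 376) (nat_lit 0) (nat_lit 84) (XT.nd (nat_lit 188) (nat_lit 0) (nat_lit 84) (XT.nd (nat_lit 94) (nat_lit 0) (nat_lit 0) (XT.lf (nat_lit 0) (nat_lit 1893722441) (nat_lit 1260) (nat_lit 2188072801) (nat_lit 1260) (nat_lit 2188072801) (nat_lit 176) (nat_lit 3) (nat_lit 191) (nat_lit 3) (nat_lit 191) (nat_lit 5) (nat_lit 352) (nat_lit 352) (nat_lit 241)) (XT.lf (nat_lit 84) (nat_lit 1075295433) (nat_lit 0) (nat_lit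 3178698460) (nat_lit 1260) (nat_lit 8460782932) (nat_lit 177) (nat_lit 5) (nat_lit 176) (nat_lit 3) (nat_lit 191) (nat_lit 5) (nat_lit 353) (nat_lit 352) (nat_lit 240))) (XT.nd (nat_lit 94) (nat_lit 0) (nat_lit 0) (XT.lf (nat_lit 0) (nat_lit 4782372563) (nat_lit 1176) (nat_lit 6141768017) (nat_lit 1260) (nat_lit 1969522994) (nat_lit 177) (nat_lit 5) (nat_lit 191) (nat_lit 5) (nat_lit 192) (nat_lit 5) (nat_lit 354) (nat_lit 352) (nat_lit 239)) (XT.lf (nat_lit 0) (nat_lit 5342934465) (nat_lit 1176) (nat_lit 519113987) (nat_lit 1260) (nat_lit 7215407436) (nat_lit 177) (nat_lit 5) (nat_lit 191) (nat_lit 5) (nat_lit 192) (nat_lit 5) (nat_lit 355) (nat_lit 352) (nat_lit 238)))) (XT.nd (nat_lit 188) (nat_lit 0) (nat_lit 84) (XT.nd (nat_lit 94) (nat_lit 0) (nat_lit 84) (XT.lf (nat_lit 84) (nat_lit 5368712202) (nat_lit 0) (nat_lit 588508958) (nat_lit 1260) (nat_lit 7308461648) (nat_lit 178) (nat_lit 5)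 (nat_lit 177) (nat_lit 5) (nat_lit 192) (nat_lit 5) (nat_lit 356) (nat_lit 352) (nat_lit 237)) (XT.lf (nat_lit 0) (nat_lit 6627495775) (nat_lit 1176) (nat_lit 2070899094) (nat_lit 1260) (nat_lit 4760062144) (nat_lit 178) (nat_lit 5) (nat_lit 192) (nat_lit 5) (nat_lit 193) (nat_lit 5) (nat_lit 357) (nat_lit 352) (nat_lit 236))) (XT.nd (nat_lit 94) (nat_lit 0) (nat_lit 84) (XT.lf (nat_lit 84) (nat_lit 3993604666) (nat_lit 0) (nat_lit 3354615221) (nat_lit 1260) (nat_lit 6307910784) (nat_lit 179) (nat_lit 5) (nat_lit 178) (nat_lit 5) (nat_lit 193) (nat_lit 5) (nat_lit 358) (nat_lit 352) (nat_lit 235)) (XT.lf (nat_lit 0) (nat_lit 8118845814) (nat_lit 1176) (nat_lit 3606333223) (nat_lit 1260) (nat_lit 2133732791) (nat_lit 179) (nat_lit 5) (nat_lit 193) (nat_lit 5) (nat_lit 194) (nat_lit 5) (nat_lit 359) (nat_lit 352) (nat_lit 234))))))) (XT.nd (nat_lit 1504) (nat_lit 2688) (nat_lit 0) (XT.nd (nat_lit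 752) (nat_lit 2352) (nat_lit 0) (XT.nd (nat_lit 376) (nat_lit 1008) (nat_lit 0) (XT.nd (nat_lit 188) (nat_lit 0) (nat_lit 84) (XT.nd (nat_lit 94) (nat_lit 0) (nat_lit 0) (XT.lf (nat_lit 84) (nat_lit 2641278159) (nat_lit 0) (nat_lit 6316808113) (nat_lit 1260) (nat_lit 5108350219) (nat_lit 180) (nat_lit 5) (nat_lit 179) (nat_lit 5) (nat_lit 194) (nat_lit 5) (nat_lit 360) (nat_lit 352) (nat_lit 233)) (XT.lf (nat_lit 84) (nat_lit 9141734414) (nat_lit 0) (nat_lit 704378567) (nat_lit 1260) (nat_lit 4433389860) (nat_lit 180) (nat_lit 5) (nat_lit 179) (nat_lit 5) (nat_lit 194) (nat_lit 5) (nat_lit 361) (nat_lit 352) (nat_lit 232))) (XT.nd (nat_lit 94) (nat_lit 0) (nat_lit 0) (XT.lf (nat_lit 84) (nat_lit 1306236279) (nat_lit 0) (nat_lit 9503503545) (nat_lit 1260) (nat_lit 3687776090) (nat_lit 181) (nat_lit 5) (nat_lit 180) (nat_lit 5) (nat_lit 195) (nat_lit 5) (nat_lit 362) (nat_lit 352) (nat_lit 231))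 (XT.lf (nat_lit 84) (nat_lit 8033154204) (nat_lit 0) (nat_lit 3815791840) (nat_lit 1260) (nat_lit 2871746046) (nat_lit 181) (nat_lit 5) (nat_lit 180) (nat_lit 5) (nat_lit 195) (nat_lit 5) (nat_lit 363) (nat_lit 352) (nat_lit 230)))) (XT.nd (nat_lit 188) (nat_lit 1176) (nat_lit 0) (XT.nd (nat_lit 94) (nat_lit 0) (nat_lit 0) (XT.lf (nat_lit 0) (nat_lit 12927231818) (nat_lit 1176) (nat_lit 17088325) (nat_lit 1260) (nat_lit 2006028470) (nat_lit 181) (nat_lit 5) (nat_lit 195) (nat_lit 5) (nat_lit 196) (nat_lit 5) (nat_lit 364) (nat_lit 352) (nat_lit 229)) (XT.lf (nat_lit 84) (nat_lit 6942656085) (nat_lit 0) (nat_lit 7188338044) (nat_lit 1260) (nat_lit 1053128380) (nat_lit 182) (nat_lit 5) (nat_lit 181) (nat_lit 5) (nat_lit 196) (nat_lit 5) (nat_lit 365) (nat_lit 352) (nat_lit 228))) (XT.nd (nat_lit 94) (nat_lit 1176) (nat_lit 0) (XT.lf (nat_lit 84) (nat_lit 14103111855) (nat_lit 0) (nat_lit 1256791483)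 (nat_lit 1260) (nat_lit 65356155) (nat_lit 182) (nat_lit 5) (nat_lit 181) (nat_lit 5) (nat_lit 196) (nat_lit 5) (nat_lit 366) (nat_lit 352) (nat_lit 227)) (XT.lf (nat_lit 0) (nat_lit 1026590983) (nat_lit 1260) (nat_lit 9816973509) (nat_lit 1344) (nat_lit 4827017644) (nat_lit 167) (nat_lit 5) (nat_lit 182) (nat_lit 5) (nat_lit 183) (nat_lit 5) (nat_lit 367) (nat_lit 352) (nat_lit 226))))) (XT.nd (nat_lit 376) (nat_lit 1176) (nat_lit 0) (XT.nd (nat_lit 188) (nat_lit 1176) (nat_lit 0) (XT.nd (nat_lit 94) (nat_lit 0) (nat_lit 84) (XT.lf (nat_lit 0) (nat_lit 2165229847) (nat_lit 1260) (nat_lit 2673049832) (nat_lit 1344) (nat_lit 11084527079) (nat_lit 167) (nat_lit 5) (nat_lit 182) (nat_lit 5) (nat_lit 183) (nat_lit 5) (nat_lit 368) (nat_lit 352) (nat_lit 225)) (XT.lf (nat_lit 0) (nat_lit 3386931658) (nat_lit 1260) (nat_lit 11425156477) (nat_lit 84) (nat_lit 1369061430) (nat_lit 168) (nat_lit 5) (nat_lit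 183) (nat_lit 5) (nat_lit 169) (nat_lit 5) (nat_lit 369) (nat_lit 352) (nat_lit 224))) (XT.nd (nat_lit 94) (nat_lit 1260) (nat_lit 0) (XT.lf (nat_lit 0) (nat_lit 4710317984) (nat_lit 1260) (nat_lit 4040608359) (nat_lit 84) (nat_lit 7694383329) (nat_lit 168) (nat_lit 5) (nat_lit 183) (nat_lit 5) (nat_lit 169) (nat_lit 5) (nat_lit 370) (nat_lit 352) (nat_lit 223)) (XT.lf (nat_lit 0) (nat_lit 3627814863) (nat_lit 1260) (nat_lit 2470628751) (nat_lit 1344) (nat_lit 10618217334) (nat_lit 153) (nat_lit 5) (nat_lit 168) (nat_lit 5) (nat_lit 169) (nat_lit 5) (nat_lit 371) (nat_lit 352) (nat_lit 222)))) (XT.nd (nat_lit 188) (nat_lit 588) (nat_lit 0) (XT.nd (nat_lit 94) (nat_lit 588) (nat_lit 0) (XT.lf (nat_lit 0) (nat_lit 7598234227) (nat_lit 1344) (nat_lit 5433333512) (nat_lit 84) (nat_lit 3962501373) (nat_lit 153) (nat_lit 5) (nat_lit 169) (nat_lit 5) (nat_lit 154) (nat_lit 5) (nat_lit 372) (nat_lit 352)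 (nat_lit 221)) (XT.lf (nat_lit 0) (nat_lit 2467089464) (nat_lit 588) (nat_lit 6714769080) (nat_lit 672) (nat_lit 8096792267) (nat_lit 146) (nat_lit 5) (nat_lit 153) (nat_lit 5) (nat_lit 154) (nat_lit 5) (nat_lit 373) (nat_lit 352) (nat_lit 220))) (XT.nd (nat_lit 94) (nat_lit 588) (nat_lit 0) (XT.lf (nat_lit 0) (nat_lit 10707550733) (nat_lit 588) (nat_lit 151161677) (nat_lit 672) (nat_lit 6711701938) (nat_lit 146) (nat_lit 5) (nat_lit 153) (nat_lit 5) (nat_lit 154) (nat_lit 5) (nat_lit 374) (nat_lit 352) (nat_lit 219)) (XT.lf (nat_lit 0) (nat_lit 1277287940) (nat_lit 588) (nat_lit 11375523745) (nat_lit 672) (nat_lit 5216126457) (nat_lit 139) (nat_lit 5) (nat_lit 146) (nat_lit 5) (nat_lit 147) (nat_lit 5) (nat_lit 375) (nat_lit 352) (nat_lit 218)))))) (XT.nd (nat_lit 752) (nat_lit 924) (nat_lit 0) (XT.nd (nat_lit 376) (nat_lit 1092) (nat_lit 0) (XT.nd (nat_lit 188) (nat_lit 84) (nat_lit 0) (XT.nd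 (nat_lit 94) (nat_lit 588) (nat_lit 0) (XT.lf (nat_lit 0) (nat_lit 9792483479) (nat_lit 588) (nat_lit 4770340921) (nat_lit 672) (nat_lit 3611745628) (nat_lit 139) (nat_lit 5) (nat_lit 146) (nat_lit 5) (nat_lit 147) (nat_lit 5) (nat_lit 376) (nat_lit 352) (nat_lit 217)) (XT.lf (nat_lit 0) (nat_lit 46789377) (nat_lit 588) (nat_lit 16494904032) (nat_lit 672) (nat_lit 1947345436) (nat_lit 132) (nat_lit 5) (nat_lit 139) (nat_lit 5) (nat_lit 140) (nat_lit 5) (nat_lit 377) (nat_lit 352) (nat_lit 216))) (XT.nd (nat_lit 94) (nat_lit 84) (nat_lit 0) (XT.lf (nat_lit 0) (nat_lit 8843921614) (nat_lit 588) (nat_lit 9859147573) (nat_lit 672) (nat_lit 106192543) (nat_lit 132) (nat_lit 5) (nat_lit 139) (nat_lit 5) (nat_lit 140) (nat_lit 5) (nat_lit 378) (nat_lit 352) (nat_lit 215)) (XT.lf (nat_lit 0) (nat_lit 1747139633) (nat_lit 672) (nat_lit 1259529742) (nat_lit 84) (nat_lit 16132162748) (nat_lit 131) (nat_lit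 5) (nat_lit 139) (nat_lit 5) (nat_lit 132) (nat_lit 5) (nat_lit 379) (nat_lit 352) (nat_lit 214)))) (XT.nd (nat_lit 188) (nat_lit 504) (nat_lit 0) (XT.nd (nat_lit 94) (nat_lit 0) (nat_lit 0) (XT.lf (nat_lit 0) (nat_lit 3761228126) (nat_lit 672) (nat_lit 11664286140) (nat_lit 84) (nat_lit 4049538115) (nat_lit 124) (nat_lit 5) (nat_lit 132) (nat_lit 5) (nat_lit 125) (nat_lit 5) (nat_lit 380) (nat_lit 352) (nat_lit 213)) (XT.lf (nat_lit 0) (nat_lit 5870619888) (nat_lit 672) (nat_lit 2680006547) (nat_lit 84) (nat_lit 11269699034) (nat_lit 124) (nat_lit 5) (nat_lit 132) (nat_lit 5) (nat_lit 125) (nat_lit 5) (nat_lit 381) (nat_lit 352) (nat_lit 212))) (XT.nd (nat_lit 94) (nat_lit 0) (nat_lit 0) (XT.lf (nat_lit 0) (nat_lit 6696588461) (nat_lit 504) (nat_lit 1403568782) (nat_lit 588) (nat_lit 12074105860) (nat_lit 118) (nat_lit 5) (nat_lit 124) (nat_lit 5) (nat_lit 125) (nat_lit 5) (nat_lit 382) (nat_lit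 352) (nat_lit 211)) (XT.lf (nat_lit 0) (nat_lit 10473813914) (nat_lit 588) (nat_lit 4194165852) (nat_lit 84) (nat_lit 5868534019) (nat_lit 118) (nat_lit 5) (nat_lit 125) (nat_lit 5) (nat_lit 119) (nat_lit 5) (nat_lit 383) (nat_lit 352) (nat_lit 210))))) (XT.nd (nat_lit 56400) (nat_lit 0) (nat_lit 5796) (XT.nd (nat_lit 188) (nat_lit 420) (nat_lit 0) (XT.nd (nat_lit 94) (nat_lit 0) (nat_lit 0) (XT.lf (nat_lit 0) (nat_lit 5452545665) (nat_lit 504) (nat_lit 7525290612) (nat_lit 588) (nat_lit 7930032598) (nat_lit 112) (nat_lit 5) (nat_lit 118) (nat_lit 5) (nat_lit 119) (nat_lit 5) (nat_lit 384) (nat_lit 352) (nat_lit 209)) (XT.lf (nat_lit 0) (nat_lit 15466906710) (nat_lit 504) (nat_lit 125405598) (nat_lit 588) (nat_lit 5697003548) (nat_lit 112) (nat_lit 5) (nat_lit 118) (nat_lit 5) (nat_lit 119) (nat_lit 5) (nat_lit 385) (nat_lit 352) (nat_lit 208))) (XT.nd (nat_lit 94) (nat_lit 0) (nat_lit 0) (XT.lf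 (nat_lit 0) (nat_lit 4099720162) (nat_lit 420) (nat_lit 14290150189) (nat_lit 504) (nat_lit 3289207367) (nat_lit 107) (nat_lit 5) (nat_lit 112) (nat_lit 5) (nat_lit 113) (nat_lit 5) (nat_lit 386) (nat_lit 352) (nat_lit 207)) (XT.lf (nat_lit 0) (nat_lit 14429964516) (nat_lit 420) (nat_lit 6894718296) (nat_lit 504) (nat_lit 754260380) (nat_lit 107) (nat_lit 5) (nat_lit 112) (nat_lit 5) (nat_lit 113) (nat_lit 5) (nat_lit 387) (nat_lit 352) (nat_lit 206)))) (XT.nd (nat_lit 188) (nat_lit 0) (nat_lit 84) (XT.nd (nat_lit 94) (nat_lit 0) (nat_lit 0) (XT.lf (nat_lit 0) (nat_lit 2346095768) (nat_lit 1260) (nat_lit 2049622810) (nat_lit 1260) (nat_lit 2049622810) (nat_lit 176) (nat_lit 3) (nat_lit 191) (nat_lit 3) (nat_lit 191) (nat_lit 5) (nat_lit 353) (nat_lit 353) (nat_lit 239)) (XT.lf (nat_lit 84) (nat_lit 1511736839) (nat_lit 0) (nat_lit 3641843001) (nat_lit 1260) (nat_lit 7918013643) (nat_lit 177) (nat_lit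 5) (nat_lit 176) (nat_lit 3) (nat_lit 191) (nat_lit 5) (nat_lit 354) (nat_lit 353) (nat_lit 238))) (XT.nd (nat_lit 94) (nat_lit 0) (nat_lit 0) (XT.lf (nat_lit 0) (nat_lit 5671893031) (nat_lit 1176) (nat_lit 5906269067) (nat_lit 1260) (nat_lit 1678504990) (nat_lit 177) (nat_lit 5) (nat_lit 191) (nat_lit 5) (nat_lit 192) (nat_lit 5) (nat_lit 355) (nat_lit 353) (nat_lit 237)) (XT.lf (nat_lit 0) (nat_lit 6227542198) (nat_lit 1176) (nat_lit 127161202) (nat_lit 1260) (nat_lit 7091963160) (nat_lit 177) (nat_lit 5) (nat_lit 191) (nat_lit 5) (nat_lit 192) (nat_lit 5) (nat_lit 356) (nat_lit 353) (nat_lit 236))))))))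
noncomputable def xc55 : XT := (XT.nd (nat_lit 59126) (nat_lit 0) (nat_lit 420) (XT.nd (nat_lit 1504) (nat_lit 3864) (nat_lit 0) (XT.nd (nat_lit 752) (nat_lit 2016) (nat_lit 0) (XT.nd (nat_lit 376) (nat_lit 0) (nat_lit 168) (XT.nd (nat_lit 188) (nat_lit 0) (nat_lit 84) (XT.nd (nat_lit 94) (nat_lit 0) (nat_lit 84) (XT.lf (nat_lit 84) (nat_lit 5933304417) (nat_lit 0) (nat_lit 909735372) (nat_lit 1260) (nat_lit 6798057323) (nat_lit 178) (nat_lit 5) (nat_lit 177) (nat_lit 5) (nat_lit 192) (nat_lit 5) (nat_lit 357) (nat_lit 353) (nat_lit 235)) (XT.lf (nat_lit 0) (nat_lit 7509994322) (nat_lit 1176) (nat_lit 1716516221) (nat_lit 1260) (nat_lit 4613885971) (nat_lit 178) (nat_lit 5) (nat_lit 192) (nat_lit 5) (nat_lit 193) (nat_lit 5) (nat_lit 358) (nat_lit 353) (nat_lit 234))) (XT.nd (nat_lit 94) (nat_lit 0) (nat_lit 84) (XT.lf (nat_lit 84) (nat_lit 4525839221) (nat_lit 0) (nat_lit 3710552604) (nat_lit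 1260) (nat_lit 5808124986) (nat_lit 179) (nat_lit 5) (nat_lit 178) (nat_lit 5) (nat_lit 193) (nat_lit 5) (nat_lit 359) (nat_lit 353) (nat_lit 233)) (XT.lf (nat_lit 0) (nat_lit 9008305608) (nat_lit 1176) (nat_lit 3291049157) (nat_lit 1260) (nat_lit 1954718439) (nat_lit 179) (nat_lit 5) (nat_lit 193) (nat_lit 5) (nat_lit 194) (nat_lit 5) (nat_lit 360) (nat_lit 353) (nat_lit 232)))) (XT.nd (nat_lit 188) (nat_lit 0) (nat_lit 84) (XT.nd (nat_lit 94) (nat_lit 0) (nat_lit 0) (XT.lf (nat_lit 84) (nat_lit 3139838860) (nat_lit 0) (nat_lit 6718102745) (nat_lit 1260) (nat_lit 4610361254) (nat_lit 180) (nat_lit 5) (nat_lit 179) (nat_lit 5) (nat_lit 194) (nat_lit 5) (nat_lit 361) (nat_lit 353) (nat_lit 231)) (XT.lf (nat_lit 84) (nat_lit 9823095530) (nat_lit 0) (nat_lit 931131660) (nat_lit 1260) (nat_lit 3934120224) (nat_lit 180) (nat_lit 5) (nat_lit 179) (nat_lit 5) (nat_lit 194) (nat_lit 5) (nat_lit 362) (nat_lit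 353) (nat_lit 230))) (XT.nd (nat_lit 94) (nat_lit 0) (nat_lit 0) (XT.lf (nat_lit 84) (nat_lit 1769847307) (nat_lit 0) (nat_lit 9961229833) (nat_lit 1260) (nat_lit 3182328056) (nat_lit 181) (nat_lit 5) (nat_lit 180) (nat_lit 5) (nat_lit 195) (nat_lit 5) (nat_lit 363) (nat_lit 353) (nat_lit 229)) (XT.lf (nat_lit 84) (nat_lit 8686210908) (nat_lit 0) (nat_lit 4097858975) (nat_lit 1260) (nat_lit 2359761226) (nat_lit 181) (nat_lit 5) (nat_lit 180) (nat_lit 5) (nat_lit 195) (nat_lit 5) (nat_lit 364) (nat_lit 353) (nat_lit 228))))) (XT.nd (nat_lit 376) (nat_lit 1092) (nat_lit 0) (XT.nd (nat_lit 188) (nat_lit 1260) (nat_lit 0) (XT.nd (nat_lit 94) (nat_lit 0) (nat_lit 0) (XT.lf (nat_lit 84) (nat_lit 409966749) (nat_lit 0) (nat_lit 13470231075) (nat_lit 1260) (nat_lit 1500646503) (nat_lit 182) (nat_lit 5) (nat_lit 181) (nat_lit 5) (nat_lit 196) (nat_lit 5) (nat_lit 365) (nat_lit 353) (nat_lit 227)) (XT.lf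 (nat_lit 84) (nat_lit 7566390155) (nat_lit 0) (nat_lit 7537389731) (nat_lit 1260) (nat_lit 518371230) (nat_lit 182) (nat_lit 5) (nat_lit 181) (nat_lit 5) (nat_lit 196) (nat_lit 5) (nat_lit 366) (nat_lit 353) (nat_lit 226))) (XT.nd (nat_lit 94) (nat_lit 0) (nat_lit 84) (XT.lf (nat_lit 0) (nat_lit 473122436) (nat_lit 1260) (nat_lit 946111246) (nat_lit 1344) (nat_lit 14451658939) (nat_lit 166) (nat_lit 5) (nat_lit 181) (nat_lit 5) (nat_lit 182) (nat_lit 5) (nat_lit 367) (nat_lit 353) (nat_lit 225)) (XT.lf (nat_lit 0) (nat_lit 1583643538) (nat_lit 1260) (nat_lit 9682616089) (nat_lit 1344) (nat_lit 4857710292) (nat_lit 167) (nat_lit 5) (nat_lit 182) (nat_lit 5) (nat_lit 183) (nat_lit 5) (nat_lit 368) (nat_lit 353) (nat_lit 224)))) (XT.nd (nat_lit 188) (nat_lit 1176) (nat_lit 0) (XT.nd (nat_lit 94) (nat_lit 0) (nat_lit 84) (XT.lf (nat_lit 0) (nat_lit 2741113757) (nat_lit 1260) (nat_lit 2336865962) (nat_lit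 1344) (nat_lit 11306268831) (nat_lit 167) (nat_lit 5) (nat_lit 182) (nat_lit 5) (nat_lit 183) (nat_lit 5) (nat_lit 369) (nat_lit 353) (nat_lit 223)) (XT.lf (nat_lit 0) (nat_lit 3987705292) (nat_lit 1260) (nat_lit 11338886516) (nat_lit 84) (nat_lit 1324129313) (nat_lit 168) (nat_lit 5) (nat_lit 183) (nat_lit 5) (nat_lit 169) (nat_lit 5) (nat_lit 370) (nat_lit 353) (nat_lit 222))) (XT.nd (nat_lit 94) (nat_lit 1260) (nat_lit 0) (XT.lf (nat_lit 0) (nat_lit 5336254402) (nat_lit 1260) (nat_lit 3745297819) (nat_lit 84) (nat_lit 7841715839) (nat_lit 168) (nat_lit 5) (nat_lit 183) (nat_lit 5) (nat_lit 169) (nat_lit 5) (nat_lit 371) (nat_lit 353) (nat_lit 221)) (XT.lf (nat_lit 0) (nat_lit 4149094485) (nat_lit 1260) (nat_lit 2606778645) (nat_lit 1344) (nat_lit 10447216372) (nat_lit 153) (nat_lit 5) (nat_lit 168) (nat_lit 5) (nat_lit 169) (nat_lit 5) (nat_lit 372) (nat_lit 353) (nat_lit 220)))))) (XT.nd (nat_lit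 752) (nat_lit 2016) (nat_lit 0) (XT.nd (nat_lit 376) (nat_lit 672) (nat_lit 0) (XT.nd (nat_lit 188) (nat_lit 588) (nat_lit 0) (XT.nd (nat_lit 94) (nat_lit 588) (nat_lit 0) (XT.lf (nat_lit 0) (nat_lit 8286258853) (nat_lit 1344) (nat_lit 5180690090) (nat_lit 84) (nat_lit 4022327305) (nat_lit 153) (nat_lit 5) (nat_lit 169) (nat_lit 5) (nat_lit 154) (nat_lit 5) (nat_lit 373) (nat_lit 353) (nat_lit 219)) (XT.lf (nat_lit 0) (nat_lit 2952670640) (nat_lit 588) (nat_lit 6955277189) (nat_lit 672) (nat_lit 7874754559) (nat_lit 146) (nat_lit 5) (nat_lit 153) (nat_lit 5) (nat_lit 154) (nat_lit 5) (nat_lit 374) (nat_lit 353) (nat_lit 218))) (XT.nd (nat_lit 94) (nat_lit 588) (nat_lit 0) (XT.lf (nat_lit 0) (nat_lit 11428358315) (nat_lit 588) (nat_lit 193623748) (nat_lit 672) (nat_lit 6461653505) (nat_lit 146) (nat_lit 5) (nat_lit 153) (nat_lit 5) (nat_lit 154) (nat_lit 5) (nat_lit 375) (nat_lit 353) (nat_lit 217))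 (XT.lf (nat_lit 0) (nat_lit 1725386205) (nat_lit 588) (nat_lit 11735360243) (nat_lit 672) (nat_lit 4930665673) (nat_lit 139) (nat_lit 5) (nat_lit 146) (nat_lit 5) (nat_lit 147) (nat_lit 5) (nat_lit 376) (nat_lit 353) (nat_lit 216)))) (XT.nd (nat_lit 188) (nat_lit 84) (nat_lit 0) (XT.nd (nat_lit 94) (nat_lit 588) (nat_lit 0) (XT.lf (nat_lit 0) (nat_lit 10484102281) (nat_lit 588) (nat_lit 4931481038) (nat_lit 672) (nat_lit 3291025591) (nat_lit 139) (nat_lit 5) (nat_lit 146) (nat_lit 5) (nat_lit 147) (nat_lit 5) (nat_lit 377) (nat_lit 353) (nat_lit 215)) (XT.lf (nat_lit 0) (nat_lit 455377361) (nat_lit 588) (nat_lit 16990074034) (nat_lit 672) (nat_lit 1585332435) (nat_lit 132) (nat_lit 5) (nat_lit 139) (nat_lit 5) (nat_lit 140) (nat_lit 5) (nat_lit 378) (nat_lit 353) (nat_lit 214))) (XT.nd (nat_lit 94) (nat_lit 0) (nat_lit 0) (XT.lf (nat_lit 0) (nat_lit 292978564) (nat_lit 672) (nat_lit 9859298404)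 (nat_lit 84) (nat_lit 9208626754) (nat_lit 131) (nat_lit 5) (nat_lit 139) (nat_lit 5) (nat_lit 132) (nat_lit 5) (nat_lit 379) (nat_lit 353) (nat_lit 213)) (XT.lf (nat_lit 0) (nat_lit 2188119375) (nat_lit 672) (nat_lit 905130678) (nat_lit 84) (nat_lit 16607448585) (nat_lit 131) (nat_lit 5) (nat_lit 139) (nat_lit 5) (nat_lit 132) (nat_lit 5) (nat_lit 380) (nat_lit 353) (nat_lit 212))))) (XT.nd (nat_lit 376) (nat_lit 924) (nat_lit 0) (XT.nd (nat_lit 188) (nat_lit 504) (nat_lit 0) (XT.nd (nat_lit 94) (nat_lit 0) (nat_lit 0) (XT.lf (nat_lit 0) (nat_lit 4255116780) (nat_lit 672) (nat_lit 11613893227) (nat_lit 84) (nat_lit 4178239594) (nat_lit 124) (nat_lit 5) (nat_lit 132) (nat_lit 5) (nat_lit 125) (nat_lit 5) (nat_lit 381) (nat_lit 353) (nat_lit 211)) (XT.lf (nat_lit 0) (nat_lit 6416691698) (nat_lit 672) (nat_lit 2371745095) (nat_lit 84) (nat_lit 11614795185) (nat_lit 124) (nat_lit 5) (nat_lit 132)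 (nat_lit 5) (nat_lit 125) (nat_lit 5) (nat_lit 382) (nat_lit 353) (nat_lit 210))) (XT.nd (nat_lit 94) (nat_lit 0) (nat_lit 0) (XT.lf (nat_lit 0) (nat_lit 7282337354) (nat_lit 504) (nat_lit 1423701909) (nat_lit 588) (nat_lit 12061978368) (nat_lit 118) (nat_lit 5) (nat_lit 124) (nat_lit 5) (nat_lit 125) (nat_lit 5) (nat_lit 383) (nat_lit 353) (nat_lit 209)) (XT.lf (nat_lit 0) (nat_lit 11140541467) (nat_lit 588) (nat_lit 3935414733) (nat_lit 84) (nat_lit 6065507657) (nat_lit 118) (nat_lit 5) (nat_lit 125) (nat_lit 5) (nat_lit 119) (nat_lit 5) (nat_lit 384) (nat_lit 353) (nat_lit 208)))) (XT.nd (nat_lit 188) (nat_lit 420) (nat_lit 0) (XT.nd (nat_lit 94) (nat_lit 0) (nat_lit 0) (XT.lf (nat_lit 0) (nat_lit 5996927776) (nat_lit 504) (nat_lit 7716149890) (nat_lit 588) (nat_lit 7811096739) (nat_lit 112) (nat_lit 5) (nat_lit 118) (nat_lit 5) (nat_lit 119) (nat_lit 5) (nat_lit 385) (nat_lit 353) (nat_lit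 207)) (XT.lf (nat_lit 0) (nat_lit 16300628223) (nat_lit 504) (nat_lit 95284814) (nat_lit 588) (nat_lit 5521470123) (nat_lit 112) (nat_lit 5) (nat_lit 118) (nat_lit 5) (nat_lit 119) (nat_lit 5) (nat_lit 386) (nat_lit 353) (nat_lit 206))) (XT.nd (nat_lit 56212) (nat_lit 0) (nat_lit 5796) (XT.lf (nat_lit 0) (nat_lit 4598987049) (nat_lit 420) (nat_lit 14672562482) (nat_lit 504) (nat_lit 3047479444) (nat_lit 107) (nat_lit 5) (nat_lit 112) (nat_lit 5) (nat_lit 113) (nat_lit 5) (nat_lit 387) (nat_lit 353) (nat_lit 205)) (XT.lf (nat_lit 0) (nat_lit 2789333437) (nat_lit 1260) (nat_lit 1918735045) (nat_lit 1260) (nat_lit 1918735045) (nat_lit 176) (nat_lit 3) (nat_lit 191) (nat_lit 3) (nat_lit 191) (nat_lit 5) (nat_lit 354) (nat_lit 354) (nat_lit 237))))))) (XT.nd (nat_lit 1504) (nat_lit 4536) (nat_lit 0) (XT.nd (nat_lit 752) (nat_lit 840) (nat_lit 0) (XT.nd (nat_lit 376) (nat_lit 0) (nat_lit 168) (XT.nd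 (nat_lit 188) (nat_lit 0) (nat_lit 84) (XT.nd (nat_lit 94) (nat_lit 0) (nat_lit 84) (XT.lf (nat_lit 84) (nat_lit 1938069755) (nat_lit 0) (nat_lit 4097769597) (nat_lit 1260) (nat_lit 7404688959) (nat_lit 177) (nat_lit 5) (nat_lit 176) (nat_lit 3) (nat_lit 191) (nat_lit 5) (nat_lit 355) (nat_lit 354) (nat_lit 236)) (XT.lf (nat_lit 0) (nat_lit 6545272831) (nat_lit 1176) (nat_lit 5687800630) (nat_lit 1260) (nat_lit 1398853829) (nat_lit 177) (nat_lit 5) (nat_lit 191) (nat_lit 5) (nat_lit 192) (nat_lit 5) (nat_lit 356) (nat_lit 354) (nat_lit 235))) (XT.nd (nat_lit 94) (nat_lit 0) (nat_lit 0) (XT.lf (nat_lit 84) (nat_lit 258194804) (nat_lit 0) (nat_lit 6841396371) (nat_lit 1260) (nat_lit 6728614701) (nat_lit 178) (nat_lit 5) (nat_lit 177) (nat_lit 5) (nat_lit 192) (nat_lit 5) (nat_lit 357) (nat_lit 354) (nat_lit 234)) (XT.lf (nat_lit 84) (nat_lit 6491670078) (nat_lit 0) (nat_lit 1223172352) (nat_lit 1260)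 (nat_lit 6314226233) (nat_lit 178) (nat_lit 5) (nat_lit 177) (nat_lit 5) (nat_lit 192) (nat_lit 5) (nat_lit 358) (nat_lit 354) (nat_lit 233)))) (XT.nd (nat_lit 188) (nat_lit 0) (nat_lit 84) (XT.nd (nat_lit 94) (nat_lit 0) (nat_lit 0) (XT.lf (nat_lit 0) (nat_lit 8379722158) (nat_lit 1176) (nat_lit 1375411231) (nat_lit 1260) (nat_lit 4479913034) (nat_lit 178) (nat_lit 5) (nat_lit 192) (nat_lit 5) (nat_lit 193) (nat_lit 5) (nat_lit 359) (nat_lit 354) (nat_lit 232)) (XT.lf (nat_lit 84) (nat_lit 5050365850) (nat_lit 0) (nat_lit 4062512906) (nat_lit 1260) (nat_lit 5332898359) (nat_lit 179) (nat_lit 5) (nat_lit 178) (nat_lit 5) (nat_lit 193) (nat_lit 5) (nat_lit 360) (nat_lit 354) (nat_lit 231))) (XT.nd (nat_lit 94) (nat_lit 0) (nat_lit 0) (XT.lf (nat_lit 0) (nat_lit 9887372215) (nat_lit 1176) (nat_lit 2990615713) (nat_lit 1260) (nat_lit 1784284363) (nat_lit 179) (nat_lit 5) (nat_lit 193) (nat_lit 5)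 (nat_lit 194) (nat_lit 5) (nat_lit 361) (nat_lit 354) (nat_lit 230)) (XT.lf (nat_lit 84) (nat_lit 3629285563) (nat_lit 0) (nat_lit 7119278581) (nat_lit 1260) (nat_lit 4134816430) (nat_lit 180) (nat_lit 5) (nat_lit 179) (nat_lit 5) (nat_lit 194) (nat_lit 5) (nat_lit 362) (nat_lit 354) (nat_lit 229))))) (XT.nd (nat_lit 376) (nat_lit 1092) (nat_lit 0) (XT.nd (nat_lit 188) (nat_lit 0) (nat_lit 84) (XT.nd (nat_lit 94) (nat_lit 0) (nat_lit 84) (XT.lf (nat_lit 84) (nat_lit 10501527753) (nat_lit 0) (nat_lit 1152883818) (nat_lit 1260) (nat_lit 3456167461) (nat_lit 180) (nat_lit 5) (nat_lit 179) (nat_lit 5) (nat_lit 194) (nat_lit 5) (nat_lit 363) (nat_lit 354) (nat_lit 228)) (XT.lf (nat_lit 84) (nat_lit 2223002996) (nat_lit 0) (nat_lit 10422778747) (nat_lit 1260) (nat_lit 2697082169) (nat_lit 181) (nat_lit 5) (nat_lit 180) (nat_lit 5) (nat_lit 195) (nat_lit 5) (nat_lit 364) (nat_lit 354) (nat_lit 227)))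 (XT.nd (nat_lit 94) (nat_lit 0) (nat_lit 84) (XT.lf (nat_lit 84) (nat_lit 9335205264) (nat_lit 0) (nat_lit 4378767579) (nat_lit 1260) (nat_lit 1866752384) (nat_lit 181) (nat_lit 5) (nat_lit 180) (nat_lit 5) (nat_lit 195) (nat_lit 5) (nat_lit 365) (nat_lit 354) (nat_lit 226)) (XT.lf (nat_lit 84) (nat_lit 825619526) (nat_lit 0) (nat_lit 14003854072) (nat_lit 1260) (nat_lit 995810558) (nat_lit 182) (nat_lit 5) (nat_lit 181) (nat_lit 5) (nat_lit 196) (nat_lit 5) (nat_lit 366) (nat_lit 354) (nat_lit 225)))) (XT.nd (nat_lit 188) (nat_lit 0) (nat_lit 84) (XT.nd (nat_lit 94) (nat_lit 1260) (nat_lit 0) (XT.lf (nat_lit 84) (nat_lit 8184987466) (nat_lit 0) (nat_lit 7889255175) (nat_lit 1260) (nat_lit 82231) (nat_lit 182) (nat_lit 5) (nat_lit 181) (nat_lit 5) (nat_lit 196) (nat_lit 5) (nat_lit 367) (nat_lit 354) (nat_lit 224)) (XT.lf (nat_lit 0) (nat_lit 995493772) (nat_lit 1260) (nat_lit 583266635) (nat_lit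 1344) (nat_lit 14752099063) (nat_lit 166) (nat_lit 5) (nat_lit 181) (nat_lit 5) (nat_lit 182) (nat_lit 5) (nat_lit 368) (nat_lit 354) (nat_lit 223))) (XT.nd (nat_lit 94) (nat_lit 0) (nat_lit 0) (XT.lf (nat_lit 0) (nat_lit 2127198489) (nat_lit 1260) (nat_lit 9568846645) (nat_lit 1344) (nat_lit 4895874552) (nat_lit 167) (nat_lit 5) (nat_lit 182) (nat_lit 5) (nat_lit 183) (nat_lit 5) (nat_lit 369) (nat_lit 354) (nat_lit 222)) (XT.lf (nat_lit 0) (nat_lit 3304944884) (nat_lit 1260) (nat_lit 2014498226) (nat_lit 1344) (nat_lit 11541022868) (nat_lit 167) (nat_lit 5) (nat_lit 182) (nat_lit 5) (nat_lit 183) (nat_lit 5) (nat_lit 370) (nat_lit 354) (nat_lit 221)))))) (XT.nd (nat_lit 752) (nat_lit 2268) (nat_lit 0) (XT.nd (nat_lit 376) (nat_lit 1176) (nat_lit 0) (XT.nd (nat_lit 188) (nat_lit 1260) (nat_lit 0) (XT.nd (nat_lit 94) (nat_lit 0) (nat_lit 0) (XT.lf (nat_lit 0) (nat_lit 4577847983) (nat_lit 1260)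 (nat_lit 11274656227) (nat_lit 84) (nat_lit 1282786211) (nat_lit 168) (nat_lit 5) (nat_lit 183) (nat_lit 5) (nat_lit 169) (nat_lit 5) (nat_lit 371) (nat_lit 354) (nat_lit 220)) (XT.lf (nat_lit 0) (nat_lit 5953149346) (nat_lit 1260) (nat_lit 3465038418) (nat_lit 84) (nat_lit 7998261508) (nat_lit 168) (nat_lit 5) (nat_lit 183) (nat_lit 5) (nat_lit 169) (nat_lit 5) (nat_lit 372) (nat_lit 354) (nat_lit 219))) (XT.nd (nat_lit 94) (nat_lit 0) (nat_lit 0) (XT.lf (nat_lit 0) (nat_lit 4662336455) (nat_lit 1260) (nat_lit 2743452201) (nat_lit 1344) (nat_lit 10299187410) (nat_lit 153) (nat_lit 5) (nat_lit 168) (nat_lit 5) (nat_lit 169) (nat_lit 5) (nat_lit 373) (nat_lit 354) (nat_lit 218)) (XT.lf (nat_lit 0) (nat_lit 8968513881) (nat_lit 1344) (nat_lit 4944326998) (nat_lit 84) (nat_lit 4087337676) (nat_lit 153) (nat_lit 5) (nat_lit 169) (nat_lit 5) (nat_lit 154) (nat_lit 5) (nat_lit 374) (nat_lit 354) (nat_lit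 217)))) (XT.nd (nat_lit 188) (nat_lit 588) (nat_lit 0) (XT.nd (nat_lit 94) (nat_lit 0) (nat_lit 0) (XT.lf (nat_lit 0) (nat_lit 3429193536) (nat_lit 588) (nat_lit 7200758049) (nat_lit 672) (nat_lit 7672745262) (nat_lit 146) (nat_lit 5) (nat_lit 153) (nat_lit 5) (nat_lit 154) (nat_lit 5) (nat_lit 375) (nat_lit 354) (nat_lit 216)) (XT.lf (nat_lit 0) (nat_lit 12147852537) (nat_lit 588) (nat_lit 235182503) (nat_lit 672) (nat_lit 6230015796) (nat_lit 146) (nat_lit 5) (nat_lit 153) (nat_lit 5) (nat_lit 154) (nat_lit 5) (nat_lit 376) (nat_lit 354) (nat_lit 215))) (XT.nd (nat_lit 94) (nat_lit 0) (nat_lit 0) (XT.lf (nat_lit 0) (nat_lit 2163404391) (nat_lit 588) (nat_lit 12104925797) (nat_lit 672) (nat_lit 4662010492) (nat_lit 139) (nat_lit 5) (nat_lit 146) (nat_lit 5) (nat_lit 147) (nat_lit 5) (nat_lit 377) (nat_lit 354) (nat_lit 214)) (XT.lf (nat_lit 0) (nat_lit 11173631757) (nat_lit 588) (nat_lit 5096420368)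 (nat_lit 672) (nat_lit 2985314464) (nat_lit 139) (nat_lit 5) (nat_lit 146) (nat_lit 5) (nat_lit 147) (nat_lit 5) (nat_lit 378) (nat_lit 354) (nat_lit 213))))) (XT.nd (nat_lit 376) (nat_lit 1008) (nat_lit 0) (XT.nd (nat_lit 188) (nat_lit 588) (nat_lit 0) (XT.nd (nat_lit 94) (nat_lit 84) (nat_lit 0) (XT.lf (nat_lit 0) (nat_lit 852848940) (nat_lit 588) (nat_lit 17500080602) (nat_lit 672) (nat_lit 1236593638) (nat_lit 132) (nat_lit 5) (nat_lit 139) (nat_lit 5) (nat_lit 140) (nat_lit 5) (nat_lit 379) (nat_lit 354) (nat_lit 212)) (XT.lf (nat_lit 0) (nat_lit 679016031) (nat_lit 672) (nat_lit 9774315263) (nat_lit 84) (nat_lit 9476459300) (nat_lit 131) (nat_lit 5) (nat_lit 139) (nat_lit 5) (nat_lit 132) (nat_lit 5) (nat_lit 380) (nat_lit 354) (nat_lit 211))) (XT.nd (nat_lit 94) (nat_lit 588) (nat_lit 0) (XT.lf (nat_lit 0) (nat_lit 2620023257) (nat_lit 672) (nat_lit 562612663) (nat_lit 84) (nat_lit 17097491211)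 (nat_lit 131) (nat_lit 5) (nat_lit 139) (nat_lit 5) (nat_lit 132) (nat_lit 5) (nat_lit 381) (nat_lit 354) (nat_lit 210)) (XT.lf (nat_lit 0) (nat_lit 4741948160) (nat_lit 672) (nat_lit 11584968619) (nat_lit 84) (nat_lit 4310387927) (nat_lit 124) (nat_lit 5) (nat_lit 132) (nat_lit 5) (nat_lit 125) (nat_lit 5) (nat_lit 382) (nat_lit 354) (nat_lit 209)))) (XT.nd (nat_lit 188) (nat_lit 504) (nat_lit 0) (XT.nd (nat_lit 94) (nat_lit 504) (nat_lit 0) (XT.lf (nat_lit 0) (nat_lit 6957908834) (nat_lit 672) (nat_lit 2076546569) (nat_lit 84) (nat_lit 11969842094) (nat_lit 124) (nat_lit 5) (nat_lit 132) (nat_lit 5) (nat_lit 125) (nat_lit 5) (nat_lit 383) (nat_lit 354) (nat_lit 208)) (XT.lf (nat_lit 0) (nat_lit 7863566678) (nat_lit 504) (nat_lit 1445700424) (nat_lit 588) (nat_lit 12070976310) (nat_lit 118) (nat_lit 5) (nat_lit 124) (nat_lit 5) (nat_lit 125) (nat_lit 5) (nat_lit 384) (nat_lit 354) (nat_lit 207)))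 (XT.nd (nat_lit 94) (nat_lit 504) (nat_lit 0) (XT.lf (nat_lit 0) (nat_lit 11807035151) (nat_lit 588) (nat_lit 3690977321) (nat_lit 84) (nat_lit 6267189747) (nat_lit 118) (nat_lit 5) (nat_lit 125) (nat_lit 5) (nat_lit 119) (nat_lit 5) (nat_lit 385) (nat_lit 354) (nat_lit 206)) (XT.lf (nat_lit 0) (nat_lit 6535781543) (nat_lit 504) (nat_lit 7914738317) (nat_lit 588) (nat_lit 7709076698) (nat_lit 112) (nat_lit 5) (nat_lit 118) (nat_lit 5) (nat_lit 119) (nat_lit 5) (nat_lit 386) (nat_lit 354) (nat_lit 205))))))))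
noncomputable def xc56 : XT := (XT.nd (nat_lit 59126) (nat_lit 0) (nat_lit 0) (XT.nd (nat_lit 57622) (nat_lit 0) (nat_lit 1008) (XT.nd (nat_lit 56870) (nat_lit 0) (nat_lit 4536) (XT.nd (nat_lit 56494) (nat_lit 0) (nat_lit 5460) (XT.nd (nat_lit 56306) (nat_lit 0) (nat_lit 5376) (XT.lf (nat_lit 0) (nat_lit 17138138268) (nat_lit 504) (nat_lit 66205427) (nat_lit 588) (nat_lit 5360557972) (nat_lit 112) (nat_lit 5) (nat_lit 118) (nat_lit 5) (nat_lit 119) (nat_lit 5) (nat_lit 387) (nat_lit 354) (nat_lit 204)) (XT.nd (nat_lit 94) (nat_lit 0) (nat_lit 0) (XT.lf (nat_lit 0) (nat_lit 3224464846) (nat_lit 1260) (nat_lit 1794963843) (nat_lit 1260) (nat_lit 1794963843) (nat_lit 176) (nat_lit 3) (nat_lit 191) (nat_lit 3) (nat_lit 191) (nat_lit 5) (nat_lit 355) (nat_lit 355) (nat_lit 235)) (XT.lf (nat_lit 84) (nat_lit 2355322801) (nat_lit 0) (nat_lit 4547473639) (nat_lit 1260) (nat_lit 6919067263) (nat_lit 177)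 (nat_lit 5) (nat_lit 176) (nat_lit 3) (nat_lit 191) (nat_lit 5) (nat_lit 356) (nat_lit 355) (nat_lit 234)))) (XT.nd (nat_lit 188) (nat_lit 0) (nat_lit 0) (XT.nd (nat_lit 94) (nat_lit 0) (nat_lit 0) (XT.lf (nat_lit 0) (nat_lit 7404486147) (nat_lit 1176) (nat_lit 5485490442) (nat_lit 1260) (nat_lit 1129756846) (nat_lit 177) (nat_lit 5) (nat_lit 191) (nat_lit 5) (nat_lit 192) (nat_lit 5) (nat_lit 357) (nat_lit 355) (nat_lit 233)) (XT.lf (nat_lit 84) (nat_lit 635228540) (nat_lit 0) (nat_lit 7324448864) (nat_lit 1260) (nat_lit 6262732549) (nat_lit 178) (nat_lit 5) (nat_lit 177) (nat_lit 5) (nat_lit 192) (nat_lit 5) (nat_lit 358) (nat_lit 355) (nat_lit 232))) (XT.nd (nat_lit 94) (nat_lit 0) (nat_lit 84) (XT.lf (nat_lit 84) (nat_lit 7044952113) (nat_lit 0) (nat_lit 1529586554) (nat_lit 1260) (nat_lit 5855361183) (nat_lit 178) (nat_lit 5) (nat_lit 177) (nat_lit 5) (nat_lit 192) (nat_lit 5) (nat_lit 359)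 (nat_lit 355) (nat_lit 231)) (XT.lf (nat_lit 0) (nat_lit 9238549026) (nat_lit 1176) (nat_lit 1046609965) (nat_lit 1260) (nat_lit 4357557182) (nat_lit 178) (nat_lit 5) (nat_lit 192) (nat_lit 5) (nat_lit 193) (nat_lit 5) (nat_lit 360) (nat_lit 355) (nat_lit 230))))) (XT.nd (nat_lit 376) (nat_lit 1008) (nat_lit 0) (XT.nd (nat_lit 188) (nat_lit 0) (nat_lit 84) (XT.nd (nat_lit 94) (nat_lit 0) (nat_lit 84) (XT.lf (nat_lit 84) (nat_lit 5568312354) (nat_lit 0) (nat_lit 4411218083) (nat_lit 1260) (nat_lit 4880697190) (nat_lit 179) (nat_lit 5) (nat_lit 178) (nat_lit 5) (nat_lit 193) (nat_lit 5) (nat_lit 361) (nat_lit 355) (nat_lit 229)) (XT.lf (nat_lit 0) (nat_lit 10757862208) (nat_lit 1176) (nat_lit 2704082964) (nat_lit 1260) (nat_lit 1621887143) (nat_lit 179) (nat_lit 5) (nat_lit 193) (nat_lit 5) (nat_lit 194) (nat_lit 5) (nat_lit 362) (nat_lit 355) (nat_lit 228))) (XT.nd (nat_lit 94) (nat_lit 0) (nat_lit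 0) (XT.lf (nat_lit 84) (nat_lit 4110726613) (nat_lit 0) (nat_lit 7521029955) (nat_lit 1260) (nat_lit 3680243087) (nat_lit 180) (nat_lit 5) (nat_lit 179) (nat_lit 5) (nat_lit 194) (nat_lit 5) (nat_lit 363) (nat_lit 355) (nat_lit 227)) (XT.lf (nat_lit 84) (nat_lit 11178284733) (nat_lit 0) (nat_lit 1370162581) (nat_lit 1260) (nat_lit 2998087596) (nat_lit 180) (nat_lit 5) (nat_lit 179) (nat_lit 5) (nat_lit 194) (nat_lit 5) (nat_lit 364) (nat_lit 355) (nat_lit 226)))) (XT.nd (nat_lit 188) (nat_lit 1176) (nat_lit 0) (XT.nd (nat_lit 94) (nat_lit 0) (nat_lit 0) (XT.lf (nat_lit 84) (nat_lit 2666788260) (nat_lit 0) (nat_lit 10888833793) (nat_lit 1260) (nat_lit 2230614363) (nat_lit 181) (nat_lit 5) (nat_lit 180) (nat_lit 5) (nat_lit 195) (nat_lit 5) (nat_lit 365) (nat_lit 355) (nat_lit 225)) (XT.lf (nat_lit 84) (nat_lit 9981373241) (nat_lit 0) (nat_lit 4659035154) (nat_lit 1260) (nat_lit 1391317800) (nat_lit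 181) (nat_lit 5) (nat_lit 180) (nat_lit 5) (nat_lit 195) (nat_lit 5) (nat_lit 366) (nat_lit 355) (nat_lit 224))) (XT.nd (nat_lit 94) (nat_lit 1260) (nat_lit 0) (XT.lf (nat_lit 84) (nat_lit 1230587729) (nat_lit 0) (nat_lit 14546051006) (nat_lit 1260) (nat_lit 507393480) (nat_lit 182) (nat_lit 5) (nat_lit 181) (nat_lit 5) (nat_lit 196) (nat_lit 5) (nat_lit 367) (nat_lit 355) (nat_lit 223)) (XT.lf (nat_lit 0) (nat_lit 493293326) (nat_lit 1260) (nat_lit 7746183754) (nat_lit 1344) (nat_lit 8301388310) (nat_lit 166) (nat_lit 5) (nat_lit 181) (nat_lit 5) (nat_lit 182) (nat_lit 5) (nat_lit 368) (nat_lit 355) (nat_lit 222)))))) (XT.nd (nat_lit 752) (nat_lit 1848) (nat_lit 0) (XT.nd (nat_lit 376) (nat_lit 1680) (nat_lit 0) (XT.nd (nat_lit 188) (nat_lit 0) (nat_lit 84) (XT.nd (nat_lit 94) (nat_lit 0) (nat_lit 84) (XT.lf (nat_lit 0) (nat_lit 1504364772) (nat_lit 1260) (nat_lit 231994770) (nat_lit 1344) (nat_lit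 15069193430) (nat_lit 166) (nat_lit 5) (nat_lit 181) (nat_lit 5) (nat_lit 182) (nat_lit 5) (nat_lit 369) (nat_lit 355) (nat_lit 221)) (XT.lf (nat_lit 0) (nat_lit 2658585040) (nat_lit 1260) (nat_lit 9474869603) (nat_lit 1344) (nat_lit 4941358528) (nat_lit 167) (nat_lit 5) (nat_lit 182) (nat_lit 5) (nat_lit 183) (nat_lit 5) (nat_lit 370) (nat_lit 355) (nat_lit 220))) (XT.nd (nat_lit 94) (nat_lit 0) (nat_lit 84) (XT.lf (nat_lit 0) (nat_lit 3858045266) (nat_lit 1260) (nat_lit 1704989055) (nat_lit 1344) (nat_lit 11788814466) (nat_lit 167) (nat_lit 5) (nat_lit 182) (nat_lit 5) (nat_lit 183) (nat_lit 5) (nat_lit 371) (nat_lit 355) (nat_lit 219)) (XT.lf (nat_lit 0) (nat_lit 5158685667) (nat_lit 1260) (nat_lit 11231713064) (nat_lit 84) (nat_lit 1244856393) (nat_lit 168) (nat_lit 5) (nat_lit 183) (nat_lit 5) (nat_lit 169) (nat_lit 5) (nat_lit 372) (nat_lit 355) (nat_lit 218)))) (XT.nd (nat_lit 188) (nat_lit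 588) (nat_lit 0) (XT.nd (nat_lit 94) (nat_lit 1260) (nat_lit 0) (XT.lf (nat_lit 0) (nat_lit 6562328531) (nat_lit 1260) (nat_lit 3198909134) (nat_lit 84) (nat_lit 8164021582) (nat_lit 168) (nat_lit 5) (nat_lit 183) (nat_lit 5) (nat_lit 169) (nat_lit 5) (nat_lit 373) (nat_lit 355) (nat_lit 217)) (XT.lf (nat_lit 0) (nat_lit 5168658746) (nat_lit 1260) (nat_lit 2880869535) (nat_lit 1344) (nat_lit 10173206436) (nat_lit 153) (nat_lit 5) (nat_lit 168) (nat_lit 5) (nat_lit 169) (nat_lit 5) (nat_lit 374) (nat_lit 355) (nat_lit 216))) (XT.nd (nat_lit 94) (nat_lit 588) (nat_lit 0) (XT.lf (nat_lit 0) (nat_lit 9646342285) (nat_lit 1344) (nat_lit 4723363006) (nat_lit 84) (nat_lit 4157493437) (nat_lit 153) (nat_lit 5) (nat_lit 169) (nat_lit 5) (nat_lit 154) (nat_lit 5) (nat_lit 375) (nat_lit 355) (nat_lit 215)) (XT.lf (nat_lit 0) (nat_lit 3897742617) (nat_lit 588) (nat_lit 7451489570) (nat_lit 672) (nat_lit 7489833140)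 (nat_lit 146) (nat_lit 5) (nat_lit 153) (nat_lit 5) (nat_lit 154) (nat_lit 5) (nat_lit 376) (nat_lit 355) (nat_lit 214))))) (XT.nd (nat_lit 376) (nat_lit 672) (nat_lit 0) (XT.nd (nat_lit 188) (nat_lit 588) (nat_lit 0) (XT.nd (nat_lit 94) (nat_lit 588) (nat_lit 0) (XT.lf (nat_lit 0) (nat_lit 12867310710) (nat_lit 588) (nat_lit 275935822) (nat_lit 672) (nat_lit 6015853668) (nat_lit 146) (nat_lit 5) (nat_lit 153) (nat_lit 5) (nat_lit 154) (nat_lit 5) (nat_lit 377) (nat_lit 355) (nat_lit 213)) (XT.lf (nat_lit 0) (nat_lit 2592390414) (nat_lit 588) (nat_lit 12484573473) (nat_lit 672) (nat_lit 4409208774) (nat_lit 139) (nat_lit 5) (nat_lit 146) (nat_lit 5) (nat_lit 147) (nat_lit 5) (nat_lit 378) (nat_lit 355) (nat_lit 212))) (XT.nd (nat_lit 94) (nat_lit 588) (nat_lit 0) (XT.lf (nat_lit 0) (nat_lit 11862320215) (nat_lit 588) (nat_lit 5265332302) (nat_lit 672) (nat_lit 2693648623) (nat_lit 139) (nat_lit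 5) (nat_lit 146) (nat_lit 5) (nat_lit 147) (nat_lit 5) (nat_lit 379) (nat_lit 355) (nat_lit 211)) (XT.lf (nat_lit 0) (nat_lit 1240212388) (nat_lit 588) (nat_lit 18025369896) (nat_lit 672) (nat_lit 900141849) (nat_lit 132) (nat_lit 5) (nat_lit 139) (nat_lit 5) (nat_lit 140) (nat_lit 5) (nat_lit 380) (nat_lit 355) (nat_lit 210)))) (XT.nd (nat_lit 188) (nat_lit 588) (nat_lit 0) (XT.nd (nat_lit 94) (nat_lit 0) (nat_lit 0) (XT.lf (nat_lit 0) (nat_lit 1054979037) (nat_lit 672) (nat_lit 9708639929) (nat_lit 84) (nat_lit 9752810524) (nat_lit 131) (nat_lit 5) (nat_lit 139) (nat_lit 5) (nat_lit 132) (nat_lit 5) (nat_lit 381) (nat_lit 355) (nat_lit 209)) (XT.lf (nat_lit 0) (nat_lit 3043859415) (nat_lit 672) (nat_lit 231039789) (nat_lit 84) (nat_lit 17602704728) (nat_lit 131) (nat_lit 5) (nat_lit 139) (nat_lit 5) (nat_lit 132) (nat_lit 5) (nat_lit 382) (nat_lit 355) (nat_lit 208))) (XT.nd (nat_lit 94) (nat_lit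 0) (nat_lit 0) (XT.lf (nat_lit 0) (nat_lit 5222766203) (nat_lit 672) (nat_lit 11576837212) (nat_lit 84) (nat_lit 4446110296) (nat_lit 124) (nat_lit 5) (nat_lit 132) (nat_lit 5) (nat_lit 125) (nat_lit 5) (nat_lit 383) (nat_lit 355) (nat_lit 207)) (XT.lf (nat_lit 0) (nat_lit 7495344738) (nat_lit 672) (nat_lit 1793522127) (nat_lit 84) (nat_lit 12335161368) (nat_lit 124) (nat_lit 5) (nat_lit 132) (nat_lit 5) (nat_lit 125) (nat_lit 5) (nat_lit 384) (nat_lit 355) (nat_lit 206))))))) (XT.nd (nat_lit 57810) (nat_lit 0) (nat_lit 1008) (XT.nd (nat_lit 57058) (nat_lit 0) (nat_lit 5544) (XT.nd (nat_lit 56682) (nat_lit 0) (nat_lit 5376) (XT.nd (nat_lit 188) (nat_lit 504) (nat_lit 0) (XT.nd (nat_lit 94) (nat_lit 0) (nat_lit 0) (XT.lf (nat_lit 0) (nat_lit 8441409020) (nat_lit 504) (nat_lit 1469547879) (nat_lit 588) (nat_lit 12100499879) (nat_lit 118) (nat_lit 5) (nat_lit 124) (nat_lit 5) (nat_lit 125) (nat_lit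 5) (nat_lit 385) (nat_lit 355) (nat_lit 205)) (XT.lf (nat_lit 0) (nat_lit 12474449561) (nat_lit 588) (nat_lit 3460015761) (nat_lit 84) (nat_lit 6473790471) (nat_lit 118) (nat_lit 5) (nat_lit 125) (nat_lit 5) (nat_lit 119) (nat_lit 5) (nat_lit 386) (nat_lit 355) (nat_lit 204))) (XT.nd (nat_lit 56400) (nat_lit 0) (nat_lit 5376) (XT.lf (nat_lit 0) (nat_lit 7070195958) (nat_lit 504) (nat_lit 8121172765) (nat_lit 588) (nat_lit 7623304091) (nat_lit 112) (nat_lit 5) (nat_lit 118) (nat_lit 5) (nat_lit 119) (nat_lit 5) (nat_lit 387) (nat_lit 355) (nat_lit 203)) (XT.lf (nat_lit 0) (nat_lit 3652475448) (nat_lit 1260) (nat_lit 1677888775) (nat_lit 1260) (nat_lit 1677888775) (nat_lit 176) (nat_lit 3) (nat_lit 191) (nat_lit 3) (nat_lit 191) (nat_lit 5) (nat_lit 356) (nat_lit 356) (nat_lit 233)))) (XT.nd (nat_lit 188) (nat_lit 0) (nat_lit 84) (XT.nd (nat_lit 94) (nat_lit 0) (nat_lit 84) (XT.lf (nat_lit 84) (nat_lit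 2764479001) (nat_lit 0) (nat_lit 4991910812) (nat_lit 1260) (nat_lit 6459505371) (nat_lit 177) (nat_lit 5) (nat_lit 176) (nat_lit 3) (nat_lit 191) (nat_lit 5) (nat_lit 357) (nat_lit 356) (nat_lit 232)) (XT.lf (nat_lit 0) (nat_lit 8251425267) (nat_lit 1176) (nat_lit 5298519471) (nat_lit 1260) (nat_lit 870443219) (nat_lit 177) (nat_lit 5) (nat_lit 191) (nat_lit 5) (nat_lit 192) (nat_lit 5) (nat_lit 358) (nat_lit 356) (nat_lit 231))) (XT.nd (nat_lit 94) (nat_lit 0) (nat_lit 0) (XT.lf (nat_lit 84) (nat_lit 1002374651) (nat_lit 0) (nat_lit 7806045466) (nat_lit 1260) (nat_lit 5821204975) (nat_lit 178) (nat_lit 5) (nat_lit 177) (nat_lit 5) (nat_lit 192) (nat_lit 5) (nat_lit 359) (nat_lit 356) (nat_lit 230)) (XT.lf (nat_lit 84) (nat_lit 7594251410) (nat_lit 0) (nat_lit 1829710205) (nat_lit 1260) (nat_lit 5419944785) (nat_lit 178) (nat_lit 5) (nat_lit 177) (nat_lit 5) (nat_lit 192) (nat_lit 5) (nat_lit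 360) (nat_lit 356) (nat_lit 229))))) (XT.nd (nat_lit 376) (nat_lit 0) (nat_lit 84) (XT.nd (nat_lit 188) (nat_lit 0) (nat_lit 84) (XT.nd (nat_lit 94) (nat_lit 0) (nat_lit 0) (XT.lf (nat_lit 0) (nat_lit 10088271435) (nat_lit 1176) (nat_lit 729187826) (nat_lit 1260) (nat_lit 4246269341) (nat_lit 178) (nat_lit 5) (nat_lit 192) (nat_lit 5) (nat_lit 193) (nat_lit 5) (nat_lit 361) (nat_lit 356) (nat_lit 228)) (XT.lf (nat_lit 84) (nat_lit 6080762355) (nat_lit 0) (nat_lit 4757363458) (nat_lit 1260) (nat_lit 4450072089) (nat_lit 179) (nat_lit 5) (nat_lit 178) (nat_lit 5) (nat_lit 193) (nat_lit 5) (nat_lit 362) (nat_lit 356) (nat_lit 227))) (XT.nd (nat_lit 94) (nat_lit 0) (nat_lit 0) (XT.lf (nat_lit 0) (nat_lit 11621524483) (nat_lit 1176) (nat_lit 2430552593) (nat_lit 1260) (nat_lit 1467013027) (nat_lit 179) (nat_lit 5) (nat_lit 193) (nat_lit 5) (nat_lit 194) (nat_lit 5) (nat_lit 363) (nat_lit 356) (nat_lit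 226)) (XT.lf (nat_lit 84) (nat_lit 4585224283) (nat_lit 0) (nat_lit 7924031970) (nat_lit 1260) (nat_lit 3245247575) (nat_lit 180) (nat_lit 5) (nat_lit 179) (nat_lit 5) (nat_lit 194) (nat_lit 5) (nat_lit 364) (nat_lit 356) (nat_lit 225)))) (XT.nd (nat_lit 188) (nat_lit 0) (nat_lit 84) (XT.nd (nat_lit 94) (nat_lit 0) (nat_lit 84) (XT.lf (nat_lit 84) (nat_lit 11854580724) (nat_lit 0) (nat_lit 1583472426) (nat_lit 1260) (nat_lit 2558512937) (nat_lit 180) (nat_lit 5) (nat_lit 179) (nat_lit 5) (nat_lit 194) (nat_lit 5) (nat_lit 365) (nat_lit 356) (nat_lit 224)) (XT.lf (nat_lit 84) (nat_lit 3102240275) (nat_lit 0) (nat_lit 11360066329) (nat_lit 1260) (nat_lit 1781574390) (nat_lit 181) (nat_lit 5) (nat_lit 180) (nat_lit 5) (nat_lit 195) (nat_lit 5) (nat_lit 366) (nat_lit 356) (nat_lit 223))) (XT.nd (nat_lit 94) (nat_lit 0) (nat_lit 84) (XT.lf (nat_lit 84) (nat_lit 10625909941) (nat_lit 0) (nat_lit 4939163026)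 (nat_lit 1260) (nat_lit 932126845) (nat_lit 181) (nat_lit 5) (nat_lit 180) (nat_lit 5) (nat_lit 195) (nat_lit 5) (nat_lit 367) (nat_lit 356) (nat_lit 222)) (XT.lf (nat_lit 84) (nat_lit 1625879965) (nat_lit 0) (nat_lit 15097505882) (nat_lit 1260) (nat_lit 34075936) (nat_lit 182) (nat_lit 5) (nat_lit 181) (nat_lit 5) (nat_lit 196) (nat_lit 5) (nat_lit 368) (nat_lit 356) (nat_lit 221)))))) (XT.nd (nat_lit 752) (nat_lit 2436) (nat_lit 0) (XT.nd (nat_lit 376) (nat_lit 1092) (nat_lit 0) (XT.nd (nat_lit 188) (nat_lit 0) (nat_lit 84) (XT.nd (nat_lit 94) (nat_lit 0) (nat_lit 0) (XT.lf (nat_lit 0) (nat_lit 973146675) (nat_lit 1260) (nat_lit 7620540273) (nat_lit 1344) (nat_lit 8428615779) (nat_lit 166) (nat_lit 5) (nat_lit 181) (nat_lit 5) (nat_lit 182) (nat_lit 5) (nat_lit 369) (nat_lit 356) (nat_lit 220)) (XT.lf (nat_lit 84) (nat_lit 110808626) (nat_lit 0) (nat_lit 1891261520) (nat_lit 1344) (nat_lit 15293259572)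 (nat_lit 167) (nat_lit 5) (nat_lit 166) (nat_lit 5) (nat_lit 182) (nat_lit 5) (nat_lit 370) (nat_lit 356) (nat_lit 219))) (XT.nd (nat_lit 94) (nat_lit 0) (nat_lit 0) (XT.lf (nat_lit 0) (nat_lit 3179072722) (nat_lit 1260) (nat_lit 9399946644) (nat_lit 1344) (nat_lit 4994027355) (nat_lit 167) (nat_lit 5) (nat_lit 182) (nat_lit 5) (nat_lit 183) (nat_lit 5) (nat_lit 371) (nat_lit 356) (nat_lit 218)) (XT.lf (nat_lit 0) (nat_lit 4401679955) (nat_lit 1260) (nat_lit 1407430914) (nat_lit 1344) (nat_lit 12049690619) (nat_lit 167) (nat_lit 5) (nat_lit 182) (nat_lit 5) (nat_lit 183) (nat_lit 5) (nat_lit 372) (nat_lit 356) (nat_lit 217)))) (XT.nd (nat_lit 188) (nat_lit 1260) (nat_lit 0) (XT.nd (nat_lit 94) (nat_lit 0) (nat_lit 0) (XT.lf (nat_lit 0) (nat_lit 5731489639) (nat_lit 1260) (nat_lit 11209363061) (nat_lit 84) (nat_lit 1210175123) (nat_lit 168) (nat_lit 5) (nat_lit 183) (nat_lit 5) (nat_lit 169) (nat_lit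 5) (nat_lit 373) (nat_lit 356) (nat_lit 216)) (XT.lf (nat_lit 0) (nat_lit 7165065767) (nat_lit 1260) (nat_lit 2946040103) (nat_lit 84) (nat_lit 8339013139) (nat_lit 168) (nat_lit 5) (nat_lit 183) (nat_lit 5) (nat_lit 169) (nat_lit 5) (nat_lit 374) (nat_lit 356) (nat_lit 215))) (XT.nd (nat_lit 94) (nat_lit 0) (nat_lit 0) (XT.lf (nat_lit 0) (nat_lit 5669134850) (nat_lit 1260) (nat_lit 3019245633) (nat_lit 1344) (nat_lit 10068414320) (nat_lit 153) (nat_lit 5) (nat_lit 168) (nat_lit 5) (nat_lit 169) (nat_lit 5) (nat_lit 375) (nat_lit 356) (nat_lit 214)) (XT.lf (nat_lit 0) (nat_lit 10321040300) (nat_lit 1344) (nat_lit 4516969069) (nat_lit 84) (nat_lit 4232765541) (nat_lit 153) (nat_lit 5) (nat_lit 169) (nat_lit 5) (nat_lit 154) (nat_lit 5) (nat_lit 376) (nat_lit 356) (nat_lit 213))))) (XT.nd (nat_lit 376) (nat_lit 1260) (nat_lit 0) (XT.nd (nat_lit 188) (nat_lit 588) (nat_lit 0) (XT.nd (nat_lit 94) (nat_lit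 0) (nat_lit 0) (XT.lf (nat_lit 0) (nat_lit 4359357028) (nat_lit 588) (nat_lit 7707750610) (nat_lit 672) (nat_lit 7325146968) (nat_lit 146) (nat_lit 5) (nat_lit 153) (nat_lit 5) (nat_lit 154) (nat_lit 5) (nat_lit 377) (nat_lit 356) (nat_lit 212)) (XT.lf (nat_lit 0) (nat_lit 13587972879) (nat_lit 588) (nat_lit 315977346) (nat_lit 672) (nat_lit 5818289311) (nat_lit 146) (nat_lit 5) (nat_lit 153) (nat_lit 5) (nat_lit 154) (nat_lit 5) (nat_lit 378) (nat_lit 356) (nat_lit 211))) (XT.nd (nat_lit 94) (nat_lit 0) (nat_lit 0) (XT.lf (nat_lit 0) (nat_lit 3013346112) (nat_lit 588) (nat_lit 12874663418) (nat_lit 672) (nat_lit 4171363411) (nat_lit 139) (nat_lit 5) (nat_lit 146) (nat_lit 5) (nat_lit 147) (nat_lit 5) (nat_lit 379) (nat_lit 356) (nat_lit 210)) (XT.lf (nat_lit 0) (nat_lit 12551378158) (nat_lit 588) (nat_lit 5438392020) (nat_lit 672) (nat_lit 2415116697) (nat_lit 139) (nat_lit 5) (nat_lit 146) (nat_lit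 5) (nat_lit 147) (nat_lit 5) (nat_lit 380) (nat_lit 356) (nat_lit 209)))) (XT.nd (nat_lit 188) (nat_lit 588) (nat_lit 0) (XT.nd (nat_lit 94) (nat_lit 84) (nat_lit 0) (XT.lf (nat_lit 0) (nat_lit 1618429203) (nat_lit 588) (nat_lit 18566401402) (nat_lit 672) (nat_lit 575039780) (nat_lit 132) (nat_lit 5) (nat_lit 139) (nat_lit 5) (nat_lit 140) (nat_lit 5) (nat_lit 381) (nat_lit 356) (nat_lit 208)) (XT.lf (nat_lit 0) (nat_lit 1421808467) (nat_lit 672) (nat_lit 9661596939) (nat_lit 84) (nat_lit 10037908219) (nat_lit 131) (nat_lit 5) (nat_lit 139) (nat_lit 5) (nat_lit 132) (nat_lit 5) (nat_lit 382) (nat_lit 356) (nat_lit 207))) (XT.nd (nat_lit 94) (nat_lit 0) (nat_lit 0) (XT.lf (nat_lit 0) (nat_lit 92278428) (nat_lit 588) (nat_lit 3369201340) (nat_lit 672) (nat_lit 18032125915) (nat_lit 124) (nat_lit 5) (nat_lit 131) (nat_lit 5) (nat_lit 132) (nat_lit 5) (nat_lit 383) (nat_lit 356) (nat_lit 206)) (XT.lf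 (nat_lit 0) (nat_lit 5698574081) (nat_lit 672) (nat_lit 11588879377) (nat_lit 84) (nat_lit 4585536335) (nat_lit 124) (nat_lit 5) (nat_lit 132) (nat_lit 5) (nat_lit 125) (nat_lit 5) (nat_lit 384) (nat_lit 356) (nat_lit 205))))))))
noncomputable def xc57 : XT := (XT.nd (nat_lit 59314) (nat_lit 0) (nat_lit 0) (XT.nd (nat_lit 57810) (nat_lit 0) (nat_lit 504) (XT.nd (nat_lit 57058) (nat_lit 0) (nat_lit 4956) (XT.nd (nat_lit 56682) (nat_lit 0) (nat_lit 4872) (XT.nd (nat_lit 94) (nat_lit 504) (nat_lit 0) (XT.lf (nat_lit 0) (nat_lit 8030035072) (nat_lit 672) (nat_lit 1521829779) (nat_lit 84) (nat_lit 12711082937) (nat_lit 124) (nat_lit 5) (nat_lit 132) (nat_lit 5) (nat_lit 125) (nat_lit 5) (nat_lit 385) (nat_lit 356) (nat_lit 204)) (XT.nd (nat_lit 94) (nat_lit 0) (nat_lit 0) (XT.lf (nat_lit 0) (nat_lit 9016958144) (nat_lit 504) (nat_lit 1495231490) (nat_lit 588) (nat_lit 12150002084) (nat_lit 118) (nat_lit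 5) (nat_lit 124) (nat_lit 5) (nat_lit 125) (nat_lit 5) (nat_lit 386) (nat_lit 356) (nat_lit 203)) (XT.lf (nat_lit 0) (nat_lit 13143907249) (nat_lit 588) (nat_lit 3241739809) (nat_lit 84) (nat_lit 6685522361) (nat_lit 118) (nat_lit 5) (nat_lit 125) (nat_lit 5) (nat_lit 119) (nat_lit 5) (nat_lit 387) (nat_lit 356) (nat_lit 202)))) (XT.nd (nat_lit 188) (nat_lit 0) (nat_lit 84) (XT.nd (nat_lit 94) (nat_lit 0) (nat_lit 0) (XT.lf (nat_lit 0) (nat_lit 4074309734) (nat_lit 1260) (nat_lit 1567113191) (nat_lit 1260) (nat_lit 1567113191) (nat_lit 176) (nat_lit 3) (nat_lit 191) (nat_lit 3) (nat_lit 191) (nat_lit 5) (nat_lit 357) (nat_lit 357) (nat_lit 231)) (XT.lf (nat_lit 84) (nat_lit 3166478802) (nat_lit 0) (nat_lit 5431999897) (nat_lit 1260) (nat_lit 6024452838) (nat_lit 177) (nat_lit 5) (nat_lit 176) (nat_lit 3) (nat_lit 191) (nat_lit 5) (nat_lit 358) (nat_lit 357) (nat_lit 230))) (XT.nd (nat_lit 94) (nat_lit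 0) (nat_lit 0) (XT.lf (nat_lit 0) (nat_lit 9087906224) (nat_lit 1176) (nat_lit 5126118958) (nat_lit 1260) (nat_lit 620181426) (nat_lit 177) (nat_lit 5) (nat_lit 191) (nat_lit 5) (nat_lit 192) (nat_lit 5) (nat_lit 359) (nat_lit 357) (nat_lit 229)) (XT.lf (nat_lit 84) (nat_lit 1360553399) (nat_lit 0) (nat_lit 8287057951) (nat_lit 1260) (nat_lit 5402562257) (nat_lit 178) (nat_lit 5) (nat_lit 177) (nat_lit 5) (nat_lit 192) (nat_lit 5) (nat_lit 360) (nat_lit 357) (nat_lit 228))))) (XT.nd (nat_lit 376) (nat_lit 0) (nat_lit 168) (XT.nd (nat_lit 188) (nat_lit 0) (nat_lit 84) (XT.nd (nat_lit 94) (nat_lit 0) (nat_lit 84) (XT.lf (nat_lit 84) (nat_lit 8140629932) (nat_lit 0) (nat_lit 2124243376) (nat_lit 1260) (nat_lit 5006544227) (nat_lit 178) (nat_lit 5) (nat_lit 177) (nat_lit 5) (nat_lit 192) (nat_lit 5) (nat_lit 361) (nat_lit 357) (nat_lit 227)) (XT.lf (nat_lit 0) (nat_lit 10930617889) (nat_lit 1176) (nat_lit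 422266743) (nat_lit 1260) (nat_lit 4145535490) (nat_lit 178) (nat_lit 5) (nat_lit 192) (nat_lit 5) (nat_lit 193) (nat_lit 5) (nat_lit 362) (nat_lit 357) (nat_lit 226))) (XT.nd (nat_lit 94) (nat_lit 0) (nat_lit 84) (XT.lf (nat_lit 84) (nat_lit 6588758447) (nat_lit 0) (nat_lit 5101619692) (nat_lit 1260) (nat_lit 4039653036) (nat_lit 179) (nat_lit 5) (nat_lit 178) (nat_lit 5) (nat_lit 193) (nat_lit 5) (nat_lit 363) (nat_lit 357) (nat_lit 225)) (XT.lf (nat_lit 0) (nat_lit 12480045237) (nat_lit 1176) (nat_lit 2169174835) (nat_lit 1260) (nat_lit 1319176185) (nat_lit 179) (nat_lit 5) (nat_lit 193) (nat_lit 5) (nat_lit 194) (nat_lit 5) (nat_lit 364) (nat_lit 357) (nat_lit 224)))) (XT.nd (nat_lit 188) (nat_lit 0) (nat_lit 84) (XT.nd (nat_lit 94) (nat_lit 0) (nat_lit 0) (XT.lf (nat_lit 84) (nat_lit 5053797951) (nat_lit 0) (nat_lit 8328942217) (nat_lit 1260) (nat_lit 2828510550) (nat_lit 180) (nat_lit 5)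 (nat_lit 179) (nat_lit 5) (nat_lit 194) (nat_lit 5) (nat_lit 365) (nat_lit 357) (nat_lit 223)) (XT.lf (nat_lit 84) (nat_lit 12531593815) (nat_lit 0) (nat_lit 1793296296) (nat_lit 1260) (nat_lit 2136147498) (nat_lit 180) (nat_lit 5) (nat_lit 179) (nat_lit 5) (nat_lit 194) (nat_lit 5) (nat_lit 366) (nat_lit 357) (nat_lit 222))) (XT.nd (nat_lit 94) (nat_lit 0) (nat_lit 0) (XT.lf (nat_lit 84) (nat_lit 3530351661) (nat_lit 0) (nat_lit 11837137074) (nat_lit 1260) (nat_lit 1348681341) (nat_lit 181) (nat_lit 5) (nat_lit 180) (nat_lit 5) (nat_lit 195) (nat_lit 5) (nat_lit 367) (nat_lit 357) (nat_lit 221)) (XT.lf (nat_lit 84) (nat_lit 11269972848) (nat_lit 0) (nat_lit 5219637679) (nat_lit 1260) (nat_lit 487915620) (nat_lit 181) (nat_lit 5) (nat_lit 180) (nat_lit 5) (nat_lit 195) (nat_lit 5) (nat_lit 368) (nat_lit 357) (nat_lit 220)))))) (XT.nd (nat_lit 752) (nat_lit 2436) (nat_lit 0) (XT.nd (nat_lit 376)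 (nat_lit 1092) (nat_lit 0) (XT.nd (nat_lit 188) (nat_lit 0) (nat_lit 0) (XT.nd (nat_lit 94) (nat_lit 0) (nat_lit 0) (XT.lf (nat_lit 0) (nat_lit 417095950) (nat_lit 1260) (nat_lit 15237590922) (nat_lit 1344) (nat_lit 1591150998) (nat_lit 166) (nat_lit 5) (nat_lit 181) (nat_lit 5) (nat_lit 182) (nat_lit 5) (nat_lit 369) (nat_lit 357) (nat_lit 219)) (XT.lf (nat_lit 0) (nat_lit 1440699592) (nat_lit 1260) (nat_lit 7511679816) (nat_lit 1344) (nat_lit 8566652705) (nat_lit 166) (nat_lit 5) (nat_lit 181) (nat_lit 5) (nat_lit 182) (nat_lit 5) (nat_lit 370) (nat_lit 357) (nat_lit 218))) (XT.nd (nat_lit 94) (nat_lit 0) (nat_lit 84) (XT.lf (nat_lit 84) (nat_lit 448300956) (nat_lit 0) (nat_lit 2042634315) (nat_lit 1344) (nat_lit 15309624286) (nat_lit 167) (nat_lit 5) (nat_lit 166) (nat_lit 5) (nat_lit 182) (nat_lit 5) (nat_lit 371) (nat_lit 357) (nat_lit 217)) (XT.lf (nat_lit 0) (nat_lit 3689875323) (nat_lit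 1260) (nat_lit 9343393769) (nat_lit 1344) (nat_lit 5053762465) (nat_lit 167) (nat_lit 5) (nat_lit 182) (nat_lit 5) (nat_lit 183) (nat_lit 5) (nat_lit 372) (nat_lit 357) (nat_lit 216)))) (XT.nd (nat_lit 188) (nat_lit 1176) (nat_lit 0) (XT.nd (nat_lit 94) (nat_lit 0) (nat_lit 84) (XT.lf (nat_lit 0) (nat_lit 4937060857) (nat_lit 1260) (nat_lit 1120963283) (nat_lit 1344) (nat_lit 12323719484) (nat_lit 167) (nat_lit 5) (nat_lit 182) (nat_lit 5) (nat_lit 183) (nat_lit 5) (nat_lit 373) (nat_lit 357) (nat_lit 215)) (XT.lf (nat_lit 0) (nat_lit 6297480329) (nat_lit 1260) (nat_lit 11206967928) (nat_lit 84) (nat_lit 1178588056) (nat_lit 168) (nat_lit 5) (nat_lit 183) (nat_lit 5) (nat_lit 169) (nat_lit 5) (nat_lit 374) (nat_lit 357) (nat_lit 214))) (XT.nd (nat_lit 94) (nat_lit 1260) (nat_lit 0) (XT.lf (nat_lit 0) (nat_lit 7762586673) (nat_lit 1260) (nat_lit 2705609632) (nat_lit 84) (nat_lit 8523268659) (nat_lit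 168) (nat_lit 5) (nat_lit 183) (nat_lit 5) (nat_lit 169) (nat_lit 5) (nat_lit 375) (nat_lit 357) (nat_lit 213)) (XT.lf (nat_lit 0) (nat_lit 6164796926) (nat_lit 1260) (nat_lit 3158790871) (nat_lit 1344) (nat_lit 9984013447) (nat_lit 153) (nat_lit 5) (nat_lit 168) (nat_lit 5) (nat_lit 169) (nat_lit 5) (nat_lit 376) (nat_lit 357) (nat_lit 212))))) (XT.nd (nat_lit 376) (nat_lit 1260) (nat_lit 0) (XT.nd (nat_lit 188) (nat_lit 588) (nat_lit 0) (XT.nd (nat_lit 94) (nat_lit 588) (nat_lit 0) (XT.lf (nat_lit 0) (nat_lit 10993861014) (nat_lit 1344) (nat_lit 4324365381) (nat_lit 84) (nat_lit 4313134595) (nat_lit 153) (nat_lit 5) (nat_lit 169) (nat_lit 5) (nat_lit 154) (nat_lit 5) (nat_lit 377) (nat_lit 357) (nat_lit 211)) (XT.lf (nat_lit 0) (nat_lit 4815033707) (nat_lit 588) (nat_lit 7969821429) (nat_lit 672) (nat_lit 7177872283) (nat_lit 146) (nat_lit 5) (nat_lit 153) (nat_lit 5) (nat_lit 154) (nat_lit 5)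 (nat_lit 378) (nat_lit 357) (nat_lit 210))) (XT.nd (nat_lit 94) (nat_lit 588) (nat_lit 0) (XT.lf (nat_lit 0) (nat_lit 14311045044) (nat_lit 588) (nat_lit 355396765) (nat_lit 672) (nat_lit 5636499064) (nat_lit 146) (nat_lit 5) (nat_lit 153) (nat_lit 5) (nat_lit 154) (nat_lit 5) (nat_lit 379) (nat_lit 357) (nat_lit 209)) (XT.lf (nat_lit 0) (nat_lit 3427230317) (nat_lit 588) (nat_lit 13275563270) (nat_lit 672) (nat_lit 3947629182) (nat_lit 139) (nat_lit 5) (nat_lit 146) (nat_lit 5) (nat_lit 147) (nat_lit 5) (nat_lit 380) (nat_lit 357) (nat_lit 208)))) (XT.nd (nat_lit 188) (nat_lit 672) (nat_lit 0) (XT.nd (nat_lit 94) (nat_lit 588) (nat_lit 0) (XT.lf (nat_lit 0) (nat_lit 13241981465) (nat_lit 588) (nat_lit 5615776741) (nat_lit 672) (nat_lit 2148856479) (nat_lit 139) (nat_lit 5) (nat_lit 146) (nat_lit 5) (nat_lit 147) (nat_lit 5) (nat_lit 381) (nat_lit 357) (nat_lit 207)) (XT.lf (nat_lit 0) (nat_lit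 1988417128) (nat_lit 588) (nat_lit 19123648329) (nat_lit 672) (nat_lit 260396993) (nat_lit 132) (nat_lit 5) (nat_lit 139) (nat_lit 5) (nat_lit 140) (nat_lit 5) (nat_lit 382) (nat_lit 357) (nat_lit 206))) (XT.nd (nat_lit 94) (nat_lit 588) (nat_lit 0) (XT.lf (nat_lit 0) (nat_lit 1780402074) (nat_lit 672) (nat_lit 9632562588) (nat_lit 84) (nat_lit 10331988608) (nat_lit 131) (nat_lit 5) (nat_lit 139) (nat_lit 5) (nat_lit 132) (nat_lit 5) (nat_lit 383) (nat_lit 357) (nat_lit 205)) (XT.lf (nat_lit 0) (nat_lit 410802743) (nat_lit 588) (nat_lit 3464293893) (nat_lit 672) (nat_lit 18253517652) (nat_lit 124) (nat_lit 5) (nat_lit 131) (nat_lit 5) (nat_lit 132) (nat_lit 5) (nat_lit 384) (nat_lit 357) (nat_lit 204))))))) (XT.nd (nat_lit 57998) (nat_lit 0) (nat_lit 504) (XT.nd (nat_lit 57246) (nat_lit 0) (nat_lit 4032) (XT.nd (nat_lit 56870) (nat_lit 0) (nat_lit 4872) (XT.nd (nat_lit 188) (nat_lit 504) (nat_lit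 0) (XT.nd (nat_lit 94) (nat_lit 0) (nat_lit 0) (XT.lf (nat_lit 0) (nat_lit 6170337121) (nat_lit 672) (nat_lit 11620528272) (nat_lit 84) (nat_lit 4728798277) (nat_lit 124) (nat_lit 5) (nat_lit 132) (nat_lit 5) (nat_lit 125) (nat_lit 5) (nat_lit 385) (nat_lit 357) (nat_lit 203)) (XT.lf (nat_lit 0) (nat_lit 8562980608) (nat_lit 672) (nat_lit 1260671579) (nat_lit 84) (nat_lit 13097945378) (nat_lit 124) (nat_lit 5) (nat_lit 132) (nat_lit 5) (nat_lit 125) (nat_lit 5) (nat_lit 386) (nat_lit 357) (nat_lit 202))) (XT.nd (nat_lit 56588) (nat_lit 0) (nat_lit 4872) (XT.lf (nat_lit 0) (nat_lit 9591272011) (nat_lit 504) (nat_lit 1522742006) (nat_lit 588) (nat_lit 12218986272) (nat_lit 118) (nat_lit 5) (nat_lit 124) (nat_lit 5) (nat_lit 125) (nat_lit 5) (nat_lit 387) (nat_lit 357) (nat_lit 201)) (XT.lf (nat_lit 0) (nat_lit 4490874045) (nat_lit 1260) (nat_lit 1462262841) (nat_lit 1260) (nat_lit 1462262841) (nat_lit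 176) (nat_lit 3) (nat_lit 191) (nat_lit 3) (nat_lit 191) (nat_lit 5) (nat_lit 358) (nat_lit 358) (nat_lit 229)))) (XT.nd (nat_lit 188) (nat_lit 0) (nat_lit 84) (XT.nd (nat_lit 94) (nat_lit 0) (nat_lit 84) (XT.lf (nat_lit 84) (nat_lit 3562222936) (nat_lit 0) (nat_lit 5868625424) (nat_lit 1260) (nat_lit 5612446585) (nat_lit 177) (nat_lit 5) (nat_lit 176) (nat_lit 3) (nat_lit 191) (nat_lit 5) (nat_lit 359) (nat_lit 358) (nat_lit 228)) (XT.lf (nat_lit 0) (nat_lit 9915674148) (nat_lit 1176) (nat_lit 4967567625) (nat_lit 1260) (nat_lit 378276840) (nat_lit 177) (nat_lit 5) (nat_lit 191) (nat_lit 5) (nat_lit 192) (nat_lit 5) (nat_lit 360) (nat_lit 358) (nat_lit 227))) (XT.nd (nat_lit 94) (nat_lit 0) (nat_lit 0) (XT.lf (nat_lit 84) (nat_lit 1710642796) (nat_lit 0) (nat_lit 8768331695) (nat_lit 1260) (nat_lit 5005416891) (nat_lit 178) (nat_lit 5) (nat_lit 177) (nat_lit 5) (nat_lit 192) (nat_lit 5) (nat_lit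 361) (nat_lit 358) (nat_lit 226)) (XT.lf (nat_lit 84) (nat_lit 8685113679) (nat_lit 0) (nat_lit 2413856119) (nat_lit 1260) (nat_lit 4613806347) (nat_lit 178) (nat_lit 5) (nat_lit 177) (nat_lit 5) (nat_lit 192) (nat_lit 5) (nat_lit 362) (nat_lit 358) (nat_lit 225))))) (XT.nd (nat_lit 376) (nat_lit 1008) (nat_lit 0) (XT.nd (nat_lit 188) (nat_lit 0) (nat_lit 84) (XT.nd (nat_lit 94) (nat_lit 0) (nat_lit 0) (XT.lf (nat_lit 0) (nat_lit 11767253845) (nat_lit 1176) (nat_lit 125012303) (nat_lit 1260) (nat_lit 4054874755) (nat_lit 178) (nat_lit 5) (nat_lit 192) (nat_lit 5) (nat_lit 193) (nat_lit 5) (nat_lit 363) (nat_lit 358) (nat_lit 224)) (XT.lf (nat_lit 84) (nat_lit 7093305186) (nat_lit 0) (nat_lit 5444634661) (nat_lit 1260) (nat_lit 3648144715) (nat_lit 179) (nat_lit 5) (nat_lit 178) (nat_lit 5) (nat_lit 193) (nat_lit 5) (nat_lit 364) (nat_lit 358) (nat_lit 223))) (XT.nd (nat_lit 94) (nat_lit 0) (nat_lit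 0) (XT.lf (nat_lit 0) (nat_lit 13335052702) (nat_lit 1176) (nat_lit 1919145607) (nat_lit 1260) (nat_lit 1177917054) (nat_lit 179) (nat_lit 5) (nat_lit 193) (nat_lit 5) (nat_lit 194) (nat_lit 5) (nat_lit 365) (nat_lit 358) (nat_lit 222)) (XT.lf (nat_lit 84) (nat_lit 5517427104) (nat_lit 0) (nat_lit 8736402423) (nat_lit 1260) (nat_lit 2428782539) (nat_lit 180) (nat_lit 5) (nat_lit 179) (nat_lit 5) (nat_lit 194) (nat_lit 5) (nat_lit 366) (nat_lit 358) (nat_lit 221)))) (XT.nd (nat_lit 188) (nat_lit 1092) (nat_lit 0) (XT.nd (nat_lit 94) (nat_lit 0) (nat_lit 84) (XT.lf (nat_lit 84) (nat_lit 13210469022) (nat_lit 0) (nat_lit 2000097067) (nat_lit 1260) (nat_lit 1729762672) (nat_lit 180) (nat_lit 5) (nat_lit 179) (nat_lit 5) (nat_lit 194) (nat_lit 5) (nat_lit 367) (nat_lit 358) (nat_lit 220)) (XT.lf (nat_lit 84) (nat_lit 3952073482) (nat_lit 0) (nat_lit 12320697557) (nat_lit 1260) (nat_lit 930719423) (nat_lit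 181) (nat_lit 5) (nat_lit 180) (nat_lit 5) (nat_lit 195) (nat_lit 5) (nat_lit 368) (nat_lit 358) (nat_lit 219))) (XT.nd (nat_lit 94) (nat_lit 1176) (nat_lit 0) (XT.lf (nat_lit 84) (nat_lit 11914684918) (nat_lit 0) (nat_lit 5500932023) (nat_lit 1260) (nat_lit 57482837) (nat_lit 181) (nat_lit 5) (nat_lit 180) (nat_lit 5) (nat_lit 195) (nat_lit 5) (nat_lit 369) (nat_lit 358) (nat_lit 218)) (XT.lf (nat_lit 0) (nat_lit 855199620) (nat_lit 1260) (nat_lit 15367071402) (nat_lit 1344) (nat_lit 1527408297) (nat_lit 166) (nat_lit 5) (nat_lit 181) (nat_lit 5) (nat_lit 182) (nat_lit 5) (nat_lit 370) (nat_lit 358) (nat_lit 217)))))) (XT.nd (nat_lit 752) (nat_lit 2436) (nat_lit 0) (XT.nd (nat_lit 376) (nat_lit 1092) (nat_lit 0) (XT.nd (nat_lit 188) (nat_lit 0) (nat_lit 84) (XT.nd (nat_lit 94) (nat_lit 0) (nat_lit 0) (XT.lf (nat_lit 0) (nat_lit 1897115523) (nat_lit 1260) (nat_lit 7418926086) (nat_lit 1344) (nat_lit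 8715421965) (nat_lit 166) (nat_lit 5) (nat_lit 181) (nat_lit 5) (nat_lit 182) (nat_lit 5) (nat_lit 371) (nat_lit 358) (nat_lit 216)) (XT.lf (nat_lit 84) (nat_lit 776735440) (nat_lit 0) (nat_lit 2193115861) (nat_lit 1344) (nat_lit 15351877409) (nat_lit 167) (nat_lit 5) (nat_lit 166) (nat_lit 5) (nat_lit 182) (nat_lit 5) (nat_lit 372) (nat_lit 358) (nat_lit 215))) (XT.nd (nat_lit 94) (nat_lit 0) (nat_lit 0) (XT.lf (nat_lit 0) (nat_lit 4192154595) (nat_lit 1260) (nat_lit 9304578536) (nat_lit 1344) (nat_lit 5120460918) (nat_lit 167) (nat_lit 5) (nat_lit 182) (nat_lit 5) (nat_lit 183) (nat_lit 5) (nat_lit 373) (nat_lit 358) (nat_lit 214)) (XT.lf (nat_lit 0) (nat_lit 5465350365) (nat_lit 1260) (nat_lit 844769807) (nat_lit 1344) (nat_lit 12610989882) (nat_lit 167) (nat_lit 5) (nat_lit 182) (nat_lit 5) (nat_lit 183) (nat_lit 5) (nat_lit 374) (nat_lit 358) (nat_lit 213)))) (XT.nd (nat_lit 188) (nat_lit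 1260) (nat_lit 0) (XT.nd (nat_lit 94) (nat_lit 0) (nat_lit 0) (XT.lf (nat_lit 0) (nat_lit 6857830887) (nat_lit 1260) (nat_lit 11223942331) (nat_lit 84) (nat_lit 1149950675) (nat_lit 168) (nat_lit 5) (nat_lit 183) (nat_lit 5) (nat_lit 169) (nat_lit 5) (nat_lit 375) (nat_lit 358) (nat_lit 212)) (XT.lf (nat_lit 0) (nat_lit 8356072184) (nat_lit 1260) (nat_lit 2476841381) (nat_lit 84) (nat_lit 8716835629) (nat_lit 168) (nat_lit 5) (nat_lit 183) (nat_lit 5) (nat_lit 169) (nat_lit 5) (nat_lit 376) (nat_lit 358) (nat_lit 211))) (XT.nd (nat_lit 94) (nat_lit 0) (nat_lit 0) (XT.lf (nat_lit 0) (nat_lit 6656638780) (nat_lit 1260) (nat_lit 3299711510) (nat_lit 1344) (nat_lit 9919264549) (nat_lit 153) (nat_lit 5) (nat_lit 168) (nat_lit 5) (nat_lit 169) (nat_lit 5) (nat_lit 377) (nat_lit 358) (nat_lit 210)) (XT.lf (nat_lit 0) (nat_lit 11666017787) (nat_lit 1344) (nat_lit 4144818597) (nat_lit 84) (nat_lit 4398590550)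 (nat_lit 153) (nat_lit 5) (nat_lit 169) (nat_lit 5) (nat_lit 154) (nat_lit 5) (nat_lit 378) (nat_lit 358) (nat_lit 209))))) (XT.nd (nat_lit 376) (nat_lit 1260) (nat_lit 0) (XT.nd (nat_lit 188) (nat_lit 588) (nat_lit 0) (XT.nd (nat_lit 94) (nat_lit 0) (nat_lit 0) (XT.lf (nat_lit 0) (nat_lit 5265730329) (nat_lit 588) (nat_lit 8237984129) (nat_lit 672) (nat_lit 7047248328) (nat_lit 146) (nat_lit 5) (nat_lit 153) (nat_lit 5) (nat_lit 154) (nat_lit 5) (nat_lit 379) (nat_lit 358) (nat_lit 208)) (XT.lf (nat_lit 0) (nat_lit 15037702230) (nat_lit 588) (nat_lit 394280081) (nat_lit 672) (nat_lit 5469710421) (nat_lit 146) (nat_lit 5) (nat_lit 153) (nat_lit 5) (nat_lit 154) (nat_lit 5) (nat_lit 380) (nat_lit 358) (nat_lit 207))) (XT.nd (nat_lit 94) (nat_lit 0) (nat_lit 0) (XT.lf (nat_lit 0) (nat_lit 3834961753) (nat_lit 588) (nat_lit 13687648577) (nat_lit 672) (nat_lit 3737209787) (nat_lit 139) (nat_lit 5)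 (nat_lit 146) (nat_lit 5) (nat_lit 147) (nat_lit 5) (nat_lit 381) (nat_lit 358) (nat_lit 206)) (XT.lf (nat_lit 0) (nat_lit 13935274430) (nat_lit 588) (nat_lit 5797665974) (nat_lit 672) (nat_lit 1894052007) (nat_lit 139) (nat_lit 5) (nat_lit 146) (nat_lit 5) (nat_lit 147) (nat_lit 5) (nat_lit 382) (nat_lit 358) (nat_lit 205)))) (XT.nd (nat_lit 188) (nat_lit 588) (nat_lit 0) (XT.nd (nat_lit 94) (nat_lit 0) (nat_lit 0) (XT.lf (nat_lit 0) (nat_lit 43762053) (nat_lit 672) (nat_lit 19653394069) (nat_lit 84) (nat_lit 2306849039) (nat_lit 131) (nat_lit 5) (nat_lit 139) (nat_lit 5) (nat_lit 132) (nat_lit 5) (nat_lit 383) (nat_lit 358) (nat_lit 204)) (XT.lf (nat_lit 0) (nat_lit 2131617278) (nat_lit 672) (nat_lit 9620962353) (nat_lit 84) (nat_lit 10635296501) (nat_lit 131) (nat_lit 5) (nat_lit 139) (nat_lit 5) (nat_lit 132) (nat_lit 5) (nat_lit 384) (nat_lit 358) (nat_lit 203))) (XT.nd (nat_lit 94) (nat_lit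 0) (nat_lit 0) (XT.lf (nat_lit 0) (nat_lit 720757103) (nat_lit 588) (nat_lit 3562582699) (nat_lit 672) (nat_lit 18499895883) (nat_lit 124) (nat_lit 5) (nat_lit 131) (nat_lit 5) (nat_lit 132) (nat_lit 5) (nat_lit 385) (nat_lit 358) (nat_lit 202)) (XT.lf (nat_lit 0) (nat_lit 6638985568) (nat_lit 672) (nat_lit 11671267331) (nat_lit 84) (nat_lit 4876031112) (nat_lit 124) (nat_lit 5) (nat_lit 132) (nat_lit 5) (nat_lit 125) (nat_lit 5) (nat_lit 386) (nat_lit 358) (nat_lit 201))))))))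
noncomputable def xc58 : XT := (XT.nd (nat_lit 116184) (nat_lit 0) (nat_lit 0) (XT.nd (nat_lit 57998) (nat_lit 0) (nat_lit 0) (XT.nd (nat_lit 57246) (nat_lit 0) (nat_lit 3444) (XT.nd (nat_lit 56870) (nat_lit 0) (nat_lit 4452) (XT.nd (nat_lit 56682) (nat_lit 0) (nat_lit 4368) (XT.lf (nat_lit 0) (nat_lit 9095149961) (nat_lit 672) (nat_lit 1009290960) (nat_lit 84) (nat_lit 13496096251) (nat_lit 124) (nat_lit 5) (nat_lit 132) (nat_lit 5) (nat_lit 125) (nat_lit 5) (nat_lit 387) (nat_lit 358) (nat_lit 200)) (XT.nd (nat_lit 94) (nat_lit 0) (nat_lit 0) (XT.lf (nat_lit 0) (nat_lit 4903039251) (nat_lit 1260) (nat_lit 1362984581) (nat_lit 1260) (nat_lit 1362984581) (nat_lit 176) (nat_lit 3) (nat_lit 191) (nat_lit 3) (nat_lit 191) (nat_lit 5) (nat_lit 359) (nat_lit 359) (nat_lit 227)) (XT.lf (nat_lit 84) (nat_lit 3952575127) (nat_lit 0) (nat_lit 6302640195) (nat_lit 1260) (nat_lit 5222105835) (nat_lit 177)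 (nat_lit 5) (nat_lit 176) (nat_lit 3) (nat_lit 191) (nat_lit 5) (nat_lit 360) (nat_lit 359) (nat_lit 226)))) (XT.nd (nat_lit 188) (nat_lit 0) (nat_lit 0) (XT.nd (nat_lit 94) (nat_lit 0) (nat_lit 0) (XT.lf (nat_lit 0) (nat_lit 10736408335) (nat_lit 1176) (nat_lit 4822189053) (nat_lit 1260) (nat_lit 144069458) (nat_lit 177) (nat_lit 5) (nat_lit 191) (nat_lit 5) (nat_lit 192) (nat_lit 5) (nat_lit 361) (nat_lit 359) (nat_lit 225)) (XT.lf (nat_lit 84) (nat_lit 2053481352) (nat_lit 0) (nat_lit 9250687900) (nat_lit 1260) (nat_lit 4628458808) (nat_lit 178) (nat_lit 5) (nat_lit 177) (nat_lit 5) (nat_lit 192) (nat_lit 5) (nat_lit 362) (nat_lit 359) (nat_lit 224))) (XT.nd (nat_lit 94) (nat_lit 0) (nat_lit 84) (XT.lf (nat_lit 84) (nat_lit 9228695508) (nat_lit 0) (nat_lit 2699190496) (nat_lit 1260) (nat_lit 4240452974) (nat_lit 178) (nat_lit 5) (nat_lit 177) (nat_lit 5) (nat_lit 192) (nat_lit 5) (nat_lit 363)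 (nat_lit 359) (nat_lit 223)) (XT.lf (nat_lit 84) (nat_lit 166620314) (nat_lit 0) (nat_lit 12434767760) (nat_lit 1260) (nat_lit 3808818958) (nat_lit 179) (nat_lit 5) (nat_lit 178) (nat_lit 5) (nat_lit 193) (nat_lit 5) (nat_lit 364) (nat_lit 359) (nat_lit 222))))) (XT.nd (nat_lit 376) (nat_lit 1092) (nat_lit 0) (XT.nd (nat_lit 188) (nat_lit 0) (nat_lit 84) (XT.nd (nat_lit 94) (nat_lit 0) (nat_lit 84) (XT.lf (nat_lit 84) (nat_lit 7595371932) (nat_lit 0) (nat_lit 5787035231) (nat_lit 1260) (nat_lit 3274322102) (nat_lit 179) (nat_lit 5) (nat_lit 178) (nat_lit 5) (nat_lit 193) (nat_lit 5) (nat_lit 365) (nat_lit 359) (nat_lit 221)) (XT.lf (nat_lit 0) (nat_lit 14188121634) (nat_lit 1176) (nat_lit 1679703788) (nat_lit 1260) (nat_lit 1042800783) (nat_lit 179) (nat_lit 5) (nat_lit 193) (nat_lit 5) (nat_lit 194) (nat_lit 5) (nat_lit 366) (nat_lit 359) (nat_lit 220))) (XT.nd (nat_lit 94) (nat_lit 0) (nat_lit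 0) (XT.lf (nat_lit 84) (nat_lit 5977054181) (nat_lit 0) (nat_lit 9147040012) (nat_lit 1260) (nat_lit 2044879752) (nat_lit 180) (nat_lit 5) (nat_lit 179) (nat_lit 5) (nat_lit 194) (nat_lit 5) (nat_lit 367) (nat_lit 359) (nat_lit 219)) (XT.lf (nat_lit 84) (nat_lit 13892321213) (nat_lit 0) (nat_lit 2204318928) (nat_lit 1260) (nat_lit 1338193162) (nat_lit 180) (nat_lit 5) (nat_lit 179) (nat_lit 5) (nat_lit 194) (nat_lit 5) (nat_lit 368) (nat_lit 359) (nat_lit 218)))) (XT.nd (nat_lit 188) (nat_lit 0) (nat_lit 84) (XT.nd (nat_lit 94) (nat_lit 1260) (nat_lit 0) (XT.lf (nat_lit 84) (nat_lit 4368318099) (nat_lit 0) (nat_lit 12811391507) (nat_lit 1260) (nat_lit 526533965) (nat_lit 181) (nat_lit 5) (nat_lit 180) (nat_lit 5) (nat_lit 195) (nat_lit 5) (nat_lit 369) (nat_lit 359) (nat_lit 217)) (XT.lf (nat_lit 0) (nat_lit 353283049) (nat_lit 1260) (nat_lit 5426656093) (nat_lit 1344) (nat_lit 12204287001) (nat_lit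 165) (nat_lit 5) (nat_lit 180) (nat_lit 5) (nat_lit 181) (nat_lit 5) (nat_lit 370) (nat_lit 359) (nat_lit 216))) (XT.nd (nat_lit 94) (nat_lit 0) (nat_lit 0) (XT.lf (nat_lit 0) (nat_lit 1282015749) (nat_lit 1260) (nat_lit 15519244589) (nat_lit 1344) (nat_lit 1468152564) (nat_lit 166) (nat_lit 5) (nat_lit 181) (nat_lit 5) (nat_lit 182) (nat_lit 5) (nat_lit 371) (nat_lit 359) (nat_lit 215)) (XT.lf (nat_lit 0) (nat_lit 2343504853) (nat_lit 1260) (nat_lit 7341650223) (nat_lit 1344) (nat_lit 8874867166) (nat_lit 166) (nat_lit 5) (nat_lit 181) (nat_lit 5) (nat_lit 182) (nat_lit 5) (nat_lit 372) (nat_lit 359) (nat_lit 214)))))) (XT.nd (nat_lit 752) (nat_lit 1848) (nat_lit 0) (XT.nd (nat_lit 376) (nat_lit 1680) (nat_lit 0) (XT.nd (nat_lit 188) (nat_lit 0) (nat_lit 84) (XT.nd (nat_lit 94) (nat_lit 0) (nat_lit 84) (XT.lf (nat_lit 84) (nat_lit 1096941506) (nat_lit 0) (nat_lit 2342991264) (nat_lit 1344) (nat_lit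 15419337676) (nat_lit 167) (nat_lit 5) (nat_lit 166) (nat_lit 5) (nat_lit 182) (nat_lit 5) (nat_lit 373) (nat_lit 359) (nat_lit 213)) (XT.lf (nat_lit 0) (nat_lit 4687023780) (nat_lit 1260) (nat_lit 9282917470) (nat_lit 1344) (nat_lit 5194034759) (nat_lit 167) (nat_lit 5) (nat_lit 182) (nat_lit 5) (nat_lit 183) (nat_lit 5) (nat_lit 374) (nat_lit 359) (nat_lit 212))) (XT.nd (nat_lit 94) (nat_lit 0) (nat_lit 84) (XT.lf (nat_lit 0) (nat_lit 5987664805) (nat_lit 1260) (nat_lit 578075598) (nat_lit 1344) (nat_lit 12911610854) (nat_lit 167) (nat_lit 5) (nat_lit 182) (nat_lit 5) (nat_lit 183) (nat_lit 5) (nat_lit 375) (nat_lit 359) (nat_lit 211)) (XT.lf (nat_lit 0) (nat_lit 7413670582) (nat_lit 1260) (nat_lit 11259751339) (nat_lit 84) (nat_lit 1124127748) (nat_lit 168) (nat_lit 5) (nat_lit 183) (nat_lit 5) (nat_lit 169) (nat_lit 5) (nat_lit 376) (nat_lit 359) (nat_lit 210)))) (XT.nd (nat_lit 188) (nat_lit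 588) (nat_lit 0) (XT.nd (nat_lit 94) (nat_lit 1260) (nat_lit 0) (XT.lf (nat_lit 0) (nat_lit 8946661891) (nat_lit 1260) (nat_lit 2259001709) (nat_lit 84) (nat_lit 8919776186) (nat_lit 168) (nat_lit 5) (nat_lit 183) (nat_lit 5) (nat_lit 169) (nat_lit 5) (nat_lit 377) (nat_lit 359) (nat_lit 209)) (XT.lf (nat_lit 0) (nat_lit 7145618691) (nat_lit 1260) (nat_lit 3442210173) (nat_lit 1344) (nat_lit 9873483731) (nat_lit 153) (nat_lit 5) (nat_lit 168) (nat_lit 5) (nat_lit 169) (nat_lit 5) (nat_lit 378) (nat_lit 359) (nat_lit 208))) (XT.nd (nat_lit 94) (nat_lit 588) (nat_lit 0) (XT.lf (nat_lit 0) (nat_lit 12338687492) (nat_lit 1344) (nat_lit 3977639218) (nat_lit 84) (nat_lit 4489132409) (nat_lit 153) (nat_lit 5) (nat_lit 169) (nat_lit 5) (nat_lit 154) (nat_lit 5) (nat_lit 379) (nat_lit 359) (nat_lit 207)) (XT.lf (nat_lit 0) (nat_lit 5712368098) (nat_lit 588) (nat_lit 8512523083) (nat_lit 672) (nat_lit 6932565181)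 (nat_lit 146) (nat_lit 5) (nat_lit 153) (nat_lit 5) (nat_lit 154) (nat_lit 5) (nat_lit 380) (nat_lit 359) (nat_lit 206))))) (XT.nd (nat_lit 376) (nat_lit 588) (nat_lit 0) (XT.nd (nat_lit 188) (nat_lit 672) (nat_lit 0) (XT.nd (nat_lit 94) (nat_lit 588) (nat_lit 0) (XT.lf (nat_lit 0) (nat_lit 15769091413) (nat_lit 588) (nat_lit 432709873) (nat_lit 672) (nat_lit 5317199212) (nat_lit 146) (nat_lit 5) (nat_lit 153) (nat_lit 5) (nat_lit 154) (nat_lit 5) (nat_lit 381) (nat_lit 359) (nat_lit 205)) (XT.lf (nat_lit 0) (nat_lit 4237421791) (nat_lit 588) (nat_lit 14111303210) (nat_lit 672) (nat_lit 3539355045) (nat_lit 139) (nat_lit 5) (nat_lit 146) (nat_lit 5) (nat_lit 147) (nat_lit 5) (nat_lit 382) (nat_lit 359) (nat_lit 204))) (XT.nd (nat_lit 94) (nat_lit 672) (nat_lit 0) (XT.lf (nat_lit 0) (nat_lit 14632372649) (nat_lit 588) (nat_lit 5984241755) (nat_lit 672) (nat_lit 1649930815) (nat_lit 139) (nat_lit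 5) (nat_lit 146) (nat_lit 5) (nat_lit 147) (nat_lit 5) (nat_lit 383) (nat_lit 359) (nat_lit 203)) (XT.lf (nat_lit 0) (nat_lit 334204178) (nat_lit 672) (nat_lit 19951173451) (nat_lit 84) (nat_lit 2369596486) (nat_lit 131) (nat_lit 5) (nat_lit 139) (nat_lit 5) (nat_lit 132) (nat_lit 5) (nat_lit 384) (nat_lit 359) (nat_lit 202)))) (XT.nd (nat_lit 188) (nat_lit 0) (nat_lit 0) (XT.nd (nat_lit 94) (nat_lit 588) (nat_lit 0) (XT.lf (nat_lit 0) (nat_lit 2476273819) (nat_lit 672) (nat_lit 9626268467) (nat_lit 84) (nat_lit 10948085469) (nat_lit 131) (nat_lit 5) (nat_lit 139) (nat_lit 5) (nat_lit 132) (nat_lit 5) (nat_lit 385) (nat_lit 359) (nat_lit 201)) (XT.lf (nat_lit 0) (nat_lit 1022924899) (nat_lit 588) (nat_lit 3664143929) (nat_lit 672) (nat_lit 18770957140) (nat_lit 124) (nat_lit 5) (nat_lit 131) (nat_lit 5) (nat_lit 132) (nat_lit 5) (nat_lit 386) (nat_lit 359) (nat_lit 200))) (XT.nd (nat_lit 56776)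 (nat_lit 0) (nat_lit 4368) (XT.lf (nat_lit 0) (nat_lit 7105417208) (nat_lit 672) (nat_lit 11740627907) (nat_lit 84) (nat_lit 5027372736) (nat_lit 124) (nat_lit 5) (nat_lit 132) (nat_lit 5) (nat_lit 125) (nat_lit 5) (nat_lit 387) (nat_lit 359) (nat_lit 199)) (XT.lf (nat_lit 0) (nat_lit 5311643281) (nat_lit 1260) (nat_lit 1268945148) (nat_lit 1260) (nat_lit 1268945148) (nat_lit 176) (nat_lit 3) (nat_lit 191) (nat_lit 3) (nat_lit 191) (nat_lit 5) (nat_lit 360) (nat_lit 360) (nat_lit 225))))))) (XT.nd (nat_lit 1504) (nat_lit 3444) (nat_lit 0) (XT.nd (nat_lit 752) (nat_lit 924) (nat_lit 0) (XT.nd (nat_lit 376) (nat_lit 0) (nat_lit 168) (XT.nd (nat_lit 188) (nat_lit 0) (nat_lit 84) (XT.nd (nat_lit 94) (nat_lit 0) (nat_lit 0) (XT.lf (nat_lit 84) (nat_lit 4338364656) (nat_lit 0) (nat_lit 6734867680) (nat_lit 1260) (nat_lit 4852127341) (nat_lit 177) (nat_lit 5) (nat_lit 176) (nat_lit 3) (nat_lit 191) (nat_lit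 5) (nat_lit 361) (nat_lit 360) (nat_lit 224)) (XT.lf (nat_lit 84) (nat_lit 11467819985) (nat_lit 0) (nat_lit 84721464) (nat_lit 1260) (nat_lit 4605442140) (nat_lit 177) (nat_lit 5) (nat_lit 176) (nat_lit 3) (nat_lit 191) (nat_lit 5) (nat_lit 362) (nat_lit 360) (nat_lit 223))) (XT.nd (nat_lit 94) (nat_lit 0) (nat_lit 0) (XT.lf (nat_lit 84) (nat_lit 2389870665) (nat_lit 0) (nat_lit 9734925715) (nat_lit 1260) (nat_lit 4270450860) (nat_lit 178) (nat_lit 5) (nat_lit 177) (nat_lit 5) (nat_lit 192) (nat_lit 5) (nat_lit 363) (nat_lit 360) (nat_lit 222)) (XT.lf (nat_lit 84) (nat_lit 9772337804) (nat_lit 0) (nat_lit 2980862500) (nat_lit 1260) (nat_lit 3885276552) (nat_lit 178) (nat_lit 5) (nat_lit 177) (nat_lit 5) (nat_lit 192) (nat_lit 5) (nat_lit 364) (nat_lit 360) (nat_lit 221)))) (XT.nd (nat_lit 188) (nat_lit 0) (nat_lit 84) (XT.nd (nat_lit 94) (nat_lit 0) (nat_lit 0) (XT.lf (nat_lit 84) (nat_lit 452461244)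 (nat_lit 0) (nat_lit 12981656940) (nat_lit 1260) (nat_lit 3453892308) (nat_lit 179) (nat_lit 5) (nat_lit 178) (nat_lit 5) (nat_lit 193) (nat_lit 5) (nat_lit 365) (nat_lit 360) (nat_lit 220)) (XT.lf (nat_lit 84) (nat_lit 8095895537) (nat_lit 0) (nat_lit 6129428954) (nat_lit 1260) (nat_lit 2917026311) (nat_lit 179) (nat_lit 5) (nat_lit 178) (nat_lit 5) (nat_lit 193) (nat_lit 5) (nat_lit 366) (nat_lit 360) (nat_lit 219))) (XT.nd (nat_lit 94) (nat_lit 0) (nat_lit 0) (XT.lf (nat_lit 0) (nat_lit 15040777585) (nat_lit 1176) (nat_lit 1450128658) (nat_lit 1260) (nat_lit 913415769) (nat_lit 179) (nat_lit 5) (nat_lit 193) (nat_lit 5) (nat_lit 194) (nat_lit 5) (nat_lit 367) (nat_lit 360) (nat_lit 218)) (XT.lf (nat_lit 84) (nat_lit 6433587282) (nat_lit 0) (nat_lit 9561469610) (nat_lit 1260) (nat_lit 1675680135) (nat_lit 180) (nat_lit 5) (nat_lit 179) (nat_lit 5) (nat_lit 194) (nat_lit 5) (nat_lit 368) (nat_lit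 360) (nat_lit 217))))) (XT.nd (nat_lit 376) (nat_lit 0) (nat_lit 84) (XT.nd (nat_lit 188) (nat_lit 1176) (nat_lit 0) (XT.nd (nat_lit 94) (nat_lit 0) (nat_lit 84) (XT.lf (nat_lit 84) (nat_lit 14578237913) (nat_lit 0) (nat_lit 2406388687) (nat_lit 1260) (nat_lit 960333121) (nat_lit 180) (nat_lit 5) (nat_lit 179) (nat_lit 5) (nat_lit 194) (nat_lit 5) (nat_lit 369) (nat_lit 360) (nat_lit 216)) (XT.lf (nat_lit 84) (nat_lit 4779961866) (nat_lit 0) (nat_lit 13309856189) (nat_lit 1260) (nat_lit 135027656) (nat_lit 181) (nat_lit 5) (nat_lit 180) (nat_lit 5) (nat_lit 195) (nat_lit 5) (nat_lit 370) (nat_lit 360) (nat_lit 215))) (XT.nd (nat_lit 94) (nat_lit 0) (nat_lit 84) (XT.lf (nat_lit 0) (nat_lit 751604252) (nat_lit 1260) (nat_lit 5308616793) (nat_lit 1344) (nat_lit 12451199237) (nat_lit 165) (nat_lit 5) (nat_lit 180) (nat_lit 5) (nat_lit 181) (nat_lit 5) (nat_lit 371) (nat_lit 360) (nat_lit 214)) (XT.lf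 (nat_lit 0) (nat_lit 1698608128) (nat_lit 1260) (nat_lit 15693711590) (nat_lit 1344) (nat_lit 1413151066) (nat_lit 166) (nat_lit 5) (nat_lit 181) (nat_lit 5) (nat_lit 182) (nat_lit 5) (nat_lit 372) (nat_lit 360) (nat_lit 213)))) (XT.nd (nat_lit 188) (nat_lit 0) (nat_lit 84) (XT.nd (nat_lit 94) (nat_lit 0) (nat_lit 0) (XT.lf (nat_lit 0) (nat_lit 2780928355) (nat_lit 1260) (nat_lit 7279268336) (nat_lit 1344) (nat_lit 9044951942) (nat_lit 166) (nat_lit 5) (nat_lit 181) (nat_lit 5) (nat_lit 182) (nat_lit 5) (nat_lit 373) (nat_lit 360) (nat_lit 212)) (XT.lf (nat_lit 84) (nat_lit 1409710249) (nat_lit 0) (nat_lit 2492536283) (nat_lit 1344) (nat_lit 15511387073) (nat_lit 167) (nat_lit 5) (nat_lit 166) (nat_lit 5) (nat_lit 182) (nat_lit 5) (nat_lit 374) (nat_lit 360) (nat_lit 211))) (XT.nd (nat_lit 94) (nat_lit 0) (nat_lit 0) (XT.lf (nat_lit 0) (nat_lit 5175550928) (nat_lit 1260) (nat_lit 9277873631) (nat_lit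 1344) (nat_lit 5274410438) (nat_lit 167) (nat_lit 5) (nat_lit 182) (nat_lit 5) (nat_lit 183) (nat_lit 5) (nat_lit 375) (nat_lit 360) (nat_lit 210)) (XT.lf (nat_lit 0) (nat_lit 6505077696) (nat_lit 1260) (nat_lit 320144699) (nat_lit 1344) (nat_lit 13225711254) (nat_lit 167) (nat_lit 5) (nat_lit 182) (nat_lit 5) (nat_lit 183) (nat_lit 5) (nat_lit 376) (nat_lit 360) (nat_lit 209)))))) (XT.nd (nat_lit 752) (nat_lit 1260) (nat_lit 0) (XT.nd (nat_lit 376) (nat_lit 1176) (nat_lit 0) (XT.nd (nat_lit 188) (nat_lit 1260) (nat_lit 0) (XT.nd (nat_lit 94) (nat_lit 0) (nat_lit 0) (XT.lf (nat_lit 0) (nat_lit 7966088021) (nat_lit 1260) (nat_lit 11313908041) (nat_lit 84) (nat_lit 1100992831) (nat_lit 168) (nat_lit 5) (nat_lit 183) (nat_lit 5) (nat_lit 169) (nat_lit 5) (nat_lit 377) (nat_lit 360) (nat_lit 208)) (XT.lf (nat_lit 0) (nat_lit 9535457206) (nat_lit 1260) (nat_lit 2051397159) (nat_lit 84) (nat_lit 9132166802)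 (nat_lit 168) (nat_lit 5) (nat_lit 183) (nat_lit 5) (nat_lit 169) (nat_lit 5) (nat_lit 378) (nat_lit 360) (nat_lit 207))) (XT.nd (nat_lit 94) (nat_lit 0) (nat_lit 0) (XT.lf (nat_lit 0) (nat_lit 7632662102) (nat_lit 1260) (nat_lit 3586486297) (nat_lit 1344) (nat_lit 9846039687) (nat_lit 153) (nat_lit 5) (nat_lit 168) (nat_lit 5) (nat_lit 169) (nat_lit 5) (nat_lit 379) (nat_lit 360) (nat_lit 206)) (XT.lf (nat_lit 0) (nat_lit 13013013609) (nat_lit 1344) (nat_lit 3822179124) (nat_lit 84) (nat_lit 4584767964) (nat_lit 153) (nat_lit 5) (nat_lit 169) (nat_lit 5) (nat_lit 154) (nat_lit 5) (nat_lit 380) (nat_lit 360) (nat_lit 205)))) (XT.nd (nat_lit 188) (nat_lit 588) (nat_lit 0) (XT.nd (nat_lit 94) (nat_lit 0) (nat_lit 0) (XT.lf (nat_lit 0) (nat_lit 6155834399) (nat_lit 588) (nat_lit 8793725367) (nat_lit 672) (nat_lit 6833161048) (nat_lit 146) (nat_lit 5) (nat_lit 153) (nat_lit 5) (nat_lit 154) (nat_lit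 5) (nat_lit 381) (nat_lit 360) (nat_lit 204)) (XT.lf (nat_lit 0) (nat_lit 16506334310) (nat_lit 588) (nat_lit 470765530) (nat_lit 672) (nat_lit 5178286947) (nat_lit 146) (nat_lit 5) (nat_lit 153) (nat_lit 5) (nat_lit 154) (nat_lit 5) (nat_lit 382) (nat_lit 360) (nat_lit 203))) (XT.nd (nat_lit 94) (nat_lit 0) (nat_lit 0) (XT.lf (nat_lit 0) (nat_lit 4635457053) (nat_lit 588) (nat_lit 14546919783) (nat_lit 672) (nat_lit 3353358267) (nat_lit 139) (nat_lit 5) (nat_lit 146) (nat_lit 5) (nat_lit 147) (nat_lit 5) (nat_lit 383) (nat_lit 360) (nat_lit 202)) (XT.lf (nat_lit 0) (nat_lit 15334365778) (nat_lit 588) (nat_lit 6175688888) (nat_lit 672) (nat_lit 1415761332) (nat_lit 139) (nat_lit 5) (nat_lit 146) (nat_lit 5) (nat_lit 147) (nat_lit 5) (nat_lit 384) (nat_lit 360) (nat_lit 201))))) (XT.nd (nat_lit 57152) (nat_lit 0) (nat_lit 4368) (XT.nd (nat_lit 188) (nat_lit 588) (nat_lit 0) (XT.nd (nat_lit 94) (nat_lit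 0) (nat_lit 0) (XT.lf (nat_lit 0) (nat_lit 616762365) (nat_lit 672) (nat_lit 20274638017) (nat_lit 84) (nat_lit 2434597073) (nat_lit 131) (nat_lit 5) (nat_lit 139) (nat_lit 5) (nat_lit 132) (nat_lit 5) (nat_lit 385) (nat_lit 360) (nat_lit 200)) (XT.lf (nat_lit 0) (nat_lit 2815156267) (nat_lit 672) (nat_lit 9647997649) (nat_lit 84) (nat_lit 11270618026) (nat_lit 131) (nat_lit 5) (nat_lit 139) (nat_lit 5) (nat_lit 132) (nat_lit 5) (nat_lit 386) (nat_lit 360) (nat_lit 199))) (XT.nd (nat_lit 56870) (nat_lit 0) (nat_lit 4368) (XT.lf (nat_lit 0) (nat_lit 1318053294) (nat_lit 588) (nat_lit 3769057171) (nat_lit 672) (nat_lit 19066449301) (nat_lit 124) (nat_lit 5) (nat_lit 131) (nat_lit 5) (nat_lit 132) (nat_lit 5) (nat_lit 387) (nat_lit 360) (nat_lit 198)) (XT.lf (nat_lit 0) (nat_lit 5717493524) (nat_lit 1260) (nat_lit 1179830007) (nat_lit 1260) (nat_lit 1179830007) (nat_lit 176) (nat_lit 3) (nat_lit 191)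 (nat_lit 3) (nat_lit 191) (nat_lit 5) (nat_lit 361) (nat_lit 361) (nat_lit 223)))) (XT.nd (nat_lit 188) (nat_lit 0) (nat_lit 84) (XT.nd (nat_lit 94) (nat_lit 0) (nat_lit 0) (XT.lf (nat_lit 84) (nat_lit 4720388794) (nat_lit 0) (nat_lit 7166104283) (nat_lit 1260) (nat_lit 4501280879) (nat_lit 177) (nat_lit 5) (nat_lit 176) (nat_lit 3) (nat_lit 191) (nat_lit 5) (nat_lit 362) (nat_lit 361) (nat_lit 222)) (XT.lf (nat_lit 84) (nat_lit 12056391669) (nat_lit 0) (nat_lit 309778227) (nat_lit 1260) (nat_lit 4261653673) (nat_lit 177) (nat_lit 5) (nat_lit 176) (nat_lit 3) (nat_lit 191) (nat_lit 5) (nat_lit 363) (nat_lit 361) (nat_lit 221))) (XT.nd (nat_lit 94) (nat_lit 0) (nat_lit 0) (XT.lf (nat_lit 84) (nat_lit 2720577882) (nat_lit 0) (nat_lit 10221824253) (nat_lit 1260) (nat_lit 3930224570) (nat_lit 178) (nat_lit 5) (nat_lit 177) (nat_lit 5) (nat_lit 192) (nat_lit 5) (nat_lit 364) (nat_lit 361) (nat_lit 220))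 (XT.lf (nat_lit 84) (nat_lit 10316975022) (nat_lit 0) (nat_lit 3259463877) (nat_lit 1260) (nat_lit 3547135998) (nat_lit 178) (nat_lit 5) (nat_lit 177) (nat_lit 5) (nat_lit 192) (nat_lit 5) (nat_lit 365) (nat_lit 361) (nat_lit 219))))))))
noncomputable def xc59 : XT := (XT.nd (nat_lit 59878) (nat_lit 0) (nat_lit 0) (XT.nd (nat_lit 1504) (nat_lit 1848) (nat_lit 0) (XT.nd (nat_lit 752) (nat_lit 1008) (nat_lit 0) (XT.nd (nat_lit 376) (nat_lit 1092) (nat_lit 0) (XT.nd (nat_lit 188) (nat_lit 0) (nat_lit 84) (XT.nd (nat_lit 94) (nat_lit 0) (nat_lit 0) (XT.lf (nat_lit 84) (nat_lit 730755904) (nat_lit 0) (nat_lit 13534973314) (nat_lit 1260) (nat_lit 3115251355) (nat_lit 179) (nat_lit 5) (nat_lit 178) (nat_lit 5) (nat_lit 193) (nat_lit 5) (nat_lit 366) (nat_lit 361) (nat_lit 218)) (XT.lf (nat_lit 84) (nat_lit 8595782910) (nat_lit 0) (nat_lit 6472405674) (nat_lit 1260) (nat_lit 2575160670) (nat_lit 179) (nat_lit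 5) (nat_lit 178) (nat_lit 5) (nat_lit 193) (nat_lit 5) (nat_lit 367) (nat_lit 361) (nat_lit 217))) (XT.nd (nat_lit 94) (nat_lit 0) (nat_lit 0) (XT.lf (nat_lit 0) (nat_lit 15894500962) (nat_lit 1176) (nat_lit 1229737482) (nat_lit 1260) (nat_lit 789372265) (nat_lit 179) (nat_lit 5) (nat_lit 193) (nat_lit 5) (nat_lit 194) (nat_lit 5) (nat_lit 368) (nat_lit 361) (nat_lit 216)) (XT.lf (nat_lit 84) (nat_lit 6887902730) (nat_lit 0) (nat_lit 9980294466) (nat_lit 1260) (nat_lit 1320119631) (nat_lit 180) (nat_lit 5) (nat_lit 179) (nat_lit 5) (nat_lit 194) (nat_lit 5) (nat_lit 369) (nat_lit 361) (nat_lit 215)))) (XT.nd (nat_lit 188) (nat_lit 0) (nat_lit 0) (XT.nd (nat_lit 94) (nat_lit 1176) (nat_lit 0) (XT.lf (nat_lit 84) (nat_lit 15269281973) (nat_lit 0) (nat_lit 2606717015) (nat_lit 1260) (nat_lit 595132525) (nat_lit 180) (nat_lit 5) (nat_lit 179) (nat_lit 5) (nat_lit 194) (nat_lit 5) (nat_lit 370) (nat_lit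 361) (nat_lit 214)) (XT.lf (nat_lit 0) (nat_lit 240065253) (nat_lit 1260) (nat_lit 13574234246) (nat_lit 1344) (nat_lit 4945358248) (nat_lit 165) (nat_lit 5) (nat_lit 180) (nat_lit 5) (nat_lit 181) (nat_lit 5) (nat_lit 371) (nat_lit 361) (nat_lit 213))) (XT.nd (nat_lit 94) (nat_lit 0) (nat_lit 84) (XT.lf (nat_lit 0) (nat_lit 1139618222) (nat_lit 1260) (nat_lit 5203157620) (nat_lit 1344) (nat_lit 12712362347) (nat_lit 165) (nat_lit 5) (nat_lit 180) (nat_lit 5) (nat_lit 181) (nat_lit 5) (nat_lit 372) (nat_lit 361) (nat_lit 212)) (XT.lf (nat_lit 0) (nat_lit 2105991960) (nat_lit 1260) (nat_lit 15890123526) (nat_lit 1344) (nat_lit 1362185172) (nat_lit 166) (nat_lit 5) (nat_lit 181) (nat_lit 5) (nat_lit 182) (nat_lit 5) (nat_lit 373) (nat_lit 361) (nat_lit 211))))) (XT.nd (nat_lit 376) (nat_lit 1092) (nat_lit 0) (XT.nd (nat_lit 188) (nat_lit 0) (nat_lit 84) (XT.nd (nat_lit 94) (nat_lit 0) (nat_lit 0)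 (XT.lf (nat_lit 0) (nat_lit 3210400466) (nat_lit 1260) (nat_lit 7231239190) (nat_lit 1344) (nat_lit 9225659310) (nat_lit 166) (nat_lit 5) (nat_lit 181) (nat_lit 5) (nat_lit 182) (nat_lit 5) (nat_lit 374) (nat_lit 361) (nat_lit 210)) (XT.lf (nat_lit 84) (nat_lit 1715796917) (nat_lit 0) (nat_lit 2642018075) (nat_lit 1344) (nat_lit 15627467932) (nat_lit 167) (nat_lit 5) (nat_lit 166) (nat_lit 5) (nat_lit 182) (nat_lit 5) (nat_lit 375) (nat_lit 361) (nat_lit 209))) (XT.nd (nat_lit 94) (nat_lit 0) (nat_lit 0) (XT.lf (nat_lit 0) (nat_lit 5658762065) (nat_lit 1260) (nat_lit 9288954338) (nat_lit 1344) (nat_lit 5361528260) (nat_lit 167) (nat_lit 5) (nat_lit 182) (nat_lit 5) (nat_lit 183) (nat_lit 5) (nat_lit 376) (nat_lit 361) (nat_lit 208)) (XT.lf (nat_lit 0) (nat_lit 7018622851) (nat_lit 1260) (nat_lit 70277678) (nat_lit 1344) (nat_lit 13553439396) (nat_lit 167) (nat_lit 5) (nat_lit 182) (nat_lit 5) (nat_lit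 183) (nat_lit 5) (nat_lit 377) (nat_lit 361) (nat_lit 207)))) (XT.nd (nat_lit 188) (nat_lit 1260) (nat_lit 0) (XT.nd (nat_lit 94) (nat_lit 0) (nat_lit 0) (XT.lf (nat_lit 0) (nat_lit 8516134214) (nat_lit 1260) (nat_lit 11385971301) (nat_lit 84) (nat_lit 1080427791) (nat_lit 168) (nat_lit 5) (nat_lit 183) (nat_lit 5) (nat_lit 169) (nat_lit 5) (nat_lit 378) (nat_lit 361) (nat_lit 206)) (XT.lf (nat_lit 0) (nat_lit 10123524371) (nat_lit 1260) (nat_lit 1853372102) (nat_lit 84) (nat_lit 9354097996) (nat_lit 168) (nat_lit 5) (nat_lit 183) (nat_lit 5) (nat_lit 169) (nat_lit 5) (nat_lit 379) (nat_lit 361) (nat_lit 205))) (XT.nd (nat_lit 94) (nat_lit 0) (nat_lit 0) (XT.lf (nat_lit 0) (nat_lit 8118664163) (nat_lit 1260) (nat_lit 3732736574) (nat_lit 1344) (nat_lit 9836351072) (nat_lit 153) (nat_lit 5) (nat_lit 168) (nat_lit 5) (nat_lit 169) (nat_lit 5) (nat_lit 380) (nat_lit 361) (nat_lit 204)) (XT.lf (nat_lit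 0) (nat_lit 13690109167) (nat_lit 1344) (nat_lit 3677829255) (nat_lit 84) (nat_lit 4685513551) (nat_lit 153) (nat_lit 5) (nat_lit 169) (nat_lit 5) (nat_lit 154) (nat_lit 5) (nat_lit 381) (nat_lit 361) (nat_lit 203)))))) (XT.nd (nat_lit 57622) (nat_lit 0) (nat_lit 3780) (XT.nd (nat_lit 376) (nat_lit 672) (nat_lit 0) (XT.nd (nat_lit 188) (nat_lit 588) (nat_lit 0) (XT.nd (nat_lit 94) (nat_lit 0) (nat_lit 0) (XT.lf (nat_lit 0) (nat_lit 6596985309) (nat_lit 588) (nat_lit 9081881168) (nat_lit 672) (nat_lit 6748419723) (nat_lit 146) (nat_lit 5) (nat_lit 153) (nat_lit 5) (nat_lit 154) (nat_lit 5) (nat_lit 382) (nat_lit 361) (nat_lit 202)) (XT.lf (nat_lit 0) (nat_lit 17250530045) (nat_lit 588) (nat_lit 508523486) (nat_lit 672) (nat_lit 5052338316) (nat_lit 146) (nat_lit 5) (nat_lit 153) (nat_lit 5) (nat_lit 154) (nat_lit 5) (nat_lit 383) (nat_lit 361) (nat_lit 201))) (XT.nd (nat_lit 94) (nat_lit 0) (nat_lit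 0) (XT.lf (nat_lit 0) (nat_lit 5029881880) (nat_lit 588) (nat_lit 14994900077) (nat_lit 672) (nat_lit 3178553765) (nat_lit 139) (nat_lit 5) (nat_lit 146) (nat_lit 5) (nat_lit 147) (nat_lit 5) (nat_lit 384) (nat_lit 361) (nat_lit 200)) (XT.lf (nat_lit 0) (nat_lit 16042320164) (nat_lit 588) (nat_lit 6372195186) (nat_lit 672) (nat_lit 1190850435) (nat_lit 139) (nat_lit 5) (nat_lit 146) (nat_lit 5) (nat_lit 147) (nat_lit 5) (nat_lit 385) (nat_lit 361) (nat_lit 199)))) (XT.nd (nat_lit 57058) (nat_lit 0) (nat_lit 3780) (XT.nd (nat_lit 94) (nat_lit 0) (nat_lit 0) (XT.lf (nat_lit 0) (nat_lit 892152842) (nat_lit 672) (nat_lit 20623596700) (nat_lit 84) (nat_lit 2501897114) (nat_lit 131) (nat_lit 5) (nat_lit 139) (nat_lit 5) (nat_lit 132) (nat_lit 5) (nat_lit 386) (nat_lit 361) (nat_lit 198)) (XT.lf (nat_lit 0) (nat_lit 3149016398) (nat_lit 672) (nat_lit 9685708979) (nat_lit 84) (nat_lit 11603165818) (nat_lit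 131) (nat_lit 5) (nat_lit 139) (nat_lit 5) (nat_lit 132) (nat_lit 5) (nat_lit 387) (nat_lit 361) (nat_lit 197))) (XT.nd (nat_lit 94) (nat_lit 0) (nat_lit 0) (XT.lf (nat_lit 0) (nat_lit 6121369112) (nat_lit 1260) (nat_lit 1095342264) (nat_lit 1260) (nat_lit 1095342264) (nat_lit 176) (nat_lit 3) (nat_lit 191) (nat_lit 3) (nat_lit 191) (nat_lit 5) (nat_lit 362) (nat_lit 362) (nat_lit 221)) (XT.lf (nat_lit 84) (nat_lit 5099415103) (nat_lit 0) (nat_lit 7597121508) (nat_lit 1260) (nat_lit 4168405003) (nat_lit 177) (nat_lit 5) (nat_lit 176) (nat_lit 3) (nat_lit 191) (nat_lit 5) (nat_lit 363) (nat_lit 362) (nat_lit 220))))) (XT.nd (nat_lit 376) (nat_lit 0) (nat_lit 168) (XT.nd (nat_lit 188) (nat_lit 0) (nat_lit 84) (XT.nd (nat_lit 94) (nat_lit 0) (nat_lit 84) (XT.lf (nat_lit 84) (nat_lit 12648583076) (nat_lit 0) (nat_lit 528813415) (nat_lit 1260) (nat_lit 3935217553) (nat_lit 177) (nat_lit 5) (nat_lit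 176) (nat_lit 3) (nat_lit 191) (nat_lit 5) (nat_lit 364) (nat_lit 362) (nat_lit 219)) (XT.lf (nat_lit 84) (nat_lit 3046338018) (nat_lit 0) (nat_lit 10712144515) (nat_lit 1260) (nat_lit 3606676111) (nat_lit 178) (nat_lit 5) (nat_lit 177) (nat_lit 5) (nat_lit 192) (nat_lit 5) (nat_lit 365) (nat_lit 362) (nat_lit 218))) (XT.nd (nat_lit 94) (nat_lit 0) (nat_lit 84) (XT.lf (nat_lit 84) (nat_lit 10863516118) (nat_lit 0) (nat_lit 3535563847) (nat_lit 1260) (nat_lit 3224952801) (nat_lit 178) (nat_lit 5) (nat_lit 177) (nat_lit 5) (nat_lit 192) (nat_lit 5) (nat_lit 366) (nat_lit 362) (nat_lit 217)) (XT.lf (nat_lit 84) (nat_lit 1002203345) (nat_lit 0) (nat_lit 14095482563) (nat_lit 1260) (nat_lit 2791838575) (nat_lit 179) (nat_lit 5) (nat_lit 178) (nat_lit 5) (nat_lit 193) (nat_lit 5) (nat_lit 367) (nat_lit 362) (nat_lit 216)))) (XT.nd (nat_lit 188) (nat_lit 0) (nat_lit 84) (XT.nd (nat_lit 94) (nat_lit 0)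 (nat_lit 84) (XT.lf (nat_lit 84) (nat_lit 9095913450) (nat_lit 0) (nat_lit 6816539057) (nat_lit 1260) (nat_lit 2247687024) (nat_lit 179) (nat_lit 5) (nat_lit 178) (nat_lit 5) (nat_lit 193) (nat_lit 5) (nat_lit 368) (nat_lit 362) (nat_lit 215)) (XT.lf (nat_lit 0) (nat_lit 16750730890) (nat_lit 1176) (nat_lit 1017883226) (nat_lit 1260) (nat_lit 670301074) (nat_lit 179) (nat_lit 5) (nat_lit 193) (nat_lit 5) (nat_lit 194) (nat_lit 5) (nat_lit 369) (nat_lit 362) (nat_lit 214))) (XT.nd (nat_lit 94) (nat_lit 0) (nat_lit 0) (XT.lf (nat_lit 84) (nat_lit 7340847503) (nat_lit 0) (nat_lit 10404107832) (nat_lit 1260) (nat_lit 977188666) (nat_lit 180) (nat_lit 5) (nat_lit 179) (nat_lit 5) (nat_lit 194) (nat_lit 5) (nat_lit 370) (nat_lit 362) (nat_lit 213)) (XT.lf (nat_lit 84) (nat_lit 15966494112) (nat_lit 0) (nat_lit 2805699625) (nat_lit 1260) (nat_lit 241593730) (nat_lit 180) (nat_lit 5) (nat_lit 179) (nat_lit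 5) (nat_lit 194) (nat_lit 5) (nat_lit 371) (nat_lit 362) (nat_lit 212))))))) (XT.nd (nat_lit 58468) (nat_lit 0) (nat_lit 2772) (XT.nd (nat_lit 752) (nat_lit 2856) (nat_lit 0) (XT.nd (nat_lit 376) (nat_lit 0) (nat_lit 84) (XT.nd (nat_lit 188) (nat_lit 0) (nat_lit 84) (XT.nd (nat_lit 94) (nat_lit 0) (nat_lit 0) (XT.lf (nat_lit 0) (nat_lit 602088416) (nat_lit 1260) (nat_lit 13724453820) (nat_lit 1344) (nat_lit 4984619125) (nat_lit 165) (nat_lit 5) (nat_lit 180) (nat_lit 5) (nat_lit 181) (nat_lit 5) (nat_lit 372) (nat_lit 362) (nat_lit 211)) (XT.lf (nat_lit 0) (nat_lit 1518293376) (nat_lit 1260) (nat_lit 5109730549) (nat_lit 1344) (nat_lit 12987811013) (nat_lit 165) (nat_lit 5) (nat_lit 180) (nat_lit 5) (nat_lit 181) (nat_lit 5) (nat_lit 373) (nat_lit 362) (nat_lit 210))) (XT.nd (nat_lit 94) (nat_lit 0) (nat_lit 0) (XT.lf (nat_lit 0) (nat_lit 2505137020) (nat_lit 1260) (nat_lit 16108179469) (nat_lit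 1344) (nat_lit 1315049571) (nat_lit 166) (nat_lit 5) (nat_lit 181) (nat_lit 5) (nat_lit 182) (nat_lit 5) (nat_lit 374) (nat_lit 362) (nat_lit 209)) (XT.lf (nat_lit 0) (nat_lit 3632892384) (nat_lit 1260) (nat_lit 7197062033) (nat_lit 1344) (nat_lit 9416991075) (nat_lit 166) (nat_lit 5) (nat_lit 181) (nat_lit 5) (nat_lit 182) (nat_lit 5) (nat_lit 375) (nat_lit 362) (nat_lit 208)))) (XT.nd (nat_lit 188) (nat_lit 0) (nat_lit 84) (XT.nd (nat_lit 94) (nat_lit 0) (nat_lit 84) (XT.lf (nat_lit 84) (nat_lit 2015923253) (nat_lit 0) (nat_lit 2791695907) (nat_lit 1344) (nat_lit 15767080212) (nat_lit 167) (nat_lit 5) (nat_lit 166) (nat_lit 5) (nat_lit 182) (nat_lit 5) (nat_lit 376) (nat_lit 362) (nat_lit 207)) (XT.lf (nat_lit 0) (nat_lit 6137644173) (nat_lit 1260) (nat_lit 9315709025) (nat_lit 1344) (nat_lit 5455341879) (nat_lit 167) (nat_lit 5) (nat_lit 182) (nat_lit 5) (nat_lit 183) (nat_lit 5) (nat_lit 377)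 (nat_lit 362) (nat_lit 206))) (XT.nd (nat_lit 94) (nat_lit 0) (nat_lit 84) (XT.lf (nat_lit 84) (nat_lit 175617565) (nat_lit 0) (nat_lit 7355367887) (nat_lit 1344) (nat_lit 13721033322) (nat_lit 168) (nat_lit 5) (nat_lit 167) (nat_lit 5) (nat_lit 183) (nat_lit 5) (nat_lit 378) (nat_lit 362) (nat_lit 205)) (XT.lf (nat_lit 0) (nat_lit 9064825471) (nat_lit 1260) (nat_lit 11475543671) (nat_lit 84) (nat_lit 1062322363) (nat_lit 168) (nat_lit 5) (nat_lit 183) (nat_lit 5) (nat_lit 169) (nat_lit 5) (nat_lit 379) (nat_lit 362) (nat_lit 204))))) (XT.nd (nat_lit 376) (nat_lit 1260) (nat_lit 0) (XT.nd (nat_lit 188) (nat_lit 588) (nat_lit 0) (XT.nd (nat_lit 94) (nat_lit 1260) (nat_lit 0) (XT.lf (nat_lit 0) (nat_lit 10711897317) (nat_lit 1260) (nat_lit 1664306499) (nat_lit 84) (nat_lit 9585674079) (nat_lit 168) (nat_lit 5) (nat_lit 183) (nat_lit 5) (nat_lit 169) (nat_lit 5) (nat_lit 380) (nat_lit 362) (nat_lit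 203)) (XT.lf (nat_lit 0) (nat_lit 8604492160) (nat_lit 1260) (nat_lit 3881155365) (nat_lit 1344) (nat_lit 9843884053) (nat_lit 153) (nat_lit 5) (nat_lit 168) (nat_lit 5) (nat_lit 169) (nat_lit 5) (nat_lit 381) (nat_lit 362) (nat_lit 202))) (XT.nd (nat_lit 94) (nat_lit 588) (nat_lit 0) (XT.lf (nat_lit 0) (nat_lit 14371059543) (nat_lit 1344) (nat_lit 3544017425) (nat_lit 84) (nat_lit 4791393829) (nat_lit 153) (nat_lit 5) (nat_lit 169) (nat_lit 5) (nat_lit 154) (nat_lit 5) (nat_lit 382) (nat_lit 362) (nat_lit 201)) (XT.lf (nat_lit 0) (nat_lit 7036647981) (nat_lit 588) (nat_lit 9377284195) (nat_lit 672) (nat_lit 6677768199) (nat_lit 146) (nat_lit 5) (nat_lit 153) (nat_lit 5) (nat_lit 154) (nat_lit 5) (nat_lit 383) (nat_lit 362) (nat_lit 200)))) (XT.nd (nat_lit 188) (nat_lit 672) (nat_lit 0) (XT.nd (nat_lit 94) (nat_lit 588) (nat_lit 0) (XT.lf (nat_lit 0) (nat_lit 18002757707) (nat_lit 588) (nat_lit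 546057435) (nat_lit 672) (nat_lit 4938758839) (nat_lit 146) (nat_lit 5) (nat_lit 153) (nat_lit 5) (nat_lit 154) (nat_lit 5) (nat_lit 384) (nat_lit 362) (nat_lit 199)) (XT.lf (nat_lit 0) (nat_lit 5421480680) (nat_lit 588) (nat_lit 15455655458) (nat_lit 672) (nat_lit 3014314516) (nat_lit 139) (nat_lit 5) (nat_lit 146) (nat_lit 5) (nat_lit 147) (nat_lit 5) (nat_lit 385) (nat_lit 362) (nat_lit 198))) (XT.nd (nat_lit 94) (nat_lit 672) (nat_lit 0) (XT.lf (nat_lit 0) (nat_lit 16757281365) (nat_lit 588) (nat_lit 6573951701) (nat_lit 672) (nat_lit 974541130) (nat_lit 139) (nat_lit 5) (nat_lit 146) (nat_lit 5) (nat_lit 147) (nat_lit 5) (nat_lit 386) (nat_lit 362) (nat_lit 197)) (XT.lf (nat_lit 0) (nat_lit 1161058633) (nat_lit 672) (nat_lit 20997907902) (nat_lit 84) (nat_lit 2571545534) (nat_lit 131) (nat_lit 5) (nat_lit 139) (nat_lit 5) (nat_lit 132) (nat_lit 5) (nat_lit 387) (nat_lit 362) (nat_lit 196))))))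 (XT.nd (nat_lit 752) (nat_lit 1008) (nat_lit 0) (XT.nd (nat_lit 376) (nat_lit 0) (nat_lit 84) (XT.nd (nat_lit 188) (nat_lit 0) (nat_lit 0) (XT.nd (nat_lit 94) (nat_lit 0) (nat_lit 0) (XT.lf (nat_lit 0) (nat_lit 6524023082) (nat_lit 1260) (nat_lit 1015201643) (nat_lit 1260) (nat_lit 1015201643) (nat_lit 176) (nat_lit 3) (nat_lit 191) (nat_lit 3) (nat_lit 191) (nat_lit 5) (nat_lit 363) (nat_lit 363) (nat_lit 219)) (XT.lf (nat_lit 84) (nat_lit 5476183630) (nat_lit 0) (nat_lit 8028668008) (nat_lit 1260) (nat_lit 3852403047) (nat_lit 177) (nat_lit 5) (nat_lit 176) (nat_lit 3) (nat_lit 191) (nat_lit 5) (nat_lit 364) (nat_lit 363) (nat_lit 218))) (XT.nd (nat_lit 94) (nat_lit 0) (nat_lit 84) (XT.lf (nat_lit 84) (nat_lit 13245308601) (nat_lit 0) (nat_lit 742379619) (nat_lit 1260) (nat_lit 3625066209) (nat_lit 177) (nat_lit 5) (nat_lit 176) (nat_lit 3) (nat_lit 191) (nat_lit 5) (nat_lit 365) (nat_lit 363)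 (nat_lit 217)) (XT.lf (nat_lit 84) (nat_lit 3367856164) (nat_lit 0) (nat_lit 11206631233) (nat_lit 1260) (nat_lit 3298762534) (nat_lit 178) (nat_lit 5) (nat_lit 177) (nat_lit 5) (nat_lit 192) (nat_lit 5) (nat_lit 366) (nat_lit 363) (nat_lit 216)))) (XT.nd (nat_lit 188) (nat_lit 0) (nat_lit 84) (XT.nd (nat_lit 94) (nat_lit 0) (nat_lit 84) (XT.lf (nat_lit 84) (nat_lit 11412846849) (nat_lit 0) (nat_lit 3809710745) (nat_lit 1260) (nat_lit 2917707345) (nat_lit 178) (nat_lit 5) (nat_lit 177) (nat_lit 5) (nat_lit 192) (nat_lit 5) (nat_lit 367) (nat_lit 363) (nat_lit 215)) (XT.lf (nat_lit 84) (nat_lit 1267470467) (nat_lit 0) (nat_lit 14663940450) (nat_lit 1260) (nat_lit 2482653474) (nat_lit 179) (nat_lit 5) (nat_lit 178) (nat_lit 5) (nat_lit 193) (nat_lit 5) (nat_lit 368) (nat_lit 363) (nat_lit 214))) (XT.nd (nat_lit 94) (nat_lit 0) (nat_lit 84) (XT.lf (nat_lit 84) (nat_lit 9597141360) (nat_lit 0) (nat_lit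 7162388055) (nat_lit 1260) (nat_lit 1933622238) (nat_lit 179) (nat_lit 5) (nat_lit 178) (nat_lit 5) (nat_lit 193) (nat_lit 5) (nat_lit 369) (nat_lit 363) (nat_lit 213)) (XT.lf (nat_lit 0) (nat_lit 17610868897) (nat_lit 1176) (nat_lit 813952402) (nat_lit 1260) (nat_lit 555852317) (nat_lit 179) (nat_lit 5) (nat_lit 193) (nat_lit 5) (nat_lit 194) (nat_lit 5) (nat_lit 370) (nat_lit 363) (nat_lit 212))))) (XT.nd (nat_lit 376) (nat_lit 0) (nat_lit 168) (XT.nd (nat_lit 188) (nat_lit 0) (nat_lit 84) (XT.nd (nat_lit 94) (nat_lit 1260) (nat_lit 0) (XT.lf (nat_lit 84) (nat_lit 7793241550) (nat_lit 0) (nat_lit 10833494270) (nat_lit 1260) (nat_lit 645928820) (nat_lit 180) (nat_lit 5) (nat_lit 179) (nat_lit 5) (nat_lit 194) (nat_lit 5) (nat_lit 371) (nat_lit 363) (nat_lit 211)) (XT.lf (nat_lit 0) (nat_lit 99256367) (nat_lit 1260) (nat_lit 2903459721) (nat_lit 1344) (nat_lit 16570636702) (nat_lit 164) (nat_lit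 5) (nat_lit 179) (nat_lit 5) (nat_lit 180) (nat_lit 5) (nat_lit 372) (nat_lit 363) (nat_lit 210))) (XT.nd (nat_lit 94) (nat_lit 0) (nat_lit 0) (XT.lf (nat_lit 0) (nat_lit 954604086) (nat_lit 1260) (nat_lit 13893933261) (nat_lit 1344) (nat_lit 5031320607) (nat_lit 165) (nat_lit 5) (nat_lit 180) (nat_lit 5) (nat_lit 181) (nat_lit 5) (nat_lit 373) (nat_lit 363) (nat_lit 209)) (XT.lf (nat_lit 0) (nat_lit 1888553844) (nat_lit 1260) (nat_lit 5027824239) (nat_lit 1344) (nat_lit 13277603507) (nat_lit 165) (nat_lit 5) (nat_lit 180) (nat_lit 5) (nat_lit 181) (nat_lit 5) (nat_lit 374) (nat_lit 363) (nat_lit 208)))) (XT.nd (nat_lit 188) (nat_lit 0) (nat_lit 0) (XT.nd (nat_lit 94) (nat_lit 0) (nat_lit 0) (XT.lf (nat_lit 0) (nat_lit 2896970650) (nat_lit 1260) (nat_lit 16347624530) (nat_lit 1344) (nat_lit 1271551529) (nat_lit 166) (nat_lit 5) (nat_lit 181) (nat_lit 5) (nat_lit 182) (nat_lit 5) (nat_lit 375) (nat_lit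 363) (nat_lit 207)) (XT.lf (nat_lit 0) (nat_lit 4049334999) (nat_lit 1260) (nat_lit 7176274551) (nat_lit 1344) (nat_lit 9618967283) (nat_lit 166) (nat_lit 5) (nat_lit 181) (nat_lit 5) (nat_lit 182) (nat_lit 5) (nat_lit 376) (nat_lit 363) (nat_lit 206))) (XT.nd (nat_lit 94) (nat_lit 0) (nat_lit 84) (XT.lf (nat_lit 84) (nat_lit 2310779711) (nat_lit 0) (nat_lit 2941821834) (nat_lit 1344) (nat_lit 15929778962) (nat_lit 167) (nat_lit 5) (nat_lit 166) (nat_lit 5) (nat_lit 182) (nat_lit 5) (nat_lit 377) (nat_lit 363) (nat_lit 205)) (XT.lf (nat_lit 0) (nat_lit 6613148036) (nat_lit 1260) (nat_lit 9357727244) (nat_lit 1344) (nat_lit 5555817831) (nat_lit 167) (nat_lit 5) (nat_lit 182) (nat_lit 5) (nat_lit 183) (nat_lit 5) (nat_lit 378) (nat_lit 363) (nat_lit 204))))))))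
noncomputable def xc60 : XT := (XT.nd (nat_lit 59972) (nat_lit 0) (nat_lit 0) (XT.nd (nat_lit 58468) (nat_lit 0) (nat_lit 588) (XT.nd (nat_lit 658) (nat_lit 588) (nat_lit 0) (XT.nd (nat_lit 282) (nat_lit 1764) (nat_lit 0) (XT.nd (nat_lit 94) (nat_lit 0) (nat_lit 84) (XT.lf (nat_lit 84) (nat_lit 416011173) (nat_lit 0) (nat_lit 7626051909) (nat_lit 1344) (nat_lit 13838455422) (nat_lit 168) (nat_lit 5) (nat_lit 167) (nat_lit 5) (nat_lit 183) (nat_lit 5) (nat_lit 379) (nat_lit 363) (nat_lit 203)) (XT.nd (nat_lit 94) (nat_lit 0) (nat_lit 0) (XT.lf (nat_lit 0) (nat_lit 9613146172) (nat_lit 1260) (nat_lit 11582269431) (nat_lit 84) (nat_lit 1046573726) (nat_lit 168) (nat_lit 5) (nat_lit 183) (nat_lit 5) (nat_lit 169) (nat_lit 5) (nat_lit 380) (nat_lit 363) (nat_lit 202)) (XT.lf (nat_lit 0) (nat_lit 11301580388) (nat_lit 1260) (nat_lit 1483613801) (nat_lit 84) (nat_lit 9827012935) (nat_lit 168) (nat_lit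 5) (nat_lit 183) (nat_lit 5) (nat_lit 169) (nat_lit 5) (nat_lit 381) (nat_lit 363) (nat_lit 201)))) (XT.nd (nat_lit 188) (nat_lit 588) (nat_lit 0) (XT.nd (nat_lit 94) (nat_lit 0) (nat_lit 0) (XT.lf (nat_lit 0) (nat_lit 9090987819) (nat_lit 1260) (nat_lit 4031935104) (nat_lit 1344) (nat_lit 9868150004) (nat_lit 153) (nat_lit 5) (nat_lit 168) (nat_lit 5) (nat_lit 169) (nat_lit 5) (nat_lit 382) (nat_lit 363) (nat_lit 200)) (XT.lf (nat_lit 0) (nat_lit 15056925141) (nat_lit 1344) (nat_lit 3420206259) (nat_lit 84) (nat_lit 4902441583) (nat_lit 153) (nat_lit 5) (nat_lit 169) (nat_lit 5) (nat_lit 154) (nat_lit 5) (nat_lit 383) (nat_lit 363) (nat_lit 199))) (XT.nd (nat_lit 94) (nat_lit 0) (nat_lit 0) (XT.lf (nat_lit 0) (nat_lit 7475622916) (nat_lit 588) (nat_lit 9680232084) (nat_lit 672) (nat_lit 6620674422) (nat_lit 146) (nat_lit 5) (nat_lit 153) (nat_lit 5) (nat_lit 154) (nat_lit 5) (nat_lit 384) (nat_lit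 363) (nat_lit 198)) (XT.lf (nat_lit 0) (nat_lit 18764078783) (nat_lit 588) (nat_lit 583438540) (nat_lit 672) (nat_lit 4836992650) (nat_lit 146) (nat_lit 5) (nat_lit 153) (nat_lit 5) (nat_lit 154) (nat_lit 5) (nat_lit 385) (nat_lit 363) (nat_lit 197))))) (XT.nd (nat_lit 57434) (nat_lit 0) (nat_lit 3108) (XT.nd (nat_lit 57246) (nat_lit 0) (nat_lit 3108) (XT.nd (nat_lit 94) (nat_lit 0) (nat_lit 0) (XT.lf (nat_lit 0) (nat_lit 5811010144) (nat_lit 588) (nat_lit 15929607316) (nat_lit 672) (nat_lit 2860049955) (nat_lit 139) (nat_lit 5) (nat_lit 146) (nat_lit 5) (nat_lit 147) (nat_lit 5) (nat_lit 386) (nat_lit 363) (nat_lit 196)) (XT.lf (nat_lit 0) (nat_lit 17480276547) (nat_lit 588) (nat_lit 6781152964) (nat_lit 672) (nat_lit 766210377) (nat_lit 139) (nat_lit 5) (nat_lit 146) (nat_lit 5) (nat_lit 147) (nat_lit 5) (nat_lit 387) (nat_lit 363) (nat_lit 195))) (XT.nd (nat_lit 94) (nat_lit 0) (nat_lit 0) (XT.lf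 (nat_lit 0) (nat_lit 6926184435) (nat_lit 1260) (nat_lit 939143517) (nat_lit 1260) (nat_lit 939143517) (nat_lit 176) (nat_lit 3) (nat_lit 191) (nat_lit 3) (nat_lit 191) (nat_lit 5) (nat_lit 364) (nat_lit 364) (nat_lit 217)) (XT.lf (nat_lit 84) (nat_lit 5851408977) (nat_lit 0) (nat_lit 8461471545) (nat_lit 1260) (nat_lit 3552239342) (nat_lit 177) (nat_lit 5) (nat_lit 176) (nat_lit 3) (nat_lit 191) (nat_lit 5) (nat_lit 365) (nat_lit 364) (nat_lit 216)))) (XT.nd (nat_lit 188) (nat_lit 0) (nat_lit 84) (XT.nd (nat_lit 94) (nat_lit 0) (nat_lit 84) (XT.lf (nat_lit 84) (nat_lit 13847463818) (nat_lit 0) (nat_lit 951003916) (nat_lit 1260) (nat_lit 3330191208) (nat_lit 177) (nat_lit 5) (nat_lit 176) (nat_lit 3) (nat_lit 191) (nat_lit 5) (nat_lit 366) (nat_lit 364) (nat_lit 215)) (XT.lf (nat_lit 84) (nat_lit 3685809565) (nat_lit 0) (nat_lit 11706014619) (nat_lit 1260) (nat_lit 3005498186) (nat_lit 178) (nat_lit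 5) (nat_lit 177) (nat_lit 5) (nat_lit 192) (nat_lit 5) (nat_lit 367) (nat_lit 364) (nat_lit 214))) (XT.nd (nat_lit 94) (nat_lit 0) (nat_lit 84) (XT.lf (nat_lit 84) (nat_lit 11965831978) (nat_lit 0) (nat_lit 4082433571) (nat_lit 1260) (nat_lit 2624435436) (nat_lit 178) (nat_lit 5) (nat_lit 177) (nat_lit 5) (nat_lit 192) (nat_lit 5) (nat_lit 368) (nat_lit 364) (nat_lit 213)) (XT.lf (nat_lit 84) (nat_lit 1527194102) (nat_lit 0) (nat_lit 15241094417) (nat_lit 1260) (nat_lit 2186749198) (nat_lit 179) (nat_lit 5) (nat_lit 178) (nat_lit 5) (nat_lit 193) (nat_lit 5) (nat_lit 369) (nat_lit 364) (nat_lit 212)))))) (XT.nd (nat_lit 752) (nat_lit 1512) (nat_lit 0) (XT.nd (nat_lit 376) (nat_lit 0) (nat_lit 84) (XT.nd (nat_lit 188) (nat_lit 1176) (nat_lit 0) (XT.nd (nat_lit 94) (nat_lit 0) (nat_lit 84) (XT.lf (nat_lit 84) (nat_lit 10100297854) (nat_lit 0) (nat_lit 7510498292) (nat_lit 1260) (nat_lit 1632034904)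 (nat_lit 179) (nat_lit 5) (nat_lit 178) (nat_lit 5) (nat_lit 193) (nat_lit 5) (nat_lit 370) (nat_lit 364) (nat_lit 211)) (XT.lf (nat_lit 0) (nat_lit 18476282419) (nat_lit 1176) (nat_lit 617363036) (nat_lit 1260) (nat_lit 445694265) (nat_lit 179) (nat_lit 5) (nat_lit 193) (nat_lit 5) (nat_lit 194) (nat_lit 5) (nat_lit 371) (nat_lit 364) (nat_lit 210))) (XT.nd (nat_lit 94) (nat_lit 1260) (nat_lit 0) (XT.lf (nat_lit 84) (nat_lit 8245879990) (nat_lit 0) (nat_lit 11269030913) (nat_lit 1260) (nat_lit 325429688) (nat_lit 180) (nat_lit 5) (nat_lit 179) (nat_lit 5) (nat_lit 194) (nat_lit 5) (nat_lit 372) (nat_lit 364) (nat_lit 209)) (XT.lf (nat_lit 0) (nat_lit 425772672) (nat_lit 1260) (nat_lit 2771070235) (nat_lit 1344) (nat_lit 16953417262) (nat_lit 164) (nat_lit 5) (nat_lit 179) (nat_lit 5) (nat_lit 180) (nat_lit 5) (nat_lit 373) (nat_lit 364) (nat_lit 208)))) (XT.nd (nat_lit 188) (nat_lit 0) (nat_lit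 84) (XT.nd (nat_lit 94) (nat_lit 0) (nat_lit 0) (XT.lf (nat_lit 0) (nat_lit 1298496254) (nat_lit 1260) (nat_lit 14082403466) (nat_lit 1344) (nat_lit 5085326403) (nat_lit 165) (nat_lit 5) (nat_lit 180) (nat_lit 5) (nat_lit 181) (nat_lit 5) (nat_lit 374) (nat_lit 364) (nat_lit 207)) (XT.lf (nat_lit 0) (nat_lit 2251282349) (nat_lit 1260) (nat_lit 4956962079) (nat_lit 1344) (nat_lit 13581821106) (nat_lit 165) (nat_lit 5) (nat_lit 180) (nat_lit 5) (nat_lit 181) (nat_lit 5) (nat_lit 375) (nat_lit 364) (nat_lit 206))) (XT.nd (nat_lit 94) (nat_lit 0) (nat_lit 0) (XT.lf (nat_lit 0) (nat_lit 3282380588) (nat_lit 1260) (nat_lit 16608248079) (nat_lit 1344) (nat_lit 1231510188) (nat_lit 166) (nat_lit 5) (nat_lit 181) (nat_lit 5) (nat_lit 182) (nat_lit 5) (nat_lit 376) (nat_lit 364) (nat_lit 205)) (XT.lf (nat_lit 0) (nat_lit 4460621670) (nat_lit 1260) (nat_lit 7168450955) (nat_lit 1344) (nat_lit 9831625732)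 (nat_lit 166) (nat_lit 5) (nat_lit 181) (nat_lit 5) (nat_lit 182) (nat_lit 5) (nat_lit 377) (nat_lit 364) (nat_lit 204))))) (XT.nd (nat_lit 376) (nat_lit 1680) (nat_lit 0) (XT.nd (nat_lit 188) (nat_lit 0) (nat_lit 84) (XT.nd (nat_lit 94) (nat_lit 0) (nat_lit 84) (XT.lf (nat_lit 84) (nat_lit 2601027564) (nat_lit 0) (nat_lit 3092641340) (nat_lit 1344) (nat_lit 16115171949) (nat_lit 167) (nat_lit 5) (nat_lit 166) (nat_lit 5) (nat_lit 182) (nat_lit 5) (nat_lit 378) (nat_lit 364) (nat_lit 203)) (XT.lf (nat_lit 0) (nat_lit 7086190924) (nat_lit 1260) (nat_lit 9414636785) (nat_lit 1344) (nat_lit 5662935100) (nat_lit 167) (nat_lit 5) (nat_lit 182) (nat_lit 5) (nat_lit 183) (nat_lit 5) (nat_lit 379) (nat_lit 364) (nat_lit 202))) (XT.nd (nat_lit 94) (nat_lit 0) (nat_lit 84) (XT.lf (nat_lit 84) (nat_lit 650119448) (nat_lit 0) (nat_lit 7901984928) (nat_lit 1344) (nat_lit 13976288979) (nat_lit 168) (nat_lit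 5) (nat_lit 167) (nat_lit 5) (nat_lit 183) (nat_lit 5) (nat_lit 380) (nat_lit 364) (nat_lit 201)) (XT.lf (nat_lit 0) (nat_lit 10162051385) (nat_lit 1260) (nat_lit 11705832764) (nat_lit 84) (nat_lit 1033086116) (nat_lit 168) (nat_lit 5) (nat_lit 183) (nat_lit 5) (nat_lit 169) (nat_lit 5) (nat_lit 381) (nat_lit 364) (nat_lit 200)))) (XT.nd (nat_lit 188) (nat_lit 588) (nat_lit 0) (XT.nd (nat_lit 94) (nat_lit 1260) (nat_lit 0) (XT.lf (nat_lit 0) (nat_lit 11893550933) (nat_lit 1260) (nat_lit 1310738962) (nat_lit 84) (nat_lit 10078245826) (nat_lit 168) (nat_lit 5) (nat_lit 183) (nat_lit 5) (nat_lit 169) (nat_lit 5) (nat_lit 382) (nat_lit 364) (nat_lit 199)) (XT.lf (nat_lit 0) (nat_lit 9578969498) (nat_lit 1260) (nat_lit 4185266687) (nat_lit 1344) (nat_lit 9908703344) (nat_lit 153) (nat_lit 5) (nat_lit 168) (nat_lit 5) (nat_lit 169) (nat_lit 5) (nat_lit 383) (nat_lit 364) (nat_lit 198))) (XT.nd (nat_lit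 94) (nat_lit 588) (nat_lit 0) (XT.lf (nat_lit 0) (nat_lit 15748743944) (nat_lit 1344) (nat_lit 3305891259) (nat_lit 84) (nat_lit 5018697544) (nat_lit 153) (nat_lit 5) (nat_lit 169) (nat_lit 5) (nat_lit 154) (nat_lit 5) (nat_lit 384) (nat_lit 364) (nat_lit 197)) (XT.lf (nat_lit 0) (nat_lit 7914686113) (nat_lit 588) (nat_lit 9991026797) (nat_lit 672) (nat_lit 6576645185) (nat_lit 146) (nat_lit 5) (nat_lit 153) (nat_lit 5) (nat_lit 154) (nat_lit 5) (nat_lit 385) (nat_lit 364) (nat_lit 196))))))) (XT.nd (nat_lit 58656) (nat_lit 0) (nat_lit 588) (XT.nd (nat_lit 57904) (nat_lit 0) (nat_lit 2100) (XT.nd (nat_lit 57528) (nat_lit 0) (nat_lit 3108) (XT.nd (nat_lit 57340) (nat_lit 0) (nat_lit 3108) (XT.nd (nat_lit 94) (nat_lit 588) (nat_lit 0) (XT.lf (nat_lit 0) (nat_lit 19535539505) (nat_lit 588) (nat_lit 620735628) (nat_lit 672) (nat_lit 4746520420) (nat_lit 146) (nat_lit 5) (nat_lit 153) (nat_lit 5) (nat_lit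 154) (nat_lit 5) (nat_lit 386) (nat_lit 364) (nat_lit 195)) (XT.lf (nat_lit 0) (nat_lit 6199201362) (nat_lit 588) (nat_lit 16417187489) (nat_lit 672) (nat_lit 2715203892) (nat_lit 139) (nat_lit 5) (nat_lit 146) (nat_lit 5) (nat_lit 147) (nat_lit 5) (nat_lit 387) (nat_lit 364) (nat_lit 194))) (XT.nd (nat_lit 94) (nat_lit 0) (nat_lit 0) (XT.lf (nat_lit 0) (nat_lit 7328560090) (nat_lit 1260) (nat_lit 866917996) (nat_lit 1260) (nat_lit 866917996) (nat_lit 176) (nat_lit 3) (nat_lit 191) (nat_lit 3) (nat_lit 191) (nat_lit 5) (nat_lit 365) (nat_lit 365) (nat_lit 215)) (XT.lf (nat_lit 84) (nat_lit 6225782275) (nat_lit 0) (nat_lit 8896240846) (nat_lit 1260) (nat_lit 3266935661) (nat_lit 177) (nat_lit 5) (nat_lit 176) (nat_lit 3) (nat_lit 191) (nat_lit 5) (nat_lit 366) (nat_lit 365) (nat_lit 214)))) (XT.nd (nat_lit 188) (nat_lit 0) (nat_lit 84) (XT.nd (nat_lit 94) (nat_lit 0) (nat_lit 84) (XT.lf (nat_lit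 84) (nat_lit 14455927565) (nat_lit 0) (nat_lit 1155189524) (nat_lit 1260) (nat_lit 3049639798) (nat_lit 177) (nat_lit 5) (nat_lit 176) (nat_lit 3) (nat_lit 191) (nat_lit 5) (nat_lit 367) (nat_lit 365) (nat_lit 213)) (XT.lf (nat_lit 84) (nat_lit 4000849603) (nat_lit 0) (nat_lit 12211012052) (nat_lit 1260) (nat_lit 2725951356) (nat_lit 178) (nat_lit 5) (nat_lit 177) (nat_lit 5) (nat_lit 192) (nat_lit 5) (nat_lit 368) (nat_lit 365) (nat_lit 212))) (XT.nd (nat_lit 94) (nat_lit 0) (nat_lit 84) (XT.lf (nat_lit 84) (nat_lit 12523317376) (nat_lit 0) (nat_lit 4354243466) (nat_lit 1260) (nat_lit 2344225027) (nat_lit 178) (nat_lit 5) (nat_lit 177) (nat_lit 5) (nat_lit 192) (nat_lit 5) (nat_lit 369) (nat_lit 365) (nat_lit 211)) (XT.lf (nat_lit 84) (nat_lit 1781982987) (nat_lit 0) (nat_lit 15827685109) (nat_lit 1260) (nat_lit 1903229343) (nat_lit 179) (nat_lit 5) (nat_lit 178) (nat_lit 5) (nat_lit 193) (nat_lit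 5) (nat_lit 370) (nat_lit 365) (nat_lit 210))))) (XT.nd (nat_lit 376) (nat_lit 0) (nat_lit 84) (XT.nd (nat_lit 188) (nat_lit 1176) (nat_lit 0) (XT.nd (nat_lit 94) (nat_lit 0) (nat_lit 84) (XT.lf (nat_lit 84) (nat_lit 10606193257) (nat_lit 0) (nat_lit 7861403395) (nat_lit 1260) (nat_lit 1342042233) (nat_lit 179) (nat_lit 5) (nat_lit 178) (nat_lit 5) (nat_lit 193) (nat_lit 5) (nat_lit 371) (nat_lit 365) (nat_lit 209)) (XT.lf (nat_lit 0) (nat_lit 19348308147) (nat_lit 1176) (nat_lit 427562749) (nat_lit 1260) (nat_lit 339512240) (nat_lit 179) (nat_lit 5) (nat_lit 193) (nat_lit 5) (nat_lit 194) (nat_lit 5) (nat_lit 372) (nat_lit 365) (nat_lit 208))) (XT.nd (nat_lit 94) (nat_lit 1260) (nat_lit 0) (XT.lf (nat_lit 84) (nat_lit 8699535203) (nat_lit 0) (nat_lit 11711288678) (nat_lit 1260) (nat_lit 14825913) (nat_lit 180) (nat_lit 5) (nat_lit 179) (nat_lit 5) (nat_lit 194) (nat_lit 5) (nat_lit 373) (nat_lit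 365) (nat_lit 207)) (XT.lf (nat_lit 0) (nat_lit 743512026) (nat_lit 1260) (nat_lit 2647308877) (nat_lit 1344) (nat_lit 17354244738) (nat_lit 164) (nat_lit 5) (nat_lit 179) (nat_lit 5) (nat_lit 180) (nat_lit 5) (nat_lit 374) (nat_lit 365) (nat_lit 206)))) (XT.nd (nat_lit 188) (nat_lit 0) (nat_lit 84) (XT.nd (nat_lit 94) (nat_lit 0) (nat_lit 0) (XT.lf (nat_lit 0) (nat_lit 1634608316) (nat_lit 1260) (nat_lit 14289635874) (nat_lit 1344) (nat_lit 5146516771) (nat_lit 165) (nat_lit 5) (nat_lit 180) (nat_lit 5) (nat_lit 181) (nat_lit 5) (nat_lit 375) (nat_lit 365) (nat_lit 205)) (XT.lf (nat_lit 0) (nat_lit 2607322930) (nat_lit 1260) (nat_lit 4896700363) (nat_lit 1344) (nat_lit 13900567560) (nat_lit 165) (nat_lit 5) (nat_lit 180) (nat_lit 5) (nat_lit 181) (nat_lit 5) (nat_lit 376) (nat_lit 365) (nat_lit 204))) (XT.nd (nat_lit 94) (nat_lit 0) (nat_lit 0) (XT.lf (nat_lit 0) (nat_lit 3662217657) (nat_lit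 1260) (nat_lit 16889882092) (nat_lit 1344) (nat_lit 1194755912) (nat_lit 166) (nat_lit 5) (nat_lit 181) (nat_lit 5) (nat_lit 182) (nat_lit 5) (nat_lit 377) (nat_lit 365) (nat_lit 203)) (XT.lf (nat_lit 0) (nat_lit 4867610854) (nat_lit 1260) (nat_lit 7173200183) (nat_lit 1344) (nat_lit 10055021512) (nat_lit 166) (nat_lit 5) (nat_lit 181) (nat_lit 5) (nat_lit 182) (nat_lit 5) (nat_lit 378) (nat_lit 365) (nat_lit 202)))))) (XT.nd (nat_lit 752) (nat_lit 0) (nat_lit 0) (XT.nd (nat_lit 376) (nat_lit 1680) (nat_lit 0) (XT.nd (nat_lit 188) (nat_lit 0) (nat_lit 84) (XT.nd (nat_lit 94) (nat_lit 0) (nat_lit 84) (XT.lf (nat_lit 84) (nat_lit 2887300885) (nat_lit 0) (nat_lit 3244393952) (nat_lit 1344) (nat_lit 16322917443) (nat_lit 167) (nat_lit 5) (nat_lit 166) (nat_lit 5) (nat_lit 182) (nat_lit 5) (nat_lit 379) (nat_lit 365) (nat_lit 201)) (XT.lf (nat_lit 0) (nat_lit 7557659154) (nat_lit 1260) (nat_lit 9486101928)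 (nat_lit 1344) (nat_lit 5776684716) (nat_lit 167) (nat_lit 5) (nat_lit 182) (nat_lit 5) (nat_lit 183) (nat_lit 5) (nat_lit 380) (nat_lit 365) (nat_lit 200))) (XT.nd (nat_lit 94) (nat_lit 0) (nat_lit 84) (XT.lf (nat_lit 84) (nat_lit 878528621) (nat_lit 0) (nat_lit 8183489250) (nat_lit 1344) (nat_lit 14134176852) (nat_lit 168) (nat_lit 5) (nat_lit 167) (nat_lit 5) (nat_lit 183) (nat_lit 5) (nat_lit 381) (nat_lit 365) (nat_lit 199)) (XT.lf (nat_lit 0) (nat_lit 10712469366) (nat_lit 1260) (nat_lit 11845956045) (nat_lit 84) (nat_lit 1021770450) (nat_lit 168) (nat_lit 5) (nat_lit 183) (nat_lit 5) (nat_lit 169) (nat_lit 5) (nat_lit 382) (nat_lit 365) (nat_lit 198)))) (XT.nd (nat_lit 188) (nat_lit 588) (nat_lit 0) (XT.nd (nat_lit 94) (nat_lit 1260) (nat_lit 0) (XT.lf (nat_lit 0) (nat_lit 12488761772) (nat_lit 1260) (nat_lit 1145156567) (nat_lit 84) (nat_lit 10339517231) (nat_lit 168) (nat_lit 5) (nat_lit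 183) (nat_lit 5) (nat_lit 169) (nat_lit 5) (nat_lit 383) (nat_lit 365) (nat_lit 197)) (XT.lf (nat_lit 0) (nat_lit 10069234279) (nat_lit 1260) (nat_lit 4341339844) (nat_lit 1344) (nat_lit 9965139523) (nat_lit 153) (nat_lit 5) (nat_lit 168) (nat_lit 5) (nat_lit 169) (nat_lit 5) (nat_lit 384) (nat_lit 365) (nat_lit 196))) (XT.nd (nat_lit 94) (nat_lit 588) (nat_lit 0) (XT.lf (nat_lit 0) (nat_lit 16447533954) (nat_lit 1344) (nat_lit 3200598973) (nat_lit 84) (nat_lit 5140210221) (nat_lit 153) (nat_lit 5) (nat_lit 169) (nat_lit 5) (nat_lit 154) (nat_lit 5) (nat_lit 385) (nat_lit 365) (nat_lit 195)) (XT.lf (nat_lit 0) (nat_lit 8354591122) (nat_lit 588) (nat_lit 10309975010) (nat_lit 672) (nat_lit 6545224143) (nat_lit 146) (nat_lit 5) (nat_lit 153) (nat_lit 5) (nat_lit 154) (nat_lit 5) (nat_lit 386) (nat_lit 365) (nat_lit 194))))) (XT.nd (nat_lit 57622) (nat_lit 0) (nat_lit 2604) (XT.nd (nat_lit 57434)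 (nat_lit 0) (nat_lit 2520) (XT.nd (nat_lit 57340) (nat_lit 0) (nat_lit 2520) (XT.lf (nat_lit 0) (nat_lit 20318173094) (nat_lit 588) (nat_lit 658015376) (nat_lit 672) (nat_lit 4666857394) (nat_lit 146) (nat_lit 5) (nat_lit 153) (nat_lit 5) (nat_lit 154) (nat_lit 5) (nat_lit 387) (nat_lit 365) (nat_lit 193)) (XT.lf (nat_lit 0) (nat_lit 7731836746) (nat_lit 1260) (nat_lit 798289071) (nat_lit 1260) (nat_lit 798289071) (nat_lit 176) (nat_lit 3) (nat_lit 191) (nat_lit 3) (nat_lit 191) (nat_lit 5) (nat_lit 366) (nat_lit 366) (nat_lit 213))) (XT.nd (nat_lit 94) (nat_lit 0) (nat_lit 0) (XT.lf (nat_lit 84) (nat_lit 6599973057) (nat_lit 0) (nat_lit 9333667382) (nat_lit 1260) (nat_lit 2995567860) (nat_lit 177) (nat_lit 5) (nat_lit 176) (nat_lit 3) (nat_lit 191) (nat_lit 5) (nat_lit 367) (nat_lit 366) (nat_lit 212)) (XT.lf (nat_lit 84) (nat_lit 15071563949) (nat_lit 0) (nat_lit 1355417356) (nat_lit 1260) (nat_lit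 2782511641) (nat_lit 177) (nat_lit 5) (nat_lit 176) (nat_lit 3) (nat_lit 191) (nat_lit 5) (nat_lit 368) (nat_lit 366) (nat_lit 211)))) (XT.nd (nat_lit 188) (nat_lit 0) (nat_lit 84) (XT.nd (nat_lit 94) (nat_lit 0) (nat_lit 0) (XT.lf (nat_lit 84) (nat_lit 4313603673) (nat_lit 0) (nat_lit 12722329683) (nat_lit 1260) (nat_lit 2459241089) (nat_lit 178) (nat_lit 5) (nat_lit 177) (nat_lit 5) (nat_lit 192) (nat_lit 5) (nat_lit 369) (nat_lit 366) (nat_lit 210)) (XT.lf (nat_lit 84) (nat_lit 13086132025) (nat_lit 0) (nat_lit 4625635109) (nat_lit 1260) (nat_lit 2076213130) (nat_lit 178) (nat_lit 5) (nat_lit 177) (nat_lit 5) (nat_lit 192) (nat_lit 5) (nat_lit 370) (nat_lit 366) (nat_lit 209))) (XT.nd (nat_lit 94) (nat_lit 0) (nat_lit 0) (XT.lf (nat_lit 84) (nat_lit 2032419630) (nat_lit 0) (nat_lit 16424447852) (nat_lit 1260) (nat_lit 1631244943) (nat_lit 179) (nat_lit 5) (nat_lit 178) (nat_lit 5) (nat_lit 193)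 (nat_lit 5) (nat_lit 371) (nat_lit 366) (nat_lit 208)) (XT.lf (nat_lit 84) (nat_lit 11115619009) (nat_lit 0) (nat_lit 8215626263) (nat_lit 1260) (nat_lit 1062807111) (nat_lit 179) (nat_lit 5) (nat_lit 178) (nat_lit 5) (nat_lit 193) (nat_lit 5) (nat_lit 372) (nat_lit 366) (nat_lit 207))))))))
noncomputable def xc61 : XT := (XT.nd (nat_lit 60348) (nat_lit 0) (nat_lit 588) (XT.nd (nat_lit 58844) (nat_lit 0) (nat_lit 1512) (XT.nd (nat_lit 752) (nat_lit 1512) (nat_lit 0) (XT.nd (nat_lit 376) (nat_lit 0) (nat_lit 84) (XT.nd (nat_lit 188) (nat_lit 0) (nat_lit 0) (XT.nd (nat_lit 94) (nat_lit 1260) (nat_lit 0) (XT.lf (nat_lit 0) (nat_lit 20228255228) (nat_lit 1176) (nat_lit 244026941) (nat_lit 1260) (nat_lit 237007577) (nat_lit 179) (nat_lit 5) (nat_lit 193) (nat_lit 5) (nat_lit 194) (nat_lit 5) (nat_lit 373) (nat_lit 366) (nat_lit 206)) (XT.lf (nat_lit 0) (nat_lit 281110959) (nat_lit 1260) (nat_lit 11876883795)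 (nat_lit 1344) (nat_lit 8871009196) (nat_lit 164) (nat_lit 5) (nat_lit 179) (nat_lit 5) (nat_lit 180) (nat_lit 5) (nat_lit 374) (nat_lit 366) (nat_lit 205))) (XT.nd (nat_lit 94) (nat_lit 0) (nat_lit 84) (XT.lf (nat_lit 0) (nat_lit 1053277254) (nat_lit 1260) (nat_lit 2531711210) (nat_lit 1344) (nat_lit 17773283767) (nat_lit 164) (nat_lit 5) (nat_lit 179) (nat_lit 5) (nat_lit 180) (nat_lit 5) (nat_lit 375) (nat_lit 366) (nat_lit 204)) (XT.lf (nat_lit 0) (nat_lit 1963745701) (nat_lit 1260) (nat_lit 14515440893) (nat_lit 1344) (nat_lit 5214787829) (nat_lit 165) (nat_lit 5) (nat_lit 180) (nat_lit 5) (nat_lit 181) (nat_lit 5) (nat_lit 376) (nat_lit 366) (nat_lit 203)))) (XT.nd (nat_lit 188) (nat_lit 0) (nat_lit 84) (XT.nd (nat_lit 94) (nat_lit 0) (nat_lit 84) (XT.lf (nat_lit 0) (nat_lit 2957483527) (nat_lit 1260) (nat_lit 4846626562) (nat_lit 1344) (nat_lit 14233968621) (nat_lit 165) (nat_lit 5) (nat_lit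 180) (nat_lit 5) (nat_lit 181) (nat_lit 5) (nat_lit 377) (nat_lit 366) (nat_lit 202)) (XT.lf (nat_lit 0) (nat_lit 4037298298) (nat_lit 1260) (nat_lit 17192399622) (nat_lit 1344) (nat_lit 1161129664) (nat_lit 166) (nat_lit 5) (nat_lit 181) (nat_lit 5) (nat_lit 182) (nat_lit 5) (nat_lit 378) (nat_lit 366) (nat_lit 201))) (XT.nd (nat_lit 94) (nat_lit 0) (nat_lit 0) (XT.lf (nat_lit 0) (nat_lit 5271128609) (nat_lit 1260) (nat_lit 7190164215) (nat_lit 1344) (nat_lit 10289226599) (nat_lit 166) (nat_lit 5) (nat_lit 181) (nat_lit 5) (nat_lit 182) (nat_lit 5) (nat_lit 379) (nat_lit 366) (nat_lit 200)) (XT.lf (nat_lit 84) (nat_lit 3170208434) (nat_lit 0) (nat_lit 3397313830) (nat_lit 1344) (nat_lit 16552722165) (nat_lit 167) (nat_lit 5) (nat_lit 166) (nat_lit 5) (nat_lit 182) (nat_lit 5) (nat_lit 380) (nat_lit 366) (nat_lit 199))))) (XT.nd (nat_lit 376) (nat_lit 1764) (nat_lit 0) (XT.nd (nat_lit 188) (nat_lit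 0) (nat_lit 84) (XT.nd (nat_lit 94) (nat_lit 0) (nat_lit 0) (XT.lf (nat_lit 0) (nat_lit 8028410516) (nat_lit 1260) (nat_lit 9571821793) (nat_lit 1344) (nat_lit 5897069398) (nat_lit 167) (nat_lit 5) (nat_lit 182) (nat_lit 5) (nat_lit 183) (nat_lit 5) (nat_lit 381) (nat_lit 366) (nat_lit 198)) (XT.lf (nat_lit 84) (nat_lit 1101798033) (nat_lit 0) (nat_lit 8470887390) (nat_lit 1344) (nat_lit 14311806836) (nat_lit 168) (nat_lit 5) (nat_lit 167) (nat_lit 5) (nat_lit 183) (nat_lit 5) (nat_lit 382) (nat_lit 366) (nat_lit 197))) (XT.nd (nat_lit 94) (nat_lit 0) (nat_lit 0) (XT.lf (nat_lit 0) (nat_lit 11265303943) (nat_lit 1260) (nat_lit 12002398256) (nat_lit 84) (nat_lit 1012543981) (nat_lit 168) (nat_lit 5) (nat_lit 183) (nat_lit 5) (nat_lit 169) (nat_lit 5) (nat_lit 383) (nat_lit 366) (nat_lit 196)) (XT.lf (nat_lit 0) (nat_lit 13088143553) (nat_lit 1260) (nat_lit 986369059) (nat_lit 84) (nat_lit 10610984706)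 (nat_lit 168) (nat_lit 5) (nat_lit 183) (nat_lit 5) (nat_lit 169) (nat_lit 5) (nat_lit 384) (nat_lit 366) (nat_lit 195)))) (XT.nd (nat_lit 188) (nat_lit 588) (nat_lit 0) (XT.nd (nat_lit 94) (nat_lit 0) (nat_lit 0) (XT.lf (nat_lit 0) (nat_lit 10562559961) (nat_lit 1260) (nat_lit 4500343502) (nat_lit 1344) (nat_lit 10037093123) (nat_lit 153) (nat_lit 5) (nat_lit 168) (nat_lit 5) (nat_lit 169) (nat_lit 5) (nat_lit 385) (nat_lit 366) (nat_lit 194)) (XT.lf (nat_lit 0) (nat_lit 17154295530) (nat_lit 1344) (nat_lit 3103885276) (nat_lit 84) (nat_lit 5267035767) (nat_lit 153) (nat_lit 5) (nat_lit 169) (nat_lit 5) (nat_lit 154) (nat_lit 5) (nat_lit 386) (nat_lit 366) (nat_lit 193))) (XT.nd (nat_lit 57434) (nat_lit 0) (nat_lit 2520) (XT.lf (nat_lit 0) (nat_lit 8796070995) (nat_lit 588) (nat_lit 10637388512) (nat_lit 672) (nat_lit 6525989956) (nat_lit 146) (nat_lit 5) (nat_lit 153) (nat_lit 5) (nat_lit 154)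 (nat_lit 5) (nat_lit 387) (nat_lit 366) (nat_lit 192)) (XT.lf (nat_lit 0) (nat_lit 8136682651) (nat_lit 1260) (nat_lit 733033798) (nat_lit 1260) (nat_lit 733033798) (nat_lit 176) (nat_lit 3) (nat_lit 191) (nat_lit 3) (nat_lit 191) (nat_lit 5) (nat_lit 367) (nat_lit 367) (nat_lit 211)))))) (XT.nd (nat_lit 752) (nat_lit 0) (nat_lit 0) (XT.nd (nat_lit 376) (nat_lit 1008) (nat_lit 0) (XT.nd (nat_lit 188) (nat_lit 0) (nat_lit 84) (XT.nd (nat_lit 94) (nat_lit 0) (nat_lit 0) (XT.lf (nat_lit 84) (nat_lit 6974631041) (nat_lit 0) (nat_lit 9774427060) (nat_lit 1260) (nat_lit 2737262711) (nat_lit 177) (nat_lit 5) (nat_lit 176) (nat_lit 3) (nat_lit 191) (nat_lit 5) (nat_lit 368) (nat_lit 367) (nat_lit 210)) (XT.lf (nat_lit 84) (nat_lit 15695224259) (nat_lit 0) (nat_lit 1552147504) (nat_lit 1260) (nat_lit 2527955743) (nat_lit 177) (nat_lit 5) (nat_lit 176) (nat_lit 3) (nat_lit 191) (nat_lit 5) (nat_lit 369)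 (nat_lit 367) (nat_lit 209))) (XT.nd (nat_lit 94) (nat_lit 0) (nat_lit 0) (XT.lf (nat_lit 84) (nat_lit 4624676955) (nat_lit 0) (nat_lit 13240663981) (nat_lit 1260) (nat_lit 2204534197) (nat_lit 178) (nat_lit 5) (nat_lit 177) (nat_lit 5) (nat_lit 192) (nat_lit 5) (nat_lit 370) (nat_lit 367) (nat_lit 208)) (XT.lf (nat_lit 84) (nat_lit 13655089939) (nat_lit 0) (nat_lit 4897088053) (nat_lit 1260) (nat_lit 1819582898) (nat_lit 178) (nat_lit 5) (nat_lit 177) (nat_lit 5) (nat_lit 192) (nat_lit 5) (nat_lit 371) (nat_lit 367) (nat_lit 207)))) (XT.nd (nat_lit 188) (nat_lit 1176) (nat_lit 0) (XT.nd (nat_lit 94) (nat_lit 0) (nat_lit 0) (XT.lf (nat_lit 84) (nat_lit 2279062077) (nat_lit 0) (nat_lit 17032114070) (nat_lit 1260) (nat_lit 1369991623) (nat_lit 179) (nat_lit 5) (nat_lit 178) (nat_lit 5) (nat_lit 193) (nat_lit 5) (nat_lit 372) (nat_lit 367) (nat_lit 206)) (XT.lf (nat_lit 84) (nat_lit 11629349578) (nat_lit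 0) (nat_lit 8573680277) (nat_lit 1260) (nat_lit 793535335) (nat_lit 179) (nat_lit 5) (nat_lit 178) (nat_lit 5) (nat_lit 193) (nat_lit 5) (nat_lit 373) (nat_lit 367) (nat_lit 205))) (XT.nd (nat_lit 94) (nat_lit 1260) (nat_lit 0) (XT.lf (nat_lit 0) (nat_lit 21117408321) (nat_lit 1176) (nat_lit 66257081) (nat_lit 1260) (nat_lit 137896642) (nat_lit 179) (nat_lit 5) (nat_lit 193) (nat_lit 5) (nat_lit 194) (nat_lit 5) (nat_lit 374) (nat_lit 367) (nat_lit 204)) (XT.lf (nat_lit 0) (nat_lit 568631538) (nat_lit 1260) (nat_lit 12043853480) (nat_lit 1344) (nat_lit 9038510041) (nat_lit 164) (nat_lit 5) (nat_lit 179) (nat_lit 5) (nat_lit 180) (nat_lit 5) (nat_lit 375) (nat_lit 367) (nat_lit 203))))) (XT.nd (nat_lit 376) (nat_lit 0) (nat_lit 168) (XT.nd (nat_lit 188) (nat_lit 0) (nat_lit 84) (XT.nd (nat_lit 94) (nat_lit 0) (nat_lit 84) (XT.lf (nat_lit 0) (nat_lit 1355834067) (nat_lit 1260) (nat_lit 2423840382)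 (nat_lit 1344) (nat_lit 18210725552) (nat_lit 164) (nat_lit 5) (nat_lit 179) (nat_lit 5) (nat_lit 180) (nat_lit 5) (nat_lit 376) (nat_lit 367) (nat_lit 202)) (XT.lf (nat_lit 0) (nat_lit 2286678372) (nat_lit 1260) (nat_lit 14759666438) (nat_lit 1344) (nat_lit 5290050915) (nat_lit 165) (nat_lit 5) (nat_lit 180) (nat_lit 5) (nat_lit 181) (nat_lit 5) (nat_lit 377) (nat_lit 367) (nat_lit 201))) (XT.nd (nat_lit 94) (nat_lit 0) (nat_lit 84) (XT.lf (nat_lit 0) (nat_lit 3302538421) (nat_lit 1260) (nat_lit 4806357707) (nat_lit 1344) (nat_lit 14582171612) (nat_lit 165) (nat_lit 5) (nat_lit 180) (nat_lit 5) (nat_lit 181) (nat_lit 5) (nat_lit 378) (nat_lit 367) (nat_lit 200)) (XT.lf (nat_lit 0) (nat_lit 4408406983) (nat_lit 1260) (nat_lit 17515713384) (nat_lit 1344) (nat_lit 1130482430) (nat_lit 166) (nat_lit 5) (nat_lit 181) (nat_lit 5) (nat_lit 182) (nat_lit 5) (nat_lit 379) (nat_lit 367) (nat_lit 199))))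 (XT.nd (nat_lit 188) (nat_lit 0) (nat_lit 84) (XT.nd (nat_lit 94) (nat_lit 0) (nat_lit 0) (XT.lf (nat_lit 0) (nat_lit 5671970949) (nat_lit 1260) (nat_lit 7219016494) (nat_lit 1344) (nat_lit 10534329490) (nat_lit 166) (nat_lit 5) (nat_lit 181) (nat_lit 5) (nat_lit 182) (nat_lit 5) (nat_lit 380) (nat_lit 367) (nat_lit 198)) (XT.lf (nat_lit 84) (nat_lit 3450335445) (nat_lit 0) (nat_lit 3551630322) (nat_lit 1344) (nat_lit 16804339364) (nat_lit 167) (nat_lit 5) (nat_lit 166) (nat_lit 5) (nat_lit 182) (nat_lit 5) (nat_lit 381) (nat_lit 367) (nat_lit 197))) (XT.nd (nat_lit 94) (nat_lit 0) (nat_lit 0) (XT.lf (nat_lit 0) (nat_lit 8499276582) (nat_lit 1260) (nat_lit 9671528814) (nat_lit 1344) (nat_lit 6024103206) (nat_lit 167) (nat_lit 5) (nat_lit 182) (nat_lit 5) (nat_lit 183) (nat_lit 5) (nat_lit 382) (nat_lit 367) (nat_lit 196)) (XT.lf (nat_lit 84) (nat_lit 1320461885) (nat_lit 0) (nat_lit 8764502618)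 (nat_lit 1344) (nat_lit 14508909819) (nat_lit 168) (nat_lit 5) (nat_lit 167) (nat_lit 5) (nat_lit 183) (nat_lit 5) (nat_lit 383) (nat_lit 367) (nat_lit 195))))))) (XT.nd (nat_lit 59032) (nat_lit 0) (nat_lit 840) (XT.nd (nat_lit 58280) (nat_lit 0) (nat_lit 924) (XT.nd (nat_lit 57904) (nat_lit 0) (nat_lit 1932) (XT.nd (nat_lit 188) (nat_lit 1260) (nat_lit 0) (XT.nd (nat_lit 94) (nat_lit 0) (nat_lit 0) (XT.lf (nat_lit 0) (nat_lit 11821436778) (nat_lit 1260) (nat_lit 12174953500) (nat_lit 84) (nat_lit 1005329969) (nat_lit 168) (nat_lit 5) (nat_lit 183) (nat_lit 5) (nat_lit 169) (nat_lit 5) (nat_lit 384) (nat_lit 367) (nat_lit 194)) (XT.lf (nat_lit 0) (nat_lit 13692607002) (nat_lit 1260) (nat_lit 833905079) (nat_lit 84) (nat_lit 10892818780) (nat_lit 168) (nat_lit 5) (nat_lit 183) (nat_lit 5) (nat_lit 169) (nat_lit 5) (nat_lit 385) (nat_lit 367) (nat_lit 193))) (XT.nd (nat_lit 57622) (nat_lit 0) (nat_lit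 1932) (XT.lf (nat_lit 0) (nat_lit 11059706958) (nat_lit 1260) (nat_lit 4662466129) (nat_lit 1344) (nat_lit 10124236093) (nat_lit 153) (nat_lit 5) (nat_lit 168) (nat_lit 5) (nat_lit 169) (nat_lit 5) (nat_lit 386) (nat_lit 367) (nat_lit 192)) (XT.lf (nat_lit 0) (nat_lit 8543749295) (nat_lit 1260) (nat_lit 670941538) (nat_lit 1260) (nat_lit 670941538) (nat_lit 176) (nat_lit 3) (nat_lit 191) (nat_lit 3) (nat_lit 191) (nat_lit 5) (nat_lit 368) (nat_lit 368) (nat_lit 209)))) (XT.nd (nat_lit 188) (nat_lit 0) (nat_lit 84) (XT.nd (nat_lit 94) (nat_lit 0) (nat_lit 0) (XT.lf (nat_lit 84) (nat_lit 7350387828) (nat_lit 0) (nat_lit 10219181840) (nat_lit 1260) (nat_lit 2491194915) (nat_lit 177) (nat_lit 5) (nat_lit 176) (nat_lit 3) (nat_lit 191) (nat_lit 5) (nat_lit 369) (nat_lit 368) (nat_lit 208)) (XT.lf (nat_lit 84) (nat_lit 16327748808) (nat_lit 0) (nat_lit 1745820636) (nat_lit 1260) (nat_lit 2285167545)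 (nat_lit 177) (nat_lit 5) (nat_lit 176) (nat_lit 3) (nat_lit 191) (nat_lit 5) (nat_lit 370) (nat_lit 368) (nat_lit 207))) (XT.nd (nat_lit 94) (nat_lit 0) (nat_lit 0) (XT.lf (nat_lit 84) (nat_lit 4934654112) (nat_lit 0) (nat_lit 13766703212) (nat_lit 1260) (nat_lit 1961042431) (nat_lit 178) (nat_lit 5) (nat_lit 177) (nat_lit 5) (nat_lit 192) (nat_lit 5) (nat_lit 371) (nat_lit 368) (nat_lit 206)) (XT.lf (nat_lit 84) (nat_lit 14230992004) (nat_lit 0) (nat_lit 5169067987) (nat_lit 1260) (nat_lit 1573560878) (nat_lit 178) (nat_lit 5) (nat_lit 177) (nat_lit 5) (nat_lit 192) (nat_lit 5) (nat_lit 372) (nat_lit 368) (nat_lit 205))))) (XT.nd (nat_lit 376) (nat_lit 0) (nat_lit 0) (XT.nd (nat_lit 188) (nat_lit 1176) (nat_lit 0) (XT.nd (nat_lit 94) (nat_lit 0) (nat_lit 0) (XT.lf (nat_lit 84) (nat_lit 2522445589) (nat_lit 0) (nat_lit 17651412663) (nat_lit 1260) (nat_lit 1118706916) (nat_lit 179) (nat_lit 5)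 (nat_lit 178) (nat_lit 5) (nat_lit 193) (nat_lit 5) (nat_lit 373) (nat_lit 368) (nat_lit 204)) (XT.lf (nat_lit 84) (nat_lit 12148144288) (nat_lit 0) (nat_lit 8936070463) (nat_lit 1260) (nat_lit 533472992) (nat_lit 179) (nat_lit 5) (nat_lit 178) (nat_lit 5) (nat_lit 193) (nat_lit 5) (nat_lit 374) (nat_lit 368) (nat_lit 203))) (XT.nd (nat_lit 94) (nat_lit 0) (nat_lit 0) (XT.lf (nat_lit 0) (nat_lit 64107755) (nat_lit 1260) (nat_lit 21844981867) (nat_lit 1344) (nat_lit 43579798) (nat_lit 164) (nat_lit 5) (nat_lit 179) (nat_lit 5) (nat_lit 180) (nat_lit 5) (nat_lit 375) (nat_lit 368) (nat_lit 202)) (XT.lf (nat_lit 0) (nat_lit 848756984) (nat_lit 1260) (nat_lit 12226700964) (nat_lit 1344) (nat_lit 9216697645) (nat_lit 164) (nat_lit 5) (nat_lit 179) (nat_lit 5) (nat_lit 180) (nat_lit 5) (nat_lit 376) (nat_lit 368) (nat_lit 201)))) (XT.nd (nat_lit 188) (nat_lit 0) (nat_lit 84) (XT.nd (nat_lit 94) (nat_lit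 0) (nat_lit 84) (XT.lf (nat_lit 0) (nat_lit 1651913459) (nat_lit 1260) (nat_lit 2323285574) (nat_lit 1344) (nat_lit 18666787418) (nat_lit 164) (nat_lit 5) (nat_lit 179) (nat_lit 5) (nat_lit 180) (nat_lit 5) (nat_lit 377) (nat_lit 368) (nat_lit 200)) (XT.lf (nat_lit 0) (nat_lit 2604143178) (nat_lit 1260) (nat_lit 15022196575) (nat_lit 1344) (nat_lit 5372231988) (nat_lit 165) (nat_lit 5) (nat_lit 180) (nat_lit 5) (nat_lit 181) (nat_lit 5) (nat_lit 378) (nat_lit 368) (nat_lit 199))) (XT.nd (nat_lit 94) (nat_lit 0) (nat_lit 84) (XT.lf (nat_lit 0) (nat_lit 3643230549) (nat_lit 1260) (nat_lit 4775538868) (nat_lit 1344) (nat_lit 14945345058) (nat_lit 165) (nat_lit 5) (nat_lit 180) (nat_lit 5) (nat_lit 181) (nat_lit 5) (nat_lit 379) (nat_lit 368) (nat_lit 198)) (XT.lf (nat_lit 0) (nat_lit 4776298496) (nat_lit 1260) (nat_lit 17859774449) (nat_lit 1344) (nat_lit 1102674663) (nat_lit 166) (nat_lit 5) (nat_lit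 181) (nat_lit 5) (nat_lit 182) (nat_lit 5) (nat_lit 380) (nat_lit 368) (nat_lit 197)))))) (XT.nd (nat_lit 58374) (nat_lit 252) (nat_lit 0) (XT.nd (nat_lit 376) (nat_lit 0) (nat_lit 168) (XT.nd (nat_lit 188) (nat_lit 0) (nat_lit 84) (XT.nd (nat_lit 94) (nat_lit 0) (nat_lit 0) (XT.lf (nat_lit 0) (nat_lit 6070906099) (nat_lit 1260) (nat_lit 7259460449) (nat_lit 1344) (nat_lit 10790434870) (nat_lit 166) (nat_lit 5) (nat_lit 181) (nat_lit 5) (nat_lit 182) (nat_lit 5) (nat_lit 381) (nat_lit 368) (nat_lit 196)) (XT.lf (nat_lit 84) (nat_lit 3728245319) (nat_lit 0) (nat_lit 3707568502) (nat_lit 1344) (nat_lit 17077567042) (nat_lit 167) (nat_lit 5) (nat_lit 166) (nat_lit 5) (nat_lit 182) (nat_lit 5) (nat_lit 382) (nat_lit 368) (nat_lit 195))) (XT.nd (nat_lit 94) (nat_lit 0) (nat_lit 0) (XT.lf (nat_lit 0) (nat_lit 8971064900) (nat_lit 1260) (nat_lit 9784987307) (nat_lit 1344) (nat_lit 6157811246) (nat_lit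 167) (nat_lit 5) (nat_lit 182) (nat_lit 5) (nat_lit 183) (nat_lit 5) (nat_lit 383) (nat_lit 368) (nat_lit 194)) (XT.lf (nat_lit 84) (nat_lit 1535030883) (nat_lit 0) (nat_lit 9064659496) (nat_lit 1344) (nat_lit 14725258061) (nat_lit 168) (nat_lit 5) (nat_lit 167) (nat_lit 5) (nat_lit 183) (nat_lit 5) (nat_lit 384) (nat_lit 368) (nat_lit 193)))) (XT.nd (nat_lit 57810) (nat_lit 0) (nat_lit 672) (XT.nd (nat_lit 94) (nat_lit 0) (nat_lit 0) (XT.lf (nat_lit 0) (nat_lit 12381729534) (nat_lit 1260) (nat_lit 12363449628) (nat_lit 84) (nat_lit 1000057375) (nat_lit 168) (nat_lit 5) (nat_lit 183) (nat_lit 5) (nat_lit 169) (nat_lit 5) (nat_lit 385) (nat_lit 368) (nat_lit 192)) (XT.lf (nat_lit 0) (nat_lit 14303045069) (nat_lit 1260) (nat_lit 687317884) (nat_lit 84) (nat_lit 11185202865) (nat_lit 168) (nat_lit 5) (nat_lit 183) (nat_lit 5) (nat_lit 169) (nat_lit 5) (nat_lit 386) (nat_lit 368) (nat_lit 191))) (XT.nd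 (nat_lit 94) (nat_lit 0) (nat_lit 0) (XT.lf (nat_lit 0) (nat_lit 8953673013) (nat_lit 1260) (nat_lit 611813234) (nat_lit 1260) (nat_lit 611813234) (nat_lit 176) (nat_lit 3) (nat_lit 191) (nat_lit 3) (nat_lit 191) (nat_lit 5) (nat_lit 369) (nat_lit 369) (nat_lit 207)) (XT.lf (nat_lit 84) (nat_lit 7727858513) (nat_lit 0) (nat_lit 10668581283) (nat_lit 1260) (nat_lit 2256584286) (nat_lit 177) (nat_lit 5) (nat_lit 176) (nat_lit 3) (nat_lit 191) (nat_lit 5) (nat_lit 370) (nat_lit 369) (nat_lit 206))))) (XT.nd (nat_lit 376) (nat_lit 1092) (nat_lit 0) (XT.nd (nat_lit 188) (nat_lit 0) (nat_lit 84) (XT.nd (nat_lit 94) (nat_lit 0) (nat_lit 84) (XT.lf (nat_lit 84) (nat_lit 16969968699) (nat_lit 0) (nat_lit 1936859321) (nat_lit 1260) (nat_lit 2053386186) (nat_lit 177) (nat_lit 5) (nat_lit 176) (nat_lit 3) (nat_lit 191) (nat_lit 5) (nat_lit 371) (nat_lit 369) (nat_lit 205)) (XT.lf (nat_lit 84) (nat_lit 5244100887)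 (nat_lit 0) (nat_lit 14301128864) (nat_lit 1260) (nat_lit 1728019814) (nat_lit 178) (nat_lit 5) (nat_lit 177) (nat_lit 5) (nat_lit 192) (nat_lit 5) (nat_lit 372) (nat_lit 369) (nat_lit 204))) (XT.nd (nat_lit 94) (nat_lit 0) (nat_lit 84) (XT.lf (nat_lit 84) (nat_lit 14814627738) (nat_lit 0) (nat_lit 5442027945) (nat_lit 1260) (nat_lit 1337414413) (nat_lit 178) (nat_lit 5) (nat_lit 177) (nat_lit 5) (nat_lit 192) (nat_lit 5) (nat_lit 373) (nat_lit 369) (nat_lit 203)) (XT.lf (nat_lit 84) (nat_lit 2763084221) (nat_lit 0) (nat_lit 18283071332) (nat_lit 1260) (nat_lit 876667732) (nat_lit 179) (nat_lit 5) (nat_lit 178) (nat_lit 5) (nat_lit 193) (nat_lit 5) (nat_lit 374) (nat_lit 369) (nat_lit 202)))) (XT.nd (nat_lit 188) (nat_lit 0) (nat_lit 84) (XT.nd (nat_lit 94) (nat_lit 1260) (nat_lit 0) (XT.lf (nat_lit 84) (nat_lit 12672749068) (nat_lit 0) (nat_lit 9303294605) (nat_lit 1260) (nat_lit 281903986) (nat_lit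 179) (nat_lit 5) (nat_lit 178) (nat_lit 5) (nat_lit 193) (nat_lit 5) (nat_lit 375) (nat_lit 369) (nat_lit 201)) (XT.lf (nat_lit 84) (nat_lit 275604474) (nat_lit 0) (nat_lit 46275713) (nat_lit 1344) (nat_lit 22281230420) (nat_lit 164) (nat_lit 5) (nat_lit 163) (nat_lit 5) (nat_lit 179) (nat_lit 5) (nat_lit 376) (nat_lit 369) (nat_lit 200))) (XT.nd (nat_lit 94) (nat_lit 0) (nat_lit 0) (XT.lf (nat_lit 0) (nat_lit 1122185101) (nat_lit 1260) (nat_lit 12425278673) (nat_lit 1344) (nat_lit 9405567603) (nat_lit 164) (nat_lit 5) (nat_lit 179) (nat_lit 5) (nat_lit 180) (nat_lit 5) (nat_lit 377) (nat_lit 369) (nat_lit 199)) (XT.lf (nat_lit 0) (nat_lit 1942213976) (nat_lit 1260) (nat_lit 2229660529) (nat_lit 1344) (nat_lit 19141712428) (nat_lit 164) (nat_lit 5) (nat_lit 179) (nat_lit 5) (nat_lit 180) (nat_lit 5) (nat_lit 378) (nat_lit 369) (nat_lit 198))))))))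
noncomputable def xc62 : XT := (XT.nd (nat_lit 118440) (nat_lit 0) (nat_lit 0) (XT.nd (nat_lit 59126) (nat_lit 168) (nat_lit 0) (XT.nd (nat_lit 658) (nat_lit 0) (nat_lit 252) (XT.nd (nat_lit 282) (nat_lit 0) (nat_lit 84) (XT.nd (nat_lit 94) (nat_lit 0) (nat_lit 0) (XT.lf (nat_lit 0) (nat_lit 2916846091) (nat_lit 1260) (nat_lit 15302950269) (nat_lit 1344) (nat_lit 5461271081) (nat_lit 165) (nat_lit 5) (nat_lit 180) (nat_lit 5) (nat_lit 181) (nat_lit 5) (nat_lit 379) (nat_lit 369) (nat_lit 197)) (XT.nd (nat_lit 94) (nat_lit 0) (nat_lit 84) (XT.lf (nat_lit 0) (nat_lit 3980273695) (nat_lit 1260) (nat_lit 4753841730) (nat_lit 1344) (nat_lit 15323678354) (nat_lit 165) (nat_lit 5) (nat_lit 180) (nat_lit 5) (nat_lit 181) (nat_lit 5) (nat_lit 380) (nat_lit 369) (nat_lit 196)) (XT.lf (nat_lit 0) (nat_lit 5141700093) (nat_lit 1260) (nat_lit 18224571041) (nat_lit 1344) (nat_lit 1077575772) (nat_lit 166) (nat_lit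 5) (nat_lit 181) (nat_lit 5) (nat_lit 182) (nat_lit 5) (nat_lit 381) (nat_lit 369) (nat_lit 195)))) (XT.nd (nat_lit 188) (nat_lit 0) (nat_lit 84) (XT.nd (nat_lit 94) (nat_lit 0) (nat_lit 0) (XT.lf (nat_lit 0) (nat_lit 6468676625) (nat_lit 1260) (nat_lit 7311228105) (nat_lit 1344) (nat_lit 11057663323) (nat_lit 166) (nat_lit 5) (nat_lit 181) (nat_lit 5) (nat_lit 182) (nat_lit 5) (nat_lit 382) (nat_lit 369) (nat_lit 194)) (XT.lf (nat_lit 84) (nat_lit 4004481226) (nat_lit 0) (nat_lit 3865349682) (nat_lit 1344) (nat_lit 17372246298) (nat_lit 167) (nat_lit 5) (nat_lit 166) (nat_lit 5) (nat_lit 182) (nat_lit 5) (nat_lit 383) (nat_lit 369) (nat_lit 193))) (XT.nd (nat_lit 94) (nat_lit 0) (nat_lit 0) (XT.lf (nat_lit 0) (nat_lit 9444561085) (nat_lit 1260) (nat_lit 9911992133) (nat_lit 1344) (nat_lit 6298229384) (nat_lit 167) (nat_lit 5) (nat_lit 182) (nat_lit 5) (nat_lit 183) (nat_lit 5) (nat_lit 384) (nat_lit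 369) (nat_lit 192)) (XT.lf (nat_lit 84) (nat_lit 1745993811) (nat_lit 0) (nat_lit 9371684396) (nat_lit 1344) (nat_lit 14960663600) (nat_lit 168) (nat_lit 5) (nat_lit 167) (nat_lit 5) (nat_lit 183) (nat_lit 5) (nat_lit 385) (nat_lit 369) (nat_lit 191))))) (XT.nd (nat_lit 58092) (nat_lit 0) (nat_lit 756) (XT.nd (nat_lit 57904) (nat_lit 0) (nat_lit 672) (XT.nd (nat_lit 57810) (nat_lit 0) (nat_lit 672) (XT.lf (nat_lit 0) (nat_lit 12947025942) (nat_lit 1260) (nat_lit 12567746954) (nat_lit 84) (nat_lit 996660574) (nat_lit 168) (nat_lit 5) (nat_lit 183) (nat_lit 5) (nat_lit 169) (nat_lit 5) (nat_lit 386) (nat_lit 369) (nat_lit 190)) (XT.lf (nat_lit 0) (nat_lit 9367076529) (nat_lit 1260) (nat_lit 555460732) (nat_lit 1260) (nat_lit 555460732) (nat_lit 176) (nat_lit 3) (nat_lit 191) (nat_lit 3) (nat_lit 191) (nat_lit 5) (nat_lit 370) (nat_lit 370) (nat_lit 205))) (XT.nd (nat_lit 94) (nat_lit 0) (nat_lit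 0) (XT.lf (nat_lit 84) (nat_lit 8107643227) (nat_lit 0) (nat_lit 11123264028) (nat_lit 1260) (nat_lit 2032693091) (nat_lit 177) (nat_lit 5) (nat_lit 176) (nat_lit 3) (nat_lit 191) (nat_lit 5) (nat_lit 371) (nat_lit 370) (nat_lit 204)) (XT.lf (nat_lit 84) (nat_lit 17622707526) (nat_lit 0) (nat_lit 2125669282) (nat_lit 1260) (nat_lit 1831891924) (nat_lit 177) (nat_lit 5) (nat_lit 176) (nat_lit 3) (nat_lit 191) (nat_lit 5) (nat_lit 372) (nat_lit 370) (nat_lit 203)))) (XT.nd (nat_lit 188) (nat_lit 0) (nat_lit 84) (XT.nd (nat_lit 94) (nat_lit 0) (nat_lit 0) (XT.lf (nat_lit 84) (nat_lit 5553565636) (nat_lit 0) (nat_lit 14844617019) (nat_lit 1260) (nat_lit 1504760125) (nat_lit 178) (nat_lit 5) (nat_lit 177) (nat_lit 5) (nat_lit 192) (nat_lit 5) (nat_lit 373) (nat_lit 370) (nat_lit 202)) (XT.lf (nat_lit 84) (nat_lit 15406776979) (nat_lit 0) (nat_lit 5716409453) (nat_lit 1260) (nat_lit 1110449192) (nat_lit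 178) (nat_lit 5) (nat_lit 177) (nat_lit 5) (nat_lit 192) (nat_lit 5) (nat_lit 374) (nat_lit 370) (nat_lit 201))) (XT.nd (nat_lit 94) (nat_lit 0) (nat_lit 0) (XT.lf (nat_lit 84) (nat_lit 3001472331) (nat_lit 0) (nat_lit 18927817868) (nat_lit 1260) (nat_lit 643187962) (nat_lit 179) (nat_lit 5) (nat_lit 178) (nat_lit 5) (nat_lit 193) (nat_lit 5) (nat_lit 375) (nat_lit 370) (nat_lit 200)) (XT.lf (nat_lit 84) (nat_lit 13203898126) (nat_lit 0) (nat_lit 9675844313) (nat_lit 1260) (nat_lit 38147706) (nat_lit 179) (nat_lit 5) (nat_lit 178) (nat_lit 5) (nat_lit 193) (nat_lit 5) (nat_lit 376) (nat_lit 370) (nat_lit 199)))))) (XT.nd (nat_lit 752) (nat_lit 0) (nat_lit 336) (XT.nd (nat_lit 376) (nat_lit 0) (nat_lit 168) (XT.nd (nat_lit 188) (nat_lit 0) (nat_lit 84) (XT.nd (nat_lit 94) (nat_lit 0) (nat_lit 84) (XT.lf (nat_lit 84) (nat_lit 438677982) (nat_lit 0) (nat_lit 134435828) (nat_lit 1344) (nat_lit 22700405980)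 (nat_lit 164) (nat_lit 5) (nat_lit 163) (nat_lit 5) (nat_lit 179) (nat_lit 5) (nat_lit 377) (nat_lit 370) (nat_lit 198)) (XT.lf (nat_lit 0) (nat_lit 1389581832) (nat_lit 1260) (nat_lit 12639470420) (nat_lit 1344) (nat_lit 9605134036) (nat_lit 164) (nat_lit 5) (nat_lit 179) (nat_lit 5) (nat_lit 180) (nat_lit 5) (nat_lit 378) (nat_lit 370) (nat_lit 197))) (XT.nd (nat_lit 94) (nat_lit 0) (nat_lit 84) (XT.lf (nat_lit 0) (nat_lit 2227403870) (nat_lit 1260) (nat_lit 2142602177) (nat_lit 1344) (nat_lit 19635769048) (nat_lit 164) (nat_lit 5) (nat_lit 179) (nat_lit 5) (nat_lit 180) (nat_lit 5) (nat_lit 379) (nat_lit 370) (nat_lit 196)) (XT.lf (nat_lit 0) (nat_lit 3225464318) (nat_lit 1260) (nat_lit 15601880229) (nat_lit 1344) (nat_lit 5557121781) (nat_lit 165) (nat_lit 5) (nat_lit 180) (nat_lit 5) (nat_lit 181) (nat_lit 5) (nat_lit 380) (nat_lit 370) (nat_lit 195)))) (XT.nd (nat_lit 188) (nat_lit 0) (nat_lit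 84) (XT.nd (nat_lit 94) (nat_lit 0) (nat_lit 84) (XT.lf (nat_lit 0) (nat_lit 4314354571) (nat_lit 1260) (nat_lit 4740963246) (nat_lit 1344) (nat_lit 15717381489) (nat_lit 165) (nat_lit 5) (nat_lit 180) (nat_lit 5) (nat_lit 181) (nat_lit 5) (nat_lit 381) (nat_lit 370) (nat_lit 194)) (XT.lf (nat_lit 0) (nat_lit 5505313565) (nat_lit 1260) (nat_lit 18610127437) (nat_lit 1344) (nat_lit 1055063635) (nat_lit 166) (nat_lit 5) (nat_lit 181) (nat_lit 5) (nat_lit 182) (nat_lit 5) (nat_lit 382) (nat_lit 370) (nat_lit 193))) (XT.nd (nat_lit 94) (nat_lit 0) (nat_lit 0) (XT.lf (nat_lit 0) (nat_lit 6866001457) (nat_lit 1260) (nat_lit 7374078798) (nat_lit 1344) (nat_lit 11336151076) (nat_lit 166) (nat_lit 5) (nat_lit 181) (nat_lit 5) (nat_lit 182) (nat_lit 5) (nat_lit 383) (nat_lit 370) (nat_lit 192)) (XT.lf (nat_lit 84) (nat_lit 4279567635) (nat_lit 0) (nat_lit 4025191899) (nat_lit 1344) (nat_lit 17688259804)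 (nat_lit 167) (nat_lit 5) (nat_lit 166) (nat_lit 5) (nat_lit 182) (nat_lit 5) (nat_lit 384) (nat_lit 370) (nat_lit 191))))) (XT.nd (nat_lit 58186) (nat_lit 0) (nat_lit 756) (XT.nd (nat_lit 57998) (nat_lit 0) (nat_lit 756) (XT.nd (nat_lit 94) (nat_lit 0) (nat_lit 0) (XT.lf (nat_lit 0) (nat_lit 9920530812) (nat_lit 1260) (nat_lit 10052367456) (nat_lit 1344) (nat_lit 6445403997) (nat_lit 167) (nat_lit 5) (nat_lit 182) (nat_lit 5) (nat_lit 183) (nat_lit 5) (nat_lit 385) (nat_lit 370) (nat_lit 190)) (XT.lf (nat_lit 84) (nat_lit 1953819003) (nat_lit 0) (nat_lit 9685906014) (nat_lit 1344) (nat_lit 15214976766) (nat_lit 168) (nat_lit 5) (nat_lit 167) (nat_lit 5) (nat_lit 183) (nat_lit 5) (nat_lit 386) (nat_lit 370) (nat_lit 189))) (XT.nd (nat_lit 94) (nat_lit 0) (nat_lit 0) (XT.lf (nat_lit 0) (nat_lit 9784570421) (nat_lit 1260) (nat_lit 501706136) (nat_lit 1260) (nat_lit 501706136) (nat_lit 176) (nat_lit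 3) (nat_lit 191) (nat_lit 3) (nat_lit 191) (nat_lit 5) (nat_lit 371) (nat_lit 371) (nat_lit 203)) (XT.lf (nat_lit 84) (nat_lit 8490328606) (nat_lit 0) (nat_lit 11583859212) (nat_lit 1260) (nat_lit 1818823547) (nat_lit 177) (nat_lit 5) (nat_lit 176) (nat_lit 3) (nat_lit 191) (nat_lit 5) (nat_lit 372) (nat_lit 371) (nat_lit 202)))) (XT.nd (nat_lit 188) (nat_lit 0) (nat_lit 84) (XT.nd (nat_lit 94) (nat_lit 0) (nat_lit 84) (XT.lf (nat_lit 84) (nat_lit 18286783006) (nat_lit 0) (nat_lit 2312640587) (nat_lit 1260) (nat_lit 1620003694) (nat_lit 177) (nat_lit 5) (nat_lit 176) (nat_lit 3) (nat_lit 191) (nat_lit 5) (nat_lit 373) (nat_lit 371) (nat_lit 201)) (XT.lf (nat_lit 84) (nat_lit 5863580769) (nat_lit 0) (nat_lit 15397839674) (nat_lit 1260) (nat_lit 1290594528) (nat_lit 178) (nat_lit 5) (nat_lit 177) (nat_lit 5) (nat_lit 192) (nat_lit 5) (nat_lit 374) (nat_lit 371) (nat_lit 200))) (XT.nd (nat_lit 94)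 (nat_lit 0) (nat_lit 84) (XT.lf (nat_lit 84) (nat_lit 16008211516) (nat_lit 0) (nat_lit 5992643625) (nat_lit 1260) (nat_lit 892006939) (nat_lit 178) (nat_lit 5) (nat_lit 177) (nat_lit 5) (nat_lit 192) (nat_lit 5) (nat_lit 375) (nat_lit 371) (nat_lit 199)) (XT.lf (nat_lit 84) (nat_lit 3238086002) (nat_lit 0) (nat_lit 19586381404) (nat_lit 1260) (nat_lit 417616223) (nat_lit 179) (nat_lit 5) (nat_lit 178) (nat_lit 5) (nat_lit 193) (nat_lit 5) (nat_lit 376) (nat_lit 371) (nat_lit 198))))))) (XT.nd (nat_lit 59408) (nat_lit 0) (nat_lit 0) (XT.nd (nat_lit 752) (nat_lit 0) (nat_lit 252) (XT.nd (nat_lit 376) (nat_lit 0) (nat_lit 168) (XT.nd (nat_lit 188) (nat_lit 0) (nat_lit 84) (XT.nd (nat_lit 94) (nat_lit 0) (nat_lit 0) (XT.lf (nat_lit 0) (nat_lit 194570839) (nat_lit 1260) (nat_lit 9857670427) (nat_lit 1344) (nat_lit 13545779932) (nat_lit 163) (nat_lit 5) (nat_lit 178) (nat_lit 5) (nat_lit 179) (nat_lit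 5) (nat_lit 377) (nat_lit 371) (nat_lit 197)) (XT.lf (nat_lit 84) (nat_lit 597757233) (nat_lit 0) (nat_lit 220259689) (nat_lit 1344) (nat_lit 23146465429) (nat_lit 164) (nat_lit 5) (nat_lit 163) (nat_lit 5) (nat_lit 179) (nat_lit 5) (nat_lit 378) (nat_lit 371) (nat_lit 196))) (XT.nd (nat_lit 94) (nat_lit 0) (nat_lit 0) (XT.lf (nat_lit 0) (nat_lit 1651583340) (nat_lit 1260) (nat_lit 12869190291) (nat_lit 1344) (nat_lit 9815429074) (nat_lit 164) (nat_lit 5) (nat_lit 179) (nat_lit 5) (nat_lit 180) (nat_lit 5) (nat_lit 379) (nat_lit 371) (nat_lit 195)) (XT.lf (nat_lit 0) (nat_lit 2508123124) (nat_lit 1260) (nat_lit 2061769328) (nat_lit 1344) (nat_lit 20149250874) (nat_lit 164) (nat_lit 5) (nat_lit 179) (nat_lit 5) (nat_lit 180) (nat_lit 5) (nat_lit 380) (nat_lit 371) (nat_lit 194)))) (XT.nd (nat_lit 188) (nat_lit 0) (nat_lit 84) (XT.nd (nat_lit 94) (nat_lit 0) (nat_lit 0) (XT.lf (nat_lit 0) (nat_lit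 3530648311) (nat_lit 1260) (nat_lit 15918971844) (nat_lit 1344) (nat_lit 5659750759) (nat_lit 165) (nat_lit 5) (nat_lit 180) (nat_lit 5) (nat_lit 181) (nat_lit 5) (nat_lit 381) (nat_lit 371) (nat_lit 193)) (XT.lf (nat_lit 0) (nat_lit 4646134784) (nat_lit 1260) (nat_lit 4736624384) (nat_lit 1344) (nat_lit 16126684802) (nat_lit 165) (nat_lit 5) (nat_lit 180) (nat_lit 5) (nat_lit 181) (nat_lit 5) (nat_lit 382) (nat_lit 371) (nat_lit 192))) (XT.nd (nat_lit 94) (nat_lit 0) (nat_lit 0) (XT.lf (nat_lit 0) (nat_lit 5867817178) (nat_lit 1260) (nat_lit 19016502959) (nat_lit 1344) (nat_lit 1035024140) (nat_lit 166) (nat_lit 5) (nat_lit 181) (nat_lit 5) (nat_lit 182) (nat_lit 5) (nat_lit 383) (nat_lit 371) (nat_lit 191)) (XT.lf (nat_lit 0) (nat_lit 7263577817) (nat_lit 1260) (nat_lit 7447797957) (nat_lit 1344) (nat_lit 11626049779) (nat_lit 166) (nat_lit 5) (nat_lit 181) (nat_lit 5) (nat_lit 182) (nat_lit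 5) (nat_lit 384) (nat_lit 371) (nat_lit 190))))) (XT.nd (nat_lit 58280) (nat_lit 0) (nat_lit 840) (XT.nd (nat_lit 58092) (nat_lit 0) (nat_lit 840) (XT.nd (nat_lit 94) (nat_lit 0) (nat_lit 84) (XT.lf (nat_lit 84) (nat_lit 4554011759) (nat_lit 0) (nat_lit 4187310393) (nat_lit 1344) (nat_lit 18025530387) (nat_lit 167) (nat_lit 5) (nat_lit 166) (nat_lit 5) (nat_lit 182) (nat_lit 5) (nat_lit 385) (nat_lit 371) (nat_lit 189)) (XT.lf (nat_lit 0) (nat_lit 10399721715) (nat_lit 1260) (nat_lit 10205965588) (nat_lit 1344) (nat_lit 6599391747) (nat_lit 167) (nat_lit 5) (nat_lit 182) (nat_lit 5) (nat_lit 183) (nat_lit 5) (nat_lit 386) (nat_lit 371) (nat_lit 188))) (XT.nd (nat_lit 94) (nat_lit 0) (nat_lit 0) (XT.lf (nat_lit 0) (nat_lit 10206754528) (nat_lit 1260) (nat_lit 450381207) (nat_lit 1260) (nat_lit 450381207) (nat_lit 176) (nat_lit 3) (nat_lit 191) (nat_lit 3) (nat_lit 191) (nat_lit 5) (nat_lit 372)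 (nat_lit 372) (nat_lit 201)) (XT.lf (nat_lit 84) (nat_lit 8876489197) (nat_lit 0) (nat_lit 12050987830) (nat_lit 1260) (nat_lit 1614315449) (nat_lit 177) (nat_lit 5) (nat_lit 176) (nat_lit 3) (nat_lit 191) (nat_lit 5) (nat_lit 373) (nat_lit 372) (nat_lit 200)))) (XT.nd (nat_lit 188) (nat_lit 0) (nat_lit 84) (XT.nd (nat_lit 94) (nat_lit 0) (nat_lit 84) (XT.lf (nat_lit 84) (nat_lit 18963008568) (nat_lit 0) (nat_lit 2498148776) (nat_lit 1260) (nat_lit 1417076810) (nat_lit 177) (nat_lit 5) (nat_lit 176) (nat_lit 3) (nat_lit 191) (nat_lit 5) (nat_lit 374) (nat_lit 372) (nat_lit 199)) (XT.lf (nat_lit 84) (nat_lit 6174664141) (nat_lit 0) (nat_lit 15961466018) (nat_lit 1260) (nat_lit 1084889326) (nat_lit 178) (nat_lit 5) (nat_lit 177) (nat_lit 5) (nat_lit 192) (nat_lit 5) (nat_lit 375) (nat_lit 372) (nat_lit 198))) (XT.nd (nat_lit 94) (nat_lit 0) (nat_lit 84) (XT.lf (nat_lit 84) (nat_lit 16619696647) (nat_lit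 0) (nat_lit 6271152209) (nat_lit 1260) (nat_lit 681463226) (nat_lit 178) (nat_lit 5) (nat_lit 177) (nat_lit 5) (nat_lit 192) (nat_lit 5) (nat_lit 376) (nat_lit 372) (nat_lit 197)) (XT.lf (nat_lit 84) (nat_lit 3473384394) (nat_lit 0) (nat_lit 20259493631) (nat_lit 1260) (nat_lit 199333721) (nat_lit 179) (nat_lit 5) (nat_lit 178) (nat_lit 5) (nat_lit 193) (nat_lit 5) (nat_lit 377) (nat_lit 372) (nat_lit 196)))))) (XT.nd (nat_lit 752) (nat_lit 0) (nat_lit 0) (XT.nd (nat_lit 376) (nat_lit 0) (nat_lit 168) (XT.nd (nat_lit 188) (nat_lit 0) (nat_lit 84) (XT.nd (nat_lit 94) (nat_lit 0) (nat_lit 0) (XT.lf (nat_lit 0) (nat_lit 420123532) (nat_lit 1260) (nat_lit 10014496163) (nat_lit 1344) (nat_lit 13864350922) (nat_lit 163) (nat_lit 5) (nat_lit 178) (nat_lit 5) (nat_lit 179) (nat_lit 5) (nat_lit 378) (nat_lit 372) (nat_lit 195)) (XT.lf (nat_lit 84) (nat_lit 753232519) (nat_lit 0) (nat_lit 303963139) (nat_lit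 1344) (nat_lit 23619393909) (nat_lit 164) (nat_lit 5) (nat_lit 163) (nat_lit 5) (nat_lit 179) (nat_lit 5) (nat_lit 379) (nat_lit 372) (nat_lit 194))) (XT.nd (nat_lit 94) (nat_lit 0) (nat_lit 0) (XT.lf (nat_lit 0) (nat_lit 1908797965) (nat_lit 1260) (nat_lit 13114381617) (nat_lit 1344) (nat_lit 10036502388) (nat_lit 164) (nat_lit 5) (nat_lit 179) (nat_lit 5) (nat_lit 180) (nat_lit 5) (nat_lit 380) (nat_lit 372) (nat_lit 193)) (XT.lf (nat_lit 0) (nat_lit 2784985385) (nat_lit 1260) (nat_lit 1986841454) (nat_lit 1344) (nat_lit 20682476401) (nat_lit 164) (nat_lit 5) (nat_lit 179) (nat_lit 5) (nat_lit 180) (nat_lit 5) (nat_lit 381) (nat_lit 372) (nat_lit 192)))) (XT.nd (nat_lit 188) (nat_lit 0) (nat_lit 84) (XT.nd (nat_lit 94) (nat_lit 0) (nat_lit 0) (XT.lf (nat_lit 0) (nat_lit 3833023659) (nat_lit 1260) (nat_lit 16254242204) (nat_lit 1344) (nat_lit 5769137328) (nat_lit 165) (nat_lit 5) (nat_lit 180)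 (nat_lit 5) (nat_lit 181) (nat_lit 5) (nat_lit 382) (nat_lit 372) (nat_lit 191)) (XT.lf (nat_lit 0) (nat_lit 4976252710) (nat_lit 1260) (nat_lit 4740568946) (nat_lit 1344) (nat_lit 16551838789) (nat_lit 165) (nat_lit 5) (nat_lit 180) (nat_lit 5) (nat_lit 181) (nat_lit 5) (nat_lit 383) (nat_lit 372) (nat_lit 190))) (XT.nd (nat_lit 94) (nat_lit 0) (nat_lit 0) (XT.lf (nat_lit 0) (nat_lit 6229867535) (nat_lit 1260) (nat_lit 19443791052) (nat_lit 1344) (nat_lit 1017350758) (nat_lit 166) (nat_lit 5) (nat_lit 181) (nat_lit 5) (nat_lit 182) (nat_lit 5) (nat_lit 384) (nat_lit 372) (nat_lit 189)) (XT.lf (nat_lit 0) (nat_lit 7662083056) (nat_lit 1260) (nat_lit 7532195978) (nat_lit 1344) (nat_lit 11927526315) (nat_lit 166) (nat_lit 5) (nat_lit 181) (nat_lit 5) (nat_lit 182) (nat_lit 5) (nat_lit 385) (nat_lit 372) (nat_lit 188))))) (XT.nd (nat_lit 58374) (nat_lit 252) (nat_lit 0) (XT.nd (nat_lit 58186) (nat_lit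 0) (nat_lit 840) (XT.nd (nat_lit 58092) (nat_lit 0) (nat_lit 840) (XT.lf (nat_lit 84) (nat_lit 4828304932) (nat_lit 0) (nat_lit 4351918051) (nat_lit 1344) (nat_lit 18384019730) (nat_lit 167) (nat_lit 5) (nat_lit 166) (nat_lit 5) (nat_lit 182) (nat_lit 5) (nat_lit 386) (nat_lit 372) (nat_lit 187)) (XT.lf (nat_lit 0) (nat_lit 10634219295) (nat_lit 1260) (nat_lit 401326791) (nat_lit 1260) (nat_lit 401326791) (nat_lit 176) (nat_lit 3) (nat_lit 191) (nat_lit 3) (nat_lit 191) (nat_lit 5) (nat_lit 373) (nat_lit 373) (nat_lit 199))) (XT.nd (nat_lit 94) (nat_lit 0) (nat_lit 0) (XT.lf (nat_lit 84) (nat_lit 9266688796) (nat_lit 0) (nat_lit 12525264039) (nat_lit 1260) (nat_lit 1418543947) (nat_lit 177) (nat_lit 5) (nat_lit 176) (nat_lit 3) (nat_lit 191) (nat_lit 5) (nat_lit 374) (nat_lit 373) (nat_lit 198)) (XT.lf (nat_lit 84) (nat_lit 19652194867) (nat_lit 0) (nat_lit 2682555934) (nat_lit 1260) (nat_lit 1222500799)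 (nat_lit 177) (nat_lit 5) (nat_lit 176) (nat_lit 3) (nat_lit 191) (nat_lit 5) (nat_lit 375) (nat_lit 373) (nat_lit 197)))) (XT.nd (nat_lit 188) (nat_lit 1176) (nat_lit 0) (XT.nd (nat_lit 94) (nat_lit 0) (nat_lit 0) (XT.lf (nat_lit 84) (nat_lit 6487320362) (nat_lit 0) (nat_lit 16536163665) (nat_lit 1260) (nat_lit 887043850) (nat_lit 178) (nat_lit 5) (nat_lit 177) (nat_lit 5) (nat_lit 192) (nat_lit 5) (nat_lit 376) (nat_lit 373) (nat_lit 196)) (XT.lf (nat_lit 84) (nat_lit 17241992689) (nat_lit 0) (nat_lit 6552348586) (nat_lit 1260) (nat_lit 478225418) (nat_lit 178) (nat_lit 5) (nat_lit 177) (nat_lit 5) (nat_lit 192) (nat_lit 5) (nat_lit 377) (nat_lit 373) (nat_lit 195))) (XT.nd (nat_lit 94) (nat_lit 0) (nat_lit 0) (XT.lf (nat_lit 0) (nat_lit 12008763) (nat_lit 1260) (nat_lit 20935759953) (nat_lit 1344) (nat_lit 3695681001) (nat_lit 163) (nat_lit 5) (nat_lit 178) (nat_lit 5) (nat_lit 179) (nat_lit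 5) (nat_lit 378) (nat_lit 373) (nat_lit 194)) (XT.lf (nat_lit 0) (nat_lit 639830234) (nat_lit 1260) (nat_lit 10184000351) (nat_lit 1344) (nat_lit 14197519259) (nat_lit 163) (nat_lit 5) (nat_lit 178) (nat_lit 5) (nat_lit 179) (nat_lit 5) (nat_lit 379) (nat_lit 373) (nat_lit 193))))))))
noncomputable def xc63 : XT := (XT.nd (nat_lit 177754) (nat_lit 84) (nat_lit 0) (XT.nd (nat_lit 59596) (nat_lit 0) (nat_lit 0) (XT.nd (nat_lit 58844) (nat_lit 0) (nat_lit 0) (XT.nd (nat_lit 376) (nat_lit 0) (nat_lit 168) (XT.nd (nat_lit 188) (nat_lit 0) (nat_lit 84) (XT.nd (nat_lit 94) (nat_lit 0) (nat_lit 84) (XT.lf (nat_lit 84) (nat_lit 905476558) (nat_lit 0) (nat_lit 385752086) (nat_lit 1344) (nat_lit 24119223269) (nat_lit 164) (nat_lit 5) (nat_lit 163) (nat_lit 5) (nat_lit 179) (nat_lit 5) (nat_lit 380) (nat_lit 373) (nat_lit 192)) (XT.lf (nat_lit 0) (nat_lit 2161808086) (nat_lit 1260) (nat_lit 13375016024) (nat_lit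 1344) (nat_lit 10268420762) (nat_lit 164) (nat_lit 5) (nat_lit 179) (nat_lit 5) (nat_lit 180) (nat_lit 5) (nat_lit 381) (nat_lit 373) (nat_lit 191))) (XT.nd (nat_lit 94) (nat_lit 0) (nat_lit 84) (XT.lf (nat_lit 0) (nat_lit 3058579784) (nat_lit 1260) (nat_lit 1917517531) (nat_lit 1344) (nat_lit 21235788851) (nat_lit 164) (nat_lit 5) (nat_lit 179) (nat_lit 5) (nat_lit 180) (nat_lit 5) (nat_lit 382) (nat_lit 373) (nat_lit 190)) (XT.lf (nat_lit 0) (nat_lit 4133192895) (nat_lit 1260) (nat_lit 16607739208) (nat_lit 1344) (nat_lit 5885273044) (nat_lit 165) (nat_lit 5) (nat_lit 180) (nat_lit 5) (nat_lit 181) (nat_lit 5) (nat_lit 383) (nat_lit 373) (nat_lit 189)))) (XT.nd (nat_lit 188) (nat_lit 0) (nat_lit 84) (XT.nd (nat_lit 94) (nat_lit 0) (nat_lit 84) (XT.lf (nat_lit 0) (nat_lit 5305325268) (nat_lit 1260) (nat_lit 4752562458) (nat_lit 1344) (nat_lit 16993113949) (nat_lit 165) (nat_lit 5) (nat_lit 180)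 (nat_lit 5) (nat_lit 181) (nat_lit 5) (nat_lit 384) (nat_lit 373) (nat_lit 188)) (XT.lf (nat_lit 0) (nat_lit 6592101333) (nat_lit 1260) (nat_lit 19892118456) (nat_lit 1344) (nat_lit 1001944137) (nat_lit 166) (nat_lit 5) (nat_lit 181) (nat_lit 5) (nat_lit 182) (nat_lit 5) (nat_lit 385) (nat_lit 373) (nat_lit 187))) (XT.nd (nat_lit 58186) (nat_lit 0) (nat_lit 840) (XT.lf (nat_lit 0) (nat_lit 8062176394) (nat_lit 1260) (nat_lit 7627107170) (nat_lit 1344) (nat_lit 12240762645) (nat_lit 166) (nat_lit 5) (nat_lit 181) (nat_lit 5) (nat_lit 182) (nat_lit 5) (nat_lit 386) (nat_lit 373) (nat_lit 186)) (XT.lf (nat_lit 0) (nat_lit 11067547062) (nat_lit 1260) (nat_lit 354392278) (nat_lit 1260) (nat_lit 354392278) (nat_lit 176) (nat_lit 3) (nat_lit 191) (nat_lit 3) (nat_lit 191) (nat_lit 5) (nat_lit 374) (nat_lit 374) (nat_lit 197))))) (XT.nd (nat_lit 376) (nat_lit 1092) (nat_lit 0) (XT.nd (nat_lit 188) (nat_lit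 0) (nat_lit 84) (XT.nd (nat_lit 94) (nat_lit 0) (nat_lit 0) (XT.lf (nat_lit 84) (nat_lit 9661481734) (nat_lit 0) (nat_lit 13007296421) (nat_lit 1260) (nat_lit 1230917435) (nat_lit 177) (nat_lit 5) (nat_lit 176) (nat_lit 3) (nat_lit 191) (nat_lit 5) (nat_lit 375) (nat_lit 374) (nat_lit 196)) (XT.lf (nat_lit 84) (nat_lit 20355151270) (nat_lit 0) (nat_lit 2866211699) (nat_lit 1260) (nat_lit 1035697347) (nat_lit 177) (nat_lit 5) (nat_lit 176) (nat_lit 3) (nat_lit 191) (nat_lit 5) (nat_lit 376) (nat_lit 374) (nat_lit 195))) (XT.nd (nat_lit 94) (nat_lit 0) (nat_lit 0) (XT.lf (nat_lit 84) (nat_lit 6802042053) (nat_lit 0) (nat_lit 17122599847) (nat_lit 1260) (nat_lit 696488461) (nat_lit 178) (nat_lit 5) (nat_lit 177) (nat_lit 5) (nat_lit 192) (nat_lit 5) (nat_lit 377) (nat_lit 374) (nat_lit 194)) (XT.lf (nat_lit 84) (nat_lit 17875856431) (nat_lit 0) (nat_lit 6836638726) (nat_lit 1260) (nat_lit 281730721)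 (nat_lit 178) (nat_lit 5) (nat_lit 177) (nat_lit 5) (nat_lit 192) (nat_lit 5) (nat_lit 378) (nat_lit 374) (nat_lit 193)))) (XT.nd (nat_lit 188) (nat_lit 0) (nat_lit 0) (XT.nd (nat_lit 94) (nat_lit 0) (nat_lit 0) (XT.lf (nat_lit 0) (nat_lit 213439895) (nat_lit 1260) (nat_lit 21436715569) (nat_lit 1344) (nat_lit 3726199789) (nat_lit 163) (nat_lit 5) (nat_lit 178) (nat_lit 5) (nat_lit 179) (nat_lit 5) (nat_lit 379) (nat_lit 374) (nat_lit 192)) (XT.lf (nat_lit 0) (nat_lit 854239578) (nat_lit 1260) (nat_lit 10366105621) (nat_lit 1344) (nat_lit 14545433534) (nat_lit 163) (nat_lit 5) (nat_lit 178) (nat_lit 5) (nat_lit 179) (nat_lit 5) (nat_lit 380) (nat_lit 374) (nat_lit 191))) (XT.nd (nat_lit 94) (nat_lit 0) (nat_lit 84) (XT.lf (nat_lit 84) (nat_lit 1054845646) (nat_lit 0) (nat_lit 465823144) (nat_lit 1344) (nat_lit 24646030754) (nat_lit 164) (nat_lit 5) (nat_lit 163) (nat_lit 5) (nat_lit 179) (nat_lit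 5) (nat_lit 381) (nat_lit 374) (nat_lit 190)) (XT.lf (nat_lit 0) (nat_lit 2411171879) (nat_lit 1260) (nat_lit 13651092555) (nat_lit 1344) (nat_lit 10511267712) (nat_lit 164) (nat_lit 5) (nat_lit 179) (nat_lit 5) (nat_lit 180) (nat_lit 5) (nat_lit 382) (nat_lit 374) (nat_lit 189)))))) (XT.nd (nat_lit 59032) (nat_lit 84) (nat_lit 0) (XT.nd (nat_lit 58656) (nat_lit 0) (nat_lit 1008) (XT.nd (nat_lit 188) (nat_lit 0) (nat_lit 84) (XT.nd (nat_lit 94) (nat_lit 0) (nat_lit 84) (XT.lf (nat_lit 0) (nat_lit 3329472663) (nat_lit 1260) (nat_lit 1853514951) (nat_lit 1344) (nat_lit 21809556038) (nat_lit 164) (nat_lit 5) (nat_lit 179) (nat_lit 5) (nat_lit 180) (nat_lit 5) (nat_lit 383) (nat_lit 374) (nat_lit 188)) (XT.lf (nat_lit 0) (nat_lit 4431737203) (nat_lit 1260) (nat_lit 16979540747) (nat_lit 1344) (nat_lit 6008161328) (nat_lit 165) (nat_lit 5) (nat_lit 180) (nat_lit 5) (nat_lit 181) (nat_lit 5) (nat_lit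 384) (nat_lit 374) (nat_lit 187))) (XT.nd (nat_lit 58374) (nat_lit 0) (nat_lit 924) (XT.lf (nat_lit 0) (nat_lit 5633949610) (nat_lit 1260) (nat_lit 4772391141) (nat_lit 1344) (nat_lit 17450800662) (nat_lit 165) (nat_lit 5) (nat_lit 180) (nat_lit 5) (nat_lit 181) (nat_lit 5) (nat_lit 385) (nat_lit 374) (nat_lit 186)) (XT.lf (nat_lit 0) (nat_lit 11507313307) (nat_lit 1260) (nat_lit 309435097) (nat_lit 1260) (nat_lit 309435097) (nat_lit 176) (nat_lit 3) (nat_lit 191) (nat_lit 3) (nat_lit 191) (nat_lit 5) (nat_lit 375) (nat_lit 375) (nat_lit 195)))) (XT.nd (nat_lit 188) (nat_lit 0) (nat_lit 84) (XT.nd (nat_lit 94) (nat_lit 0) (nat_lit 0) (XT.lf (nat_lit 84) (nat_lit 10061414106) (nat_lit 0) (nat_lit 13497689185) (nat_lit 1260) (nat_lit 1050875563) (nat_lit 177) (nat_lit 5) (nat_lit 176) (nat_lit 3) (nat_lit 191) (nat_lit 5) (nat_lit 376) (nat_lit 375) (nat_lit 194)) (XT.lf (nat_lit 84) (nat_lit 21072687283)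 (nat_lit 0) (nat_lit 3049454236) (nat_lit 1260) (nat_lit 856118369) (nat_lit 177) (nat_lit 5) (nat_lit 176) (nat_lit 3) (nat_lit 191) (nat_lit 5) (nat_lit 377) (nat_lit 375) (nat_lit 193))) (XT.nd (nat_lit 94) (nat_lit 0) (nat_lit 0) (XT.lf (nat_lit 84) (nat_lit 7119311044) (nat_lit 0) (nat_lit 17721442583) (nat_lit 1260) (nat_lit 512682669) (nat_lit 178) (nat_lit 5) (nat_lit 177) (nat_lit 5) (nat_lit 192) (nat_lit 5) (nat_lit 378) (nat_lit 375) (nat_lit 192)) (XT.lf (nat_lit 84) (nat_lit 18522042541) (nat_lit 0) (nat_lit 7124422102) (nat_lit 1260) (nat_lit 91444345) (nat_lit 178) (nat_lit 5) (nat_lit 177) (nat_lit 5) (nat_lit 192) (nat_lit 5) (nat_lit 379) (nat_lit 375) (nat_lit 191))))) (XT.nd (nat_lit 376) (nat_lit 0) (nat_lit 84) (XT.nd (nat_lit 188) (nat_lit 0) (nat_lit 0) (XT.nd (nat_lit 94) (nat_lit 0) (nat_lit 0) (XT.lf (nat_lit 0) (nat_lit 409371671) (nat_lit 1260) (nat_lit 21959996901)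 (nat_lit 1344) (nat_lit 3762246654) (nat_lit 163) (nat_lit 5) (nat_lit 178) (nat_lit 5) (nat_lit 179) (nat_lit 5) (nat_lit 380) (nat_lit 375) (nat_lit 190)) (XT.lf (nat_lit 0) (nat_lit 1063875095) (nat_lit 1260) (nat_lit 10560758561) (nat_lit 1344) (nat_lit 14908263405) (nat_lit 163) (nat_lit 5) (nat_lit 178) (nat_lit 5) (nat_lit 179) (nat_lit 5) (nat_lit 381) (nat_lit 375) (nat_lit 189))) (XT.nd (nat_lit 94) (nat_lit 0) (nat_lit 84) (XT.lf (nat_lit 84) (nat_lit 1201680752) (nat_lit 0) (nat_lit 544364240) (nat_lit 1344) (nat_lit 25199937821) (nat_lit 164) (nat_lit 5) (nat_lit 163) (nat_lit 5) (nat_lit 179) (nat_lit 5) (nat_lit 382) (nat_lit 375) (nat_lit 188)) (XT.lf (nat_lit 0) (nat_lit 2657424983) (nat_lit 1260) (nat_lit 13942636880) (nat_lit 1344) (nat_lit 10765143143) (nat_lit 164) (nat_lit 5) (nat_lit 179) (nat_lit 5) (nat_lit 180) (nat_lit 5) (nat_lit 383) (nat_lit 375) (nat_lit 187)))) (XT.nd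 (nat_lit 58562) (nat_lit 0) (nat_lit 1008) (XT.nd (nat_lit 94) (nat_lit 0) (nat_lit 84) (XT.lf (nat_lit 0) (nat_lit 3598209219) (nat_lit 1260) (nat_lit 1794568504) (nat_lit 1344) (nat_lit 22404170292) (nat_lit 164) (nat_lit 5) (nat_lit 179) (nat_lit 5) (nat_lit 180) (nat_lit 5) (nat_lit 384) (nat_lit 375) (nat_lit 186)) (XT.lf (nat_lit 0) (nat_lit 4729218042) (nat_lit 1260) (nat_lit 17369753969) (nat_lit 1344) (nat_lit 6137817134) (nat_lit 165) (nat_lit 5) (nat_lit 180) (nat_lit 5) (nat_lit 181) (nat_lit 5) (nat_lit 385) (nat_lit 375) (nat_lit 185))) (XT.nd (nat_lit 94) (nat_lit 0) (nat_lit 0) (XT.lf (nat_lit 0) (nat_lit 11954087831) (nat_lit 1260) (nat_lit 266320234) (nat_lit 1260) (nat_lit 266320234) (nat_lit 176) (nat_lit 3) (nat_lit 191) (nat_lit 3) (nat_lit 191) (nat_lit 5) (nat_lit 376) (nat_lit 376) (nat_lit 193)) (XT.lf (nat_lit 84) (nat_lit 10467024951) (nat_lit 0) (nat_lit 13997043342)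 (nat_lit 1260) (nat_lit 877887366) (nat_lit 177) (nat_lit 5) (nat_lit 176) (nat_lit 3) (nat_lit 191) (nat_lit 5) (nat_lit 377) (nat_lit 376) (nat_lit 192))))))) (XT.nd (nat_lit 118628) (nat_lit 0) (nat_lit 0) (XT.nd (nat_lit 59220) (nat_lit 0) (nat_lit 0) (XT.nd (nat_lit 376) (nat_lit 0) (nat_lit 84) (XT.nd (nat_lit 188) (nat_lit 1176) (nat_lit 0) (XT.nd (nat_lit 94) (nat_lit 0) (nat_lit 84) (XT.lf (nat_lit 84) (nat_lit 21805613943) (nat_lit 0) (nat_lit 3232611146) (nat_lit 1260) (nat_lit 683244189) (nat_lit 177) (nat_lit 5) (nat_lit 176) (nat_lit 3) (nat_lit 191) (nat_lit 5) (nat_lit 378) (nat_lit 376) (nat_lit 191)) (XT.lf (nat_lit 84) (nat_lit 7439599518) (nat_lit 0) (nat_lit 18333361797) (nat_lit 1260) (nat_lit 335113345) (nat_lit 178) (nat_lit 5) (nat_lit 177) (nat_lit 5) (nat_lit 192) (nat_lit 5) (nat_lit 379) (nat_lit 376) (nat_lit 190))) (XT.nd (nat_lit 94) (nat_lit 0) (nat_lit 84) (XT.lf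 (nat_lit 0) (nat_lit 91324689) (nat_lit 1260) (nat_lit 7323845677) (nat_lit 1344) (nat_lit 19089058036) (nat_lit 162) (nat_lit 5) (nat_lit 177) (nat_lit 5) (nat_lit 178) (nat_lit 5) (nat_lit 380) (nat_lit 376) (nat_lit 189)) (XT.lf (nat_lit 0) (nat_lit 600301685) (nat_lit 1260) (nat_lit 22505854838) (nat_lit 1344) (nat_lit 3803722661) (nat_lit 163) (nat_lit 5) (nat_lit 178) (nat_lit 5) (nat_lit 179) (nat_lit 5) (nat_lit 381) (nat_lit 376) (nat_lit 188)))) (XT.nd (nat_lit 188) (nat_lit 0) (nat_lit 84) (XT.nd (nat_lit 94) (nat_lit 0) (nat_lit 0) (XT.lf (nat_lit 0) (nat_lit 1269236846) (nat_lit 1260) (nat_lit 10767928920) (nat_lit 1344) (nat_lit 15286199275) (nat_lit 163) (nat_lit 5) (nat_lit 178) (nat_lit 5) (nat_lit 179) (nat_lit 5) (nat_lit 382) (nat_lit 376) (nat_lit 187)) (XT.lf (nat_lit 84) (nat_lit 1346308549) (nat_lit 0) (nat_lit 621555192) (nat_lit 1344) (nat_lit 25781109059) (nat_lit 164)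 (nat_lit 5) (nat_lit 163) (nat_lit 5) (nat_lit 179) (nat_lit 5) (nat_lit 383) (nat_lit 376) (nat_lit 186))) (XT.nd (nat_lit 94) (nat_lit 0) (nat_lit 0) (XT.lf (nat_lit 0) (nat_lit 2901082078) (nat_lit 1260) (nat_lit 14249700554) (nat_lit 1344) (nat_lit 11030163042) (nat_lit 164) (nat_lit 5) (nat_lit 179) (nat_lit 5) (nat_lit 180) (nat_lit 5) (nat_lit 384) (nat_lit 376) (nat_lit 185)) (XT.lf (nat_lit 0) (nat_lit 3865315055) (nat_lit 1260) (nat_lit 1740429411) (nat_lit 1344) (nat_lit 23020048415) (nat_lit 164) (nat_lit 5) (nat_lit 179) (nat_lit 5) (nat_lit 180) (nat_lit 5) (nat_lit 385) (nat_lit 376) (nat_lit 184))))) (XT.nd (nat_lit 376) (nat_lit 1176) (nat_lit 0) (XT.nd (nat_lit 188) (nat_lit 0) (nat_lit 0) (XT.nd (nat_lit 94) (nat_lit 0) (nat_lit 0) (XT.lf (nat_lit 0) (nat_lit 12408435912) (nat_lit 1260) (nat_lit 224919779) (nat_lit 1260) (nat_lit 224919779) (nat_lit 176) (nat_lit 3) (nat_lit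 191) (nat_lit 3) (nat_lit 191) (nat_lit 5) (nat_lit 377) (nat_lit 377) (nat_lit 191)) (XT.lf (nat_lit 84) (nat_lit 10878847390) (nat_lit 0) (nat_lit 14505957829) (nat_lit 1260) (nat_lit 711449491) (nat_lit 177) (nat_lit 5) (nat_lit 176) (nat_lit 3) (nat_lit 191) (nat_lit 5) (nat_lit 378) (nat_lit 377) (nat_lit 190))) (XT.nd (nat_lit 94) (nat_lit 0) (nat_lit 84) (XT.lf (nat_lit 84) (nat_lit 22554745167) (nat_lit 0) (nat_lit 3416000342) (nat_lit 1260) (nat_lit 516581808) (nat_lit 177) (nat_lit 5) (nat_lit 176) (nat_lit 3) (nat_lit 191) (nat_lit 5) (nat_lit 379) (nat_lit 377) (nat_lit 189)) (XT.lf (nat_lit 84) (nat_lit 7763371105) (nat_lit 0) (nat_lit 18959030419) (nat_lit 1260) (nat_lit 163293050) (nat_lit 178) (nat_lit 5) (nat_lit 177) (nat_lit 5) (nat_lit 192) (nat_lit 5) (nat_lit 380) (nat_lit 377) (nat_lit 188)))) (XT.nd (nat_lit 188) (nat_lit 0) (nat_lit 84) (XT.nd (nat_lit 94) (nat_lit 0) (nat_lit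 84) (XT.lf (nat_lit 0) (nat_lit 267195192) (nat_lit 1260) (nat_lit 7442145857) (nat_lit 1344) (nat_lit 19584504716) (nat_lit 162) (nat_lit 5) (nat_lit 177) (nat_lit 5) (nat_lit 178) (nat_lit 5) (nat_lit 381) (nat_lit 377) (nat_lit 187)) (XT.lf (nat_lit 0) (nat_lit 786704424) (nat_lit 1260) (nat_lit 23074571844) (nat_lit 1344) (nat_lit 3850541106) (nat_lit 163) (nat_lit 5) (nat_lit 178) (nat_lit 5) (nat_lit 179) (nat_lit 5) (nat_lit 382) (nat_lit 377) (nat_lit 186))) (XT.nd (nat_lit 94) (nat_lit 0) (nat_lit 0) (XT.lf (nat_lit 0) (nat_lit 1470802969) (nat_lit 1260) (nat_lit 10987608886) (nat_lit 1344) (nat_lit 15679452016) (nat_lit 163) (nat_lit 5) (nat_lit 178) (nat_lit 5) (nat_lit 179) (nat_lit 5) (nat_lit 383) (nat_lit 377) (nat_lit 185)) (XT.lf (nat_lit 84) (nat_lit 1489042395) (nat_lit 0) (nat_lit 697568259) (nat_lit 1344) (nat_lit 26389751212) (nat_lit 164) (nat_lit 5) (nat_lit 163) (nat_lit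 5) (nat_lit 179) (nat_lit 5) (nat_lit 384) (nat_lit 377) (nat_lit 184)))))) (XT.nd (nat_lit 59502) (nat_lit 0) (nat_lit 0) (XT.nd (nat_lit 376) (nat_lit 0) (nat_lit 0) (XT.nd (nat_lit 188) (nat_lit 1176) (nat_lit 0) (XT.nd (nat_lit 94) (nat_lit 0) (nat_lit 0) (XT.lf (nat_lit 0) (nat_lit 12870919403) (nat_lit 1260) (nat_lit 185112503) (nat_lit 1260) (nat_lit 185112503) (nat_lit 176) (nat_lit 3) (nat_lit 191) (nat_lit 3) (nat_lit 191) (nat_lit 5) (nat_lit 378) (nat_lit 378) (nat_lit 189)) (XT.lf (nat_lit 84) (nat_lit 11297409712) (nat_lit 0) (nat_lit 15025030604) (nat_lit 1260) (nat_lit 551084523) (nat_lit 177) (nat_lit 5) (nat_lit 176) (nat_lit 3) (nat_lit 191) (nat_lit 5) (nat_lit 379) (nat_lit 378) (nat_lit 188))) (XT.nd (nat_lit 94) (nat_lit 1176) (nat_lit 0) (XT.lf (nat_lit 84) (nat_lit 23320899075) (nat_lit 0) (nat_lit 3599930877) (nat_lit 1260) (nat_lit 355663290) (nat_lit 177) (nat_lit 5)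 (nat_lit 176) (nat_lit 3) (nat_lit 191) (nat_lit 5) (nat_lit 380) (nat_lit 378) (nat_lit 187)) (XT.lf (nat_lit 0) (nat_lit 3178304) (nat_lit 1260) (nat_lit 19595915062) (nat_lit 1344) (nat_lit 8087871530) (nat_lit 162) (nat_lit 5) (nat_lit 177) (nat_lit 5) (nat_lit 178) (nat_lit 5) (nat_lit 381) (nat_lit 378) (nat_lit 186)))) (XT.nd (nat_lit 188) (nat_lit 0) (nat_lit 84) (XT.nd (nat_lit 94) (nat_lit 0) (nat_lit 84) (XT.lf (nat_lit 0) (nat_lit 438403395) (nat_lit 1260) (nat_lit 7569816690) (nat_lit 1344) (nat_lit 20099247831) (nat_lit 162) (nat_lit 5) (nat_lit 177) (nat_lit 5) (nat_lit 178) (nat_lit 5) (nat_lit 382) (nat_lit 378) (nat_lit 185)) (XT.lf (nat_lit 0) (nat_lit 969032758) (nat_lit 1260) (nat_lit 23666461522) (nat_lit 1344) (nat_lit 3902627011) (nat_lit 163) (nat_lit 5) (nat_lit 178) (nat_lit 5) (nat_lit 179) (nat_lit 5) (nat_lit 383) (nat_lit 378) (nat_lit 184))) (XT.nd (nat_lit 58844)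 (nat_lit 0) (nat_lit 1092) (XT.lf (nat_lit 0) (nat_lit 1669031137) (nat_lit 1260) (nat_lit 11219812417) (nat_lit 1344) (nat_lit 16088252734) (nat_lit 163) (nat_lit 5) (nat_lit 178) (nat_lit 5) (nat_lit 179) (nat_lit 5) (nat_lit 384) (nat_lit 378) (nat_lit 183)) (XT.lf (nat_lit 0) (nat_lit 13342097804) (nat_lit 1260) (nat_lit 146783448) (nat_lit 1260) (nat_lit 146783448) (nat_lit 176) (nat_lit 3) (nat_lit 191) (nat_lit 3) (nat_lit 191) (nat_lit 5) (nat_lit 379) (nat_lit 379) (nat_lit 187))))) (XT.nd (nat_lit 59314) (nat_lit 0) (nat_lit 1176) (XT.nd (nat_lit 188) (nat_lit 1176) (nat_lit 0) (XT.nd (nat_lit 94) (nat_lit 0) (nat_lit 0) (XT.lf (nat_lit 84) (nat_lit 11723236423) (nat_lit 0) (nat_lit 15554859701) (nat_lit 1260) (nat_lit 396339415) (nat_lit 177) (nat_lit 5) (nat_lit 176) (nat_lit 3) (nat_lit 191) (nat_lit 5) (nat_lit 380) (nat_lit 379) (nat_lit 186)) (XT.lf (nat_lit 84) (nat_lit 24104899271)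 (nat_lit 0) (nat_lit 3784703734) (nat_lit 1260) (nat_lit 200044214) (nat_lit 177) (nat_lit 5) (nat_lit 176) (nat_lit 3) (nat_lit 191) (nat_lit 5) (nat_lit 381) (nat_lit 379) (nat_lit 185))) (XT.nd (nat_lit 94) (nat_lit 0) (nat_lit 0) (XT.lf (nat_lit 0) (nat_lit 161712825) (nat_lit 1260) (nat_lit 20090983249) (nat_lit 1344) (nat_lit 8259835805) (nat_lit 162) (nat_lit 5) (nat_lit 177) (nat_lit 5) (nat_lit 178) (nat_lit 5) (nat_lit 382) (nat_lit 379) (nat_lit 184)) (XT.lf (nat_lit 0) (nat_lit 605379936) (nat_lit 1260) (nat_lit 7706805108) (nat_lit 1344) (nat_lit 20633611799) (nat_lit 162) (nat_lit 5) (nat_lit 177) (nat_lit 5) (nat_lit 178) (nat_lit 5) (nat_lit 383) (nat_lit 379) (nat_lit 183)))) (XT.nd (nat_lit 188) (nat_lit 0) (nat_lit 0) (XT.nd (nat_lit 94) (nat_lit 0) (nat_lit 0) (XT.lf (nat_lit 0) (nat_lit 13822529292) (nat_lit 1260) (nat_lit 109823552) (nat_lit 1260) (nat_lit 109823552) (nat_lit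 176) (nat_lit 3) (nat_lit 191) (nat_lit 3) (nat_lit 191) (nat_lit 5) (nat_lit 380) (nat_lit 380) (nat_lit 185)) (XT.lf (nat_lit 84) (nat_lit 12156849267) (nat_lit 0) (nat_lit 16096044261) (nat_lit 1260) (nat_lit 246783991) (nat_lit 177) (nat_lit 5) (nat_lit 176) (nat_lit 3) (nat_lit 191) (nat_lit 5) (nat_lit 381) (nat_lit 380) (nat_lit 184))) (XT.nd (nat_lit 59314) (nat_lit 0) (nat_lit 0) (XT.lf (nat_lit 84) (nat_lit 24907576104) (nat_lit 0) (nat_lit 3970612582) (nat_lit 1260) (nat_lit 49302233) (nat_lit 177) (nat_lit 5) (nat_lit 176) (nat_lit 3) (nat_lit 191) (nat_lit 5) (nat_lit 382) (nat_lit 380) (nat_lit 183)) (XT.lf (nat_lit 84) (nat_lit 12598768197) (nat_lit 0) (nat_lit 16649185526) (nat_lit 1260) (nat_lit 102009543) (nat_lit 177) (nat_lit 5) (nat_lit 176) (nat_lit 3) (nat_lit 191) (nat_lit 5) (nat_lit 382) (nat_lit 381) (nat_lit 182))))))))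

set_option maxRecDepth 10000000 in
noncomputable def Tp : PT := (PT.nd (nat_lit 3978550) (PT.nd (nat_lit 3209066) (PT.nd (nat_lit 2557364) (PT.nd (nat_lit 2024102) (PT.nd (nat_lit 1668218) pc0 pc1) (PT.nd (nat_lit 296100) pc2 pc3)) (PT.nd (nat_lit 355978) (PT.nd (nat_lit 178224) pc4 pc5) (PT.nd (nat_lit 176814) pc6 pc7))) (PT.nd (nat_lit 415104) (PT.nd (nat_lit 236504) (PT.nd (nat_lit 118440) pc8 pc9) (PT.nd (nat_lit 61006) pc10 pc11)) (PT.nd (nat_lit 177754) (PT.nd (nat_lit 117124) pc12 pc13) (PT.nd (nat_lit 60442) pc14 pc15)))) (PT.nd (nat_lit 475640) (PT.nd (nat_lit 239136) (PT.nd (nat_lit 119850) (PT.nd (nat_lit 59972) pc16 pc17) (PT.nd (nat_lit 59690) pc18 pc19)) (PT.nd (nat_lit 118534) (PT.nd (nat_lit 59314) pc20 pc21) (PT.nd (nat_lit 59032) pc22 pc23))) (PT.nd (nat_lit 179822) (PT.nd (nat_lit 117218) (PT.nd (nat_lit 58656) pc24 pc25) (PT.nd (nat_lit 58280) pc26 pc27)) (PT.nd (nat_lit 177660)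 (PT.nd (nat_lit 113740) pc28 pc29) (PT.nd (nat_lit 119004) pc30 pc31)))))

set_option maxRecDepth 10000000 in
noncomputable def Tx : XT := (XT.nd (nat_lit 16584984) (nat_lit 0) (nat_lit 2268) XT.nil (XT.nd (nat_lit 6049652) (nat_lit 0) (nat_lit 0) (XT.nd (nat_lit 2665370) (nat_lit 0) (nat_lit 2100) (XT.nd (nat_lit 1778762) (nat_lit 0) (nat_lit 756) (XT.nd (nat_lit 1243808) (nat_lit 0) (nat_lit 420) (XT.nd (nat_lit 830490) (nat_lit 0) (nat_lit 252) (XT.nd (nat_lit 591824) (nat_lit 0) (nat_lit 0) (XT.nd (nat_lit 413882) (nat_lit 0) (nat_lit 0) xc0 xc1) (XT.nd (nat_lit 119662) (nat_lit 0) (nat_lit 0) xc2 xc3)) (XT.nd (nat_lit 235564) (nat_lit 0) (nat_lit 0) (XT.nd (nat_lit 118158) (nat_lit 0) (nat_lit 0) xc4 xc5) (XT.nd (nat_lit 116654) (nat_lit 0) (nat_lit 168) xc6 xc7))) (XT.nd (nat_lit 296382) (nat_lit 0) (nat_lit 168) (XT.nd (nat_lit 175968) (nat_lit 0) (nat_lit 0) (XT.nd (nat_lit 60818) (nat_lit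 0) (nat_lit 0) xc8 xc9) (XT.nd (nat_lit 60254) (nat_lit 0) (nat_lit 168) xc10 xc11)) (XT.nd (nat_lit 119662) (nat_lit 0) (nat_lit 0) (XT.nd (nat_lit 59878) (nat_lit 0) (nat_lit 0) xc12 xc13) (XT.nd (nat_lit 59502) (nat_lit 0) (nat_lit 168) xc14 xc15)))) (XT.nd (nat_lit 468778) (nat_lit 0) (nat_lit 504) (XT.nd (nat_lit 235470) (nat_lit 0) (nat_lit 336) (XT.nd (nat_lit 118064) (nat_lit 0) (nat_lit 84) (XT.nd (nat_lit 59126) (nat_lit 0) (nat_lit 84) xc16 xc17) (XT.nd (nat_lit 58750) (nat_lit 0) (nat_lit 252) xc18 xc19)) (XT.nd (nat_lit 116560) (nat_lit 0) (nat_lit 0) (XT.nd (nat_lit 58374) (nat_lit 0) (nat_lit 0) xc20 xc21) (XT.nd (nat_lit 58280) (nat_lit 0) (nat_lit 168) xc22 xc23))) (XT.nd (nat_lit 181702) (nat_lit 0) (nat_lit 588) (XT.nd (nat_lit 64390) (nat_lit 0) (nat_lit 0) (XT.nd (nat_lit 5922) (nat_lit 1176) (nat_lit 0) xc24 xc25) (XT.nd (nat_lit 58562) (nat_lit 0) (nat_lit 252) xc26 xc27))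 (XT.nd (nat_lit 117876) (nat_lit 0) (nat_lit 0) (XT.nd (nat_lit 58844) (nat_lit 0) (nat_lit 0) xc28 xc29) (XT.nd (nat_lit 59032) (nat_lit 0) (nat_lit 252) xc30 xc31))))) (XT.nd (nat_lit 1068968) (nat_lit 0) (nat_lit 2352) (XT.nd (nat_lit 476580) (nat_lit 0) (nat_lit 924) (XT.nd (nat_lit 237538) (nat_lit 0) (nat_lit 336) (XT.nd (nat_lit 118534) (nat_lit 0) (nat_lit 252) (XT.nd (nat_lit 59220) (nat_lit 0) (nat_lit 0) xc32 xc33) (XT.nd (nat_lit 59408) (nat_lit 0) (nat_lit 84) xc34 xc35)) (XT.nd (nat_lit 119286) (nat_lit 0) (nat_lit 336) (XT.nd (nat_lit 59596) (nat_lit 0) (nat_lit 336) xc36 xc37) (XT.nd (nat_lit 59784) (nat_lit 0) (nat_lit 252) xc38 xc39))) (XT.nd (nat_lit 294972) (nat_lit 0) (nat_lit 756) (XT.nd (nat_lit 120038) (nat_lit 0) (nat_lit 336) (XT.nd (nat_lit 59972) (nat_lit 0) (nat_lit 0) xc40 xc41) (XT.nd (nat_lit 114492) (nat_lit 0) (nat_lit 420) xc42 xc43)) (XT.nd (nat_lit 121072) (nat_lit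 0) (nat_lit 336) (XT.nd (nat_lit 60442) (nat_lit 0) (nat_lit 0) xc44 xc45) (XT.nd (nat_lit 115432) (nat_lit 0) (nat_lit 336) xc46 xc47)))) (XT.nd (nat_lit 714212) (nat_lit 0) (nat_lit 2688) (XT.nd (nat_lit 355132) (nat_lit 0) (nat_lit 1260) (XT.nd (nat_lit 177096) (nat_lit 0) (nat_lit 504) (XT.nd (nat_lit 60912) (nat_lit 0) (nat_lit 0) xc48 xc49) (XT.nd (nat_lit 61194) (nat_lit 0) (nat_lit 336) xc50 xc51)) (XT.nd (nat_lit 179070) (nat_lit 0) (nat_lit 420) (XT.nd (nat_lit 61570) (nat_lit 0) (nat_lit 420) xc52 xc53) (XT.nd (nat_lit 117876) (nat_lit 0) (nat_lit 588) xc54 xc55))) (XT.nd (nat_lit 533074) (nat_lit 0) (nat_lit 2268) (XT.nd (nat_lit 237256) (nat_lit 0) (nat_lit 1008) (XT.nd (nat_lit 118440) (nat_lit 0) (nat_lit 504) xc56 xc57) (XT.nd (nat_lit 175968) (nat_lit 0) (nat_lit 588) xc58 xc59)) (XT.nd (nat_lit 355884) (nat_lit 0) (nat_lit 1932) (XT.nd (nat_lit 177378) (nat_lit 0) (nat_lit 588)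 xc60 xc61) (XT.nd (nat_lit 237350) (nat_lit 84) (nat_lit 0) xc62 xc63)))))) XT.nil))

set_option maxRecDepth 10000000 in
noncomputable def Te : XT := XT.nil

set_option maxRecDepth 10000000 in
noncomputable def Tz : ZL := (ZL.cons (nat_lit 84) (nat_lit 3) (nat_lit 92681202083883696299) (ZL.cons (nat_lit 168) (nat_lit 6) (nat_lit 182942007893172546468) (ZL.cons (nat_lit 2100) (nat_lit 6) (nat_lit 153260292191767161666) (ZL.cons (nat_lit 2268) (nat_lit 6) (nat_lit 151493991416752299450) (ZL.cons (nat_lit 2352) (nat_lit 3) (nat_lit 75716110968296717147) (ZL.cons (nat_lit 2436) (nat_lit 6) (nat_lit 149796441467732133376) (ZL.cons (nat_lit 2520) (nat_lit 6) (nat_lit 149674701618486991370) (ZL.cons (nat_lit 2688) (nat_lit 6) (nat_lit 147986195540082497164) (ZL.cons (nat_lit 2772) (nat_lit 3) (nat_lit 73963112585498110157) (ZL.cons (nat_lit 2856) (nat_lit 6) (nat_lit 146365228307719209886) (ZL.cons (nat_lit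 2940) (nat_lit 6) (nat_lit 146247034279325868132) (ZL.cons (nat_lit 3024) (nat_lit 6) (nat_lit 144810383542262054820) (ZL.cons (nat_lit 3108) (nat_lit 6) (nat_lit 144635661689298747140) (ZL.cons (nat_lit 3192) (nat_lit 3) (nat_lit 72288719014995841118) (ZL.cons (nat_lit 3360) (nat_lit 6) (nat_lit 143090699405447843348) (ZL.cons (nat_lit 3444) (nat_lit 6) (nat_lit 142975947921570812518) (ZL.cons (nat_lit 3528) (nat_lit 6) (nat_lit 141610797460729015190) (ZL.cons (nat_lit 3612) (nat_lit 6) (nat_lit 141441164593774347538) (ZL.cons (nat_lit 3696) (nat_lit 3) (nat_lit 70692318384602190806) (ZL.cons (nat_lit 3780) (nat_lit 6) (nat_lit 140194662736938139420) (ZL.cons (nat_lit 3864) (nat_lit 6) (nat_lit 139971746973791591358) (ZL.cons (nat_lit 3948) (nat_lit 6) (nat_lit 139860337766143988610) (ZL.cons (nat_lit 4116) (nat_lit 6) (nat_lit 138566411104478869722) (ZL.cons (nat_lit 4200) (nat_lit 6) (nat_lit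 138401719000639386564) (ZL.cons (nat_lit 4284) (nat_lit 3) (nat_lit 69173418808780874871) (ZL.cons (nat_lit 4368) (nat_lit 6) (nat_lit 137223929022455229766) (ZL.cons (nat_lit 4452) (nat_lit 6) (nat_lit 137007505951439163688) (ZL.cons (nat_lit 4536) (nat_lit 6) (nat_lit 136899341672169646456) (ZL.cons (nat_lit 4620) (nat_lit 6) (nat_lit 135943127685124728506) (ZL.cons (nat_lit 4704) (nat_lit 6) (nat_lit 135676480374131397456) (ZL.cons (nat_lit 4788) (nat_lit 6) (nat_lit 135516585127685297304) (ZL.cons (nat_lit 4872) (nat_lit 3) (nat_lit 67731651115746708447) (ZL.cons (nat_lit 5040) (nat_lit 6) (nat_lit 134407479236658246130) (ZL.cons (nat_lit 5124) (nat_lit 6) (nat_lit 134197359750234881006) (ZL.cons (nat_lit 5208) (nat_lit 6) (nat_lit 134092345886866417676) (ZL.cons (nat_lit 5292) (nat_lit 6) (nat_lit 133199393703074344820) (ZL.cons (nat_lit 5376) (nat_lit 6) (nat_lit 132940512818614800112) (ZL.cons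 (nat_lit 5460) (nat_lit 6) (nat_lit 132785274715269071810) (ZL.cons (nat_lit 5544) (nat_lit 3) (nat_lit 66366771874046244445) (ZL.cons (nat_lit 5628) (nat_lit 6) (nat_lit 132051168164661027984) (ZL.cons (nat_lit 5712) (nat_lit 6) (nat_lit 131744946117059561348) (ZL.cons (nat_lit 5796) (nat_lit 6) (nat_lit 131540946615677653462) (ZL.cons (nat_lit 5880) (nat_lit 6) (nat_lit 131438991408523805570) (ZL.cons (nat_lit 6048) (nat_lit 6) (nat_lit 130609614975635766934) (ZL.cons (nat_lit 6132) (nat_lit 6) (nat_lit 130358274311111937120) (ZL.cons (nat_lit 6216) (nat_lit 6) (nat_lit 130207557705921909644) (ZL.cons (nat_lit 6300) (nat_lit 3) (nat_lit 65078666732972322336) (ZL.cons (nat_lit 6384) (nat_lit 6) (nat_lit 129533527357423726176) (ZL.cons (nat_lit 6468) (nat_lit 6) (nat_lit 129236224398587350800) (ZL.cons (nat_lit 6552) (nat_lit 6) (nat_lit 129038166630255401396) (ZL.cons (nat_lit 6636) (nat_lit 6)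 (nat_lit 128939180992241956840) (ZL.cons (nat_lit 6720) (nat_lit 6) (nat_lit 128515742991689079034) (ZL.cons (nat_lit 6804) (nat_lit 6) (nat_lit 128173816446141494380) (ZL.cons (nat_lit 6888) (nat_lit 6) (nat_lit 127929796383496999414) (ZL.cons (nat_lit 6972) (nat_lit 6) (nat_lit 127783469582341632930) (ZL.cons (nat_lit 7056) (nat_lit 3) (nat_lit 63867354092152726673) (ZL.cons (nat_lit 7140) (nat_lit 6) (nat_lit 127555372552287008832) (ZL.cons (nat_lit 7224) (nat_lit 6) (nat_lit 127170122136146017106) (ZL.cons (nat_lit 7308) (nat_lit 6) (nat_lit 126881478486790312862) (ZL.cons (nat_lit 7392) (nat_lit 6) (nat_lit 126689189391322400816) (ZL.cons (nat_lit 7476) (nat_lit 6) (nat_lit 126593086830144299304) (ZL.cons (nat_lit 7560) (nat_lit 6) (nat_lit 126224264454155291866) (ZL.cons (nat_lit 7644) (nat_lit 6) (nat_lit 125892296934206180550) (ZL.cons (nat_lit 7728) (nat_lit 6) (nat_lit 125655384252027059226)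 (ZL.cons (nat_lit 7812) (nat_lit 6) (nat_lit 125513319396536412152) (ZL.cons (nat_lit 7896) (nat_lit 3) (nat_lit 62732989116697245112) (ZL.cons (nat_lit 7980) (nat_lit 6) (nat_lit 125335416922583113172) (ZL.cons (nat_lit 8064) (nat_lit 6) (nat_lit 124961387392349140624) (ZL.cons (nat_lit 8148) (nat_lit 6) (nat_lit 124681150839576612228) (ZL.cons (nat_lit 8232) (nat_lit 6) (nat_lit 124494462397374755876) (ZL.cons (nat_lit 8316) (nat_lit 6) (nat_lit 124401158939920288386) (ZL.cons (nat_lit 8400) (nat_lit 6) (nat_lit 124502802878537816010) (ZL.cons (nat_lit 8484) (nat_lit 6) (nat_lit 124087936445114657800) (ZL.cons (nat_lit 8568) (nat_lit 6) (nat_lit 123765637882057268172) (ZL.cons (nat_lit 8652) (nat_lit 6) (nat_lit 123535625569262004748) (ZL.cons (nat_lit 8736) (nat_lit 6) (nat_lit 123397698525096327980) (ZL.cons (nat_lit 8820) (nat_lit 3) (nat_lit 61675868115391891209) (ZL.cons (nat_lit 8988) (nat_lit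 6) (nat_lit 123271180882937187386) (ZL.cons (nat_lit 9072) (nat_lit 6) (nat_lit 122908045416690612096) (ZL.cons (nat_lit 9156) (nat_lit 6) (nat_lit 122635971093610487440) (ZL.cons (nat_lit 9240) (nat_lit 6) (nat_lit 122454720178851403600) (ZL.cons (nat_lit 9324) (nat_lit 6) (nat_lit 122364134297827648760) (ZL.cons (nat_lit 9408) (nat_lit 6) (nat_lit 122510407035908030626) (ZL.cons (nat_lit 9492) (nat_lit 6) (nat_lit 122107624090837003234) (ZL.cons (nat_lit 9576) (nat_lit 6) (nat_lit 121794712864567692916) (ZL.cons (nat_lit 9660) (nat_lit 6) (nat_lit 121571399939523747844) (ZL.cons (nat_lit 9744) (nat_lit 6) (nat_lit 121437490187906585932) (ZL.cons (nat_lit 9828) (nat_lit 3) (nat_lit 60696433300597688327) (ZL.cons (nat_lit 9912) (nat_lit 6) (nat_lit 121804950150180268830) (ZL.cons (nat_lit 9996) (nat_lit 6) (nat_lit 121363674507221423868) (ZL.cons (nat_lit 10080) (nat_lit 6) (nat_lit 121011115802127661448)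 (ZL.cons (nat_lit 10164) (nat_lit 6) (nat_lit 120746965973894530714) (ZL.cons (nat_lit 10248) (nat_lit 6) (nat_lit 120570994211992507570) (ZL.cons (nat_lit 10332) (nat_lit 6) (nat_lit 120483046754687891220) (ZL.cons (nat_lit 10416) (nat_lit 6) (nat_lit 121154193807115887458) (ZL.cons (nat_lit 10500) (nat_lit 6) (nat_lit 120675546612809646794) (ZL.cons (nat_lit 10584) (nat_lit 6) (nat_lit 120284495209828066804) (ZL.cons (nat_lit 10668) (nat_lit 6) (nat_lit 119980697902770483968) (ZL.cons (nat_lit 10752) (nat_lit 6) (nat_lit 119763889237679275162) (ZL.cons (nat_lit 10836) (nat_lit 6) (nat_lit 119633879770089797580) (ZL.cons (nat_lit 10920) (nat_lit 3) (nat_lit 59795277949748195254) (ZL.cons (nat_lit 11004) (nat_lit 6) (nat_lit 120557569384667548696) (ZL.cons (nat_lit 11088) (nat_lit 6) (nat_lit 120042639130800729680) (ZL.cons (nat_lit 11172) (nat_lit 6) (nat_lit 119614216176471753988) (ZL.cons (nat_lit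 11256) (nat_lit 6) (nat_lit 119271926171526353582) (ZL.cons (nat_lit 11340) (nat_lit 6) (nat_lit 119015470027610692674) (ZL.cons (nat_lit 11424) (nat_lit 6) (nat_lit 118844623656832029430) (ZL.cons (nat_lit 11508) (nat_lit 6) (nat_lit 118759237775953761126) (ZL.cons (nat_lit 11676) (nat_lit 6) (nat_lit 119464399035239519108) (ZL.cons (nat_lit 11760) (nat_lit 6) (nat_lit 118999693021349965064) (ZL.cons (nat_lit 11844) (nat_lit 6) (nat_lit 118620031465057168956) (ZL.cons (nat_lit 11928) (nat_lit 6) (nat_lit 118325082623253690478) (ZL.cons (nat_lit 12012) (nat_lit 6) (nat_lit 118114588773650575132) (ZL.cons (nat_lit 12096) (nat_lit 6) (nat_lit 117988365989583121166) (ZL.cons (nat_lit 12180) (nat_lit 3) (nat_lit 58973151989649129967) (ZL.cons (nat_lit 12264) (nat_lit 6) (nat_lit 118940321067790087802) (ZL.cons (nat_lit 12348) (nat_lit 6) (nat_lit 118440388782482496524) (ZL.cons (nat_lit 12432) (nat_lit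 6) (nat_lit 118024444166629122064) (ZL.cons (nat_lit 12516) (nat_lit 6) (nat_lit 117692123773478247884) (ZL.cons (nat_lit 12600) (nat_lit 6) (nat_lit 117443137225987314968) (ZL.cons (nat_lit 12684) (nat_lit 6) (nat_lit 117277266963095408900) (ZL.cons (nat_lit 12768) (nat_lit 6) (nat_lit 117194368049621362006) (ZL.cons (nat_lit 12852) (nat_lit 6) (nat_lit 118469947296247868300) (ZL.cons (nat_lit 12936) (nat_lit 6) (nat_lit 117935814747427619514) (ZL.cons (nat_lit 13020) (nat_lit 6) (nat_lit 117484643860156207820) (ZL.cons (nat_lit 13104) (nat_lit 6) (nat_lit 117116040407444755288) (ZL.cons (nat_lit 13188) (nat_lit 6) (nat_lit 116829682308606426670) (ZL.cons (nat_lit 13272) (nat_lit 6) (nat_lit 116625319347826703032) (ZL.cons (nat_lit 13356) (nat_lit 6) (nat_lit 116502772955528204036) (ZL.cons (nat_lit 13440) (nat_lit 3) (nat_lit 58230968026169509187) (ZL.cons (nat_lit 13524) (nat_lit 6) (nat_lit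 116600694684562950272) (ZL.cons (nat_lit 13608) (nat_lit 6) (nat_lit 116652354546737245160) (ZL.cons (nat_lit 13692) (nat_lit 6) (nat_lit 116755719410771229948) (ZL.cons (nat_lit 13776) (nat_lit 6) (nat_lit 116910879595478138218) (ZL.cons (nat_lit 13860) (nat_lit 6) (nat_lit 117117970677718393482) (ZL.cons (nat_lit 13944) (nat_lit 6) (nat_lit 117377173610864827030) (ZL.cons (nat_lit 14028) (nat_lit 6) (nat_lit 117688714882917275552) (ZL.cons (nat_lit 14112) (nat_lit 6) (nat_lit 118052866714404716914) (ZL.cons (nat_lit 14196) (nat_lit 6) (nat_lit 117485530026251790934) (ZL.cons (nat_lit 14280) (nat_lit 6) (nat_lit 117000158875467721732) (ZL.cons (nat_lit 14364) (nat_lit 6) (nat_lit 116596329151338231966) (ZL.cons (nat_lit 14448) (nat_lit 6) (nat_lit 116273687992939324996) (ZL.cons (nat_lit 14532) (nat_lit 6) (nat_lit 116031953480812205656) (ZL.cons (nat_lit 14616) (nat_lit 6) (nat_lit 115870914390625889090)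 (ZL.cons (nat_lit 14700) (nat_lit 6) (nat_lit 115790430008612251326) (ZL.cons (nat_lit 14784) (nat_lit 3) (nat_lit 57900137579438091228) (ZL.cons (nat_lit 14868) (nat_lit 6) (nat_lit 115826486813082844396) (ZL.cons (nat_lit 14952) (nat_lit 6) (nat_lit 115905144679090001078) (ZL.cons (nat_lit 15036) (nat_lit 6) (nat_lit 116036317487071833516) (ZL.cons (nat_lit 15120) (nat_lit 6) (nat_lit 116220119854045024868) (ZL.cons (nat_lit 15204) (nat_lit 6) (nat_lit 116456712384019551702) (ZL.cons (nat_lit 15288) (nat_lit 6) (nat_lit 116746301808332284968) (ZL.cons (nat_lit 15372) (nat_lit 6) (nat_lit 117089141166286022202) (ZL.cons (nat_lit 15456) (nat_lit 6) (nat_lit 116570565876169275806) (ZL.cons (nat_lit 15540) (nat_lit 6) (nat_lit 116132535888527128532) (ZL.cons (nat_lit 15624) (nat_lit 6) (nat_lit 115774668458710184328) (ZL.cons (nat_lit 15708) (nat_lit 6) (nat_lit 115496650887022486636) (ZL.cons (nat_lit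 15792) (nat_lit 6) (nat_lit 115298240245488774368) (ZL.cons (nat_lit 15876) (nat_lit 6) (nat_lit 115179263165587319034) (ZL.cons (nat_lit 15960) (nat_lit 3) (nat_lit 57569807843381433466) (ZL.cons (nat_lit 16044) (nat_lit 6) (nat_lit 115074828685432256164) (ZL.cons (nat_lit 16128) (nat_lit 6) (nat_lit 115128038343471779898) (ZL.cons (nat_lit 16212) (nat_lit 6) (nat_lit 115234504153426784230) (ZL.cons (nat_lit 16296) (nat_lit 6) (nat_lit 115394319143674899750) (ZL.cons (nat_lit 16380) (nat_lit 6) (nat_lit 115607622958382362672) (ZL.cons (nat_lit 16464) (nat_lit 6) (nat_lit 115874601979523189224) (ZL.cons (nat_lit 16548) (nat_lit 6) (nat_lit 116195489489737211202) (ZL.cons (nat_lit 16632) (nat_lit 6) (nat_lit 115724255362762386734) (ZL.cons (nat_lit 16716) (nat_lit 6) (nat_lit 115332187669432785022) (ZL.cons (nat_lit 16800) (nat_lit 6) (nat_lit 115018943826327050096) (ZL.cons (nat_lit 16884) (nat_lit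 6) (nat_lit 114784250125232759476) (ZL.cons (nat_lit 16968) (nat_lit 6) (nat_lit 114627901493983908440) (ZL.cons (nat_lit 17052) (nat_lit 6) (nat_lit 114549761317271638768) (ZL.cons (nat_lit 17136) (nat_lit 3) (nat_lit 57198361687565125900) (ZL.cons (nat_lit 17220) (nat_lit 6) (nat_lit 114423721378963113594) (ZL.cons (nat_lit 17304) (nat_lit 6) (nat_lit 114504738980950484978) (ZL.cons (nat_lit 17388) (nat_lit 6) (nat_lit 114639846973171772392) (ZL.cons (nat_lit 17472) (nat_lit 6) (nat_lit 114829163411154159482) (ZL.cons (nat_lit 17556) (nat_lit 6) (nat_lit 115072853717027922122) (ZL.cons (nat_lit 17640) (nat_lit 6) (nat_lit 115371130824070037386) (ZL.cons (nat_lit 17724) (nat_lit 6) (nat_lit 114945858991407758480) (ZL.cons (nat_lit 17808) (nat_lit 6) (nat_lit 114598414884789366046) (ZL.cons (nat_lit 17892) (nat_lit 6) (nat_lit 114328494912277038192) (ZL.cons (nat_lit 17976) (nat_lit 6) (nat_lit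 114135863221467608804) (ZL.cons (nat_lit 18060) (nat_lit 6) (nat_lit 114020351493407943430) (ZL.cons (nat_lit 18144) (nat_lit 3) (nat_lit 56990929397760062930) (ZL.cons (nat_lit 18228) (nat_lit 6) (nat_lit 113791578362973654792) (ZL.cons (nat_lit 18312) (nat_lit 6) (nat_lit 113846384310754364236) (ZL.cons (nat_lit 18396) (nat_lit 6) (nat_lit 113956044095008018702) (ZL.cons (nat_lit 18480) (nat_lit 6) (nat_lit 114120653534963577686) (ZL.cons (nat_lit 18564) (nat_lit 6) (nat_lit 114340356464112264494) (ZL.cons (nat_lit 18648) (nat_lit 6) (nat_lit 114615344855887315846) (ZL.cons (nat_lit 18732) (nat_lit 6) (nat_lit 114234696609936246218) (ZL.cons (nat_lit 18816) (nat_lit 6) (nat_lit 113930576373911260856) (ZL.cons (nat_lit 18900) (nat_lit 6) (nat_lit 113702718411683794234) (ZL.cons (nat_lit 18984) (nat_lit 6) (nat_lit 113550923624063550508) (ZL.cons (nat_lit 19068) (nat_lit 6) (nat_lit 113475059374828337236)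 (ZL.cons (nat_lit 19152) (nat_lit 3) (nat_lit 56615528468764133531) (ZL.cons (nat_lit 19236) (nat_lit 6) (nat_lit 113258864881476114712) (ZL.cons (nat_lit 19320) (nat_lit 6) (nat_lit 113342313011523107238) (ZL.cons (nat_lit 19404) (nat_lit 6) (nat_lit 113481474243511033274) (ZL.cons (nat_lit 19488) (nat_lit 6) (nat_lit 113676470174632891976) (ZL.cons (nat_lit 19572) (nat_lit 6) (nat_lit 113927471189682867496) (ZL.cons (nat_lit 19656) (nat_lit 6) (nat_lit 113590146814325204940) (ZL.cons (nat_lit 19740) (nat_lit 6) (nat_lit 113328088588585080810) (ZL.cons (nat_lit 19824) (nat_lit 6) (nat_lit 113141067529546799850) (ZL.cons (nat_lit 19908) (nat_lit 6) (nat_lit 113028920220751008226) (ZL.cons (nat_lit 19992) (nat_lit 3) (nat_lit 56495774334701806262) (ZL.cons (nat_lit 20076) (nat_lit 6) (nat_lit 112741667326624134054) (ZL.cons (nat_lit 20160) (nat_lit 6) (nat_lit 112798117452838264786) (ZL.cons (nat_lit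 20244) (nat_lit 6) (nat_lit 112911067030619528882) (ZL.cons (nat_lit 20328) (nat_lit 6) (nat_lit 113080614753773754636) (ZL.cons (nat_lit 20412) (nat_lit 6) (nat_lit 113306908770796902050) (ZL.cons (nat_lit 20496) (nat_lit 6) (nat_lit 113011646405724100726) (ZL.cons (nat_lit 20580) (nat_lit 6) (nat_lit 112790425083173162258) (ZL.cons (nat_lit 20664) (nat_lit 6) (nat_lit 112643051502959333400) (ZL.cons (nat_lit 20748) (nat_lit 6) (nat_lit 112569396892051359346) (ZL.cons (nat_lit 20832) (nat_lit 3) (nat_lit 56147169863002431139) (ZL.cons (nat_lit 20916) (nat_lit 6) (nat_lit 112322981908271145360) (ZL.cons (nat_lit 21000) (nat_lit 6) (nat_lit 112408933482219547662) (ZL.cons (nat_lit 21084) (nat_lit 6) (nat_lit 112552269551167111476) (ZL.cons (nat_lit 21168) (nat_lit 6) (nat_lit 112753115360222625942) (ZL.cons (nat_lit 21252) (nat_lit 6) (nat_lit 112498689898339010280) (ZL.cons (nat_lit 21336) (nat_lit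 6) (nat_lit 112317116054612523914) (ZL.cons (nat_lit 21420) (nat_lit 6) (nat_lit 112208235172286512626) (ZL.cons (nat_lit 21504) (nat_lit 3) (nat_lit 56085976056362967137) (ZL.cons (nat_lit 21588) (nat_lit 6) (nat_lit 111916491210841059246) (ZL.cons (nat_lit 21672) (nat_lit 6) (nat_lit 111974634840841613898) (ZL.cons (nat_lit 21756) (nat_lit 6) (nat_lit 112090972905956315918) (ZL.cons (nat_lit 21840) (nat_lit 6) (nat_lit 112265607060805168444) (ZL.cons (nat_lit 21924) (nat_lit 6) (nat_lit 112050829077746004884) (ZL.cons (nat_lit 22008) (nat_lit 6) (nat_lit 111907747931907336088) (ZL.cons (nat_lit 22092) (nat_lit 6) (nat_lit 111836238600928720502) (ZL.cons (nat_lit 22176) (nat_lit 3) (nat_lit 55789145087250854158) (ZL.cons (nat_lit 22260) (nat_lit 6) (nat_lit 111607791622235979886) (ZL.cons (nat_lit 22344) (nat_lit 6) (nat_lit 111696321743402834256) (ZL.cons (nat_lit 22428) (nat_lit 6) (nat_lit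 111843957894418824988) (ZL.cons (nat_lit 22512) (nat_lit 6) (nat_lit 111667672609247478998) (ZL.cons (nat_lit 22596) (nat_lit 6) (nat_lit 111561963014756205904) (ZL.cons (nat_lit 22680) (nat_lit 3) (nat_lit 55763368371669084335) (ZL.cons (nat_lit 22764) (nat_lit 6) (nat_lit 111308083283784446526) (ZL.cons (nat_lit 22848) (nat_lit 6) (nat_lit 111367971222685017814) (ZL.cons (nat_lit 22932) (nat_lit 6) (nat_lit 111487799429753160896) (ZL.cons (nat_lit 23016) (nat_lit 6) (nat_lit 111348885695929210608) (ZL.cons (nat_lit 23100) (nat_lit 6) (nat_lit 111279459160998515866) (ZL.cons (nat_lit 23184) (nat_lit 3) (nat_lit 55537623972207290219) (ZL.cons (nat_lit 23268) (nat_lit 6) (nat_lit 111105634435580880156) (ZL.cons (nat_lit 23352) (nat_lit 6) (nat_lit 111196820460382740156) (ZL.cons (nat_lit 23436) (nat_lit 6) (nat_lit 111094189786119368220) (ZL.cons (nat_lit 23520) (nat_lit 3) (nat_lit 55529994761303355356)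 (ZL.cons (nat_lit 23604) (nat_lit 6) (nat_lit 110909082155771592420) (ZL.cons (nat_lit 23688) (nat_lit 6) (nat_lit 110970766732839180850) (ZL.cons (nat_lit 23772) (nat_lit 6) (nat_lit 110903362329993846148) (ZL.cons (nat_lit 23856) (nat_lit 3) (nat_lit 55389071319273320818) (ZL.cons (nat_lit 23940) (nat_lit 6) (nat_lit 110809440724447930348) (ZL.cons (nat_lit 24024) (nat_lit 3) (nat_lit 55388118292557626577) (ZL.cons (nat_lit 24108) (nat_lit 6) (nat_lit 110712701470735637072) (ZL.cons (nat_lit 24192) (nat_lit 1) (nat_lit 18446744073709551617) ZL.nil))))))))))))))))))))))))))))))))))))))))))))))))))))))))))))))))))))))))))))))))))))))))))))))))))))))))))))))))))))))))))))))))))))))))))))))))))))))))))))))))))))))))))))))))))))))))))))))))))))))))))))))))))))))))))))))))))))))))))))))))))))))))))))))))))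

noncomputable def vl : XL := ⟨(nat_lit 0), (nat_lit 84), (nat_lit 53607395), (nat_lit 168), (nat_lit 297650193), (nat_lit 168), (nat_lit 297650193), (nat_lit 1), (nat_lit 4), (nat_lit 2), (nat_lit 5), (nat_lit 2), (nat_lit 4), (nat_lit 0), (nat_lit 0), (nat_lit 0)⟩

noncomputable def cp0 : Nat := (nat_lit 4824625984444078312810858331503668800966222605816608172647721949337950489774591706075154949043877568730990932606980843399010787208497534437018945901004115267030774409781307537504533720117839240362156445372341602240337933649419804623738012327147364457002417884003814774157217438082874134651621862247976591888688682800380318609375480506301754424933256974534925439907121951437990158993001522720691638944718293416649043453648690971594252959974979476229499477901743788149346559292842082677118966252623523634899419449203698163884154170305859670594081240849978675702185180642675824369404314800299758789747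3890463158027721493825722595498477282459152624662414667744530736957663422262499231073057729216257713809013352257345889107507859545017840376705042912478819348548404834963353500990416387742016257768197934229792065264458709414157749861264076528052302367165782637161691005835221187679243706593493270205837692866967194475927282266679059488984006126782482142735297126666932772914141507420802800168462528043553008388289802594882679337014663395053715900792197193551318740595162053584624342196744261833613249596907923206475318288571266825380514402449607701759391868261930067762487852836430111166369526983595507475287312871744756030452196355316005182408040704104341887899537088423793391341424912457595312387118938353359776194493248346246188612398816245321420184642883678429258048387653743860937573152488347903343812510341876061647869219727004905106691371248784581086298603471029530234422874063760020890929210778118778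1378123018606761969817786414754621401156695469720219264126886127525222496768689840084436705711067609647230871791427292361820037136562107188589256856913783914152587893641807422581099638046889378883804703763400313719558999638836522413732008245568211533820993058062848314874102261730164734578051803308808229009230854552915160951858104432704463681597135089308541633551303800411752993123420516643934462596425079048710250012852819026369936120760004457458455785559638923745704959694024769181577295543788683752391903855934578214746333130709947758703951985678910488395558580217204535961672163112583156865839125991704681389806862220315035405968242870116334470042555871792965916364666480821586754344281703666645328031466425904594391857234164751822161783590590902653020753049897243611411322245617091644183716105344000674739682553782552580048162835354543651405802822866905667232419643919793004077864132868033187213700832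5152946360896843356414248859394529072379116046469621789945159462553697035613724745202663200973059872106210322810158301820363239878072131789160777609884501438012429806660155018838351343328104505898575220116500201949579176262750074046407024350473159373639490792113696976391649991072405982901322047933767159280729328496330127494118879114175059093552547370222220738209813193119361639957760923959490199972126514662575874482242757371917368063821977539209587297696633669385542664894350168066635300643674409185668435913866676821350107260112234654818943196790083841989255656086644917133672908021913716730127983131216884958624364346986236257660052902923366463043469086892891914366185330075098055641378092614738027764166999066184298921161597643154241199615890845887156857798480243955784991629685054857967566383086536003398964937291997059863010282974530645301261502841603666387097185282749873401589547958293071151114768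0605982218467611395110751104812501508034412521741023110018027424283128929104715221200803510293865441354234522016462948325594846943055203550911864931352821846323594118584761584457183186460694314671714289587176933382238003577369689263200384277322823079576889908198754454524122432710407445780204911933671982715838014863299562694202204208805543971875251676604674140274754413756922943748490992657134452668217546585946492264025495636935743965280028331748844566480839722194023148773799444677710630113668857466745436131758463402327513321158065612676367410090152248625592331140770959452459757169328532466931376566951029876663580984252774993930676258282703857151831282527835607725154434056335543005825396159770792018531267151315764709600920282038249387568917553177400167358621580846019900449228927817497263644154640385835322490903617773492474477653062525377398363012097329191896233092024721540215747648062889420119649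4812115819347639046770420226182316391631902804192224162300714236640734087402602508749286413923699130914533011637182655719382315335708373361674535567890192579077809891539858803941025042099611069314305421065792292894037484543611969312981117961614926265624271830357922667184533076319313238772195853287744487266020017483846631107620462100458206200506229504747499889649289004600012765051977039858605349735253893108271299632929478641047491517905309047038084364998226342317868471665616617743230251908084985642167220427376569108970234495334759767997749208991662830468826923509345880320201818155421269137456461632117803030070049888504871899189210732388949177372974256101296646256931009281119903606553558899072329614629061917462845597292722060546705143201310650501279568559536317439209364788166069831877187440280462222599306178300170264188391661597598594970693194615108816284165134442240351201560686597406696450578394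9766279449844334338099172847440083368804659136102599398403582632223197835100716332520034649108361365171387733983432757450542122434013117093050955836670817468069686695682101922709929921169153171062378981745309337672508271382651070483799777006306764929119655567260969583403154058145151011289398523437597502704258946643458172552782895701987628980932612124115048126865604742757321038799814618831678811850370807349846556565531707552231325308429674824123120421321425032377930720908789797342422952939945317473567093747543499435777488838406483815359700674377194766062365158835053117863318306550342762040378958239351461926309365114428514855651447892664406576919764477407968383182277330918941451827910603884765368081670715272015315751338265894094266257286675885441899791656888672808194247302704160565725465634897155939029672795524734470595903006274919756521355035274578316098307276629991525630972177948863755700723449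545071669372044024890458653753472308622475654530436146204424156035840842960594751757344256315235268349460707993787225956260367428301764288665550026675958579508086803882945065738289343351184264801453263266259294212572530331109938416159264208511988694510604307889254305431806067268934758718748895025123428072844285814712970074743964477796521295026008498475130680820788371892627228663359230722221190135173851102540302333068528652913684173036505446494699616725932323768252137743620062791929186109500121532651255921397882516017927563114675121768927369161890485539383211068973766420331356353997797803424902011096151516836931059512741415114386152257929910562277929950744467061236960944649901660321720804832157488972992316593969516293651278235540765051070955378687391602621202219590139939091487908848274584747605402268887085912314444623899200236972566126188106164424895663440581210225540350553463878528640126382769038472709778824313542349284971056007311357069819463026371902989823990907110915107560348951468389791824937469841720514019504229010979630922241628453465396250577644768877806753981312457755060508365770464274789442292081389450756922885741812323151611727973153761380665329006377298422262055824633419876312245445488229502339051193329091197377126875961557071691776)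

noncomputable def cp1 : Nat := (nat_lit 1420198518773465144238603923637892393882472276396984990588129427950698136612693384974410792148056091461320304316245709163518079975519882208007094983077401149986880658045940791771261940773322288056902841961883085259659427269355407699102219648219846044037595247616825843093472399101872487875164106951837866564013480016851201604323031120514375473292631066207266087855958293289283318039425190901742436251791754601700305182097931363371282333287047455138499877704992833566820227128742022096028864509068244016967513510510803641175835680227152628702099201342817499791181621137406055442204997340816063524891267536101020772661715140208444112427373531135937941470504154030901789176798303694336640887185905925158512202134715067430387267304688319150492725095369473032755590827851911332963791077655428308182099799310203861371812877155371438293436277422238889250796073038937484675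7421269774359706982330499565903431823105108704495455634503780643644391997780520540721354159650312849646906609959667460812108803117789782418957632245453278569159063726023619086631347970154662951309481126217100254490585152954259249525956309608796235402634864152921647888411977372115274702840734880748617795201971260827511522299711267136561053841867279260089556291357589104222725282196763730776556550827934805432445940905347131822034724959083584361139178775068936860147235356884277919134366052090468118064562847831495021325395384193915507908120321419053427517120512164551282330552297586209577151534517912351067823611640345417590780560652988426093309710029863719600588403762006678246916239228390031054809349254354009787519996225236551797724990091726359054061991316431487613436957517264723947095446546388864580332008877213900042552401745319451845455433999473466640476774575431208203766350335140316105675920635338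7562174174147154516625583774238214657087055379672797381185972297897844366307330932311746567556699756030821500853767244673241180477167430421434994855919140548059677059624129913484742118221129097553616040984381703088587385299031477353694724389470445232866905467694527451851629904307685300201621784072645491327020434282368321539360514556795310367151831233133853527021416501222022260968383592337998916350332684196725542897344411283536093631229061592672945027060480801248564321384860836076374414607569350447434679601237388871407521847838881898060511412133453662941099156976288471100727986843346791167924285970736630548877663767872417265152293459873876603379565152314611763983935917985712405358291980238184453195856422835021181704430857733992816209231588159063619368168572044758690990493228798209625278707048110451349858631775673777321934508359055324118799362178074770863912424506337030463938501072795098461140276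4369534163389612287878951391482964046429751748541094958560978201075255212727370796804818453896525835860688612398598505370057507410740674192840279990852892105882806263147244611751794050975270810707458983721351160397457147311120737392148128579344411448652413043837954951938464123073139482050848890312820273182665743249244209863138942175474026043438164558329251423390502959931404741187431251499865528230620494630943437665569638786322593242489508818673548018176148918778833456417933998497244726233977326101196284262521710725782364165342493561801729214625579421216890783350156334137671991742673270741558110531128418961306554066703005892732096402569512515636214455088142056960636322533252444350693420354463153355692290316977038273330503182231658249185853841381648560950650049638121358114125130731264753850334154781186719994478512111948777922473373282388017126575477635493506463346868047082671930755795495163403341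5169953964834776237234187424356493609872879084345996640343754370498509759582163984500036360065643398620225632976918718194417027945586661012400048674769380668200737889572690340305647368106227765758827702172771542280976073659855495315077906097659360453653998329588049356106738808769387513230766729755998721063799324493635743065045062277470271926126088583307459614842478531581828641678141408988667040671376104498225184983165660872473413647800024088938254170496077653881034348043382967889213512266384644070828247406175682774480117784414212990463883834668026562620075956642249442582638718995704524395839956033325039590432151388121709674466356036039128979539495096261551904380257160729423215720758177384955329789661052292696475876048771867123347865437142215323764344209853206030513319746261935580974108135516633641572103354033287506474091429370765483731788336544829370648730385238937669550976391613275094262296073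0180474739423780483399949450981786819804924605957843475927532130173142250143765518494885726119754541281118361159807787853829834886276290945741375958666238310009790173554630452654077694472471098077496861058644613566246665958259628150313302001068071563052354700790738203136330303409053826880276713243960810014333884404608071296953234497376530466944523308108204570512653960637439543088626241242672439477849705051234219845316295167640914429733103083019643620711530760408255527475061514855121706595891492756154774977083320189487226328723841172322286979785411874302050979825087916091569442143613073481028617913615480103629170396718818931935232049139559034480257319719492715573480474069979311241418126518182457859402910655381526795856074730069995360468288621205601809659246391344255027472782303630311600135678768897299415831095940516416061023849792358177306963886051562816729507074454594809236795271984522471952593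7922550174237816022659953057271937835330967497332446323766785727076928129007395757543642246307884449807211753461427510013333191710855613554596573477036557253194823097808106991083834051148979644482511799600607033084087897785491162252264962186235419303406448328906316325819653903174660302479738342620626967671858613991340614211189722281102166979228784169632857791945595343991350514571584941258738428027743964090978218167050637006174888316801948349964640260680773699400513926860269731839223771429045423645808104616557917812136281464091335398220183884875383234165021463693989413292624995828521903834927513522433082436528234344160478198072967351533159463400051778877627427256048646622199953424099913238984859885177025537592707454171637126223071188765606122828674276669962110628813330800727171544048216195853747004264303406166593957416693303415757000959693686316997828871164618828910334116913670808060358516008908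1243278670249619057798118745050713661067275558472472730632867447629283399715396000619245832293541538371864066487963560031374395615510658571520073737274128028836581698580926853260178973017859527273975371440941946964050342884806391009712364141044663120727227192970720141697291795916759614990671939448190527750434029755216309694958710592244923084330679563147798254140815747519667935865934953260919864885799366106699910471399505083121337353209167230485538049767477908171896847216377966812299626359085535252576546182365372057514831236965331711716021747622394560466169254838562529428700216436582821357714894460222975597724875407278964641983031886102068506589702002808711960625769774005588293886067314192632973984103607874740782397930269439216901983602486929186955212995327441238728437141631380963367148593963379239238120000759265972866320253746300718444909775047706087288180475532556337278681302793039125784364754284949763568759693105313520528163283339386160241068914006395230679228301557295984148480000)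

noncomputable def rc0 : Nat := (nat_lit 8720342834196263369320937494371907020548045437941375741798040821419230052096744817288879866752645699519038752159780384756863490415233653183319481384241439510571700534810375785143341995961493120522750711859812406551168816838049878076610859157104481574470987053071763729625179911890749954355025734368490055572114495993025045290364274660207410260731645617682876639185148465826051537486393064134252745482154332625014033399947881083316958398918053508336006159412840387236128168973942170313090656960829359071840162341204030797311584454687628463782678116003413221396464487163031189968508111001526142454047715055389792216632387630109437522054076183065008366589162159542880046673515677117414266948784187826974643452879291609750769342367263028767607659532077151369740428828663824125814166720426960651762025429276038589499801516358337065532742686609988296850620431528820352545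2475920179759595627087981241671033050447663905104192845815415915459260350303679068433585349677493080629067381781289736899601663310327029976039101402360330335014460082041295661014571052540215036323843070640300218725789273365605328959103225287338783942612438989447959315671426936929217147536641334317739015588870671877361215064505818954220908263737593600585814590709683285408951996192066121439150129876452503454011739325921131470140397206703047487865348300090233150454929444284250903434323182117078732212851864853776647249894662839131440169887515165095193238669782461402591048330196646415464086701721396444791725625157669780351326663229491085348800444077959219712183359965803306277350974435530889987418433794129035063229599957151104691887438667884637870722793174484041912231342791821661192342147912939309635010558814207526613801566591650451769020577391841071291306271948507439270174948401938379008850270837661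7313248158237798795556179698014147701536679141878057105629883239905550090724818934917767982754003862199052310265750826250084368480401513231339156173802309964938731153139908940132018575734595048084528188190742619318877201310788836245780351304565804678526703567199438903782703429547156236298896530110624494608486882102074579037088907818576910370847550323993161385420024329377325039387153751983078049208165782450881033511986318391448008194376442038830572130206897051317845644634293865989510431347293648887304618019860742861321667821748611320533919201536133484194522191028424644032105997416036247826565677719665035375361187165908757077604136261279506870634205265032763752582549440766320645755686698624116533920372135219267428419514331082228950728523962154766104567102495968896175272254742746409709768043687229748691317307853106630445766042603483338011263783283769142181627598461805309904414694916500046248977002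5291778079770484397254458211574366313158348210512573827581260431656146814622342918338961834506275644645473988633224850535939144950180648342363031001527106938415272194910704008982380053276745196304479261689004638318820965733974935884352447921199553671093039093060038085487399632608730659025068364541677758495687699772127626803748772704773207724533258722363318574263616138756082969667130514607092665516175688485137878833630784641381843184586370220333941193978712454830716738567384065502344605755692788651082018296749110713482335415331805468555763571984291213969101926836163673758932689578587593614791672824439880907121432631243728024383545780015707524854445222096349994304823136064708382019539220207804445877842329308607087214014142251541330068651001260079100988447284632140543165303808245843078887712202035546290402949000140530391942575362069965006084986685647734216966964674762536396172546214990566028581143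0373927040865851291459164962084613138101793377993906985701259001084398011060510139071818521426537687769260252016164662422786850107363141512065391729973015257199139139420468549564641538069723352900366201458537972938456891432136013359468941282975532628433606707528183759873634831297271894509049064797554282849153000440692915605863445660268654703720565459586664993394725934609944320768027856841076998876896757722709975790516787016030674836338182481922748228228437837113196643590306724402122401514513192559141596977059924966149168299121932167890461553850688229589144472143393523030235352726519726569622788111828900382887117648488532770289466278210064983172578192334749949555134339176200391575948852232050774525109246620487752694715805779268113473292631459681945030582472879862712228847977790632629731318490900121624327116425718147068168136719295698618833575177659840090564904014522938512067191984570570256412532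3831735203294804793640005655768221198455426014533688128175838335927436954176399710857928420068414685699827028594784377614931031385752491345030687866536004871255663253947526384248580189642485921573385184329049111997358170267820577527238500771059166120578580092456827333912057759296866850326851371465007836441400512969801668501680775934112759716977341105258191239127110467969605588815831422483264686955609176863510743843061575546388957719561570399108942611615303568698260573539874717688404017355602967551219697232324055111760339647888187804306674312050903063838351331189658040222485582915860507569748723853661356493073615053919249375049625887168818865018592283639313410420762007356801147640809982799179756382874726940512118419505880949745847501579254106722225662682423939391177107368648171247701398548767779313027539123039576232959262047738771191625762942766802276543494746916188262693852977234324049478671754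4498624419725279526321724592478965679733685699909298099152024603603388881110834969324987421753536669984026646836954850703861858228603103105935705860009315654654885997387022339484773347938198610732737075529738752301224491680922273277854919914139911733819184096134001837320589448491864037919828902400104681911672930394366076503541748131288384059049256160003418110773935836451795748239622322885250853600425982775038779126543445120266330095414586428585052925071434289395711188916154485181390105557845990220729000060395673732058402278154330468014972721700356362385528909428316602527899778209504919682271887529742567882713277373261676093561280454947513797303463322891458466350375828859686956743721960347518462856957794722551395015421144240009932723439261296131606611143508779864678277651016518741540835233171024760639737596388175469247148959378218055519541995511326788429415053358085523264216644175075751083523984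372496261728237202543983967388502749207519540554255442666521562383505897002976663774763571242629989307208994512751625752933058899538025696844071559392716118210133738914263739514779845214150594067632525181127160795199936042294746569866009723325266768244596302047082513001447484702856715373290692353633328707373594264326339653554059823121704762630587341772236044401175097937354938758398329519424046888248240244868481647802912073731004076096799899266178561411037668844557953373159582847850178498315291612377502369914337428010308797495327604423232102651335690641579761498097404558249244850831219782002560126140935784737490480677232783207936482124130960304809652665732976056985017731047152485053080073681039583592038547070122968363249095117306953066268443421285472209192857253117421648280654416087943549265146510754971110819127848161672172693631518174969391585981211245790437231151593346471303846778438231583873083574658577086266084064445666557926978446441165057402948188064357005815130226046506369024)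

noncomputable def rc1 : Nat := (nat_lit 1294453674981077930554104570659094102452755273913123998184054227637036581261441766281345593893739669823069526157774905133044462477514399946915793449212767077403461959781769987930976960664867373544787180704059031412659182637787433972558199358458305866922986357679609787000957893110304609573957784058389290461468335750647797621942220267092895832796498866027018116284165111388174869191916655163558480532177054221236565260194668793569398295882698638022822972996409636097533633537461686696752302313253452349696250519018233406709225523208690208465722138209203289231387256027693307461740244526566204164163221585779616980571053600676811168596881070866845363475547719616360951085584019075224721490642337452352325110215837746395272126854065262746587540470184391731297348682602873980128534380924243231518891475833451543755659055125080830745083257531831264237647390550214539291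4806785991917086342255776640869448850663407475516271883410555160428660218580721682430582661599241983425882956451823330221223121412873151333309350137145507092493466508637693179298055782125050731461050814096083317062192950683323004694017351577865022261418283017219641193376347237544571836910151564371312263446536309112686280786253628278120037137009550420456506040734644108230012774151933704582848781280623481668114090804953122127188816296472423098993781831183057030077862627304551716759805476289553887434034638547062852806743526819112014968911701393932360415847688222334304321172884044222676424794108170787149888374087005513453902576220998827771823582101803567050141226046316348682637976243619382909353777168885965076507510136603100334741099828237299458161897225158655020860648122770927386353288809962151923673941100333532693223917115280777753234467082512190230719715733650009126622460805388928446792535062349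3494963394877128015553050489609357460872359110004747642408227971042748604859434279482370786340152403666434985752183911092745745156378028950351830521878313182405721387384916091391513539311531515098495241551104692942785209644824504151225838809499073057960774968005605762045349254481157577819476685738925954788668347679204961737746972900517551925334839467410999358701449146515774850313174072299729425053229478505319576890582339998319821203381503567154400708820148600529957679872502759745873975484826513581116706716079723502920949368849495035989986565347993828677271745903772348297582461466374207396269205976893698634816939515915844639210839241757468222355072742009936098226341294937721855467388764142994186750267264449973440672807591062188314266434428238590342359950447548956251361340279489821497501064883248164128563191218081739181609638802190162171671096720645001139165293323258107034306279155605272928043226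1619078411020522074745395809573711261455699112362858512065171389597664123527186971905285646961379252137961336028503200873782703177244218494276515022706548541355367047617645106992937945708201206302956180818580481855172261174104003783179128158219261480240217120432676907342795098813556655050745587099609797557616510013899110883060213100608039544763163452570907282317421770689327298585320062475456276097143181850815592644254880392412044687453592266820169935631161557615663470329437347403856497272991814074414206453141265112986593880031864460746029915628763378708490041505793316198063612520181906393245618382106583788000333754799310200662508472973297318413683651447876215868014926913393039342488937331486404412396577740418003372577870680785219370284840848677054416002491927289789100439473729967385703941411146666437479535660502556639126483849764037036100466351587956788500517140349508647359523215996770269212860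9712565648338874783449402990835462286830902772228735683530849131590986281307378751773062414822557916754048866632022432731422747732654965081031855489012059305966411588977556591399310227862427534865420654373649599349411031479311050850257991325874424383767988291789345822682952761323694831864493536832940320116668224453410651106241524907662207997643040222888648449531476814902737646816638205910409150913603720515288964485630254029332162595573446729364684927420731857698733884498723861146537154650514250615972682319189197068427954486326333566124260203616496288538068293026220109388322223918849420498987588607861875041499402133761870259240802565958378709541674553219595528637939973977183457090768007602912911818255505521572163502550791434986795940131446371865667112190719161020279998565515782462283100794020471762166136036077718111215037034431088491986284282655902921248463288868983503570065937196496473275604184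2323258240823429469414104927300104294926531012629627211397746244348585022539015432897081921606854341721169280748242999945063559644236494366806337302257628976057989140952651423364874310389383267770208899594668886131355291798984078699310692580692922863123301817323997956148016527528678428658624467587249306182152781993339726905243340206706910339261180472931191298347671438839235001572845007372473502234817678654622040727398805798616839937615757365071454421168690889479258211532211116743223437460887063623799758559682032743052239923130554491610512687057313092854043619878116864726958616089242279228814786740057678556041503469016528829378496738032392435221298776197850555534735942741538546822939955477906389717173990783225394123328163450807475534160896626413187173593566820130339466162628463106373079166312134863460719548069730592803901097697481635391699020717973216182885250582403556605598039115320360272240077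8169540469032860874391931630930431057999340042533201425931662124869121083937715687301956037096138950652742895267183255638604761280718717391137206178009649031701938071166985667506081593173515411014884284131430729549280113800211954703150014950202481531005308870265975822604357151193382674971751281089621017995238892832044693430160344484688341882359975464933245279353437427207910146807887544449289326053764571810531086327890440050171618077220230342118398040777643077558600102007742273427603119943666264918248102465412591811740561238172111320028949361226191068469194856529149235331814169863865369403139042463514259915706083791182651333755953977444001715766089869976824486660347272670646355186416966721293096727149374593851645095531397157403802404911544098901839493333128848109257740315696550122046219910208153311953089795272612338493912149068081078693408976074573511765179880949101063219668069555791736636055327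7741525320262193320737660741667531917441573594650136190036316823884212547192566474361309112314669184766417818690738896437866030108220247030540044505323432628276302441660076433161941941765252115627526396406516314871973214061102652662813274191119150429264328512934399960194925684129305859835981756819269627762976773424601821349275112650609146490480693506050212194633283800604130732846877911045046419410674935516259761174202805491136824025191526311351501660124300052061666053955496000337202690906269446056170989609332700572665980848507115990054229943967862708753650744497394592885005061626425181857383551243817148614610961932163552033851262741208279029861209835154682401267260463231024290200211754849803250760325568271076318776707244328062599624263256142403302773623351584784007674602438091210786470350048428487162419014392849490683395168503413574523124169278708370434130920820830697426981774866261759195424621936154190464182326037024792413863612606520270664290220963717902898308086525301552050077696)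

noncomputable def rc2 : Nat := (nat_lit 1420198518773465144238603923637892393882472276396984990588129427950698136612693384974410792148056091461320304316245709163518079975519882208007094983077401149986880658045940791771261940773322288056902841961883085259659427269355407699102219648219846044037595247616825843093472399101872487875164106951837866564013480016851201604323031120514375473292631066207266087855958293289283318039425190901742436251791754601700305182097931363371282333287047455138499877704992833566820227128742022096028864509068244016967513510510803641175835680227152628702099201342817499791181621137406055442204997340816063524891267536101020772661715140208444112427373531135937941470504154030901789176798303694336640887185905925158512202134715067430387267304688319150492725095369473032755590827851911332963791077655428308182099799310203861371812877155371438293436277422238889250796073038937484675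7421269774359706982330499565903431823105108704495455634503780643644391997780520540721354159650312849646906609959667460812108803117789782418957632245453278569159063726023619086631347970154662951309481126217100254490585152954259249525956309608796235402634864152921647888411977372115274702840734880748617795201971260827511522299711267136561053841867279260089556291357589104222725282196763730776556550827934805432445940905347131822034724959083584361139178775068936860147235356884277919134366052090468118064562847831495021325395384193915507908120321419053427517120512164551282330552297586209577151534517912351067823611640345417590780560652988426093309710029863719600588403762006678246916239228390031054809349254354009787519996225236551797724990091726359054061991316431487613436957517264723947095446546388864580332008877213900042552401745319451845455433999473466640476774575431208203766350335140316105675920635338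7562174174147154516625583774238214657087055379672797381185972297897844366307330932311746567556699756030821500853767244673241180477167430421434994855919140548059677059624129913484742118221129097553616040984381703088587385299031477353694724389470445232866905467694527451851629904307685300201621784072645491327020434282368321539360514556795310367151831233133853527021416501222022260968383592337998916350332684196725542897344411283536093631229061592672945027060480801248564321384860836076374414607569350447434679601237388871407521847838881898060511412133453662941099156976288471100727986843346791167924285970736630548877663767872417265152293459873876603379565152314611763983935917985712405358291980238184453195856422835021181704430857733992816209231588159063619368168572044758690990493228798209625278707048110451349858631775673777321934508359055324118799362178074770863912424506337030463938501072795098461140276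4369534163389612287878951391482964046429751748541094958560978201075255212727370796804818453896525835860688612398598505370057507410740674192840279990852892105882806263147244611751794050975270810707458983721351160397457147311120737392148128579344411448652413043837954951938464123073139482050848890312820273182665743249244209863138942175474026043438164558329251423390502959931404741187431251499865528230620494630943437665569638786322593242489508818673548018176148918778833456417933998497244726233977326101196284262521710725782364165342493561801729214625579421216890783350156334137671991742673270741558110531128418961306554066703005892732096402569512515636214455088142056960636322533252444350693420354463153355692290316977038273330503182231658249185853841381648560950650049638121358114125130731264753850334154781186719994478512111948777922473373282388017126575477635493506463346868047082671930755795495163403341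5169953964834776237234187424356493609872879084345996640343754370498509759582163984500036360065643398620225632976918718194417027945586661012400048674769380668200737889572690340305647368106227765758827702172771542280976073659855495315077906097659360453653998329588049356106738808769387513230766729755998721063799324493635743065045062277470271926126088583307459614842478531581828641678141408988667040671376104498225184983165660872473413647800024088938254170496077653881034348043382967889213512266384644070828247406175682774480117784414212990463883834668026562620075956642249442582638718995704524395839956033325039590432151388121709674466356036039128979539495096261551904380257160729423215720758177384955329789661052292696475876048771867123347865437142215323764344209853206030513319746261935580974108135516633641572103354033287506474091429370765483731788336544829370648730385238937669550976391613275094262296073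0180474739423780483399949450981786819804924605957843475927532130173142250143765518494885726119754541281118361159807787853829834886276290945741375958666238310009790173554630452654077694472471098077496861058644613566246665958259628150313302001068071563052354700790738203136330303409053826880276713243960810014333884404608071296953234497376530466944523308108204570512653960637439543088626241242672439477849705051234219845316295167640914429733103083019643620711530760408255527475061514855121706595891492756154774977083320189487226328723841172322286979785411874302050979825087916091569442143613073481028617913615480103629170396718818931935232049139559034480257319719492715573480474069979311241418126518182457859402910655381526795856074730069995360468288621205601809659246391344255027472782303630311600135678768897299415831095940516416061023849792358177306963886051562816729507074454594809236795271984522471952593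7922550174237816022659953057271937835330967497332446323766785727076928129007395757543642246307884449807211753461427510013333191710855613554596573477036557253194823097808106991083834051148979644482511799600607033084087897785491162252264962186235419303406448328906316325819653903174660302479738342620626967671858613991340614211189722281102166979228784169632857791945595343991350514571584941258738428027743964090978218167050637006174888316801948349964640260680773699400513926860269731839223771429045423645808104616557917812136281464091335398220183884875383234165021463693989413292624995828521903834927513522433082436528234344160478198072967351533159463400051778877627427256048646622199953424099913238984859885177025537592707454171637126223071188765606122828674276669962110628813330800727171544048216195853747004264303406166593957416693303415757000959693686316997828871164618828910334116913670808060358516008908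1243278670249619057798118745050713661067275558472472730632867447629283399715396000619245832293541538371864066487963560031374395615510658571520073737274128028836581698580926853260178973017859527273975371440941946964050342884806391009712364141044663120727227192970720141697291795916759614990671939448190527750434029755216309694958710592244923084330679563147798254140815747519667935865934953260919864885799366106699910471399505083121337353209167230485538049767477908171896847216377966812299626359085535252576546182365372057514831236965331711716021747622394560466169254838562529428700216436582821357714894460222975597724875407278964641983031886102068506589702002808711960625769774005588293886067314192632973984103607874740782397930269439216901983602486929186955212995327441238728437141631380963367148593963379239238120000759265972866320253746300718444909775047706087288180475532556337278681302793039125784364754284949763568759693105313520528163283339386160241068914006395230679228301557295984148480000)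

end Vale.Agent.Lib.P154.Chain.D5.S2
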