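import Vale.Agent.Lib.P154.Chain.D5.R2_2

set_option linter.all false

namespace Vale.Agent.Lib.P154.Chain.D5.S3

noncomputable def pc0 : PT := (PT.nd (nat_lit 2023820) (PT.nd (nat_lit 1905380) (PT.nd (nat_lit 1786940) (PT.nd (nat_lit 245998) (PT.nd (nat_lit 245904) (PT.nd (nat_lit 186684) PT.nil (PT.lf (nat_lit 84) (nat_lit 3) (nat_lit 1) (nat_lit 1) (nat_lit 93) (nat_lit 3) (nat_lit 93))) (PT.lf (nat_lit 168) (nat_lit 6) (nat_lit 2) (nat_lit 3) (nat_lit 92) (nat_lit 4) (nat_lit 93))) (PT.nd (nat_lit 1540848) (PT.lf (nat_lit 168) (nat_lit 6) (nat_lit 2) (nat_lit 1) (nat_lit 93) (nat_lit 4) (nat_lit 92)) (PT.lf (nat_lit 5208) (nat_lit 6) (nat_lit 62) (nat_lit 3) (nat_lit 79) (nat_lit 30) (nat_lit 80)))) (PT.nd (nat_lit 59220) (PT.nd (nat_lit 59126) (PT.lf (nat_lit 5208) (nat_lit 6) (nat_lit 62) (nat_lit 1) (nat_lit 80) (nat_lit 30) (nat_lit 79)) (PT.lf (nat_lit 5460) (nat_lit 6) (nat_lit 65) (nat_lit 3) (nat_lit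 78) (nat_lit 31) (nat_lit 80))) (PT.nd (nat_lit 94) (PT.lf (nat_lit 5544) (nat_lit 3) (nat_lit 66) (nat_lit 1) (nat_lit 79) (nat_lit 31) (nat_lit 79)) (PT.nd (nat_lit 59032) (PT.lf (nat_lit 5460) (nat_lit 6) (nat_lit 65) (nat_lit 1) (nat_lit 80) (nat_lit 31) (nat_lit 78)) (PT.lf (nat_lit 5796) (nat_lit 6) (nat_lit 69) (nat_lit 3) (nat_lit 77) (nat_lit 32) (nat_lit 80)))))) (PT.nd (nat_lit 59220) (PT.nd (nat_lit 188) (PT.nd (nat_lit 94) (PT.lf (nat_lit 5880) (nat_lit 6) (nat_lit 70) (nat_lit 3) (nat_lit 78) (nat_lit 32) (nat_lit 79)) (PT.lf (nat_lit 5880) (nat_lit 6) (nat_lit 70) (nat_lit 1) (nat_lit 79) (nat_lit 32) (nat_lit 78))) (PT.nd (nat_lit 58938) (PT.lf (nat_lit 5796) (nat_lit 6) (nat_lit 69) (nat_lit 1) (nat_lit 80) (nat_lit 32) (nat_lit 77)) (PT.lf (nat_lit 6132) (nat_lit 6) (nat_lit 73) (nat_lit 3) (nat_lit 76) (nat_lit 33) (nat_lit 80)))) (PT.nd (nat_lit 188) (PT.nd (nat_lit 94) (PT.lf (nat_lit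 6216) (nat_lit 6) (nat_lit 74) (nat_lit 3) (nat_lit 77) (nat_lit 33) (nat_lit 79)) (PT.lf (nat_lit 6300) (nat_lit 3) (nat_lit 75) (nat_lit 1) (nat_lit 78) (nat_lit 33) (nat_lit 78))) (PT.nd (nat_lit 94) (PT.lf (nat_lit 6216) (nat_lit 6) (nat_lit 74) (nat_lit 1) (nat_lit 79) (nat_lit 33) (nat_lit 77)) (PT.nd (nat_lit 58844) (PT.lf (nat_lit 6132) (nat_lit 6) (nat_lit 73) (nat_lit 1) (nat_lit 80) (nat_lit 33) (nat_lit 76)) (PT.lf (nat_lit 6468) (nat_lit 6) (nat_lit 77) (nat_lit 3) (nat_lit 75) (nat_lit 34) (nat_lit 80))))))) (PT.nd (nat_lit 59502) (PT.nd (nat_lit 376) (PT.nd (nat_lit 188) (PT.nd (nat_lit 94) (PT.lf (nat_lit 6552) (nat_lit 6) (nat_lit 78) (nat_lit 3) (nat_lit 76) (nat_lit 34) (nat_lit 79)) (PT.lf (nat_lit 6636) (nat_lit 6) (nat_lit 79) (nat_lit 3) (nat_lit 77) (nat_lit 34) (nat_lit 78))) (PT.nd (nat_lit 94) (PT.lf (nat_lit 6636) (nat_lit 6) (nat_lit 79) (nat_lit 1) (nat_lit 78) (nat_lit 34) (nat_lit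 77)) (PT.lf (nat_lit 6552) (nat_lit 6) (nat_lit 78) (nat_lit 1) (nat_lit 79) (nat_lit 34) (nat_lit 76)))) (PT.nd (nat_lit 58844) (PT.nd (nat_lit 58750) (PT.lf (nat_lit 6468) (nat_lit 6) (nat_lit 77) (nat_lit 1) (nat_lit 80) (nat_lit 34) (nat_lit 75)) (PT.lf (nat_lit 6804) (nat_lit 6) (nat_lit 81) (nat_lit 3) (nat_lit 74) (nat_lit 35) (nat_lit 80))) (PT.nd (nat_lit 94) (PT.lf (nat_lit 6888) (nat_lit 6) (nat_lit 82) (nat_lit 3) (nat_lit 75) (nat_lit 35) (nat_lit 79)) (PT.nd (nat_lit 94) (PT.lf (nat_lit 6972) (nat_lit 6) (nat_lit 83) (nat_lit 3) (nat_lit 76) (nat_lit 35) (nat_lit 78)) (PT.lf (nat_lit 7056) (nat_lit 3) (nat_lit 84) (nat_lit 1) (nat_lit 77) (nat_lit 35) (nat_lit 77)))))) (PT.nd (nat_lit 58938) (PT.nd (nat_lit 188) (PT.nd (nat_lit 94) (PT.lf (nat_lit 6972) (nat_lit 6) (nat_lit 83) (nat_lit 1) (nat_lit 78) (nat_lit 35) (nat_lit 76)) (PT.lf (nat_lit 6888) (nat_lit 6) (nat_lit 82) (nat_lit 1) (nat_lit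 79) (nat_lit 35) (nat_lit 75))) (PT.nd (nat_lit 58656) (PT.lf (nat_lit 6804) (nat_lit 6) (nat_lit 81) (nat_lit 1) (nat_lit 80) (nat_lit 35) (nat_lit 74)) (PT.lf (nat_lit 7224) (nat_lit 6) (nat_lit 86) (nat_lit 3) (nat_lit 73) (nat_lit 36) (nat_lit 80)))) (PT.nd (nat_lit 188) (PT.nd (nat_lit 94) (PT.lf (nat_lit 7308) (nat_lit 6) (nat_lit 87) (nat_lit 3) (nat_lit 74) (nat_lit 36) (nat_lit 79)) (PT.lf (nat_lit 7392) (nat_lit 6) (nat_lit 88) (nat_lit 3) (nat_lit 75) (nat_lit 36) (nat_lit 78))) (PT.nd (nat_lit 94) (PT.lf (nat_lit 7476) (nat_lit 6) (nat_lit 89) (nat_lit 3) (nat_lit 76) (nat_lit 36) (nat_lit 77)) (PT.nd (nat_lit 94) (PT.lf (nat_lit 7476) (nat_lit 6) (nat_lit 89) (nat_lit 1) (nat_lit 77) (nat_lit 36) (nat_lit 76)) (PT.lf (nat_lit 7392) (nat_lit 6) (nat_lit 88) (nat_lit 1) (nat_lit 78) (nat_lit 36) (nat_lit 75))))))))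
noncomputable def pc1 : PT := (PT.nd (nat_lit 118628) (PT.nd (nat_lit 59314) (PT.nd (nat_lit 58844) (PT.nd (nat_lit 58656) (PT.nd (nat_lit 94) (PT.lf (nat_lit 7308) (nat_lit 6) (nat_lit 87) (nat_lit 1) (nat_lit 79) (nat_lit 36) (nat_lit 74)) (PT.lf (nat_lit 7224) (nat_lit 6) (nat_lit 86) (nat_lit 1) (nat_lit 80) (nat_lit 36) (nat_lit 73))) (PT.nd (nat_lit 94) (PT.lf (nat_lit 7560) (nat_lit 6) (nat_lit 90) (nat_lit 3) (nat_lit 72) (nat_lit 37) (nat_lit 80)) (PT.lf (nat_lit 7644) (nat_lit 6) (nat_lit 91) (nat_lit 3) (nat_lit 73) (nat_lit 37) (nat_lit 79)))) (PT.nd (nat_lit 188) (PT.nd (nat_lit 94) (PT.lf (nat_lit 7728) (nat_lit 6) (nat_lit 92) (nat_lit 3) (nat_lit 74) (nat_lit 37) (nat_lit 78)) (PT.lf (nat_lit 7812) (nat_lit 6) (nat_lit 93) (nat_lit 3) (nat_lit 75) (nat_lit 37) (nat_lit 77))) (PT.nd (nat_lit 94) (PT.lf (nat_lit 7896) (nat_lit 3) (nat_lit 94) (nat_lit 1) (nat_lit 76) (nat_lit 37) (nat_lit 76))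 (PT.nd (nat_lit 94) (PT.lf (nat_lit 7812) (nat_lit 6) (nat_lit 93) (nat_lit 1) (nat_lit 77) (nat_lit 37) (nat_lit 75)) (PT.lf (nat_lit 7728) (nat_lit 6) (nat_lit 92) (nat_lit 1) (nat_lit 78) (nat_lit 37) (nat_lit 74)))))) (PT.nd (nat_lit 58844) (PT.nd (nat_lit 58656) (PT.nd (nat_lit 94) (PT.lf (nat_lit 7644) (nat_lit 6) (nat_lit 91) (nat_lit 1) (nat_lit 79) (nat_lit 37) (nat_lit 73)) (PT.lf (nat_lit 7560) (nat_lit 6) (nat_lit 90) (nat_lit 1) (nat_lit 80) (nat_lit 37) (nat_lit 72))) (PT.nd (nat_lit 94) (PT.lf (nat_lit 8064) (nat_lit 6) (nat_lit 96) (nat_lit 3) (nat_lit 72) (nat_lit 38) (nat_lit 79)) (PT.lf (nat_lit 8148) (nat_lit 6) (nat_lit 97) (nat_lit 3) (nat_lit 73) (nat_lit 38) (nat_lit 78)))) (PT.nd (nat_lit 188) (PT.nd (nat_lit 94) (PT.lf (nat_lit 8232) (nat_lit 6) (nat_lit 98) (nat_lit 3) (nat_lit 74) (nat_lit 38) (nat_lit 77)) (PT.lf (nat_lit 8316) (nat_lit 6) (nat_lit 99) (nat_lit 3) (nat_lit 75)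 (nat_lit 38) (nat_lit 76))) (PT.nd (nat_lit 94) (PT.lf (nat_lit 8316) (nat_lit 6) (nat_lit 99) (nat_lit 1) (nat_lit 76) (nat_lit 38) (nat_lit 75)) (PT.nd (nat_lit 94) (PT.lf (nat_lit 8232) (nat_lit 6) (nat_lit 98) (nat_lit 1) (nat_lit 77) (nat_lit 38) (nat_lit 74)) (PT.lf (nat_lit 8148) (nat_lit 6) (nat_lit 97) (nat_lit 1) (nat_lit 78) (nat_lit 38) (nat_lit 73))))))) (PT.nd (nat_lit 59314) (PT.nd (nat_lit 58844) (PT.nd (nat_lit 58656) (PT.nd (nat_lit 58562) (PT.lf (nat_lit 8064) (nat_lit 6) (nat_lit 96) (nat_lit 1) (nat_lit 79) (nat_lit 38) (nat_lit 72)) (PT.lf (nat_lit 8484) (nat_lit 6) (nat_lit 101) (nat_lit 3) (nat_lit 71) (nat_lit 39) (nat_lit 79))) (PT.nd (nat_lit 94) (PT.lf (nat_lit 8568) (nat_lit 6) (nat_lit 102) (nat_lit 3) (nat_lit 72) (nat_lit 39) (nat_lit 78)) (PT.lf (nat_lit 8652) (nat_lit 6) (nat_lit 103) (nat_lit 3) (nat_lit 73) (nat_lit 39) (nat_lit 77)))) (PT.nd (nat_lit 188) (PT.nd (nat_lit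 94) (PT.lf (nat_lit 8736) (nat_lit 6) (nat_lit 104) (nat_lit 3) (nat_lit 74) (nat_lit 39) (nat_lit 76)) (PT.lf (nat_lit 8820) (nat_lit 3) (nat_lit 105) (nat_lit 1) (nat_lit 75) (nat_lit 39) (nat_lit 75))) (PT.nd (nat_lit 94) (PT.lf (nat_lit 8736) (nat_lit 6) (nat_lit 104) (nat_lit 1) (nat_lit 76) (nat_lit 39) (nat_lit 74)) (PT.nd (nat_lit 94) (PT.lf (nat_lit 8652) (nat_lit 6) (nat_lit 103) (nat_lit 1) (nat_lit 77) (nat_lit 39) (nat_lit 73)) (PT.lf (nat_lit 8568) (nat_lit 6) (nat_lit 102) (nat_lit 1) (nat_lit 78) (nat_lit 39) (nat_lit 72)))))) (PT.nd (nat_lit 58844) (PT.nd (nat_lit 58562) (PT.nd (nat_lit 58468) (PT.lf (nat_lit 8484) (nat_lit 6) (nat_lit 101) (nat_lit 1) (nat_lit 79) (nat_lit 39) (nat_lit 71)) (PT.lf (nat_lit 8988) (nat_lit 6) (nat_lit 107) (nat_lit 3) (nat_lit 70) (nat_lit 40) (nat_lit 79))) (PT.nd (nat_lit 94) (PT.lf (nat_lit 9072) (nat_lit 6) (nat_lit 108) (nat_lit 3) (nat_lit 71) (nat_lit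 40) (nat_lit 78)) (PT.nd (nat_lit 94) (PT.lf (nat_lit 9156) (nat_lit 6) (nat_lit 109) (nat_lit 3) (nat_lit 72) (nat_lit 40) (nat_lit 77)) (PT.lf (nat_lit 9240) (nat_lit 6) (nat_lit 110) (nat_lit 3) (nat_lit 73) (nat_lit 40) (nat_lit 76))))) (PT.nd (nat_lit 188) (PT.nd (nat_lit 94) (PT.lf (nat_lit 9324) (nat_lit 6) (nat_lit 111) (nat_lit 3) (nat_lit 74) (nat_lit 40) (nat_lit 75)) (PT.lf (nat_lit 9324) (nat_lit 6) (nat_lit 111) (nat_lit 1) (nat_lit 75) (nat_lit 40) (nat_lit 74))) (PT.nd (nat_lit 94) (PT.lf (nat_lit 9240) (nat_lit 6) (nat_lit 110) (nat_lit 1) (nat_lit 76) (nat_lit 40) (nat_lit 73)) (PT.nd (nat_lit 94) (PT.lf (nat_lit 9156) (nat_lit 6) (nat_lit 109) (nat_lit 1) (nat_lit 77) (nat_lit 40) (nat_lit 72)) (PT.lf (nat_lit 9072) (nat_lit 6) (nat_lit 108) (nat_lit 1) (nat_lit 78) (nat_lit 40) (nat_lit 71))))))))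
noncomputable def pc2 : PT := (PT.nd (nat_lit 118158) (PT.nd (nat_lit 59126) (PT.nd (nat_lit 58656) (PT.nd (nat_lit 58468) (PT.nd (nat_lit 58374) (PT.lf (nat_lit 8988) (nat_lit 6) (nat_lit 107) (nat_lit 1) (nat_lit 79) (nat_lit 40) (nat_lit 70)) (PT.lf (nat_lit 9408) (nat_lit 6) (nat_lit 112) (nat_lit 3) (nat_lit 69) (nat_lit 41) (nat_lit 79))) (PT.nd (nat_lit 94) (PT.lf (nat_lit 9492) (nat_lit 6) (nat_lit 113) (nat_lit 3) (nat_lit 70) (nat_lit 41) (nat_lit 78)) (PT.lf (nat_lit 9576) (nat_lit 6) (nat_lit 114) (nat_lit 3) (nat_lit 71) (nat_lit 41) (nat_lit 77)))) (PT.nd (nat_lit 188) (PT.nd (nat_lit 94) (PT.lf (nat_lit 9660) (nat_lit 6) (nat_lit 115) (nat_lit 3) (nat_lit 72) (nat_lit 41) (nat_lit 76)) (PT.lf (nat_lit 9744) (nat_lit 6) (nat_lit 116) (nat_lit 3) (nat_lit 73) (nat_lit 41) (nat_lit 75))) (PT.nd (nat_lit 94) (PT.lf (nat_lit 9828) (nat_lit 3) (nat_lit 117) (nat_lit 1) (nat_lit 74) (nat_lit 41) (nat_lit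 74)) (PT.nd (nat_lit 94) (PT.lf (nat_lit 9744) (nat_lit 6) (nat_lit 116) (nat_lit 1) (nat_lit 75) (nat_lit 41) (nat_lit 73)) (PT.lf (nat_lit 9660) (nat_lit 6) (nat_lit 115) (nat_lit 1) (nat_lit 76) (nat_lit 41) (nat_lit 72)))))) (PT.nd (nat_lit 58562) (PT.nd (nat_lit 188) (PT.nd (nat_lit 94) (PT.lf (nat_lit 9576) (nat_lit 6) (nat_lit 114) (nat_lit 1) (nat_lit 77) (nat_lit 41) (nat_lit 71)) (PT.lf (nat_lit 9492) (nat_lit 6) (nat_lit 113) (nat_lit 1) (nat_lit 78) (nat_lit 41) (nat_lit 70))) (PT.nd (nat_lit 58280) (PT.lf (nat_lit 9408) (nat_lit 6) (nat_lit 112) (nat_lit 1) (nat_lit 79) (nat_lit 41) (nat_lit 69)) (PT.lf (nat_lit 9912) (nat_lit 6) (nat_lit 118) (nat_lit 3) (nat_lit 68) (nat_lit 42) (nat_lit 79)))) (PT.nd (nat_lit 188) (PT.nd (nat_lit 94) (PT.lf (nat_lit 9996) (nat_lit 6) (nat_lit 119) (nat_lit 3) (nat_lit 69) (nat_lit 42) (nat_lit 78)) (PT.lf (nat_lit 10080) (nat_lit 6) (nat_lit 120) (nat_lit 3)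 (nat_lit 70) (nat_lit 42) (nat_lit 77))) (PT.nd (nat_lit 94) (PT.lf (nat_lit 10164) (nat_lit 6) (nat_lit 121) (nat_lit 3) (nat_lit 71) (nat_lit 42) (nat_lit 76)) (PT.nd (nat_lit 94) (PT.lf (nat_lit 10248) (nat_lit 6) (nat_lit 122) (nat_lit 3) (nat_lit 72) (nat_lit 42) (nat_lit 75)) (PT.lf (nat_lit 10332) (nat_lit 6) (nat_lit 123) (nat_lit 3) (nat_lit 73) (nat_lit 42) (nat_lit 74))))))) (PT.nd (nat_lit 59032) (PT.nd (nat_lit 376) (PT.nd (nat_lit 188) (PT.nd (nat_lit 94) (PT.lf (nat_lit 10332) (nat_lit 6) (nat_lit 123) (nat_lit 1) (nat_lit 74) (nat_lit 42) (nat_lit 73)) (PT.lf (nat_lit 10248) (nat_lit 6) (nat_lit 122) (nat_lit 1) (nat_lit 75) (nat_lit 42) (nat_lit 72))) (PT.nd (nat_lit 94) (PT.lf (nat_lit 10164) (nat_lit 6) (nat_lit 121) (nat_lit 1) (nat_lit 76) (nat_lit 42) (nat_lit 71)) (PT.lf (nat_lit 10080) (nat_lit 6) (nat_lit 120) (nat_lit 1) (nat_lit 77) (nat_lit 42) (nat_lit 70)))) (PT.nd (nat_lit 58374)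 (PT.nd (nat_lit 94) (PT.lf (nat_lit 9996) (nat_lit 6) (nat_lit 119) (nat_lit 1) (nat_lit 78) (nat_lit 42) (nat_lit 69)) (PT.lf (nat_lit 9912) (nat_lit 6) (nat_lit 118) (nat_lit 1) (nat_lit 79) (nat_lit 42) (nat_lit 68))) (PT.nd (nat_lit 94) (PT.lf (nat_lit 10500) (nat_lit 6) (nat_lit 125) (nat_lit 3) (nat_lit 68) (nat_lit 43) (nat_lit 78)) (PT.nd (nat_lit 94) (PT.lf (nat_lit 10584) (nat_lit 6) (nat_lit 126) (nat_lit 3) (nat_lit 69) (nat_lit 43) (nat_lit 77)) (PT.lf (nat_lit 10668) (nat_lit 6) (nat_lit 127) (nat_lit 3) (nat_lit 70) (nat_lit 43) (nat_lit 76)))))) (PT.nd (nat_lit 376) (PT.nd (nat_lit 188) (PT.nd (nat_lit 94) (PT.lf (nat_lit 10752) (nat_lit 6) (nat_lit 128) (nat_lit 3) (nat_lit 71) (nat_lit 43) (nat_lit 75)) (PT.lf (nat_lit 10836) (nat_lit 6) (nat_lit 129) (nat_lit 3) (nat_lit 72) (nat_lit 43) (nat_lit 74))) (PT.nd (nat_lit 94) (PT.lf (nat_lit 10920) (nat_lit 3) (nat_lit 130) (nat_lit 1) (nat_lit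 73) (nat_lit 43) (nat_lit 73)) (PT.lf (nat_lit 10836) (nat_lit 6) (nat_lit 129) (nat_lit 1) (nat_lit 74) (nat_lit 43) (nat_lit 72)))) (PT.nd (nat_lit 188) (PT.nd (nat_lit 94) (PT.lf (nat_lit 10752) (nat_lit 6) (nat_lit 128) (nat_lit 1) (nat_lit 75) (nat_lit 43) (nat_lit 71)) (PT.lf (nat_lit 10668) (nat_lit 6) (nat_lit 127) (nat_lit 1) (nat_lit 76) (nat_lit 43) (nat_lit 70))) (PT.nd (nat_lit 94) (PT.lf (nat_lit 10584) (nat_lit 6) (nat_lit 126) (nat_lit 1) (nat_lit 77) (nat_lit 43) (nat_lit 69)) (PT.nd (nat_lit 58280) (PT.lf (nat_lit 10500) (nat_lit 6) (nat_lit 125) (nat_lit 1) (nat_lit 78) (nat_lit 43) (nat_lit 68)) (PT.lf (nat_lit 11088) (nat_lit 6) (nat_lit 132) (nat_lit 3) (nat_lit 67) (nat_lit 44) (nat_lit 78))))))))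
noncomputable def pc3 : PT := (PT.nd (nat_lit 59784) (PT.nd (nat_lit 846) (PT.nd (nat_lit 376) (PT.nd (nat_lit 188) (PT.nd (nat_lit 94) (PT.lf (nat_lit 11172) (nat_lit 6) (nat_lit 133) (nat_lit 3) (nat_lit 68) (nat_lit 44) (nat_lit 77)) (PT.lf (nat_lit 11256) (nat_lit 6) (nat_lit 134) (nat_lit 3) (nat_lit 69) (nat_lit 44) (nat_lit 76))) (PT.nd (nat_lit 94) (PT.lf (nat_lit 11340) (nat_lit 6) (nat_lit 135) (nat_lit 3) (nat_lit 70) (nat_lit 44) (nat_lit 75)) (PT.lf (nat_lit 11424) (nat_lit 6) (nat_lit 136) (nat_lit 3) (nat_lit 71) (nat_lit 44) (nat_lit 74)))) (PT.nd (nat_lit 188) (PT.nd (nat_lit 94) (PT.lf (nat_lit 11508) (nat_lit 6) (nat_lit 137) (nat_lit 3) (nat_lit 72) (nat_lit 44) (nat_lit 73)) (PT.lf (nat_lit 11508) (nat_lit 6) (nat_lit 137) (nat_lit 1) (nat_lit 73) (nat_lit 44) (nat_lit 72))) (PT.nd (nat_lit 94) (PT.lf (nat_lit 11424) (nat_lit 6) (nat_lit 136) (nat_lit 1) (nat_lit 74) (nat_lit 44) (nat_lit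 71)) (PT.nd (nat_lit 94) (PT.lf (nat_lit 11340) (nat_lit 6) (nat_lit 135) (nat_lit 1) (nat_lit 75) (nat_lit 44) (nat_lit 70)) (PT.lf (nat_lit 11256) (nat_lit 6) (nat_lit 134) (nat_lit 1) (nat_lit 76) (nat_lit 44) (nat_lit 69)))))) (PT.nd (nat_lit 58468) (PT.nd (nat_lit 58280) (PT.nd (nat_lit 94) (PT.lf (nat_lit 11172) (nat_lit 6) (nat_lit 133) (nat_lit 1) (nat_lit 77) (nat_lit 44) (nat_lit 68)) (PT.lf (nat_lit 11088) (nat_lit 6) (nat_lit 132) (nat_lit 1) (nat_lit 78) (nat_lit 44) (nat_lit 67))) (PT.nd (nat_lit 94) (PT.lf (nat_lit 11676) (nat_lit 6) (nat_lit 139) (nat_lit 3) (nat_lit 66) (nat_lit 45) (nat_lit 78)) (PT.lf (nat_lit 11760) (nat_lit 6) (nat_lit 140) (nat_lit 3) (nat_lit 67) (nat_lit 45) (nat_lit 77)))) (PT.nd (nat_lit 188) (PT.nd (nat_lit 94) (PT.lf (nat_lit 11844) (nat_lit 6) (nat_lit 141) (nat_lit 3) (nat_lit 68) (nat_lit 45) (nat_lit 76)) (PT.lf (nat_lit 11928) (nat_lit 6) (nat_lit 142) (nat_lit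 3) (nat_lit 69) (nat_lit 45) (nat_lit 75))) (PT.nd (nat_lit 94) (PT.lf (nat_lit 12012) (nat_lit 6) (nat_lit 143) (nat_lit 3) (nat_lit 70) (nat_lit 45) (nat_lit 74)) (PT.nd (nat_lit 94) (PT.lf (nat_lit 12096) (nat_lit 6) (nat_lit 144) (nat_lit 3) (nat_lit 71) (nat_lit 45) (nat_lit 73)) (PT.lf (nat_lit 12180) (nat_lit 3) (nat_lit 145) (nat_lit 1) (nat_lit 72) (nat_lit 45) (nat_lit 72))))))) (PT.nd (nat_lit 58844) (PT.nd (nat_lit 376) (PT.nd (nat_lit 188) (PT.nd (nat_lit 94) (PT.lf (nat_lit 12096) (nat_lit 6) (nat_lit 144) (nat_lit 1) (nat_lit 73) (nat_lit 45) (nat_lit 71)) (PT.lf (nat_lit 12012) (nat_lit 6) (nat_lit 143) (nat_lit 1) (nat_lit 74) (nat_lit 45) (nat_lit 70))) (PT.nd (nat_lit 94) (PT.lf (nat_lit 11928) (nat_lit 6) (nat_lit 142) (nat_lit 1) (nat_lit 75) (nat_lit 45) (nat_lit 69)) (PT.lf (nat_lit 11844) (nat_lit 6) (nat_lit 141) (nat_lit 1) (nat_lit 76) (nat_lit 45) (nat_lit 68)))) (PT.nd (nat_lit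 58186) (PT.nd (nat_lit 94) (PT.lf (nat_lit 11760) (nat_lit 6) (nat_lit 140) (nat_lit 1) (nat_lit 77) (nat_lit 45) (nat_lit 67)) (PT.lf (nat_lit 11676) (nat_lit 6) (nat_lit 139) (nat_lit 1) (nat_lit 78) (nat_lit 45) (nat_lit 66))) (PT.nd (nat_lit 94) (PT.lf (nat_lit 12264) (nat_lit 6) (nat_lit 146) (nat_lit 3) (nat_lit 65) (nat_lit 46) (nat_lit 78)) (PT.nd (nat_lit 94) (PT.lf (nat_lit 12348) (nat_lit 6) (nat_lit 147) (nat_lit 3) (nat_lit 66) (nat_lit 46) (nat_lit 77)) (PT.lf (nat_lit 12432) (nat_lit 6) (nat_lit 148) (nat_lit 3) (nat_lit 67) (nat_lit 46) (nat_lit 76)))))) (PT.nd (nat_lit 470) (PT.nd (nat_lit 188) (PT.nd (nat_lit 94) (PT.lf (nat_lit 12516) (nat_lit 6) (nat_lit 149) (nat_lit 3) (nat_lit 68) (nat_lit 46) (nat_lit 75)) (PT.lf (nat_lit 12600) (nat_lit 6) (nat_lit 150) (nat_lit 3) (nat_lit 69) (nat_lit 46) (nat_lit 74))) (PT.nd (nat_lit 94) (PT.lf (nat_lit 12684) (nat_lit 6) (nat_lit 151) (nat_lit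 3) (nat_lit 70) (nat_lit 46) (nat_lit 73)) (PT.nd (nat_lit 94) (PT.lf (nat_lit 12768) (nat_lit 6) (nat_lit 152) (nat_lit 3) (nat_lit 71) (nat_lit 46) (nat_lit 72)) (PT.lf (nat_lit 12768) (nat_lit 6) (nat_lit 152) (nat_lit 1) (nat_lit 72) (nat_lit 46) (nat_lit 71))))) (PT.nd (nat_lit 188) (PT.nd (nat_lit 94) (PT.lf (nat_lit 12684) (nat_lit 6) (nat_lit 151) (nat_lit 1) (nat_lit 73) (nat_lit 46) (nat_lit 70)) (PT.lf (nat_lit 12600) (nat_lit 6) (nat_lit 150) (nat_lit 1) (nat_lit 74) (nat_lit 46) (nat_lit 69))) (PT.nd (nat_lit 94) (PT.lf (nat_lit 12516) (nat_lit 6) (nat_lit 149) (nat_lit 1) (nat_lit 75) (nat_lit 46) (nat_lit 68)) (PT.nd (nat_lit 94) (PT.lf (nat_lit 12432) (nat_lit 6) (nat_lit 148) (nat_lit 1) (nat_lit 76) (nat_lit 46) (nat_lit 67)) (PT.lf (nat_lit 12348) (nat_lit 6) (nat_lit 147) (nat_lit 1) (nat_lit 77) (nat_lit 46) (nat_lit 66))))))))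
noncomputable def pc4 : PT := (PT.nd (nat_lit 117406) (PT.nd (nat_lit 58750) (PT.nd (nat_lit 58280) (PT.nd (nat_lit 58092) (PT.nd (nat_lit 57998) (PT.lf (nat_lit 12264) (nat_lit 6) (nat_lit 146) (nat_lit 1) (nat_lit 78) (nat_lit 46) (nat_lit 65)) (PT.lf (nat_lit 12852) (nat_lit 6) (nat_lit 153) (nat_lit 3) (nat_lit 64) (nat_lit 47) (nat_lit 78))) (PT.nd (nat_lit 94) (PT.lf (nat_lit 12936) (nat_lit 6) (nat_lit 154) (nat_lit 3) (nat_lit 65) (nat_lit 47) (nat_lit 77)) (PT.lf (nat_lit 13020) (nat_lit 6) (nat_lit 155) (nat_lit 3) (nat_lit 66) (nat_lit 47) (nat_lit 76)))) (PT.nd (nat_lit 188) (PT.nd (nat_lit 94) (PT.lf (nat_lit 13104) (nat_lit 6) (nat_lit 156) (nat_lit 3) (nat_lit 67) (nat_lit 47) (nat_lit 75)) (PT.lf (nat_lit 13188) (nat_lit 6) (nat_lit 157) (nat_lit 3) (nat_lit 68) (nat_lit 47) (nat_lit 74))) (PT.nd (nat_lit 94) (PT.lf (nat_lit 13272) (nat_lit 6) (nat_lit 158) (nat_lit 3) (nat_lit 69) (nat_lit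 47) (nat_lit 73)) (PT.nd (nat_lit 94) (PT.lf (nat_lit 13356) (nat_lit 6) (nat_lit 159) (nat_lit 3) (nat_lit 70) (nat_lit 47) (nat_lit 72)) (PT.lf (nat_lit 13440) (nat_lit 3) (nat_lit 160) (nat_lit 1) (nat_lit 71) (nat_lit 47) (nat_lit 71)))))) (PT.nd (nat_lit 376) (PT.nd (nat_lit 188) (PT.nd (nat_lit 94) (PT.lf (nat_lit 13356) (nat_lit 6) (nat_lit 159) (nat_lit 1) (nat_lit 72) (nat_lit 47) (nat_lit 70)) (PT.lf (nat_lit 13272) (nat_lit 6) (nat_lit 158) (nat_lit 1) (nat_lit 73) (nat_lit 47) (nat_lit 69))) (PT.nd (nat_lit 94) (PT.lf (nat_lit 13188) (nat_lit 6) (nat_lit 157) (nat_lit 1) (nat_lit 74) (nat_lit 47) (nat_lit 68)) (PT.lf (nat_lit 13104) (nat_lit 6) (nat_lit 156) (nat_lit 1) (nat_lit 75) (nat_lit 47) (nat_lit 67)))) (PT.nd (nat_lit 188) (PT.nd (nat_lit 94) (PT.lf (nat_lit 13020) (nat_lit 6) (nat_lit 155) (nat_lit 1) (nat_lit 76) (nat_lit 47) (nat_lit 66)) (PT.lf (nat_lit 12936) (nat_lit 6) (nat_lit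 154) (nat_lit 1) (nat_lit 77) (nat_lit 47) (nat_lit 65))) (PT.nd (nat_lit 57904) (PT.lf (nat_lit 12852) (nat_lit 6) (nat_lit 153) (nat_lit 1) (nat_lit 78) (nat_lit 47) (nat_lit 64)) (PT.nd (nat_lit 94) (PT.lf (nat_lit 14112) (nat_lit 6) (nat_lit 168) (nat_lit 3) (nat_lit 63) (nat_lit 48) (nat_lit 78)) (PT.lf (nat_lit 14196) (nat_lit 6) (nat_lit 169) (nat_lit 3) (nat_lit 64) (nat_lit 48) (nat_lit 77))))))) (PT.nd (nat_lit 846) (PT.nd (nat_lit 376) (PT.nd (nat_lit 188) (PT.nd (nat_lit 94) (PT.lf (nat_lit 14280) (nat_lit 6) (nat_lit 170) (nat_lit 3) (nat_lit 65) (nat_lit 48) (nat_lit 76)) (PT.lf (nat_lit 14364) (nat_lit 6) (nat_lit 171) (nat_lit 3) (nat_lit 66) (nat_lit 48) (nat_lit 75))) (PT.nd (nat_lit 94) (PT.lf (nat_lit 14448) (nat_lit 6) (nat_lit 172) (nat_lit 3) (nat_lit 67) (nat_lit 48) (nat_lit 74)) (PT.lf (nat_lit 14532) (nat_lit 6) (nat_lit 173) (nat_lit 3) (nat_lit 68) (nat_lit 48) (nat_lit 73))))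 (PT.nd (nat_lit 188) (PT.nd (nat_lit 94) (PT.lf (nat_lit 14616) (nat_lit 6) (nat_lit 174) (nat_lit 3) (nat_lit 69) (nat_lit 48) (nat_lit 72)) (PT.lf (nat_lit 14700) (nat_lit 6) (nat_lit 175) (nat_lit 3) (nat_lit 70) (nat_lit 48) (nat_lit 71))) (PT.nd (nat_lit 94) (PT.lf (nat_lit 14700) (nat_lit 6) (nat_lit 175) (nat_lit 1) (nat_lit 71) (nat_lit 48) (nat_lit 70)) (PT.nd (nat_lit 94) (PT.lf (nat_lit 14616) (nat_lit 6) (nat_lit 174) (nat_lit 1) (nat_lit 72) (nat_lit 48) (nat_lit 69)) (PT.lf (nat_lit 14532) (nat_lit 6) (nat_lit 173) (nat_lit 1) (nat_lit 73) (nat_lit 48) (nat_lit 68)))))) (PT.nd (nat_lit 376) (PT.nd (nat_lit 188) (PT.nd (nat_lit 94) (PT.lf (nat_lit 14448) (nat_lit 6) (nat_lit 172) (nat_lit 1) (nat_lit 74) (nat_lit 48) (nat_lit 67)) (PT.lf (nat_lit 14364) (nat_lit 6) (nat_lit 171) (nat_lit 1) (nat_lit 75) (nat_lit 48) (nat_lit 66))) (PT.nd (nat_lit 94) (PT.lf (nat_lit 14280) (nat_lit 6) (nat_lit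 170) (nat_lit 1) (nat_lit 76) (nat_lit 48) (nat_lit 65)) (PT.lf (nat_lit 14196) (nat_lit 6) (nat_lit 169) (nat_lit 1) (nat_lit 77) (nat_lit 48) (nat_lit 64)))) (PT.nd (nat_lit 57904) (PT.nd (nat_lit 57810) (PT.lf (nat_lit 14112) (nat_lit 6) (nat_lit 168) (nat_lit 1) (nat_lit 78) (nat_lit 48) (nat_lit 63)) (PT.lf (nat_lit 14028) (nat_lit 6) (nat_lit 167) (nat_lit 3) (nat_lit 62) (nat_lit 49) (nat_lit 78))) (PT.nd (nat_lit 94) (PT.lf (nat_lit 15372) (nat_lit 6) (nat_lit 183) (nat_lit 3) (nat_lit 63) (nat_lit 49) (nat_lit 77)) (PT.nd (nat_lit 94) (PT.lf (nat_lit 15456) (nat_lit 6) (nat_lit 184) (nat_lit 3) (nat_lit 64) (nat_lit 49) (nat_lit 76)) (PT.lf (nat_lit 15540) (nat_lit 6) (nat_lit 185) (nat_lit 3) (nat_lit 65) (nat_lit 49) (nat_lit 75))))))))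
noncomputable def pc5 : PT := (PT.nd (nat_lit 59408) (PT.nd (nat_lit 846) (PT.nd (nat_lit 376) (PT.nd (nat_lit 188) (PT.nd (nat_lit 94) (PT.lf (nat_lit 15624) (nat_lit 6) (nat_lit 186) (nat_lit 3) (nat_lit 66) (nat_lit 49) (nat_lit 74)) (PT.lf (nat_lit 15708) (nat_lit 6) (nat_lit 187) (nat_lit 3) (nat_lit 67) (nat_lit 49) (nat_lit 73))) (PT.nd (nat_lit 94) (PT.lf (nat_lit 15792) (nat_lit 6) (nat_lit 188) (nat_lit 3) (nat_lit 68) (nat_lit 49) (nat_lit 72)) (PT.lf (nat_lit 15876) (nat_lit 6) (nat_lit 189) (nat_lit 3) (nat_lit 69) (nat_lit 49) (nat_lit 71)))) (PT.nd (nat_lit 188) (PT.nd (nat_lit 94) (PT.lf (nat_lit 15960) (nat_lit 3) (nat_lit 190) (nat_lit 1) (nat_lit 70) (nat_lit 49) (nat_lit 70)) (PT.lf (nat_lit 15876) (nat_lit 6) (nat_lit 189) (nat_lit 1) (nat_lit 71) (nat_lit 49) (nat_lit 69))) (PT.nd (nat_lit 94) (PT.lf (nat_lit 15792) (nat_lit 6) (nat_lit 188) (nat_lit 1) (nat_lit 72) (nat_lit 49) (nat_lit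 68)) (PT.nd (nat_lit 94) (PT.lf (nat_lit 15708) (nat_lit 6) (nat_lit 187) (nat_lit 1) (nat_lit 73) (nat_lit 49) (nat_lit 67)) (PT.lf (nat_lit 15624) (nat_lit 6) (nat_lit 186) (nat_lit 1) (nat_lit 74) (nat_lit 49) (nat_lit 66)))))) (PT.nd (nat_lit 58092) (PT.nd (nat_lit 188) (PT.nd (nat_lit 94) (PT.lf (nat_lit 15540) (nat_lit 6) (nat_lit 185) (nat_lit 1) (nat_lit 75) (nat_lit 49) (nat_lit 65)) (PT.lf (nat_lit 15456) (nat_lit 6) (nat_lit 184) (nat_lit 1) (nat_lit 76) (nat_lit 49) (nat_lit 64))) (PT.nd (nat_lit 94) (PT.lf (nat_lit 15372) (nat_lit 6) (nat_lit 183) (nat_lit 1) (nat_lit 77) (nat_lit 49) (nat_lit 63)) (PT.lf (nat_lit 14028) (nat_lit 6) (nat_lit 167) (nat_lit 1) (nat_lit 78) (nat_lit 49) (nat_lit 62)))) (PT.nd (nat_lit 188) (PT.nd (nat_lit 94) (PT.lf (nat_lit 15288) (nat_lit 6) (nat_lit 182) (nat_lit 3) (nat_lit 62) (nat_lit 50) (nat_lit 77)) (PT.lf (nat_lit 16548) (nat_lit 6) (nat_lit 197) (nat_lit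 3) (nat_lit 63) (nat_lit 50) (nat_lit 76))) (PT.nd (nat_lit 94) (PT.lf (nat_lit 16632) (nat_lit 6) (nat_lit 198) (nat_lit 3) (nat_lit 64) (nat_lit 50) (nat_lit 75)) (PT.nd (nat_lit 94) (PT.lf (nat_lit 16716) (nat_lit 6) (nat_lit 199) (nat_lit 3) (nat_lit 65) (nat_lit 50) (nat_lit 74)) (PT.lf (nat_lit 16800) (nat_lit 6) (nat_lit 200) (nat_lit 3) (nat_lit 66) (nat_lit 50) (nat_lit 73))))))) (PT.nd (nat_lit 846) (PT.nd (nat_lit 376) (PT.nd (nat_lit 188) (PT.nd (nat_lit 94) (PT.lf (nat_lit 16884) (nat_lit 6) (nat_lit 201) (nat_lit 3) (nat_lit 67) (nat_lit 50) (nat_lit 72)) (PT.lf (nat_lit 16968) (nat_lit 6) (nat_lit 202) (nat_lit 3) (nat_lit 68) (nat_lit 50) (nat_lit 71))) (PT.nd (nat_lit 94) (PT.lf (nat_lit 17052) (nat_lit 6) (nat_lit 203) (nat_lit 3) (nat_lit 69) (nat_lit 50) (nat_lit 70)) (PT.lf (nat_lit 17052) (nat_lit 6) (nat_lit 203) (nat_lit 1) (nat_lit 70) (nat_lit 50) (nat_lit 69)))) (PT.nd (nat_lit 188)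 (PT.nd (nat_lit 94) (PT.lf (nat_lit 16968) (nat_lit 6) (nat_lit 202) (nat_lit 1) (nat_lit 71) (nat_lit 50) (nat_lit 68)) (PT.lf (nat_lit 16884) (nat_lit 6) (nat_lit 201) (nat_lit 1) (nat_lit 72) (nat_lit 50) (nat_lit 67))) (PT.nd (nat_lit 94) (PT.lf (nat_lit 16800) (nat_lit 6) (nat_lit 200) (nat_lit 1) (nat_lit 73) (nat_lit 50) (nat_lit 66)) (PT.nd (nat_lit 94) (PT.lf (nat_lit 16716) (nat_lit 6) (nat_lit 199) (nat_lit 1) (nat_lit 74) (nat_lit 50) (nat_lit 65)) (PT.lf (nat_lit 16632) (nat_lit 6) (nat_lit 198) (nat_lit 1) (nat_lit 75) (nat_lit 50) (nat_lit 64)))))) (PT.nd (nat_lit 58186) (PT.nd (nat_lit 57904) (PT.nd (nat_lit 94) (PT.lf (nat_lit 16548) (nat_lit 6) (nat_lit 197) (nat_lit 1) (nat_lit 76) (nat_lit 50) (nat_lit 63)) (PT.lf (nat_lit 15288) (nat_lit 6) (nat_lit 182) (nat_lit 1) (nat_lit 77) (nat_lit 50) (nat_lit 62))) (PT.nd (nat_lit 94) (PT.lf (nat_lit 15204) (nat_lit 6) (nat_lit 181) (nat_lit 3)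 (nat_lit 61) (nat_lit 51) (nat_lit 77)) (PT.nd (nat_lit 94) (PT.lf (nat_lit 16464) (nat_lit 6) (nat_lit 196) (nat_lit 3) (nat_lit 62) (nat_lit 51) (nat_lit 76)) (PT.lf (nat_lit 17640) (nat_lit 6) (nat_lit 210) (nat_lit 3) (nat_lit 63) (nat_lit 51) (nat_lit 75))))) (PT.nd (nat_lit 188) (PT.nd (nat_lit 94) (PT.lf (nat_lit 17724) (nat_lit 6) (nat_lit 211) (nat_lit 3) (nat_lit 64) (nat_lit 51) (nat_lit 74)) (PT.lf (nat_lit 17808) (nat_lit 6) (nat_lit 212) (nat_lit 3) (nat_lit 65) (nat_lit 51) (nat_lit 73))) (PT.nd (nat_lit 94) (PT.lf (nat_lit 17892) (nat_lit 6) (nat_lit 213) (nat_lit 3) (nat_lit 66) (nat_lit 51) (nat_lit 72)) (PT.nd (nat_lit 94) (PT.lf (nat_lit 17976) (nat_lit 6) (nat_lit 214) (nat_lit 3) (nat_lit 67) (nat_lit 51) (nat_lit 71)) (PT.lf (nat_lit 18060) (nat_lit 6) (nat_lit 215) (nat_lit 3) (nat_lit 68) (nat_lit 51) (nat_lit 70))))))))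
noncomputable def pc6 : PT := (PT.nd (nat_lit 59314) (PT.nd (nat_lit 58468) (PT.nd (nat_lit 376) (PT.nd (nat_lit 188) (PT.nd (nat_lit 94) (PT.lf (nat_lit 18144) (nat_lit 3) (nat_lit 216) (nat_lit 1) (nat_lit 69) (nat_lit 51) (nat_lit 69)) (PT.lf (nat_lit 18060) (nat_lit 6) (nat_lit 215) (nat_lit 1) (nat_lit 70) (nat_lit 51) (nat_lit 68))) (PT.nd (nat_lit 94) (PT.lf (nat_lit 17976) (nat_lit 6) (nat_lit 214) (nat_lit 1) (nat_lit 71) (nat_lit 51) (nat_lit 67)) (PT.lf (nat_lit 17892) (nat_lit 6) (nat_lit 213) (nat_lit 1) (nat_lit 72) (nat_lit 51) (nat_lit 66)))) (PT.nd (nat_lit 188) (PT.nd (nat_lit 94) (PT.lf (nat_lit 17808) (nat_lit 6) (nat_lit 212) (nat_lit 1) (nat_lit 73) (nat_lit 51) (nat_lit 65)) (PT.lf (nat_lit 17724) (nat_lit 6) (nat_lit 211) (nat_lit 1) (nat_lit 74) (nat_lit 51) (nat_lit 64))) (PT.nd (nat_lit 94) (PT.lf (nat_lit 17640) (nat_lit 6) (nat_lit 210) (nat_lit 1) (nat_lit 75) (nat_lit 51) (nat_lit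 63)) (PT.nd (nat_lit 94) (PT.lf (nat_lit 16464) (nat_lit 6) (nat_lit 196) (nat_lit 1) (nat_lit 76) (nat_lit 51) (nat_lit 62)) (PT.lf (nat_lit 15204) (nat_lit 6) (nat_lit 181) (nat_lit 1) (nat_lit 77) (nat_lit 51) (nat_lit 61)))))) (PT.nd (nat_lit 376) (PT.nd (nat_lit 188) (PT.nd (nat_lit 94) (PT.lf (nat_lit 15120) (nat_lit 6) (nat_lit 180) (nat_lit 3) (nat_lit 60) (nat_lit 52) (nat_lit 77)) (PT.lf (nat_lit 16380) (nat_lit 6) (nat_lit 195) (nat_lit 3) (nat_lit 61) (nat_lit 52) (nat_lit 76))) (PT.nd (nat_lit 94) (PT.lf (nat_lit 17556) (nat_lit 6) (nat_lit 209) (nat_lit 3) (nat_lit 62) (nat_lit 52) (nat_lit 75)) (PT.lf (nat_lit 18648) (nat_lit 6) (nat_lit 222) (nat_lit 3) (nat_lit 63) (nat_lit 52) (nat_lit 74)))) (PT.nd (nat_lit 188) (PT.nd (nat_lit 94) (PT.lf (nat_lit 18732) (nat_lit 6) (nat_lit 223) (nat_lit 3) (nat_lit 64) (nat_lit 52) (nat_lit 73)) (PT.lf (nat_lit 18816) (nat_lit 6) (nat_lit 224) (nat_lit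 3) (nat_lit 65) (nat_lit 52) (nat_lit 72))) (PT.nd (nat_lit 94) (PT.lf (nat_lit 18900) (nat_lit 6) (nat_lit 225) (nat_lit 3) (nat_lit 66) (nat_lit 52) (nat_lit 71)) (PT.nd (nat_lit 94) (PT.lf (nat_lit 18984) (nat_lit 6) (nat_lit 226) (nat_lit 3) (nat_lit 67) (nat_lit 52) (nat_lit 70)) (PT.lf (nat_lit 19068) (nat_lit 6) (nat_lit 227) (nat_lit 3) (nat_lit 68) (nat_lit 52) (nat_lit 69))))))) (PT.nd (nat_lit 58374) (PT.nd (nat_lit 376) (PT.nd (nat_lit 188) (PT.nd (nat_lit 94) (PT.lf (nat_lit 19068) (nat_lit 6) (nat_lit 227) (nat_lit 1) (nat_lit 69) (nat_lit 52) (nat_lit 68)) (PT.lf (nat_lit 18984) (nat_lit 6) (nat_lit 226) (nat_lit 1) (nat_lit 70) (nat_lit 52) (nat_lit 67))) (PT.nd (nat_lit 94) (PT.lf (nat_lit 18900) (nat_lit 6) (nat_lit 225) (nat_lit 1) (nat_lit 71) (nat_lit 52) (nat_lit 66)) (PT.lf (nat_lit 18816) (nat_lit 6) (nat_lit 224) (nat_lit 1) (nat_lit 72) (nat_lit 52) (nat_lit 65)))) (PT.nd (nat_lit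 188) (PT.nd (nat_lit 94) (PT.lf (nat_lit 18732) (nat_lit 6) (nat_lit 223) (nat_lit 1) (nat_lit 73) (nat_lit 52) (nat_lit 64)) (PT.lf (nat_lit 18648) (nat_lit 6) (nat_lit 222) (nat_lit 1) (nat_lit 74) (nat_lit 52) (nat_lit 63))) (PT.nd (nat_lit 94) (PT.lf (nat_lit 17556) (nat_lit 6) (nat_lit 209) (nat_lit 1) (nat_lit 75) (nat_lit 52) (nat_lit 62)) (PT.nd (nat_lit 94) (PT.lf (nat_lit 16380) (nat_lit 6) (nat_lit 195) (nat_lit 1) (nat_lit 76) (nat_lit 52) (nat_lit 61)) (PT.lf (nat_lit 15120) (nat_lit 6) (nat_lit 180) (nat_lit 1) (nat_lit 77) (nat_lit 52) (nat_lit 60)))))) (PT.nd (nat_lit 376) (PT.nd (nat_lit 188) (PT.nd (nat_lit 94) (PT.lf (nat_lit 15036) (nat_lit 6) (nat_lit 179) (nat_lit 3) (nat_lit 59) (nat_lit 53) (nat_lit 77)) (PT.lf (nat_lit 16296) (nat_lit 6) (nat_lit 194) (nat_lit 3) (nat_lit 60) (nat_lit 53) (nat_lit 76))) (PT.nd (nat_lit 94) (PT.lf (nat_lit 17472) (nat_lit 6) (nat_lit 208) (nat_lit 3)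 (nat_lit 61) (nat_lit 53) (nat_lit 75)) (PT.lf (nat_lit 18564) (nat_lit 6) (nat_lit 221) (nat_lit 3) (nat_lit 62) (nat_lit 53) (nat_lit 74)))) (PT.nd (nat_lit 188) (PT.nd (nat_lit 94) (PT.lf (nat_lit 19572) (nat_lit 6) (nat_lit 233) (nat_lit 3) (nat_lit 63) (nat_lit 53) (nat_lit 73)) (PT.lf (nat_lit 19656) (nat_lit 6) (nat_lit 234) (nat_lit 3) (nat_lit 64) (nat_lit 53) (nat_lit 72))) (PT.nd (nat_lit 94) (PT.lf (nat_lit 19740) (nat_lit 6) (nat_lit 235) (nat_lit 3) (nat_lit 65) (nat_lit 53) (nat_lit 71)) (PT.nd (nat_lit 94) (PT.lf (nat_lit 19824) (nat_lit 6) (nat_lit 236) (nat_lit 3) (nat_lit 66) (nat_lit 53) (nat_lit 70)) (PT.lf (nat_lit 19908) (nat_lit 6) (nat_lit 237) (nat_lit 3) (nat_lit 67) (nat_lit 53) (nat_lit 69))))))))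
noncomputable def pc7 : PT := (PT.nd (nat_lit 59126) (PT.nd (nat_lit 846) (PT.nd (nat_lit 376) (PT.nd (nat_lit 188) (PT.nd (nat_lit 94) (PT.lf (nat_lit 19992) (nat_lit 3) (nat_lit 238) (nat_lit 1) (nat_lit 68) (nat_lit 53) (nat_lit 68)) (PT.lf (nat_lit 19908) (nat_lit 6) (nat_lit 237) (nat_lit 1) (nat_lit 69) (nat_lit 53) (nat_lit 67))) (PT.nd (nat_lit 94) (PT.lf (nat_lit 19824) (nat_lit 6) (nat_lit 236) (nat_lit 1) (nat_lit 70) (nat_lit 53) (nat_lit 66)) (PT.lf (nat_lit 19740) (nat_lit 6) (nat_lit 235) (nat_lit 1) (nat_lit 71) (nat_lit 53) (nat_lit 65)))) (PT.nd (nat_lit 188) (PT.nd (nat_lit 94) (PT.lf (nat_lit 19656) (nat_lit 6) (nat_lit 234) (nat_lit 1) (nat_lit 72) (nat_lit 53) (nat_lit 64)) (PT.lf (nat_lit 19572) (nat_lit 6) (nat_lit 233) (nat_lit 1) (nat_lit 73) (nat_lit 53) (nat_lit 63))) (PT.nd (nat_lit 94) (PT.lf (nat_lit 18564) (nat_lit 6) (nat_lit 221) (nat_lit 1) (nat_lit 74) (nat_lit 53) (nat_lit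 62)) (PT.nd (nat_lit 94) (PT.lf (nat_lit 17472) (nat_lit 6) (nat_lit 208) (nat_lit 1) (nat_lit 75) (nat_lit 53) (nat_lit 61)) (PT.lf (nat_lit 16296) (nat_lit 6) (nat_lit 194) (nat_lit 1) (nat_lit 76) (nat_lit 53) (nat_lit 60)))))) (PT.nd (nat_lit 57810) (PT.nd (nat_lit 57622) (PT.nd (nat_lit 57528) (PT.lf (nat_lit 15036) (nat_lit 6) (nat_lit 179) (nat_lit 1) (nat_lit 77) (nat_lit 53) (nat_lit 59)) (PT.lf (nat_lit 14952) (nat_lit 6) (nat_lit 178) (nat_lit 3) (nat_lit 58) (nat_lit 54) (nat_lit 77))) (PT.nd (nat_lit 94) (PT.lf (nat_lit 16212) (nat_lit 6) (nat_lit 193) (nat_lit 3) (nat_lit 59) (nat_lit 54) (nat_lit 76)) (PT.lf (nat_lit 17388) (nat_lit 6) (nat_lit 207) (nat_lit 3) (nat_lit 60) (nat_lit 54) (nat_lit 75)))) (PT.nd (nat_lit 188) (PT.nd (nat_lit 94) (PT.lf (nat_lit 18480) (nat_lit 6) (nat_lit 220) (nat_lit 3) (nat_lit 61) (nat_lit 54) (nat_lit 74)) (PT.lf (nat_lit 19488) (nat_lit 6) (nat_lit 232) (nat_lit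 3) (nat_lit 62) (nat_lit 54) (nat_lit 73))) (PT.nd (nat_lit 94) (PT.lf (nat_lit 20412) (nat_lit 6) (nat_lit 243) (nat_lit 3) (nat_lit 63) (nat_lit 54) (nat_lit 72)) (PT.nd (nat_lit 94) (PT.lf (nat_lit 20496) (nat_lit 6) (nat_lit 244) (nat_lit 3) (nat_lit 64) (nat_lit 54) (nat_lit 71)) (PT.lf (nat_lit 20580) (nat_lit 6) (nat_lit 245) (nat_lit 3) (nat_lit 65) (nat_lit 54) (nat_lit 70))))))) (PT.nd (nat_lit 846) (PT.nd (nat_lit 376) (PT.nd (nat_lit 188) (PT.nd (nat_lit 94) (PT.lf (nat_lit 20664) (nat_lit 6) (nat_lit 246) (nat_lit 3) (nat_lit 66) (nat_lit 54) (nat_lit 69)) (PT.lf (nat_lit 20748) (nat_lit 6) (nat_lit 247) (nat_lit 3) (nat_lit 67) (nat_lit 54) (nat_lit 68))) (PT.nd (nat_lit 94) (PT.lf (nat_lit 20748) (nat_lit 6) (nat_lit 247) (nat_lit 1) (nat_lit 68) (nat_lit 54) (nat_lit 67)) (PT.lf (nat_lit 20664) (nat_lit 6) (nat_lit 246) (nat_lit 1) (nat_lit 69) (nat_lit 54) (nat_lit 66)))) (PT.nd (nat_lit 188)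 (PT.nd (nat_lit 94) (PT.lf (nat_lit 20580) (nat_lit 6) (nat_lit 245) (nat_lit 1) (nat_lit 70) (nat_lit 54) (nat_lit 65)) (PT.lf (nat_lit 20496) (nat_lit 6) (nat_lit 244) (nat_lit 1) (nat_lit 71) (nat_lit 54) (nat_lit 64))) (PT.nd (nat_lit 94) (PT.lf (nat_lit 20412) (nat_lit 6) (nat_lit 243) (nat_lit 1) (nat_lit 72) (nat_lit 54) (nat_lit 63)) (PT.nd (nat_lit 94) (PT.lf (nat_lit 19488) (nat_lit 6) (nat_lit 232) (nat_lit 1) (nat_lit 73) (nat_lit 54) (nat_lit 62)) (PT.lf (nat_lit 18480) (nat_lit 6) (nat_lit 220) (nat_lit 1) (nat_lit 74) (nat_lit 54) (nat_lit 61)))))) (PT.nd (nat_lit 57810) (PT.nd (nat_lit 188) (PT.nd (nat_lit 94) (PT.lf (nat_lit 17388) (nat_lit 6) (nat_lit 207) (nat_lit 1) (nat_lit 75) (nat_lit 54) (nat_lit 60)) (PT.lf (nat_lit 16212) (nat_lit 6) (nat_lit 193) (nat_lit 1) (nat_lit 76) (nat_lit 54) (nat_lit 59))) (PT.nd (nat_lit 57434) (PT.lf (nat_lit 14952) (nat_lit 6) (nat_lit 178) (nat_lit 1)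 (nat_lit 77) (nat_lit 54) (nat_lit 58)) (PT.nd (nat_lit 94) (PT.lf (nat_lit 14868) (nat_lit 6) (nat_lit 177) (nat_lit 3) (nat_lit 57) (nat_lit 55) (nat_lit 77)) (PT.lf (nat_lit 16128) (nat_lit 6) (nat_lit 192) (nat_lit 3) (nat_lit 58) (nat_lit 55) (nat_lit 76))))) (PT.nd (nat_lit 188) (PT.nd (nat_lit 94) (PT.lf (nat_lit 17304) (nat_lit 6) (nat_lit 206) (nat_lit 3) (nat_lit 59) (nat_lit 55) (nat_lit 75)) (PT.lf (nat_lit 18396) (nat_lit 6) (nat_lit 219) (nat_lit 3) (nat_lit 60) (nat_lit 55) (nat_lit 74))) (PT.nd (nat_lit 94) (PT.lf (nat_lit 19404) (nat_lit 6) (nat_lit 231) (nat_lit 3) (nat_lit 61) (nat_lit 55) (nat_lit 73)) (PT.nd (nat_lit 94) (PT.lf (nat_lit 20328) (nat_lit 6) (nat_lit 242) (nat_lit 3) (nat_lit 62) (nat_lit 55) (nat_lit 72)) (PT.lf (nat_lit 21168) (nat_lit 6) (nat_lit 252) (nat_lit 3) (nat_lit 63) (nat_lit 55) (nat_lit 71))))))))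
noncomputable def pc8 : PT := (PT.nd (nat_lit 58938) (PT.nd (nat_lit 846) (PT.nd (nat_lit 376) (PT.nd (nat_lit 188) (PT.nd (nat_lit 94) (PT.lf (nat_lit 21252) (nat_lit 6) (nat_lit 253) (nat_lit 3) (nat_lit 64) (nat_lit 55) (nat_lit 70)) (PT.lf (nat_lit 21336) (nat_lit 6) (nat_lit 254) (nat_lit 3) (nat_lit 65) (nat_lit 55) (nat_lit 69))) (PT.nd (nat_lit 94) (PT.lf (nat_lit 21420) (nat_lit 6) (nat_lit 255) (nat_lit 3) (nat_lit 66) (nat_lit 55) (nat_lit 68)) (PT.lf (nat_lit 21504) (nat_lit 3) (nat_lit 256) (nat_lit 1) (nat_lit 67) (nat_lit 55) (nat_lit 67)))) (PT.nd (nat_lit 188) (PT.nd (nat_lit 94) (PT.lf (nat_lit 21420) (nat_lit 6) (nat_lit 255) (nat_lit 1) (nat_lit 68) (nat_lit 55) (nat_lit 66)) (PT.lf (nat_lit 21336) (nat_lit 6) (nat_lit 254) (nat_lit 1) (nat_lit 69) (nat_lit 55) (nat_lit 65))) (PT.nd (nat_lit 94) (PT.lf (nat_lit 21252) (nat_lit 6) (nat_lit 253) (nat_lit 1) (nat_lit 70) (nat_lit 55) (nat_lit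 64)) (PT.nd (nat_lit 94) (PT.lf (nat_lit 21168) (nat_lit 6) (nat_lit 252) (nat_lit 1) (nat_lit 71) (nat_lit 55) (nat_lit 63)) (PT.lf (nat_lit 20328) (nat_lit 6) (nat_lit 242) (nat_lit 1) (nat_lit 72) (nat_lit 55) (nat_lit 62)))))) (PT.nd (nat_lit 376) (PT.nd (nat_lit 188) (PT.nd (nat_lit 94) (PT.lf (nat_lit 19404) (nat_lit 6) (nat_lit 231) (nat_lit 1) (nat_lit 73) (nat_lit 55) (nat_lit 61)) (PT.lf (nat_lit 18396) (nat_lit 6) (nat_lit 219) (nat_lit 1) (nat_lit 74) (nat_lit 55) (nat_lit 60))) (PT.nd (nat_lit 94) (PT.lf (nat_lit 17304) (nat_lit 6) (nat_lit 206) (nat_lit 1) (nat_lit 75) (nat_lit 55) (nat_lit 59)) (PT.lf (nat_lit 16128) (nat_lit 6) (nat_lit 192) (nat_lit 1) (nat_lit 76) (nat_lit 55) (nat_lit 58)))) (PT.nd (nat_lit 57434) (PT.nd (nat_lit 57340) (PT.lf (nat_lit 14868) (nat_lit 6) (nat_lit 177) (nat_lit 1) (nat_lit 77) (nat_lit 55) (nat_lit 57)) (PT.lf (nat_lit 14784) (nat_lit 3) (nat_lit 176) (nat_lit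 3) (nat_lit 56) (nat_lit 56) (nat_lit 77))) (PT.nd (nat_lit 94) (PT.lf (nat_lit 16044) (nat_lit 6) (nat_lit 191) (nat_lit 3) (nat_lit 57) (nat_lit 56) (nat_lit 76)) (PT.nd (nat_lit 94) (PT.lf (nat_lit 17220) (nat_lit 6) (nat_lit 205) (nat_lit 3) (nat_lit 58) (nat_lit 56) (nat_lit 75)) (PT.lf (nat_lit 18312) (nat_lit 6) (nat_lit 218) (nat_lit 3) (nat_lit 59) (nat_lit 56) (nat_lit 74))))))) (PT.nd (nat_lit 846) (PT.nd (nat_lit 376) (PT.nd (nat_lit 188) (PT.nd (nat_lit 94) (PT.lf (nat_lit 19320) (nat_lit 6) (nat_lit 230) (nat_lit 3) (nat_lit 60) (nat_lit 56) (nat_lit 73)) (PT.lf (nat_lit 20244) (nat_lit 6) (nat_lit 241) (nat_lit 3) (nat_lit 61) (nat_lit 56) (nat_lit 72))) (PT.nd (nat_lit 94) (PT.lf (nat_lit 21084) (nat_lit 6) (nat_lit 251) (nat_lit 3) (nat_lit 62) (nat_lit 56) (nat_lit 71)) (PT.lf (nat_lit 21840) (nat_lit 6) (nat_lit 260) (nat_lit 3) (nat_lit 63) (nat_lit 56) (nat_lit 70)))) (PT.nd (nat_lit 188)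 (PT.nd (nat_lit 94) (PT.lf (nat_lit 21924) (nat_lit 6) (nat_lit 261) (nat_lit 3) (nat_lit 64) (nat_lit 56) (nat_lit 69)) (PT.lf (nat_lit 22008) (nat_lit 6) (nat_lit 262) (nat_lit 3) (nat_lit 65) (nat_lit 56) (nat_lit 68))) (PT.nd (nat_lit 94) (PT.lf (nat_lit 22092) (nat_lit 6) (nat_lit 263) (nat_lit 3) (nat_lit 66) (nat_lit 56) (nat_lit 67)) (PT.nd (nat_lit 94) (PT.lf (nat_lit 22092) (nat_lit 6) (nat_lit 263) (nat_lit 1) (nat_lit 67) (nat_lit 56) (nat_lit 66)) (PT.lf (nat_lit 22008) (nat_lit 6) (nat_lit 262) (nat_lit 1) (nat_lit 68) (nat_lit 56) (nat_lit 65)))))) (PT.nd (nat_lit 376) (PT.nd (nat_lit 188) (PT.nd (nat_lit 94) (PT.lf (nat_lit 21924) (nat_lit 6) (nat_lit 261) (nat_lit 1) (nat_lit 69) (nat_lit 56) (nat_lit 64)) (PT.lf (nat_lit 21840) (nat_lit 6) (nat_lit 260) (nat_lit 1) (nat_lit 70) (nat_lit 56) (nat_lit 63))) (PT.nd (nat_lit 94) (PT.lf (nat_lit 21084) (nat_lit 6) (nat_lit 251) (nat_lit 1) (nat_lit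 71) (nat_lit 56) (nat_lit 62)) (PT.lf (nat_lit 20244) (nat_lit 6) (nat_lit 241) (nat_lit 1) (nat_lit 72) (nat_lit 56) (nat_lit 61)))) (PT.nd (nat_lit 188) (PT.nd (nat_lit 94) (PT.lf (nat_lit 19320) (nat_lit 6) (nat_lit 230) (nat_lit 1) (nat_lit 73) (nat_lit 56) (nat_lit 60)) (PT.lf (nat_lit 18312) (nat_lit 6) (nat_lit 218) (nat_lit 1) (nat_lit 74) (nat_lit 56) (nat_lit 59))) (PT.nd (nat_lit 94) (PT.lf (nat_lit 17220) (nat_lit 6) (nat_lit 205) (nat_lit 1) (nat_lit 75) (nat_lit 56) (nat_lit 58)) (PT.nd (nat_lit 94) (PT.lf (nat_lit 16044) (nat_lit 6) (nat_lit 191) (nat_lit 1) (nat_lit 76) (nat_lit 56) (nat_lit 57)) (PT.lf (nat_lit 14784) (nat_lit 3) (nat_lit 176) (nat_lit 0) (nat_lit 77) (nat_lit 56) (nat_lit 56))))))))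
noncomputable def pc9 : PT := (PT.nd (nat_lit 1692) (PT.nd (nat_lit 846) (PT.nd (nat_lit 376) (PT.nd (nat_lit 188) (PT.nd (nat_lit 94) (PT.lf (nat_lit 14868) (nat_lit 6) (nat_lit 177) (nat_lit 5) (nat_lit 55) (nat_lit 57) (nat_lit 77)) (PT.lf (nat_lit 16044) (nat_lit 6) (nat_lit 191) (nat_lit 5) (nat_lit 56) (nat_lit 57) (nat_lit 76))) (PT.nd (nat_lit 94) (PT.lf (nat_lit 17136) (nat_lit 3) (nat_lit 204) (nat_lit 3) (nat_lit 57) (nat_lit 57) (nat_lit 75)) (PT.lf (nat_lit 18228) (nat_lit 6) (nat_lit 217) (nat_lit 3) (nat_lit 58) (nat_lit 57) (nat_lit 74)))) (PT.nd (nat_lit 188) (PT.nd (nat_lit 94) (PT.lf (nat_lit 19236) (nat_lit 6) (nat_lit 229) (nat_lit 3) (nat_lit 59) (nat_lit 57) (nat_lit 73)) (PT.lf (nat_lit 20160) (nat_lit 6) (nat_lit 240) (nat_lit 3) (nat_lit 60) (nat_lit 57) (nat_lit 72))) (PT.nd (nat_lit 94) (PT.lf (nat_lit 21000) (nat_lit 6) (nat_lit 250) (nat_lit 3) (nat_lit 61) (nat_lit 57) (nat_lit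 71)) (PT.nd (nat_lit 94) (PT.lf (nat_lit 21756) (nat_lit 6) (nat_lit 259) (nat_lit 3) (nat_lit 62) (nat_lit 57) (nat_lit 70)) (PT.lf (nat_lit 22428) (nat_lit 6) (nat_lit 267) (nat_lit 3) (nat_lit 63) (nat_lit 57) (nat_lit 69)))))) (PT.nd (nat_lit 376) (PT.nd (nat_lit 188) (PT.nd (nat_lit 94) (PT.lf (nat_lit 22512) (nat_lit 6) (nat_lit 268) (nat_lit 3) (nat_lit 64) (nat_lit 57) (nat_lit 68)) (PT.lf (nat_lit 22596) (nat_lit 6) (nat_lit 269) (nat_lit 3) (nat_lit 65) (nat_lit 57) (nat_lit 67))) (PT.nd (nat_lit 94) (PT.lf (nat_lit 22680) (nat_lit 3) (nat_lit 270) (nat_lit 1) (nat_lit 66) (nat_lit 57) (nat_lit 66)) (PT.lf (nat_lit 22596) (nat_lit 6) (nat_lit 269) (nat_lit 1) (nat_lit 67) (nat_lit 57) (nat_lit 65)))) (PT.nd (nat_lit 188) (PT.nd (nat_lit 94) (PT.lf (nat_lit 22512) (nat_lit 6) (nat_lit 268) (nat_lit 1) (nat_lit 68) (nat_lit 57) (nat_lit 64)) (PT.lf (nat_lit 22428) (nat_lit 6) (nat_lit 267) (nat_lit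 1) (nat_lit 69) (nat_lit 57) (nat_lit 63))) (PT.nd (nat_lit 94) (PT.lf (nat_lit 21756) (nat_lit 6) (nat_lit 259) (nat_lit 1) (nat_lit 70) (nat_lit 57) (nat_lit 62)) (PT.nd (nat_lit 94) (PT.lf (nat_lit 21000) (nat_lit 6) (nat_lit 250) (nat_lit 1) (nat_lit 71) (nat_lit 57) (nat_lit 61)) (PT.lf (nat_lit 20160) (nat_lit 6) (nat_lit 240) (nat_lit 1) (nat_lit 72) (nat_lit 57) (nat_lit 60))))))) (PT.nd (nat_lit 57904) (PT.nd (nat_lit 376) (PT.nd (nat_lit 188) (PT.nd (nat_lit 94) (PT.lf (nat_lit 19236) (nat_lit 6) (nat_lit 229) (nat_lit 1) (nat_lit 73) (nat_lit 57) (nat_lit 59)) (PT.lf (nat_lit 18228) (nat_lit 6) (nat_lit 217) (nat_lit 1) (nat_lit 74) (nat_lit 57) (nat_lit 58))) (PT.nd (nat_lit 94) (PT.lf (nat_lit 17136) (nat_lit 3) (nat_lit 204) (nat_lit 0) (nat_lit 75) (nat_lit 57) (nat_lit 57)) (PT.lf (nat_lit 16044) (nat_lit 6) (nat_lit 191) (nat_lit 0) (nat_lit 76) (nat_lit 57) (nat_lit 56)))) (PT.nd (nat_lit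 57246) (PT.nd (nat_lit 57152) (PT.lf (nat_lit 14868) (nat_lit 6) (nat_lit 177) (nat_lit 0) (nat_lit 77) (nat_lit 57) (nat_lit 55)) (PT.lf (nat_lit 14952) (nat_lit 6) (nat_lit 178) (nat_lit 5) (nat_lit 54) (nat_lit 58) (nat_lit 77))) (PT.nd (nat_lit 94) (PT.lf (nat_lit 16128) (nat_lit 6) (nat_lit 192) (nat_lit 5) (nat_lit 55) (nat_lit 58) (nat_lit 76)) (PT.nd (nat_lit 94) (PT.lf (nat_lit 17220) (nat_lit 6) (nat_lit 205) (nat_lit 5) (nat_lit 56) (nat_lit 58) (nat_lit 75)) (PT.lf (nat_lit 18228) (nat_lit 6) (nat_lit 217) (nat_lit 5) (nat_lit 57) (nat_lit 58) (nat_lit 74)))))) (PT.nd (nat_lit 470) (PT.nd (nat_lit 188) (PT.nd (nat_lit 94) (PT.lf (nat_lit 19152) (nat_lit 3) (nat_lit 228) (nat_lit 3) (nat_lit 58) (nat_lit 58) (nat_lit 73)) (PT.lf (nat_lit 20076) (nat_lit 6) (nat_lit 239) (nat_lit 3) (nat_lit 59) (nat_lit 58) (nat_lit 72))) (PT.nd (nat_lit 94) (PT.lf (nat_lit 20916) (nat_lit 6) (nat_lit 249) (nat_lit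 3) (nat_lit 60) (nat_lit 58) (nat_lit 71)) (PT.nd (nat_lit 94) (PT.lf (nat_lit 21672) (nat_lit 6) (nat_lit 258) (nat_lit 3) (nat_lit 61) (nat_lit 58) (nat_lit 70)) (PT.lf (nat_lit 22344) (nat_lit 6) (nat_lit 266) (nat_lit 3) (nat_lit 62) (nat_lit 58) (nat_lit 69))))) (PT.nd (nat_lit 188) (PT.nd (nat_lit 94) (PT.lf (nat_lit 22932) (nat_lit 6) (nat_lit 273) (nat_lit 3) (nat_lit 63) (nat_lit 58) (nat_lit 68)) (PT.lf (nat_lit 23016) (nat_lit 6) (nat_lit 274) (nat_lit 3) (nat_lit 64) (nat_lit 58) (nat_lit 67))) (PT.nd (nat_lit 94) (PT.lf (nat_lit 23100) (nat_lit 6) (nat_lit 275) (nat_lit 3) (nat_lit 65) (nat_lit 58) (nat_lit 66)) (PT.nd (nat_lit 94) (PT.lf (nat_lit 23100) (nat_lit 6) (nat_lit 275) (nat_lit 1) (nat_lit 66) (nat_lit 58) (nat_lit 65)) (PT.lf (nat_lit 23016) (nat_lit 6) (nat_lit 274) (nat_lit 1) (nat_lit 67) (nat_lit 58) (nat_lit 64))))))))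
noncomputable def pc10 : PT := (PT.nd (nat_lit 58656) (PT.nd (nat_lit 846) (PT.nd (nat_lit 376) (PT.nd (nat_lit 188) (PT.nd (nat_lit 94) (PT.lf (nat_lit 22932) (nat_lit 6) (nat_lit 273) (nat_lit 1) (nat_lit 68) (nat_lit 58) (nat_lit 63)) (PT.lf (nat_lit 22344) (nat_lit 6) (nat_lit 266) (nat_lit 1) (nat_lit 69) (nat_lit 58) (nat_lit 62))) (PT.nd (nat_lit 94) (PT.lf (nat_lit 21672) (nat_lit 6) (nat_lit 258) (nat_lit 1) (nat_lit 70) (nat_lit 58) (nat_lit 61)) (PT.lf (nat_lit 20916) (nat_lit 6) (nat_lit 249) (nat_lit 1) (nat_lit 71) (nat_lit 58) (nat_lit 60)))) (PT.nd (nat_lit 188) (PT.nd (nat_lit 94) (PT.lf (nat_lit 20076) (nat_lit 6) (nat_lit 239) (nat_lit 1) (nat_lit 72) (nat_lit 58) (nat_lit 59)) (PT.lf (nat_lit 19152) (nat_lit 3) (nat_lit 228) (nat_lit 0) (nat_lit 73) (nat_lit 58) (nat_lit 58))) (PT.nd (nat_lit 94) (PT.lf (nat_lit 18228) (nat_lit 6) (nat_lit 217) (nat_lit 0) (nat_lit 74) (nat_lit 58) (nat_lit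 57)) (PT.nd (nat_lit 94) (PT.lf (nat_lit 17220) (nat_lit 6) (nat_lit 205) (nat_lit 0) (nat_lit 75) (nat_lit 58) (nat_lit 56)) (PT.lf (nat_lit 16128) (nat_lit 6) (nat_lit 192) (nat_lit 0) (nat_lit 76) (nat_lit 58) (nat_lit 55)))))) (PT.nd (nat_lit 57340) (PT.nd (nat_lit 57152) (PT.nd (nat_lit 57058) (PT.lf (nat_lit 14952) (nat_lit 6) (nat_lit 178) (nat_lit 0) (nat_lit 77) (nat_lit 58) (nat_lit 54)) (PT.lf (nat_lit 15036) (nat_lit 6) (nat_lit 179) (nat_lit 5) (nat_lit 53) (nat_lit 59) (nat_lit 77))) (PT.nd (nat_lit 94) (PT.lf (nat_lit 16212) (nat_lit 6) (nat_lit 193) (nat_lit 5) (nat_lit 54) (nat_lit 59) (nat_lit 76)) (PT.lf (nat_lit 17304) (nat_lit 6) (nat_lit 206) (nat_lit 5) (nat_lit 55) (nat_lit 59) (nat_lit 75)))) (PT.nd (nat_lit 188) (PT.nd (nat_lit 94) (PT.lf (nat_lit 18312) (nat_lit 6) (nat_lit 218) (nat_lit 5) (nat_lit 56) (nat_lit 59) (nat_lit 74)) (PT.lf (nat_lit 19236) (nat_lit 6) (nat_lit 229) (nat_lit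 5) (nat_lit 57) (nat_lit 59) (nat_lit 73))) (PT.nd (nat_lit 94) (PT.lf (nat_lit 20076) (nat_lit 6) (nat_lit 239) (nat_lit 5) (nat_lit 58) (nat_lit 59) (nat_lit 72)) (PT.nd (nat_lit 94) (PT.lf (nat_lit 20832) (nat_lit 3) (nat_lit 248) (nat_lit 3) (nat_lit 59) (nat_lit 59) (nat_lit 71)) (PT.lf (nat_lit 21588) (nat_lit 6) (nat_lit 257) (nat_lit 3) (nat_lit 60) (nat_lit 59) (nat_lit 70))))))) (PT.nd (nat_lit 846) (PT.nd (nat_lit 376) (PT.nd (nat_lit 188) (PT.nd (nat_lit 94) (PT.lf (nat_lit 22260) (nat_lit 6) (nat_lit 265) (nat_lit 3) (nat_lit 61) (nat_lit 59) (nat_lit 69)) (PT.lf (nat_lit 22848) (nat_lit 6) (nat_lit 272) (nat_lit 3) (nat_lit 62) (nat_lit 59) (nat_lit 68))) (PT.nd (nat_lit 94) (PT.lf (nat_lit 23352) (nat_lit 6) (nat_lit 278) (nat_lit 3) (nat_lit 63) (nat_lit 59) (nat_lit 67)) (PT.lf (nat_lit 23436) (nat_lit 6) (nat_lit 279) (nat_lit 3) (nat_lit 64) (nat_lit 59) (nat_lit 66)))) (PT.nd (nat_lit 188)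 (PT.nd (nat_lit 94) (PT.lf (nat_lit 23520) (nat_lit 3) (nat_lit 280) (nat_lit 1) (nat_lit 65) (nat_lit 59) (nat_lit 65)) (PT.lf (nat_lit 23436) (nat_lit 6) (nat_lit 279) (nat_lit 1) (nat_lit 66) (nat_lit 59) (nat_lit 64))) (PT.nd (nat_lit 94) (PT.lf (nat_lit 23352) (nat_lit 6) (nat_lit 278) (nat_lit 1) (nat_lit 67) (nat_lit 59) (nat_lit 63)) (PT.nd (nat_lit 94) (PT.lf (nat_lit 22848) (nat_lit 6) (nat_lit 272) (nat_lit 1) (nat_lit 68) (nat_lit 59) (nat_lit 62)) (PT.lf (nat_lit 22260) (nat_lit 6) (nat_lit 265) (nat_lit 1) (nat_lit 69) (nat_lit 59) (nat_lit 61)))))) (PT.nd (nat_lit 376) (PT.nd (nat_lit 188) (PT.nd (nat_lit 94) (PT.lf (nat_lit 21588) (nat_lit 6) (nat_lit 257) (nat_lit 1) (nat_lit 70) (nat_lit 59) (nat_lit 60)) (PT.lf (nat_lit 20832) (nat_lit 3) (nat_lit 248) (nat_lit 0) (nat_lit 71) (nat_lit 59) (nat_lit 59))) (PT.nd (nat_lit 94) (PT.lf (nat_lit 20076) (nat_lit 6) (nat_lit 239) (nat_lit 0) (nat_lit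 72) (nat_lit 59) (nat_lit 58)) (PT.lf (nat_lit 19236) (nat_lit 6) (nat_lit 229) (nat_lit 0) (nat_lit 73) (nat_lit 59) (nat_lit 57)))) (PT.nd (nat_lit 188) (PT.nd (nat_lit 94) (PT.lf (nat_lit 18312) (nat_lit 6) (nat_lit 218) (nat_lit 0) (nat_lit 74) (nat_lit 59) (nat_lit 56)) (PT.lf (nat_lit 17304) (nat_lit 6) (nat_lit 206) (nat_lit 0) (nat_lit 75) (nat_lit 59) (nat_lit 55))) (PT.nd (nat_lit 94) (PT.lf (nat_lit 16212) (nat_lit 6) (nat_lit 193) (nat_lit 0) (nat_lit 76) (nat_lit 59) (nat_lit 54)) (PT.nd (nat_lit 56964) (PT.lf (nat_lit 15036) (nat_lit 6) (nat_lit 179) (nat_lit 0) (nat_lit 77) (nat_lit 59) (nat_lit 53)) (PT.lf (nat_lit 15120) (nat_lit 6) (nat_lit 180) (nat_lit 5) (nat_lit 52) (nat_lit 60) (nat_lit 77))))))))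
noncomputable def pc11 : PT := (PT.nd (nat_lit 1692) (PT.nd (nat_lit 846) (PT.nd (nat_lit 376) (PT.nd (nat_lit 188) (PT.nd (nat_lit 94) (PT.lf (nat_lit 16296) (nat_lit 6) (nat_lit 194) (nat_lit 5) (nat_lit 53) (nat_lit 60) (nat_lit 76)) (PT.lf (nat_lit 17388) (nat_lit 6) (nat_lit 207) (nat_lit 5) (nat_lit 54) (nat_lit 60) (nat_lit 75))) (PT.nd (nat_lit 94) (PT.lf (nat_lit 18396) (nat_lit 6) (nat_lit 219) (nat_lit 5) (nat_lit 55) (nat_lit 60) (nat_lit 74)) (PT.lf (nat_lit 19320) (nat_lit 6) (nat_lit 230) (nat_lit 5) (nat_lit 56) (nat_lit 60) (nat_lit 73)))) (PT.nd (nat_lit 188) (PT.nd (nat_lit 94) (PT.lf (nat_lit 20160) (nat_lit 6) (nat_lit 240) (nat_lit 5) (nat_lit 57) (nat_lit 60) (nat_lit 72)) (PT.lf (nat_lit 20916) (nat_lit 6) (nat_lit 249) (nat_lit 5) (nat_lit 58) (nat_lit 60) (nat_lit 71))) (PT.nd (nat_lit 94) (PT.lf (nat_lit 21588) (nat_lit 6) (nat_lit 257) (nat_lit 5) (nat_lit 59) (nat_lit 60) (nat_lit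 70)) (PT.nd (nat_lit 94) (PT.lf (nat_lit 22176) (nat_lit 3) (nat_lit 264) (nat_lit 3) (nat_lit 60) (nat_lit 60) (nat_lit 69)) (PT.lf (nat_lit 22764) (nat_lit 6) (nat_lit 271) (nat_lit 3) (nat_lit 61) (nat_lit 60) (nat_lit 68)))))) (PT.nd (nat_lit 376) (PT.nd (nat_lit 188) (PT.nd (nat_lit 94) (PT.lf (nat_lit 23268) (nat_lit 6) (nat_lit 277) (nat_lit 3) (nat_lit 62) (nat_lit 60) (nat_lit 67)) (PT.lf (nat_lit 23688) (nat_lit 6) (nat_lit 282) (nat_lit 3) (nat_lit 63) (nat_lit 60) (nat_lit 66))) (PT.nd (nat_lit 94) (PT.lf (nat_lit 23772) (nat_lit 6) (nat_lit 283) (nat_lit 3) (nat_lit 64) (nat_lit 60) (nat_lit 65)) (PT.lf (nat_lit 23772) (nat_lit 6) (nat_lit 283) (nat_lit 1) (nat_lit 65) (nat_lit 60) (nat_lit 64)))) (PT.nd (nat_lit 188) (PT.nd (nat_lit 94) (PT.lf (nat_lit 23688) (nat_lit 6) (nat_lit 282) (nat_lit 1) (nat_lit 66) (nat_lit 60) (nat_lit 63)) (PT.lf (nat_lit 23268) (nat_lit 6) (nat_lit 277) (nat_lit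 1) (nat_lit 67) (nat_lit 60) (nat_lit 62))) (PT.nd (nat_lit 94) (PT.lf (nat_lit 22764) (nat_lit 6) (nat_lit 271) (nat_lit 1) (nat_lit 68) (nat_lit 60) (nat_lit 61)) (PT.nd (nat_lit 94) (PT.lf (nat_lit 22176) (nat_lit 3) (nat_lit 264) (nat_lit 0) (nat_lit 69) (nat_lit 60) (nat_lit 60)) (PT.lf (nat_lit 21588) (nat_lit 6) (nat_lit 257) (nat_lit 0) (nat_lit 70) (nat_lit 60) (nat_lit 59))))))) (PT.nd (nat_lit 57622) (PT.nd (nat_lit 376) (PT.nd (nat_lit 188) (PT.nd (nat_lit 94) (PT.lf (nat_lit 20916) (nat_lit 6) (nat_lit 249) (nat_lit 0) (nat_lit 71) (nat_lit 60) (nat_lit 58)) (PT.lf (nat_lit 20160) (nat_lit 6) (nat_lit 240) (nat_lit 0) (nat_lit 72) (nat_lit 60) (nat_lit 57))) (PT.nd (nat_lit 94) (PT.lf (nat_lit 19320) (nat_lit 6) (nat_lit 230) (nat_lit 0) (nat_lit 73) (nat_lit 60) (nat_lit 56)) (PT.lf (nat_lit 18396) (nat_lit 6) (nat_lit 219) (nat_lit 0) (nat_lit 74) (nat_lit 60) (nat_lit 55)))) (PT.nd (nat_lit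 188) (PT.nd (nat_lit 94) (PT.lf (nat_lit 17388) (nat_lit 6) (nat_lit 207) (nat_lit 0) (nat_lit 75) (nat_lit 60) (nat_lit 54)) (PT.lf (nat_lit 16296) (nat_lit 6) (nat_lit 194) (nat_lit 0) (nat_lit 76) (nat_lit 60) (nat_lit 53))) (PT.nd (nat_lit 56870) (PT.lf (nat_lit 15120) (nat_lit 6) (nat_lit 180) (nat_lit 0) (nat_lit 77) (nat_lit 60) (nat_lit 52)) (PT.nd (nat_lit 94) (PT.lf (nat_lit 15204) (nat_lit 6) (nat_lit 181) (nat_lit 5) (nat_lit 51) (nat_lit 61) (nat_lit 77)) (PT.lf (nat_lit 16380) (nat_lit 6) (nat_lit 195) (nat_lit 5) (nat_lit 52) (nat_lit 61) (nat_lit 76)))))) (PT.nd (nat_lit 470) (PT.nd (nat_lit 188) (PT.nd (nat_lit 94) (PT.lf (nat_lit 17472) (nat_lit 6) (nat_lit 208) (nat_lit 5) (nat_lit 53) (nat_lit 61) (nat_lit 75)) (PT.lf (nat_lit 18480) (nat_lit 6) (nat_lit 220) (nat_lit 5) (nat_lit 54) (nat_lit 61) (nat_lit 74))) (PT.nd (nat_lit 94) (PT.lf (nat_lit 19404) (nat_lit 6) (nat_lit 231) (nat_lit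 5) (nat_lit 55) (nat_lit 61) (nat_lit 73)) (PT.nd (nat_lit 94) (PT.lf (nat_lit 20244) (nat_lit 6) (nat_lit 241) (nat_lit 5) (nat_lit 56) (nat_lit 61) (nat_lit 72)) (PT.lf (nat_lit 21000) (nat_lit 6) (nat_lit 250) (nat_lit 5) (nat_lit 57) (nat_lit 61) (nat_lit 71))))) (PT.nd (nat_lit 188) (PT.nd (nat_lit 94) (PT.lf (nat_lit 21672) (nat_lit 6) (nat_lit 258) (nat_lit 5) (nat_lit 58) (nat_lit 61) (nat_lit 70)) (PT.lf (nat_lit 22260) (nat_lit 6) (nat_lit 265) (nat_lit 5) (nat_lit 59) (nat_lit 61) (nat_lit 69))) (PT.nd (nat_lit 94) (PT.lf (nat_lit 22764) (nat_lit 6) (nat_lit 271) (nat_lit 5) (nat_lit 60) (nat_lit 61) (nat_lit 68)) (PT.nd (nat_lit 94) (PT.lf (nat_lit 23184) (nat_lit 3) (nat_lit 276) (nat_lit 3) (nat_lit 61) (nat_lit 61) (nat_lit 67)) (PT.lf (nat_lit 23604) (nat_lit 6) (nat_lit 281) (nat_lit 3) (nat_lit 62) (nat_lit 61) (nat_lit 66))))))))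
noncomputable def pc12 : PT := (PT.nd (nat_lit 58280) (PT.nd (nat_lit 846) (PT.nd (nat_lit 376) (PT.nd (nat_lit 188) (PT.nd (nat_lit 94) (PT.lf (nat_lit 23940) (nat_lit 6) (nat_lit 285) (nat_lit 3) (nat_lit 63) (nat_lit 61) (nat_lit 65)) (PT.lf (nat_lit 24024) (nat_lit 3) (nat_lit 286) (nat_lit 1) (nat_lit 64) (nat_lit 61) (nat_lit 64))) (PT.nd (nat_lit 94) (PT.lf (nat_lit 23940) (nat_lit 6) (nat_lit 285) (nat_lit 1) (nat_lit 65) (nat_lit 61) (nat_lit 63)) (PT.lf (nat_lit 23604) (nat_lit 6) (nat_lit 281) (nat_lit 1) (nat_lit 66) (nat_lit 61) (nat_lit 62)))) (PT.nd (nat_lit 188) (PT.nd (nat_lit 94) (PT.lf (nat_lit 23184) (nat_lit 3) (nat_lit 276) (nat_lit 0) (nat_lit 67) (nat_lit 61) (nat_lit 61)) (PT.lf (nat_lit 22764) (nat_lit 6) (nat_lit 271) (nat_lit 0) (nat_lit 68) (nat_lit 61) (nat_lit 60))) (PT.nd (nat_lit 94) (PT.lf (nat_lit 22260) (nat_lit 6) (nat_lit 265) (nat_lit 0) (nat_lit 69) (nat_lit 61) (nat_lit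 59)) (PT.nd (nat_lit 94) (PT.lf (nat_lit 21672) (nat_lit 6) (nat_lit 258) (nat_lit 0) (nat_lit 70) (nat_lit 61) (nat_lit 58)) (PT.lf (nat_lit 21000) (nat_lit 6) (nat_lit 250) (nat_lit 0) (nat_lit 71) (nat_lit 61) (nat_lit 57)))))) (PT.nd (nat_lit 376) (PT.nd (nat_lit 188) (PT.nd (nat_lit 94) (PT.lf (nat_lit 20244) (nat_lit 6) (nat_lit 241) (nat_lit 0) (nat_lit 72) (nat_lit 61) (nat_lit 56)) (PT.lf (nat_lit 19404) (nat_lit 6) (nat_lit 231) (nat_lit 0) (nat_lit 73) (nat_lit 61) (nat_lit 55))) (PT.nd (nat_lit 94) (PT.lf (nat_lit 18480) (nat_lit 6) (nat_lit 220) (nat_lit 0) (nat_lit 74) (nat_lit 61) (nat_lit 54)) (PT.lf (nat_lit 17472) (nat_lit 6) (nat_lit 208) (nat_lit 0) (nat_lit 75) (nat_lit 61) (nat_lit 53)))) (PT.nd (nat_lit 56776) (PT.nd (nat_lit 94) (PT.lf (nat_lit 16380) (nat_lit 6) (nat_lit 195) (nat_lit 0) (nat_lit 76) (nat_lit 61) (nat_lit 52)) (PT.lf (nat_lit 15204) (nat_lit 6) (nat_lit 181) (nat_lit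 0) (nat_lit 77) (nat_lit 61) (nat_lit 51))) (PT.nd (nat_lit 94) (PT.lf (nat_lit 14028) (nat_lit 6) (nat_lit 167) (nat_lit 5) (nat_lit 49) (nat_lit 62) (nat_lit 78)) (PT.nd (nat_lit 94) (PT.lf (nat_lit 15288) (nat_lit 6) (nat_lit 182) (nat_lit 5) (nat_lit 50) (nat_lit 62) (nat_lit 77)) (PT.lf (nat_lit 16464) (nat_lit 6) (nat_lit 196) (nat_lit 5) (nat_lit 51) (nat_lit 62) (nat_lit 76))))))) (PT.nd (nat_lit 846) (PT.nd (nat_lit 376) (PT.nd (nat_lit 188) (PT.nd (nat_lit 94) (PT.lf (nat_lit 17556) (nat_lit 6) (nat_lit 209) (nat_lit 5) (nat_lit 52) (nat_lit 62) (nat_lit 75)) (PT.lf (nat_lit 18564) (nat_lit 6) (nat_lit 221) (nat_lit 5) (nat_lit 53) (nat_lit 62) (nat_lit 74))) (PT.nd (nat_lit 94) (PT.lf (nat_lit 19488) (nat_lit 6) (nat_lit 232) (nat_lit 5) (nat_lit 54) (nat_lit 62) (nat_lit 73)) (PT.lf (nat_lit 20328) (nat_lit 6) (nat_lit 242) (nat_lit 5) (nat_lit 55) (nat_lit 62) (nat_lit 72)))) (PT.nd (nat_lit 188)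 (PT.nd (nat_lit 94) (PT.lf (nat_lit 21084) (nat_lit 6) (nat_lit 251) (nat_lit 5) (nat_lit 56) (nat_lit 62) (nat_lit 71)) (PT.lf (nat_lit 21756) (nat_lit 6) (nat_lit 259) (nat_lit 5) (nat_lit 57) (nat_lit 62) (nat_lit 70))) (PT.nd (nat_lit 94) (PT.lf (nat_lit 22344) (nat_lit 6) (nat_lit 266) (nat_lit 5) (nat_lit 58) (nat_lit 62) (nat_lit 69)) (PT.nd (nat_lit 94) (PT.lf (nat_lit 22848) (nat_lit 6) (nat_lit 272) (nat_lit 5) (nat_lit 59) (nat_lit 62) (nat_lit 68)) (PT.lf (nat_lit 23268) (nat_lit 6) (nat_lit 277) (nat_lit 5) (nat_lit 60) (nat_lit 62) (nat_lit 67)))))) (PT.nd (nat_lit 376) (PT.nd (nat_lit 188) (PT.nd (nat_lit 94) (PT.lf (nat_lit 23604) (nat_lit 6) (nat_lit 281) (nat_lit 5) (nat_lit 61) (nat_lit 62) (nat_lit 66)) (PT.lf (nat_lit 23856) (nat_lit 3) (nat_lit 284) (nat_lit 3) (nat_lit 62) (nat_lit 62) (nat_lit 65))) (PT.nd (nat_lit 94) (PT.lf (nat_lit 24108) (nat_lit 6) (nat_lit 287) (nat_lit 3) (nat_lit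 63) (nat_lit 62) (nat_lit 64)) (PT.lf (nat_lit 24108) (nat_lit 6) (nat_lit 287) (nat_lit 1) (nat_lit 64) (nat_lit 62) (nat_lit 63)))) (PT.nd (nat_lit 188) (PT.nd (nat_lit 94) (PT.lf (nat_lit 23856) (nat_lit 3) (nat_lit 284) (nat_lit 0) (nat_lit 65) (nat_lit 62) (nat_lit 62)) (PT.lf (nat_lit 23604) (nat_lit 6) (nat_lit 281) (nat_lit 0) (nat_lit 66) (nat_lit 62) (nat_lit 61))) (PT.nd (nat_lit 94) (PT.lf (nat_lit 23268) (nat_lit 6) (nat_lit 277) (nat_lit 0) (nat_lit 67) (nat_lit 62) (nat_lit 60)) (PT.nd (nat_lit 94) (PT.lf (nat_lit 22848) (nat_lit 6) (nat_lit 272) (nat_lit 0) (nat_lit 68) (nat_lit 62) (nat_lit 59)) (PT.lf (nat_lit 22344) (nat_lit 6) (nat_lit 266) (nat_lit 0) (nat_lit 69) (nat_lit 62) (nat_lit 58))))))))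
noncomputable def pc13 : PT := (PT.nd (nat_lit 58092) (PT.nd (nat_lit 57246) (PT.nd (nat_lit 376) (PT.nd (nat_lit 188) (PT.nd (nat_lit 94) (PT.lf (nat_lit 21756) (nat_lit 6) (nat_lit 259) (nat_lit 0) (nat_lit 70) (nat_lit 62) (nat_lit 57)) (PT.lf (nat_lit 21084) (nat_lit 6) (nat_lit 251) (nat_lit 0) (nat_lit 71) (nat_lit 62) (nat_lit 56))) (PT.nd (nat_lit 94) (PT.lf (nat_lit 20328) (nat_lit 6) (nat_lit 242) (nat_lit 0) (nat_lit 72) (nat_lit 62) (nat_lit 55)) (PT.lf (nat_lit 19488) (nat_lit 6) (nat_lit 232) (nat_lit 0) (nat_lit 73) (nat_lit 62) (nat_lit 54)))) (PT.nd (nat_lit 188) (PT.nd (nat_lit 94) (PT.lf (nat_lit 18564) (nat_lit 6) (nat_lit 221) (nat_lit 0) (nat_lit 74) (nat_lit 62) (nat_lit 53)) (PT.lf (nat_lit 17556) (nat_lit 6) (nat_lit 209) (nat_lit 0) (nat_lit 75) (nat_lit 62) (nat_lit 52))) (PT.nd (nat_lit 94) (PT.lf (nat_lit 16464) (nat_lit 6) (nat_lit 196) (nat_lit 0) (nat_lit 76) (nat_lit 62) (nat_lit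 51)) (PT.nd (nat_lit 94) (PT.lf (nat_lit 15288) (nat_lit 6) (nat_lit 182) (nat_lit 0) (nat_lit 77) (nat_lit 62) (nat_lit 50)) (PT.lf (nat_lit 14028) (nat_lit 6) (nat_lit 167) (nat_lit 0) (nat_lit 78) (nat_lit 62) (nat_lit 49)))))) (PT.nd (nat_lit 376) (PT.nd (nat_lit 188) (PT.nd (nat_lit 94) (PT.lf (nat_lit 14112) (nat_lit 6) (nat_lit 168) (nat_lit 5) (nat_lit 48) (nat_lit 63) (nat_lit 78)) (PT.lf (nat_lit 15372) (nat_lit 6) (nat_lit 183) (nat_lit 5) (nat_lit 49) (nat_lit 63) (nat_lit 77))) (PT.nd (nat_lit 94) (PT.lf (nat_lit 16548) (nat_lit 6) (nat_lit 197) (nat_lit 5) (nat_lit 50) (nat_lit 63) (nat_lit 76)) (PT.lf (nat_lit 17640) (nat_lit 6) (nat_lit 210) (nat_lit 5) (nat_lit 51) (nat_lit 63) (nat_lit 75)))) (PT.nd (nat_lit 188) (PT.nd (nat_lit 94) (PT.lf (nat_lit 18648) (nat_lit 6) (nat_lit 222) (nat_lit 5) (nat_lit 52) (nat_lit 63) (nat_lit 74)) (PT.lf (nat_lit 19572) (nat_lit 6) (nat_lit 233) (nat_lit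 5) (nat_lit 53) (nat_lit 63) (nat_lit 73))) (PT.nd (nat_lit 94) (PT.lf (nat_lit 20412) (nat_lit 6) (nat_lit 243) (nat_lit 5) (nat_lit 54) (nat_lit 63) (nat_lit 72)) (PT.nd (nat_lit 94) (PT.lf (nat_lit 21168) (nat_lit 6) (nat_lit 252) (nat_lit 5) (nat_lit 55) (nat_lit 63) (nat_lit 71)) (PT.lf (nat_lit 21840) (nat_lit 6) (nat_lit 260) (nat_lit 5) (nat_lit 56) (nat_lit 63) (nat_lit 70))))))) (PT.nd (nat_lit 846) (PT.nd (nat_lit 376) (PT.nd (nat_lit 188) (PT.nd (nat_lit 94) (PT.lf (nat_lit 22428) (nat_lit 6) (nat_lit 267) (nat_lit 5) (nat_lit 57) (nat_lit 63) (nat_lit 69)) (PT.lf (nat_lit 22932) (nat_lit 6) (nat_lit 273) (nat_lit 5) (nat_lit 58) (nat_lit 63) (nat_lit 68))) (PT.nd (nat_lit 94) (PT.lf (nat_lit 23352) (nat_lit 6) (nat_lit 278) (nat_lit 5) (nat_lit 59) (nat_lit 63) (nat_lit 67)) (PT.lf (nat_lit 23688) (nat_lit 6) (nat_lit 282) (nat_lit 5) (nat_lit 60) (nat_lit 63) (nat_lit 66)))) (PT.nd (nat_lit 188)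 (PT.nd (nat_lit 94) (PT.lf (nat_lit 23940) (nat_lit 6) (nat_lit 285) (nat_lit 5) (nat_lit 61) (nat_lit 63) (nat_lit 65)) (PT.lf (nat_lit 24108) (nat_lit 6) (nat_lit 287) (nat_lit 5) (nat_lit 62) (nat_lit 63) (nat_lit 64))) (PT.nd (nat_lit 94) (PT.lf (nat_lit 24192) (nat_lit 1) (nat_lit 288) (nat_lit 0) (nat_lit 63) (nat_lit 63) (nat_lit 63)) (PT.nd (nat_lit 94) (PT.lf (nat_lit 24108) (nat_lit 6) (nat_lit 287) (nat_lit 0) (nat_lit 64) (nat_lit 63) (nat_lit 62)) (PT.lf (nat_lit 23940) (nat_lit 6) (nat_lit 285) (nat_lit 0) (nat_lit 65) (nat_lit 63) (nat_lit 61)))))) (PT.nd (nat_lit 470) (PT.nd (nat_lit 188) (PT.nd (nat_lit 94) (PT.lf (nat_lit 23688) (nat_lit 6) (nat_lit 282) (nat_lit 0) (nat_lit 66) (nat_lit 63) (nat_lit 60)) (PT.lf (nat_lit 23352) (nat_lit 6) (nat_lit 278) (nat_lit 0) (nat_lit 67) (nat_lit 63) (nat_lit 59))) (PT.nd (nat_lit 94) (PT.lf (nat_lit 22932) (nat_lit 6) (nat_lit 273) (nat_lit 0) (nat_lit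 68) (nat_lit 63) (nat_lit 58)) (PT.nd (nat_lit 94) (PT.lf (nat_lit 22428) (nat_lit 6) (nat_lit 267) (nat_lit 0) (nat_lit 69) (nat_lit 63) (nat_lit 57)) (PT.lf (nat_lit 21840) (nat_lit 6) (nat_lit 260) (nat_lit 0) (nat_lit 70) (nat_lit 63) (nat_lit 56))))) (PT.nd (nat_lit 188) (PT.nd (nat_lit 94) (PT.lf (nat_lit 21168) (nat_lit 6) (nat_lit 252) (nat_lit 0) (nat_lit 71) (nat_lit 63) (nat_lit 55)) (PT.lf (nat_lit 20412) (nat_lit 6) (nat_lit 243) (nat_lit 0) (nat_lit 72) (nat_lit 63) (nat_lit 54))) (PT.nd (nat_lit 94) (PT.lf (nat_lit 19572) (nat_lit 6) (nat_lit 233) (nat_lit 0) (nat_lit 73) (nat_lit 63) (nat_lit 53)) (PT.nd (nat_lit 94) (PT.lf (nat_lit 18648) (nat_lit 6) (nat_lit 222) (nat_lit 0) (nat_lit 74) (nat_lit 63) (nat_lit 52)) (PT.lf (nat_lit 17640) (nat_lit 6) (nat_lit 210) (nat_lit 0) (nat_lit 75) (nat_lit 63) (nat_lit 51))))))))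
noncomputable def pc14 : PT := (PT.nd (nat_lit 57998) (PT.nd (nat_lit 57152) (PT.nd (nat_lit 56682) (PT.nd (nat_lit 188) (PT.nd (nat_lit 94) (PT.lf (nat_lit 16548) (nat_lit 6) (nat_lit 197) (nat_lit 0) (nat_lit 76) (nat_lit 63) (nat_lit 50)) (PT.lf (nat_lit 15372) (nat_lit 6) (nat_lit 183) (nat_lit 0) (nat_lit 77) (nat_lit 63) (nat_lit 49))) (PT.nd (nat_lit 56400) (PT.lf (nat_lit 14112) (nat_lit 6) (nat_lit 168) (nat_lit 0) (nat_lit 78) (nat_lit 63) (nat_lit 48)) (PT.lf (nat_lit 12852) (nat_lit 6) (nat_lit 153) (nat_lit 5) (nat_lit 47) (nat_lit 64) (nat_lit 78)))) (PT.nd (nat_lit 188) (PT.nd (nat_lit 94) (PT.lf (nat_lit 14196) (nat_lit 6) (nat_lit 169) (nat_lit 5) (nat_lit 48) (nat_lit 64) (nat_lit 77)) (PT.lf (nat_lit 15456) (nat_lit 6) (nat_lit 184) (nat_lit 5) (nat_lit 49) (nat_lit 64) (nat_lit 76))) (PT.nd (nat_lit 94) (PT.lf (nat_lit 16632) (nat_lit 6) (nat_lit 198) (nat_lit 5) (nat_lit 50) (nat_lit 64)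 (nat_lit 75)) (PT.nd (nat_lit 94) (PT.lf (nat_lit 17724) (nat_lit 6) (nat_lit 211) (nat_lit 5) (nat_lit 51) (nat_lit 64) (nat_lit 74)) (PT.lf (nat_lit 18732) (nat_lit 6) (nat_lit 223) (nat_lit 5) (nat_lit 52) (nat_lit 64) (nat_lit 73)))))) (PT.nd (nat_lit 376) (PT.nd (nat_lit 188) (PT.nd (nat_lit 94) (PT.lf (nat_lit 19656) (nat_lit 6) (nat_lit 234) (nat_lit 5) (nat_lit 53) (nat_lit 64) (nat_lit 72)) (PT.lf (nat_lit 20496) (nat_lit 6) (nat_lit 244) (nat_lit 5) (nat_lit 54) (nat_lit 64) (nat_lit 71))) (PT.nd (nat_lit 94) (PT.lf (nat_lit 21252) (nat_lit 6) (nat_lit 253) (nat_lit 5) (nat_lit 55) (nat_lit 64) (nat_lit 70)) (PT.lf (nat_lit 21924) (nat_lit 6) (nat_lit 261) (nat_lit 5) (nat_lit 56) (nat_lit 64) (nat_lit 69)))) (PT.nd (nat_lit 188) (PT.nd (nat_lit 94) (PT.lf (nat_lit 22512) (nat_lit 6) (nat_lit 268) (nat_lit 5) (nat_lit 57) (nat_lit 64) (nat_lit 68)) (PT.lf (nat_lit 23016) (nat_lit 6) (nat_lit 274)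 (nat_lit 5) (nat_lit 58) (nat_lit 64) (nat_lit 67))) (PT.nd (nat_lit 94) (PT.lf (nat_lit 23436) (nat_lit 6) (nat_lit 279) (nat_lit 5) (nat_lit 59) (nat_lit 64) (nat_lit 66)) (PT.nd (nat_lit 94) (PT.lf (nat_lit 23772) (nat_lit 6) (nat_lit 283) (nat_lit 5) (nat_lit 60) (nat_lit 64) (nat_lit 65)) (PT.lf (nat_lit 24024) (nat_lit 3) (nat_lit 286) (nat_lit 4) (nat_lit 61) (nat_lit 64) (nat_lit 64))))))) (PT.nd (nat_lit 846) (PT.nd (nat_lit 376) (PT.nd (nat_lit 188) (PT.nd (nat_lit 94) (PT.lf (nat_lit 24108) (nat_lit 6) (nat_lit 287) (nat_lit 4) (nat_lit 62) (nat_lit 64) (nat_lit 63)) (PT.lf (nat_lit 24108) (nat_lit 6) (nat_lit 287) (nat_lit 2) (nat_lit 63) (nat_lit 64) (nat_lit 62))) (PT.nd (nat_lit 94) (PT.lf (nat_lit 24024) (nat_lit 3) (nat_lit 286) (nat_lit 0) (nat_lit 64) (nat_lit 64) (nat_lit 61)) (PT.lf (nat_lit 23772) (nat_lit 6) (nat_lit 283) (nat_lit 0) (nat_lit 65) (nat_lit 64) (nat_lit 60)))) (PT.nd (nat_lit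 188) (PT.nd (nat_lit 94) (PT.lf (nat_lit 23436) (nat_lit 6) (nat_lit 279) (nat_lit 0) (nat_lit 66) (nat_lit 64) (nat_lit 59)) (PT.lf (nat_lit 23016) (nat_lit 6) (nat_lit 274) (nat_lit 0) (nat_lit 67) (nat_lit 64) (nat_lit 58))) (PT.nd (nat_lit 94) (PT.lf (nat_lit 22512) (nat_lit 6) (nat_lit 268) (nat_lit 0) (nat_lit 68) (nat_lit 64) (nat_lit 57)) (PT.nd (nat_lit 94) (PT.lf (nat_lit 21924) (nat_lit 6) (nat_lit 261) (nat_lit 0) (nat_lit 69) (nat_lit 64) (nat_lit 56)) (PT.lf (nat_lit 21252) (nat_lit 6) (nat_lit 253) (nat_lit 0) (nat_lit 70) (nat_lit 64) (nat_lit 55)))))) (PT.nd (nat_lit 470) (PT.nd (nat_lit 188) (PT.nd (nat_lit 94) (PT.lf (nat_lit 20496) (nat_lit 6) (nat_lit 244) (nat_lit 0) (nat_lit 71) (nat_lit 64) (nat_lit 54)) (PT.lf (nat_lit 19656) (nat_lit 6) (nat_lit 234) (nat_lit 0) (nat_lit 72) (nat_lit 64) (nat_lit 53))) (PT.nd (nat_lit 94) (PT.lf (nat_lit 18732) (nat_lit 6) (nat_lit 223) (nat_lit 0)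 (nat_lit 73) (nat_lit 64) (nat_lit 52)) (PT.nd (nat_lit 94) (PT.lf (nat_lit 17724) (nat_lit 6) (nat_lit 211) (nat_lit 0) (nat_lit 74) (nat_lit 64) (nat_lit 51)) (PT.lf (nat_lit 16632) (nat_lit 6) (nat_lit 198) (nat_lit 0) (nat_lit 75) (nat_lit 64) (nat_lit 50))))) (PT.nd (nat_lit 188) (PT.nd (nat_lit 94) (PT.lf (nat_lit 15456) (nat_lit 6) (nat_lit 184) (nat_lit 0) (nat_lit 76) (nat_lit 64) (nat_lit 49)) (PT.lf (nat_lit 14196) (nat_lit 6) (nat_lit 169) (nat_lit 0) (nat_lit 77) (nat_lit 64) (nat_lit 48))) (PT.nd (nat_lit 56306) (PT.lf (nat_lit 12852) (nat_lit 6) (nat_lit 153) (nat_lit 0) (nat_lit 78) (nat_lit 64) (nat_lit 47)) (PT.nd (nat_lit 94) (PT.lf (nat_lit 12264) (nat_lit 6) (nat_lit 146) (nat_lit 5) (nat_lit 46) (nat_lit 65) (nat_lit 78)) (PT.lf (nat_lit 12936) (nat_lit 6) (nat_lit 154) (nat_lit 5) (nat_lit 47) (nat_lit 65) (nat_lit 77))))))))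
noncomputable def pc15 : PT := (PT.nd (nat_lit 1692) (PT.nd (nat_lit 846) (PT.nd (nat_lit 376) (PT.nd (nat_lit 188) (PT.nd (nat_lit 94) (PT.lf (nat_lit 14280) (nat_lit 6) (nat_lit 170) (nat_lit 5) (nat_lit 48) (nat_lit 65) (nat_lit 76)) (PT.lf (nat_lit 15540) (nat_lit 6) (nat_lit 185) (nat_lit 5) (nat_lit 49) (nat_lit 65) (nat_lit 75))) (PT.nd (nat_lit 94) (PT.lf (nat_lit 16716) (nat_lit 6) (nat_lit 199) (nat_lit 5) (nat_lit 50) (nat_lit 65) (nat_lit 74)) (PT.lf (nat_lit 17808) (nat_lit 6) (nat_lit 212) (nat_lit 5) (nat_lit 51) (nat_lit 65) (nat_lit 73)))) (PT.nd (nat_lit 188) (PT.nd (nat_lit 94) (PT.lf (nat_lit 18816) (nat_lit 6) (nat_lit 224) (nat_lit 5) (nat_lit 52) (nat_lit 65) (nat_lit 72)) (PT.lf (nat_lit 19740) (nat_lit 6) (nat_lit 235) (nat_lit 5) (nat_lit 53) (nat_lit 65) (nat_lit 71))) (PT.nd (nat_lit 94) (PT.lf (nat_lit 20580) (nat_lit 6) (nat_lit 245) (nat_lit 5) (nat_lit 54) (nat_lit 65) (nat_lit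 70)) (PT.nd (nat_lit 94) (PT.lf (nat_lit 21336) (nat_lit 6) (nat_lit 254) (nat_lit 5) (nat_lit 55) (nat_lit 65) (nat_lit 69)) (PT.lf (nat_lit 22008) (nat_lit 6) (nat_lit 262) (nat_lit 5) (nat_lit 56) (nat_lit 65) (nat_lit 68)))))) (PT.nd (nat_lit 376) (PT.nd (nat_lit 188) (PT.nd (nat_lit 94) (PT.lf (nat_lit 22596) (nat_lit 6) (nat_lit 269) (nat_lit 5) (nat_lit 57) (nat_lit 65) (nat_lit 67)) (PT.lf (nat_lit 23100) (nat_lit 6) (nat_lit 275) (nat_lit 5) (nat_lit 58) (nat_lit 65) (nat_lit 66))) (PT.nd (nat_lit 94) (PT.lf (nat_lit 23520) (nat_lit 3) (nat_lit 280) (nat_lit 4) (nat_lit 59) (nat_lit 65) (nat_lit 65)) (PT.lf (nat_lit 23772) (nat_lit 6) (nat_lit 283) (nat_lit 4) (nat_lit 60) (nat_lit 65) (nat_lit 64)))) (PT.nd (nat_lit 188) (PT.nd (nat_lit 94) (PT.lf (nat_lit 23940) (nat_lit 6) (nat_lit 285) (nat_lit 4) (nat_lit 61) (nat_lit 65) (nat_lit 63)) (PT.lf (nat_lit 23856) (nat_lit 3) (nat_lit 284) (nat_lit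 2) (nat_lit 62) (nat_lit 65) (nat_lit 62))) (PT.nd (nat_lit 94) (PT.lf (nat_lit 23940) (nat_lit 6) (nat_lit 285) (nat_lit 2) (nat_lit 63) (nat_lit 65) (nat_lit 61)) (PT.nd (nat_lit 94) (PT.lf (nat_lit 23772) (nat_lit 6) (nat_lit 283) (nat_lit 2) (nat_lit 64) (nat_lit 65) (nat_lit 60)) (PT.lf (nat_lit 23520) (nat_lit 3) (nat_lit 280) (nat_lit 0) (nat_lit 65) (nat_lit 65) (nat_lit 59))))))) (PT.nd (nat_lit 846) (PT.nd (nat_lit 376) (PT.nd (nat_lit 188) (PT.nd (nat_lit 94) (PT.lf (nat_lit 23100) (nat_lit 6) (nat_lit 275) (nat_lit 0) (nat_lit 66) (nat_lit 65) (nat_lit 58)) (PT.lf (nat_lit 22596) (nat_lit 6) (nat_lit 269) (nat_lit 0) (nat_lit 67) (nat_lit 65) (nat_lit 57))) (PT.nd (nat_lit 94) (PT.lf (nat_lit 22008) (nat_lit 6) (nat_lit 262) (nat_lit 0) (nat_lit 68) (nat_lit 65) (nat_lit 56)) (PT.lf (nat_lit 21336) (nat_lit 6) (nat_lit 254) (nat_lit 0) (nat_lit 69) (nat_lit 65) (nat_lit 55)))) (PT.nd (nat_lit 188)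 (PT.nd (nat_lit 94) (PT.lf (nat_lit 20580) (nat_lit 6) (nat_lit 245) (nat_lit 0) (nat_lit 70) (nat_lit 65) (nat_lit 54)) (PT.lf (nat_lit 19740) (nat_lit 6) (nat_lit 235) (nat_lit 0) (nat_lit 71) (nat_lit 65) (nat_lit 53))) (PT.nd (nat_lit 94) (PT.lf (nat_lit 18816) (nat_lit 6) (nat_lit 224) (nat_lit 0) (nat_lit 72) (nat_lit 65) (nat_lit 52)) (PT.nd (nat_lit 94) (PT.lf (nat_lit 17808) (nat_lit 6) (nat_lit 212) (nat_lit 0) (nat_lit 73) (nat_lit 65) (nat_lit 51)) (PT.lf (nat_lit 16716) (nat_lit 6) (nat_lit 199) (nat_lit 0) (nat_lit 74) (nat_lit 65) (nat_lit 50)))))) (PT.nd (nat_lit 56588) (PT.nd (nat_lit 188) (PT.nd (nat_lit 94) (PT.lf (nat_lit 15540) (nat_lit 6) (nat_lit 185) (nat_lit 0) (nat_lit 75) (nat_lit 65) (nat_lit 49)) (PT.lf (nat_lit 14280) (nat_lit 6) (nat_lit 170) (nat_lit 0) (nat_lit 76) (nat_lit 65) (nat_lit 48))) (PT.nd (nat_lit 94) (PT.lf (nat_lit 12936) (nat_lit 6) (nat_lit 154) (nat_lit 0) (nat_lit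 77) (nat_lit 65) (nat_lit 47)) (PT.nd (nat_lit 56212) (PT.lf (nat_lit 12264) (nat_lit 6) (nat_lit 146) (nat_lit 0) (nat_lit 78) (nat_lit 65) (nat_lit 46)) (PT.lf (nat_lit 11676) (nat_lit 6) (nat_lit 139) (nat_lit 5) (nat_lit 45) (nat_lit 66) (nat_lit 78))))) (PT.nd (nat_lit 188) (PT.nd (nat_lit 94) (PT.lf (nat_lit 12348) (nat_lit 6) (nat_lit 147) (nat_lit 5) (nat_lit 46) (nat_lit 66) (nat_lit 77)) (PT.lf (nat_lit 13020) (nat_lit 6) (nat_lit 155) (nat_lit 5) (nat_lit 47) (nat_lit 66) (nat_lit 76))) (PT.nd (nat_lit 94) (PT.lf (nat_lit 14364) (nat_lit 6) (nat_lit 171) (nat_lit 5) (nat_lit 48) (nat_lit 66) (nat_lit 75)) (PT.nd (nat_lit 94) (PT.lf (nat_lit 15624) (nat_lit 6) (nat_lit 186) (nat_lit 5) (nat_lit 49) (nat_lit 66) (nat_lit 74)) (PT.lf (nat_lit 16800) (nat_lit 6) (nat_lit 200) (nat_lit 5) (nat_lit 50) (nat_lit 66) (nat_lit 73))))))))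
noncomputable def pc16 : PT := (PT.nd (nat_lit 1692) (PT.nd (nat_lit 846) (PT.nd (nat_lit 376) (PT.nd (nat_lit 188) (PT.nd (nat_lit 94) (PT.lf (nat_lit 17892) (nat_lit 6) (nat_lit 213) (nat_lit 5) (nat_lit 51) (nat_lit 66) (nat_lit 72)) (PT.lf (nat_lit 18900) (nat_lit 6) (nat_lit 225) (nat_lit 5) (nat_lit 52) (nat_lit 66) (nat_lit 71))) (PT.nd (nat_lit 94) (PT.lf (nat_lit 19824) (nat_lit 6) (nat_lit 236) (nat_lit 5) (nat_lit 53) (nat_lit 66) (nat_lit 70)) (PT.lf (nat_lit 20664) (nat_lit 6) (nat_lit 246) (nat_lit 5) (nat_lit 54) (nat_lit 66) (nat_lit 69)))) (PT.nd (nat_lit 188) (PT.nd (nat_lit 94) (PT.lf (nat_lit 21420) (nat_lit 6) (nat_lit 255) (nat_lit 5) (nat_lit 55) (nat_lit 66) (nat_lit 68)) (PT.lf (nat_lit 22092) (nat_lit 6) (nat_lit 263) (nat_lit 5) (nat_lit 56) (nat_lit 66) (nat_lit 67))) (PT.nd (nat_lit 94) (PT.lf (nat_lit 22680) (nat_lit 3) (nat_lit 270) (nat_lit 4) (nat_lit 57) (nat_lit 66) (nat_lit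 66)) (PT.nd (nat_lit 94) (PT.lf (nat_lit 23100) (nat_lit 6) (nat_lit 275) (nat_lit 4) (nat_lit 58) (nat_lit 66) (nat_lit 65)) (PT.lf (nat_lit 23436) (nat_lit 6) (nat_lit 279) (nat_lit 4) (nat_lit 59) (nat_lit 66) (nat_lit 64)))))) (PT.nd (nat_lit 376) (PT.nd (nat_lit 188) (PT.nd (nat_lit 94) (PT.lf (nat_lit 23688) (nat_lit 6) (nat_lit 282) (nat_lit 4) (nat_lit 60) (nat_lit 66) (nat_lit 63)) (PT.lf (nat_lit 23604) (nat_lit 6) (nat_lit 281) (nat_lit 4) (nat_lit 61) (nat_lit 66) (nat_lit 62))) (PT.nd (nat_lit 94) (PT.lf (nat_lit 23604) (nat_lit 6) (nat_lit 281) (nat_lit 2) (nat_lit 62) (nat_lit 66) (nat_lit 61)) (PT.lf (nat_lit 23688) (nat_lit 6) (nat_lit 282) (nat_lit 2) (nat_lit 63) (nat_lit 66) (nat_lit 60)))) (PT.nd (nat_lit 188) (PT.nd (nat_lit 94) (PT.lf (nat_lit 23436) (nat_lit 6) (nat_lit 279) (nat_lit 2) (nat_lit 64) (nat_lit 66) (nat_lit 59)) (PT.lf (nat_lit 23100) (nat_lit 6) (nat_lit 275) (nat_lit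 2) (nat_lit 65) (nat_lit 66) (nat_lit 58))) (PT.nd (nat_lit 94) (PT.lf (nat_lit 22680) (nat_lit 3) (nat_lit 270) (nat_lit 0) (nat_lit 66) (nat_lit 66) (nat_lit 57)) (PT.nd (nat_lit 94) (PT.lf (nat_lit 22092) (nat_lit 6) (nat_lit 263) (nat_lit 0) (nat_lit 67) (nat_lit 66) (nat_lit 56)) (PT.lf (nat_lit 21420) (nat_lit 6) (nat_lit 255) (nat_lit 0) (nat_lit 68) (nat_lit 66) (nat_lit 55))))))) (PT.nd (nat_lit 846) (PT.nd (nat_lit 376) (PT.nd (nat_lit 188) (PT.nd (nat_lit 94) (PT.lf (nat_lit 20664) (nat_lit 6) (nat_lit 246) (nat_lit 0) (nat_lit 69) (nat_lit 66) (nat_lit 54)) (PT.lf (nat_lit 19824) (nat_lit 6) (nat_lit 236) (nat_lit 0) (nat_lit 70) (nat_lit 66) (nat_lit 53))) (PT.nd (nat_lit 94) (PT.lf (nat_lit 18900) (nat_lit 6) (nat_lit 225) (nat_lit 0) (nat_lit 71) (nat_lit 66) (nat_lit 52)) (PT.lf (nat_lit 17892) (nat_lit 6) (nat_lit 213) (nat_lit 0) (nat_lit 72) (nat_lit 66) (nat_lit 51)))) (PT.nd (nat_lit 188)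 (PT.nd (nat_lit 94) (PT.lf (nat_lit 16800) (nat_lit 6) (nat_lit 200) (nat_lit 0) (nat_lit 73) (nat_lit 66) (nat_lit 50)) (PT.lf (nat_lit 15624) (nat_lit 6) (nat_lit 186) (nat_lit 0) (nat_lit 74) (nat_lit 66) (nat_lit 49))) (PT.nd (nat_lit 94) (PT.lf (nat_lit 14364) (nat_lit 6) (nat_lit 171) (nat_lit 0) (nat_lit 75) (nat_lit 66) (nat_lit 48)) (PT.nd (nat_lit 94) (PT.lf (nat_lit 13020) (nat_lit 6) (nat_lit 155) (nat_lit 0) (nat_lit 76) (nat_lit 66) (nat_lit 47)) (PT.lf (nat_lit 12348) (nat_lit 6) (nat_lit 147) (nat_lit 0) (nat_lit 77) (nat_lit 66) (nat_lit 46)))))) (PT.nd (nat_lit 56400) (PT.nd (nat_lit 56212) (PT.nd (nat_lit 56118) (PT.lf (nat_lit 11676) (nat_lit 6) (nat_lit 139) (nat_lit 0) (nat_lit 78) (nat_lit 66) (nat_lit 45)) (PT.lf (nat_lit 11088) (nat_lit 6) (nat_lit 132) (nat_lit 5) (nat_lit 44) (nat_lit 67) (nat_lit 78))) (PT.nd (nat_lit 94) (PT.lf (nat_lit 11760) (nat_lit 6) (nat_lit 140) (nat_lit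 5) (nat_lit 45) (nat_lit 67) (nat_lit 77)) (PT.lf (nat_lit 12432) (nat_lit 6) (nat_lit 148) (nat_lit 5) (nat_lit 46) (nat_lit 67) (nat_lit 76)))) (PT.nd (nat_lit 188) (PT.nd (nat_lit 94) (PT.lf (nat_lit 13104) (nat_lit 6) (nat_lit 156) (nat_lit 5) (nat_lit 47) (nat_lit 67) (nat_lit 75)) (PT.lf (nat_lit 14448) (nat_lit 6) (nat_lit 172) (nat_lit 5) (nat_lit 48) (nat_lit 67) (nat_lit 74))) (PT.nd (nat_lit 94) (PT.lf (nat_lit 15708) (nat_lit 6) (nat_lit 187) (nat_lit 5) (nat_lit 49) (nat_lit 67) (nat_lit 73)) (PT.nd (nat_lit 94) (PT.lf (nat_lit 16884) (nat_lit 6) (nat_lit 201) (nat_lit 5) (nat_lit 50) (nat_lit 67) (nat_lit 72)) (PT.lf (nat_lit 17976) (nat_lit 6) (nat_lit 214) (nat_lit 5) (nat_lit 51) (nat_lit 67) (nat_lit 71))))))))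
noncomputable def pc17 : PT := (PT.nd (nat_lit 1692) (PT.nd (nat_lit 846) (PT.nd (nat_lit 376) (PT.nd (nat_lit 188) (PT.nd (nat_lit 94) (PT.lf (nat_lit 18984) (nat_lit 6) (nat_lit 226) (nat_lit 5) (nat_lit 52) (nat_lit 67) (nat_lit 70)) (PT.lf (nat_lit 19908) (nat_lit 6) (nat_lit 237) (nat_lit 5) (nat_lit 53) (nat_lit 67) (nat_lit 69))) (PT.nd (nat_lit 94) (PT.lf (nat_lit 20748) (nat_lit 6) (nat_lit 247) (nat_lit 5) (nat_lit 54) (nat_lit 67) (nat_lit 68)) (PT.lf (nat_lit 21504) (nat_lit 3) (nat_lit 256) (nat_lit 4) (nat_lit 55) (nat_lit 67) (nat_lit 67)))) (PT.nd (nat_lit 188) (PT.nd (nat_lit 94) (PT.lf (nat_lit 22092) (nat_lit 6) (nat_lit 263) (nat_lit 4) (nat_lit 56) (nat_lit 67) (nat_lit 66)) (PT.lf (nat_lit 22596) (nat_lit 6) (nat_lit 269) (nat_lit 4) (nat_lit 57) (nat_lit 67) (nat_lit 65))) (PT.nd (nat_lit 94) (PT.lf (nat_lit 23016) (nat_lit 6) (nat_lit 274) (nat_lit 4) (nat_lit 58) (nat_lit 67) (nat_lit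 64)) (PT.nd (nat_lit 94) (PT.lf (nat_lit 23352) (nat_lit 6) (nat_lit 278) (nat_lit 4) (nat_lit 59) (nat_lit 67) (nat_lit 63)) (PT.lf (nat_lit 23268) (nat_lit 6) (nat_lit 277) (nat_lit 4) (nat_lit 60) (nat_lit 67) (nat_lit 62)))))) (PT.nd (nat_lit 376) (PT.nd (nat_lit 188) (PT.nd (nat_lit 94) (PT.lf (nat_lit 23184) (nat_lit 3) (nat_lit 276) (nat_lit 2) (nat_lit 61) (nat_lit 67) (nat_lit 61)) (PT.lf (nat_lit 23268) (nat_lit 6) (nat_lit 277) (nat_lit 2) (nat_lit 62) (nat_lit 67) (nat_lit 60))) (PT.nd (nat_lit 94) (PT.lf (nat_lit 23352) (nat_lit 6) (nat_lit 278) (nat_lit 2) (nat_lit 63) (nat_lit 67) (nat_lit 59)) (PT.lf (nat_lit 23016) (nat_lit 6) (nat_lit 274) (nat_lit 2) (nat_lit 64) (nat_lit 67) (nat_lit 58)))) (PT.nd (nat_lit 188) (PT.nd (nat_lit 94) (PT.lf (nat_lit 22596) (nat_lit 6) (nat_lit 269) (nat_lit 2) (nat_lit 65) (nat_lit 67) (nat_lit 57)) (PT.lf (nat_lit 22092) (nat_lit 6) (nat_lit 263) (nat_lit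 2) (nat_lit 66) (nat_lit 67) (nat_lit 56))) (PT.nd (nat_lit 94) (PT.lf (nat_lit 21504) (nat_lit 3) (nat_lit 256) (nat_lit 0) (nat_lit 67) (nat_lit 67) (nat_lit 55)) (PT.nd (nat_lit 94) (PT.lf (nat_lit 20748) (nat_lit 6) (nat_lit 247) (nat_lit 0) (nat_lit 68) (nat_lit 67) (nat_lit 54)) (PT.lf (nat_lit 19908) (nat_lit 6) (nat_lit 237) (nat_lit 0) (nat_lit 69) (nat_lit 67) (nat_lit 53))))))) (PT.nd (nat_lit 56682) (PT.nd (nat_lit 376) (PT.nd (nat_lit 188) (PT.nd (nat_lit 94) (PT.lf (nat_lit 18984) (nat_lit 6) (nat_lit 226) (nat_lit 0) (nat_lit 70) (nat_lit 67) (nat_lit 52)) (PT.lf (nat_lit 17976) (nat_lit 6) (nat_lit 214) (nat_lit 0) (nat_lit 71) (nat_lit 67) (nat_lit 51))) (PT.nd (nat_lit 94) (PT.lf (nat_lit 16884) (nat_lit 6) (nat_lit 201) (nat_lit 0) (nat_lit 72) (nat_lit 67) (nat_lit 50)) (PT.lf (nat_lit 15708) (nat_lit 6) (nat_lit 187) (nat_lit 0) (nat_lit 73) (nat_lit 67) (nat_lit 49)))) (PT.nd (nat_lit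 188) (PT.nd (nat_lit 94) (PT.lf (nat_lit 14448) (nat_lit 6) (nat_lit 172) (nat_lit 0) (nat_lit 74) (nat_lit 67) (nat_lit 48)) (PT.lf (nat_lit 13104) (nat_lit 6) (nat_lit 156) (nat_lit 0) (nat_lit 75) (nat_lit 67) (nat_lit 47))) (PT.nd (nat_lit 94) (PT.lf (nat_lit 12432) (nat_lit 6) (nat_lit 148) (nat_lit 0) (nat_lit 76) (nat_lit 67) (nat_lit 46)) (PT.nd (nat_lit 94) (PT.lf (nat_lit 11760) (nat_lit 6) (nat_lit 140) (nat_lit 0) (nat_lit 77) (nat_lit 67) (nat_lit 45)) (PT.lf (nat_lit 11088) (nat_lit 6) (nat_lit 132) (nat_lit 0) (nat_lit 78) (nat_lit 67) (nat_lit 44)))))) (PT.nd (nat_lit 470) (PT.nd (nat_lit 188) (PT.nd (nat_lit 94) (PT.lf (nat_lit 9912) (nat_lit 6) (nat_lit 118) (nat_lit 5) (nat_lit 42) (nat_lit 68) (nat_lit 79)) (PT.lf (nat_lit 10500) (nat_lit 6) (nat_lit 125) (nat_lit 5) (nat_lit 43) (nat_lit 68) (nat_lit 78))) (PT.nd (nat_lit 94) (PT.lf (nat_lit 11172) (nat_lit 6) (nat_lit 133) (nat_lit 5)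 (nat_lit 44) (nat_lit 68) (nat_lit 77)) (PT.nd (nat_lit 94) (PT.lf (nat_lit 11844) (nat_lit 6) (nat_lit 141) (nat_lit 5) (nat_lit 45) (nat_lit 68) (nat_lit 76)) (PT.lf (nat_lit 12516) (nat_lit 6) (nat_lit 149) (nat_lit 5) (nat_lit 46) (nat_lit 68) (nat_lit 75))))) (PT.nd (nat_lit 188) (PT.nd (nat_lit 94) (PT.lf (nat_lit 13188) (nat_lit 6) (nat_lit 157) (nat_lit 5) (nat_lit 47) (nat_lit 68) (nat_lit 74)) (PT.lf (nat_lit 14532) (nat_lit 6) (nat_lit 173) (nat_lit 5) (nat_lit 48) (nat_lit 68) (nat_lit 73))) (PT.nd (nat_lit 94) (PT.lf (nat_lit 15792) (nat_lit 6) (nat_lit 188) (nat_lit 5) (nat_lit 49) (nat_lit 68) (nat_lit 72)) (PT.nd (nat_lit 94) (PT.lf (nat_lit 16968) (nat_lit 6) (nat_lit 202) (nat_lit 5) (nat_lit 50) (nat_lit 68) (nat_lit 71)) (PT.lf (nat_lit 18060) (nat_lit 6) (nat_lit 215) (nat_lit 5) (nat_lit 51) (nat_lit 68) (nat_lit 70))))))))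
noncomputable def pc18 : PT := (PT.nd (nat_lit 1692) (PT.nd (nat_lit 846) (PT.nd (nat_lit 376) (PT.nd (nat_lit 188) (PT.nd (nat_lit 94) (PT.lf (nat_lit 19068) (nat_lit 6) (nat_lit 227) (nat_lit 5) (nat_lit 52) (nat_lit 68) (nat_lit 69)) (PT.lf (nat_lit 19992) (nat_lit 3) (nat_lit 238) (nat_lit 4) (nat_lit 53) (nat_lit 68) (nat_lit 68))) (PT.nd (nat_lit 94) (PT.lf (nat_lit 20748) (nat_lit 6) (nat_lit 247) (nat_lit 4) (nat_lit 54) (nat_lit 68) (nat_lit 67)) (PT.lf (nat_lit 21420) (nat_lit 6) (nat_lit 255) (nat_lit 4) (nat_lit 55) (nat_lit 68) (nat_lit 66)))) (PT.nd (nat_lit 188) (PT.nd (nat_lit 94) (PT.lf (nat_lit 22008) (nat_lit 6) (nat_lit 262) (nat_lit 4) (nat_lit 56) (nat_lit 68) (nat_lit 65)) (PT.lf (nat_lit 22512) (nat_lit 6) (nat_lit 268) (nat_lit 4) (nat_lit 57) (nat_lit 68) (nat_lit 64))) (PT.nd (nat_lit 94) (PT.lf (nat_lit 22932) (nat_lit 6) (nat_lit 273) (nat_lit 4) (nat_lit 58) (nat_lit 68) (nat_lit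 63)) (PT.nd (nat_lit 94) (PT.lf (nat_lit 22848) (nat_lit 6) (nat_lit 272) (nat_lit 4) (nat_lit 59) (nat_lit 68) (nat_lit 62)) (PT.lf (nat_lit 22764) (nat_lit 6) (nat_lit 271) (nat_lit 4) (nat_lit 60) (nat_lit 68) (nat_lit 61)))))) (PT.nd (nat_lit 376) (PT.nd (nat_lit 188) (PT.nd (nat_lit 94) (PT.lf (nat_lit 22764) (nat_lit 6) (nat_lit 271) (nat_lit 2) (nat_lit 61) (nat_lit 68) (nat_lit 60)) (PT.lf (nat_lit 22848) (nat_lit 6) (nat_lit 272) (nat_lit 2) (nat_lit 62) (nat_lit 68) (nat_lit 59))) (PT.nd (nat_lit 94) (PT.lf (nat_lit 22932) (nat_lit 6) (nat_lit 273) (nat_lit 2) (nat_lit 63) (nat_lit 68) (nat_lit 58)) (PT.lf (nat_lit 22512) (nat_lit 6) (nat_lit 268) (nat_lit 2) (nat_lit 64) (nat_lit 68) (nat_lit 57)))) (PT.nd (nat_lit 188) (PT.nd (nat_lit 94) (PT.lf (nat_lit 22008) (nat_lit 6) (nat_lit 262) (nat_lit 2) (nat_lit 65) (nat_lit 68) (nat_lit 56)) (PT.lf (nat_lit 21420) (nat_lit 6) (nat_lit 255) (nat_lit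 2) (nat_lit 66) (nat_lit 68) (nat_lit 55))) (PT.nd (nat_lit 94) (PT.lf (nat_lit 20748) (nat_lit 6) (nat_lit 247) (nat_lit 2) (nat_lit 67) (nat_lit 68) (nat_lit 54)) (PT.nd (nat_lit 94) (PT.lf (nat_lit 19992) (nat_lit 3) (nat_lit 238) (nat_lit 0) (nat_lit 68) (nat_lit 68) (nat_lit 53)) (PT.lf (nat_lit 19068) (nat_lit 6) (nat_lit 227) (nat_lit 0) (nat_lit 69) (nat_lit 68) (nat_lit 52))))))) (PT.nd (nat_lit 846) (PT.nd (nat_lit 376) (PT.nd (nat_lit 188) (PT.nd (nat_lit 94) (PT.lf (nat_lit 18060) (nat_lit 6) (nat_lit 215) (nat_lit 0) (nat_lit 70) (nat_lit 68) (nat_lit 51)) (PT.lf (nat_lit 16968) (nat_lit 6) (nat_lit 202) (nat_lit 0) (nat_lit 71) (nat_lit 68) (nat_lit 50))) (PT.nd (nat_lit 94) (PT.lf (nat_lit 15792) (nat_lit 6) (nat_lit 188) (nat_lit 0) (nat_lit 72) (nat_lit 68) (nat_lit 49)) (PT.lf (nat_lit 14532) (nat_lit 6) (nat_lit 173) (nat_lit 0) (nat_lit 73) (nat_lit 68) (nat_lit 48)))) (PT.nd (nat_lit 188)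 (PT.nd (nat_lit 94) (PT.lf (nat_lit 13188) (nat_lit 6) (nat_lit 157) (nat_lit 0) (nat_lit 74) (nat_lit 68) (nat_lit 47)) (PT.lf (nat_lit 12516) (nat_lit 6) (nat_lit 149) (nat_lit 0) (nat_lit 75) (nat_lit 68) (nat_lit 46))) (PT.nd (nat_lit 94) (PT.lf (nat_lit 11844) (nat_lit 6) (nat_lit 141) (nat_lit 0) (nat_lit 76) (nat_lit 68) (nat_lit 45)) (PT.nd (nat_lit 94) (PT.lf (nat_lit 11172) (nat_lit 6) (nat_lit 133) (nat_lit 0) (nat_lit 77) (nat_lit 68) (nat_lit 44)) (PT.lf (nat_lit 10500) (nat_lit 6) (nat_lit 125) (nat_lit 0) (nat_lit 78) (nat_lit 68) (nat_lit 43)))))) (PT.nd (nat_lit 56024) (PT.nd (nat_lit 55836) (PT.nd (nat_lit 55742) (PT.lf (nat_lit 9912) (nat_lit 6) (nat_lit 118) (nat_lit 0) (nat_lit 79) (nat_lit 68) (nat_lit 42)) (PT.lf (nat_lit 9408) (nat_lit 6) (nat_lit 112) (nat_lit 5) (nat_lit 41) (nat_lit 69) (nat_lit 79))) (PT.nd (nat_lit 94) (PT.lf (nat_lit 9996) (nat_lit 6) (nat_lit 119) (nat_lit 5)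 (nat_lit 42) (nat_lit 69) (nat_lit 78)) (PT.lf (nat_lit 10584) (nat_lit 6) (nat_lit 126) (nat_lit 5) (nat_lit 43) (nat_lit 69) (nat_lit 77)))) (PT.nd (nat_lit 188) (PT.nd (nat_lit 94) (PT.lf (nat_lit 11256) (nat_lit 6) (nat_lit 134) (nat_lit 5) (nat_lit 44) (nat_lit 69) (nat_lit 76)) (PT.lf (nat_lit 11928) (nat_lit 6) (nat_lit 142) (nat_lit 5) (nat_lit 45) (nat_lit 69) (nat_lit 75))) (PT.nd (nat_lit 94) (PT.lf (nat_lit 12600) (nat_lit 6) (nat_lit 150) (nat_lit 5) (nat_lit 46) (nat_lit 69) (nat_lit 74)) (PT.nd (nat_lit 94) (PT.lf (nat_lit 13272) (nat_lit 6) (nat_lit 158) (nat_lit 5) (nat_lit 47) (nat_lit 69) (nat_lit 73)) (PT.lf (nat_lit 14616) (nat_lit 6) (nat_lit 174) (nat_lit 5) (nat_lit 48) (nat_lit 69) (nat_lit 72))))))))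
noncomputable def pc19 : PT := (PT.nd (nat_lit 1692) (PT.nd (nat_lit 846) (PT.nd (nat_lit 376) (PT.nd (nat_lit 188) (PT.nd (nat_lit 94) (PT.lf (nat_lit 15876) (nat_lit 6) (nat_lit 189) (nat_lit 5) (nat_lit 49) (nat_lit 69) (nat_lit 71)) (PT.lf (nat_lit 17052) (nat_lit 6) (nat_lit 203) (nat_lit 5) (nat_lit 50) (nat_lit 69) (nat_lit 70))) (PT.nd (nat_lit 94) (PT.lf (nat_lit 18144) (nat_lit 3) (nat_lit 216) (nat_lit 4) (nat_lit 51) (nat_lit 69) (nat_lit 69)) (PT.lf (nat_lit 19068) (nat_lit 6) (nat_lit 227) (nat_lit 4) (nat_lit 52) (nat_lit 69) (nat_lit 68)))) (PT.nd (nat_lit 188) (PT.nd (nat_lit 94) (PT.lf (nat_lit 19908) (nat_lit 6) (nat_lit 237) (nat_lit 4) (nat_lit 53) (nat_lit 69) (nat_lit 67)) (PT.lf (nat_lit 20664) (nat_lit 6) (nat_lit 246) (nat_lit 4) (nat_lit 54) (nat_lit 69) (nat_lit 66))) (PT.nd (nat_lit 94) (PT.lf (nat_lit 21336) (nat_lit 6) (nat_lit 254) (nat_lit 4) (nat_lit 55) (nat_lit 69) (nat_lit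 65)) (PT.nd (nat_lit 94) (PT.lf (nat_lit 21924) (nat_lit 6) (nat_lit 261) (nat_lit 4) (nat_lit 56) (nat_lit 69) (nat_lit 64)) (PT.lf (nat_lit 22428) (nat_lit 6) (nat_lit 267) (nat_lit 4) (nat_lit 57) (nat_lit 69) (nat_lit 63)))))) (PT.nd (nat_lit 376) (PT.nd (nat_lit 188) (PT.nd (nat_lit 94) (PT.lf (nat_lit 22344) (nat_lit 6) (nat_lit 266) (nat_lit 4) (nat_lit 58) (nat_lit 69) (nat_lit 62)) (PT.lf (nat_lit 22260) (nat_lit 6) (nat_lit 265) (nat_lit 4) (nat_lit 59) (nat_lit 69) (nat_lit 61))) (PT.nd (nat_lit 94) (PT.lf (nat_lit 22176) (nat_lit 3) (nat_lit 264) (nat_lit 2) (nat_lit 60) (nat_lit 69) (nat_lit 60)) (PT.lf (nat_lit 22260) (nat_lit 6) (nat_lit 265) (nat_lit 2) (nat_lit 61) (nat_lit 69) (nat_lit 59)))) (PT.nd (nat_lit 188) (PT.nd (nat_lit 94) (PT.lf (nat_lit 22344) (nat_lit 6) (nat_lit 266) (nat_lit 2) (nat_lit 62) (nat_lit 69) (nat_lit 58)) (PT.lf (nat_lit 22428) (nat_lit 6) (nat_lit 267) (nat_lit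 2) (nat_lit 63) (nat_lit 69) (nat_lit 57))) (PT.nd (nat_lit 94) (PT.lf (nat_lit 21924) (nat_lit 6) (nat_lit 261) (nat_lit 2) (nat_lit 64) (nat_lit 69) (nat_lit 56)) (PT.nd (nat_lit 94) (PT.lf (nat_lit 21336) (nat_lit 6) (nat_lit 254) (nat_lit 2) (nat_lit 65) (nat_lit 69) (nat_lit 55)) (PT.lf (nat_lit 20664) (nat_lit 6) (nat_lit 246) (nat_lit 2) (nat_lit 66) (nat_lit 69) (nat_lit 54))))))) (PT.nd (nat_lit 846) (PT.nd (nat_lit 376) (PT.nd (nat_lit 188) (PT.nd (nat_lit 94) (PT.lf (nat_lit 19908) (nat_lit 6) (nat_lit 237) (nat_lit 2) (nat_lit 67) (nat_lit 69) (nat_lit 53)) (PT.lf (nat_lit 19068) (nat_lit 6) (nat_lit 227) (nat_lit 2) (nat_lit 68) (nat_lit 69) (nat_lit 52))) (PT.nd (nat_lit 94) (PT.lf (nat_lit 18144) (nat_lit 3) (nat_lit 216) (nat_lit 0) (nat_lit 69) (nat_lit 69) (nat_lit 51)) (PT.lf (nat_lit 17052) (nat_lit 6) (nat_lit 203) (nat_lit 0) (nat_lit 70) (nat_lit 69) (nat_lit 50)))) (PT.nd (nat_lit 188)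 (PT.nd (nat_lit 94) (PT.lf (nat_lit 15876) (nat_lit 6) (nat_lit 189) (nat_lit 0) (nat_lit 71) (nat_lit 69) (nat_lit 49)) (PT.lf (nat_lit 14616) (nat_lit 6) (nat_lit 174) (nat_lit 0) (nat_lit 72) (nat_lit 69) (nat_lit 48))) (PT.nd (nat_lit 94) (PT.lf (nat_lit 13272) (nat_lit 6) (nat_lit 158) (nat_lit 0) (nat_lit 73) (nat_lit 69) (nat_lit 47)) (PT.nd (nat_lit 94) (PT.lf (nat_lit 12600) (nat_lit 6) (nat_lit 150) (nat_lit 0) (nat_lit 74) (nat_lit 69) (nat_lit 46)) (PT.lf (nat_lit 11928) (nat_lit 6) (nat_lit 142) (nat_lit 0) (nat_lit 75) (nat_lit 69) (nat_lit 45)))))) (PT.nd (nat_lit 56024) (PT.nd (nat_lit 188) (PT.nd (nat_lit 94) (PT.lf (nat_lit 11256) (nat_lit 6) (nat_lit 134) (nat_lit 0) (nat_lit 76) (nat_lit 69) (nat_lit 44)) (PT.lf (nat_lit 10584) (nat_lit 6) (nat_lit 126) (nat_lit 0) (nat_lit 77) (nat_lit 69) (nat_lit 43))) (PT.nd (nat_lit 94) (PT.lf (nat_lit 9996) (nat_lit 6) (nat_lit 119) (nat_lit 0) (nat_lit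 78) (nat_lit 69) (nat_lit 42)) (PT.nd (nat_lit 55648) (PT.lf (nat_lit 9408) (nat_lit 6) (nat_lit 112) (nat_lit 0) (nat_lit 79) (nat_lit 69) (nat_lit 41)) (PT.lf (nat_lit 8988) (nat_lit 6) (nat_lit 107) (nat_lit 5) (nat_lit 40) (nat_lit 70) (nat_lit 79))))) (PT.nd (nat_lit 188) (PT.nd (nat_lit 94) (PT.lf (nat_lit 9492) (nat_lit 6) (nat_lit 113) (nat_lit 5) (nat_lit 41) (nat_lit 70) (nat_lit 78)) (PT.lf (nat_lit 10080) (nat_lit 6) (nat_lit 120) (nat_lit 5) (nat_lit 42) (nat_lit 70) (nat_lit 77))) (PT.nd (nat_lit 94) (PT.lf (nat_lit 10668) (nat_lit 6) (nat_lit 127) (nat_lit 5) (nat_lit 43) (nat_lit 70) (nat_lit 76)) (PT.nd (nat_lit 94) (PT.lf (nat_lit 11340) (nat_lit 6) (nat_lit 135) (nat_lit 5) (nat_lit 44) (nat_lit 70) (nat_lit 75)) (PT.lf (nat_lit 12012) (nat_lit 6) (nat_lit 143) (nat_lit 5) (nat_lit 45) (nat_lit 70) (nat_lit 74))))))))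
noncomputable def pc20 : PT := (PT.nd (nat_lit 1692) (PT.nd (nat_lit 846) (PT.nd (nat_lit 376) (PT.nd (nat_lit 188) (PT.nd (nat_lit 94) (PT.lf (nat_lit 12684) (nat_lit 6) (nat_lit 151) (nat_lit 5) (nat_lit 46) (nat_lit 70) (nat_lit 73)) (PT.lf (nat_lit 13356) (nat_lit 6) (nat_lit 159) (nat_lit 5) (nat_lit 47) (nat_lit 70) (nat_lit 72))) (PT.nd (nat_lit 94) (PT.lf (nat_lit 14700) (nat_lit 6) (nat_lit 175) (nat_lit 5) (nat_lit 48) (nat_lit 70) (nat_lit 71)) (PT.lf (nat_lit 15960) (nat_lit 3) (nat_lit 190) (nat_lit 4) (nat_lit 49) (nat_lit 70) (nat_lit 70)))) (PT.nd (nat_lit 188) (PT.nd (nat_lit 94) (PT.lf (nat_lit 17052) (nat_lit 6) (nat_lit 203) (nat_lit 4) (nat_lit 50) (nat_lit 70) (nat_lit 69)) (PT.lf (nat_lit 18060) (nat_lit 6) (nat_lit 215) (nat_lit 4) (nat_lit 51) (nat_lit 70) (nat_lit 68))) (PT.nd (nat_lit 94) (PT.lf (nat_lit 18984) (nat_lit 6) (nat_lit 226) (nat_lit 4) (nat_lit 52) (nat_lit 70) (nat_lit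 67)) (PT.nd (nat_lit 94) (PT.lf (nat_lit 19824) (nat_lit 6) (nat_lit 236) (nat_lit 4) (nat_lit 53) (nat_lit 70) (nat_lit 66)) (PT.lf (nat_lit 20580) (nat_lit 6) (nat_lit 245) (nat_lit 4) (nat_lit 54) (nat_lit 70) (nat_lit 65)))))) (PT.nd (nat_lit 376) (PT.nd (nat_lit 188) (PT.nd (nat_lit 94) (PT.lf (nat_lit 21252) (nat_lit 6) (nat_lit 253) (nat_lit 4) (nat_lit 55) (nat_lit 70) (nat_lit 64)) (PT.lf (nat_lit 21840) (nat_lit 6) (nat_lit 260) (nat_lit 4) (nat_lit 56) (nat_lit 70) (nat_lit 63))) (PT.nd (nat_lit 94) (PT.lf (nat_lit 21756) (nat_lit 6) (nat_lit 259) (nat_lit 4) (nat_lit 57) (nat_lit 70) (nat_lit 62)) (PT.lf (nat_lit 21672) (nat_lit 6) (nat_lit 258) (nat_lit 4) (nat_lit 58) (nat_lit 70) (nat_lit 61)))) (PT.nd (nat_lit 188) (PT.nd (nat_lit 94) (PT.lf (nat_lit 21588) (nat_lit 6) (nat_lit 257) (nat_lit 4) (nat_lit 59) (nat_lit 70) (nat_lit 60)) (PT.lf (nat_lit 21588) (nat_lit 6) (nat_lit 257) (nat_lit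 2) (nat_lit 60) (nat_lit 70) (nat_lit 59))) (PT.nd (nat_lit 94) (PT.lf (nat_lit 21672) (nat_lit 6) (nat_lit 258) (nat_lit 2) (nat_lit 61) (nat_lit 70) (nat_lit 58)) (PT.nd (nat_lit 94) (PT.lf (nat_lit 21756) (nat_lit 6) (nat_lit 259) (nat_lit 2) (nat_lit 62) (nat_lit 70) (nat_lit 57)) (PT.lf (nat_lit 21840) (nat_lit 6) (nat_lit 260) (nat_lit 2) (nat_lit 63) (nat_lit 70) (nat_lit 56))))))) (PT.nd (nat_lit 846) (PT.nd (nat_lit 376) (PT.nd (nat_lit 188) (PT.nd (nat_lit 94) (PT.lf (nat_lit 21252) (nat_lit 6) (nat_lit 253) (nat_lit 2) (nat_lit 64) (nat_lit 70) (nat_lit 55)) (PT.lf (nat_lit 20580) (nat_lit 6) (nat_lit 245) (nat_lit 2) (nat_lit 65) (nat_lit 70) (nat_lit 54))) (PT.nd (nat_lit 94) (PT.lf (nat_lit 19824) (nat_lit 6) (nat_lit 236) (nat_lit 2) (nat_lit 66) (nat_lit 70) (nat_lit 53)) (PT.lf (nat_lit 18984) (nat_lit 6) (nat_lit 226) (nat_lit 2) (nat_lit 67) (nat_lit 70) (nat_lit 52)))) (PT.nd (nat_lit 188)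 (PT.nd (nat_lit 94) (PT.lf (nat_lit 18060) (nat_lit 6) (nat_lit 215) (nat_lit 2) (nat_lit 68) (nat_lit 70) (nat_lit 51)) (PT.lf (nat_lit 17052) (nat_lit 6) (nat_lit 203) (nat_lit 2) (nat_lit 69) (nat_lit 70) (nat_lit 50))) (PT.nd (nat_lit 94) (PT.lf (nat_lit 15960) (nat_lit 3) (nat_lit 190) (nat_lit 0) (nat_lit 70) (nat_lit 70) (nat_lit 49)) (PT.nd (nat_lit 94) (PT.lf (nat_lit 14700) (nat_lit 6) (nat_lit 175) (nat_lit 0) (nat_lit 71) (nat_lit 70) (nat_lit 48)) (PT.lf (nat_lit 13356) (nat_lit 6) (nat_lit 159) (nat_lit 0) (nat_lit 72) (nat_lit 70) (nat_lit 47)))))) (PT.nd (nat_lit 376) (PT.nd (nat_lit 188) (PT.nd (nat_lit 94) (PT.lf (nat_lit 12684) (nat_lit 6) (nat_lit 151) (nat_lit 0) (nat_lit 73) (nat_lit 70) (nat_lit 46)) (PT.lf (nat_lit 12012) (nat_lit 6) (nat_lit 143) (nat_lit 0) (nat_lit 74) (nat_lit 70) (nat_lit 45))) (PT.nd (nat_lit 94) (PT.lf (nat_lit 11340) (nat_lit 6) (nat_lit 135) (nat_lit 0) (nat_lit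 75) (nat_lit 70) (nat_lit 44)) (PT.lf (nat_lit 10668) (nat_lit 6) (nat_lit 127) (nat_lit 0) (nat_lit 76) (nat_lit 70) (nat_lit 43)))) (PT.nd (nat_lit 188) (PT.nd (nat_lit 94) (PT.lf (nat_lit 10080) (nat_lit 6) (nat_lit 120) (nat_lit 0) (nat_lit 77) (nat_lit 70) (nat_lit 42)) (PT.lf (nat_lit 9492) (nat_lit 6) (nat_lit 113) (nat_lit 0) (nat_lit 78) (nat_lit 70) (nat_lit 41))) (PT.nd (nat_lit 55554) (PT.lf (nat_lit 8988) (nat_lit 6) (nat_lit 107) (nat_lit 0) (nat_lit 79) (nat_lit 70) (nat_lit 40)) (PT.nd (nat_lit 94) (PT.lf (nat_lit 8484) (nat_lit 6) (nat_lit 101) (nat_lit 5) (nat_lit 39) (nat_lit 71) (nat_lit 79)) (PT.lf (nat_lit 9072) (nat_lit 6) (nat_lit 108) (nat_lit 5) (nat_lit 40) (nat_lit 71) (nat_lit 78))))))))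
noncomputable def pc21 : PT := (PT.nd (nat_lit 1692) (PT.nd (nat_lit 846) (PT.nd (nat_lit 376) (PT.nd (nat_lit 188) (PT.nd (nat_lit 94) (PT.lf (nat_lit 9576) (nat_lit 6) (nat_lit 114) (nat_lit 5) (nat_lit 41) (nat_lit 71) (nat_lit 77)) (PT.lf (nat_lit 10164) (nat_lit 6) (nat_lit 121) (nat_lit 5) (nat_lit 42) (nat_lit 71) (nat_lit 76))) (PT.nd (nat_lit 94) (PT.lf (nat_lit 10752) (nat_lit 6) (nat_lit 128) (nat_lit 5) (nat_lit 43) (nat_lit 71) (nat_lit 75)) (PT.lf (nat_lit 11424) (nat_lit 6) (nat_lit 136) (nat_lit 5) (nat_lit 44) (nat_lit 71) (nat_lit 74)))) (PT.nd (nat_lit 188) (PT.nd (nat_lit 94) (PT.lf (nat_lit 12096) (nat_lit 6) (nat_lit 144) (nat_lit 5) (nat_lit 45) (nat_lit 71) (nat_lit 73)) (PT.lf (nat_lit 12768) (nat_lit 6) (nat_lit 152) (nat_lit 5) (nat_lit 46) (nat_lit 71) (nat_lit 72))) (PT.nd (nat_lit 94) (PT.lf (nat_lit 13440) (nat_lit 3) (nat_lit 160) (nat_lit 4) (nat_lit 47) (nat_lit 71) (nat_lit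 71)) (PT.nd (nat_lit 94) (PT.lf (nat_lit 14700) (nat_lit 6) (nat_lit 175) (nat_lit 4) (nat_lit 48) (nat_lit 71) (nat_lit 70)) (PT.lf (nat_lit 15876) (nat_lit 6) (nat_lit 189) (nat_lit 4) (nat_lit 49) (nat_lit 71) (nat_lit 69)))))) (PT.nd (nat_lit 376) (PT.nd (nat_lit 188) (PT.nd (nat_lit 94) (PT.lf (nat_lit 16968) (nat_lit 6) (nat_lit 202) (nat_lit 4) (nat_lit 50) (nat_lit 71) (nat_lit 68)) (PT.lf (nat_lit 17976) (nat_lit 6) (nat_lit 214) (nat_lit 4) (nat_lit 51) (nat_lit 71) (nat_lit 67))) (PT.nd (nat_lit 94) (PT.lf (nat_lit 18900) (nat_lit 6) (nat_lit 225) (nat_lit 4) (nat_lit 52) (nat_lit 71) (nat_lit 66)) (PT.lf (nat_lit 19740) (nat_lit 6) (nat_lit 235) (nat_lit 4) (nat_lit 53) (nat_lit 71) (nat_lit 65)))) (PT.nd (nat_lit 188) (PT.nd (nat_lit 94) (PT.lf (nat_lit 20496) (nat_lit 6) (nat_lit 244) (nat_lit 4) (nat_lit 54) (nat_lit 71) (nat_lit 64)) (PT.lf (nat_lit 21168) (nat_lit 6) (nat_lit 252) (nat_lit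 4) (nat_lit 55) (nat_lit 71) (nat_lit 63))) (PT.nd (nat_lit 94) (PT.lf (nat_lit 21084) (nat_lit 6) (nat_lit 251) (nat_lit 4) (nat_lit 56) (nat_lit 71) (nat_lit 62)) (PT.nd (nat_lit 94) (PT.lf (nat_lit 21000) (nat_lit 6) (nat_lit 250) (nat_lit 4) (nat_lit 57) (nat_lit 71) (nat_lit 61)) (PT.lf (nat_lit 20916) (nat_lit 6) (nat_lit 249) (nat_lit 4) (nat_lit 58) (nat_lit 71) (nat_lit 60))))))) (PT.nd (nat_lit 846) (PT.nd (nat_lit 376) (PT.nd (nat_lit 188) (PT.nd (nat_lit 94) (PT.lf (nat_lit 20832) (nat_lit 3) (nat_lit 248) (nat_lit 2) (nat_lit 59) (nat_lit 71) (nat_lit 59)) (PT.lf (nat_lit 20916) (nat_lit 6) (nat_lit 249) (nat_lit 2) (nat_lit 60) (nat_lit 71) (nat_lit 58))) (PT.nd (nat_lit 94) (PT.lf (nat_lit 21000) (nat_lit 6) (nat_lit 250) (nat_lit 2) (nat_lit 61) (nat_lit 71) (nat_lit 57)) (PT.lf (nat_lit 21084) (nat_lit 6) (nat_lit 251) (nat_lit 2) (nat_lit 62) (nat_lit 71) (nat_lit 56)))) (PT.nd (nat_lit 188)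 (PT.nd (nat_lit 94) (PT.lf (nat_lit 21168) (nat_lit 6) (nat_lit 252) (nat_lit 2) (nat_lit 63) (nat_lit 71) (nat_lit 55)) (PT.lf (nat_lit 20496) (nat_lit 6) (nat_lit 244) (nat_lit 2) (nat_lit 64) (nat_lit 71) (nat_lit 54))) (PT.nd (nat_lit 94) (PT.lf (nat_lit 19740) (nat_lit 6) (nat_lit 235) (nat_lit 2) (nat_lit 65) (nat_lit 71) (nat_lit 53)) (PT.nd (nat_lit 94) (PT.lf (nat_lit 18900) (nat_lit 6) (nat_lit 225) (nat_lit 2) (nat_lit 66) (nat_lit 71) (nat_lit 52)) (PT.lf (nat_lit 17976) (nat_lit 6) (nat_lit 214) (nat_lit 2) (nat_lit 67) (nat_lit 71) (nat_lit 51)))))) (PT.nd (nat_lit 470) (PT.nd (nat_lit 188) (PT.nd (nat_lit 94) (PT.lf (nat_lit 16968) (nat_lit 6) (nat_lit 202) (nat_lit 2) (nat_lit 68) (nat_lit 71) (nat_lit 50)) (PT.lf (nat_lit 15876) (nat_lit 6) (nat_lit 189) (nat_lit 2) (nat_lit 69) (nat_lit 71) (nat_lit 49))) (PT.nd (nat_lit 94) (PT.lf (nat_lit 14700) (nat_lit 6) (nat_lit 175) (nat_lit 2) (nat_lit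 70) (nat_lit 71) (nat_lit 48)) (PT.nd (nat_lit 94) (PT.lf (nat_lit 13440) (nat_lit 3) (nat_lit 160) (nat_lit 0) (nat_lit 71) (nat_lit 71) (nat_lit 47)) (PT.lf (nat_lit 12768) (nat_lit 6) (nat_lit 152) (nat_lit 0) (nat_lit 72) (nat_lit 71) (nat_lit 46))))) (PT.nd (nat_lit 188) (PT.nd (nat_lit 94) (PT.lf (nat_lit 12096) (nat_lit 6) (nat_lit 144) (nat_lit 0) (nat_lit 73) (nat_lit 71) (nat_lit 45)) (PT.lf (nat_lit 11424) (nat_lit 6) (nat_lit 136) (nat_lit 0) (nat_lit 74) (nat_lit 71) (nat_lit 44))) (PT.nd (nat_lit 94) (PT.lf (nat_lit 10752) (nat_lit 6) (nat_lit 128) (nat_lit 0) (nat_lit 75) (nat_lit 71) (nat_lit 43)) (PT.nd (nat_lit 94) (PT.lf (nat_lit 10164) (nat_lit 6) (nat_lit 121) (nat_lit 0) (nat_lit 76) (nat_lit 71) (nat_lit 42)) (PT.lf (nat_lit 9576) (nat_lit 6) (nat_lit 114) (nat_lit 0) (nat_lit 77) (nat_lit 71) (nat_lit 41))))))))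
noncomputable def pc22 : PT := (PT.nd (nat_lit 56964) (PT.nd (nat_lit 56118) (PT.nd (nat_lit 55648) (PT.nd (nat_lit 55460) (PT.nd (nat_lit 94) (PT.lf (nat_lit 9072) (nat_lit 6) (nat_lit 108) (nat_lit 0) (nat_lit 78) (nat_lit 71) (nat_lit 40)) (PT.lf (nat_lit 8484) (nat_lit 6) (nat_lit 101) (nat_lit 0) (nat_lit 79) (nat_lit 71) (nat_lit 39))) (PT.nd (nat_lit 94) (PT.lf (nat_lit 7560) (nat_lit 6) (nat_lit 90) (nat_lit 5) (nat_lit 37) (nat_lit 72) (nat_lit 80)) (PT.lf (nat_lit 8064) (nat_lit 6) (nat_lit 96) (nat_lit 5) (nat_lit 38) (nat_lit 72) (nat_lit 79)))) (PT.nd (nat_lit 188) (PT.nd (nat_lit 94) (PT.lf (nat_lit 8568) (nat_lit 6) (nat_lit 102) (nat_lit 5) (nat_lit 39) (nat_lit 72) (nat_lit 78)) (PT.lf (nat_lit 9156) (nat_lit 6) (nat_lit 109) (nat_lit 5) (nat_lit 40) (nat_lit 72) (nat_lit 77))) (PT.nd (nat_lit 94) (PT.lf (nat_lit 9660) (nat_lit 6) (nat_lit 115) (nat_lit 5) (nat_lit 41) (nat_lit 72) (nat_lit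 76)) (PT.nd (nat_lit 94) (PT.lf (nat_lit 10248) (nat_lit 6) (nat_lit 122) (nat_lit 5) (nat_lit 42) (nat_lit 72) (nat_lit 75)) (PT.lf (nat_lit 10836) (nat_lit 6) (nat_lit 129) (nat_lit 5) (nat_lit 43) (nat_lit 72) (nat_lit 74)))))) (PT.nd (nat_lit 376) (PT.nd (nat_lit 188) (PT.nd (nat_lit 94) (PT.lf (nat_lit 11508) (nat_lit 6) (nat_lit 137) (nat_lit 5) (nat_lit 44) (nat_lit 72) (nat_lit 73)) (PT.lf (nat_lit 12180) (nat_lit 3) (nat_lit 145) (nat_lit 4) (nat_lit 45) (nat_lit 72) (nat_lit 72))) (PT.nd (nat_lit 94) (PT.lf (nat_lit 12768) (nat_lit 6) (nat_lit 152) (nat_lit 4) (nat_lit 46) (nat_lit 72) (nat_lit 71)) (PT.lf (nat_lit 13356) (nat_lit 6) (nat_lit 159) (nat_lit 4) (nat_lit 47) (nat_lit 72) (nat_lit 70)))) (PT.nd (nat_lit 188) (PT.nd (nat_lit 94) (PT.lf (nat_lit 14616) (nat_lit 6) (nat_lit 174) (nat_lit 4) (nat_lit 48) (nat_lit 72) (nat_lit 69)) (PT.lf (nat_lit 15792) (nat_lit 6) (nat_lit 188) (nat_lit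 4) (nat_lit 49) (nat_lit 72) (nat_lit 68))) (PT.nd (nat_lit 94) (PT.lf (nat_lit 16884) (nat_lit 6) (nat_lit 201) (nat_lit 4) (nat_lit 50) (nat_lit 72) (nat_lit 67)) (PT.nd (nat_lit 94) (PT.lf (nat_lit 17892) (nat_lit 6) (nat_lit 213) (nat_lit 4) (nat_lit 51) (nat_lit 72) (nat_lit 66)) (PT.lf (nat_lit 18816) (nat_lit 6) (nat_lit 224) (nat_lit 4) (nat_lit 52) (nat_lit 72) (nat_lit 65))))))) (PT.nd (nat_lit 846) (PT.nd (nat_lit 376) (PT.nd (nat_lit 188) (PT.nd (nat_lit 94) (PT.lf (nat_lit 19656) (nat_lit 6) (nat_lit 234) (nat_lit 4) (nat_lit 53) (nat_lit 72) (nat_lit 64)) (PT.lf (nat_lit 20412) (nat_lit 6) (nat_lit 243) (nat_lit 4) (nat_lit 54) (nat_lit 72) (nat_lit 63))) (PT.nd (nat_lit 94) (PT.lf (nat_lit 20328) (nat_lit 6) (nat_lit 242) (nat_lit 4) (nat_lit 55) (nat_lit 72) (nat_lit 62)) (PT.lf (nat_lit 20244) (nat_lit 6) (nat_lit 241) (nat_lit 4) (nat_lit 56) (nat_lit 72) (nat_lit 61)))) (PT.nd (nat_lit 188)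 (PT.nd (nat_lit 94) (PT.lf (nat_lit 20160) (nat_lit 6) (nat_lit 240) (nat_lit 4) (nat_lit 57) (nat_lit 72) (nat_lit 60)) (PT.lf (nat_lit 20076) (nat_lit 6) (nat_lit 239) (nat_lit 4) (nat_lit 58) (nat_lit 72) (nat_lit 59))) (PT.nd (nat_lit 94) (PT.lf (nat_lit 20076) (nat_lit 6) (nat_lit 239) (nat_lit 2) (nat_lit 59) (nat_lit 72) (nat_lit 58)) (PT.nd (nat_lit 94) (PT.lf (nat_lit 20160) (nat_lit 6) (nat_lit 240) (nat_lit 2) (nat_lit 60) (nat_lit 72) (nat_lit 57)) (PT.lf (nat_lit 20244) (nat_lit 6) (nat_lit 241) (nat_lit 2) (nat_lit 61) (nat_lit 72) (nat_lit 56)))))) (PT.nd (nat_lit 470) (PT.nd (nat_lit 188) (PT.nd (nat_lit 94) (PT.lf (nat_lit 20328) (nat_lit 6) (nat_lit 242) (nat_lit 2) (nat_lit 62) (nat_lit 72) (nat_lit 55)) (PT.lf (nat_lit 20412) (nat_lit 6) (nat_lit 243) (nat_lit 2) (nat_lit 63) (nat_lit 72) (nat_lit 54))) (PT.nd (nat_lit 94) (PT.lf (nat_lit 19656) (nat_lit 6) (nat_lit 234) (nat_lit 2) (nat_lit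 64) (nat_lit 72) (nat_lit 53)) (PT.nd (nat_lit 94) (PT.lf (nat_lit 18816) (nat_lit 6) (nat_lit 224) (nat_lit 2) (nat_lit 65) (nat_lit 72) (nat_lit 52)) (PT.lf (nat_lit 17892) (nat_lit 6) (nat_lit 213) (nat_lit 2) (nat_lit 66) (nat_lit 72) (nat_lit 51))))) (PT.nd (nat_lit 188) (PT.nd (nat_lit 94) (PT.lf (nat_lit 16884) (nat_lit 6) (nat_lit 201) (nat_lit 2) (nat_lit 67) (nat_lit 72) (nat_lit 50)) (PT.lf (nat_lit 15792) (nat_lit 6) (nat_lit 188) (nat_lit 2) (nat_lit 68) (nat_lit 72) (nat_lit 49))) (PT.nd (nat_lit 94) (PT.lf (nat_lit 14616) (nat_lit 6) (nat_lit 174) (nat_lit 2) (nat_lit 69) (nat_lit 72) (nat_lit 48)) (PT.nd (nat_lit 94) (PT.lf (nat_lit 13356) (nat_lit 6) (nat_lit 159) (nat_lit 2) (nat_lit 70) (nat_lit 72) (nat_lit 47)) (PT.lf (nat_lit 12768) (nat_lit 6) (nat_lit 152) (nat_lit 2) (nat_lit 71) (nat_lit 72) (nat_lit 46))))))))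
noncomputable def pc23 : PT := (PT.nd (nat_lit 56776) (PT.nd (nat_lit 55930) (PT.nd (nat_lit 376) (PT.nd (nat_lit 188) (PT.nd (nat_lit 94) (PT.lf (nat_lit 12180) (nat_lit 3) (nat_lit 145) (nat_lit 0) (nat_lit 72) (nat_lit 72) (nat_lit 45)) (PT.lf (nat_lit 11508) (nat_lit 6) (nat_lit 137) (nat_lit 0) (nat_lit 73) (nat_lit 72) (nat_lit 44))) (PT.nd (nat_lit 94) (PT.lf (nat_lit 10836) (nat_lit 6) (nat_lit 129) (nat_lit 0) (nat_lit 74) (nat_lit 72) (nat_lit 43)) (PT.lf (nat_lit 10248) (nat_lit 6) (nat_lit 122) (nat_lit 0) (nat_lit 75) (nat_lit 72) (nat_lit 42)))) (PT.nd (nat_lit 188) (PT.nd (nat_lit 94) (PT.lf (nat_lit 9660) (nat_lit 6) (nat_lit 115) (nat_lit 0) (nat_lit 76) (nat_lit 72) (nat_lit 41)) (PT.lf (nat_lit 9156) (nat_lit 6) (nat_lit 109) (nat_lit 0) (nat_lit 77) (nat_lit 72) (nat_lit 40))) (PT.nd (nat_lit 94) (PT.lf (nat_lit 8568) (nat_lit 6) (nat_lit 102) (nat_lit 0) (nat_lit 78) (nat_lit 72) (nat_lit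 39)) (PT.nd (nat_lit 94) (PT.lf (nat_lit 8064) (nat_lit 6) (nat_lit 96) (nat_lit 0) (nat_lit 79) (nat_lit 72) (nat_lit 38)) (PT.lf (nat_lit 7560) (nat_lit 6) (nat_lit 90) (nat_lit 0) (nat_lit 80) (nat_lit 72) (nat_lit 37)))))) (PT.nd (nat_lit 376) (PT.nd (nat_lit 188) (PT.nd (nat_lit 94) (PT.lf (nat_lit 7224) (nat_lit 6) (nat_lit 86) (nat_lit 5) (nat_lit 36) (nat_lit 73) (nat_lit 80)) (PT.lf (nat_lit 7644) (nat_lit 6) (nat_lit 91) (nat_lit 5) (nat_lit 37) (nat_lit 73) (nat_lit 79))) (PT.nd (nat_lit 94) (PT.lf (nat_lit 8148) (nat_lit 6) (nat_lit 97) (nat_lit 5) (nat_lit 38) (nat_lit 73) (nat_lit 78)) (PT.lf (nat_lit 8652) (nat_lit 6) (nat_lit 103) (nat_lit 5) (nat_lit 39) (nat_lit 73) (nat_lit 77)))) (PT.nd (nat_lit 188) (PT.nd (nat_lit 94) (PT.lf (nat_lit 9240) (nat_lit 6) (nat_lit 110) (nat_lit 5) (nat_lit 40) (nat_lit 73) (nat_lit 76)) (PT.lf (nat_lit 9744) (nat_lit 6) (nat_lit 116) (nat_lit 5) (nat_lit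 41) (nat_lit 73) (nat_lit 75))) (PT.nd (nat_lit 94) (PT.lf (nat_lit 10332) (nat_lit 6) (nat_lit 123) (nat_lit 5) (nat_lit 42) (nat_lit 73) (nat_lit 74)) (PT.nd (nat_lit 94) (PT.lf (nat_lit 10920) (nat_lit 3) (nat_lit 130) (nat_lit 4) (nat_lit 43) (nat_lit 73) (nat_lit 73)) (PT.lf (nat_lit 11508) (nat_lit 6) (nat_lit 137) (nat_lit 4) (nat_lit 44) (nat_lit 73) (nat_lit 72))))))) (PT.nd (nat_lit 846) (PT.nd (nat_lit 376) (PT.nd (nat_lit 188) (PT.nd (nat_lit 94) (PT.lf (nat_lit 12096) (nat_lit 6) (nat_lit 144) (nat_lit 4) (nat_lit 45) (nat_lit 73) (nat_lit 71)) (PT.lf (nat_lit 12684) (nat_lit 6) (nat_lit 151) (nat_lit 4) (nat_lit 46) (nat_lit 73) (nat_lit 70))) (PT.nd (nat_lit 94) (PT.lf (nat_lit 13272) (nat_lit 6) (nat_lit 158) (nat_lit 4) (nat_lit 47) (nat_lit 73) (nat_lit 69)) (PT.lf (nat_lit 14532) (nat_lit 6) (nat_lit 173) (nat_lit 4) (nat_lit 48) (nat_lit 73) (nat_lit 68)))) (PT.nd (nat_lit 188) (PT.nd (nat_lit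 94) (PT.lf (nat_lit 15708) (nat_lit 6) (nat_lit 187) (nat_lit 4) (nat_lit 49) (nat_lit 73) (nat_lit 67)) (PT.lf (nat_lit 16800) (nat_lit 6) (nat_lit 200) (nat_lit 4) (nat_lit 50) (nat_lit 73) (nat_lit 66))) (PT.nd (nat_lit 94) (PT.lf (nat_lit 17808) (nat_lit 6) (nat_lit 212) (nat_lit 4) (nat_lit 51) (nat_lit 73) (nat_lit 65)) (PT.nd (nat_lit 94) (PT.lf (nat_lit 18732) (nat_lit 6) (nat_lit 223) (nat_lit 4) (nat_lit 52) (nat_lit 73) (nat_lit 64)) (PT.lf (nat_lit 19572) (nat_lit 6) (nat_lit 233) (nat_lit 4) (nat_lit 53) (nat_lit 73) (nat_lit 63)))))) (PT.nd (nat_lit 470) (PT.nd (nat_lit 188) (PT.nd (nat_lit 94) (PT.lf (nat_lit 19488) (nat_lit 6) (nat_lit 232) (nat_lit 4) (nat_lit 54) (nat_lit 73) (nat_lit 62)) (PT.lf (nat_lit 19404) (nat_lit 6) (nat_lit 231) (nat_lit 4) (nat_lit 55) (nat_lit 73) (nat_lit 61))) (PT.nd (nat_lit 94) (PT.lf (nat_lit 19320) (nat_lit 6) (nat_lit 230) (nat_lit 4) (nat_lit 56) (nat_lit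 73) (nat_lit 60)) (PT.nd (nat_lit 94) (PT.lf (nat_lit 19236) (nat_lit 6) (nat_lit 229) (nat_lit 4) (nat_lit 57) (nat_lit 73) (nat_lit 59)) (PT.lf (nat_lit 19152) (nat_lit 3) (nat_lit 228) (nat_lit 2) (nat_lit 58) (nat_lit 73) (nat_lit 58))))) (PT.nd (nat_lit 188) (PT.nd (nat_lit 94) (PT.lf (nat_lit 19236) (nat_lit 6) (nat_lit 229) (nat_lit 2) (nat_lit 59) (nat_lit 73) (nat_lit 57)) (PT.lf (nat_lit 19320) (nat_lit 6) (nat_lit 230) (nat_lit 2) (nat_lit 60) (nat_lit 73) (nat_lit 56))) (PT.nd (nat_lit 94) (PT.lf (nat_lit 19404) (nat_lit 6) (nat_lit 231) (nat_lit 2) (nat_lit 61) (nat_lit 73) (nat_lit 55)) (PT.nd (nat_lit 94) (PT.lf (nat_lit 19488) (nat_lit 6) (nat_lit 232) (nat_lit 2) (nat_lit 62) (nat_lit 73) (nat_lit 54)) (PT.lf (nat_lit 19572) (nat_lit 6) (nat_lit 233) (nat_lit 2) (nat_lit 63) (nat_lit 73) (nat_lit 53))))))))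
noncomputable def pc24 : PT := (PT.nd (nat_lit 56682) (PT.nd (nat_lit 846) (PT.nd (nat_lit 376) (PT.nd (nat_lit 188) (PT.nd (nat_lit 94) (PT.lf (nat_lit 18732) (nat_lit 6) (nat_lit 223) (nat_lit 2) (nat_lit 64) (nat_lit 73) (nat_lit 52)) (PT.lf (nat_lit 17808) (nat_lit 6) (nat_lit 212) (nat_lit 2) (nat_lit 65) (nat_lit 73) (nat_lit 51))) (PT.nd (nat_lit 94) (PT.lf (nat_lit 16800) (nat_lit 6) (nat_lit 200) (nat_lit 2) (nat_lit 66) (nat_lit 73) (nat_lit 50)) (PT.lf (nat_lit 15708) (nat_lit 6) (nat_lit 187) (nat_lit 2) (nat_lit 67) (nat_lit 73) (nat_lit 49)))) (PT.nd (nat_lit 188) (PT.nd (nat_lit 94) (PT.lf (nat_lit 14532) (nat_lit 6) (nat_lit 173) (nat_lit 2) (nat_lit 68) (nat_lit 73) (nat_lit 48)) (PT.lf (nat_lit 13272) (nat_lit 6) (nat_lit 158) (nat_lit 2) (nat_lit 69) (nat_lit 73) (nat_lit 47))) (PT.nd (nat_lit 94) (PT.lf (nat_lit 12684) (nat_lit 6) (nat_lit 151) (nat_lit 2) (nat_lit 70) (nat_lit 73) (nat_lit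 46)) (PT.nd (nat_lit 94) (PT.lf (nat_lit 12096) (nat_lit 6) (nat_lit 144) (nat_lit 2) (nat_lit 71) (nat_lit 73) (nat_lit 45)) (PT.lf (nat_lit 11508) (nat_lit 6) (nat_lit 137) (nat_lit 2) (nat_lit 72) (nat_lit 73) (nat_lit 44)))))) (PT.nd (nat_lit 376) (PT.nd (nat_lit 188) (PT.nd (nat_lit 94) (PT.lf (nat_lit 10920) (nat_lit 3) (nat_lit 130) (nat_lit 0) (nat_lit 73) (nat_lit 73) (nat_lit 43)) (PT.lf (nat_lit 10332) (nat_lit 6) (nat_lit 123) (nat_lit 0) (nat_lit 74) (nat_lit 73) (nat_lit 42))) (PT.nd (nat_lit 94) (PT.lf (nat_lit 9744) (nat_lit 6) (nat_lit 116) (nat_lit 0) (nat_lit 75) (nat_lit 73) (nat_lit 41)) (PT.lf (nat_lit 9240) (nat_lit 6) (nat_lit 110) (nat_lit 0) (nat_lit 76) (nat_lit 73) (nat_lit 40)))) (PT.nd (nat_lit 188) (PT.nd (nat_lit 94) (PT.lf (nat_lit 8652) (nat_lit 6) (nat_lit 103) (nat_lit 0) (nat_lit 77) (nat_lit 73) (nat_lit 39)) (PT.lf (nat_lit 8148) (nat_lit 6) (nat_lit 97) (nat_lit 0) (nat_lit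 78) (nat_lit 73) (nat_lit 38))) (PT.nd (nat_lit 94) (PT.lf (nat_lit 7644) (nat_lit 6) (nat_lit 91) (nat_lit 0) (nat_lit 79) (nat_lit 73) (nat_lit 37)) (PT.nd (nat_lit 55084) (PT.lf (nat_lit 7224) (nat_lit 6) (nat_lit 86) (nat_lit 0) (nat_lit 80) (nat_lit 73) (nat_lit 36)) (PT.lf (nat_lit 6804) (nat_lit 6) (nat_lit 81) (nat_lit 5) (nat_lit 35) (nat_lit 74) (nat_lit 80))))))) (PT.nd (nat_lit 846) (PT.nd (nat_lit 376) (PT.nd (nat_lit 188) (PT.nd (nat_lit 94) (PT.lf (nat_lit 7308) (nat_lit 6) (nat_lit 87) (nat_lit 5) (nat_lit 36) (nat_lit 74) (nat_lit 79)) (PT.lf (nat_lit 7728) (nat_lit 6) (nat_lit 92) (nat_lit 5) (nat_lit 37) (nat_lit 74) (nat_lit 78))) (PT.nd (nat_lit 94) (PT.lf (nat_lit 8232) (nat_lit 6) (nat_lit 98) (nat_lit 5) (nat_lit 38) (nat_lit 74) (nat_lit 77)) (PT.lf (nat_lit 8736) (nat_lit 6) (nat_lit 104) (nat_lit 5) (nat_lit 39) (nat_lit 74) (nat_lit 76)))) (PT.nd (nat_lit 188) (PT.nd (nat_lit 94)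 (PT.lf (nat_lit 9324) (nat_lit 6) (nat_lit 111) (nat_lit 5) (nat_lit 40) (nat_lit 74) (nat_lit 75)) (PT.lf (nat_lit 9828) (nat_lit 3) (nat_lit 117) (nat_lit 4) (nat_lit 41) (nat_lit 74) (nat_lit 74))) (PT.nd (nat_lit 94) (PT.lf (nat_lit 10332) (nat_lit 6) (nat_lit 123) (nat_lit 4) (nat_lit 42) (nat_lit 74) (nat_lit 73)) (PT.nd (nat_lit 94) (PT.lf (nat_lit 10836) (nat_lit 6) (nat_lit 129) (nat_lit 4) (nat_lit 43) (nat_lit 74) (nat_lit 72)) (PT.lf (nat_lit 11424) (nat_lit 6) (nat_lit 136) (nat_lit 4) (nat_lit 44) (nat_lit 74) (nat_lit 71)))))) (PT.nd (nat_lit 376) (PT.nd (nat_lit 188) (PT.nd (nat_lit 94) (PT.lf (nat_lit 12012) (nat_lit 6) (nat_lit 143) (nat_lit 4) (nat_lit 45) (nat_lit 74) (nat_lit 70)) (PT.lf (nat_lit 12600) (nat_lit 6) (nat_lit 150) (nat_lit 4) (nat_lit 46) (nat_lit 74) (nat_lit 69))) (PT.nd (nat_lit 94) (PT.lf (nat_lit 13188) (nat_lit 6) (nat_lit 157) (nat_lit 4) (nat_lit 47) (nat_lit 74)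 (nat_lit 68)) (PT.lf (nat_lit 14448) (nat_lit 6) (nat_lit 172) (nat_lit 4) (nat_lit 48) (nat_lit 74) (nat_lit 67)))) (PT.nd (nat_lit 188) (PT.nd (nat_lit 94) (PT.lf (nat_lit 15624) (nat_lit 6) (nat_lit 186) (nat_lit 4) (nat_lit 49) (nat_lit 74) (nat_lit 66)) (PT.lf (nat_lit 16716) (nat_lit 6) (nat_lit 199) (nat_lit 4) (nat_lit 50) (nat_lit 74) (nat_lit 65))) (PT.nd (nat_lit 94) (PT.lf (nat_lit 17724) (nat_lit 6) (nat_lit 211) (nat_lit 4) (nat_lit 51) (nat_lit 74) (nat_lit 64)) (PT.nd (nat_lit 94) (PT.lf (nat_lit 18648) (nat_lit 6) (nat_lit 222) (nat_lit 4) (nat_lit 52) (nat_lit 74) (nat_lit 63)) (PT.lf (nat_lit 18564) (nat_lit 6) (nat_lit 221) (nat_lit 4) (nat_lit 53) (nat_lit 74) (nat_lit 62))))))))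
noncomputable def pc25 : PT := (PT.nd (nat_lit 1692) (PT.nd (nat_lit 846) (PT.nd (nat_lit 376) (PT.nd (nat_lit 188) (PT.nd (nat_lit 94) (PT.lf (nat_lit 18480) (nat_lit 6) (nat_lit 220) (nat_lit 4) (nat_lit 54) (nat_lit 74) (nat_lit 61)) (PT.lf (nat_lit 18396) (nat_lit 6) (nat_lit 219) (nat_lit 4) (nat_lit 55) (nat_lit 74) (nat_lit 60))) (PT.nd (nat_lit 94) (PT.lf (nat_lit 18312) (nat_lit 6) (nat_lit 218) (nat_lit 4) (nat_lit 56) (nat_lit 74) (nat_lit 59)) (PT.lf (nat_lit 18228) (nat_lit 6) (nat_lit 217) (nat_lit 4) (nat_lit 57) (nat_lit 74) (nat_lit 58)))) (PT.nd (nat_lit 188) (PT.nd (nat_lit 94) (PT.lf (nat_lit 18228) (nat_lit 6) (nat_lit 217) (nat_lit 2) (nat_lit 58) (nat_lit 74) (nat_lit 57)) (PT.lf (nat_lit 18312) (nat_lit 6) (nat_lit 218) (nat_lit 2) (nat_lit 59) (nat_lit 74) (nat_lit 56))) (PT.nd (nat_lit 94) (PT.lf (nat_lit 18396) (nat_lit 6) (nat_lit 219) (nat_lit 2) (nat_lit 60) (nat_lit 74) (nat_lit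 55)) (PT.nd (nat_lit 94) (PT.lf (nat_lit 18480) (nat_lit 6) (nat_lit 220) (nat_lit 2) (nat_lit 61) (nat_lit 74) (nat_lit 54)) (PT.lf (nat_lit 18564) (nat_lit 6) (nat_lit 221) (nat_lit 2) (nat_lit 62) (nat_lit 74) (nat_lit 53)))))) (PT.nd (nat_lit 376) (PT.nd (nat_lit 188) (PT.nd (nat_lit 94) (PT.lf (nat_lit 18648) (nat_lit 6) (nat_lit 222) (nat_lit 2) (nat_lit 63) (nat_lit 74) (nat_lit 52)) (PT.lf (nat_lit 17724) (nat_lit 6) (nat_lit 211) (nat_lit 2) (nat_lit 64) (nat_lit 74) (nat_lit 51))) (PT.nd (nat_lit 94) (PT.lf (nat_lit 16716) (nat_lit 6) (nat_lit 199) (nat_lit 2) (nat_lit 65) (nat_lit 74) (nat_lit 50)) (PT.lf (nat_lit 15624) (nat_lit 6) (nat_lit 186) (nat_lit 2) (nat_lit 66) (nat_lit 74) (nat_lit 49)))) (PT.nd (nat_lit 188) (PT.nd (nat_lit 94) (PT.lf (nat_lit 14448) (nat_lit 6) (nat_lit 172) (nat_lit 2) (nat_lit 67) (nat_lit 74) (nat_lit 48)) (PT.lf (nat_lit 13188) (nat_lit 6) (nat_lit 157) (nat_lit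 2) (nat_lit 68) (nat_lit 74) (nat_lit 47))) (PT.nd (nat_lit 94) (PT.lf (nat_lit 12600) (nat_lit 6) (nat_lit 150) (nat_lit 2) (nat_lit 69) (nat_lit 74) (nat_lit 46)) (PT.nd (nat_lit 94) (PT.lf (nat_lit 12012) (nat_lit 6) (nat_lit 143) (nat_lit 2) (nat_lit 70) (nat_lit 74) (nat_lit 45)) (PT.lf (nat_lit 11424) (nat_lit 6) (nat_lit 136) (nat_lit 2) (nat_lit 71) (nat_lit 74) (nat_lit 44))))))) (PT.nd (nat_lit 55742) (PT.nd (nat_lit 376) (PT.nd (nat_lit 188) (PT.nd (nat_lit 94) (PT.lf (nat_lit 10836) (nat_lit 6) (nat_lit 129) (nat_lit 2) (nat_lit 72) (nat_lit 74) (nat_lit 43)) (PT.lf (nat_lit 10332) (nat_lit 6) (nat_lit 123) (nat_lit 2) (nat_lit 73) (nat_lit 74) (nat_lit 42))) (PT.nd (nat_lit 94) (PT.lf (nat_lit 9828) (nat_lit 3) (nat_lit 117) (nat_lit 0) (nat_lit 74) (nat_lit 74) (nat_lit 41)) (PT.lf (nat_lit 9324) (nat_lit 6) (nat_lit 111) (nat_lit 0) (nat_lit 75) (nat_lit 74) (nat_lit 40)))) (PT.nd (nat_lit 188)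 (PT.nd (nat_lit 94) (PT.lf (nat_lit 8736) (nat_lit 6) (nat_lit 104) (nat_lit 0) (nat_lit 76) (nat_lit 74) (nat_lit 39)) (PT.lf (nat_lit 8232) (nat_lit 6) (nat_lit 98) (nat_lit 0) (nat_lit 77) (nat_lit 74) (nat_lit 38))) (PT.nd (nat_lit 94) (PT.lf (nat_lit 7728) (nat_lit 6) (nat_lit 92) (nat_lit 0) (nat_lit 78) (nat_lit 74) (nat_lit 37)) (PT.nd (nat_lit 94) (PT.lf (nat_lit 7308) (nat_lit 6) (nat_lit 87) (nat_lit 0) (nat_lit 79) (nat_lit 74) (nat_lit 36)) (PT.lf (nat_lit 6804) (nat_lit 6) (nat_lit 81) (nat_lit 0) (nat_lit 80) (nat_lit 74) (nat_lit 35)))))) (PT.nd (nat_lit 470) (PT.nd (nat_lit 188) (PT.nd (nat_lit 94) (PT.lf (nat_lit 6468) (nat_lit 6) (nat_lit 77) (nat_lit 5) (nat_lit 34) (nat_lit 75) (nat_lit 80)) (PT.lf (nat_lit 6888) (nat_lit 6) (nat_lit 82) (nat_lit 5) (nat_lit 35) (nat_lit 75) (nat_lit 79))) (PT.nd (nat_lit 94) (PT.lf (nat_lit 7392) (nat_lit 6) (nat_lit 88) (nat_lit 5) (nat_lit 36) (nat_lit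 75) (nat_lit 78)) (PT.nd (nat_lit 94) (PT.lf (nat_lit 7812) (nat_lit 6) (nat_lit 93) (nat_lit 5) (nat_lit 37) (nat_lit 75) (nat_lit 77)) (PT.lf (nat_lit 8316) (nat_lit 6) (nat_lit 99) (nat_lit 5) (nat_lit 38) (nat_lit 75) (nat_lit 76))))) (PT.nd (nat_lit 188) (PT.nd (nat_lit 94) (PT.lf (nat_lit 8820) (nat_lit 3) (nat_lit 105) (nat_lit 4) (nat_lit 39) (nat_lit 75) (nat_lit 75)) (PT.lf (nat_lit 9324) (nat_lit 6) (nat_lit 111) (nat_lit 4) (nat_lit 40) (nat_lit 75) (nat_lit 74))) (PT.nd (nat_lit 94) (PT.lf (nat_lit 9744) (nat_lit 6) (nat_lit 116) (nat_lit 4) (nat_lit 41) (nat_lit 75) (nat_lit 73)) (PT.nd (nat_lit 94) (PT.lf (nat_lit 10248) (nat_lit 6) (nat_lit 122) (nat_lit 4) (nat_lit 42) (nat_lit 75) (nat_lit 72)) (PT.lf (nat_lit 10752) (nat_lit 6) (nat_lit 128) (nat_lit 4) (nat_lit 43) (nat_lit 75) (nat_lit 71))))))))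
noncomputable def pc26 : PT := (PT.nd (nat_lit 1692) (PT.nd (nat_lit 846) (PT.nd (nat_lit 376) (PT.nd (nat_lit 188) (PT.nd (nat_lit 94) (PT.lf (nat_lit 11340) (nat_lit 6) (nat_lit 135) (nat_lit 4) (nat_lit 44) (nat_lit 75) (nat_lit 70)) (PT.lf (nat_lit 11928) (nat_lit 6) (nat_lit 142) (nat_lit 4) (nat_lit 45) (nat_lit 75) (nat_lit 69))) (PT.nd (nat_lit 94) (PT.lf (nat_lit 12516) (nat_lit 6) (nat_lit 149) (nat_lit 4) (nat_lit 46) (nat_lit 75) (nat_lit 68)) (PT.lf (nat_lit 13104) (nat_lit 6) (nat_lit 156) (nat_lit 4) (nat_lit 47) (nat_lit 75) (nat_lit 67)))) (PT.nd (nat_lit 188) (PT.nd (nat_lit 94) (PT.lf (nat_lit 14364) (nat_lit 6) (nat_lit 171) (nat_lit 4) (nat_lit 48) (nat_lit 75) (nat_lit 66)) (PT.lf (nat_lit 15540) (nat_lit 6) (nat_lit 185) (nat_lit 4) (nat_lit 49) (nat_lit 75) (nat_lit 65))) (PT.nd (nat_lit 94) (PT.lf (nat_lit 16632) (nat_lit 6) (nat_lit 198) (nat_lit 4) (nat_lit 50) (nat_lit 75) (nat_lit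 64)) (PT.nd (nat_lit 94) (PT.lf (nat_lit 17640) (nat_lit 6) (nat_lit 210) (nat_lit 4) (nat_lit 51) (nat_lit 75) (nat_lit 63)) (PT.lf (nat_lit 17556) (nat_lit 6) (nat_lit 209) (nat_lit 4) (nat_lit 52) (nat_lit 75) (nat_lit 62)))))) (PT.nd (nat_lit 376) (PT.nd (nat_lit 188) (PT.nd (nat_lit 94) (PT.lf (nat_lit 17472) (nat_lit 6) (nat_lit 208) (nat_lit 4) (nat_lit 53) (nat_lit 75) (nat_lit 61)) (PT.lf (nat_lit 17388) (nat_lit 6) (nat_lit 207) (nat_lit 4) (nat_lit 54) (nat_lit 75) (nat_lit 60))) (PT.nd (nat_lit 94) (PT.lf (nat_lit 17304) (nat_lit 6) (nat_lit 206) (nat_lit 4) (nat_lit 55) (nat_lit 75) (nat_lit 59)) (PT.lf (nat_lit 17220) (nat_lit 6) (nat_lit 205) (nat_lit 4) (nat_lit 56) (nat_lit 75) (nat_lit 58)))) (PT.nd (nat_lit 188) (PT.nd (nat_lit 94) (PT.lf (nat_lit 17136) (nat_lit 3) (nat_lit 204) (nat_lit 2) (nat_lit 57) (nat_lit 75) (nat_lit 57)) (PT.lf (nat_lit 17220) (nat_lit 6) (nat_lit 205) (nat_lit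 2) (nat_lit 58) (nat_lit 75) (nat_lit 56))) (PT.nd (nat_lit 94) (PT.lf (nat_lit 17304) (nat_lit 6) (nat_lit 206) (nat_lit 2) (nat_lit 59) (nat_lit 75) (nat_lit 55)) (PT.nd (nat_lit 94) (PT.lf (nat_lit 17388) (nat_lit 6) (nat_lit 207) (nat_lit 2) (nat_lit 60) (nat_lit 75) (nat_lit 54)) (PT.lf (nat_lit 17472) (nat_lit 6) (nat_lit 208) (nat_lit 2) (nat_lit 61) (nat_lit 75) (nat_lit 53))))))) (PT.nd (nat_lit 846) (PT.nd (nat_lit 376) (PT.nd (nat_lit 188) (PT.nd (nat_lit 94) (PT.lf (nat_lit 17556) (nat_lit 6) (nat_lit 209) (nat_lit 2) (nat_lit 62) (nat_lit 75) (nat_lit 52)) (PT.lf (nat_lit 17640) (nat_lit 6) (nat_lit 210) (nat_lit 2) (nat_lit 63) (nat_lit 75) (nat_lit 51))) (PT.nd (nat_lit 94) (PT.lf (nat_lit 16632) (nat_lit 6) (nat_lit 198) (nat_lit 2) (nat_lit 64) (nat_lit 75) (nat_lit 50)) (PT.lf (nat_lit 15540) (nat_lit 6) (nat_lit 185) (nat_lit 2) (nat_lit 65) (nat_lit 75) (nat_lit 49)))) (PT.nd (nat_lit 188)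 (PT.nd (nat_lit 94) (PT.lf (nat_lit 14364) (nat_lit 6) (nat_lit 171) (nat_lit 2) (nat_lit 66) (nat_lit 75) (nat_lit 48)) (PT.lf (nat_lit 13104) (nat_lit 6) (nat_lit 156) (nat_lit 2) (nat_lit 67) (nat_lit 75) (nat_lit 47))) (PT.nd (nat_lit 94) (PT.lf (nat_lit 12516) (nat_lit 6) (nat_lit 149) (nat_lit 2) (nat_lit 68) (nat_lit 75) (nat_lit 46)) (PT.nd (nat_lit 94) (PT.lf (nat_lit 11928) (nat_lit 6) (nat_lit 142) (nat_lit 2) (nat_lit 69) (nat_lit 75) (nat_lit 45)) (PT.lf (nat_lit 11340) (nat_lit 6) (nat_lit 135) (nat_lit 2) (nat_lit 70) (nat_lit 75) (nat_lit 44)))))) (PT.nd (nat_lit 376) (PT.nd (nat_lit 188) (PT.nd (nat_lit 94) (PT.lf (nat_lit 10752) (nat_lit 6) (nat_lit 128) (nat_lit 2) (nat_lit 71) (nat_lit 75) (nat_lit 43)) (PT.lf (nat_lit 10248) (nat_lit 6) (nat_lit 122) (nat_lit 2) (nat_lit 72) (nat_lit 75) (nat_lit 42))) (PT.nd (nat_lit 94) (PT.lf (nat_lit 9744) (nat_lit 6) (nat_lit 116) (nat_lit 2) (nat_lit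 73) (nat_lit 75) (nat_lit 41)) (PT.lf (nat_lit 9324) (nat_lit 6) (nat_lit 111) (nat_lit 2) (nat_lit 74) (nat_lit 75) (nat_lit 40)))) (PT.nd (nat_lit 188) (PT.nd (nat_lit 94) (PT.lf (nat_lit 8820) (nat_lit 3) (nat_lit 105) (nat_lit 0) (nat_lit 75) (nat_lit 75) (nat_lit 39)) (PT.lf (nat_lit 8316) (nat_lit 6) (nat_lit 99) (nat_lit 0) (nat_lit 76) (nat_lit 75) (nat_lit 38))) (PT.nd (nat_lit 94) (PT.lf (nat_lit 7812) (nat_lit 6) (nat_lit 93) (nat_lit 0) (nat_lit 77) (nat_lit 75) (nat_lit 37)) (PT.nd (nat_lit 94) (PT.lf (nat_lit 7392) (nat_lit 6) (nat_lit 88) (nat_lit 0) (nat_lit 78) (nat_lit 75) (nat_lit 36)) (PT.lf (nat_lit 6888) (nat_lit 6) (nat_lit 82) (nat_lit 0) (nat_lit 79) (nat_lit 75) (nat_lit 35))))))))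
noncomputable def pc27 : PT := (PT.nd (nat_lit 56494) (PT.nd (nat_lit 55648) (PT.nd (nat_lit 55178) (PT.nd (nat_lit 54990) (PT.nd (nat_lit 54896) (PT.lf (nat_lit 6468) (nat_lit 6) (nat_lit 77) (nat_lit 0) (nat_lit 80) (nat_lit 75) (nat_lit 34)) (PT.lf (nat_lit 6132) (nat_lit 6) (nat_lit 73) (nat_lit 5) (nat_lit 33) (nat_lit 76) (nat_lit 80))) (PT.nd (nat_lit 94) (PT.lf (nat_lit 6552) (nat_lit 6) (nat_lit 78) (nat_lit 5) (nat_lit 34) (nat_lit 76) (nat_lit 79)) (PT.lf (nat_lit 6972) (nat_lit 6) (nat_lit 83) (nat_lit 5) (nat_lit 35) (nat_lit 76) (nat_lit 78)))) (PT.nd (nat_lit 188) (PT.nd (nat_lit 94) (PT.lf (nat_lit 7476) (nat_lit 6) (nat_lit 89) (nat_lit 5) (nat_lit 36) (nat_lit 76) (nat_lit 77)) (PT.lf (nat_lit 7896) (nat_lit 3) (nat_lit 94) (nat_lit 4) (nat_lit 37) (nat_lit 76) (nat_lit 76))) (PT.nd (nat_lit 94) (PT.lf (nat_lit 8316) (nat_lit 6) (nat_lit 99) (nat_lit 4) (nat_lit 38) (nat_lit 76) (nat_lit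 75)) (PT.nd (nat_lit 94) (PT.lf (nat_lit 8736) (nat_lit 6) (nat_lit 104) (nat_lit 4) (nat_lit 39) (nat_lit 76) (nat_lit 74)) (PT.lf (nat_lit 9240) (nat_lit 6) (nat_lit 110) (nat_lit 4) (nat_lit 40) (nat_lit 76) (nat_lit 73)))))) (PT.nd (nat_lit 376) (PT.nd (nat_lit 188) (PT.nd (nat_lit 94) (PT.lf (nat_lit 9660) (nat_lit 6) (nat_lit 115) (nat_lit 4) (nat_lit 41) (nat_lit 76) (nat_lit 72)) (PT.lf (nat_lit 10164) (nat_lit 6) (nat_lit 121) (nat_lit 4) (nat_lit 42) (nat_lit 76) (nat_lit 71))) (PT.nd (nat_lit 94) (PT.lf (nat_lit 10668) (nat_lit 6) (nat_lit 127) (nat_lit 4) (nat_lit 43) (nat_lit 76) (nat_lit 70)) (PT.lf (nat_lit 11256) (nat_lit 6) (nat_lit 134) (nat_lit 4) (nat_lit 44) (nat_lit 76) (nat_lit 69)))) (PT.nd (nat_lit 188) (PT.nd (nat_lit 94) (PT.lf (nat_lit 11844) (nat_lit 6) (nat_lit 141) (nat_lit 4) (nat_lit 45) (nat_lit 76) (nat_lit 68)) (PT.lf (nat_lit 12432) (nat_lit 6) (nat_lit 148) (nat_lit 4)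 (nat_lit 46) (nat_lit 76) (nat_lit 67))) (PT.nd (nat_lit 94) (PT.lf (nat_lit 13020) (nat_lit 6) (nat_lit 155) (nat_lit 4) (nat_lit 47) (nat_lit 76) (nat_lit 66)) (PT.nd (nat_lit 94) (PT.lf (nat_lit 14280) (nat_lit 6) (nat_lit 170) (nat_lit 4) (nat_lit 48) (nat_lit 76) (nat_lit 65)) (PT.lf (nat_lit 15456) (nat_lit 6) (nat_lit 184) (nat_lit 4) (nat_lit 49) (nat_lit 76) (nat_lit 64))))))) (PT.nd (nat_lit 846) (PT.nd (nat_lit 376) (PT.nd (nat_lit 188) (PT.nd (nat_lit 94) (PT.lf (nat_lit 16548) (nat_lit 6) (nat_lit 197) (nat_lit 4) (nat_lit 50) (nat_lit 76) (nat_lit 63)) (PT.lf (nat_lit 16464) (nat_lit 6) (nat_lit 196) (nat_lit 4) (nat_lit 51) (nat_lit 76) (nat_lit 62))) (PT.nd (nat_lit 94) (PT.lf (nat_lit 16380) (nat_lit 6) (nat_lit 195) (nat_lit 4) (nat_lit 52) (nat_lit 76) (nat_lit 61)) (PT.lf (nat_lit 16296) (nat_lit 6) (nat_lit 194) (nat_lit 4) (nat_lit 53) (nat_lit 76) (nat_lit 60)))) (PT.nd (nat_lit 188)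 (PT.nd (nat_lit 94) (PT.lf (nat_lit 16212) (nat_lit 6) (nat_lit 193) (nat_lit 4) (nat_lit 54) (nat_lit 76) (nat_lit 59)) (PT.lf (nat_lit 16128) (nat_lit 6) (nat_lit 192) (nat_lit 4) (nat_lit 55) (nat_lit 76) (nat_lit 58))) (PT.nd (nat_lit 94) (PT.lf (nat_lit 16044) (nat_lit 6) (nat_lit 191) (nat_lit 4) (nat_lit 56) (nat_lit 76) (nat_lit 57)) (PT.nd (nat_lit 94) (PT.lf (nat_lit 16044) (nat_lit 6) (nat_lit 191) (nat_lit 2) (nat_lit 57) (nat_lit 76) (nat_lit 56)) (PT.lf (nat_lit 16128) (nat_lit 6) (nat_lit 192) (nat_lit 2) (nat_lit 58) (nat_lit 76) (nat_lit 55)))))) (PT.nd (nat_lit 470) (PT.nd (nat_lit 188) (PT.nd (nat_lit 94) (PT.lf (nat_lit 16212) (nat_lit 6) (nat_lit 193) (nat_lit 2) (nat_lit 59) (nat_lit 76) (nat_lit 54)) (PT.lf (nat_lit 16296) (nat_lit 6) (nat_lit 194) (nat_lit 2) (nat_lit 60) (nat_lit 76) (nat_lit 53))) (PT.nd (nat_lit 94) (PT.lf (nat_lit 16380) (nat_lit 6) (nat_lit 195) (nat_lit 2) (nat_lit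 61) (nat_lit 76) (nat_lit 52)) (PT.nd (nat_lit 94) (PT.lf (nat_lit 16464) (nat_lit 6) (nat_lit 196) (nat_lit 2) (nat_lit 62) (nat_lit 76) (nat_lit 51)) (PT.lf (nat_lit 16548) (nat_lit 6) (nat_lit 197) (nat_lit 2) (nat_lit 63) (nat_lit 76) (nat_lit 50))))) (PT.nd (nat_lit 188) (PT.nd (nat_lit 94) (PT.lf (nat_lit 15456) (nat_lit 6) (nat_lit 184) (nat_lit 2) (nat_lit 64) (nat_lit 76) (nat_lit 49)) (PT.lf (nat_lit 14280) (nat_lit 6) (nat_lit 170) (nat_lit 2) (nat_lit 65) (nat_lit 76) (nat_lit 48))) (PT.nd (nat_lit 94) (PT.lf (nat_lit 13020) (nat_lit 6) (nat_lit 155) (nat_lit 2) (nat_lit 66) (nat_lit 76) (nat_lit 47)) (PT.nd (nat_lit 94) (PT.lf (nat_lit 12432) (nat_lit 6) (nat_lit 148) (nat_lit 2) (nat_lit 67) (nat_lit 76) (nat_lit 46)) (PT.lf (nat_lit 11844) (nat_lit 6) (nat_lit 141) (nat_lit 2) (nat_lit 68) (nat_lit 76) (nat_lit 45))))))))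
noncomputable def pc28 : PT := (PT.nd (nat_lit 56400) (PT.nd (nat_lit 846) (PT.nd (nat_lit 376) (PT.nd (nat_lit 188) (PT.nd (nat_lit 94) (PT.lf (nat_lit 11256) (nat_lit 6) (nat_lit 134) (nat_lit 2) (nat_lit 69) (nat_lit 76) (nat_lit 44)) (PT.lf (nat_lit 10668) (nat_lit 6) (nat_lit 127) (nat_lit 2) (nat_lit 70) (nat_lit 76) (nat_lit 43))) (PT.nd (nat_lit 94) (PT.lf (nat_lit 10164) (nat_lit 6) (nat_lit 121) (nat_lit 2) (nat_lit 71) (nat_lit 76) (nat_lit 42)) (PT.lf (nat_lit 9660) (nat_lit 6) (nat_lit 115) (nat_lit 2) (nat_lit 72) (nat_lit 76) (nat_lit 41)))) (PT.nd (nat_lit 188) (PT.nd (nat_lit 94) (PT.lf (nat_lit 9240) (nat_lit 6) (nat_lit 110) (nat_lit 2) (nat_lit 73) (nat_lit 76) (nat_lit 40)) (PT.lf (nat_lit 8736) (nat_lit 6) (nat_lit 104) (nat_lit 2) (nat_lit 74) (nat_lit 76) (nat_lit 39))) (PT.nd (nat_lit 94) (PT.lf (nat_lit 8316) (nat_lit 6) (nat_lit 99) (nat_lit 2) (nat_lit 75) (nat_lit 76) (nat_lit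 38)) (PT.nd (nat_lit 94) (PT.lf (nat_lit 7896) (nat_lit 3) (nat_lit 94) (nat_lit 0) (nat_lit 76) (nat_lit 76) (nat_lit 37)) (PT.lf (nat_lit 7476) (nat_lit 6) (nat_lit 89) (nat_lit 0) (nat_lit 77) (nat_lit 76) (nat_lit 36)))))) (PT.nd (nat_lit 55084) (PT.nd (nat_lit 188) (PT.nd (nat_lit 94) (PT.lf (nat_lit 6972) (nat_lit 6) (nat_lit 83) (nat_lit 0) (nat_lit 78) (nat_lit 76) (nat_lit 35)) (PT.lf (nat_lit 6552) (nat_lit 6) (nat_lit 78) (nat_lit 0) (nat_lit 79) (nat_lit 76) (nat_lit 34))) (PT.nd (nat_lit 54802) (PT.lf (nat_lit 6132) (nat_lit 6) (nat_lit 73) (nat_lit 0) (nat_lit 80) (nat_lit 76) (nat_lit 33)) (PT.lf (nat_lit 5796) (nat_lit 6) (nat_lit 69) (nat_lit 5) (nat_lit 32) (nat_lit 77) (nat_lit 80)))) (PT.nd (nat_lit 188) (PT.nd (nat_lit 94) (PT.lf (nat_lit 6216) (nat_lit 6) (nat_lit 74) (nat_lit 5) (nat_lit 33) (nat_lit 77) (nat_lit 79)) (PT.lf (nat_lit 6636) (nat_lit 6) (nat_lit 79) (nat_lit 5) (nat_lit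 34) (nat_lit 77) (nat_lit 78))) (PT.nd (nat_lit 94) (PT.lf (nat_lit 7056) (nat_lit 3) (nat_lit 84) (nat_lit 4) (nat_lit 35) (nat_lit 77) (nat_lit 77)) (PT.nd (nat_lit 94) (PT.lf (nat_lit 7476) (nat_lit 6) (nat_lit 89) (nat_lit 4) (nat_lit 36) (nat_lit 77) (nat_lit 76)) (PT.lf (nat_lit 7812) (nat_lit 6) (nat_lit 93) (nat_lit 4) (nat_lit 37) (nat_lit 77) (nat_lit 75))))))) (PT.nd (nat_lit 846) (PT.nd (nat_lit 376) (PT.nd (nat_lit 188) (PT.nd (nat_lit 94) (PT.lf (nat_lit 8232) (nat_lit 6) (nat_lit 98) (nat_lit 4) (nat_lit 38) (nat_lit 77) (nat_lit 74)) (PT.lf (nat_lit 8652) (nat_lit 6) (nat_lit 103) (nat_lit 4) (nat_lit 39) (nat_lit 77) (nat_lit 73))) (PT.nd (nat_lit 94) (PT.lf (nat_lit 9156) (nat_lit 6) (nat_lit 109) (nat_lit 4) (nat_lit 40) (nat_lit 77) (nat_lit 72)) (PT.lf (nat_lit 9576) (nat_lit 6) (nat_lit 114) (nat_lit 4) (nat_lit 41) (nat_lit 77) (nat_lit 71)))) (PT.nd (nat_lit 188) (PT.nd (nat_lit 94)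 (PT.lf (nat_lit 10080) (nat_lit 6) (nat_lit 120) (nat_lit 4) (nat_lit 42) (nat_lit 77) (nat_lit 70)) (PT.lf (nat_lit 10584) (nat_lit 6) (nat_lit 126) (nat_lit 4) (nat_lit 43) (nat_lit 77) (nat_lit 69))) (PT.nd (nat_lit 94) (PT.lf (nat_lit 11172) (nat_lit 6) (nat_lit 133) (nat_lit 4) (nat_lit 44) (nat_lit 77) (nat_lit 68)) (PT.nd (nat_lit 94) (PT.lf (nat_lit 11760) (nat_lit 6) (nat_lit 140) (nat_lit 4) (nat_lit 45) (nat_lit 77) (nat_lit 67)) (PT.lf (nat_lit 12348) (nat_lit 6) (nat_lit 147) (nat_lit 4) (nat_lit 46) (nat_lit 77) (nat_lit 66)))))) (PT.nd (nat_lit 376) (PT.nd (nat_lit 188) (PT.nd (nat_lit 94) (PT.lf (nat_lit 12936) (nat_lit 6) (nat_lit 154) (nat_lit 4) (nat_lit 47) (nat_lit 77) (nat_lit 65)) (PT.lf (nat_lit 14196) (nat_lit 6) (nat_lit 169) (nat_lit 4) (nat_lit 48) (nat_lit 77) (nat_lit 64))) (PT.nd (nat_lit 94) (PT.lf (nat_lit 15372) (nat_lit 6) (nat_lit 183) (nat_lit 4) (nat_lit 49) (nat_lit 77)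 (nat_lit 63)) (PT.lf (nat_lit 15288) (nat_lit 6) (nat_lit 182) (nat_lit 4) (nat_lit 50) (nat_lit 77) (nat_lit 62)))) (PT.nd (nat_lit 188) (PT.nd (nat_lit 94) (PT.lf (nat_lit 15204) (nat_lit 6) (nat_lit 181) (nat_lit 4) (nat_lit 51) (nat_lit 77) (nat_lit 61)) (PT.lf (nat_lit 15120) (nat_lit 6) (nat_lit 180) (nat_lit 4) (nat_lit 52) (nat_lit 77) (nat_lit 60))) (PT.nd (nat_lit 94) (PT.lf (nat_lit 15036) (nat_lit 6) (nat_lit 179) (nat_lit 4) (nat_lit 53) (nat_lit 77) (nat_lit 59)) (PT.nd (nat_lit 94) (PT.lf (nat_lit 14952) (nat_lit 6) (nat_lit 178) (nat_lit 4) (nat_lit 54) (nat_lit 77) (nat_lit 58)) (PT.lf (nat_lit 14868) (nat_lit 6) (nat_lit 177) (nat_lit 4) (nat_lit 55) (nat_lit 77) (nat_lit 57))))))))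
noncomputable def pc29 : PT := (PT.nd (nat_lit 1692) (PT.nd (nat_lit 846) (PT.nd (nat_lit 376) (PT.nd (nat_lit 188) (PT.nd (nat_lit 94) (PT.lf (nat_lit 14784) (nat_lit 3) (nat_lit 176) (nat_lit 2) (nat_lit 56) (nat_lit 77) (nat_lit 56)) (PT.lf (nat_lit 14868) (nat_lit 6) (nat_lit 177) (nat_lit 2) (nat_lit 57) (nat_lit 77) (nat_lit 55))) (PT.nd (nat_lit 94) (PT.lf (nat_lit 14952) (nat_lit 6) (nat_lit 178) (nat_lit 2) (nat_lit 58) (nat_lit 77) (nat_lit 54)) (PT.lf (nat_lit 15036) (nat_lit 6) (nat_lit 179) (nat_lit 2) (nat_lit 59) (nat_lit 77) (nat_lit 53)))) (PT.nd (nat_lit 188) (PT.nd (nat_lit 94) (PT.lf (nat_lit 15120) (nat_lit 6) (nat_lit 180) (nat_lit 2) (nat_lit 60) (nat_lit 77) (nat_lit 52)) (PT.lf (nat_lit 15204) (nat_lit 6) (nat_lit 181) (nat_lit 2) (nat_lit 61) (nat_lit 77) (nat_lit 51))) (PT.nd (nat_lit 94) (PT.lf (nat_lit 15288) (nat_lit 6) (nat_lit 182) (nat_lit 2) (nat_lit 62) (nat_lit 77) (nat_lit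 50)) (PT.nd (nat_lit 94) (PT.lf (nat_lit 15372) (nat_lit 6) (nat_lit 183) (nat_lit 2) (nat_lit 63) (nat_lit 77) (nat_lit 49)) (PT.lf (nat_lit 14196) (nat_lit 6) (nat_lit 169) (nat_lit 2) (nat_lit 64) (nat_lit 77) (nat_lit 48)))))) (PT.nd (nat_lit 376) (PT.nd (nat_lit 188) (PT.nd (nat_lit 94) (PT.lf (nat_lit 12936) (nat_lit 6) (nat_lit 154) (nat_lit 2) (nat_lit 65) (nat_lit 77) (nat_lit 47)) (PT.lf (nat_lit 12348) (nat_lit 6) (nat_lit 147) (nat_lit 2) (nat_lit 66) (nat_lit 77) (nat_lit 46))) (PT.nd (nat_lit 94) (PT.lf (nat_lit 11760) (nat_lit 6) (nat_lit 140) (nat_lit 2) (nat_lit 67) (nat_lit 77) (nat_lit 45)) (PT.lf (nat_lit 11172) (nat_lit 6) (nat_lit 133) (nat_lit 2) (nat_lit 68) (nat_lit 77) (nat_lit 44)))) (PT.nd (nat_lit 188) (PT.nd (nat_lit 94) (PT.lf (nat_lit 10584) (nat_lit 6) (nat_lit 126) (nat_lit 2) (nat_lit 69) (nat_lit 77) (nat_lit 43)) (PT.lf (nat_lit 10080) (nat_lit 6) (nat_lit 120) (nat_lit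 2) (nat_lit 70) (nat_lit 77) (nat_lit 42))) (PT.nd (nat_lit 94) (PT.lf (nat_lit 9576) (nat_lit 6) (nat_lit 114) (nat_lit 2) (nat_lit 71) (nat_lit 77) (nat_lit 41)) (PT.nd (nat_lit 94) (PT.lf (nat_lit 9156) (nat_lit 6) (nat_lit 109) (nat_lit 2) (nat_lit 72) (nat_lit 77) (nat_lit 40)) (PT.lf (nat_lit 8652) (nat_lit 6) (nat_lit 103) (nat_lit 2) (nat_lit 73) (nat_lit 77) (nat_lit 39))))))) (PT.nd (nat_lit 55460) (PT.nd (nat_lit 376) (PT.nd (nat_lit 188) (PT.nd (nat_lit 94) (PT.lf (nat_lit 8232) (nat_lit 6) (nat_lit 98) (nat_lit 2) (nat_lit 74) (nat_lit 77) (nat_lit 38)) (PT.lf (nat_lit 7812) (nat_lit 6) (nat_lit 93) (nat_lit 2) (nat_lit 75) (nat_lit 77) (nat_lit 37))) (PT.nd (nat_lit 94) (PT.lf (nat_lit 7476) (nat_lit 6) (nat_lit 89) (nat_lit 2) (nat_lit 76) (nat_lit 77) (nat_lit 36)) (PT.lf (nat_lit 7056) (nat_lit 3) (nat_lit 84) (nat_lit 0) (nat_lit 77) (nat_lit 77) (nat_lit 35)))) (PT.nd (nat_lit 188) (PT.nd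 (nat_lit 94) (PT.lf (nat_lit 6636) (nat_lit 6) (nat_lit 79) (nat_lit 0) (nat_lit 78) (nat_lit 77) (nat_lit 34)) (PT.lf (nat_lit 6216) (nat_lit 6) (nat_lit 74) (nat_lit 0) (nat_lit 79) (nat_lit 77) (nat_lit 33))) (PT.nd (nat_lit 54708) (PT.lf (nat_lit 5796) (nat_lit 6) (nat_lit 69) (nat_lit 0) (nat_lit 80) (nat_lit 77) (nat_lit 32)) (PT.nd (nat_lit 94) (PT.lf (nat_lit 5460) (nat_lit 6) (nat_lit 65) (nat_lit 5) (nat_lit 31) (nat_lit 78) (nat_lit 80)) (PT.lf (nat_lit 5880) (nat_lit 6) (nat_lit 70) (nat_lit 5) (nat_lit 32) (nat_lit 78) (nat_lit 79)))))) (PT.nd (nat_lit 470) (PT.nd (nat_lit 188) (PT.nd (nat_lit 94) (PT.lf (nat_lit 6300) (nat_lit 3) (nat_lit 75) (nat_lit 4) (nat_lit 33) (nat_lit 78) (nat_lit 78)) (PT.lf (nat_lit 6636) (nat_lit 6) (nat_lit 79) (nat_lit 4) (nat_lit 34) (nat_lit 78) (nat_lit 77))) (PT.nd (nat_lit 94) (PT.lf (nat_lit 6972) (nat_lit 6) (nat_lit 83) (nat_lit 4) (nat_lit 35) (nat_lit 78)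 (nat_lit 76)) (PT.nd (nat_lit 94) (PT.lf (nat_lit 7392) (nat_lit 6) (nat_lit 88) (nat_lit 4) (nat_lit 36) (nat_lit 78) (nat_lit 75)) (PT.lf (nat_lit 7728) (nat_lit 6) (nat_lit 92) (nat_lit 4) (nat_lit 37) (nat_lit 78) (nat_lit 74))))) (PT.nd (nat_lit 188) (PT.nd (nat_lit 94) (PT.lf (nat_lit 8148) (nat_lit 6) (nat_lit 97) (nat_lit 4) (nat_lit 38) (nat_lit 78) (nat_lit 73)) (PT.lf (nat_lit 8568) (nat_lit 6) (nat_lit 102) (nat_lit 4) (nat_lit 39) (nat_lit 78) (nat_lit 72))) (PT.nd (nat_lit 94) (PT.lf (nat_lit 9072) (nat_lit 6) (nat_lit 108) (nat_lit 4) (nat_lit 40) (nat_lit 78) (nat_lit 71)) (PT.nd (nat_lit 94) (PT.lf (nat_lit 9492) (nat_lit 6) (nat_lit 113) (nat_lit 4) (nat_lit 41) (nat_lit 78) (nat_lit 70)) (PT.lf (nat_lit 9996) (nat_lit 6) (nat_lit 119) (nat_lit 4) (nat_lit 42) (nat_lit 78) (nat_lit 69))))))))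
noncomputable def pc30 : PT := (PT.nd (nat_lit 2820) (PT.nd (nat_lit 1974) (PT.nd (nat_lit 376) (PT.nd (nat_lit 188) (PT.nd (nat_lit 94) (PT.lf (nat_lit 10500) (nat_lit 6) (nat_lit 125) (nat_lit 4) (nat_lit 43) (nat_lit 78) (nat_lit 68)) (PT.lf (nat_lit 11088) (nat_lit 6) (nat_lit 132) (nat_lit 4) (nat_lit 44) (nat_lit 78) (nat_lit 67))) (PT.nd (nat_lit 94) (PT.lf (nat_lit 11676) (nat_lit 6) (nat_lit 139) (nat_lit 4) (nat_lit 45) (nat_lit 78) (nat_lit 66)) (PT.lf (nat_lit 12264) (nat_lit 6) (nat_lit 146) (nat_lit 4) (nat_lit 46) (nat_lit 78) (nat_lit 65)))) (PT.nd (nat_lit 188) (PT.nd (nat_lit 94) (PT.lf (nat_lit 12852) (nat_lit 6) (nat_lit 153) (nat_lit 4) (nat_lit 47) (nat_lit 78) (nat_lit 64)) (PT.lf (nat_lit 14112) (nat_lit 6) (nat_lit 168) (nat_lit 4) (nat_lit 48) (nat_lit 78) (nat_lit 63))) (PT.nd (nat_lit 1222) (PT.lf (nat_lit 14028) (nat_lit 6) (nat_lit 167) (nat_lit 4) (nat_lit 49) (nat_lit 78) (nat_lit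 62)) (PT.nd (nat_lit 94) (PT.lf (nat_lit 14028) (nat_lit 6) (nat_lit 167) (nat_lit 2) (nat_lit 62) (nat_lit 78) (nat_lit 49)) (PT.lf (nat_lit 14112) (nat_lit 6) (nat_lit 168) (nat_lit 2) (nat_lit 63) (nat_lit 78) (nat_lit 48)))))) (PT.nd (nat_lit 376) (PT.nd (nat_lit 188) (PT.nd (nat_lit 94) (PT.lf (nat_lit 12852) (nat_lit 6) (nat_lit 153) (nat_lit 2) (nat_lit 64) (nat_lit 78) (nat_lit 47)) (PT.lf (nat_lit 12264) (nat_lit 6) (nat_lit 146) (nat_lit 2) (nat_lit 65) (nat_lit 78) (nat_lit 46))) (PT.nd (nat_lit 94) (PT.lf (nat_lit 11676) (nat_lit 6) (nat_lit 139) (nat_lit 2) (nat_lit 66) (nat_lit 78) (nat_lit 45)) (PT.lf (nat_lit 11088) (nat_lit 6) (nat_lit 132) (nat_lit 2) (nat_lit 67) (nat_lit 78) (nat_lit 44)))) (PT.nd (nat_lit 188) (PT.nd (nat_lit 94) (PT.lf (nat_lit 10500) (nat_lit 6) (nat_lit 125) (nat_lit 2) (nat_lit 68) (nat_lit 78) (nat_lit 43)) (PT.lf (nat_lit 9996) (nat_lit 6) (nat_lit 119) (nat_lit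 2) (nat_lit 69) (nat_lit 78) (nat_lit 42))) (PT.nd (nat_lit 94) (PT.lf (nat_lit 9492) (nat_lit 6) (nat_lit 113) (nat_lit 2) (nat_lit 70) (nat_lit 78) (nat_lit 41)) (PT.nd (nat_lit 94) (PT.lf (nat_lit 9072) (nat_lit 6) (nat_lit 108) (nat_lit 2) (nat_lit 71) (nat_lit 78) (nat_lit 40)) (PT.lf (nat_lit 8568) (nat_lit 6) (nat_lit 102) (nat_lit 2) (nat_lit 72) (nat_lit 78) (nat_lit 39))))))) (PT.nd (nat_lit 55366) (PT.nd (nat_lit 376) (PT.nd (nat_lit 188) (PT.nd (nat_lit 94) (PT.lf (nat_lit 8148) (nat_lit 6) (nat_lit 97) (nat_lit 2) (nat_lit 73) (nat_lit 78) (nat_lit 38)) (PT.lf (nat_lit 7728) (nat_lit 6) (nat_lit 92) (nat_lit 2) (nat_lit 74) (nat_lit 78) (nat_lit 37))) (PT.nd (nat_lit 94) (PT.lf (nat_lit 7392) (nat_lit 6) (nat_lit 88) (nat_lit 2) (nat_lit 75) (nat_lit 78) (nat_lit 36)) (PT.lf (nat_lit 6972) (nat_lit 6) (nat_lit 83) (nat_lit 2) (nat_lit 76) (nat_lit 78) (nat_lit 35)))) (PT.nd (nat_lit 188) (PT.nd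 (nat_lit 94) (PT.lf (nat_lit 6636) (nat_lit 6) (nat_lit 79) (nat_lit 2) (nat_lit 77) (nat_lit 78) (nat_lit 34)) (PT.lf (nat_lit 6300) (nat_lit 3) (nat_lit 75) (nat_lit 0) (nat_lit 78) (nat_lit 78) (nat_lit 33))) (PT.nd (nat_lit 94) (PT.lf (nat_lit 5880) (nat_lit 6) (nat_lit 70) (nat_lit 0) (nat_lit 79) (nat_lit 78) (nat_lit 32)) (PT.nd (nat_lit 54614) (PT.lf (nat_lit 5460) (nat_lit 6) (nat_lit 65) (nat_lit 0) (nat_lit 80) (nat_lit 78) (nat_lit 31)) (PT.lf (nat_lit 5208) (nat_lit 6) (nat_lit 62) (nat_lit 5) (nat_lit 30) (nat_lit 79) (nat_lit 80)))))) (PT.nd (nat_lit 470) (PT.nd (nat_lit 188) (PT.nd (nat_lit 94) (PT.lf (nat_lit 5544) (nat_lit 3) (nat_lit 66) (nat_lit 4) (nat_lit 31) (nat_lit 79) (nat_lit 79)) (PT.lf (nat_lit 5880) (nat_lit 6) (nat_lit 70) (nat_lit 4) (nat_lit 32) (nat_lit 79) (nat_lit 78))) (PT.nd (nat_lit 94) (PT.lf (nat_lit 6216) (nat_lit 6) (nat_lit 74) (nat_lit 4) (nat_lit 33) (nat_lit 79)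 (nat_lit 77)) (PT.nd (nat_lit 94) (PT.lf (nat_lit 6552) (nat_lit 6) (nat_lit 78) (nat_lit 4) (nat_lit 34) (nat_lit 79) (nat_lit 76)) (PT.lf (nat_lit 6888) (nat_lit 6) (nat_lit 82) (nat_lit 4) (nat_lit 35) (nat_lit 79) (nat_lit 75))))) (PT.nd (nat_lit 188) (PT.nd (nat_lit 94) (PT.lf (nat_lit 7308) (nat_lit 6) (nat_lit 87) (nat_lit 4) (nat_lit 36) (nat_lit 79) (nat_lit 74)) (PT.lf (nat_lit 7644) (nat_lit 6) (nat_lit 91) (nat_lit 4) (nat_lit 37) (nat_lit 79) (nat_lit 73))) (PT.nd (nat_lit 94) (PT.lf (nat_lit 8064) (nat_lit 6) (nat_lit 96) (nat_lit 4) (nat_lit 38) (nat_lit 79) (nat_lit 72)) (PT.nd (nat_lit 94) (PT.lf (nat_lit 8484) (nat_lit 6) (nat_lit 101) (nat_lit 4) (nat_lit 39) (nat_lit 79) (nat_lit 71)) (PT.lf (nat_lit 8988) (nat_lit 6) (nat_lit 107) (nat_lit 4) (nat_lit 40) (nat_lit 79) (nat_lit 70))))))))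
noncomputable def pc31 : PT := (PT.nd (nat_lit 58562) (PT.nd (nat_lit 3196) (PT.nd (nat_lit 2726) (PT.nd (nat_lit 2538) (PT.nd (nat_lit 94) (PT.lf (nat_lit 9408) (nat_lit 6) (nat_lit 112) (nat_lit 4) (nat_lit 41) (nat_lit 79) (nat_lit 69)) (PT.lf (nat_lit 9912) (nat_lit 6) (nat_lit 118) (nat_lit 4) (nat_lit 42) (nat_lit 79) (nat_lit 68))) (PT.nd (nat_lit 94) (PT.lf (nat_lit 9912) (nat_lit 6) (nat_lit 118) (nat_lit 2) (nat_lit 68) (nat_lit 79) (nat_lit 42)) (PT.lf (nat_lit 9408) (nat_lit 6) (nat_lit 112) (nat_lit 2) (nat_lit 69) (nat_lit 79) (nat_lit 41)))) (PT.nd (nat_lit 188) (PT.nd (nat_lit 94) (PT.lf (nat_lit 8988) (nat_lit 6) (nat_lit 107) (nat_lit 2) (nat_lit 70) (nat_lit 79) (nat_lit 40)) (PT.lf (nat_lit 8484) (nat_lit 6) (nat_lit 101) (nat_lit 2) (nat_lit 71) (nat_lit 79) (nat_lit 39))) (PT.nd (nat_lit 94) (PT.lf (nat_lit 8064) (nat_lit 6) (nat_lit 96) (nat_lit 2) (nat_lit 72) (nat_lit 79) (nat_lit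 38)) (PT.nd (nat_lit 94) (PT.lf (nat_lit 7644) (nat_lit 6) (nat_lit 91) (nat_lit 2) (nat_lit 73) (nat_lit 79) (nat_lit 37)) (PT.lf (nat_lit 7308) (nat_lit 6) (nat_lit 87) (nat_lit 2) (nat_lit 74) (nat_lit 79) (nat_lit 36)))))) (PT.nd (nat_lit 376) (PT.nd (nat_lit 188) (PT.nd (nat_lit 94) (PT.lf (nat_lit 6888) (nat_lit 6) (nat_lit 82) (nat_lit 2) (nat_lit 75) (nat_lit 79) (nat_lit 35)) (PT.lf (nat_lit 6552) (nat_lit 6) (nat_lit 78) (nat_lit 2) (nat_lit 76) (nat_lit 79) (nat_lit 34))) (PT.nd (nat_lit 94) (PT.lf (nat_lit 6216) (nat_lit 6) (nat_lit 74) (nat_lit 2) (nat_lit 77) (nat_lit 79) (nat_lit 33)) (PT.lf (nat_lit 5880) (nat_lit 6) (nat_lit 70) (nat_lit 2) (nat_lit 78) (nat_lit 79) (nat_lit 32)))) (PT.nd (nat_lit 54708) (PT.nd (nat_lit 94) (PT.lf (nat_lit 5544) (nat_lit 3) (nat_lit 66) (nat_lit 0) (nat_lit 79) (nat_lit 79) (nat_lit 31)) (PT.lf (nat_lit 5208) (nat_lit 6) (nat_lit 62) (nat_lit 0) (nat_lit 80)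 (nat_lit 79) (nat_lit 30))) (PT.nd (nat_lit 94) (PT.lf (nat_lit 5208) (nat_lit 6) (nat_lit 62) (nat_lit 4) (nat_lit 30) (nat_lit 80) (nat_lit 79)) (PT.nd (nat_lit 94) (PT.lf (nat_lit 5460) (nat_lit 6) (nat_lit 65) (nat_lit 4) (nat_lit 31) (nat_lit 80) (nat_lit 78)) (PT.lf (nat_lit 5796) (nat_lit 6) (nat_lit 69) (nat_lit 4) (nat_lit 32) (nat_lit 80) (nat_lit 77))))))) (PT.nd (nat_lit 4042) (PT.nd (nat_lit 376) (PT.nd (nat_lit 188) (PT.nd (nat_lit 94) (PT.lf (nat_lit 6132) (nat_lit 6) (nat_lit 73) (nat_lit 4) (nat_lit 33) (nat_lit 80) (nat_lit 76)) (PT.lf (nat_lit 6468) (nat_lit 6) (nat_lit 77) (nat_lit 4) (nat_lit 34) (nat_lit 80) (nat_lit 75))) (PT.nd (nat_lit 94) (PT.lf (nat_lit 6804) (nat_lit 6) (nat_lit 81) (nat_lit 4) (nat_lit 35) (nat_lit 80) (nat_lit 74)) (PT.lf (nat_lit 7224) (nat_lit 6) (nat_lit 86) (nat_lit 4) (nat_lit 36) (nat_lit 80) (nat_lit 73)))) (PT.nd (nat_lit 3384) (PT.nd (nat_lit 3290) (PT.lf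 (nat_lit 7560) (nat_lit 6) (nat_lit 90) (nat_lit 4) (nat_lit 37) (nat_lit 80) (nat_lit 72)) (PT.lf (nat_lit 7560) (nat_lit 6) (nat_lit 90) (nat_lit 2) (nat_lit 72) (nat_lit 80) (nat_lit 37))) (PT.nd (nat_lit 94) (PT.lf (nat_lit 7224) (nat_lit 6) (nat_lit 86) (nat_lit 2) (nat_lit 73) (nat_lit 80) (nat_lit 36)) (PT.nd (nat_lit 94) (PT.lf (nat_lit 6804) (nat_lit 6) (nat_lit 81) (nat_lit 2) (nat_lit 74) (nat_lit 80) (nat_lit 35)) (PT.lf (nat_lit 6468) (nat_lit 6) (nat_lit 77) (nat_lit 2) (nat_lit 75) (nat_lit 80) (nat_lit 34)))))) (PT.nd (nat_lit 713366) (PT.nd (nat_lit 188) (PT.nd (nat_lit 94) (PT.lf (nat_lit 6132) (nat_lit 6) (nat_lit 73) (nat_lit 2) (nat_lit 76) (nat_lit 80) (nat_lit 33)) (PT.lf (nat_lit 5796) (nat_lit 6) (nat_lit 69) (nat_lit 2) (nat_lit 77) (nat_lit 80) (nat_lit 32))) (PT.nd (nat_lit 94) (PT.lf (nat_lit 5460) (nat_lit 6) (nat_lit 65) (nat_lit 2) (nat_lit 78) (nat_lit 80) (nat_lit 31)) (PT.nd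 (nat_lit 704718) (PT.lf (nat_lit 5208) (nat_lit 6) (nat_lit 62) (nat_lit 2) (nat_lit 79) (nat_lit 80) (nat_lit 30)) (PT.lf (nat_lit 168) (nat_lit 6) (nat_lit 2) (nat_lit 5) (nat_lit 4) (nat_lit 92) (nat_lit 93))))) (PT.nd (nat_lit 50948) (PT.nd (nat_lit 50854) (PT.lf (nat_lit 168) (nat_lit 6) (nat_lit 2) (nat_lit 0) (nat_lit 93) (nat_lit 92) (nat_lit 4)) (PT.lf (nat_lit 84) (nat_lit 3) (nat_lit 1) (nat_lit 4) (nat_lit 3) (nat_lit 93) (nat_lit 93))) (PT.nd (nat_lit 8272) (PT.lf (nat_lit 168) (nat_lit 6) (nat_lit 2) (nat_lit 4) (nat_lit 4) (nat_lit 93) (nat_lit 92)) (PT.nd (nat_lit 94) (PT.lf (nat_lit 168) (nat_lit 6) (nat_lit 2) (nat_lit 2) (nat_lit 92) (nat_lit 93) (nat_lit 4)) (PT.lf (nat_lit 84) (nat_lit 3) (nat_lit 1) (nat_lit 0) (nat_lit 93) (nat_lit 93) (nat_lit 3))))))))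
noncomputable def xc0 : XT := (XT.nd (nat_lit 177472) (nat_lit 0) (nat_lit 0) (XT.nd (nat_lit 118252) (nat_lit 0) (nat_lit 0) (XT.nd (nat_lit 59220) (nat_lit 0) (nat_lit 0) (XT.nd (nat_lit 188) (nat_lit 0) (nat_lit 0) (XT.nd (nat_lit 94) (nat_lit 336) (nat_lit 0) (XT.lf (nat_lit 0) (nat_lit 3198478827) (nat_lit 336) (nat_lit 906844031) (nat_lit 336) (nat_lit 906844031) (nat_lit 66) (nat_lit 4) (nat_lit 70) (nat_lit 5) (nat_lit 70) (nat_lit 4) (nat_lit 367) (nat_lit 289) (nat_lit 289)) (XT.lf (nat_lit 0) (nat_lit 1779026646) (nat_lit 336) (nat_lit 7436861834) (nat_lit 0) (nat_lit 970583736) (nat_lit 62) (nat_lit 5) (nat_lit 66) (nat_lit 4) (nat_lit 62) (nat_lit 4) (nat_lit 368) (nat_lit 289) (nat_lit 288))) (XT.nd (nat_lit 58938) (nat_lit 0) (nat_lit 672) (XT.lf (nat_lit 0) (nat_lit 5411101016) (nat_lit 336) (nat_lit 1125144682) (nat_lit 0) (nat_lit 3817762079) (nat_lit 62) (nat_lit 5) (nat_lit 66) (nat_lit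 4) (nat_lit 62) (nat_lit 4) (nat_lit 369) (nat_lit 289) (nat_lit 287)) (XT.lf (nat_lit 0) (nat_lit 867600130) (nat_lit 420) (nat_lit 3122679911) (nat_lit 0) (nat_lit 867600130) (nat_lit 70) (nat_lit 5) (nat_lit 75) (nat_lit 4) (nat_lit 70) (nat_lit 4) (nat_lit 365) (nat_lit 290) (nat_lit 290)))) (XT.nd (nat_lit 188) (nat_lit 336) (nat_lit 0) (XT.nd (nat_lit 94) (nat_lit 336) (nat_lit 0) (XT.lf (nat_lit 0) (nat_lit 5338702737) (nat_lit 420) (nat_lit 48274897) (nat_lit 0) (nat_lit 4481025655) (nat_lit 70) (nat_lit 5) (nat_lit 75) (nat_lit 4) (nat_lit 70) (nat_lit 4) (nat_lit 366) (nat_lit 290) (nat_lit 289)) (XT.lf (nat_lit 0) (nat_lit 6334978702) (nat_lit 336) (nat_lit 2690535734) (nat_lit 336) (nat_lit 1000162456) (nat_lit 66) (nat_lit 4) (nat_lit 70) (nat_lit 5) (nat_lit 70) (nat_lit 4) (nat_lit 367) (nat_lit 290) (nat_lit 288))) (XT.nd (nat_lit 94) (nat_lit 0) (nat_lit 0) (XT.lf (nat_lit 0) (nat_lit 2524805036)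 (nat_lit 336) (nat_lit 7565617446) (nat_lit 0) (nat_lit 98769903) (nat_lit 62) (nat_lit 5) (nat_lit 66) (nat_lit 4) (nat_lit 62) (nat_lit 4) (nat_lit 368) (nat_lit 290) (nat_lit 287)) (XT.lf (nat_lit 0) (nat_lit 6115309840) (nat_lit 336) (nat_lit 1315479333) (nat_lit 0) (nat_lit 2927239728) (nat_lit 62) (nat_lit 5) (nat_lit 66) (nat_lit 4) (nat_lit 62) (nat_lit 4) (nat_lit 369) (nat_lit 290) (nat_lit 286))))) (XT.nd (nat_lit 376) (nat_lit 672) (nat_lit 0) (XT.nd (nat_lit 188) (nat_lit 420) (nat_lit 0) (XT.nd (nat_lit 94) (nat_lit 0) (nat_lit 0) (XT.lf (nat_lit 0) (nat_lit 268013519) (nat_lit 336) (nat_lit 2222470988) (nat_lit 336) (nat_lit 2222470988) (nat_lit 75) (nat_lit 4) (nat_lit 79) (nat_lit 5) (nat_lit 79) (nat_lit 4) (nat_lit 363) (nat_lit 291) (nat_lit 291)) (XT.lf (nat_lit 0) (nat_lit 6781937748) (nat_lit 336) (nat_lit 1848491096) (nat_lit 336) (nat_lit 938581480) (nat_lit 75) (nat_lit 4) (nat_lit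 79) (nat_lit 5) (nat_lit 79) (nat_lit 4) (nat_lit 364) (nat_lit 291) (nat_lit 290))) (XT.nd (nat_lit 94) (nat_lit 0) (nat_lit 0) (XT.lf (nat_lit 0) (nat_lit 2575128695) (nat_lit 420) (nat_lit 6307952428) (nat_lit 0) (nat_lit 834044218) (nat_lit 70) (nat_lit 5) (nat_lit 75) (nat_lit 4) (nat_lit 70) (nat_lit 4) (nat_lit 365) (nat_lit 291) (nat_lit 289)) (XT.lf (nat_lit 0) (nat_lit 6136418590) (nat_lit 420) (nat_lit 171637022) (nat_lit 0) (nat_lit 3562637917) (nat_lit 70) (nat_lit 5) (nat_lit 75) (nat_lit 4) (nat_lit 70) (nat_lit 4) (nat_lit 366) (nat_lit 291) (nat_lit 288)))) (XT.nd (nat_lit 188) (nat_lit 0) (nat_lit 0) (XT.nd (nat_lit 94) (nat_lit 336) (nat_lit 0) (XT.lf (nat_lit 0) (nat_lit 6148987690) (nat_lit 336) (nat_lit 3631471652) (nat_lit 336) (nat_lit 249248069) (nat_lit 66) (nat_lit 4) (nat_lit 70) (nat_lit 5) (nat_lit 70) (nat_lit 4) (nat_lit 367) (nat_lit 291) (nat_lit 287)) (XT.lf (nat_lit 0) (nat_lit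 2362940082) (nat_lit 252) (nat_lit 853838091) (nat_lit 336) (nat_lit 6977610698) (nat_lit 62) (nat_lit 5) (nat_lit 65) (nat_lit 5) (nat_lit 66) (nat_lit 4) (nat_lit 368) (nat_lit 291) (nat_lit 286))) (XT.nd (nat_lit 58562) (nat_lit 0) (nat_lit 1848) (XT.lf (nat_lit 0) (nat_lit 6758716561) (nat_lit 336) (nat_lit 1632888536) (nat_lit 0) (nat_lit 1973129581) (nat_lit 62) (nat_lit 5) (nat_lit 66) (nat_lit 4) (nat_lit 62) (nat_lit 4) (nat_lit 369) (nat_lit 291) (nat_lit 285)) (XT.lf (nat_lit 0) (nat_lit 3423611054) (nat_lit 420) (nat_lit 576708207) (nat_lit 420) (nat_lit 576708207) (nat_lit 84) (nat_lit 4) (nat_lit 89) (nat_lit 5) (nat_lit 89) (nat_lit 4) (nat_lit 361) (nat_lit 292) (nat_lit 292)))))) (XT.nd (nat_lit 59032) (nat_lit 0) (nat_lit 252) (XT.nd (nat_lit 376) (nat_lit 672) (nat_lit 0) (XT.nd (nat_lit 188) (nat_lit 420) (nat_lit 0) (XT.nd (nat_lit 94) (nat_lit 336) (nat_lit 0) (XT.lf (nat_lit 0) (nat_lit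 2343568724) (nat_lit 420) (nat_lit 5538119102) (nat_lit 0) (nat_lit 1406361818) (nat_lit 79) (nat_lit 5) (nat_lit 84) (nat_lit 4) (nat_lit 79) (nat_lit 4) (nat_lit 362) (nat_lit 292) (nat_lit 291)) (XT.lf (nat_lit 0) (nat_lit 474950275) (nat_lit 336) (nat_lit 5399723316) (nat_lit 336) (nat_lit 3552606794) (nat_lit 75) (nat_lit 4) (nat_lit 79) (nat_lit 5) (nat_lit 79) (nat_lit 4) (nat_lit 363) (nat_lit 292) (nat_lit 290))) (XT.nd (nat_lit 94) (nat_lit 420) (nat_lit 0) (XT.lf (nat_lit 0) (nat_lit 6661563155) (nat_lit 336) (nat_lit 2820334992) (nat_lit 336) (nat_lit 89811076) (nat_lit 75) (nat_lit 4) (nat_lit 79) (nat_lit 5) (nat_lit 79) (nat_lit 4) (nat_lit 364) (nat_lit 292) (nat_lit 289)) (XT.lf (nat_lit 0) (nat_lit 3224132667) (nat_lit 336) (nat_lit 131696724) (nat_lit 420) (nat_lit 6365354161) (nat_lit 70) (nat_lit 5) (nat_lit 74) (nat_lit 5) (nat_lit 75) (nat_lit 4) (nat_lit 365) (nat_lit 292) (nat_lit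 288)))) (XT.nd (nat_lit 188) (nat_lit 252) (nat_lit 0) (XT.nd (nat_lit 94) (nat_lit 420) (nat_lit 0) (XT.lf (nat_lit 0) (nat_lit 6874870248) (nat_lit 420) (nat_lit 418469063) (nat_lit 0) (nat_lit 2582737049) (nat_lit 70) (nat_lit 5) (nat_lit 75) (nat_lit 4) (nat_lit 70) (nat_lit 4) (nat_lit 366) (nat_lit 292) (nat_lit 287)) (XT.lf (nat_lit 0) (nat_lit 431130886) (nat_lit 420) (nat_lit 4201833527) (nat_lit 84) (nat_lit 5403337637) (nat_lit 65) (nat_lit 5) (nat_lit 70) (nat_lit 5) (nat_lit 66) (nat_lit 4) (nat_lit 367) (nat_lit 292) (nat_lit 286))) (XT.nd (nat_lit 94) (nat_lit 0) (nat_lit 0) (XT.lf (nat_lit 0) (nat_lit 1974286045) (nat_lit 252) (nat_lit 1874654964) (nat_lit 336) (nat_lit 6353323494) (nat_lit 62) (nat_lit 5) (nat_lit 65) (nat_lit 5) (nat_lit 66) (nat_lit 4) (nat_lit 368) (nat_lit 292) (nat_lit 285)) (XT.lf (nat_lit 0) (nat_lit 7341883379) (nat_lit 336) (nat_lit 2077649640) (nat_lit 0) (nat_lit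 954597951) (nat_lit 62) (nat_lit 5) (nat_lit 66) (nat_lit 4) (nat_lit 62) (nat_lit 4) (nat_lit 369) (nat_lit 292) (nat_lit 284))))) (XT.nd (nat_lit 376) (nat_lit 1176) (nat_lit 0) (XT.nd (nat_lit 188) (nat_lit 420) (nat_lit 0) (XT.nd (nat_lit 94) (nat_lit 420) (nat_lit 0) (XT.lf (nat_lit 0) (nat_lit 945765385) (nat_lit 420) (nat_lit 2557782301) (nat_lit 0) (nat_lit 945765385) (nat_lit 89) (nat_lit 5) (nat_lit 94) (nat_lit 4) (nat_lit 89) (nat_lit 4) (nat_lit 359) (nat_lit 293) (nat_lit 293)) (XT.lf (nat_lit 0) (nat_lit 755378043) (nat_lit 420) (nat_lit 4631716292) (nat_lit 420) (nat_lit 3637433486) (nat_lit 84) (nat_lit 4) (nat_lit 89) (nat_lit 5) (nat_lit 89) (nat_lit 4) (nat_lit 360) (nat_lit 293) (nat_lit 292))) (XT.nd (nat_lit 94) (nat_lit 420) (nat_lit 0) (XT.lf (nat_lit 0) (nat_lit 6788881411) (nat_lit 420) (nat_lit 2163068415) (nat_lit 420) (nat_lit 203462497) (nat_lit 84) (nat_lit 4) (nat_lit 89) (nat_lit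 5) (nat_lit 89) (nat_lit 4) (nat_lit 361) (nat_lit 293) (nat_lit 291)) (XT.lf (nat_lit 0) (nat_lit 3221773933) (nat_lit 420) (nat_lit 5659685523) (nat_lit 0) (nat_lit 409334300) (nat_lit 79) (nat_lit 5) (nat_lit 84) (nat_lit 4) (nat_lit 79) (nat_lit 4) (nat_lit 362) (nat_lit 293) (nat_lit 290)))) (XT.nd (nat_lit 188) (nat_lit 756) (nat_lit 0) (XT.nd (nat_lit 94) (nat_lit 84) (nat_lit 0) (XT.lf (nat_lit 0) (nat_lit 291666616) (nat_lit 336) (nat_lit 6417785085) (nat_lit 336) (nat_lit 2721938057) (nat_lit 75) (nat_lit 4) (nat_lit 79) (nat_lit 5) (nat_lit 79) (nat_lit 4) (nat_lit 363) (nat_lit 293) (nat_lit 289)) (XT.lf (nat_lit 0) (nat_lit 684930303) (nat_lit 420) (nat_lit 3163115594) (nat_lit 84) (nat_lit 5728862032) (nat_lit 74) (nat_lit 5) (nat_lit 79) (nat_lit 5) (nat_lit 75) (nat_lit 4) (nat_lit 364) (nat_lit 293) (nat_lit 288))) (XT.nd (nat_lit 94) (nat_lit 420) (nat_lit 0) (XT.lf (nat_lit 0) (nat_lit 2907366221)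 (nat_lit 336) (nat_lit 1178144383) (nat_lit 420) (nat_lit 5642202133) (nat_lit 70) (nat_lit 5) (nat_lit 74) (nat_lit 5) (nat_lit 75) (nat_lit 4) (nat_lit 365) (nat_lit 293) (nat_lit 287)) (XT.nd (nat_lit 94) (nat_lit 420) (nat_lit 0) (XT.lf (nat_lit 0) (nat_lit 7554702959) (nat_lit 420) (nat_lit 788986700) (nat_lit 0) (nat_lit 1540466826) (nat_lit 70) (nat_lit 5) (nat_lit 75) (nat_lit 4) (nat_lit 70) (nat_lit 4) (nat_lit 366) (nat_lit 293) (nat_lit 286)) (XT.lf (nat_lit 0) (nat_lit 1046490256) (nat_lit 420) (nat_lit 4651895889) (nat_lit 84) (nat_lit 4347153158) (nat_lit 65) (nat_lit 5) (nat_lit 70) (nat_lit 5) (nat_lit 66) (nat_lit 4) (nat_lit 367) (nat_lit 293) (nat_lit 285))))))))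
noncomputable def xc1 : XT := (XT.nd (nat_lit 117500) (nat_lit 0) (nat_lit 0) (XT.nd (nat_lit 58844) (nat_lit 0) (nat_lit 0) (XT.nd (nat_lit 58468) (nat_lit 0) (nat_lit 1428) (XT.nd (nat_lit 58280) (nat_lit 0) (nat_lit 2688) (XT.nd (nat_lit 94) (nat_lit 0) (nat_lit 0) (XT.lf (nat_lit 0) (nat_lit 1458270612) (nat_lit 252) (nat_lit 2962606978) (nat_lit 336) (nat_lit 5791977628) (nat_lit 62) (nat_lit 5) (nat_lit 65) (nat_lit 5) (nat_lit 66) (nat_lit 4) (nat_lit 368) (nat_lit 293) (nat_lit 284)) (XT.lf (nat_lit 0) (nat_lit 7734769592) (nat_lit 252) (nat_lit 131817374) (nat_lit 336) (nat_lit 2519601005) (nat_lit 62) (nat_lit 5) (nat_lit 65) (nat_lit 5) (nat_lit 66) (nat_lit 4) (nat_lit 369) (nat_lit 293) (nat_lit 283))) (XT.nd (nat_lit 94) (nat_lit 0) (nat_lit 0) (XT.lf (nat_lit 0) (nat_lit 396183663) (nat_lit 420) (nat_lit 1966767924) (nat_lit 420) (nat_lit 1966767924) (nat_lit 94) (nat_lit 4) (nat_lit 99) (nat_lit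 5) (nat_lit 99) (nat_lit 4) (nat_lit 357) (nat_lit 294) (nat_lit 294)) (XT.lf (nat_lit 0) (nat_lit 6660209326) (nat_lit 420) (nat_lit 1586143541) (nat_lit 420) (nat_lit 531308913) (nat_lit 94) (nat_lit 4) (nat_lit 99) (nat_lit 5) (nat_lit 99) (nat_lit 4) (nat_lit 358) (nat_lit 294) (nat_lit 293)))) (XT.nd (nat_lit 188) (nat_lit 420) (nat_lit 0) (XT.nd (nat_lit 94) (nat_lit 420) (nat_lit 0) (XT.lf (nat_lit 0) (nat_lit 2871959043) (nat_lit 420) (nat_lit 5174482930) (nat_lit 0) (nat_lit 853564948) (nat_lit 89) (nat_lit 5) (nat_lit 94) (nat_lit 4) (nat_lit 89) (nat_lit 4) (nat_lit 359) (nat_lit 294) (nat_lit 292)) (XT.lf (nat_lit 0) (nat_lit 636946427) (nat_lit 420) (nat_lit 5687027046) (nat_lit 420) (nat_lit 2703309838) (nat_lit 84) (nat_lit 4) (nat_lit 89) (nat_lit 5) (nat_lit 89) (nat_lit 4) (nat_lit 360) (nat_lit 294) (nat_lit 291))) (XT.nd (nat_lit 94) (nat_lit 336) (nat_lit 0) (XT.lf (nat_lit 0) (nat_lit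 674205386) (nat_lit 504) (nat_lit 2552287178) (nat_lit 84) (nat_lit 5932794804) (nat_lit 83) (nat_lit 5) (nat_lit 89) (nat_lit 5) (nat_lit 84) (nat_lit 4) (nat_lit 361) (nat_lit 294) (nat_lit 290)) (XT.lf (nat_lit 0) (nat_lit 3386812373) (nat_lit 336) (nat_lit 661289154) (nat_lit 420) (nat_lit 5247992147) (nat_lit 79) (nat_lit 5) (nat_lit 83) (nat_lit 5) (nat_lit 84) (nat_lit 4) (nat_lit 362) (nat_lit 294) (nat_lit 289))))) (XT.nd (nat_lit 376) (nat_lit 672) (nat_lit 0) (XT.nd (nat_lit 188) (nat_lit 336) (nat_lit 0) (XT.nd (nat_lit 94) (nat_lit 420) (nat_lit 0) (XT.lf (nat_lit 0) (nat_lit 7486167189) (nat_lit 420) (nat_lit 13711208) (nat_lit 0) (nat_lit 1938360273) (nat_lit 79) (nat_lit 5) (nat_lit 84) (nat_lit 4) (nat_lit 79) (nat_lit 4) (nat_lit 363) (nat_lit 294) (nat_lit 288)) (XT.lf (nat_lit 0) (nat_lit 1399375578) (nat_lit 420) (nat_lit 3539770688) (nat_lit 84) (nat_lit 4645657664) (nat_lit 74) (nat_lit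 5) (nat_lit 79) (nat_lit 5) (nat_lit 75) (nat_lit 4) (nat_lit 364) (nat_lit 294) (nat_lit 287))) (XT.nd (nat_lit 94) (nat_lit 0) (nat_lit 0) (XT.lf (nat_lit 0) (nat_lit 2467019001) (nat_lit 336) (nat_lit 2289614014) (nat_lit 420) (nat_lit 4980330894) (nat_lit 70) (nat_lit 5) (nat_lit 74) (nat_lit 5) (nat_lit 75) (nat_lit 4) (nat_lit 365) (nat_lit 294) (nat_lit 286)) (XT.lf (nat_lit 0) (nat_lit 8176510751) (nat_lit 420) (nat_lit 1283513685) (nat_lit 0) (nat_lit 434916528) (nat_lit 70) (nat_lit 5) (nat_lit 75) (nat_lit 4) (nat_lit 70) (nat_lit 4) (nat_lit 366) (nat_lit 294) (nat_lit 285)))) (XT.nd (nat_lit 188) (nat_lit 0) (nat_lit 0) (XT.nd (nat_lit 94) (nat_lit 252) (nat_lit 0) (XT.lf (nat_lit 0) (nat_lit 1602231462) (nat_lit 420) (nat_lit 5228904139) (nat_lit 84) (nat_lit 3226363518) (nat_lit 65) (nat_lit 5) (nat_lit 70) (nat_lit 5) (nat_lit 66) (nat_lit 4) (nat_lit 367) (nat_lit 294) (nat_lit 284)) (XT.lf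 (nat_lit 0) (nat_lit 814442893) (nat_lit 252) (nat_lit 4118644769) (nat_lit 336) (nat_lit 5293082603) (nat_lit 62) (nat_lit 5) (nat_lit 65) (nat_lit 5) (nat_lit 66) (nat_lit 4) (nat_lit 368) (nat_lit 294) (nat_lit 283))) (XT.nd (nat_lit 57998) (nat_lit 0) (nat_lit 3612) (XT.lf (nat_lit 0) (nat_lit 7037217725) (nat_lit 252) (nat_lit 1304808256) (nat_lit 336) (nat_lit 2058628031) (nat_lit 62) (nat_lit 5) (nat_lit 65) (nat_lit 5) (nat_lit 66) (nat_lit 4) (nat_lit 369) (nat_lit 294) (nat_lit 282)) (XT.lf (nat_lit 0) (nat_lit 3193295536) (nat_lit 504) (nat_lit 512280335) (nat_lit 504) (nat_lit 512280335) (nat_lit 105) (nat_lit 4) (nat_lit 111) (nat_lit 5) (nat_lit 111) (nat_lit 4) (nat_lit 355) (nat_lit 295) (nat_lit 295)))))) (XT.nd (nat_lit 752) (nat_lit 1428) (nat_lit 0) (XT.nd (nat_lit 376) (nat_lit 840) (nat_lit 0) (XT.nd (nat_lit 188) (nat_lit 420) (nat_lit 0) (XT.nd (nat_lit 94) (nat_lit 420) (nat_lit 0)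 (XT.lf (nat_lit 0) (nat_lit 2356424703) (nat_lit 504) (nat_lit 4919578244) (nat_lit 0) (nat_lit 1269945036) (nat_lit 99) (nat_lit 5) (nat_lit 105) (nat_lit 4) (nat_lit 99) (nat_lit 4) (nat_lit 356) (nat_lit 295) (nat_lit 294)) (XT.lf (nat_lit 0) (nat_lit 735072514) (nat_lit 420) (nat_lit 5033534326) (nat_lit 420) (nat_lit 2892220030) (nat_lit 94) (nat_lit 4) (nat_lit 99) (nat_lit 5) (nat_lit 99) (nat_lit 4) (nat_lit 357) (nat_lit 295) (nat_lit 293))) (XT.nd (nat_lit 94) (nat_lit 336) (nat_lit 0) (XT.lf (nat_lit 0) (nat_lit 457062075) (nat_lit 504) (nat_lit 2237589572) (nat_lit 84) (nat_lit 6085610974) (nat_lit 93) (nat_lit 5) (nat_lit 99) (nat_lit 5) (nat_lit 94) (nat_lit 4) (nat_lit 358) (nat_lit 295) (nat_lit 292)) (XT.lf (nat_lit 0) (nat_lit 3550408802) (nat_lit 336) (nat_lit 247678485) (nat_lit 420) (nat_lit 5105991747) (nat_lit 89) (nat_lit 5) (nat_lit 93) (nat_lit 5) (nat_lit 94) (nat_lit 4) (nat_lit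 359) (nat_lit 295) (nat_lit 291)))) (XT.nd (nat_lit 188) (nat_lit 336) (nat_lit 0) (XT.nd (nat_lit 94) (nat_lit 84) (nat_lit 0) (XT.lf (nat_lit 0) (nat_lit 399979713) (nat_lit 420) (nat_lit 6804287864) (nat_lit 420) (nat_lit 1828529123) (nat_lit 84) (nat_lit 4) (nat_lit 89) (nat_lit 5) (nat_lit 89) (nat_lit 4) (nat_lit 360) (nat_lit 295) (nat_lit 290)) (XT.lf (nat_lit 0) (nat_lit 1490947111) (nat_lit 504) (nat_lit 2859045721) (nat_lit 84) (nat_lit 4815847172) (nat_lit 83) (nat_lit 5) (nat_lit 89) (nat_lit 5) (nat_lit 84) (nat_lit 4) (nat_lit 361) (nat_lit 295) (nat_lit 289))) (XT.nd (nat_lit 94) (nat_lit 0) (nat_lit 0) (XT.lf (nat_lit 0) (nat_lit 3018626962) (nat_lit 336) (nat_lit 1802901468) (nat_lit 420) (nat_lit 4482477955) (nat_lit 79) (nat_lit 5) (nat_lit 83) (nat_lit 5) (nat_lit 84) (nat_lit 4) (nat_lit 362) (nat_lit 295) (nat_lit 288)) (XT.lf (nat_lit 0) (nat_lit 8209346707) (nat_lit 420) (nat_lit 433638654)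 (nat_lit 0) (nat_lit 804732305) (nat_lit 79) (nat_lit 5) (nat_lit 84) (nat_lit 4) (nat_lit 79) (nat_lit 4) (nat_lit 363) (nat_lit 295) (nat_lit 287))))) (XT.nd (nat_lit 376) (nat_lit 252) (nat_lit 0) (XT.nd (nat_lit 188) (nat_lit 420) (nat_lit 0) (XT.nd (nat_lit 94) (nat_lit 336) (nat_lit 0) (XT.lf (nat_lit 0) (nat_lit 2055901558) (nat_lit 420) (nat_lit 4039577147) (nat_lit 84) (nat_lit 3499951320) (nat_lit 74) (nat_lit 5) (nat_lit 79) (nat_lit 5) (nat_lit 75) (nat_lit 4) (nat_lit 364) (nat_lit 295) (nat_lit 286)) (XT.lf (nat_lit 0) (nat_lit 1902706238) (nat_lit 336) (nat_lit 3467076804) (nat_lit 420) (nat_lit 4379162110) (nat_lit 70) (nat_lit 5) (nat_lit 74) (nat_lit 5) (nat_lit 75) (nat_lit 4) (nat_lit 365) (nat_lit 295) (nat_lit 285))) (XT.nd (nat_lit 94) (nat_lit 420) (nat_lit 0) (XT.lf (nat_lit 0) (nat_lit 7998536247) (nat_lit 336) (nat_lit 749505410) (nat_lit 420) (nat_lit 1160181424) (nat_lit 70) (nat_lit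 5) (nat_lit 74) (nat_lit 5) (nat_lit 75) (nat_lit 4) (nat_lit 366) (nat_lit 295) (nat_lit 284)) (XT.lf (nat_lit 0) (nat_lit 2098840102) (nat_lit 420) (nat_lit 5933362460) (nat_lit 84) (nat_lit 2039989386) (nat_lit 65) (nat_lit 5) (nat_lit 70) (nat_lit 5) (nat_lit 66) (nat_lit 4) (nat_lit 367) (nat_lit 295) (nat_lit 283)))) (XT.nd (nat_lit 57904) (nat_lit 0) (nat_lit 3528) (XT.nd (nat_lit 94) (nat_lit 0) (nat_lit 0) (XT.lf (nat_lit 0) (nat_lit 42240322) (nat_lit 252) (nat_lit 5343778468) (nat_lit 336) (nat_lit 4856202491) (nat_lit 62) (nat_lit 5) (nat_lit 65) (nat_lit 5) (nat_lit 66) (nat_lit 4) (nat_lit 368) (nat_lit 295) (nat_lit 282)) (XT.lf (nat_lit 0) (nat_lit 6212855787) (nat_lit 252) (nat_lit 2546401266) (nat_lit 336) (nat_lit 1658565444) (nat_lit 62) (nat_lit 5) (nat_lit 65) (nat_lit 5) (nat_lit 66) (nat_lit 4) (nat_lit 369) (nat_lit 295) (nat_lit 281))) (XT.nd (nat_lit 94) (nat_lit 588) (nat_lit 0)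 (XT.lf (nat_lit 0) (nat_lit 858737181) (nat_lit 504) (nat_lit 2395569478) (nat_lit 0) (nat_lit 858737181) (nat_lit 111) (nat_lit 5) (nat_lit 117) (nat_lit 4) (nat_lit 111) (nat_lit 4) (nat_lit 353) (nat_lit 296) (nat_lit 296)) (XT.nd (nat_lit 94) (nat_lit 84) (nat_lit 0) (XT.lf (nat_lit 0) (nat_lit 694411943) (nat_lit 504) (nat_lit 4393800179) (nat_lit 504) (nat_lit 3241153900) (nat_lit 105) (nat_lit 4) (nat_lit 111) (nat_lit 5) (nat_lit 111) (nat_lit 4) (nat_lit 354) (nat_lit 296) (nat_lit 295)) (XT.lf (nat_lit 0) (nat_lit 81724911) (nat_lit 588) (nat_lit 2105818765) (nat_lit 84) (nat_lit 6249524445) (nat_lit 104) (nat_lit 5) (nat_lit 111) (nat_lit 5) (nat_lit 105) (nat_lit 4) (nat_lit 355) (nat_lit 296) (nat_lit 294))))))))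
noncomputable def xc2 : XT := (XT.nd (nat_lit 59032) (nat_lit 0) (nat_lit 0) (XT.nd (nat_lit 752) (nat_lit 1428) (nat_lit 0) (XT.nd (nat_lit 376) (nat_lit 840) (nat_lit 0) (XT.nd (nat_lit 188) (nat_lit 420) (nat_lit 0) (XT.nd (nat_lit 94) (nat_lit 420) (nat_lit 0) (XT.lf (nat_lit 0) (nat_lit 3387751504) (nat_lit 504) (nat_lit 5033617118) (nat_lit 0) (nat_lit 127363151) (nat_lit 99) (nat_lit 5) (nat_lit 105) (nat_lit 4) (nat_lit 99) (nat_lit 4) (nat_lit 356) (nat_lit 296) (nat_lit 293)) (XT.lf (nat_lit 0) (nat_lit 563138010) (nat_lit 420) (nat_lit 6193176628) (nat_lit 420) (nat_lit 1908676986) (nat_lit 94) (nat_lit 4) (nat_lit 99) (nat_lit 5) (nat_lit 99) (nat_lit 4) (nat_lit 357) (nat_lit 296) (nat_lit 292))) (XT.nd (nat_lit 94) (nat_lit 336) (nat_lit 0) (XT.lf (nat_lit 0) (nat_lit 1379672110) (nat_lit 504) (nat_lit 2478048063) (nat_lit 84) (nat_lit 4927744025) (nat_lit 93) (nat_lit 5) (nat_lit 99) (nat_lit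 5) (nat_lit 94) (nat_lit 4) (nat_lit 358) (nat_lit 296) (nat_lit 291)) (XT.lf (nat_lit 0) (nat_lit 3250798183) (nat_lit 336) (nat_lit 1426494301) (nat_lit 420) (nat_lit 4233356524) (nat_lit 89) (nat_lit 5) (nat_lit 93) (nat_lit 5) (nat_lit 94) (nat_lit 4) (nat_lit 359) (nat_lit 296) (nat_lit 290)))) (XT.nd (nat_lit 188) (nat_lit 336) (nat_lit 0) (XT.nd (nat_lit 94) (nat_lit 84) (nat_lit 0) (XT.lf (nat_lit 0) (nat_lit 44270841) (nat_lit 420) (nat_lit 7984474994) (nat_lit 420) (nat_lit 1012326970) (nat_lit 84) (nat_lit 4) (nat_lit 89) (nat_lit 5) (nat_lit 89) (nat_lit 4) (nat_lit 360) (nat_lit 296) (nat_lit 289)) (XT.lf (nat_lit 0) (nat_lit 2251446621) (nat_lit 504) (nat_lit 3285118777) (nat_lit 84) (nat_lit 3638569234) (nat_lit 83) (nat_lit 5) (nat_lit 89) (nat_lit 5) (nat_lit 84) (nat_lit 4) (nat_lit 361) (nat_lit 296) (nat_lit 288))) (XT.nd (nat_lit 94) (nat_lit 0) (nat_lit 0) (XT.lf (nat_lit 0) (nat_lit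 2530363759) (nat_lit 336) (nat_lit 3008353610) (nat_lit 420) (nat_lit 3775941825) (nat_lit 79) (nat_lit 5) (nat_lit 83) (nat_lit 5) (nat_lit 84) (nat_lit 4) (nat_lit 362) (nat_lit 296) (nat_lit 287)) (XT.lf (nat_lit 0) (nat_lit 8481795952) (nat_lit 336) (nat_lit 398856584) (nat_lit 420) (nat_lit 579151581) (nat_lit 79) (nat_lit 5) (nat_lit 83) (nat_lit 5) (nat_lit 84) (nat_lit 4) (nat_lit 363) (nat_lit 296) (nat_lit 286))))) (XT.nd (nat_lit 376) (nat_lit 252) (nat_lit 0) (XT.nd (nat_lit 188) (nat_lit 420) (nat_lit 0) (XT.nd (nat_lit 94) (nat_lit 336) (nat_lit 0) (XT.lf (nat_lit 0) (nat_lit 2655081907) (nat_lit 420) (nat_lit 4662971695) (nat_lit 84) (nat_lit 2290741898) (nat_lit 74) (nat_lit 5) (nat_lit 79) (nat_lit 5) (nat_lit 75) (nat_lit 4) (nat_lit 364) (nat_lit 296) (nat_lit 285)) (XT.lf (nat_lit 0) (nat_lit 1213934842) (nat_lit 336) (nat_lit 4711561605) (nat_lit 420) (nat_lit 3838170488) (nat_lit 70)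 (nat_lit 5) (nat_lit 74) (nat_lit 5) (nat_lit 75) (nat_lit 4) (nat_lit 365) (nat_lit 296) (nat_lit 284))) (XT.nd (nat_lit 94) (nat_lit 420) (nat_lit 0) (XT.lf (nat_lit 0) (nat_lit 7258337596) (nat_lit 336) (nat_lit 2009150250) (nat_lit 420) (nat_lit 656595811) (nat_lit 70) (nat_lit 5) (nat_lit 74) (nat_lit 5) (nat_lit 75) (nat_lit 4) (nat_lit 366) (nat_lit 296) (nat_lit 283)) (XT.lf (nat_lit 0) (nat_lit 2536750105) (nat_lit 420) (nat_lit 6765886397) (nat_lit 84) (nat_lit 786994124) (nat_lit 65) (nat_lit 5) (nat_lit 70) (nat_lit 5) (nat_lit 66) (nat_lit 4) (nat_lit 367) (nat_lit 296) (nat_lit 282)))) (XT.nd (nat_lit 57716) (nat_lit 0) (nat_lit 4620) (XT.nd (nat_lit 94) (nat_lit 252) (nat_lit 0) (XT.lf (nat_lit 0) (nat_lit 5788324086) (nat_lit 420) (nat_lit 842249425) (nat_lit 84) (nat_lit 3630201058) (nat_lit 65) (nat_lit 5) (nat_lit 70) (nat_lit 5) (nat_lit 66) (nat_lit 4) (nat_lit 368) (nat_lit 296) (nat_lit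 281)) (XT.lf (nat_lit 0) (nat_lit 5260963461) (nat_lit 252) (nat_lit 3857681291) (nat_lit 336) (nat_lit 1319063675) (nat_lit 62) (nat_lit 5) (nat_lit 65) (nat_lit 5) (nat_lit 66) (nat_lit 4) (nat_lit 369) (nat_lit 296) (nat_lit 280))) (XT.nd (nat_lit 94) (nat_lit 0) (nat_lit 0) (XT.lf (nat_lit 0) (nat_lit 304237740) (nat_lit 504) (nat_lit 1855531572) (nat_lit 504) (nat_lit 1855531572) (nat_lit 117) (nat_lit 4) (nat_lit 123) (nat_lit 5) (nat_lit 123) (nat_lit 4) (nat_lit 351) (nat_lit 297) (nat_lit 297)) (XT.lf (nat_lit 0) (nat_lit 6063736603) (nat_lit 504) (nat_lit 1643144932) (nat_lit 504) (nat_lit 420302494) (nat_lit 117) (nat_lit 4) (nat_lit 123) (nat_lit 5) (nat_lit 123) (nat_lit 4) (nat_lit 352) (nat_lit 297) (nat_lit 296)))))) (XT.nd (nat_lit 752) (nat_lit 2268) (nat_lit 0) (XT.nd (nat_lit 376) (nat_lit 840) (nat_lit 0) (XT.nd (nat_lit 188) (nat_lit 504) (nat_lit 0) (XT.nd (nat_lit 94) (nat_lit 504)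 (nat_lit 0) (XT.lf (nat_lit 0) (nat_lit 2860584695) (nat_lit 504) (nat_lit 4846195178) (nat_lit 0) (nat_lit 520712749) (nat_lit 111) (nat_lit 5) (nat_lit 117) (nat_lit 4) (nat_lit 111) (nat_lit 4) (nat_lit 353) (nat_lit 297) (nat_lit 295)) (XT.lf (nat_lit 0) (nat_lit 583743540) (nat_lit 504) (nat_lit 5603684681) (nat_lit 504) (nat_lit 2144738678) (nat_lit 105) (nat_lit 4) (nat_lit 111) (nat_lit 5) (nat_lit 111) (nat_lit 4) (nat_lit 354) (nat_lit 297) (nat_lit 294))) (XT.nd (nat_lit 94) (nat_lit 420) (nat_lit 0) (XT.lf (nat_lit 0) (nat_lit 1114161353) (nat_lit 588) (nat_lit 2283678122) (nat_lit 84) (nat_lit 5043065420) (nat_lit 104) (nat_lit 5) (nat_lit 111) (nat_lit 5) (nat_lit 105) (nat_lit 4) (nat_lit 355) (nat_lit 297) (nat_lit 293)) (XT.lf (nat_lit 0) (nat_lit 3281678948) (nat_lit 420) (nat_lit 1093660582) (nat_lit 504) (nat_lit 4178646865) (nat_lit 99) (nat_lit 5) (nat_lit 104) (nat_lit 5) (nat_lit 105)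 (nat_lit 4) (nat_lit 356) (nat_lit 297) (nat_lit 292)))) (XT.nd (nat_lit 188) (nat_lit 336) (nat_lit 0) (XT.nd (nat_lit 94) (nat_lit 84) (nat_lit 0) (XT.lf (nat_lit 0) (nat_lit 276413581) (nat_lit 420) (nat_lit 7413476035) (nat_lit 420) (nat_lit 982047308) (nat_lit 94) (nat_lit 4) (nat_lit 99) (nat_lit 5) (nat_lit 99) (nat_lit 4) (nat_lit 357) (nat_lit 297) (nat_lit 291)) (XT.lf (nat_lit 0) (nat_lit 2247695108) (nat_lit 504) (nat_lit 2833930769) (nat_lit 84) (nat_lit 3711798398) (nat_lit 93) (nat_lit 5) (nat_lit 99) (nat_lit 5) (nat_lit 94) (nat_lit 4) (nat_lit 358) (nat_lit 297) (nat_lit 290))) (XT.nd (nat_lit 94) (nat_lit 0) (nat_lit 0) (XT.lf (nat_lit 0) (nat_lit 2835049673) (nat_lit 336) (nat_lit 2666924916) (nat_lit 420) (nat_lit 3417999045) (nat_lit 89) (nat_lit 5) (nat_lit 93) (nat_lit 5) (nat_lit 94) (nat_lit 4) (nat_lit 359) (nat_lit 297) (nat_lit 289)) (XT.lf (nat_lit 0) (nat_lit 8628163618) (nat_lit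 336) (nat_lit 175793021) (nat_lit 420) (nat_lit 247987379) (nat_lit 89) (nat_lit 5) (nat_lit 93) (nat_lit 5) (nat_lit 94) (nat_lit 4) (nat_lit 360) (nat_lit 297) (nat_lit 288))))) (XT.nd (nat_lit 376) (nat_lit 1008) (nat_lit 0) (XT.nd (nat_lit 188) (nat_lit 420) (nat_lit 0) (XT.nd (nat_lit 94) (nat_lit 336) (nat_lit 0) (XT.lf (nat_lit 0) (nat_lit 2956368431) (nat_lit 504) (nat_lit 3830878643) (nat_lit 84) (nat_lit 2399932299) (nat_lit 83) (nat_lit 5) (nat_lit 89) (nat_lit 5) (nat_lit 84) (nat_lit 4) (nat_lit 361) (nat_lit 297) (nat_lit 287)) (XT.lf (nat_lit 0) (nat_lit 1921596126) (nat_lit 336) (nat_lit 4278698889) (nat_lit 420) (nat_lit 3127766395) (nat_lit 79) (nat_lit 5) (nat_lit 83) (nat_lit 5) (nat_lit 84) (nat_lit 4) (nat_lit 362) (nat_lit 297) (nat_lit 286))) (XT.nd (nat_lit 94) (nat_lit 336) (nat_lit 0) (XT.lf (nat_lit 0) (nat_lit 30370356) (nat_lit 420) (nat_lit 1652265115) (nat_lit 84) (nat_lit 7791724023)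 (nat_lit 78) (nat_lit 5) (nat_lit 83) (nat_lit 5) (nat_lit 79) (nat_lit 5) (nat_lit 363) (nat_lit 297) (nat_lit 285)) (XT.lf (nat_lit 0) (nat_lit 3197440181) (nat_lit 420) (nat_lit 5410499046) (nat_lit 84) (nat_lit 1016972805) (nat_lit 74) (nat_lit 5) (nat_lit 79) (nat_lit 5) (nat_lit 75) (nat_lit 4) (nat_lit 364) (nat_lit 297) (nat_lit 284)))) (XT.nd (nat_lit 188) (nat_lit 672) (nat_lit 0) (XT.nd (nat_lit 94) (nat_lit 0) (nat_lit 0) (XT.lf (nat_lit 0) (nat_lit 400102976) (nat_lit 336) (nat_lit 6024155829) (nat_lit 420) (nat_lit 3356883316) (nat_lit 70) (nat_lit 5) (nat_lit 74) (nat_lit 5) (nat_lit 75) (nat_lit 4) (nat_lit 365) (nat_lit 297) (nat_lit 283)) (XT.lf (nat_lit 0) (nat_lit 6394576355) (nat_lit 336) (nat_lit 3336462959) (nat_lit 420) (nat_lit 211625154) (nat_lit 70) (nat_lit 5) (nat_lit 74) (nat_lit 5) (nat_lit 75) (nat_lit 4) (nat_lit 366) (nat_lit 297) (nat_lit 282))) (XT.nd (nat_lit 94) (nat_lit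 252) (nat_lit 0) (XT.lf (nat_lit 0) (nat_lit 2377237500) (nat_lit 336) (nat_lit 544339133) (nat_lit 420) (nat_lit 7188096787) (nat_lit 65) (nat_lit 5) (nat_lit 69) (nat_lit 5) (nat_lit 70) (nat_lit 5) (nat_lit 367) (nat_lit 297) (nat_lit 281)) (XT.nd (nat_lit 94) (nat_lit 252) (nat_lit 0) (XT.lf (nat_lit 0) (nat_lit 6133744629) (nat_lit 420) (nat_lit 1853218418) (nat_lit 84) (nat_lit 2295081609) (nat_lit 65) (nat_lit 5) (nat_lit 70) (nat_lit 5) (nat_lit 66) (nat_lit 4) (nat_lit 368) (nat_lit 297) (nat_lit 280)) (XT.lf (nat_lit 0) (nat_lit 4180708997) (nat_lit 252) (nat_lit 5239794111) (nat_lit 336) (nat_lit 1039826072) (nat_lit 62) (nat_lit 5) (nat_lit 65) (nat_lit 5) (nat_lit 66) (nat_lit 4) (nat_lit 369) (nat_lit 297) (nat_lit 279))))))))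
noncomputable def xc3 : XT := (XT.nd (nat_lit 1598) (nat_lit 1008) (nat_lit 0) (XT.nd (nat_lit 752) (nat_lit 2100) (nat_lit 0) (XT.nd (nat_lit 376) (nat_lit 1428) (nat_lit 0) (XT.nd (nat_lit 188) (nat_lit 588) (nat_lit 0) (XT.nd (nat_lit 94) (nat_lit 588) (nat_lit 0) (XT.lf (nat_lit 0) (nat_lit 2912493372) (nat_lit 588) (nat_lit 505906234) (nat_lit 588) (nat_lit 505906234) (nat_lit 130) (nat_lit 4) (nat_lit 137) (nat_lit 5) (nat_lit 137) (nat_lit 4) (nat_lit 349) (nat_lit 298) (nat_lit 298)) (XT.lf (nat_lit 0) (nat_lit 2249172376) (nat_lit 588) (nat_lit 4699422259) (nat_lit 0) (nat_lit 989644666) (nat_lit 123) (nat_lit 5) (nat_lit 130) (nat_lit 4) (nat_lit 123) (nat_lit 4) (nat_lit 350) (nat_lit 298) (nat_lit 297))) (XT.nd (nat_lit 94) (nat_lit 84) (nat_lit 0) (XT.lf (nat_lit 0) (nat_lit 555171491) (nat_lit 504) (nat_lit 4979607742) (nat_lit 504) (nat_lit 2497237594) (nat_lit 117) (nat_lit 4) (nat_lit 123)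 (nat_lit 5) (nat_lit 123) (nat_lit 4) (nat_lit 351) (nat_lit 298) (nat_lit 296)) (XT.lf (nat_lit 0) (nat_lit 734533373) (nat_lit 588) (nat_lit 2178493067) (nat_lit 84) (nat_lit 5216730449) (nat_lit 116) (nat_lit 5) (nat_lit 123) (nat_lit 5) (nat_lit 117) (nat_lit 4) (nat_lit 352) (nat_lit 298) (nat_lit 295)))) (XT.nd (nat_lit 188) (nat_lit 504) (nat_lit 0) (XT.nd (nat_lit 94) (nat_lit 504) (nat_lit 0) (XT.lf (nat_lit 0) (nat_lit 3212917625) (nat_lit 420) (nat_lit 745289132) (nat_lit 504) (nat_lit 4273286991) (nat_lit 111) (nat_lit 5) (nat_lit 116) (nat_lit 5) (nat_lit 117) (nat_lit 4) (nat_lit 353) (nat_lit 298) (nat_lit 294)) (XT.lf (nat_lit 0) (nat_lit 362310034) (nat_lit 504) (nat_lit 6871864587) (nat_lit 504) (nat_lit 1103596479) (nat_lit 105) (nat_lit 4) (nat_lit 111) (nat_lit 5) (nat_lit 111) (nat_lit 4) (nat_lit 354) (nat_lit 298) (nat_lit 293))) (XT.nd (nat_lit 94) (nat_lit 420) (nat_lit 0) (XT.lf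 (nat_lit 0) (nat_lit 2093643651) (nat_lit 588) (nat_lit 2573006124) (nat_lit 84) (nat_lit 3780871778) (nat_lit 104) (nat_lit 5) (nat_lit 111) (nat_lit 5) (nat_lit 105) (nat_lit 4) (nat_lit 355) (nat_lit 298) (nat_lit 292)) (XT.lf (nat_lit 0) (nat_lit 2934823125) (nat_lit 420) (nat_lit 2376525225) (nat_lit 504) (nat_lit 3250629193) (nat_lit 99) (nat_lit 5) (nat_lit 104) (nat_lit 5) (nat_lit 105) (nat_lit 4) (nat_lit 356) (nat_lit 298) (nat_lit 291))))) (XT.nd (nat_lit 376) (nat_lit 1176) (nat_lit 0) (XT.nd (nat_lit 188) (nat_lit 420) (nat_lit 0) (XT.nd (nat_lit 94) (nat_lit 504) (nat_lit 0) (XT.lf (nat_lit 0) (nat_lit 8558599952) (nat_lit 420) (nat_lit 12876296) (nat_lit 504) (nat_lit 110152730) (nat_lit 99) (nat_lit 5) (nat_lit 104) (nat_lit 5) (nat_lit 105) (nat_lit 4) (nat_lit 357) (nat_lit 298) (nat_lit 290)) (XT.lf (nat_lit 0) (nat_lit 3061889534) (nat_lit 504) (nat_lit 3305548655) (nat_lit 84) (nat_lit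 2436711615) (nat_lit 93) (nat_lit 5) (nat_lit 99) (nat_lit 5) (nat_lit 94) (nat_lit 4) (nat_lit 358) (nat_lit 298) (nat_lit 289))) (XT.nd (nat_lit 94) (nat_lit 84) (nat_lit 0) (XT.lf (nat_lit 0) (nat_lit 2302799994) (nat_lit 336) (nat_lit 3970054203) (nat_lit 420) (nat_lit 2659206860) (nat_lit 89) (nat_lit 5) (nat_lit 93) (nat_lit 5) (nat_lit 94) (nat_lit 4) (nat_lit 359) (nat_lit 298) (nat_lit 288)) (XT.lf (nat_lit 0) (nat_lit 462841606) (nat_lit 420) (nat_lit 1023595800) (nat_lit 84) (nat_lit 7578645462) (nat_lit 88) (nat_lit 5) (nat_lit 93) (nat_lit 5) (nat_lit 89) (nat_lit 5) (nat_lit 360) (nat_lit 298) (nat_lit 287)))) (XT.nd (nat_lit 188) (nat_lit 420) (nat_lit 0) (XT.nd (nat_lit 94) (nat_lit 336) (nat_lit 0) (XT.lf (nat_lit 0) (nat_lit 3606328491) (nat_lit 504) (nat_lit 4496802196) (nat_lit 84) (nat_lit 1098854065) (nat_lit 83) (nat_lit 5) (nat_lit 89) (nat_lit 5) (nat_lit 84) (nat_lit 4) (nat_lit 361)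 (nat_lit 298) (nat_lit 286)) (XT.lf (nat_lit 0) (nat_lit 1191792130) (nat_lit 336) (nat_lit 5615047314) (nat_lit 420) (nat_lit 2537385298) (nat_lit 79) (nat_lit 5) (nat_lit 83) (nat_lit 5) (nat_lit 84) (nat_lit 4) (nat_lit 362) (nat_lit 298) (nat_lit 285))) (XT.nd (nat_lit 94) (nat_lit 336) (nat_lit 0) (XT.lf (nat_lit 0) (nat_lit 573011004) (nat_lit 420) (nat_lit 2453833374) (nat_lit 84) (nat_lit 6464647096) (nat_lit 78) (nat_lit 5) (nat_lit 83) (nat_lit 5) (nat_lit 79) (nat_lit 5) (nat_lit 363) (nat_lit 298) (nat_lit 284)) (XT.nd (nat_lit 94) (nat_lit 0) (nat_lit 0) (XT.lf (nat_lit 0) (nat_lit 3357725021) (nat_lit 336) (nat_lit 328886722) (nat_lit 420) (nat_lit 5957087117) (nat_lit 74) (nat_lit 5) (nat_lit 78) (nat_lit 5) (nat_lit 79) (nat_lit 5) (nat_lit 364) (nat_lit 298) (nat_lit 283)) (XT.lf (nat_lit 0) (nat_lit 6871691936) (nat_lit 420) (nat_lit 528972879) (nat_lit 84) (nat_lit 2400565585) (nat_lit 74)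 (nat_lit 5) (nat_lit 79) (nat_lit 5) (nat_lit 75) (nat_lit 4) (nat_lit 365) (nat_lit 298) (nat_lit 282))))))) (XT.nd (nat_lit 57904) (nat_lit 0) (nat_lit 2268) (XT.nd (nat_lit 57528) (nat_lit 0) (nat_lit 5124) (XT.nd (nat_lit 188) (nat_lit 252) (nat_lit 0) (XT.nd (nat_lit 94) (nat_lit 336) (nat_lit 0) (XT.lf (nat_lit 0) (nat_lit 171702147) (nat_lit 420) (nat_lit 4559167323) (nat_lit 84) (nat_lit 5233061778) (nat_lit 69) (nat_lit 5) (nat_lit 74) (nat_lit 5) (nat_lit 70) (nat_lit 5) (nat_lit 366) (nat_lit 298) (nat_lit 281)) (XT.lf (nat_lit 0) (nat_lit 1295233908) (nat_lit 336) (nat_lit 1961575765) (nat_lit 420) (nat_lit 6875433553) (nat_lit 65) (nat_lit 5) (nat_lit 69) (nat_lit 5) (nat_lit 70) (nat_lit 5) (nat_lit 367) (nat_lit 298) (nat_lit 280))) (XT.nd (nat_lit 94) (nat_lit 252) (nat_lit 0) (XT.lf (nat_lit 0) (nat_lit 6422176204) (nat_lit 420) (nat_lit 2992374287) (nat_lit 84) (nat_lit 891511817) (nat_lit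 65) (nat_lit 5) (nat_lit 70) (nat_lit 5) (nat_lit 66) (nat_lit 4) (nat_lit 368) (nat_lit 298) (nat_lit 279)) (XT.lf (nat_lit 0) (nat_lit 2971148483) (nat_lit 252) (nat_lit 6693947397) (nat_lit 336) (nat_lit 820608641) (nat_lit 62) (nat_lit 5) (nat_lit 65) (nat_lit 5) (nat_lit 66) (nat_lit 4) (nat_lit 369) (nat_lit 298) (nat_lit 278)))) (XT.nd (nat_lit 188) (nat_lit 588) (nat_lit 0) (XT.nd (nat_lit 94) (nat_lit 588) (nat_lit 0) (XT.lf (nat_lit 0) (nat_lit 790898185) (nat_lit 672) (nat_lit 2257745998) (nat_lit 0) (nat_lit 790898185) (nat_lit 137) (nat_lit 5) (nat_lit 145) (nat_lit 4) (nat_lit 137) (nat_lit 4) (nat_lit 347) (nat_lit 299) (nat_lit 299)) (XT.lf (nat_lit 0) (nat_lit 558347745) (nat_lit 588) (nat_lit 4270219262) (nat_lit 588) (nat_lit 2933986314) (nat_lit 130) (nat_lit 4) (nat_lit 137) (nat_lit 5) (nat_lit 137) (nat_lit 4) (nat_lit 348) (nat_lit 299) (nat_lit 298))) (XT.nd (nat_lit 94) (nat_lit 504)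 (nat_lit 0) (XT.lf (nat_lit 0) (nat_lit 273577817) (nat_lit 672) (nat_lit 2078183519) (nat_lit 84) (nat_lit 5498181186) (nat_lit 129) (nat_lit 5) (nat_lit 137) (nat_lit 5) (nat_lit 130) (nat_lit 4) (nat_lit 349) (nat_lit 299) (nat_lit 297)) (XT.lf (nat_lit 0) (nat_lit 3132310637) (nat_lit 504) (nat_lit 328470070) (nat_lit 588) (nat_lit 4480205231) (nat_lit 123) (nat_lit 5) (nat_lit 129) (nat_lit 5) (nat_lit 130) (nat_lit 4) (nat_lit 350) (nat_lit 299) (nat_lit 296))))) (XT.nd (nat_lit 376) (nat_lit 1344) (nat_lit 0) (XT.nd (nat_lit 188) (nat_lit 924) (nat_lit 0) (XT.nd (nat_lit 94) (nat_lit 84) (nat_lit 0) (XT.lf (nat_lit 0) (nat_lit 395212948) (nat_lit 504) (nat_lit 6303979821) (nat_lit 504) (nat_lit 1337070464) (nat_lit 117) (nat_lit 4) (nat_lit 123) (nat_lit 5) (nat_lit 123) (nat_lit 4) (nat_lit 351) (nat_lit 299) (nat_lit 295)) (XT.lf (nat_lit 0) (nat_lit 1829823415) (nat_lit 588) (nat_lit 2405014102)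 (nat_lit 84) (nat_lit 3900177460) (nat_lit 116) (nat_lit 5) (nat_lit 123) (nat_lit 5) (nat_lit 117) (nat_lit 4) (nat_lit 352) (nat_lit 299) (nat_lit 294))) (XT.nd (nat_lit 94) (nat_lit 504) (nat_lit 0) (XT.lf (nat_lit 0) (nat_lit 2931226133) (nat_lit 420) (nat_lit 2078555062) (nat_lit 504) (nat_lit 3228358916) (nat_lit 111) (nat_lit 5) (nat_lit 116) (nat_lit 5) (nat_lit 117) (nat_lit 4) (nat_lit 353) (nat_lit 299) (nat_lit 293)) (XT.lf (nat_lit 0) (nat_lit 29917938) (nat_lit 504) (nat_lit 8199448015) (nat_lit 504) (nat_lit 116817568) (nat_lit 105) (nat_lit 4) (nat_lit 111) (nat_lit 5) (nat_lit 111) (nat_lit 4) (nat_lit 354) (nat_lit 299) (nat_lit 292)))) (XT.nd (nat_lit 188) (nat_lit 840) (nat_lit 0) (XT.nd (nat_lit 94) (nat_lit 420) (nat_lit 0) (XT.lf (nat_lit 0) (nat_lit 3021027663) (nat_lit 588) (nat_lit 2974055579) (nat_lit 84) (nat_lit 2461840632) (nat_lit 104) (nat_lit 5) (nat_lit 111) (nat_lit 5) (nat_lit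 105) (nat_lit 4) (nat_lit 355) (nat_lit 299) (nat_lit 291)) (XT.lf (nat_lit 0) (nat_lit 2475530224) (nat_lit 420) (nat_lit 3719816951) (nat_lit 504) (nat_lit 2377402485) (nat_lit 99) (nat_lit 5) (nat_lit 104) (nat_lit 5) (nat_lit 105) (nat_lit 4) (nat_lit 356) (nat_lit 299) (nat_lit 290))) (XT.nd (nat_lit 94) (nat_lit 756) (nat_lit 0) (XT.lf (nat_lit 0) (nat_lit 709435244) (nat_lit 504) (nat_lit 650062509) (nat_lit 84) (nat_lit 7333910063) (nat_lit 98) (nat_lit 5) (nat_lit 104) (nat_lit 5) (nat_lit 99) (nat_lit 5) (nat_lit 357) (nat_lit 299) (nat_lit 289)) (XT.nd (nat_lit 94) (nat_lit 336) (nat_lit 0) (XT.lf (nat_lit 0) (nat_lit 3822966822) (nat_lit 504) (nat_lit 3893313816) (nat_lit 84) (nat_lit 1101369524) (nat_lit 93) (nat_lit 5) (nat_lit 99) (nat_lit 5) (nat_lit 94) (nat_lit 4) (nat_lit 358) (nat_lit 299) (nat_lit 288)) (XT.lf (nat_lit 0) (nat_lit 1653584076) (nat_lit 336) (nat_lit 5337020818) (nat_lit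 420) (nat_lit 1956316948) (nat_lit 89) (nat_lit 5) (nat_lit 93) (nat_lit 5) (nat_lit 94) (nat_lit 4) (nat_lit 359) (nat_lit 299) (nat_lit 287))))))))
noncomputable def xc4 : XT := (XT.nd (nat_lit 58468) (nat_lit 0) (nat_lit 588) (XT.nd (nat_lit 752) (nat_lit 252) (nat_lit 0) (XT.nd (nat_lit 376) (nat_lit 1092) (nat_lit 0) (XT.nd (nat_lit 188) (nat_lit 420) (nat_lit 0) (XT.nd (nat_lit 94) (nat_lit 420) (nat_lit 0) (XT.lf (nat_lit 0) (nat_lit 1115126714) (nat_lit 420) (nat_lit 1743524381) (nat_lit 84) (nat_lit 6222253675) (nat_lit 88) (nat_lit 5) (nat_lit 93) (nat_lit 5) (nat_lit 89) (nat_lit 5) (nat_lit 360) (nat_lit 299) (nat_lit 286)) (XT.lf (nat_lit 0) (nat_lit 3933408312) (nat_lit 420) (nat_lit 271092321) (nat_lit 504) (nat_lit 5014984895) (nat_lit 83) (nat_lit 5) (nat_lit 88) (nat_lit 5) (nat_lit 89) (nat_lit 5) (nat_lit 361) (nat_lit 299) (nat_lit 285))) (XT.nd (nat_lit 94) (nat_lit 84) (nat_lit 0) (XT.lf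 (nat_lit 0) (nat_lit 340314079) (nat_lit 336) (nat_lit 7018566569) (nat_lit 420) (nat_lit 2004282667) (nat_lit 79) (nat_lit 5) (nat_lit 83) (nat_lit 5) (nat_lit 84) (nat_lit 4) (nat_lit 362) (nat_lit 299) (nat_lit 284)) (XT.lf (nat_lit 0) (nat_lit 1060545845) (nat_lit 420) (nat_lit 3377846183) (nat_lit 84) (nat_lit 5072990012) (nat_lit 78) (nat_lit 5) (nat_lit 83) (nat_lit 5) (nat_lit 79) (nat_lit 5) (nat_lit 363) (nat_lit 299) (nat_lit 283)))) (XT.nd (nat_lit 188) (nat_lit 756) (nat_lit 0) (XT.nd (nat_lit 94) (nat_lit 0) (nat_lit 0) (XT.lf (nat_lit 0) (nat_lit 2367326082) (nat_lit 336) (nat_lit 1763159370) (nat_lit 420) (nat_lit 5534463106) (nat_lit 74) (nat_lit 5) (nat_lit 78) (nat_lit 5) (nat_lit 79) (nat_lit 5) (nat_lit 364) (nat_lit 299) (nat_lit 282)) (XT.lf (nat_lit 0) (nat_lit 7268059181) (nat_lit 420) (nat_lit 1574363606) (nat_lit 84) (nat_lit 981530366) (nat_lit 74) (nat_lit 5) (nat_lit 79) (nat_lit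 5) (nat_lit 75) (nat_lit 4) (nat_lit 365) (nat_lit 299) (nat_lit 281))) (XT.nd (nat_lit 94) (nat_lit 336) (nat_lit 0) (XT.lf (nat_lit 0) (nat_lit 494141274) (nat_lit 420) (nat_lit 5699660145) (nat_lit 84) (nat_lit 3794107371) (nat_lit 69) (nat_lit 5) (nat_lit 74) (nat_lit 5) (nat_lit 70) (nat_lit 5) (nat_lit 366) (nat_lit 299) (nat_lit 280)) (XT.lf (nat_lit 0) (nat_lit 84735114) (nat_lit 336) (nat_lit 3450291406) (nat_lit 420) (nat_lit 6622564718) (nat_lit 65) (nat_lit 5) (nat_lit 69) (nat_lit 5) (nat_lit 70) (nat_lit 5) (nat_lit 367) (nat_lit 299) (nat_lit 279))))) (XT.nd (nat_lit 57340) (nat_lit 0) (nat_lit 5124) (XT.nd (nat_lit 57152) (nat_lit 0) (nat_lit 6972) (XT.nd (nat_lit 94) (nat_lit 252) (nat_lit 0) (XT.lf (nat_lit 0) (nat_lit 6066261719) (nat_lit 336) (nat_lit 593312399) (nat_lit 420) (nat_lit 3673103293) (nat_lit 65) (nat_lit 5) (nat_lit 69) (nat_lit 5) (nat_lit 70) (nat_lit 5) (nat_lit 368) (nat_lit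 299) (nat_lit 278)) (XT.lf (nat_lit 0) (nat_lit 1631225021) (nat_lit 252) (nat_lit 8221411767) (nat_lit 336) (nat_lit 661219832) (nat_lit 62) (nat_lit 5) (nat_lit 65) (nat_lit 5) (nat_lit 66) (nat_lit 4) (nat_lit 369) (nat_lit 299) (nat_lit 277))) (XT.nd (nat_lit 94) (nat_lit 0) (nat_lit 0) (XT.lf (nat_lit 0) (nat_lit 331926992) (nat_lit 588) (nat_lit 1714555020) (nat_lit 588) (nat_lit 1714555020) (nat_lit 145) (nat_lit 4) (nat_lit 152) (nat_lit 5) (nat_lit 152) (nat_lit 4) (nat_lit 345) (nat_lit 300) (nat_lit 300)) (XT.lf (nat_lit 0) (nat_lit 5687844762) (nat_lit 588) (nat_lit 1664685987) (nat_lit 588) (nat_lit 247076452) (nat_lit 145) (nat_lit 4) (nat_lit 152) (nat_lit 5) (nat_lit 152) (nat_lit 4) (nat_lit 346) (nat_lit 300) (nat_lit 299)))) (XT.nd (nat_lit 188) (nat_lit 588) (nat_lit 0) (XT.nd (nat_lit 94) (nat_lit 588) (nat_lit 0) (XT.lf (nat_lit 0) (nat_lit 2913309743) (nat_lit 672) (nat_lit 4566456792)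 (nat_lit 0) (nat_lit 200756859) (nat_lit 137) (nat_lit 5) (nat_lit 145) (nat_lit 4) (nat_lit 137) (nat_lit 4) (nat_lit 347) (nat_lit 300) (nat_lit 298)) (XT.lf (nat_lit 0) (nat_lit 455903510) (nat_lit 588) (nat_lit 5659690595) (nat_lit 588) (nat_lit 1649824169) (nat_lit 130) (nat_lit 4) (nat_lit 137) (nat_lit 5) (nat_lit 137) (nat_lit 4) (nat_lit 348) (nat_lit 300) (nat_lit 297))) (XT.nd (nat_lit 94) (nat_lit 504) (nat_lit 0) (XT.lf (nat_lit 0) (nat_lit 1489465752) (nat_lit 672) (nat_lit 2245778660) (nat_lit 84) (nat_lit 4118575651) (nat_lit 129) (nat_lit 5) (nat_lit 137) (nat_lit 5) (nat_lit 130) (nat_lit 4) (nat_lit 349) (nat_lit 300) (nat_lit 296)) (XT.lf (nat_lit 0) (nat_lit 2911927850) (nat_lit 504) (nat_lit 1720665462) (nat_lit 588) (nat_lit 3313676352) (nat_lit 123) (nat_lit 5) (nat_lit 129) (nat_lit 5) (nat_lit 130) (nat_lit 4) (nat_lit 350) (nat_lit 300) (nat_lit 295)))))) (XT.nd (nat_lit 752) (nat_lit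 2016) (nat_lit 0) (XT.nd (nat_lit 376) (nat_lit 1428) (nat_lit 0) (XT.nd (nat_lit 188) (nat_lit 504) (nat_lit 0) (XT.nd (nat_lit 94) (nat_lit 84) (nat_lit 0) (XT.lf (nat_lit 0) (nat_lit 128460082) (nat_lit 504) (nat_lit 7685336602) (nat_lit 504) (nat_lit 229548017) (nat_lit 117) (nat_lit 4) (nat_lit 123) (nat_lit 5) (nat_lit 123) (nat_lit 4) (nat_lit 351) (nat_lit 300) (nat_lit 294)) (XT.lf (nat_lit 0) (nat_lit 2874726295) (nat_lit 588) (nat_lit 2739168260) (nat_lit 84) (nat_lit 2529189543) (nat_lit 116) (nat_lit 5) (nat_lit 123) (nat_lit 5) (nat_lit 117) (nat_lit 4) (nat_lit 352) (nat_lit 300) (nat_lit 293))) (XT.nd (nat_lit 94) (nat_lit 84) (nat_lit 0) (XT.lf (nat_lit 0) (nat_lit 2541235008) (nat_lit 420) (nat_lit 3469886822) (nat_lit 504) (nat_lit 2236468836) (nat_lit 111) (nat_lit 5) (nat_lit 116) (nat_lit 5) (nat_lit 117) (nat_lit 4) (nat_lit 353) (nat_lit 300) (nat_lit 292)) (XT.lf (nat_lit 0) (nat_lit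 816685202) (nat_lit 504) (nat_lit 425678305) (nat_lit 84) (nat_lit 7114327850) (nat_lit 110) (nat_lit 5) (nat_lit 116) (nat_lit 5) (nat_lit 111) (nat_lit 5) (nat_lit 354) (nat_lit 300) (nat_lit 291)))) (XT.nd (nat_lit 188) (nat_lit 504) (nat_lit 0) (XT.nd (nat_lit 94) (nat_lit 420) (nat_lit 0) (XT.lf (nat_lit 0) (nat_lit 3897123725) (nat_lit 588) (nat_lit 3487176921) (nat_lit 84) (nat_lit 1084819430) (nat_lit 104) (nat_lit 5) (nat_lit 111) (nat_lit 5) (nat_lit 105) (nat_lit 4) (nat_lit 355) (nat_lit 300) (nat_lit 290)) (XT.lf (nat_lit 0) (nat_lit 1903398922) (nat_lit 420) (nat_lit 5124709510) (nat_lit 504) (nat_lit 1558203725) (nat_lit 99) (nat_lit 5) (nat_lit 104) (nat_lit 5) (nat_lit 105) (nat_lit 4) (nat_lit 356) (nat_lit 300) (nat_lit 289))) (XT.nd (nat_lit 94) (nat_lit 420) (nat_lit 0) (XT.lf (nat_lit 0) (nat_lit 1475028668) (nat_lit 504) (nat_lit 1291818647) (nat_lit 84) (nat_lit 5941077802) (nat_lit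 98) (nat_lit 5) (nat_lit 104) (nat_lit 5) (nat_lit 99) (nat_lit 5) (nat_lit 357) (nat_lit 300) (nat_lit 288)) (XT.lf (nat_lit 0) (nat_lit 4233214403) (nat_lit 420) (nat_lit 301273612) (nat_lit 504) (nat_lit 4299362246) (nat_lit 93) (nat_lit 5) (nat_lit 98) (nat_lit 5) (nat_lit 99) (nat_lit 5) (nat_lit 358) (nat_lit 300) (nat_lit 287))))) (XT.nd (nat_lit 376) (nat_lit 1176) (nat_lit 0) (XT.nd (nat_lit 188) (nat_lit 420) (nat_lit 0) (XT.nd (nat_lit 94) (nat_lit 84) (nat_lit 0) (XT.lf (nat_lit 0) (nat_lit 886834641) (nat_lit 336) (nat_lit 6769019197) (nat_lit 420) (nat_lit 1308715133) (nat_lit 89) (nat_lit 5) (nat_lit 93) (nat_lit 5) (nat_lit 94) (nat_lit 4) (nat_lit 359) (nat_lit 300) (nat_lit 286)) (XT.lf (nat_lit 0) (nat_lit 1714277029) (nat_lit 420) (nat_lit 2581811402) (nat_lit 84) (nat_lit 4803406634) (nat_lit 88) (nat_lit 5) (nat_lit 93) (nat_lit 5) (nat_lit 89) (nat_lit 5) (nat_lit 360) (nat_lit 300)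 (nat_lit 285))) (XT.nd (nat_lit 94) (nat_lit 0) (nat_lit 0) (XT.lf (nat_lit 0) (nat_lit 3031239731) (nat_lit 420) (nat_lit 1728967703) (nat_lit 504) (nat_lit 4479225562) (nat_lit 83) (nat_lit 5) (nat_lit 88) (nat_lit 5) (nat_lit 89) (nat_lit 5) (nat_lit 361) (nat_lit 300) (nat_lit 284)) (XT.lf (nat_lit 0) (nat_lit 7862991372) (nat_lit 504) (nat_lit 621218569) (nat_lit 84) (nat_lit 900501025) (nat_lit 83) (nat_lit 5) (nat_lit 89) (nat_lit 5) (nat_lit 84) (nat_lit 4) (nat_lit 362) (nat_lit 300) (nat_lit 283)))) (XT.nd (nat_lit 188) (nat_lit 420) (nat_lit 0) (XT.nd (nat_lit 94) (nat_lit 336) (nat_lit 0) (XT.lf (nat_lit 0) (nat_lit 1493400882) (nat_lit 420) (nat_lit 4425110931) (nat_lit 84) (nat_lit 3615536758) (nat_lit 78) (nat_lit 5) (nat_lit 83) (nat_lit 5) (nat_lit 79) (nat_lit 5) (nat_lit 363) (nat_lit 300) (nat_lit 282)) (XT.lf (nat_lit 0) (nat_lit 1252620203) (nat_lit 336) (nat_lit 3266858631) (nat_lit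 420) (nat_lit 5169499967) (nat_lit 74) (nat_lit 5) (nat_lit 78) (nat_lit 5) (nat_lit 79) (nat_lit 5) (nat_lit 364) (nat_lit 300) (nat_lit 281))) (XT.nd (nat_lit 94) (nat_lit 420) (nat_lit 0) (XT.lf (nat_lit 0) (nat_lit 7099553930) (nat_lit 336) (nat_lit 515259908) (nat_lit 420) (nat_lit 2234483188) (nat_lit 74) (nat_lit 5) (nat_lit 78) (nat_lit 5) (nat_lit 79) (nat_lit 5) (nat_lit 365) (nat_lit 300) (nat_lit 280)) (XT.nd (nat_lit 94) (nat_lit 0) (nat_lit 0) (XT.lf (nat_lit 0) (nat_lit 760103537) (nat_lit 420) (nat_lit 6968528857) (nat_lit 84) (nat_lit 2286046681) (nat_lit 69) (nat_lit 5) (nat_lit 74) (nat_lit 5) (nat_lit 70) (nat_lit 5) (nat_lit 366) (nat_lit 300) (nat_lit 279)) (XT.lf (nat_lit 0) (nat_lit 3768537146) (nat_lit 420) (nat_lit 1230820853) (nat_lit 84) (nat_lit 5186019598) (nat_lit 69) (nat_lit 5) (nat_lit 74) (nat_lit 5) (nat_lit 70) (nat_lit 5) (nat_lit 367) (nat_lit 300) (nat_lit 278))))))))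
noncomputable def xc5 : XT := (XT.nd (nat_lit 58280) (nat_lit 0) (nat_lit 252) (XT.nd (nat_lit 57528) (nat_lit 0) (nat_lit 3108) (XT.nd (nat_lit 57152) (nat_lit 0) (nat_lit 5712) (XT.nd (nat_lit 56964) (nat_lit 0) (nat_lit 7560) (XT.nd (nat_lit 94) (nat_lit 252) (nat_lit 0) (XT.lf (nat_lit 0) (nat_lit 4681617743) (nat_lit 336) (nat_lit 2168255839) (nat_lit 420) (nat_lit 3511927808) (nat_lit 65) (nat_lit 5) (nat_lit 69) (nat_lit 5) (nat_lit 70) (nat_lit 5) (nat_lit 368) (nat_lit 300) (nat_lit 277)) (XT.lf (nat_lit 0) (nat_lit 159767805) (nat_lit 252) (nat_lit 9823521900) (nat_lit 336) (nat_lit 561520375) (nat_lit 62) (nat_lit 5) (nat_lit 65) (nat_lit 5) (nat_lit 66) (nat_lit 4) (nat_lit 369) (nat_lit 300) (nat_lit 276))) (XT.nd (nat_lit 94) (nat_lit 672) (nat_lit 0) (XT.lf (nat_lit 0) (nat_lit 2880828596) (nat_lit 1260) (nat_lit 403889292) (nat_lit 1260) (nat_lit 403889292) (nat_lit 160) (nat_lit 4) (nat_lit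 175) (nat_lit 5) (nat_lit 175) (nat_lit 4) (nat_lit 343) (nat_lit 301) (nat_lit 301)) (XT.lf (nat_lit 0) (nat_lit 2341086152) (nat_lit 672) (nat_lit 4226383838) (nat_lit 0) (nat_lit 880948332) (nat_lit 152) (nat_lit 5) (nat_lit 160) (nat_lit 4) (nat_lit 152) (nat_lit 4) (nat_lit 344) (nat_lit 301) (nat_lit 300)))) (XT.nd (nat_lit 188) (nat_lit 1176) (nat_lit 0) (XT.nd (nat_lit 94) (nat_lit 84) (nat_lit 0) (XT.lf (nat_lit 0) (nat_lit 614794425) (nat_lit 588) (nat_lit 4893239622) (nat_lit 588) (nat_lit 2015492267) (nat_lit 145) (nat_lit 4) (nat_lit 152) (nat_lit 5) (nat_lit 152) (nat_lit 4) (nat_lit 345) (nat_lit 301) (nat_lit 299)) (XT.lf (nat_lit 0) (nat_lit 1099494139) (nat_lit 672) (nat_lit 2022094189) (nat_lit 84) (nat_lit 4480557686) (nat_lit 144) (nat_lit 5) (nat_lit 152) (nat_lit 5) (nat_lit 145) (nat_lit 4) (nat_lit 346) (nat_lit 301) (nat_lit 298))) (XT.nd (nat_lit 94) (nat_lit 588) (nat_lit 0) (XT.lf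 (nat_lit 0) (nat_lit 2953014067) (nat_lit 588) (nat_lit 1255515148) (nat_lit 672) (nat_lit 3475949342) (nat_lit 137) (nat_lit 5) (nat_lit 144) (nat_lit 5) (nat_lit 145) (nat_lit 4) (nat_lit 347) (nat_lit 301) (nat_lit 297)) (XT.lf (nat_lit 0) (nat_lit 250925525) (nat_lit 588) (nat_lit 7103614415) (nat_lit 588) (nat_lit 416610743) (nat_lit 130) (nat_lit 4) (nat_lit 137) (nat_lit 5) (nat_lit 137) (nat_lit 4) (nat_lit 348) (nat_lit 301) (nat_lit 296))))) (XT.nd (nat_lit 376) (nat_lit 1428) (nat_lit 0) (XT.nd (nat_lit 188) (nat_lit 588) (nat_lit 0) (XT.nd (nat_lit 94) (nat_lit 504) (nat_lit 0) (XT.lf (nat_lit 0) (nat_lit 2656657866) (nat_lit 672) (nat_lit 2516830640) (nat_lit 84) (nat_lit 2687050965) (nat_lit 129) (nat_lit 5) (nat_lit 137) (nat_lit 5) (nat_lit 130) (nat_lit 4) (nat_lit 349) (nat_lit 301) (nat_lit 295)) (XT.lf (nat_lit 0) (nat_lit 2587469583) (nat_lit 504) (nat_lit 3168462120) (nat_lit 588) (nat_lit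 2198454462) (nat_lit 123) (nat_lit 5) (nat_lit 129) (nat_lit 5) (nat_lit 130) (nat_lit 4) (nat_lit 350) (nat_lit 301) (nat_lit 294))) (XT.nd (nat_lit 94) (nat_lit 504) (nat_lit 0) (XT.lf (nat_lit 0) (nat_lit 823141687) (nat_lit 588) (nat_lit 259086064) (nat_lit 84) (nat_lit 6970412331) (nat_lit 122) (nat_lit 5) (nat_lit 129) (nat_lit 5) (nat_lit 123) (nat_lit 5) (nat_lit 351) (nat_lit 301) (nat_lit 293)) (XT.lf (nat_lit 0) (nat_lit 3870155037) (nat_lit 588) (nat_lit 3181247519) (nat_lit 84) (nat_lit 1102568744) (nat_lit 116) (nat_lit 5) (nat_lit 123) (nat_lit 5) (nat_lit 117) (nat_lit 4) (nat_lit 352) (nat_lit 301) (nat_lit 292)))) (XT.nd (nat_lit 188) (nat_lit 924) (nat_lit 0) (XT.nd (nat_lit 94) (nat_lit 84) (nat_lit 0) (XT.lf (nat_lit 0) (nat_lit 2042603481) (nat_lit 420) (nat_lit 4920500141) (nat_lit 504) (nat_lit 1296750049) (nat_lit 111) (nat_lit 5) (nat_lit 116) (nat_lit 5) (nat_lit 117) (nat_lit 4)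 (nat_lit 353) (nat_lit 301) (nat_lit 291)) (XT.lf (nat_lit 0) (nat_lit 1699648168) (nat_lit 504) (nat_lit 992801962) (nat_lit 84) (nat_lit 5677454032) (nat_lit 110) (nat_lit 5) (nat_lit 116) (nat_lit 5) (nat_lit 111) (nat_lit 5) (nat_lit 354) (nat_lit 301) (nat_lit 290))) (XT.nd (nat_lit 94) (nat_lit 420) (nat_lit 0) (XT.lf (nat_lit 0) (nat_lit 4367753907) (nat_lit 504) (nat_lit 358388500) (nat_lit 588) (nat_lit 3757875056) (nat_lit 104) (nat_lit 5) (nat_lit 110) (nat_lit 5) (nat_lit 111) (nat_lit 5) (nat_lit 355) (nat_lit 301) (nat_lit 289)) (XT.lf (nat_lit 0) (nat_lit 1217929299) (nat_lit 420) (nat_lit 6592430478) (nat_lit 504) (nat_lit 792317110) (nat_lit 99) (nat_lit 5) (nat_lit 104) (nat_lit 5) (nat_lit 105) (nat_lit 4) (nat_lit 356) (nat_lit 301) (nat_lit 288)))))) (XT.nd (nat_lit 752) (nat_lit 756) (nat_lit 0) (XT.nd (nat_lit 376) (nat_lit 1176) (nat_lit 0) (XT.nd (nat_lit 188) (nat_lit 420) (nat_lit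 0) (XT.nd (nat_lit 94) (nat_lit 420) (nat_lit 0) (XT.lf (nat_lit 0) (nat_lit 2189445982) (nat_lit 504) (nat_lit 2047799345) (nat_lit 84) (nat_lit 4487980006) (nat_lit 98) (nat_lit 5) (nat_lit 104) (nat_lit 5) (nat_lit 99) (nat_lit 5) (nat_lit 357) (nat_lit 301) (nat_lit 287)) (XT.lf (nat_lit 0) (nat_lit 3415862701) (nat_lit 420) (nat_lit 1789725458) (nat_lit 504) (nat_lit 3646920698) (nat_lit 93) (nat_lit 5) (nat_lit 98) (nat_lit 5) (nat_lit 99) (nat_lit 5) (nat_lit 358) (nat_lit 301) (nat_lit 286))) (XT.nd (nat_lit 94) (nat_lit 84) (nat_lit 0) (XT.lf (nat_lit 0) (nat_lit 1881716) (nat_lit 336) (nat_lit 8267300602) (nat_lit 420) (nat_lit 715835549) (nat_lit 89) (nat_lit 5) (nat_lit 93) (nat_lit 5) (nat_lit 94) (nat_lit 4) (nat_lit 359) (nat_lit 301) (nat_lit 285)) (XT.lf (nat_lit 0) (nat_lit 2260816079) (nat_lit 420) (nat_lit 3539189345) (nat_lit 84) (nat_lit 3320864570) (nat_lit 88) (nat_lit 5) (nat_lit 93)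 (nat_lit 5) (nat_lit 89) (nat_lit 5) (nat_lit 360) (nat_lit 301) (nat_lit 284)))) (XT.nd (nat_lit 188) (nat_lit 756) (nat_lit 0) (XT.nd (nat_lit 94) (nat_lit 0) (nat_lit 0) (XT.lf (nat_lit 0) (nat_lit 2008984784) (nat_lit 420) (nat_lit 3254176600) (nat_lit 504) (nat_lit 3999006395) (nat_lit 83) (nat_lit 5) (nat_lit 88) (nat_lit 5) (nat_lit 89) (nat_lit 5) (nat_lit 361) (nat_lit 301) (nat_lit 283)) (XT.lf (nat_lit 0) (nat_lit 7705842099) (nat_lit 420) (nat_lit 618071828) (nat_lit 504) (nat_lit 1084843540) (nat_lit 83) (nat_lit 5) (nat_lit 88) (nat_lit 5) (nat_lit 89) (nat_lit 5) (nat_lit 362) (nat_lit 301) (nat_lit 282))) (XT.nd (nat_lit 94) (nat_lit 336) (nat_lit 0) (XT.lf (nat_lit 0) (nat_lit 1871954337) (nat_lit 420) (nat_lit 5596542706) (nat_lit 84) (nat_lit 2091013833) (nat_lit 78) (nat_lit 5) (nat_lit 83) (nat_lit 5) (nat_lit 79) (nat_lit 5) (nat_lit 363) (nat_lit 301) (nat_lit 281)) (XT.lf (nat_lit 0)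 (nat_lit 12633369) (nat_lit 336) (nat_lit 4841298418) (nat_lit 420) (nat_lit 4861878802) (nat_lit 74) (nat_lit 5) (nat_lit 78) (nat_lit 5) (nat_lit 79) (nat_lit 5) (nat_lit 364) (nat_lit 301) (nat_lit 280))))) (XT.nd (nat_lit 376) (nat_lit 0) (nat_lit 0) (XT.nd (nat_lit 188) (nat_lit 336) (nat_lit 0) (XT.nd (nat_lit 94) (nat_lit 420) (nat_lit 0) (XT.lf (nat_lit 0) (nat_lit 5815643533) (nat_lit 336) (nat_lit 2101957358) (nat_lit 420) (nat_lit 1959523014) (nat_lit 74) (nat_lit 5) (nat_lit 78) (nat_lit 5) (nat_lit 79) (nat_lit 5) (nat_lit 365) (nat_lit 301) (nat_lit 279)) (XT.lf (nat_lit 0) (nat_lit 969821331) (nat_lit 420) (nat_lit 8366882179) (nat_lit 84) (nat_lit 707561983) (nat_lit 69) (nat_lit 5) (nat_lit 74) (nat_lit 5) (nat_lit 70) (nat_lit 5) (nat_lit 366) (nat_lit 301) (nat_lit 278))) (XT.nd (nat_lit 94) (nat_lit 336) (nat_lit 0) (XT.lf (nat_lit 0) (nat_lit 3947539298) (nat_lit 420) (nat_lit 2672896280)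 (nat_lit 84) (nat_lit 3595491193) (nat_lit 69) (nat_lit 5) (nat_lit 74) (nat_lit 5) (nat_lit 70) (nat_lit 5) (nat_lit 367) (nat_lit 301) (nat_lit 277)) (XT.lf (nat_lit 0) (nat_lit 3167548731) (nat_lit 336) (nat_lit 3816951833) (nat_lit 420) (nat_lit 3409221339) (nat_lit 65) (nat_lit 5) (nat_lit 69) (nat_lit 5) (nat_lit 70) (nat_lit 5) (nat_lit 368) (nat_lit 301) (nat_lit 276)))) (XT.nd (nat_lit 56776) (nat_lit 0) (nat_lit 7308) (XT.nd (nat_lit 56682) (nat_lit 0) (nat_lit 9240) (XT.lf (nat_lit 0) (nat_lit 9152672908) (nat_lit 336) (nat_lit 927295116) (nat_lit 420) (nat_lit 497939944) (nat_lit 65) (nat_lit 5) (nat_lit 69) (nat_lit 5) (nat_lit 70) (nat_lit 5) (nat_lit 369) (nat_lit 301) (nat_lit 275)) (XT.lf (nat_lit 0) (nat_lit 879469172) (nat_lit 1260) (nat_lit 1862760152) (nat_lit 0) (nat_lit 879469172) (nat_lit 175) (nat_lit 5) (nat_lit 190) (nat_lit 4) (nat_lit 175) (nat_lit 4) (nat_lit 341) (nat_lit 302)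 (nat_lit 302))) (XT.nd (nat_lit 94) (nat_lit 672) (nat_lit 0) (XT.lf (nat_lit 0) (nat_lit 933756359) (nat_lit 1260) (nat_lit 3962219636) (nat_lit 1260) (nat_lit 2413159422) (nat_lit 160) (nat_lit 4) (nat_lit 175) (nat_lit 5) (nat_lit 175) (nat_lit 4) (nat_lit 342) (nat_lit 302) (nat_lit 301)) (XT.nd (nat_lit 94) (nat_lit 588) (nat_lit 0) (XT.lf (nat_lit 0) (nat_lit 681365569) (nat_lit 1344) (nat_lit 1669830064) (nat_lit 84) (nat_lit 5027271707) (nat_lit 159) (nat_lit 5) (nat_lit 175) (nat_lit 5) (nat_lit 160) (nat_lit 4) (nat_lit 343) (nat_lit 302) (nat_lit 300)) (XT.lf (nat_lit 0) (nat_lit 3120972889) (nat_lit 588) (nat_lit 639673849) (nat_lit 672) (nat_lit 3690506455) (nat_lit 152) (nat_lit 5) (nat_lit 159) (nat_lit 5) (nat_lit 160) (nat_lit 4) (nat_lit 344) (nat_lit 302) (nat_lit 299))))))))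
noncomputable def xc6 : XT := (XT.nd (nat_lit 1504) (nat_lit 1932) (nat_lit 0) (XT.nd (nat_lit 752) (nat_lit 2352) (nat_lit 0) (XT.nd (nat_lit 376) (nat_lit 1680) (nat_lit 0) (XT.nd (nat_lit 188) (nat_lit 672) (nat_lit 0) (XT.nd (nat_lit 94) (nat_lit 84) (nat_lit 0) (XT.lf (nat_lit 0) (nat_lit 467572876) (nat_lit 588) (nat_lit 6409160346) (nat_lit 588) (nat_lit 651151099) (nat_lit 145) (nat_lit 4) (nat_lit 152) (nat_lit 5) (nat_lit 152) (nat_lit 4) (nat_lit 345) (nat_lit 302) (nat_lit 298)) (XT.lf (nat_lit 0) (nat_lit 2394218155) (nat_lit 672) (nat_lit 2233979339) (nat_lit 84) (nat_lit 2979294606) (nat_lit 144) (nat_lit 5) (nat_lit 152) (nat_lit 5) (nat_lit 145) (nat_lit 4) (nat_lit 346) (nat_lit 302) (nat_lit 297))) (XT.nd (nat_lit 94) (nat_lit 84) (nat_lit 0) (XT.lf (nat_lit 0) (nat_lit 2690183928) (nat_lit 588) (nat_lit 2768801128) (nat_lit 672) (nat_lit 2232256670) (nat_lit 137) (nat_lit 5) (nat_lit 144)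 (nat_lit 5) (nat_lit 145) (nat_lit 4) (nat_lit 347) (nat_lit 302) (nat_lit 296)) (XT.lf (nat_lit 0) (nat_lit 760468931) (nat_lit 672) (nat_lit 71181346) (nat_lit 84) (nat_lit 6947623198) (nat_lit 136) (nat_lit 5) (nat_lit 144) (nat_lit 5) (nat_lit 137) (nat_lit 5) (nat_lit 348) (nat_lit 302) (nat_lit 295)))) (XT.nd (nat_lit 188) (nat_lit 588) (nat_lit 0) (XT.nd (nat_lit 94) (nat_lit 504) (nat_lit 0) (XT.lf (nat_lit 0) (nat_lit 3776174036) (nat_lit 672) (nat_lit 2891576302) (nat_lit 84) (nat_lit 1202356283) (nat_lit 129) (nat_lit 5) (nat_lit 137) (nat_lit 5) (nat_lit 130) (nat_lit 4) (nat_lit 349) (nat_lit 302) (nat_lit 294)) (XT.lf (nat_lit 0) (nat_lit 2158652330) (nat_lit 504) (nat_lit 4673125111) (nat_lit 588) (nat_lit 1133565096) (nat_lit 123) (nat_lit 5) (nat_lit 129) (nat_lit 5) (nat_lit 130) (nat_lit 4) (nat_lit 350) (nat_lit 302) (nat_lit 293))) (XT.nd (nat_lit 94) (nat_lit 504) (nat_lit 0) (XT.lf (nat_lit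 0) (nat_lit 1827959939) (nat_lit 588) (nat_lit 755208343) (nat_lit 84) (nat_lit 5481374386) (nat_lit 122) (nat_lit 5) (nat_lit 129) (nat_lit 5) (nat_lit 123) (nat_lit 5) (nat_lit 351) (nat_lit 302) (nat_lit 292)) (XT.lf (nat_lit 0) (nat_lit 4432201274) (nat_lit 504) (nat_lit 388512779) (nat_lit 588) (nat_lit 3346860006) (nat_lit 116) (nat_lit 5) (nat_lit 122) (nat_lit 5) (nat_lit 123) (nat_lit 5) (nat_lit 352) (nat_lit 302) (nat_lit 291))))) (XT.nd (nat_lit 376) (nat_lit 924) (nat_lit 0) (XT.nd (nat_lit 188) (nat_lit 924) (nat_lit 0) (XT.nd (nat_lit 94) (nat_lit 84) (nat_lit 0) (XT.lf (nat_lit 0) (nat_lit 1434895855) (nat_lit 420) (nat_lit 6431662545) (nat_lit 504) (nat_lit 408381444) (nat_lit 111) (nat_lit 5) (nat_lit 116) (nat_lit 5) (nat_lit 117) (nat_lit 4) (nat_lit 353) (nat_lit 302) (nat_lit 290)) (XT.lf (nat_lit 0) (nat_lit 2533381967) (nat_lit 504) (nat_lit 1669956636) (nat_lit 84) (nat_lit 4182580783)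 (nat_lit 110) (nat_lit 5) (nat_lit 116) (nat_lit 5) (nat_lit 111) (nat_lit 5) (nat_lit 354) (nat_lit 302) (nat_lit 289))) (XT.nd (nat_lit 94) (nat_lit 420) (nat_lit 0) (XT.lf (nat_lit 0) (nat_lit 3631750423) (nat_lit 504) (nat_lit 1884837726) (nat_lit 588) (nat_lit 2984807501) (nat_lit 104) (nat_lit 5) (nat_lit 110) (nat_lit 5) (nat_lit 111) (nat_lit 5) (nat_lit 355) (nat_lit 302) (nat_lit 288)) (XT.lf (nat_lit 0) (nat_lit 418522400) (nat_lit 420) (nat_lit 8124262330) (nat_lit 504) (nat_lit 79073417) (nat_lit 99) (nat_lit 5) (nat_lit 104) (nat_lit 5) (nat_lit 105) (nat_lit 4) (nat_lit 356) (nat_lit 302) (nat_lit 287)))) (XT.nd (nat_lit 188) (nat_lit 420) (nat_lit 0) (XT.nd (nat_lit 94) (nat_lit 420) (nat_lit 0) (XT.lf (nat_lit 0) (nat_lit 2853311435) (nat_lit 504) (nat_lit 2918665168) (nat_lit 84) (nat_lit 2973346979) (nat_lit 98) (nat_lit 5) (nat_lit 104) (nat_lit 5) (nat_lit 99) (nat_lit 5) (nat_lit 357)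 (nat_lit 302) (nat_lit 286)) (XT.lf (nat_lit 0) (nat_lit 2482688721) (nat_lit 420) (nat_lit 3343367190) (nat_lit 504) (nat_lit 3047910275) (nat_lit 93) (nat_lit 5) (nat_lit 98) (nat_lit 5) (nat_lit 99) (nat_lit 5) (nat_lit 358) (nat_lit 302) (nat_lit 285))) (XT.nd (nat_lit 94) (nat_lit 420) (nat_lit 0) (XT.lf (nat_lit 0) (nat_lit 8017270549) (nat_lit 420) (nat_lit 831480699) (nat_lit 504) (nat_lit 159006398) (nat_lit 93) (nat_lit 5) (nat_lit 98) (nat_lit 5) (nat_lit 99) (nat_lit 5) (nat_lit 359) (nat_lit 302) (nat_lit 284)) (XT.lf (nat_lit 0) (nat_lit 2755221424) (nat_lit 420) (nat_lit 4616494756) (nat_lit 84) (nat_lit 1773332058) (nat_lit 88) (nat_lit 5) (nat_lit 93) (nat_lit 5) (nat_lit 89) (nat_lit 5) (nat_lit 360) (nat_lit 302) (nat_lit 283)))))) (XT.nd (nat_lit 752) (nat_lit 0) (nat_lit 0) (XT.nd (nat_lit 376) (nat_lit 1092) (nat_lit 0) (XT.nd (nat_lit 188) (nat_lit 420) (nat_lit 0) (XT.nd (nat_lit 94)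 (nat_lit 0) (nat_lit 0) (XT.lf (nat_lit 0) (nat_lit 865750238) (nat_lit 420) (nat_lit 4848051721) (nat_lit 504) (nat_lit 3573907784) (nat_lit 83) (nat_lit 5) (nat_lit 88) (nat_lit 5) (nat_lit 89) (nat_lit 5) (nat_lit 361) (nat_lit 302) (nat_lit 282)) (XT.lf (nat_lit 0) (nat_lit 6519414693) (nat_lit 420) (nat_lit 2222903931) (nat_lit 504) (nat_lit 692997180) (nat_lit 83) (nat_lit 5) (nat_lit 88) (nat_lit 5) (nat_lit 89) (nat_lit 5) (nat_lit 362) (nat_lit 302) (nat_lit 281))) (XT.nd (nat_lit 94) (nat_lit 0) (nat_lit 0) (XT.lf (nat_lit 0) (nat_lit 2196536985) (nat_lit 420) (nat_lit 6893165087) (nat_lit 84) (nat_lit 498089129) (nat_lit 78) (nat_lit 5) (nat_lit 83) (nat_lit 5) (nat_lit 79) (nat_lit 5) (nat_lit 363) (nat_lit 302) (nat_lit 280)) (XT.lf (nat_lit 0) (nat_lit 5147149316) (nat_lit 420) (nat_lit 1327301990) (nat_lit 84) (nat_lit 3270625677) (nat_lit 78) (nat_lit 5) (nat_lit 83) (nat_lit 5) (nat_lit 79)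 (nat_lit 5) (nat_lit 364) (nat_lit 302) (nat_lit 279)))) (XT.nd (nat_lit 188) (nat_lit 336) (nat_lit 0) (XT.nd (nat_lit 94) (nat_lit 420) (nat_lit 0) (XT.lf (nat_lit 0) (nat_lit 4406648024) (nat_lit 336) (nat_lit 3760414038) (nat_lit 420) (nat_lit 1740684727) (nat_lit 74) (nat_lit 5) (nat_lit 78) (nat_lit 5) (nat_lit 79) (nat_lit 5) (nat_lit 365) (nat_lit 302) (nat_lit 278)) (XT.lf (nat_lit 0) (nat_lit 171232240) (nat_lit 336) (nat_lit 961488075) (nat_lit 420) (nat_lit 8943696309) (nat_lit 69) (nat_lit 5) (nat_lit 73) (nat_lit 5) (nat_lit 74) (nat_lit 5) (nat_lit 366) (nat_lit 302) (nat_lit 277))) (XT.nd (nat_lit 94) (nat_lit 336) (nat_lit 0) (XT.lf (nat_lit 0) (nat_lit 4071374859) (nat_lit 420) (nat_lit 4244404719) (nat_lit 84) (nat_lit 1933510310) (nat_lit 69) (nat_lit 5) (nat_lit 74) (nat_lit 5) (nat_lit 70) (nat_lit 5) (nat_lit 367) (nat_lit 302) (nat_lit 276)) (XT.lf (nat_lit 0) (nat_lit 1522731710) (nat_lit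 336) (nat_lit 5540840989) (nat_lit 420) (nat_lit 3364894141) (nat_lit 65) (nat_lit 5) (nat_lit 69) (nat_lit 5) (nat_lit 70) (nat_lit 5) (nat_lit 368) (nat_lit 302) (nat_lit 275))))) (XT.nd (nat_lit 56776) (nat_lit 0) (nat_lit 6636) (XT.nd (nat_lit 56588) (nat_lit 0) (nat_lit 9240) (XT.nd (nat_lit 56494) (nat_lit 0) (nat_lit 10500) (XT.lf (nat_lit 0) (nat_lit 7467047652) (nat_lit 336) (nat_lit 2663491069) (nat_lit 420) (nat_lit 483007010) (nat_lit 65) (nat_lit 5) (nat_lit 69) (nat_lit 5) (nat_lit 70) (nat_lit 5) (nat_lit 369) (nat_lit 302) (nat_lit 274)) (XT.lf (nat_lit 0) (nat_lit 733854059) (nat_lit 1092) (nat_lit 1413330119) (nat_lit 1092) (nat_lit 1413330119) (nat_lit 190) (nat_lit 4) (nat_lit 203) (nat_lit 5) (nat_lit 203) (nat_lit 4) (nat_lit 339) (nat_lit 303) (nat_lit 303))) (XT.nd (nat_lit 94) (nat_lit 1176) (nat_lit 0) (XT.lf (nat_lit 0) (nat_lit 251781265) (nat_lit 1176) (nat_lit 1132282011) (nat_lit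 84) (nat_lit 5797436469) (nat_lit 189) (nat_lit 5) (nat_lit 203) (nat_lit 5) (nat_lit 190) (nat_lit 4) (nat_lit 340) (nat_lit 303) (nat_lit 302)) (XT.lf (nat_lit 0) (nat_lit 3308677956) (nat_lit 1260) (nat_lit 3772116593) (nat_lit 0) (nat_lit 164085722) (nat_lit 175) (nat_lit 5) (nat_lit 190) (nat_lit 4) (nat_lit 175) (nat_lit 4) (nat_lit 341) (nat_lit 303) (nat_lit 301)))) (XT.nd (nat_lit 188) (nat_lit 1260) (nat_lit 0) (XT.nd (nat_lit 94) (nat_lit 84) (nat_lit 0) (XT.lf (nat_lit 0) (nat_lit 840093253) (nat_lit 1260) (nat_lit 5560263357) (nat_lit 1260) (nat_lit 911729168) (nat_lit 160) (nat_lit 4) (nat_lit 175) (nat_lit 5) (nat_lit 175) (nat_lit 4) (nat_lit 342) (nat_lit 303) (nat_lit 300)) (XT.lf (nat_lit 0) (nat_lit 2109370339) (nat_lit 1344) (nat_lit 1826650220) (nat_lit 84) (nat_lit 3446388188) (nat_lit 159) (nat_lit 5) (nat_lit 175) (nat_lit 5) (nat_lit 160) (nat_lit 4) (nat_lit 343) (nat_lit 303) (nat_lit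 299))) (XT.nd (nat_lit 94) (nat_lit 672) (nat_lit 0) (XT.lf (nat_lit 0) (nat_lit 2915706447) (nat_lit 588) (nat_lit 2228130002) (nat_lit 672) (nat_lit 2312699898) (nat_lit 152) (nat_lit 5) (nat_lit 159) (nat_lit 5) (nat_lit 160) (nat_lit 4) (nat_lit 344) (nat_lit 303) (nat_lit 298)) (XT.nd (nat_lit 94) (nat_lit 0) (nat_lit 0) (XT.lf (nat_lit 0) (nat_lit 211066171) (nat_lit 588) (nat_lit 445341724) (nat_lit 672) (nat_lit 6878423772) (nat_lit 144) (nat_lit 5) (nat_lit 151) (nat_lit 5) (nat_lit 152) (nat_lit 5) (nat_lit 345) (nat_lit 303) (nat_lit 297)) (XT.lf (nat_lit 0) (nat_lit 3643048259) (nat_lit 672) (nat_lit 2545227983) (nat_lit 84) (nat_lit 1427445142) (nat_lit 144) (nat_lit 5) (nat_lit 152) (nat_lit 5) (nat_lit 145) (nat_lit 4) (nat_lit 346) (nat_lit 303) (nat_lit 296))))))))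
noncomputable def xc7 : XT := (XT.nd (nat_lit 1598) (nat_lit 1092) (nat_lit 0) (XT.nd (nat_lit 752) (nat_lit 2688) (nat_lit 0) (XT.nd (nat_lit 376) (nat_lit 1092) (nat_lit 0) (XT.nd (nat_lit 188) (nat_lit 1092) (nat_lit 0) (XT.nd (nat_lit 94) (nat_lit 84) (nat_lit 0) (XT.lf (nat_lit 0) (nat_lit 2327373779) (nat_lit 588) (nat_lit 4336427915) (nat_lit 672) (nat_lit 1037076163) (nat_lit 137) (nat_lit 5) (nat_lit 144) (nat_lit 5) (nat_lit 145) (nat_lit 4) (nat_lit 347) (nat_lit 303) (nat_lit 295)) (XT.lf (nat_lit 0) (nat_lit 1892082180) (nat_lit 672) (nat_lit 500044545) (nat_lit 84) (nat_lit 5397727047) (nat_lit 136) (nat_lit 5) (nat_lit 144) (nat_lit 5) (nat_lit 137) (nat_lit 5) (nat_lit 348) (nat_lit 303) (nat_lit 294))) (XT.nd (nat_lit 94) (nat_lit 504) (nat_lit 0) (XT.lf (nat_lit 0) (nat_lit 4508785701) (nat_lit 588) (nat_lit 343508796) (nat_lit 672) (nat_lit 3030136313) (nat_lit 129) (nat_lit 5) (nat_lit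 136) (nat_lit 5) (nat_lit 137) (nat_lit 5) (nat_lit 349) (nat_lit 303) (nat_lit 293)) (XT.lf (nat_lit 0) (nat_lit 1625101395) (nat_lit 504) (nat_lit 6235969187) (nat_lit 588) (nat_lit 118077768) (nat_lit 123) (nat_lit 5) (nat_lit 129) (nat_lit 5) (nat_lit 130) (nat_lit 4) (nat_lit 350) (nat_lit 303) (nat_lit 292)))) (XT.nd (nat_lit 188) (nat_lit 504) (nat_lit 0) (XT.nd (nat_lit 94) (nat_lit 504) (nat_lit 0) (XT.lf (nat_lit 0) (nat_lit 2785484572) (nat_lit 588) (nat_lit 1357095787) (nat_lit 84) (nat_lit 3936692081) (nat_lit 122) (nat_lit 5) (nat_lit 129) (nat_lit 5) (nat_lit 123) (nat_lit 5) (nat_lit 351) (nat_lit 303) (nat_lit 291)) (XT.lf (nat_lit 0) (nat_lit 3774004794) (nat_lit 504) (nat_lit 1960871098) (nat_lit 588) (nat_lit 2448799108) (nat_lit 116) (nat_lit 5) (nat_lit 122) (nat_lit 5) (nat_lit 123) (nat_lit 5) (nat_lit 352) (nat_lit 303) (nat_lit 290))) (XT.nd (nat_lit 94) (nat_lit 0) (nat_lit 0) (XT.lf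 (nat_lit 0) (nat_lit 421033826) (nat_lit 504) (nat_lit 7579409023) (nat_lit 84) (nat_lit 292295681) (nat_lit 110) (nat_lit 5) (nat_lit 116) (nat_lit 5) (nat_lit 111) (nat_lit 5) (nat_lit 353) (nat_lit 303) (nat_lit 289)) (XT.lf (nat_lit 0) (nat_lit 3318615104) (nat_lit 504) (nat_lit 2457734014) (nat_lit 84) (nat_lit 2628401903) (nat_lit 110) (nat_lit 5) (nat_lit 116) (nat_lit 5) (nat_lit 111) (nat_lit 5) (nat_lit 354) (nat_lit 303) (nat_lit 288))))) (XT.nd (nat_lit 376) (nat_lit 1260) (nat_lit 0) (XT.nd (nat_lit 188) (nat_lit 840) (nat_lit 0) (XT.nd (nat_lit 94) (nat_lit 84) (nat_lit 0) (XT.lf (nat_lit 0) (nat_lit 2784244144) (nat_lit 504) (nat_lit 3474272003) (nat_lit 588) (nat_lit 2263072741) (nat_lit 104) (nat_lit 5) (nat_lit 110) (nat_lit 5) (nat_lit 111) (nat_lit 5) (nat_lit 355) (nat_lit 303) (nat_lit 287)) (XT.lf (nat_lit 0) (nat_lit 586223973) (nat_lit 588) (nat_lit 502116895) (nat_lit 84) (nat_lit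 7554900953) (nat_lit 103) (nat_lit 5) (nat_lit 110) (nat_lit 5) (nat_lit 104) (nat_lit 5) (nat_lit 356) (nat_lit 303) (nat_lit 286))) (XT.nd (nat_lit 94) (nat_lit 420) (nat_lit 0) (XT.lf (nat_lit 0) (nat_lit 3467205104) (nat_lit 504) (nat_lit 3905177066) (nat_lit 84) (nat_lit 1395855254) (nat_lit 98) (nat_lit 5) (nat_lit 104) (nat_lit 5) (nat_lit 99) (nat_lit 5) (nat_lit 357) (nat_lit 303) (nat_lit 285)) (XT.lf (nat_lit 0) (nat_lit 1432877069) (nat_lit 420) (nat_lit 4963556358) (nat_lit 504) (nat_lit 2501807570) (nat_lit 93) (nat_lit 5) (nat_lit 98) (nat_lit 5) (nat_lit 99) (nat_lit 5) (nat_lit 358) (nat_lit 303) (nat_lit 284)))) (XT.nd (nat_lit 188) (nat_lit 840) (nat_lit 0) (XT.nd (nat_lit 94) (nat_lit 336) (nat_lit 0) (XT.lf (nat_lit 0) (nat_lit 346305806) (nat_lit 504) (nat_lit 2111402746) (nat_lit 84) (nat_lit 6575261681) (nat_lit 92) (nat_lit 5) (nat_lit 98) (nat_lit 5) (nat_lit 93) (nat_lit 5) (nat_lit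 359) (nat_lit 303) (nat_lit 283)) (XT.lf (nat_lit 0) (nat_lit 3197925068) (nat_lit 420) (nat_lit 5814668969) (nat_lit 84) (nat_lit 159456884) (nat_lit 88) (nat_lit 5) (nat_lit 93) (nat_lit 5) (nat_lit 89) (nat_lit 5) (nat_lit 360) (nat_lit 303) (nat_lit 282))) (XT.nd (nat_lit 94) (nat_lit 840) (nat_lit 0) (XT.lf (nat_lit 0) (nat_lit 6116362801) (nat_lit 420) (nat_lit 391667891) (nat_lit 84) (nat_lit 2807935314) (nat_lit 88) (nat_lit 5) (nat_lit 93) (nat_lit 5) (nat_lit 89) (nat_lit 5) (nat_lit 361) (nat_lit 303) (nat_lit 281)) (XT.nd (nat_lit 94) (nat_lit 420) (nat_lit 0) (XT.lf (nat_lit 0) (nat_lit 5212266789) (nat_lit 420) (nat_lit 3897475829) (nat_lit 504) (nat_lit 354931418) (nat_lit 83) (nat_lit 5) (nat_lit 88) (nat_lit 5) (nat_lit 89) (nat_lit 5) (nat_lit 362) (nat_lit 303) (nat_lit 280)) (XT.lf (nat_lit 0) (nat_lit 1291042742) (nat_lit 336) (nat_lit 1187807634) (nat_lit 420) (nat_lit 7139721346) (nat_lit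 78) (nat_lit 5) (nat_lit 82) (nat_lit 5) (nat_lit 83) (nat_lit 5) (nat_lit 363) (nat_lit 303) (nat_lit 279))))))) (XT.nd (nat_lit 56964) (nat_lit 0) (nat_lit 5964) (XT.nd (nat_lit 376) (nat_lit 336) (nat_lit 0) (XT.nd (nat_lit 188) (nat_lit 420) (nat_lit 0) (XT.nd (nat_lit 94) (nat_lit 336) (nat_lit 0) (XT.lf (nat_lit 0) (nat_lit 5387711103) (nat_lit 420) (nat_lit 2792060043) (nat_lit 84) (nat_lit 1597382705) (nat_lit 78) (nat_lit 5) (nat_lit 83) (nat_lit 5) (nat_lit 79) (nat_lit 5) (nat_lit 364) (nat_lit 303) (nat_lit 278)) (XT.lf (nat_lit 0) (nat_lit 2871336243) (nat_lit 336) (nat_lit 5492079086) (nat_lit 420) (nat_lit 1577777109) (nat_lit 74) (nat_lit 5) (nat_lit 78) (nat_lit 5) (nat_lit 79) (nat_lit 5) (nat_lit 365) (nat_lit 303) (nat_lit 277))) (XT.nd (nat_lit 94) (nat_lit 336) (nat_lit 0) (XT.lf (nat_lit 0) (nat_lit 1261496848) (nat_lit 420) (nat_lit 1443252130) (nat_lit 84) (nat_lit 7406034966) (nat_lit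 73) (nat_lit 5) (nat_lit 78) (nat_lit 5) (nat_lit 74) (nat_lit 5) (nat_lit 366) (nat_lit 303) (nat_lit 276)) (XT.lf (nat_lit 0) (nat_lit 4140152036) (nat_lit 420) (nat_lit 5946719334) (nat_lit 84) (nat_lit 198624733) (nat_lit 69) (nat_lit 5) (nat_lit 74) (nat_lit 5) (nat_lit 70) (nat_lit 5) (nat_lit 367) (nat_lit 303) (nat_lit 275)))) (XT.nd (nat_lit 56400) (nat_lit 0) (nat_lit 11592) (XT.nd (nat_lit 94) (nat_lit 336) (nat_lit 0) (XT.lf (nat_lit 0) (nat_lit 7089603284) (nat_lit 420) (nat_lit 249308804) (nat_lit 84) (nat_lit 3127081147) (nat_lit 69) (nat_lit 5) (nat_lit 74) (nat_lit 5) (nat_lit 70) (nat_lit 5) (nat_lit 368) (nat_lit 303) (nat_lit 274)) (XT.lf (nat_lit 0) (nat_lit 5650425757) (nat_lit 336) (nat_lit 4476028045) (nat_lit 420) (nat_lit 525558470) (nat_lit 65) (nat_lit 5) (nat_lit 69) (nat_lit 5) (nat_lit 70) (nat_lit 5) (nat_lit 369) (nat_lit 303) (nat_lit 273))) (XT.nd (nat_lit 94) (nat_lit 1092)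 (nat_lit 0) (XT.lf (nat_lit 0) (nat_lit 3324830676) (nat_lit 924) (nat_lit 90116624) (nat_lit 924) (nat_lit 90116624) (nat_lit 216) (nat_lit 4) (nat_lit 227) (nat_lit 5) (nat_lit 227) (nat_lit 4) (nat_lit 337) (nat_lit 304) (nat_lit 304)) (XT.lf (nat_lit 0) (nat_lit 2873192625) (nat_lit 1092) (nat_lit 3010634003) (nat_lit 0) (nat_lit 1180492704) (nat_lit 203) (nat_lit 5) (nat_lit 216) (nat_lit 4) (nat_lit 203) (nat_lit 4) (nat_lit 338) (nat_lit 304) (nat_lit 303))))) (XT.nd (nat_lit 376) (nat_lit 1932) (nat_lit 0) (XT.nd (nat_lit 188) (nat_lit 2520) (nat_lit 0) (XT.nd (nat_lit 94) (nat_lit 84) (nat_lit 0) (XT.lf (nat_lit 0) (nat_lit 1423198110) (nat_lit 1092) (nat_lit 4517714614) (nat_lit 1092) (nat_lit 1181616713) (nat_lit 190) (nat_lit 4) (nat_lit 203) (nat_lit 5) (nat_lit 203) (nat_lit 4) (nat_lit 339) (nat_lit 304) (nat_lit 302)) (XT.lf (nat_lit 0) (nat_lit 1819358586) (nat_lit 1176) (nat_lit 1238331991)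 (nat_lit 84) (nat_lit 4126306082) (nat_lit 189) (nat_lit 5) (nat_lit 203) (nat_lit 5) (nat_lit 190) (nat_lit 4) (nat_lit 340) (nat_lit 304) (nat_lit 301))) (XT.nd (nat_lit 94) (nat_lit 1344) (nat_lit 0) (XT.lf (nat_lit 0) (nat_lit 3322467661) (nat_lit 1176) (nat_lit 1506674110) (nat_lit 1260) (nat_lit 2419755133) (nat_lit 175) (nat_lit 5) (nat_lit 189) (nat_lit 5) (nat_lit 190) (nat_lit 4) (nat_lit 341) (nat_lit 304) (nat_lit 300)) (XT.lf (nat_lit 0) (nat_lit 532779694) (nat_lit 1344) (nat_lit 6670527211) (nat_lit 84) (nat_lit 114525474) (nat_lit 159) (nat_lit 5) (nat_lit 175) (nat_lit 5) (nat_lit 160) (nat_lit 4) (nat_lit 342) (nat_lit 304) (nat_lit 299)))) (XT.nd (nat_lit 188) (nat_lit 1344) (nat_lit 0) (XT.nd (nat_lit 94) (nat_lit 588) (nat_lit 0) (XT.lf (nat_lit 0) (nat_lit 3493246169) (nat_lit 1344) (nat_lit 2078389802) (nat_lit 84) (nat_lit 1817639006) (nat_lit 159) (nat_lit 5) (nat_lit 175) (nat_lit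 5) (nat_lit 160) (nat_lit 4) (nat_lit 343) (nat_lit 304) (nat_lit 298)) (XT.lf (nat_lit 0) (nat_lit 2614951649) (nat_lit 588) (nat_lit 3868275499) (nat_lit 672) (nat_lit 981604440) (nat_lit 152) (nat_lit 5) (nat_lit 159) (nat_lit 5) (nat_lit 160) (nat_lit 4) (nat_lit 344) (nat_lit 304) (nat_lit 297))) (XT.nd (nat_lit 94) (nat_lit 1260) (nat_lit 0) (XT.lf (nat_lit 0) (nat_lit 1918212881) (nat_lit 672) (nat_lit 158531966) (nat_lit 84) (nat_lit 5467386720) (nat_lit 151) (nat_lit 5) (nat_lit 159) (nat_lit 5) (nat_lit 152) (nat_lit 5) (nat_lit 345) (nat_lit 304) (nat_lit 296)) (XT.nd (nat_lit 94) (nat_lit 672) (nat_lit 0) (XT.lf (nat_lit 0) (nat_lit 4668948215) (nat_lit 588) (nat_lit 179856336) (nat_lit 672) (nat_lit 2777984637) (nat_lit 144) (nat_lit 5) (nat_lit 151) (nat_lit 5) (nat_lit 152) (nat_lit 5) (nat_lit 346) (nat_lit 304) (nat_lit 295)) (XT.lf (nat_lit 0) (nat_lit 108477593) (nat_lit 672) (nat_lit 5850192276)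 (nat_lit 84) (nat_lit 1754693596) (nat_lit 136) (nat_lit 5) (nat_lit 144) (nat_lit 5) (nat_lit 137) (nat_lit 5) (nat_lit 347) (nat_lit 304) (nat_lit 294))))))))
noncomputable def xc8 : XT := (XT.nd (nat_lit 1504) (nat_lit 1428) (nat_lit 0) (XT.nd (nat_lit 752) (nat_lit 1848) (nat_lit 0) (XT.nd (nat_lit 376) (nat_lit 1512) (nat_lit 0) (XT.nd (nat_lit 188) (nat_lit 588) (nat_lit 0) (XT.nd (nat_lit 94) (nat_lit 588) (nat_lit 0) (XT.lf (nat_lit 0) (nat_lit 2978326048) (nat_lit 672) (nat_lit 1030321280) (nat_lit 84) (nat_lit 3794644275) (nat_lit 136) (nat_lit 5) (nat_lit 144) (nat_lit 5) (nat_lit 137) (nat_lit 5) (nat_lit 348) (nat_lit 304) (nat_lit 293)) (XT.lf (nat_lit 0) (nat_lit 3924763536) (nat_lit 588) (nat_lit 1970226097) (nat_lit 672) (nat_lit 2002262274) (nat_lit 129) (nat_lit 5) (nat_lit 136) (nat_lit 5) (nat_lit 137) (nat_lit 5) (nat_lit 349) (nat_lit 304) (nat_lit 292))) (XT.nd (nat_lit 94) (nat_lit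 0) (nat_lit 0) (XT.lf (nat_lit 0) (nat_lit 832329845) (nat_lit 588) (nat_lit 7017625197) (nat_lit 84) (nat_lit 145615825) (nat_lit 122) (nat_lit 5) (nat_lit 129) (nat_lit 5) (nat_lit 123) (nat_lit 5) (nat_lit 350) (nat_lit 304) (nat_lit 291)) (XT.lf (nat_lit 0) (nat_lit 3696552257) (nat_lit 588) (nat_lit 2065274316) (nat_lit 84) (nat_lit 2335015693) (nat_lit 122) (nat_lit 5) (nat_lit 129) (nat_lit 5) (nat_lit 123) (nat_lit 5) (nat_lit 351) (nat_lit 304) (nat_lit 290)))) (XT.nd (nat_lit 188) (nat_lit 924) (nat_lit 0) (XT.nd (nat_lit 94) (nat_lit 84) (nat_lit 0) (XT.lf (nat_lit 0) (nat_lit 3008693001) (nat_lit 504) (nat_lit 3593936837) (nat_lit 588) (nat_lit 1599982639) (nat_lit 116) (nat_lit 5) (nat_lit 122) (nat_lit 5) (nat_lit 123) (nat_lit 5) (nat_lit 352) (nat_lit 304) (nat_lit 289)) (XT.lf (nat_lit 0) (nat_lit 1207809806) (nat_lit 588) (nat_lit 132665614) (nat_lit 84) (nat_lit 6972384441) (nat_lit 115)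 (nat_lit 5) (nat_lit 122) (nat_lit 5) (nat_lit 116) (nat_lit 5) (nat_lit 353) (nat_lit 304) (nat_lit 288))) (XT.nd (nat_lit 94) (nat_lit 504) (nat_lit 0) (XT.lf (nat_lit 0) (nat_lit 4056033704) (nat_lit 504) (nat_lit 3356822445) (nat_lit 84) (nat_lit 1013559372) (nat_lit 110) (nat_lit 5) (nat_lit 116) (nat_lit 5) (nat_lit 111) (nat_lit 5) (nat_lit 354) (nat_lit 304) (nat_lit 287)) (XT.lf (nat_lit 0) (nat_lit 1824494530) (nat_lit 504) (nat_lit 5128080158) (nat_lit 588) (nat_lit 1592040132) (nat_lit 104) (nat_lit 5) (nat_lit 110) (nat_lit 5) (nat_lit 111) (nat_lit 5) (nat_lit 355) (nat_lit 304) (nat_lit 286))))) (XT.nd (nat_lit 376) (nat_lit 840) (nat_lit 0) (XT.nd (nat_lit 188) (nat_lit 504) (nat_lit 0) (XT.nd (nat_lit 94) (nat_lit 420) (nat_lit 0) (XT.lf (nat_lit 0) (nat_lit 1210233243) (nat_lit 588) (nat_lit 1533597125) (nat_lit 84) (nat_lit 5923318896) (nat_lit 103) (nat_lit 5) (nat_lit 110) (nat_lit 5)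 (nat_lit 104) (nat_lit 5) (nat_lit 356) (nat_lit 304) (nat_lit 285)) (XT.lf (nat_lit 0) (nat_lit 3783307001) (nat_lit 420) (nat_lit 250766924) (nat_lit 504) (nat_lit 4759840641) (nat_lit 98) (nat_lit 5) (nat_lit 103) (nat_lit 5) (nat_lit 104) (nat_lit 5) (nat_lit 357) (nat_lit 304) (nat_lit 284))) (XT.nd (nat_lit 94) (nat_lit 84) (nat_lit 0) (XT.lf (nat_lit 0) (nat_lit 265510434) (nat_lit 420) (nat_lit 6651708662) (nat_lit 504) (nat_lit 2008135406) (nat_lit 93) (nat_lit 5) (nat_lit 98) (nat_lit 5) (nat_lit 99) (nat_lit 5) (nat_lit 358) (nat_lit 304) (nat_lit 283)) (XT.lf (nat_lit 0) (nat_lit 798075854) (nat_lit 504) (nat_lit 3352480966) (nat_lit 84) (nat_lit 4910403393) (nat_lit 92) (nat_lit 5) (nat_lit 98) (nat_lit 5) (nat_lit 93) (nat_lit 5) (nat_lit 359) (nat_lit 304) (nat_lit 282)))) (XT.nd (nat_lit 188) (nat_lit 504) (nat_lit 0) (XT.nd (nat_lit 94) (nat_lit 0) (nat_lit 0) (XT.lf (nat_lit 0) (nat_lit 2051771762)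 (nat_lit 336) (nat_lit 1552465323) (nat_lit 420) (nat_lit 5597216854) (nat_lit 88) (nat_lit 5) (nat_lit 92) (nat_lit 5) (nat_lit 93) (nat_lit 5) (nat_lit 360) (nat_lit 304) (nat_lit 281)) (XT.lf (nat_lit 0) (nat_lit 6476857708) (nat_lit 420) (nat_lit 1752874370) (nat_lit 84) (nat_lit 1117059323) (nat_lit 88) (nat_lit 5) (nat_lit 93) (nat_lit 5) (nat_lit 89) (nat_lit 5) (nat_lit 361) (nat_lit 304) (nat_lit 280))) (XT.nd (nat_lit 94) (nat_lit 84) (nat_lit 0) (XT.lf (nat_lit 0) (nat_lit 3783256219) (nat_lit 420) (nat_lit 5643250738) (nat_lit 504) (nat_lit 70350858) (nat_lit 83) (nat_lit 5) (nat_lit 88) (nat_lit 5) (nat_lit 89) (nat_lit 5) (nat_lit 362) (nat_lit 304) (nat_lit 279)) (XT.lf (nat_lit 0) (nat_lit 2715630741) (nat_lit 504) (nat_lit 238245258) (nat_lit 84) (nat_lit 6698108646) (nat_lit 82) (nat_lit 5) (nat_lit 88) (nat_lit 5) (nat_lit 83) (nat_lit 5) (nat_lit 363) (nat_lit 304) (nat_lit 278)))))) (XT.nd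 (nat_lit 56776) (nat_lit 0) (nat_lit 7224) (XT.nd (nat_lit 376) (nat_lit 336) (nat_lit 0) (XT.nd (nat_lit 188) (nat_lit 420) (nat_lit 0) (XT.nd (nat_lit 94) (nat_lit 336) (nat_lit 0) (XT.lf (nat_lit 0) (nat_lit 5427423275) (nat_lit 336) (nat_lit 149721853) (nat_lit 420) (nat_lit 4234884561) (nat_lit 78) (nat_lit 5) (nat_lit 82) (nat_lit 5) (nat_lit 83) (nat_lit 5) (nat_lit 364) (nat_lit 304) (nat_lit 277)) (XT.lf (nat_lit 0) (nat_lit 1208366655) (nat_lit 336) (nat_lit 7298465606) (nat_lit 420) (nat_lit 1470657813) (nat_lit 74) (nat_lit 5) (nat_lit 78) (nat_lit 5) (nat_lit 79) (nat_lit 5) (nat_lit 365) (nat_lit 304) (nat_lit 276))) (XT.nd (nat_lit 94) (nat_lit 336) (nat_lit 0) (XT.lf (nat_lit 0) (nat_lit 1338073255) (nat_lit 420) (nat_lit 3183179746) (nat_lit 84) (nat_lit 5626690182) (nat_lit 73) (nat_lit 5) (nat_lit 78) (nat_lit 5) (nat_lit 74) (nat_lit 5) (nat_lit 366) (nat_lit 304) (nat_lit 275)) (XT.lf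 (nat_lit 0) (nat_lit 2526984743) (nat_lit 336) (nat_lit 1642737177) (nat_lit 420) (nat_lit 6154381402) (nat_lit 69) (nat_lit 5) (nat_lit 73) (nat_lit 5) (nat_lit 74) (nat_lit 5) (nat_lit 367) (nat_lit 304) (nat_lit 274)))) (XT.nd (nat_lit 56212) (nat_lit 0) (nat_lit 12684) (XT.nd (nat_lit 94) (nat_lit 336) (nat_lit 0) (XT.lf (nat_lit 0) (nat_lit 7076091722) (nat_lit 420) (nat_lit 2122763578) (nat_lit 84) (nat_lit 1307074279) (nat_lit 69) (nat_lit 5) (nat_lit 74) (nat_lit 5) (nat_lit 70) (nat_lit 5) (nat_lit 368) (nat_lit 304) (nat_lit 273)) (XT.lf (nat_lit 0) (nat_lit 3701219884) (nat_lit 336) (nat_lit 6366489814) (nat_lit 420) (nat_lit 625631508) (nat_lit 65) (nat_lit 5) (nat_lit 69) (nat_lit 5) (nat_lit 70) (nat_lit 5) (nat_lit 369) (nat_lit 304) (nat_lit 272))) (XT.nd (nat_lit 94) (nat_lit 924) (nat_lit 0) (XT.lf (nat_lit 0) (nat_lit 1229225050) (nat_lit 924) (nat_lit 995907416) (nat_lit 0) (nat_lit 1229225050)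 (nat_lit 227) (nat_lit 5) (nat_lit 238) (nat_lit 4) (nat_lit 227) (nat_lit 4) (nat_lit 335) (nat_lit 305) (nat_lit 305)) (XT.lf (nat_lit 0) (nat_lit 2266005558) (nat_lit 924) (nat_lit 3243992119) (nat_lit 924) (nat_lit 1448206774) (nat_lit 216) (nat_lit 4) (nat_lit 227) (nat_lit 5) (nat_lit 227) (nat_lit 4) (nat_lit 336) (nat_lit 305) (nat_lit 304))))) (XT.nd (nat_lit 376) (nat_lit 3192) (nat_lit 0) (XT.nd (nat_lit 188) (nat_lit 1176) (nat_lit 0) (XT.nd (nat_lit 94) (nat_lit 1008) (nat_lit 0) (XT.lf (nat_lit 0) (nat_lit 1537308239) (nat_lit 1008) (nat_lit 418530537) (nat_lit 84) (nat_lit 5055344400) (nat_lit 215) (nat_lit 5) (nat_lit 227) (nat_lit 5) (nat_lit 216) (nat_lit 4) (nat_lit 337) (nat_lit 305) (nat_lit 303)) (XT.lf (nat_lit 0) (nat_lit 3962502009) (nat_lit 1008) (nat_lit 566792666) (nat_lit 1092) (nat_lit 2537881853) (nat_lit 203) (nat_lit 5) (nat_lit 215) (nat_lit 5) (nat_lit 216) (nat_lit 4) (nat_lit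 338) (nat_lit 305) (nat_lit 302))) (XT.nd (nat_lit 94) (nat_lit 0) (nat_lit 0) (XT.lf (nat_lit 0) (nat_lit 410680043) (nat_lit 1176) (nat_lit 5841430350) (nat_lit 84) (nat_lit 874802085) (nat_lit 189) (nat_lit 5) (nat_lit 203) (nat_lit 5) (nat_lit 190) (nat_lit 4) (nat_lit 339) (nat_lit 305) (nat_lit 301)) (XT.lf (nat_lit 0) (nat_lit 3344553588) (nat_lit 1176) (nat_lit 1434727269) (nat_lit 84) (nat_lit 2410185731) (nat_lit 189) (nat_lit 5) (nat_lit 203) (nat_lit 5) (nat_lit 190) (nat_lit 4) (nat_lit 340) (nat_lit 305) (nat_lit 300)))) (XT.nd (nat_lit 188) (nat_lit 672) (nat_lit 0) (XT.nd (nat_lit 94) (nat_lit 1344) (nat_lit 0) (XT.lf (nat_lit 0) (nat_lit 3079646859) (nat_lit 1176) (nat_lit 3229594455) (nat_lit 1260) (nat_lit 946581602) (nat_lit 175) (nat_lit 5) (nat_lit 189) (nat_lit 5) (nat_lit 190) (nat_lit 4) (nat_lit 341) (nat_lit 305) (nat_lit 299)) (XT.lf (nat_lit 0) (nat_lit 336241077) (nat_lit 1260)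 (nat_lit 1594415303) (nat_lit 1344) (nat_lit 5395170971) (nat_lit 159) (nat_lit 5) (nat_lit 174) (nat_lit 5) (nat_lit 175) (nat_lit 5) (nat_lit 342) (nat_lit 305) (nat_lit 298))) (XT.nd (nat_lit 94) (nat_lit 672) (nat_lit 0) (XT.lf (nat_lit 0) (nat_lit 4834202269) (nat_lit 1344) (nat_lit 2425268776) (nat_lit 84) (nat_lit 139600979) (nat_lit 159) (nat_lit 5) (nat_lit 175) (nat_lit 5) (nat_lit 160) (nat_lit 4) (nat_lit 343) (nat_lit 305) (nat_lit 297)) (XT.nd (nat_lit 94) (nat_lit 0) (nat_lit 0) (XT.lf (nat_lit 0) (nat_lit 298011987) (nat_lit 672) (nat_lit 5260522152) (nat_lit 84) (nat_lit 1917424376) (nat_lit 151) (nat_lit 5) (nat_lit 159) (nat_lit 5) (nat_lit 152) (nat_lit 5) (nat_lit 344) (nat_lit 305) (nat_lit 296)) (XT.lf (nat_lit 0) (nat_lit 3138590100) (nat_lit 672) (nat_lit 620973198) (nat_lit 84) (nat_lit 3796701104) (nat_lit 151) (nat_lit 5) (nat_lit 159) (nat_lit 5) (nat_lit 152) (nat_lit 5) (nat_lit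 345) (nat_lit 305) (nat_lit 295))))))))
noncomputable def xc9 : XT := (XT.nd (nat_lit 1504) (nat_lit 1932) (nat_lit 0) (XT.nd (nat_lit 752) (nat_lit 2268) (nat_lit 0) (XT.nd (nat_lit 376) (nat_lit 1176) (nat_lit 0) (XT.nd (nat_lit 188) (nat_lit 588) (nat_lit 0) (XT.nd (nat_lit 94) (nat_lit 672) (nat_lit 0) (XT.lf (nat_lit 0) (nat_lit 4155355585) (nat_lit 588) (nat_lit 1869972159) (nat_lit 672) (nat_lit 1614993826) (nat_lit 144) (nat_lit 5) (nat_lit 151) (nat_lit 5) (nat_lit 152) (nat_lit 5) (nat_lit 346) (nat_lit 305) (nat_lit 294)) (XT.lf (nat_lit 0) (nat_lit 1188235980) (nat_lit 672) (nat_lit 6439996839) (nat_lit 84) (nat_lit 100222903) (nat_lit 136) (nat_lit 5) (nat_lit 144) (nat_lit 5) (nat_lit 137) (nat_lit 5) (nat_lit 347) (nat_lit 305) (nat_lit 293))) (XT.nd (nat_lit 94) (nat_lit 588) (nat_lit 0) (XT.lf (nat_lit 0) (nat_lit 4020149681) (nat_lit 672) (nat_lit 1662474898) (nat_lit 84) (nat_lit 2136974128)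 (nat_lit 136) (nat_lit 5) (nat_lit 144) (nat_lit 5) (nat_lit 137) (nat_lit 5) (nat_lit 348) (nat_lit 305) (nat_lit 292)) (XT.lf (nat_lit 0) (nat_lit 3238094953) (nat_lit 588) (nat_lit 3655287775) (nat_lit 672) (nat_lit 1021553766) (nat_lit 129) (nat_lit 5) (nat_lit 136) (nat_lit 5) (nat_lit 137) (nat_lit 5) (nat_lit 349) (nat_lit 305) (nat_lit 291)))) (XT.nd (nat_lit 188) (nat_lit 588) (nat_lit 0) (XT.nd (nat_lit 94) (nat_lit 0) (nat_lit 0) (XT.lf (nat_lit 0) (nat_lit 209093249) (nat_lit 504) (nat_lit 1539398141) (nat_lit 588) (nat_lit 6265913829) (nat_lit 122) (nat_lit 5) (nat_lit 128) (nat_lit 5) (nat_lit 129) (nat_lit 5) (nat_lit 350) (nat_lit 305) (nat_lit 290)) (XT.lf (nat_lit 0) (nat_lit 4561959072) (nat_lit 588) (nat_lit 2880362728) (nat_lit 84) (nat_lit 674945700) (nat_lit 122) (nat_lit 5) (nat_lit 129) (nat_lit 5) (nat_lit 123) (nat_lit 5) (nat_lit 351) (nat_lit 305) (nat_lit 289))) (XT.nd (nat_lit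 94) (nat_lit 84) (nat_lit 0) (XT.lf (nat_lit 0) (nat_lit 2135597175) (nat_lit 504) (nat_lit 5289136948) (nat_lit 588) (nat_lit 799668916) (nat_lit 116) (nat_lit 5) (nat_lit 122) (nat_lit 5) (nat_lit 123) (nat_lit 5) (nat_lit 352) (nat_lit 305) (nat_lit 288)) (XT.lf (nat_lit 0) (nat_lit 1957821045) (nat_lit 588) (nat_lit 1076566365) (nat_lit 84) (nat_lit 5301135233) (nat_lit 115) (nat_lit 5) (nat_lit 122) (nat_lit 5) (nat_lit 116) (nat_lit 5) (nat_lit 353) (nat_lit 305) (nat_lit 287))))) (XT.nd (nat_lit 376) (nat_lit 840) (nat_lit 0) (XT.nd (nat_lit 188) (nat_lit 504) (nat_lit 0) (XT.nd (nat_lit 94) (nat_lit 504) (nat_lit 0) (XT.lf (nat_lit 0) (nat_lit 4076225664) (nat_lit 420) (nat_lit 676559958) (nat_lit 504) (nat_lit 3697951092) (nat_lit 110) (nat_lit 5) (nat_lit 115) (nat_lit 5) (nat_lit 116) (nat_lit 5) (nat_lit 354) (nat_lit 305) (nat_lit 286)) (XT.lf (nat_lit 0) (nat_lit 751662964) (nat_lit 504) (nat_lit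 6847707267) (nat_lit 588) (nat_lit 971123336) (nat_lit 104) (nat_lit 5) (nat_lit 110) (nat_lit 5) (nat_lit 111) (nat_lit 5) (nat_lit 355) (nat_lit 305) (nat_lit 285))) (XT.nd (nat_lit 94) (nat_lit 420) (nat_lit 0) (XT.lf (nat_lit 0) (nat_lit 1786092865) (nat_lit 588) (nat_lit 2679299669) (nat_lit 84) (nat_lit 4228500128) (nat_lit 103) (nat_lit 5) (nat_lit 110) (nat_lit 5) (nat_lit 104) (nat_lit 5) (nat_lit 356) (nat_lit 305) (nat_lit 284)) (XT.lf (nat_lit 0) (nat_lit 2574181322) (nat_lit 420) (nat_lit 1992147962) (nat_lit 504) (nat_lit 4255690677) (nat_lit 98) (nat_lit 5) (nat_lit 103) (nat_lit 5) (nat_lit 104) (nat_lit 5) (nat_lit 357) (nat_lit 305) (nat_lit 283)))) (XT.nd (nat_lit 188) (nat_lit 336) (nat_lit 0) (XT.nd (nat_lit 94) (nat_lit 504) (nat_lit 0) (XT.lf (nat_lit 0) (nat_lit 7398676982) (nat_lit 504) (nat_lit 1000518924) (nat_lit 84) (nat_lit 555840215) (nat_lit 98) (nat_lit 5) (nat_lit 104) (nat_lit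 5) (nat_lit 99) (nat_lit 5) (nat_lit 358) (nat_lit 305) (nat_lit 282)) (XT.lf (nat_lit 0) (nat_lit 1199801285) (nat_lit 504) (nat_lit 4713277727) (nat_lit 84) (nat_lit 3178718887) (nat_lit 92) (nat_lit 5) (nat_lit 98) (nat_lit 5) (nat_lit 93) (nat_lit 5) (nat_lit 359) (nat_lit 305) (nat_lit 281))) (XT.nd (nat_lit 94) (nat_lit 0) (nat_lit 0) (XT.lf (nat_lit 0) (nat_lit 623657252) (nat_lit 336) (nat_lit 3338160920) (nat_lit 420) (nat_lit 5271845645) (nat_lit 88) (nat_lit 5) (nat_lit 92) (nat_lit 5) (nat_lit 93) (nat_lit 5) (nat_lit 360) (nat_lit 305) (nat_lit 280)) (XT.lf (nat_lit 0) (nat_lit 6138019305) (nat_lit 336) (nat_lit 655561910) (nat_lit 420) (nat_lit 2586692259) (nat_lit 88) (nat_lit 5) (nat_lit 92) (nat_lit 5) (nat_lit 93) (nat_lit 5) (nat_lit 361) (nat_lit 305) (nat_lit 279)))))) (XT.nd (nat_lit 56588) (nat_lit 0) (nat_lit 9156) (XT.nd (nat_lit 376) (nat_lit 1092) (nat_lit 0) (XT.nd (nat_lit 188)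 (nat_lit 336) (nat_lit 0) (XT.nd (nat_lit 94) (nat_lit 0) (nat_lit 0) (XT.lf (nat_lit 0) (nat_lit 157851606) (nat_lit 504) (nat_lit 7302308496) (nat_lit 84) (nat_lit 2071688735) (nat_lit 82) (nat_lit 5) (nat_lit 88) (nat_lit 5) (nat_lit 83) (nat_lit 5) (nat_lit 362) (nat_lit 305) (nat_lit 278)) (XT.lf (nat_lit 0) (nat_lit 2913492727) (nat_lit 504) (nat_lit 1866623747) (nat_lit 84) (nat_lit 4907750460) (nat_lit 82) (nat_lit 5) (nat_lit 88) (nat_lit 5) (nat_lit 83) (nat_lit 5) (nat_lit 363) (nat_lit 305) (nat_lit 277))) (XT.nd (nat_lit 94) (nat_lit 0) (nat_lit 0) (XT.lf (nat_lit 0) (nat_lit 3728023832) (nat_lit 336) (nat_lit 2002523652) (nat_lit 420) (nat_lit 4118739568) (nat_lit 78) (nat_lit 5) (nat_lit 82) (nat_lit 5) (nat_lit 83) (nat_lit 5) (nat_lit 364) (nat_lit 305) (nat_lit 276)) (XT.lf (nat_lit 0) (nat_lit 8603049190) (nat_lit 420) (nat_lit 572323460) (nat_lit 84) (nat_lit 841130435) (nat_lit 78) (nat_lit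 5) (nat_lit 83) (nat_lit 5) (nat_lit 79) (nat_lit 5) (nat_lit 365) (nat_lit 305) (nat_lit 275)))) (XT.nd (nat_lit 188) (nat_lit 336) (nat_lit 0) (XT.nd (nat_lit 94) (nat_lit 336) (nat_lit 0) (XT.lf (nat_lit 0) (nat_lit 1360870461) (nat_lit 420) (nat_lit 5053412291) (nat_lit 84) (nat_lit 3773693442) (nat_lit 73) (nat_lit 5) (nat_lit 78) (nat_lit 5) (nat_lit 74) (nat_lit 5) (nat_lit 366) (nat_lit 305) (nat_lit 274)) (XT.lf (nat_lit 0) (nat_lit 581431720) (nat_lit 336) (nat_lit 3565566250) (nat_lit 420) (nat_lit 6218540679) (nat_lit 69) (nat_lit 5) (nat_lit 73) (nat_lit 5) (nat_lit 74) (nat_lit 5) (nat_lit 367) (nat_lit 305) (nat_lit 273))) (XT.nd (nat_lit 94) (nat_lit 336) (nat_lit 0) (XT.lf (nat_lit 0) (nat_lit 6413822366) (nat_lit 336) (nat_lit 600337222) (nat_lit 420) (nat_lit 3534417176) (nat_lit 69) (nat_lit 5) (nat_lit 73) (nat_lit 5) (nat_lit 74) (nat_lit 5) (nat_lit 368) (nat_lit 305) (nat_lit 272))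 (XT.lf (nat_lit 0) (nat_lit 1617726844) (nat_lit 336) (nat_lit 8336528235) (nat_lit 420) (nat_lit 783313563) (nat_lit 65) (nat_lit 5) (nat_lit 69) (nat_lit 5) (nat_lit 70) (nat_lit 5) (nat_lit 369) (nat_lit 305) (nat_lit 271))))) (XT.nd (nat_lit 376) (nat_lit 3444) (nat_lit 0) (XT.nd (nat_lit 188) (nat_lit 1008) (nat_lit 0) (XT.nd (nat_lit 94) (nat_lit 924) (nat_lit 0) (XT.lf (nat_lit 0) (nat_lit 1706627743) (nat_lit 756) (nat_lit 851260762) (nat_lit 756) (nat_lit 851260762) (nat_lit 238) (nat_lit 4) (nat_lit 247) (nat_lit 5) (nat_lit 247) (nat_lit 4) (nat_lit 333) (nat_lit 306) (nat_lit 306)) (XT.lf (nat_lit 0) (nat_lit 691990726) (nat_lit 840) (nat_lit 587388288) (nat_lit 924) (nat_lit 5583520107) (nat_lit 227) (nat_lit 5) (nat_lit 237) (nat_lit 5) (nat_lit 238) (nat_lit 4) (nat_lit 334) (nat_lit 306) (nat_lit 305))) (XT.nd (nat_lit 94) (nat_lit 1008) (nat_lit 0) (XT.lf (nat_lit 0) (nat_lit 4260994587) (nat_lit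 924) (nat_lit 2033710489) (nat_lit 0) (nat_lit 615550335) (nat_lit 227) (nat_lit 5) (nat_lit 238) (nat_lit 4) (nat_lit 227) (nat_lit 4) (nat_lit 335) (nat_lit 306) (nat_lit 304)) (XT.lf (nat_lit 0) (nat_lit 298779562) (nat_lit 1008) (nat_lit 4782402657) (nat_lit 84) (nat_lit 1879994532) (nat_lit 215) (nat_lit 5) (nat_lit 227) (nat_lit 5) (nat_lit 216) (nat_lit 4) (nat_lit 336) (nat_lit 306) (nat_lit 303)))) (XT.nd (nat_lit 188) (nat_lit 2436) (nat_lit 0) (XT.nd (nat_lit 94) (nat_lit 1008) (nat_lit 0) (XT.lf (nat_lit 0) (nat_lit 3210676965) (nat_lit 1008) (nat_lit 563950850) (nat_lit 84) (nat_lit 3240586939) (nat_lit 215) (nat_lit 5) (nat_lit 227) (nat_lit 5) (nat_lit 216) (nat_lit 4) (nat_lit 337) (nat_lit 306) (nat_lit 302)) (XT.lf (nat_lit 0) (nat_lit 3773296905) (nat_lit 1008) (nat_lit 2383510964) (nat_lit 1092) (nat_lit 915888693) (nat_lit 203) (nat_lit 5) (nat_lit 215) (nat_lit 5) (nat_lit 216) (nat_lit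 4) (nat_lit 338) (nat_lit 306) (nat_lit 301))) (XT.nd (nat_lit 94) (nat_lit 1260) (nat_lit 0) (XT.lf (nat_lit 0) (nat_lit 1038328867) (nat_lit 1092) (nat_lit 907985988) (nat_lit 1176) (nat_lit 5187397447) (nat_lit 189) (nat_lit 5) (nat_lit 202) (nat_lit 5) (nat_lit 203) (nat_lit 5) (nat_lit 339) (nat_lit 306) (nat_lit 300)) (XT.nd (nat_lit 94) (nat_lit 1260) (nat_lit 0) (XT.lf (nat_lit 0) (nat_lit 4828698965) (nat_lit 1176) (nat_lit 1721639453) (nat_lit 84) (nat_lit 647575894) (nat_lit 189) (nat_lit 5) (nat_lit 203) (nat_lit 5) (nat_lit 190) (nat_lit 4) (nat_lit 340) (nat_lit 306) (nat_lit 299)) (XT.lf (nat_lit 0) (nat_lit 473524506) (nat_lit 1260) (nat_lit 4524608972) (nat_lit 84) (nat_lit 2267439867) (nat_lit 174) (nat_lit 5) (nat_lit 189) (nat_lit 5) (nat_lit 175) (nat_lit 5) (nat_lit 341) (nat_lit 306) (nat_lit 298))))))))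
noncomputable def xc10 : XT := (XT.nd (nat_lit 1504) (nat_lit 2436) (nat_lit 0) (XT.nd (nat_lit 752) (nat_lit 2604) (nat_lit 0) (XT.nd (nat_lit 376) (nat_lit 1848) (nat_lit 0) (XT.nd (nat_lit 188) (nat_lit 672) (nat_lit 0) (XT.nd (nat_lit 94) (nat_lit 1260) (nat_lit 0) (XT.lf (nat_lit 0) (nat_lit 3287868953) (nat_lit 1260) (nat_lit 68842688) (nat_lit 84) (nat_lit 3980020294) (nat_lit 174) (nat_lit 5) (nat_lit 189) (nat_lit 5) (nat_lit 175) (nat_lit 5) (nat_lit 342) (nat_lit 306) (nat_lit 297)) (XT.lf (nat_lit 0) (nat_lit 4528170487) (nat_lit 1260) (nat_lit 1620820176) (nat_lit 1344) (nat_lit 1262350380) (nat_lit 159) (nat_lit 5) (nat_lit 174) (nat_lit 5) (nat_lit 175) (nat_lit 5) (nat_lit 343) (nat_lit 306) (nat_lit 296))) (XT.nd (nat_lit 94) (nat_lit 0) (nat_lit 0) (XT.lf (nat_lit 0) (nat_lit 1514915951) (nat_lit 672) (nat_lit 5779199858) (nat_lit 84) (nat_lit 195628507) (nat_lit 151) (nat_lit 5) (nat_lit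 159) (nat_lit 5) (nat_lit 152) (nat_lit 5) (nat_lit 344) (nat_lit 306) (nat_lit 295)) (XT.lf (nat_lit 0) (nat_lit 4316577004) (nat_lit 672) (nat_lit 1180780260) (nat_lit 84) (nat_lit 2073944377) (nat_lit 151) (nat_lit 5) (nat_lit 159) (nat_lit 5) (nat_lit 152) (nat_lit 5) (nat_lit 345) (nat_lit 306) (nat_lit 294)))) (XT.nd (nat_lit 188) (nat_lit 588) (nat_lit 0) (XT.nd (nat_lit 94) (nat_lit 672) (nat_lit 0) (XT.lf (nat_lit 0) (nat_lit 3543681138) (nat_lit 588) (nat_lit 3615970168) (nat_lit 672) (nat_lit 497098884) (nat_lit 144) (nat_lit 5) (nat_lit 151) (nat_lit 5) (nat_lit 152) (nat_lit 5) (nat_lit 346) (nat_lit 306) (nat_lit 293)) (XT.lf (nat_lit 0) (nat_lit 596741117) (nat_lit 588) (nat_lit 1642426457) (nat_lit 672) (nat_lit 5506825671) (nat_lit 136) (nat_lit 5) (nat_lit 143) (nat_lit 5) (nat_lit 144) (nat_lit 5) (nat_lit 347) (nat_lit 306) (nat_lit 292))) (XT.nd (nat_lit 94) (nat_lit 588) (nat_lit 0) (XT.lf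 (nat_lit 0) (nat_lit 5018463409) (nat_lit 672) (nat_lit 2397057768) (nat_lit 84) (nat_lit 423268157) (nat_lit 136) (nat_lit 5) (nat_lit 144) (nat_lit 5) (nat_lit 137) (nat_lit 5) (nat_lit 348) (nat_lit 306) (nat_lit 291)) (XT.lf (nat_lit 0) (nat_lit 2448179951) (nat_lit 588) (nat_lit 5400166215) (nat_lit 672) (nat_lit 87153859) (nat_lit 129) (nat_lit 5) (nat_lit 136) (nat_lit 5) (nat_lit 137) (nat_lit 5) (nat_lit 349) (nat_lit 306) (nat_lit 290))))) (XT.nd (nat_lit 376) (nat_lit 1428) (nat_lit 0) (XT.nd (nat_lit 188) (nat_lit 588) (nat_lit 0) (XT.nd (nat_lit 94) (nat_lit 504) (nat_lit 0) (XT.lf (nat_lit 0) (nat_lit 2627135832) (nat_lit 672) (nat_lit 654749160) (nat_lit 84) (nat_lit 4754008196) (nat_lit 128) (nat_lit 5) (nat_lit 136) (nat_lit 5) (nat_lit 129) (nat_lit 5) (nat_lit 350) (nat_lit 306) (nat_lit 289)) (XT.lf (nat_lit 0) (nat_lit 4326940622) (nat_lit 504) (nat_lit 1065765366) (nat_lit 588) (nat_lit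 2747552657) (nat_lit 122) (nat_lit 5) (nat_lit 128) (nat_lit 5) (nat_lit 129) (nat_lit 5) (nat_lit 351) (nat_lit 306) (nat_lit 288))) (XT.nd (nat_lit 94) (nat_lit 84) (nat_lit 0) (XT.lf (nat_lit 0) (nat_lit 1153954419) (nat_lit 504) (nat_lit 7047952673) (nat_lit 588) (nat_lit 47158635) (nat_lit 116) (nat_lit 5) (nat_lit 122) (nat_lit 5) (nat_lit 123) (nat_lit 5) (nat_lit 352) (nat_lit 306) (nat_lit 287)) (XT.lf (nat_lit 0) (nat_lit 2661971916) (nat_lit 588) (nat_lit 2130223124) (nat_lit 84) (nat_lit 3568844168) (nat_lit 115) (nat_lit 5) (nat_lit 122) (nat_lit 5) (nat_lit 116) (nat_lit 5) (nat_lit 353) (nat_lit 306) (nat_lit 286)))) (XT.nd (nat_lit 188) (nat_lit 1008) (nat_lit 0) (XT.nd (nat_lit 94) (nat_lit 0) (nat_lit 0) (XT.lf (nat_lit 0) (nat_lit 2961874653) (nat_lit 420) (nat_lit 2451655624) (nat_lit 504) (nat_lit 3064084053) (nat_lit 110) (nat_lit 5) (nat_lit 115) (nat_lit 5) (nat_lit 116) (nat_lit 5)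 (nat_lit 354) (nat_lit 306) (nat_lit 285)) (XT.lf (nat_lit 0) (nat_lit 8172111040) (nat_lit 420) (nat_lit 31846315) (nat_lit 504) (nat_lit 395155703) (nat_lit 110) (nat_lit 5) (nat_lit 115) (nat_lit 5) (nat_lit 116) (nat_lit 5) (nat_lit 355) (nat_lit 306) (nat_lit 284))) (XT.nd (nat_lit 94) (nat_lit 420) (nat_lit 0) (XT.lf (nat_lit 0) (nat_lit 2314306019) (nat_lit 588) (nat_lit 3940225626) (nat_lit 84) (nat_lit 2468963739) (nat_lit 103) (nat_lit 5) (nat_lit 110) (nat_lit 5) (nat_lit 104) (nat_lit 5) (nat_lit 356) (nat_lit 306) (nat_lit 283)) (XT.lf (nat_lit 0) (nat_lit 1248722206) (nat_lit 420) (nat_lit 3802029197) (nat_lit 504) (nat_lit 3802237310) (nat_lit 98) (nat_lit 5) (nat_lit 103) (nat_lit 5) (nat_lit 104) (nat_lit 5) (nat_lit 357) (nat_lit 306) (nat_lit 282)))))) (XT.nd (nat_lit 752) (nat_lit 756) (nat_lit 0) (XT.nd (nat_lit 376) (nat_lit 840) (nat_lit 0) (XT.nd (nat_lit 188) (nat_lit 336) (nat_lit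 0) (XT.nd (nat_lit 94) (nat_lit 504) (nat_lit 0) (XT.lf (nat_lit 0) (nat_lit 6596381406) (nat_lit 420) (nat_lit 1250754674) (nat_lit 504) (nat_lit 1139998461) (nat_lit 98) (nat_lit 5) (nat_lit 103) (nat_lit 5) (nat_lit 104) (nat_lit 5) (nat_lit 358) (nat_lit 306) (nat_lit 281)) (XT.lf (nat_lit 0) (nat_lit 1551833120) (nat_lit 504) (nat_lit 6194982075) (nat_lit 84) (nat_lit 1378695041) (nat_lit 92) (nat_lit 5) (nat_lit 98) (nat_lit 5) (nat_lit 93) (nat_lit 5) (nat_lit 359) (nat_lit 306) (nat_lit 280))) (XT.nd (nat_lit 94) (nat_lit 336) (nat_lit 0) (XT.lf (nat_lit 0) (nat_lit 4278324516) (nat_lit 504) (nat_lit 908517953) (nat_lit 84) (nat_lit 4081645918) (nat_lit 92) (nat_lit 5) (nat_lit 98) (nat_lit 5) (nat_lit 93) (nat_lit 5) (nat_lit 360) (nat_lit 306) (nat_lit 279)) (XT.lf (nat_lit 0) (nat_lit 4549837251) (nat_lit 336) (nat_lit 2522308299) (nat_lit 420) (nat_lit 2344135868) (nat_lit 88) (nat_lit 5) (nat_lit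 92) (nat_lit 5) (nat_lit 93) (nat_lit 5) (nat_lit 361) (nat_lit 306) (nat_lit 278)))) (XT.nd (nat_lit 188) (nat_lit 336) (nat_lit 0) (XT.nd (nat_lit 94) (nat_lit 0) (nat_lit 0) (XT.lf (nat_lit 0) (nat_lit 332681770) (nat_lit 504) (nat_lit 9018533675) (nat_lit 84) (nat_lit 218503704) (nat_lit 82) (nat_lit 5) (nat_lit 88) (nat_lit 5) (nat_lit 83) (nat_lit 5) (nat_lit 362) (nat_lit 306) (nat_lit 277)) (XT.lf (nat_lit 0) (nat_lit 3060198929) (nat_lit 504) (nat_lit 3620708475) (nat_lit 84) (nat_lit 3045714847) (nat_lit 82) (nat_lit 5) (nat_lit 88) (nat_lit 5) (nat_lit 83) (nat_lit 5) (nat_lit 363) (nat_lit 306) (nat_lit 276))) (XT.nd (nat_lit 94) (nat_lit 0) (nat_lit 0) (XT.lf (nat_lit 0) (nat_lit 1901541003) (nat_lit 336) (nat_lit 3930850597) (nat_lit 420) (nat_lit 4057036717) (nat_lit 78) (nat_lit 5) (nat_lit 82) (nat_lit 5) (nat_lit 83) (nat_lit 5) (nat_lit 364) (nat_lit 306) (nat_lit 275)) (XT.lf (nat_lit 0)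 (nat_lit 7589794082) (nat_lit 336) (nat_lit 1079993450) (nat_lit 420) (nat_lit 1387948907) (nat_lit 78) (nat_lit 5) (nat_lit 82) (nat_lit 5) (nat_lit 83) (nat_lit 5) (nat_lit 365) (nat_lit 306) (nat_lit 274))))) (XT.nd (nat_lit 56024) (nat_lit 0) (nat_lit 13272) (XT.nd (nat_lit 188) (nat_lit 336) (nat_lit 0) (XT.nd (nat_lit 94) (nat_lit 0) (nat_lit 0) (XT.lf (nat_lit 0) (nat_lit 1329908384) (nat_lit 420) (nat_lit 7055583947) (nat_lit 84) (nat_lit 1845425623) (nat_lit 73) (nat_lit 5) (nat_lit 78) (nat_lit 5) (nat_lit 74) (nat_lit 5) (nat_lit 366) (nat_lit 306) (nat_lit 273)) (XT.lf (nat_lit 0) (nat_lit 4084408652) (nat_lit 420) (nat_lit 1468353463) (nat_lit 84) (nat_lit 4856702725) (nat_lit 73) (nat_lit 5) (nat_lit 78) (nat_lit 5) (nat_lit 74) (nat_lit 5) (nat_lit 367) (nat_lit 306) (nat_lit 272))) (XT.nd (nat_lit 94) (nat_lit 0) (nat_lit 0) (XT.lf (nat_lit 0) (nat_lit 4298901935) (nat_lit 336) (nat_lit 2612647732)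 (nat_lit 420) (nat_lit 3682188483) (nat_lit 69) (nat_lit 5) (nat_lit 73) (nat_lit 5) (nat_lit 74) (nat_lit 5) (nat_lit 368) (nat_lit 306) (nat_lit 271)) (XT.lf (nat_lit 0) (nat_lit 9791776391) (nat_lit 420) (nat_lit 590129163) (nat_lit 84) (nat_lit 402654108) (nat_lit 69) (nat_lit 5) (nat_lit 74) (nat_lit 5) (nat_lit 70) (nat_lit 5) (nat_lit 369) (nat_lit 306) (nat_lit 270)))) (XT.nd (nat_lit 188) (nat_lit 1680) (nat_lit 0) (XT.nd (nat_lit 94) (nat_lit 0) (nat_lit 0) (XT.lf (nat_lit 0) (nat_lit 531439194) (nat_lit 756) (nat_lit 2306188481) (nat_lit 0) (nat_lit 531439194) (nat_lit 247) (nat_lit 5) (nat_lit 256) (nat_lit 4) (nat_lit 247) (nat_lit 4) (nat_lit 331) (nat_lit 307) (nat_lit 307)) (XT.lf (nat_lit 0) (nat_lit 4033824785) (nat_lit 756) (nat_lit 671975232) (nat_lit 0) (nat_lit 2071521652) (nat_lit 247) (nat_lit 5) (nat_lit 256) (nat_lit 4) (nat_lit 247) (nat_lit 4) (nat_lit 332) (nat_lit 307) (nat_lit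 306))) (XT.nd (nat_lit 94) (nat_lit 840) (nat_lit 0) (XT.lf (nat_lit 0) (nat_lit 206515108) (nat_lit 840) (nat_lit 3448226136) (nat_lit 84) (nat_lit 3165059049) (nat_lit 237) (nat_lit 5) (nat_lit 247) (nat_lit 5) (nat_lit 238) (nat_lit 4) (nat_lit 333) (nat_lit 307) (nat_lit 305)) (XT.nd (nat_lit 94) (nat_lit 0) (nat_lit 0) (XT.lf (nat_lit 0) (nat_lit 590969801) (nat_lit 840) (nat_lit 2516459022) (nat_lit 924) (nat_lit 3758040962) (nat_lit 227) (nat_lit 5) (nat_lit 237) (nat_lit 5) (nat_lit 238) (nat_lit 4) (nat_lit 334) (nat_lit 307) (nat_lit 304)) (XT.lf (nat_lit 0) (nat_lit 4742626234) (nat_lit 840) (nat_lit 1294576864) (nat_lit 924) (nat_lit 877301465) (nat_lit 227) (nat_lit 5) (nat_lit 237) (nat_lit 5) (nat_lit 238) (nat_lit 4) (nat_lit 335) (nat_lit 307) (nat_lit 303))))))))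
noncomputable def xc11 : XT := (XT.nd (nat_lit 1598) (nat_lit 3864) (nat_lit 0) (XT.nd (nat_lit 752) (nat_lit 3696) (nat_lit 0) (XT.nd (nat_lit 376) (nat_lit 2520) (nat_lit 0) (XT.nd (nat_lit 188) (nat_lit 2184) (nat_lit 0) (XT.nd (nat_lit 94) (nat_lit 0) (nat_lit 0) (XT.lf (nat_lit 0) (nat_lit 1976991469) (nat_lit 1008) (nat_lit 4973481079) (nat_lit 84) (nat_lit 16333638) (nat_lit 215) (nat_lit 5) (nat_lit 227) (nat_lit 5) (nat_lit 216) (nat_lit 4) (nat_lit 336) (nat_lit 307) (nat_lit 302)) (XT.lf (nat_lit 0) (nat_lit 4844852095) (nat_lit 1008) (nat_lit 795121990) (nat_lit 84) (nat_lit 1382303997) (nat_lit 215) (nat_lit 5) (nat_lit 227) (nat_lit 5) (nat_lit 216) (nat_lit 4) (nat_lit 337) (nat_lit 307) (nat_lit 301))) (XT.nd (nat_lit 94) (nat_lit 1092) (nat_lit 0) (XT.lf (nat_lit 0) (nat_lit 651385536) (nat_lit 1092) (nat_lit 3589792238) (nat_lit 84) (nat_lit 2839862101) (nat_lit 202) (nat_lit 5) (nat_lit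 215) (nat_lit 5) (nat_lit 203) (nat_lit 5) (nat_lit 338) (nat_lit 307) (nat_lit 300)) (XT.lf (nat_lit 0) (nat_lit 692901289) (nat_lit 1092) (nat_lit 2757096772) (nat_lit 1176) (nat_lit 3693268212) (nat_lit 189) (nat_lit 5) (nat_lit 202) (nat_lit 5) (nat_lit 203) (nat_lit 5) (nat_lit 339) (nat_lit 307) (nat_lit 299)))) (XT.nd (nat_lit 188) (nat_lit 1260) (nat_lit 0) (XT.nd (nat_lit 94) (nat_lit 1260) (nat_lit 0) (XT.lf (nat_lit 0) (nat_lit 5098283311) (nat_lit 1092) (nat_lit 1186210818) (nat_lit 1176) (nat_lit 924511008) (nat_lit 189) (nat_lit 5) (nat_lit 202) (nat_lit 5) (nat_lit 203) (nat_lit 5) (nat_lit 340) (nat_lit 307) (nat_lit 298)) (XT.lf (nat_lit 0) (nat_lit 1833592411) (nat_lit 1260) (nat_lit 4976077593) (nat_lit 84) (nat_lit 468365354) (nat_lit 174) (nat_lit 5) (nat_lit 189) (nat_lit 5) (nat_lit 175) (nat_lit 5) (nat_lit 341) (nat_lit 307) (nat_lit 297))) (XT.nd (nat_lit 94) (nat_lit 1260) (nat_lit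 0) (XT.lf (nat_lit 0) (nat_lit 4607946407) (nat_lit 1260) (nat_lit 560107867) (nat_lit 84) (nat_lit 2182431096) (nat_lit 174) (nat_lit 5) (nat_lit 189) (nat_lit 5) (nat_lit 175) (nat_lit 5) (nat_lit 342) (nat_lit 307) (nat_lit 296)) (XT.lf (nat_lit 0) (nat_lit 3987721772) (nat_lit 1260) (nat_lit 3437325540) (nat_lit 1344) (nat_lit 1456826) (nat_lit 159) (nat_lit 5) (nat_lit 174) (nat_lit 5) (nat_lit 175) (nat_lit 5) (nat_lit 343) (nat_lit 307) (nat_lit 295))))) (XT.nd (nat_lit 376) (nat_lit 2352) (nat_lit 0) (XT.nd (nat_lit 188) (nat_lit 672) (nat_lit 0) (XT.nd (nat_lit 94) (nat_lit 0) (nat_lit 0) (XT.lf (nat_lit 0) (nat_lit 1093601025) (nat_lit 588) (nat_lit 1611212335) (nat_lit 672) (nat_lit 4801206111) (nat_lit 151) (nat_lit 5) (nat_lit 158) (nat_lit 5) (nat_lit 159) (nat_lit 5) (nat_lit 344) (nat_lit 307) (nat_lit 294)) (XT.lf (nat_lit 0) (nat_lit 5453202903) (nat_lit 672) (nat_lit 1838442303) (nat_lit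 84) (nat_lit 297611217) (nat_lit 151) (nat_lit 5) (nat_lit 159) (nat_lit 5) (nat_lit 152) (nat_lit 5) (nat_lit 345) (nat_lit 307) (nat_lit 293))) (XT.nd (nat_lit 94) (nat_lit 0) (nat_lit 0) (XT.lf (nat_lit 0) (nat_lit 565423944) (nat_lit 672) (nat_lit 4848242376) (nat_lit 84) (nat_lit 2262256784) (nat_lit 143) (nat_lit 5) (nat_lit 151) (nat_lit 5) (nat_lit 144) (nat_lit 5) (nat_lit 346) (nat_lit 307) (nat_lit 292)) (XT.lf (nat_lit 0) (nat_lit 3249838760) (nat_lit 672) (nat_lit 194042774) (nat_lit 84) (nat_lit 4322480382) (nat_lit 143) (nat_lit 5) (nat_lit 151) (nat_lit 5) (nat_lit 144) (nat_lit 5) (nat_lit 347) (nat_lit 307) (nat_lit 291)))) (XT.nd (nat_lit 188) (nat_lit 1092) (nat_lit 0) (XT.nd (nat_lit 94) (nat_lit 672) (nat_lit 0) (XT.lf (nat_lit 0) (nat_lit 4612556631) (nat_lit 588) (nat_lit 1374798318) (nat_lit 672) (nat_lit 1873128841) (nat_lit 136) (nat_lit 5) (nat_lit 143) (nat_lit 5) (nat_lit 144)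 (nat_lit 5) (nat_lit 348) (nat_lit 307) (nat_lit 290)) (XT.lf (nat_lit 0) (nat_lit 786108805) (nat_lit 672) (nat_lit 6412339105) (nat_lit 84) (nat_lit 760281348) (nat_lit 128) (nat_lit 5) (nat_lit 136) (nat_lit 5) (nat_lit 129) (nat_lit 5) (nat_lit 349) (nat_lit 307) (nat_lit 289))) (XT.nd (nat_lit 94) (nat_lit 1092) (nat_lit 0) (XT.lf (nat_lit 0) (nat_lit 3464220117) (nat_lit 672) (nat_lit 1619733821) (nat_lit 84) (nat_lit 2976243933) (nat_lit 128) (nat_lit 5) (nat_lit 136) (nat_lit 5) (nat_lit 129) (nat_lit 5) (nat_lit 350) (nat_lit 307) (nat_lit 288)) (XT.nd (nat_lit 94) (nat_lit 588) (nat_lit 0) (XT.lf (nat_lit 0) (nat_lit 3304006625) (nat_lit 504) (nat_lit 2882477091) (nat_lit 588) (nat_lit 1979443132) (nat_lit 122) (nat_lit 5) (nat_lit 128) (nat_lit 5) (nat_lit 129) (nat_lit 5) (nat_lit 351) (nat_lit 307) (nat_lit 287)) (XT.lf (nat_lit 0) (nat_lit 50442637) (nat_lit 504) (nat_lit 600693367) (nat_lit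 588) (nat_lit 7625123044) (nat_lit 115) (nat_lit 5) (nat_lit 121) (nat_lit 5) (nat_lit 122) (nat_lit 5) (nat_lit 352) (nat_lit 307) (nat_lit 286))))))) (XT.nd (nat_lit 752) (nat_lit 1932) (nat_lit 0) (XT.nd (nat_lit 376) (nat_lit 924) (nat_lit 0) (XT.nd (nat_lit 188) (nat_lit 588) (nat_lit 0) (XT.nd (nat_lit 94) (nat_lit 420) (nat_lit 0) (XT.lf (nat_lit 0) (nat_lit 3320877697) (nat_lit 588) (nat_lit 3294556563) (nat_lit 84) (nat_lit 1773997594) (nat_lit 115) (nat_lit 5) (nat_lit 122) (nat_lit 5) (nat_lit 116) (nat_lit 5) (nat_lit 353) (nat_lit 307) (nat_lit 285)) (XT.lf (nat_lit 0) (nat_lit 1735801302) (nat_lit 420) (nat_lit 4293106860) (nat_lit 504) (nat_lit 2478461799) (nat_lit 110) (nat_lit 5) (nat_lit 115) (nat_lit 5) (nat_lit 116) (nat_lit 5) (nat_lit 354) (nat_lit 307) (nat_lit 284))) (XT.nd (nat_lit 94) (nat_lit 504) (nat_lit 0) (XT.lf (nat_lit 0) (nat_lit 155209235) (nat_lit 504) (nat_lit 1722787543)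 (nat_lit 84) (nat_lit 6751817073) (nat_lit 109) (nat_lit 5) (nat_lit 115) (nat_lit 5) (nat_lit 110) (nat_lit 5) (nat_lit 355) (nat_lit 307) (nat_lit 283)) (XT.lf (nat_lit 0) (nat_lit 2795334249) (nat_lit 588) (nat_lit 5317476777) (nat_lit 84) (nat_lit 643172270) (nat_lit 103) (nat_lit 5) (nat_lit 110) (nat_lit 5) (nat_lit 104) (nat_lit 5) (nat_lit 356) (nat_lit 307) (nat_lit 282)))) (XT.nd (nat_lit 188) (nat_lit 504) (nat_lit 0) (XT.nd (nat_lit 94) (nat_lit 420) (nat_lit 0) (XT.lf (nat_lit 0) (nat_lit 5489630608) (nat_lit 588) (nat_lit 190438416) (nat_lit 84) (nat_lit 3206722849) (nat_lit 103) (nat_lit 5) (nat_lit 110) (nat_lit 5) (nat_lit 104) (nat_lit 5) (nat_lit 357) (nat_lit 307) (nat_lit 281)) (XT.lf (nat_lit 0) (nat_lit 5116256342) (nat_lit 420) (nat_lit 3138267038) (nat_lit 504) (nat_lit 767408375) (nat_lit 98) (nat_lit 5) (nat_lit 103) (nat_lit 5) (nat_lit 104) (nat_lit 5) (nat_lit 358) (nat_lit 307)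 (nat_lit 280))) (XT.nd (nat_lit 94) (nat_lit 0) (nat_lit 0) (XT.lf (nat_lit 0) (nat_lit 1358277407) (nat_lit 420) (nat_lit 501017640) (nat_lit 504) (nat_lit 7302687151) (nat_lit 92) (nat_lit 5) (nat_lit 97) (nat_lit 5) (nat_lit 98) (nat_lit 5) (nat_lit 359) (nat_lit 307) (nat_lit 279)) (XT.lf (nat_lit 0) (nat_lit 4552299951) (nat_lit 504) (nat_lit 2549610076) (nat_lit 84) (nat_lit 2204100032) (nat_lit 92) (nat_lit 5) (nat_lit 98) (nat_lit 5) (nat_lit 93) (nat_lit 5) (nat_lit 360) (nat_lit 307) (nat_lit 278))))) (XT.nd (nat_lit 376) (nat_lit 1092) (nat_lit 0) (XT.nd (nat_lit 188) (nat_lit 420) (nat_lit 0) (XT.nd (nat_lit 94) (nat_lit 84) (nat_lit 0) (XT.lf (nat_lit 0) (nat_lit 2839263247) (nat_lit 336) (nat_lit 4462579309) (nat_lit 420) (nat_lit 2153332686) (nat_lit 88) (nat_lit 5) (nat_lit 92) (nat_lit 5) (nat_lit 93) (nat_lit 5) (nat_lit 361) (nat_lit 307) (nat_lit 277)) (XT.lf (nat_lit 0) (nat_lit 484619049)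 (nat_lit 420) (nat_lit 1245049348) (nat_lit 84) (nat_lit 7879985119) (nat_lit 87) (nat_lit 5) (nat_lit 92) (nat_lit 5) (nat_lit 88) (nat_lit 5) (nat_lit 362) (nat_lit 307) (nat_lit 276))) (XT.nd (nat_lit 94) (nat_lit 0) (nat_lit 0) (XT.lf (nat_lit 0) (nat_lit 3155877539) (nat_lit 504) (nat_lit 5502032136) (nat_lit 84) (nat_lit 1110374786) (nat_lit 82) (nat_lit 5) (nat_lit 88) (nat_lit 5) (nat_lit 83) (nat_lit 5) (nat_lit 363) (nat_lit 307) (nat_lit 275)) (XT.lf (nat_lit 0) (nat_lit 5883281903) (nat_lit 504) (nat_lit 52574827) (nat_lit 84) (nat_lit 3996616361) (nat_lit 82) (nat_lit 5) (nat_lit 88) (nat_lit 5) (nat_lit 83) (nat_lit 5) (nat_lit 364) (nat_lit 307) (nat_lit 274)))) (XT.nd (nat_lit 188) (nat_lit 336) (nat_lit 0) (XT.nd (nat_lit 94) (nat_lit 420) (nat_lit 0) (XT.lf (nat_lit 0) (nat_lit 5599295518) (nat_lit 336) (nat_lit 3094789792) (nat_lit 420) (nat_lit 1407531461) (nat_lit 78) (nat_lit 5) (nat_lit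 82) (nat_lit 5) (nat_lit 83) (nat_lit 5) (nat_lit 365) (nat_lit 307) (nat_lit 273)) (XT.lf (nat_lit 0) (nat_lit 1083748156) (nat_lit 336) (nat_lit 162978464) (nat_lit 420) (nat_lit 9030032368) (nat_lit 73) (nat_lit 5) (nat_lit 77) (nat_lit 5) (nat_lit 78) (nat_lit 5) (nat_lit 366) (nat_lit 307) (nat_lit 272))) (XT.nd (nat_lit 94) (nat_lit 336) (nat_lit 0) (XT.lf (nat_lit 0) (nat_lit 3974380469) (nat_lit 420) (nat_lit 3639425060) (nat_lit 84) (nat_lit 2842340315) (nat_lit 73) (nat_lit 5) (nat_lit 78) (nat_lit 5) (nat_lit 74) (nat_lit 5) (nat_lit 367) (nat_lit 307) (nat_lit 271)) (XT.nd (nat_lit 94) (nat_lit 0) (nat_lit 0) (XT.lf (nat_lit 0) (nat_lit 2049755605) (nat_lit 336) (nat_lit 4705602241) (nat_lit 420) (nat_lit 3886479786) (nat_lit 69) (nat_lit 5) (nat_lit 73) (nat_lit 5) (nat_lit 74) (nat_lit 5) (nat_lit 368) (nat_lit 307) (nat_lit 270)) (XT.lf (nat_lit 0) (nat_lit 7915499555) (nat_lit 336) (nat_lit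 1691983423) (nat_lit 420) (nat_lit 1226051805) (nat_lit 69) (nat_lit 5) (nat_lit 73) (nat_lit 5) (nat_lit 74) (nat_lit 5) (nat_lit 369) (nat_lit 307) (nat_lit 269))))))))
noncomputable def xc12 : XT := (XT.nd (nat_lit 1504) (nat_lit 5292) (nat_lit 0) (XT.nd (nat_lit 752) (nat_lit 5376) (nat_lit 0) (XT.nd (nat_lit 376) (nat_lit 2688) (nat_lit 0) (XT.nd (nat_lit 188) (nat_lit 672) (nat_lit 0) (XT.nd (nat_lit 94) (nat_lit 84) (nat_lit 0) (XT.lf (nat_lit 0) (nat_lit 523367568) (nat_lit 588) (nat_lit 1405231604) (nat_lit 588) (nat_lit 1405231604) (nat_lit 256) (nat_lit 4) (nat_lit 263) (nat_lit 5) (nat_lit 263) (nat_lit 4) (nat_lit 329) (nat_lit 308) (nat_lit 308)) (XT.lf (nat_lit 0) (nat_lit 140210817) (nat_lit 672) (nat_lit 1797179434) (nat_lit 84) (nat_lit 4764753122) (nat_lit 255) (nat_lit 5) (nat_lit 263) (nat_lit 5) (nat_lit 256) (nat_lit 4) (nat_lit 330) (nat_lit 308) (nat_lit 307))) (XT.nd (nat_lit 94)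 (nat_lit 0) (nat_lit 0) (XT.lf (nat_lit 0) (nat_lit 2077792923) (nat_lit 672) (nat_lit 966922615) (nat_lit 756) (nat_lit 3694736970) (nat_lit 247) (nat_lit 5) (nat_lit 255) (nat_lit 5) (nat_lit 256) (nat_lit 4) (nat_lit 331) (nat_lit 308) (nat_lit 306)) (XT.lf (nat_lit 0) (nat_lit 5959153956) (nat_lit 756) (nat_lit 750786476) (nat_lit 0) (nat_lit 70529923) (nat_lit 247) (nat_lit 5) (nat_lit 256) (nat_lit 4) (nat_lit 247) (nat_lit 4) (nat_lit 332) (nat_lit 308) (nat_lit 305)))) (XT.nd (nat_lit 188) (nat_lit 1008) (nat_lit 0) (XT.nd (nat_lit 94) (nat_lit 840) (nat_lit 0) (XT.lf (nat_lit 0) (nat_lit 2043613198) (nat_lit 840) (nat_lit 3589748146) (nat_lit 84) (nat_lit 1190587476) (nat_lit 237) (nat_lit 5) (nat_lit 247) (nat_lit 5) (nat_lit 238) (nat_lit 4) (nat_lit 333) (nat_lit 308) (nat_lit 304)) (XT.lf (nat_lit 0) (nat_lit 407517610) (nat_lit 840) (nat_lit 4489815342) (nat_lit 924) (nat_lit 1973824428) (nat_lit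 227) (nat_lit 5) (nat_lit 237) (nat_lit 5) (nat_lit 238) (nat_lit 4) (nat_lit 334) (nat_lit 308) (nat_lit 303))) (XT.nd (nat_lit 94) (nat_lit 924) (nat_lit 0) (XT.lf (nat_lit 0) (nat_lit 844187925) (nat_lit 924) (nat_lit 2408722679) (nat_lit 84) (nat_lit 3668487091) (nat_lit 226) (nat_lit 5) (nat_lit 237) (nat_lit 5) (nat_lit 227) (nat_lit 5) (nat_lit 335) (nat_lit 308) (nat_lit 302)) (XT.lf (nat_lit 0) (nat_lit 1704726516) (nat_lit 924) (nat_lit 1929980715) (nat_lit 1008) (nat_lit 3340251511) (nat_lit 215) (nat_lit 5) (nat_lit 226) (nat_lit 5) (nat_lit 227) (nat_lit 5) (nat_lit 336) (nat_lit 308) (nat_lit 301))))) (XT.nd (nat_lit 376) (nat_lit 3108) (nat_lit 0) (XT.nd (nat_lit 188) (nat_lit 1176) (nat_lit 0) (XT.nd (nat_lit 94) (nat_lit 1092) (nat_lit 0) (XT.lf (nat_lit 0) (nat_lit 5914871008) (nat_lit 924) (nat_lit 531499640) (nat_lit 1008) (nat_lit 585855410) (nat_lit 215) (nat_lit 5) (nat_lit 226) (nat_lit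 5) (nat_lit 227) (nat_lit 5) (nat_lit 337) (nat_lit 308) (nat_lit 300)) (XT.lf (nat_lit 0) (nat_lit 2161201037) (nat_lit 1092) (nat_lit 3978130270) (nat_lit 84) (nat_lit 952821722) (nat_lit 202) (nat_lit 5) (nat_lit 215) (nat_lit 5) (nat_lit 203) (nat_lit 5) (nat_lit 338) (nat_lit 308) (nat_lit 299))) (XT.nd (nat_lit 94) (nat_lit 84) (nat_lit 0) (XT.lf (nat_lit 0) (nat_lit 257731350) (nat_lit 1092) (nat_lit 4656735717) (nat_lit 1176) (nat_lit 2241372966) (nat_lit 189) (nat_lit 5) (nat_lit 202) (nat_lit 5) (nat_lit 203) (nat_lit 5) (nat_lit 339) (nat_lit 308) (nat_lit 298)) (XT.lf (nat_lit 0) (nat_lit 476268998) (nat_lit 1176) (nat_lit 2602406294) (nat_lit 84) (nat_lit 4144070701) (nat_lit 188) (nat_lit 5) (nat_lit 202) (nat_lit 5) (nat_lit 189) (nat_lit 5) (nat_lit 340) (nat_lit 308) (nat_lit 297)))) (XT.nd (nat_lit 188) (nat_lit 1932) (nat_lit 0) (XT.nd (nat_lit 94) (nat_lit 0) (nat_lit 0) (XT.lf (nat_lit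 0) (nat_lit 1757663415) (nat_lit 1176) (nat_lit 1409164070) (nat_lit 1260) (nat_lit 4126258961) (nat_lit 174) (nat_lit 5) (nat_lit 188) (nat_lit 5) (nat_lit 189) (nat_lit 5) (nat_lit 341) (nat_lit 308) (nat_lit 296)) (XT.lf (nat_lit 0) (nat_lit 5888810054) (nat_lit 1260) (nat_lit 1144544994) (nat_lit 84) (nat_lit 333841590) (nat_lit 174) (nat_lit 5) (nat_lit 189) (nat_lit 5) (nat_lit 175) (nat_lit 5) (nat_lit 342) (nat_lit 308) (nat_lit 295))) (XT.nd (nat_lit 94) (nat_lit 588) (nat_lit 0) (XT.lf (nat_lit 0) (nat_lit 1193745092) (nat_lit 1344) (nat_lit 4102924441) (nat_lit 84) (nat_lit 2147594986) (nat_lit 158) (nat_lit 5) (nat_lit 174) (nat_lit 5) (nat_lit 159) (nat_lit 5) (nat_lit 343) (nat_lit 308) (nat_lit 294)) (XT.lf (nat_lit 0) (nat_lit 377501094) (nat_lit 588) (nat_lit 3478200017) (nat_lit 672) (nat_lit 3669488375) (nat_lit 151) (nat_lit 5) (nat_lit 158) (nat_lit 5) (nat_lit 159) (nat_lit 5) (nat_lit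 344) (nat_lit 308) (nat_lit 293)))))) (XT.nd (nat_lit 752) (nat_lit 2772) (nat_lit 0) (XT.nd (nat_lit 376) (nat_lit 1260) (nat_lit 0) (XT.nd (nat_lit 188) (nat_lit 588) (nat_lit 0) (XT.nd (nat_lit 94) (nat_lit 672) (nat_lit 0) (XT.lf (nat_lit 0) (nat_lit 5000121569) (nat_lit 588) (nat_lit 1564377144) (nat_lit 672) (nat_lit 1045194590) (nat_lit 151) (nat_lit 5) (nat_lit 158) (nat_lit 5) (nat_lit 159) (nat_lit 5) (nat_lit 345) (nat_lit 308) (nat_lit 292)) (XT.lf (nat_lit 0) (nat_lit 1575908379) (nat_lit 672) (nat_lit 5689943462) (nat_lit 84) (nat_lit 432040768) (nat_lit 143) (nat_lit 5) (nat_lit 151) (nat_lit 5) (nat_lit 144) (nat_lit 5) (nat_lit 346) (nat_lit 308) (nat_lit 291))) (XT.nd (nat_lit 94) (nat_lit 588) (nat_lit 0) (XT.lf (nat_lit 0) (nat_lit 4224968620) (nat_lit 672) (nat_lit 1073790056) (nat_lit 84) (nat_lit 2490705779) (nat_lit 143) (nat_lit 5) (nat_lit 151) (nat_lit 5) (nat_lit 144) (nat_lit 5)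 (nat_lit 347) (nat_lit 308) (nat_lit 290)) (XT.lf (nat_lit 0) (nat_lit 3677627459) (nat_lit 588) (nat_lit 3241545407) (nat_lit 672) (nat_lit 965783106) (nat_lit 136) (nat_lit 5) (nat_lit 143) (nat_lit 5) (nat_lit 144) (nat_lit 5) (nat_lit 348) (nat_lit 308) (nat_lit 289)))) (XT.nd (nat_lit 188) (nat_lit 588) (nat_lit 0) (XT.nd (nat_lit 94) (nat_lit 0) (nat_lit 0) (XT.lf (nat_lit 0) (nat_lit 528613520) (nat_lit 588) (nat_lit 1095747398) (nat_lit 672) (nat_lit 6360186757) (nat_lit 128) (nat_lit 5) (nat_lit 135) (nat_lit 5) (nat_lit 136) (nat_lit 5) (nat_lit 349) (nat_lit 308) (nat_lit 288)) (XT.lf (nat_lit 0) (nat_lit 4258465745) (nat_lit 672) (nat_lit 2690784087) (nat_lit 84) (nat_lit 1138150972) (nat_lit 128) (nat_lit 5) (nat_lit 136) (nat_lit 5) (nat_lit 129) (nat_lit 5) (nat_lit 350) (nat_lit 308) (nat_lit 287))) (XT.nd (nat_lit 94) (nat_lit 84) (nat_lit 0) (XT.lf (nat_lit 0) (nat_lit 2174024582) (nat_lit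 504) (nat_lit 4763344149) (nat_lit 588) (nat_lit 1257124317) (nat_lit 122) (nat_lit 5) (nat_lit 128) (nat_lit 5) (nat_lit 129) (nat_lit 5) (nat_lit 351) (nat_lit 308) (nat_lit 286)) (XT.lf (nat_lit 0) (nat_lit 1326596545) (nat_lit 588) (nat_lit 1153254730) (nat_lit 84) (nat_lit 5825807434) (nat_lit 121) (nat_lit 5) (nat_lit 128) (nat_lit 5) (nat_lit 122) (nat_lit 5) (nat_lit 352) (nat_lit 308) (nat_lit 285))))) (XT.nd (nat_lit 376) (nat_lit 1260) (nat_lit 0) (XT.nd (nat_lit 188) (nat_lit 588) (nat_lit 0) (XT.nd (nat_lit 94) (nat_lit 420) (nat_lit 0) (XT.lf (nat_lit 0) (nat_lit 3849283269) (nat_lit 504) (nat_lit 86663927) (nat_lit 588) (nat_lit 4484753199) (nat_lit 115) (nat_lit 5) (nat_lit 121) (nat_lit 5) (nat_lit 122) (nat_lit 5) (nat_lit 353) (nat_lit 308) (nat_lit 284)) (XT.lf (nat_lit 0) (nat_lit 396934285) (nat_lit 420) (nat_lit 6202522701) (nat_lit 504) (nat_lit 1940572622) (nat_lit 110) (nat_lit 5)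 (nat_lit 115) (nat_lit 5) (nat_lit 116) (nat_lit 5) (nat_lit 354) (nat_lit 308) (nat_lit 283))) (XT.nd (nat_lit 94) (nat_lit 504) (nat_lit 0) (XT.lf (nat_lit 0) (nat_lit 651980289) (nat_lit 504) (nat_lit 3136499931) (nat_lit 84) (nat_lit 4874809120) (nat_lit 109) (nat_lit 5) (nat_lit 115) (nat_lit 5) (nat_lit 110) (nat_lit 5) (nat_lit 355) (nat_lit 308) (nat_lit 282)) (XT.lf (nat_lit 0) (nat_lit 1966500950) (nat_lit 504) (nat_lit 1275356427) (nat_lit 588) (nat_lit 5549159623) (nat_lit 103) (nat_lit 5) (nat_lit 109) (nat_lit 5) (nat_lit 110) (nat_lit 5) (nat_lit 356) (nat_lit 308) (nat_lit 281)))) (XT.nd (nat_lit 188) (nat_lit 840) (nat_lit 0) (XT.nd (nat_lit 94) (nat_lit 420) (nat_lit 0) (XT.lf (nat_lit 0) (nat_lit 5894626711) (nat_lit 588) (nat_lit 1721667120) (nat_lit 84) (nat_lit 1306826854) (nat_lit 103) (nat_lit 5) (nat_lit 110) (nat_lit 5) (nat_lit 104) (nat_lit 5) (nat_lit 357) (nat_lit 308) (nat_lit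 280)) (XT.lf (nat_lit 0) (nat_lit 3518461591) (nat_lit 420) (nat_lit 5097283846) (nat_lit 504) (nat_lit 443876214) (nat_lit 98) (nat_lit 5) (nat_lit 103) (nat_lit 5) (nat_lit 104) (nat_lit 5) (nat_lit 358) (nat_lit 308) (nat_lit 279))) (XT.nd (nat_lit 94) (nat_lit 756) (nat_lit 0) (XT.lf (nat_lit 0) (nat_lit 2135211026) (nat_lit 504) (nat_lit 342469767) (nat_lit 84) (nat_lit 6723182203) (nat_lit 97) (nat_lit 5) (nat_lit 103) (nat_lit 5) (nat_lit 98) (nat_lit 5) (nat_lit 359) (nat_lit 308) (nat_lit 278)) (XT.nd (nat_lit 94) (nat_lit 336) (nat_lit 0) (XT.lf (nat_lit 0) (nat_lit 4777988899) (nat_lit 504) (nat_lit 4313222878) (nat_lit 84) (nat_lit 255229691) (nat_lit 92) (nat_lit 5) (nat_lit 98) (nat_lit 5) (nat_lit 93) (nat_lit 5) (nat_lit 360) (nat_lit 308) (nat_lit 277)) (XT.lf (nat_lit 0) (nat_lit 1004802616) (nat_lit 336) (nat_lit 6478070324) (nat_lit 420) (nat_lit 2014115992) (nat_lit 88) (nat_lit 5) (nat_lit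 92) (nat_lit 5) (nat_lit 93) (nat_lit 5) (nat_lit 361) (nat_lit 308) (nat_lit 276))))))))
noncomputable def xc13 : XT := (XT.nd (nat_lit 56870) (nat_lit 0) (nat_lit 4368) (XT.nd (nat_lit 56024) (nat_lit 0) (nat_lit 13188) (XT.nd (nat_lit 376) (nat_lit 756) (nat_lit 0) (XT.nd (nat_lit 188) (nat_lit 336) (nat_lit 0) (XT.nd (nat_lit 94) (nat_lit 420) (nat_lit 0) (XT.lf (nat_lit 0) (nat_lit 594244454) (nat_lit 420) (nat_lit 3157944105) (nat_lit 84) (nat_lit 5900084824) (nat_lit 87) (nat_lit 5) (nat_lit 92) (nat_lit 5) (nat_lit 88) (nat_lit 5) (nat_lit 362) (nat_lit 308) (nat_lit 275)) (XT.lf (nat_lit 0) (nat_lit 2291563523) (nat_lit 420) (nat_lit 917871781) (nat_lit 504) (nat_lit 6603189970) (nat_lit 82) (nat_lit 5) (nat_lit 87) (nat_lit 5) (nat_lit 88) (nat_lit 5) (nat_lit 363) (nat_lit 308) (nat_lit 274))) (XT.nd (nat_lit 94) (nat_lit 336) (nat_lit 0) (XT.lf (nat_lit 0) (nat_lit 5902279114) (nat_lit 504) (nat_lit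 2097428147) (nat_lit 84) (nat_lit 1978181242) (nat_lit 82) (nat_lit 5) (nat_lit 88) (nat_lit 5) (nat_lit 83) (nat_lit 5) (nat_lit 364) (nat_lit 308) (nat_lit 273)) (XT.lf (nat_lit 0) (nat_lit 3479438433) (nat_lit 336) (nat_lit 5188278950) (nat_lit 420) (nat_lit 1480712436) (nat_lit 78) (nat_lit 5) (nat_lit 82) (nat_lit 5) (nat_lit 83) (nat_lit 5) (nat_lit 365) (nat_lit 308) (nat_lit 272)))) (XT.nd (nat_lit 188) (nat_lit 336) (nat_lit 0) (XT.nd (nat_lit 94) (nat_lit 336) (nat_lit 0) (XT.lf (nat_lit 0) (nat_lit 1139697580) (nat_lit 420) (nat_lit 1137203590) (nat_lit 84) (nat_lit 8047784829) (nat_lit 77) (nat_lit 5) (nat_lit 82) (nat_lit 5) (nat_lit 78) (nat_lit 5) (nat_lit 366) (nat_lit 308) (nat_lit 271)) (XT.lf (nat_lit 0) (nat_lit 3811228201) (nat_lit 420) (nat_lit 5945025952) (nat_lit 84) (nat_lit 749535967) (nat_lit 73) (nat_lit 5) (nat_lit 78) (nat_lit 5) (nat_lit 74) (nat_lit 5) (nat_lit 367) (nat_lit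 308) (nat_lit 270))) (XT.nd (nat_lit 94) (nat_lit 336) (nat_lit 0) (XT.lf (nat_lit 0) (nat_lit 6548673465) (nat_lit 420) (nat_lit 329033484) (nat_lit 84) (nat_lit 3815113514) (nat_lit 73) (nat_lit 5) (nat_lit 78) (nat_lit 5) (nat_lit 74) (nat_lit 5) (nat_lit 368) (nat_lit 308) (nat_lit 269)) (XT.lf (nat_lit 0) (nat_lit 5497297363) (nat_lit 336) (nat_lit 3876824929) (nat_lit 420) (nat_lit 1511227254) (nat_lit 69) (nat_lit 5) (nat_lit 73) (nat_lit 5) (nat_lit 74) (nat_lit 5) (nat_lit 369) (nat_lit 308) (nat_lit 268))))) (XT.nd (nat_lit 376) (nat_lit 2436) (nat_lit 0) (XT.nd (nat_lit 188) (nat_lit 672) (nat_lit 0) (XT.nd (nat_lit 94) (nat_lit 0) (nat_lit 0) (XT.lf (nat_lit 0) (nat_lit 53254239) (nat_lit 588) (nat_lit 3197315209) (nat_lit 0) (nat_lit 53254239) (nat_lit 263) (nat_lit 5) (nat_lit 270) (nat_lit 4) (nat_lit 263) (nat_lit 4) (nat_lit 327) (nat_lit 309) (nat_lit 309)) (XT.lf (nat_lit 0) (nat_lit 3030240091)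 (nat_lit 588) (nat_lit 2720323337) (nat_lit 0) (nat_lit 885978475) (nat_lit 263) (nat_lit 5) (nat_lit 270) (nat_lit 4) (nat_lit 263) (nat_lit 4) (nat_lit 328) (nat_lit 309) (nat_lit 308))) (XT.nd (nat_lit 94) (nat_lit 84) (nat_lit 0) (XT.lf (nat_lit 0) (nat_lit 1009203347) (nat_lit 588) (nat_lit 4943074917) (nat_lit 588) (nat_lit 717005907) (nat_lit 256) (nat_lit 4) (nat_lit 263) (nat_lit 5) (nat_lit 263) (nat_lit 4) (nat_lit 329) (nat_lit 309) (nat_lit 307)) (XT.lf (nat_lit 0) (nat_lit 2144455150) (nat_lit 672) (nat_lit 1893997280) (nat_lit 84) (nat_lit 2666299429) (nat_lit 255) (nat_lit 5) (nat_lit 263) (nat_lit 5) (nat_lit 256) (nat_lit 4) (nat_lit 330) (nat_lit 309) (nat_lit 306)))) (XT.nd (nat_lit 188) (nat_lit 1680) (nat_lit 0) (XT.nd (nat_lit 94) (nat_lit 84) (nat_lit 0) (XT.lf (nat_lit 0) (nat_lit 1941876401) (nat_lit 672) (nat_lit 3058823486) (nat_lit 756) (nat_lit 1742943585) (nat_lit 247) (nat_lit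 5) (nat_lit 255) (nat_lit 5) (nat_lit 256) (nat_lit 4) (nat_lit 331) (nat_lit 309) (nat_lit 305)) (XT.lf (nat_lit 0) (nat_lit 1061203203) (nat_lit 756) (nat_lit 938204319) (nat_lit 84) (nat_lit 4786471160) (nat_lit 246) (nat_lit 5) (nat_lit 255) (nat_lit 5) (nat_lit 247) (nat_lit 5) (nat_lit 332) (nat_lit 309) (nat_lit 304))) (XT.nd (nat_lit 94) (nat_lit 924) (nat_lit 0) (XT.lf (nat_lit 0) (nat_lit 3009533411) (nat_lit 756) (nat_lit 842162270) (nat_lit 840) (nat_lit 2979300172) (nat_lit 237) (nat_lit 5) (nat_lit 246) (nat_lit 5) (nat_lit 247) (nat_lit 5) (nat_lit 333) (nat_lit 309) (nat_lit 303)) (XT.nd (nat_lit 94) (nat_lit 84) (nat_lit 0) (XT.lf (nat_lit 0) (nat_lit 141473854) (nat_lit 840) (nat_lit 6509181540) (nat_lit 924) (nat_lit 229311479) (nat_lit 227) (nat_lit 5) (nat_lit 237) (nat_lit 5) (nat_lit 238) (nat_lit 4) (nat_lit 334) (nat_lit 309) (nat_lit 302)) (XT.lf (nat_lit 0) (nat_lit 2510940731) (nat_lit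 924) (nat_lit 2738196458) (nat_lit 84) (nat_lit 1681991260) (nat_lit 226) (nat_lit 5) (nat_lit 237) (nat_lit 5) (nat_lit 227) (nat_lit 5) (nat_lit 335) (nat_lit 309) (nat_lit 301))))))) (XT.nd (nat_lit 752) (nat_lit 3108) (nat_lit 0) (XT.nd (nat_lit 376) (nat_lit 3696) (nat_lit 0) (XT.nd (nat_lit 188) (nat_lit 1008) (nat_lit 0) (XT.nd (nat_lit 94) (nat_lit 84) (nat_lit 0) (XT.lf (nat_lit 0) (nat_lit 1331215447) (nat_lit 924) (nat_lit 3924209113) (nat_lit 1008) (nat_lit 1730755506) (nat_lit 215) (nat_lit 5) (nat_lit 226) (nat_lit 5) (nat_lit 227) (nat_lit 5) (nat_lit 336) (nat_lit 309) (nat_lit 300)) (XT.lf (nat_lit 0) (nat_lit 961591383) (nat_lit 1008) (nat_lit 1549256344) (nat_lit 84) (nat_lit 4533669906) (nat_lit 214) (nat_lit 5) (nat_lit 226) (nat_lit 5) (nat_lit 215) (nat_lit 5) (nat_lit 337) (nat_lit 309) (nat_lit 299))) (XT.nd (nat_lit 94) (nat_lit 0) (nat_lit 0) (XT.lf (nat_lit 0) (nat_lit 2640440666)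 (nat_lit 1008) (nat_lit 1001939947) (nat_lit 1092) (nat_lit 3463640308) (nat_lit 202) (nat_lit 5) (nat_lit 214) (nat_lit 5) (nat_lit 215) (nat_lit 5) (nat_lit 338) (nat_lit 309) (nat_lit 298)) (XT.lf (nat_lit 0) (nat_lit 6343573471) (nat_lit 1092) (nat_lit 262340111) (nat_lit 84) (nat_lit 565453831) (nat_lit 202) (nat_lit 5) (nat_lit 215) (nat_lit 5) (nat_lit 203) (nat_lit 5) (nat_lit 339) (nat_lit 309) (nat_lit 297)))) (XT.nd (nat_lit 188) (nat_lit 1344) (nat_lit 0) (XT.nd (nat_lit 94) (nat_lit 1176) (nat_lit 0) (XT.lf (nat_lit 0) (nat_lit 1820031554) (nat_lit 1176) (nat_lit 3194605154) (nat_lit 84) (nat_lit 2224587700) (nat_lit 188) (nat_lit 5) (nat_lit 202) (nat_lit 5) (nat_lit 189) (nat_lit 5) (nat_lit 340) (nat_lit 309) (nat_lit 296)) (XT.lf (nat_lit 0) (nat_lit 1116309570) (nat_lit 1176) (nat_lit 3349634782) (nat_lit 1260) (nat_lit 2845048917) (nat_lit 174) (nat_lit 5) (nat_lit 188) (nat_lit 5) (nat_lit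 189) (nat_lit 5) (nat_lit 341) (nat_lit 309) (nat_lit 295))) (XT.nd (nat_lit 94) (nat_lit 1344) (nat_lit 0) (XT.lf (nat_lit 0) (nat_lit 5548388299) (nat_lit 1176) (nat_lit 1598557103) (nat_lit 1260) (nat_lit 239473948) (nat_lit 174) (nat_lit 5) (nat_lit 188) (nat_lit 5) (nat_lit 189) (nat_lit 5) (nat_lit 342) (nat_lit 309) (nat_lit 294)) (XT.lf (nat_lit 0) (nat_lit 2348847423) (nat_lit 1344) (nat_lit 4864084636) (nat_lit 84) (nat_lit 252068419) (nat_lit 158) (nat_lit 5) (nat_lit 174) (nat_lit 5) (nat_lit 159) (nat_lit 5) (nat_lit 343) (nat_lit 309) (nat_lit 293))))) (XT.nd (nat_lit 376) (nat_lit 1848) (nat_lit 0) (XT.nd (nat_lit 188) (nat_lit 588) (nat_lit 0) (XT.nd (nat_lit 94) (nat_lit 672) (nat_lit 0) (XT.lf (nat_lit 0) (nat_lit 4970861903) (nat_lit 1344) (nat_lit 427889744) (nat_lit 84) (nat_lit 2148451151) (nat_lit 158) (nat_lit 5) (nat_lit 174) (nat_lit 5) (nat_lit 159) (nat_lit 5) (nat_lit 344) (nat_lit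 309) (nat_lit 292)) (XT.lf (nat_lit 0) (nat_lit 6746780) (nat_lit 672) (nat_lit 3483331534) (nat_lit 84) (nat_lit 4142897152) (nat_lit 150) (nat_lit 5) (nat_lit 158) (nat_lit 5) (nat_lit 151) (nat_lit 5) (nat_lit 345) (nat_lit 309) (nat_lit 291))) (XT.nd (nat_lit 94) (nat_lit 0) (nat_lit 0) (XT.lf (nat_lit 0) (nat_lit 1073986672) (nat_lit 588) (nat_lit 1485227805) (nat_lit 672) (nat_lit 5163178471) (nat_lit 143) (nat_lit 5) (nat_lit 150) (nat_lit 5) (nat_lit 151) (nat_lit 5) (nat_lit 346) (nat_lit 309) (nat_lit 290)) (XT.lf (nat_lit 0) (nat_lit 5159672969) (nat_lit 672) (nat_lit 2054914006) (nat_lit 84) (nat_lit 600906157) (nat_lit 143) (nat_lit 5) (nat_lit 151) (nat_lit 5) (nat_lit 144) (nat_lit 5) (nat_lit 347) (nat_lit 309) (nat_lit 289)))) (XT.nd (nat_lit 188) (nat_lit 1176) (nat_lit 0) (XT.nd (nat_lit 94) (nat_lit 84) (nat_lit 0) (XT.lf (nat_lit 0) (nat_lit 2640401301) (nat_lit 588) (nat_lit 5170180382)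 (nat_lit 672) (nat_lit 101770072) (nat_lit 136) (nat_lit 5) (nat_lit 143) (nat_lit 5) (nat_lit 144) (nat_lit 5) (nat_lit 348) (nat_lit 309) (nat_lit 288)) (XT.lf (nat_lit 0) (nat_lit 2433348115) (nat_lit 672) (nat_lit 590862363) (nat_lit 84) (nat_lit 4988693115) (nat_lit 135) (nat_lit 5) (nat_lit 143) (nat_lit 5) (nat_lit 136) (nat_lit 5) (nat_lit 349) (nat_lit 309) (nat_lit 287))) (XT.nd (nat_lit 94) (nat_lit 588) (nat_lit 0) (XT.lf (nat_lit 0) (nat_lit 4240996470) (nat_lit 588) (nat_lit 777039629) (nat_lit 672) (nat_lit 3099265578) (nat_lit 128) (nat_lit 5) (nat_lit 135) (nat_lit 5) (nat_lit 136) (nat_lit 5) (nat_lit 350) (nat_lit 309) (nat_lit 286)) (XT.nd (nat_lit 94) (nat_lit 84) (nat_lit 0) (XT.lf (nat_lit 0) (nat_lit 936007133) (nat_lit 504) (nat_lit 6710010016) (nat_lit 588) (nat_lit 579965060) (nat_lit 122) (nat_lit 5) (nat_lit 128) (nat_lit 5) (nat_lit 129) (nat_lit 5) (nat_lit 351) (nat_lit 309)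 (nat_lit 285)) (XT.lf (nat_lit 0) (nat_lit 1959203785) (nat_lit 588) (nat_lit 2465407926) (nat_lit 84) (nat_lit 3913338174) (nat_lit 121) (nat_lit 5) (nat_lit 128) (nat_lit 5) (nat_lit 122) (nat_lit 5) (nat_lit 352) (nat_lit 309) (nat_lit 284))))))))
noncomputable def xc14 : XT := (XT.nd (nat_lit 1504) (nat_lit 336) (nat_lit 0) (XT.nd (nat_lit 752) (nat_lit 1596) (nat_lit 0) (XT.nd (nat_lit 376) (nat_lit 924) (nat_lit 0) (XT.nd (nat_lit 188) (nat_lit 1008) (nat_lit 0) (XT.nd (nat_lit 94) (nat_lit 0) (nat_lit 0) (XT.lf (nat_lit 0) (nat_lit 2475232621) (nat_lit 504) (nat_lit 2049688161) (nat_lit 588) (nat_lit 3929435284) (nat_lit 115) (nat_lit 5) (nat_lit 121) (nat_lit 5) (nat_lit 122) (nat_lit 5) (nat_lit 353) (nat_lit 309) (nat_lit 283)) (XT.lf (nat_lit 0) (nat_lit 7135825207) (nat_lit 588) (nat_lit 1035291942) (nat_lit 84) (nat_lit 404200159) (nat_lit 115) (nat_lit 5) (nat_lit 122) (nat_lit 5) (nat_lit 116)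 (nat_lit 5) (nat_lit 354) (nat_lit 309) (nat_lit 282))) (XT.nd (nat_lit 94) (nat_lit 504) (nat_lit 0) (XT.lf (nat_lit 0) (nat_lit 1103302442) (nat_lit 504) (nat_lit 4665575989) (nat_lit 84) (nat_lit 2930804302) (nat_lit 109) (nat_lit 5) (nat_lit 115) (nat_lit 5) (nat_lit 110) (nat_lit 5) (nat_lit 355) (nat_lit 309) (nat_lit 281)) (XT.lf (nat_lit 0) (nat_lit 371408514) (nat_lit 504) (nat_lit 3277573871) (nat_lit 588) (nat_lit 5179803219) (nat_lit 103) (nat_lit 5) (nat_lit 109) (nat_lit 5) (nat_lit 110) (nat_lit 5) (nat_lit 356) (nat_lit 309) (nat_lit 280)))) (XT.nd (nat_lit 188) (nat_lit 504) (nat_lit 0) (XT.nd (nat_lit 94) (nat_lit 420) (nat_lit 0) (XT.lf (nat_lit 0) (nat_lit 5585009199) (nat_lit 504) (nat_lit 675574953) (nat_lit 588) (nat_lit 2701588025) (nat_lit 103) (nat_lit 5) (nat_lit 109) (nat_lit 5) (nat_lit 110) (nat_lit 5) (nat_lit 357) (nat_lit 309) (nat_lit 279)) (XT.lf (nat_lit 0) (nat_lit 1801601019)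 (nat_lit 420) (nat_lit 7129516862) (nat_lit 504) (nat_lit 169119280) (nat_lit 98) (nat_lit 5) (nat_lit 103) (nat_lit 5) (nat_lit 104) (nat_lit 5) (nat_lit 358) (nat_lit 309) (nat_lit 278))) (XT.nd (nat_lit 94) (nat_lit 420) (nat_lit 0) (XT.lf (nat_lit 0) (nat_lit 2377182859) (nat_lit 504) (nat_lit 2137196353) (nat_lit 84) (nat_lit 4727886568) (nat_lit 97) (nat_lit 5) (nat_lit 103) (nat_lit 5) (nat_lit 98) (nat_lit 5) (nat_lit 359) (nat_lit 309) (nat_lit 277)) (XT.lf (nat_lit 0) (nat_lit 3171080680) (nat_lit 420) (nat_lit 1801828159) (nat_lit 504) (nat_lit 4416389495) (nat_lit 92) (nat_lit 5) (nat_lit 97) (nat_lit 5) (nat_lit 98) (nat_lit 5) (nat_lit 360) (nat_lit 309) (nat_lit 276))))) (XT.nd (nat_lit 376) (nat_lit 756) (nat_lit 0) (XT.nd (nat_lit 188) (nat_lit 420) (nat_lit 0) (XT.nd (nat_lit 94) (nat_lit 420) (nat_lit 0) (XT.lf (nat_lit 0) (nat_lit 7624576346) (nat_lit 504) (nat_lit 936509198) (nat_lit 84)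 (nat_lit 980398036) (nat_lit 92) (nat_lit 5) (nat_lit 98) (nat_lit 5) (nat_lit 93) (nat_lit 5) (nat_lit 361) (nat_lit 309) (nat_lit 275)) (XT.lf (nat_lit 0) (nat_lit 654192037) (nat_lit 420) (nat_lit 5197762470) (nat_lit 84) (nat_lit 3845885335) (nat_lit 87) (nat_lit 5) (nat_lit 92) (nat_lit 5) (nat_lit 88) (nat_lit 5) (nat_lit 362) (nat_lit 309) (nat_lit 274))) (XT.nd (nat_lit 94) (nat_lit 0) (nat_lit 0) (XT.lf (nat_lit 0) (nat_lit 177230039) (nat_lit 420) (nat_lit 3046496627) (nat_lit 504) (nat_lit 6635872536) (nat_lit 82) (nat_lit 5) (nat_lit 87) (nat_lit 5) (nat_lit 88) (nat_lit 5) (nat_lit 363) (nat_lit 309) (nat_lit 273)) (XT.lf (nat_lit 0) (nat_lit 5753171814) (nat_lit 420) (nat_lit 119094047) (nat_lit 504) (nat_lit 4153962391) (nat_lit 82) (nat_lit 5) (nat_lit 87) (nat_lit 5) (nat_lit 88) (nat_lit 5) (nat_lit 364) (nat_lit 309) (nat_lit 272)))) (XT.nd (nat_lit 188) (nat_lit 336) (nat_lit 0) (XT.nd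 (nat_lit 94) (nat_lit 84) (nat_lit 0) (XT.lf (nat_lit 0) (nat_lit 1228370524) (nat_lit 336) (nat_lit 7362290183) (nat_lit 420) (nat_lit 1607555778) (nat_lit 78) (nat_lit 5) (nat_lit 82) (nat_lit 5) (nat_lit 83) (nat_lit 5) (nat_lit 365) (nat_lit 309) (nat_lit 271)) (XT.lf (nat_lit 0) (nat_lit 991195002) (nat_lit 420) (nat_lit 3469690564) (nat_lit 84) (nat_lit 5914381279) (nat_lit 77) (nat_lit 5) (nat_lit 82) (nat_lit 5) (nat_lit 78) (nat_lit 5) (nat_lit 366) (nat_lit 309) (nat_lit 270))) (XT.nd (nat_lit 94) (nat_lit 0) (nat_lit 0) (XT.lf (nat_lit 0) (nat_lit 2156895355) (nat_lit 336) (nat_lit 1451870198) (nat_lit 420) (nat_lit 6949256806) (nat_lit 73) (nat_lit 5) (nat_lit 77) (nat_lit 5) (nat_lit 78) (nat_lit 5) (nat_lit 367) (nat_lit 309) (nat_lit 269)) (XT.lf (nat_lit 0) (nat_lit 6309119982) (nat_lit 420) (nat_lit 2803401655) (nat_lit 84) (nat_lit 1633675434) (nat_lit 73) (nat_lit 5) (nat_lit 78) (nat_lit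 5) (nat_lit 74) (nat_lit 5) (nat_lit 368) (nat_lit 309) (nat_lit 268)))))) (XT.nd (nat_lit 55836) (nat_lit 0) (nat_lit 9996) (XT.nd (nat_lit 55460) (nat_lit 0) (nat_lit 14868) (XT.nd (nat_lit 55272) (nat_lit 0) (nat_lit 16296) (XT.nd (nat_lit 55178) (nat_lit 0) (nat_lit 17304) (XT.lf (nat_lit 0) (nat_lit 2941776947) (nat_lit 336) (nat_lit 6145765886) (nat_lit 420) (nat_lit 1852624820) (nat_lit 69) (nat_lit 5) (nat_lit 73) (nat_lit 5) (nat_lit 74) (nat_lit 5) (nat_lit 369) (nat_lit 309) (nat_lit 267)) (XT.lf (nat_lit 0) (nat_lit 1535016924) (nat_lit 420) (nat_lit 208095270) (nat_lit 0) (nat_lit 1535016924) (nat_lit 275) (nat_lit 5) (nat_lit 280) (nat_lit 4) (nat_lit 275) (nat_lit 4) (nat_lit 325) (nat_lit 310) (nat_lit 310))) (XT.nd (nat_lit 94) (nat_lit 588) (nat_lit 0) (XT.lf (nat_lit 0) (nat_lit 3160969410) (nat_lit 420) (nat_lit 2847371039) (nat_lit 420) (nat_lit 572523890) (nat_lit 270) (nat_lit 4) (nat_lit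 275) (nat_lit 5) (nat_lit 275) (nat_lit 4) (nat_lit 326) (nat_lit 310) (nat_lit 309)) (XT.lf (nat_lit 0) (nat_lit 155688614) (nat_lit 504) (nat_lit 2129594748) (nat_lit 588) (nat_lit 4323410029) (nat_lit 263) (nat_lit 5) (nat_lit 269) (nat_lit 5) (nat_lit 270) (nat_lit 4) (nat_lit 327) (nat_lit 310) (nat_lit 308)))) (XT.nd (nat_lit 188) (nat_lit 756) (nat_lit 0) (XT.nd (nat_lit 94) (nat_lit 672) (nat_lit 0) (XT.lf (nat_lit 0) (nat_lit 3831711394) (nat_lit 504) (nat_lit 1320707139) (nat_lit 588) (nat_lit 1487014444) (nat_lit 263) (nat_lit 5) (nat_lit 269) (nat_lit 5) (nat_lit 270) (nat_lit 4) (nat_lit 328) (nat_lit 310) (nat_lit 307)) (XT.lf (nat_lit 0) (nat_lit 878977596) (nat_lit 588) (nat_lit 438229985) (nat_lit 672) (nat_lit 5356433305) (nat_lit 255) (nat_lit 5) (nat_lit 262) (nat_lit 5) (nat_lit 263) (nat_lit 5) (nat_lit 329) (nat_lit 310) (nat_lit 306))) (XT.nd (nat_lit 94) (nat_lit 756) (nat_lit 0) (XT.lf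 (nat_lit 0) (nat_lit 4113511265) (nat_lit 672) (nat_lit 2067705965) (nat_lit 84) (nat_lit 529354231) (nat_lit 255) (nat_lit 5) (nat_lit 263) (nat_lit 5) (nat_lit 256) (nat_lit 4) (nat_lit 330) (nat_lit 310) (nat_lit 305)) (XT.lf (nat_lit 0) (nat_lit 167758542) (nat_lit 756) (nat_lit 5024046157) (nat_lit 84) (nat_lit 1559168862) (nat_lit 246) (nat_lit 5) (nat_lit 255) (nat_lit 5) (nat_lit 247) (nat_lit 5) (nat_lit 331) (nat_lit 310) (nat_lit 304))))) (XT.nd (nat_lit 376) (nat_lit 3192) (nat_lit 0) (XT.nd (nat_lit 188) (nat_lit 924) (nat_lit 0) (XT.nd (nat_lit 94) (nat_lit 756) (nat_lit 0) (XT.lf (nat_lit 0) (nat_lit 2892733264) (nat_lit 756) (nat_lit 1213297681) (nat_lit 84) (nat_lit 2688153276) (nat_lit 246) (nat_lit 5) (nat_lit 255) (nat_lit 5) (nat_lit 247) (nat_lit 5) (nat_lit 332) (nat_lit 310) (nat_lit 303)) (XT.lf (nat_lit 0) (nat_lit 2693258645) (nat_lit 756) (nat_lit 2943081278) (nat_lit 840) (nat_lit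 1204487702) (nat_lit 237) (nat_lit 5) (nat_lit 246) (nat_lit 5) (nat_lit 247) (nat_lit 5) (nat_lit 333) (nat_lit 310) (nat_lit 302))) (XT.nd (nat_lit 94) (nat_lit 840) (nat_lit 0) (XT.lf (nat_lit 0) (nat_lit 1466871176) (nat_lit 840) (nat_lit 234222357) (nat_lit 84) (nat_lit 5189826358) (nat_lit 236) (nat_lit 5) (nat_lit 246) (nat_lit 5) (nat_lit 237) (nat_lit 5) (nat_lit 334) (nat_lit 310) (nat_lit 301)) (XT.lf (nat_lit 0) (nat_lit 3788272351) (nat_lit 840) (nat_lit 356689011) (nat_lit 924) (nat_lit 2798894102) (nat_lit 226) (nat_lit 5) (nat_lit 236) (nat_lit 5) (nat_lit 237) (nat_lit 5) (nat_lit 335) (nat_lit 310) (nat_lit 300)))) (XT.nd (nat_lit 188) (nat_lit 2184) (nat_lit 0) (XT.nd (nat_lit 94) (nat_lit 84) (nat_lit 0) (XT.lf (nat_lit 0) (nat_lit 872630470) (nat_lit 924) (nat_lit 5967769013) (nat_lit 1008) (nat_lit 160085283) (nat_lit 215) (nat_lit 5) (nat_lit 226) (nat_lit 5) (nat_lit 227) (nat_lit 5)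 (nat_lit 336) (nat_lit 310) (nat_lit 299)) (XT.lf (nat_lit 0) (nat_lit 2460763342) (nat_lit 1008) (nat_lit 2073486051) (nat_lit 84) (nat_lit 2525445670) (nat_lit 214) (nat_lit 5) (nat_lit 226) (nat_lit 5) (nat_lit 215) (nat_lit 5) (nat_lit 337) (nat_lit 310) (nat_lit 298))) (XT.nd (nat_lit 94) (nat_lit 1176) (nat_lit 0) (XT.lf (nat_lit 0) (nat_lit 2069891284) (nat_lit 1008) (nat_lit 3026517758) (nat_lit 1092) (nat_lit 2026240908) (nat_lit 202) (nat_lit 5) (nat_lit 214) (nat_lit 5) (nat_lit 215) (nat_lit 5) (nat_lit 338) (nat_lit 310) (nat_lit 297)) (XT.nd (nat_lit 94) (nat_lit 1092) (nat_lit 0) (XT.lf (nat_lit 0) (nat_lit 552795291) (nat_lit 1092) (nat_lit 885495281) (nat_lit 84) (nat_lit 5750969217) (nat_lit 201) (nat_lit 5) (nat_lit 214) (nat_lit 5) (nat_lit 202) (nat_lit 5) (nat_lit 339) (nat_lit 310) (nat_lit 296)) (XT.lf (nat_lit 0) (nat_lit 3125991361) (nat_lit 1176) (nat_lit 3878948897) (nat_lit 84)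 (nat_lit 253781132) (nat_lit 188) (nat_lit 5) (nat_lit 202) (nat_lit 5) (nat_lit 189) (nat_lit 5) (nat_lit 340) (nat_lit 310) (nat_lit 295))))))))
noncomputable def xc15 : XT := (XT.nd (nat_lit 1598) (nat_lit 2856) (nat_lit 0) (XT.nd (nat_lit 752) (nat_lit 2688) (nat_lit 0) (XT.nd (nat_lit 376) (nat_lit 1932) (nat_lit 0) (XT.nd (nat_lit 188) (nat_lit 1260) (nat_lit 0) (XT.nd (nat_lit 94) (nat_lit 84) (nat_lit 0) (XT.lf (nat_lit 0) (nat_lit 382065399) (nat_lit 1176) (nat_lit 5345420946) (nat_lit 1260) (nat_lit 1604422884) (nat_lit 174) (nat_lit 5) (nat_lit 188) (nat_lit 5) (nat_lit 189) (nat_lit 5) (nat_lit 341) (nat_lit 310) (nat_lit 294)) (XT.lf (nat_lit 0) (nat_lit 944560981) (nat_lit 1260) (nat_lit 2638857746) (nat_lit 84) (nat_lit 3824821003) (nat_lit 173) (nat_lit 5) (nat_lit 188) (nat_lit 5) (nat_lit 174) (nat_lit 5) (nat_lit 342) (nat_lit 310) (nat_lit 293))) (XT.nd (nat_lit 94) (nat_lit 0) (nat_lit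 0) (XT.lf (nat_lit 0) (nat_lit 1748659222) (nat_lit 1260) (nat_lit 1732886244) (nat_lit 1344) (nat_lit 4006685358) (nat_lit 158) (nat_lit 5) (nat_lit 173) (nat_lit 5) (nat_lit 174) (nat_lit 5) (nat_lit 343) (nat_lit 310) (nat_lit 292)) (XT.lf (nat_lit 0) (nat_lit 6051647270) (nat_lit 1344) (nat_lit 1322509671) (nat_lit 84) (nat_lit 197910389) (nat_lit 158) (nat_lit 5) (nat_lit 174) (nat_lit 5) (nat_lit 159) (nat_lit 5) (nat_lit 344) (nat_lit 310) (nat_lit 291)))) (XT.nd (nat_lit 188) (nat_lit 672) (nat_lit 0) (XT.nd (nat_lit 94) (nat_lit 588) (nat_lit 0) (XT.lf (nat_lit 0) (nat_lit 998220862) (nat_lit 672) (nat_lit 4467155410) (nat_lit 84) (nat_lit 2193546874) (nat_lit 150) (nat_lit 5) (nat_lit 158) (nat_lit 5) (nat_lit 151) (nat_lit 5) (nat_lit 345) (nat_lit 310) (nat_lit 290)) (XT.lf (nat_lit 0) (nat_lit 34729468) (nat_lit 588) (nat_lit 3472003762) (nat_lit 672) (nat_lit 4242996344) (nat_lit 143) (nat_lit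 5) (nat_lit 150) (nat_lit 5) (nat_lit 151) (nat_lit 5) (nat_lit 346) (nat_lit 310) (nat_lit 289))) (XT.nd (nat_lit 94) (nat_lit 672) (nat_lit 0) (XT.lf (nat_lit 0) (nat_lit 4692580865) (nat_lit 588) (nat_lit 1375408945) (nat_lit 672) (nat_lit 1776084246) (nat_lit 143) (nat_lit 5) (nat_lit 150) (nat_lit 5) (nat_lit 151) (nat_lit 5) (nat_lit 347) (nat_lit 310) (nat_lit 288)) (XT.lf (nat_lit 0) (nat_lit 705621963) (nat_lit 672) (nat_lit 6449641097) (nat_lit 84) (nat_lit 787224481) (nat_lit 135) (nat_lit 5) (nat_lit 143) (nat_lit 5) (nat_lit 136) (nat_lit 5) (nat_lit 348) (nat_lit 310) (nat_lit 287))))) (XT.nd (nat_lit 376) (nat_lit 1512) (nat_lit 0) (XT.nd (nat_lit 188) (nat_lit 588) (nat_lit 0) (XT.nd (nat_lit 94) (nat_lit 588) (nat_lit 0) (XT.lf (nat_lit 0) (nat_lit 3206633401) (nat_lit 672) (nat_lit 1804709308) (nat_lit 84) (nat_lit 3032693397) (nat_lit 135) (nat_lit 5) (nat_lit 143) (nat_lit 5) (nat_lit 136)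 (nat_lit 5) (nat_lit 349) (nat_lit 310) (nat_lit 286)) (XT.lf (nat_lit 0) (nat_lit 2968158447) (nat_lit 588) (nat_lit 2779742349) (nat_lit 672) (nat_lit 2401896640) (nat_lit 128) (nat_lit 5) (nat_lit 135) (nat_lit 5) (nat_lit 136) (nat_lit 5) (nat_lit 350) (nat_lit 310) (nat_lit 285))) (XT.nd (nat_lit 94) (nat_lit 504) (nat_lit 0) (XT.lf (nat_lit 0) (nat_lit 60143034) (nat_lit 672) (nat_lit 408202407) (nat_lit 84) (nat_lit 7791804916) (nat_lit 127) (nat_lit 5) (nat_lit 135) (nat_lit 5) (nat_lit 128) (nat_lit 5) (nat_lit 351) (nat_lit 310) (nat_lit 284)) (XT.lf (nat_lit 0) (nat_lit 2549025603) (nat_lit 588) (nat_lit 3888147810) (nat_lit 84) (nat_lit 1936001929) (nat_lit 121) (nat_lit 5) (nat_lit 128) (nat_lit 5) (nat_lit 122) (nat_lit 5) (nat_lit 352) (nat_lit 310) (nat_lit 283)))) (XT.nd (nat_lit 188) (nat_lit 1008) (nat_lit 0) (XT.nd (nat_lit 94) (nat_lit 0) (nat_lit 0) (XT.lf (nat_lit 0) (nat_lit 989436618)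 (nat_lit 504) (nat_lit 4081484342) (nat_lit 588) (nat_lit 3420029080) (nat_lit 115) (nat_lit 5) (nat_lit 121) (nat_lit 5) (nat_lit 122) (nat_lit 5) (nat_lit 353) (nat_lit 310) (nat_lit 282)) (XT.lf (nat_lit 0) (nat_lit 6024582055) (nat_lit 504) (nat_lit 1624277466) (nat_lit 588) (nat_lit 964093038) (nat_lit 115) (nat_lit 5) (nat_lit 121) (nat_lit 5) (nat_lit 122) (nat_lit 5) (nat_lit 354) (nat_lit 310) (nat_lit 281))) (XT.nd (nat_lit 94) (nat_lit 504) (nat_lit 0) (XT.lf (nat_lit 0) (nat_lit 1509570053) (nat_lit 504) (nat_lit 6311351800) (nat_lit 84) (nat_lit 918103973) (nat_lit 109) (nat_lit 5) (nat_lit 115) (nat_lit 5) (nat_lit 110) (nat_lit 5) (nat_lit 355) (nat_lit 310) (nat_lit 280)) (XT.nd (nat_lit 94) (nat_lit 504) (nat_lit 0) (XT.lf (nat_lit 0) (nat_lit 4023656351) (nat_lit 504) (nat_lit 1315488971) (nat_lit 84) (nat_lit 3529979046) (nat_lit 109) (nat_lit 5) (nat_lit 115) (nat_lit 5) (nat_lit 110) (nat_lit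 5) (nat_lit 356) (nat_lit 310) (nat_lit 279)) (XT.lf (nat_lit 0) (nat_lit 3838388847) (nat_lit 504) (nat_lit 2756442673) (nat_lit 588) (nat_lit 2408938688) (nat_lit 103) (nat_lit 5) (nat_lit 109) (nat_lit 5) (nat_lit 110) (nat_lit 5) (nat_lit 357) (nat_lit 310) (nat_lit 278))))))) (XT.nd (nat_lit 752) (nat_lit 1092) (nat_lit 0) (XT.nd (nat_lit 376) (nat_lit 840) (nat_lit 0) (XT.nd (nat_lit 188) (nat_lit 420) (nat_lit 0) (XT.nd (nat_lit 94) (nat_lit 420) (nat_lit 0) (XT.lf (nat_lit 0) (nat_lit 57252687) (nat_lit 588) (nat_lit 36595439) (nat_lit 84) (nat_lit 9049911249) (nat_lit 102) (nat_lit 5) (nat_lit 109) (nat_lit 5) (nat_lit 103) (nat_lit 5) (nat_lit 358) (nat_lit 310) (nat_lit 277)) (XT.lf (nat_lit 0) (nat_lit 2572365385) (nat_lit 504) (nat_lit 4053975443) (nat_lit 84) (nat_lit 2660277599) (nat_lit 97) (nat_lit 5) (nat_lit 103) (nat_lit 5) (nat_lit 98) (nat_lit 5) (nat_lit 359) (nat_lit 310) (nat_lit 276)))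 (XT.nd (nat_lit 94) (nat_lit 0) (nat_lit 0) (XT.lf (nat_lit 0) (nat_lit 1182882019) (nat_lit 420) (nat_lit 3940248187) (nat_lit 504) (nat_lit 4311910895) (nat_lit 92) (nat_lit 5) (nat_lit 97) (nat_lit 5) (nat_lit 98) (nat_lit 5) (nat_lit 360) (nat_lit 310) (nat_lit 275)) (XT.lf (nat_lit 0) (nat_lit 6594372998) (nat_lit 420) (nat_lit 1145405974) (nat_lit 504) (nat_lit 1848538023) (nat_lit 92) (nat_lit 5) (nat_lit 97) (nat_lit 5) (nat_lit 98) (nat_lit 5) (nat_lit 361) (nat_lit 310) (nat_lit 274)))) (XT.nd (nat_lit 188) (nat_lit 420) (nat_lit 0) (XT.nd (nat_lit 94) (nat_lit 0) (nat_lit 0) (XT.lf (nat_lit 0) (nat_lit 664514181) (nat_lit 420) (nat_lit 7366286807) (nat_lit 84) (nat_lit 1715591722) (nat_lit 87) (nat_lit 5) (nat_lit 92) (nat_lit 5) (nat_lit 88) (nat_lit 5) (nat_lit 362) (nat_lit 310) (nat_lit 273)) (XT.lf (nat_lit 0) (nat_lit 3207751037) (nat_lit 420) (nat_lit 2027040906) (nat_lit 84) (nat_lit 4674185743)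 (nat_lit 87) (nat_lit 5) (nat_lit 92) (nat_lit 5) (nat_lit 88) (nat_lit 5) (nat_lit 363) (nat_lit 310) (nat_lit 272))) (XT.nd (nat_lit 94) (nat_lit 0) (nat_lit 0) (XT.lf (nat_lit 0) (nat_lit 3476587119) (nat_lit 420) (nat_lit 2335645034) (nat_lit 504) (nat_lit 4264731938) (nat_lit 82) (nat_lit 5) (nat_lit 87) (nat_lit 5) (nat_lit 88) (nat_lit 5) (nat_lit 364) (nat_lit 310) (nat_lit 271)) (XT.lf (nat_lit 0) (nat_lit 8473958932) (nat_lit 504) (nat_lit 1133319874) (nat_lit 84) (nat_lit 643408136) (nat_lit 82) (nat_lit 5) (nat_lit 88) (nat_lit 5) (nat_lit 83) (nat_lit 5) (nat_lit 365) (nat_lit 310) (nat_lit 270))))) (XT.nd (nat_lit 55272) (nat_lit 0) (nat_lit 16296) (XT.nd (nat_lit 188) (nat_lit 672) (nat_lit 0) (XT.nd (nat_lit 94) (nat_lit 0) (nat_lit 0) (XT.lf (nat_lit 0) (nat_lit 790671476) (nat_lit 420) (nat_lit 5936898690) (nat_lit 84) (nat_lit 3701288088) (nat_lit 77) (nat_lit 5) (nat_lit 82) (nat_lit 5)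 (nat_lit 78) (nat_lit 5) (nat_lit 366) (nat_lit 310) (nat_lit 269)) (XT.lf (nat_lit 0) (nat_lit 3364759637) (nat_lit 420) (nat_lit 383367439) (nat_lit 84) (nat_lit 6864822806) (nat_lit 77) (nat_lit 5) (nat_lit 82) (nat_lit 5) (nat_lit 78) (nat_lit 5) (nat_lit 367) (nat_lit 310) (nat_lit 268))) (XT.nd (nat_lit 94) (nat_lit 336) (nat_lit 0) (XT.lf (nat_lit 0) (nat_lit 5380737491) (nat_lit 336) (nat_lit 642220498) (nat_lit 420) (nat_lit 4779462008) (nat_lit 73) (nat_lit 5) (nat_lit 77) (nat_lit 5) (nat_lit 78) (nat_lit 5) (nat_lit 368) (nat_lit 310) (nat_lit 267)) (XT.lf (nat_lit 0) (nat_lit 246705329) (nat_lit 336) (nat_lit 8500788865) (nat_lit 420) (nat_lit 2250542810) (nat_lit 69) (nat_lit 5) (nat_lit 73) (nat_lit 5) (nat_lit 74) (nat_lit 5) (nat_lit 369) (nat_lit 310) (nat_lit 266)))) (XT.nd (nat_lit 188) (nat_lit 1008) (nat_lit 0) (XT.nd (nat_lit 94) (nat_lit 420) (nat_lit 0) (XT.lf (nat_lit 0) (nat_lit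 2863354869) (nat_lit 252) (nat_lit 197114067) (nat_lit 252) (nat_lit 197114067) (nat_lit 280) (nat_lit 4) (nat_lit 283) (nat_lit 5) (nat_lit 283) (nat_lit 4) (nat_lit 323) (nat_lit 311) (nat_lit 311)) (XT.lf (nat_lit 0) (nat_lit 2490219700) (nat_lit 420) (nat_lit 3897444373) (nat_lit 0) (nat_lit 147127137) (nat_lit 275) (nat_lit 5) (nat_lit 280) (nat_lit 4) (nat_lit 275) (nat_lit 4) (nat_lit 324) (nat_lit 311) (nat_lit 310))) (XT.nd (nat_lit 94) (nat_lit 1008) (nat_lit 0) (XT.lf (nat_lit 0) (nat_lit 5362548833) (nat_lit 420) (nat_lit 450778420) (nat_lit 0) (nat_lit 744609122) (nat_lit 275) (nat_lit 5) (nat_lit 280) (nat_lit 4) (nat_lit 275) (nat_lit 4) (nat_lit 325) (nat_lit 311) (nat_lit 309)) (XT.nd (nat_lit 94) (nat_lit 504) (nat_lit 0) (XT.lf (nat_lit 0) (nat_lit 1634363838) (nat_lit 504) (nat_lit 3508770582) (nat_lit 84) (nat_lit 1440576671) (nat_lit 269) (nat_lit 5) (nat_lit 275) (nat_lit 5) (nat_lit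 270) (nat_lit 4) (nat_lit 326) (nat_lit 311) (nat_lit 308)) (XT.lf (nat_lit 0) (nat_lit 24381234) (nat_lit 504) (nat_lit 4406737990) (nat_lit 588) (nat_lit 2181899377) (nat_lit 263) (nat_lit 5) (nat_lit 269) (nat_lit 5) (nat_lit 270) (nat_lit 4) (nat_lit 327) (nat_lit 311) (nat_lit 307))))))))
noncomputable def xc16 : XT := (XT.nd (nat_lit 1504) (nat_lit 5124) (nat_lit 0) (XT.nd (nat_lit 752) (nat_lit 5712) (nat_lit 0) (XT.nd (nat_lit 376) (nat_lit 1680) (nat_lit 0) (XT.nd (nat_lit 188) (nat_lit 756) (nat_lit 0) (XT.nd (nat_lit 94) (nat_lit 588) (nat_lit 0) (XT.lf (nat_lit 0) (nat_lit 593585238) (nat_lit 588) (nat_lit 2984771452) (nat_lit 84) (nat_lit 3066795653) (nat_lit 262) (nat_lit 5) (nat_lit 269) (nat_lit 5) (nat_lit 263) (nat_lit 5) (nat_lit 328) (nat_lit 311) (nat_lit 306)) (XT.lf (nat_lit 0) (nat_lit 649044025) (nat_lit 588) (nat_lit 2670798698) (nat_lit 672) (nat_lit 3360691808) (nat_lit 255) (nat_lit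 5) (nat_lit 262) (nat_lit 5) (nat_lit 263) (nat_lit 5) (nat_lit 329) (nat_lit 311) (nat_lit 305))) (XT.nd (nat_lit 94) (nat_lit 756) (nat_lit 0) (XT.lf (nat_lit 0) (nat_lit 4384508930) (nat_lit 588) (nat_lit 1680747135) (nat_lit 672) (nat_lit 653866506) (nat_lit 255) (nat_lit 5) (nat_lit 262) (nat_lit 5) (nat_lit 263) (nat_lit 5) (nat_lit 330) (nat_lit 311) (nat_lit 304)) (XT.lf (nat_lit 0) (nat_lit 1411580800) (nat_lit 672) (nat_lit 603291956) (nat_lit 756) (nat_lit 4745959611) (nat_lit 246) (nat_lit 5) (nat_lit 254) (nat_lit 5) (nat_lit 255) (nat_lit 5) (nat_lit 331) (nat_lit 311) (nat_lit 303)))) (XT.nd (nat_lit 188) (nat_lit 840) (nat_lit 0) (XT.nd (nat_lit 94) (nat_lit 840) (nat_lit 0) (XT.lf (nat_lit 0) (nat_lit 4690202674) (nat_lit 756) (nat_lit 1567713624) (nat_lit 84) (nat_lit 547735731) (nat_lit 246) (nat_lit 5) (nat_lit 255) (nat_lit 5) (nat_lit 247) (nat_lit 5) (nat_lit 332) (nat_lit 311) (nat_lit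 302)) (XT.lf (nat_lit 0) (nat_lit 523216951) (nat_lit 840) (nat_lit 4561809860) (nat_lit 84) (nat_lit 1768622201) (nat_lit 236) (nat_lit 5) (nat_lit 246) (nat_lit 5) (nat_lit 237) (nat_lit 5) (nat_lit 333) (nat_lit 311) (nat_lit 301))) (XT.nd (nat_lit 94) (nat_lit 840) (nat_lit 0) (XT.lf (nat_lit 0) (nat_lit 3128896745) (nat_lit 840) (nat_lit 694647189) (nat_lit 84) (nat_lit 3081224756) (nat_lit 236) (nat_lit 5) (nat_lit 246) (nat_lit 5) (nat_lit 237) (nat_lit 5) (nat_lit 334) (nat_lit 311) (nat_lit 300)) (XT.lf (nat_lit 0) (nat_lit 3284417753) (nat_lit 840) (nat_lit 2476779030) (nat_lit 924) (nat_lit 1197987499) (nat_lit 226) (nat_lit 5) (nat_lit 236) (nat_lit 5) (nat_lit 237) (nat_lit 5) (nat_lit 335) (nat_lit 311) (nat_lit 299))))) (XT.nd (nat_lit 376) (nat_lit 3612) (nat_lit 0) (XT.nd (nat_lit 188) (nat_lit 1092) (nat_lit 0) (XT.nd (nat_lit 94) (nat_lit 0) (nat_lit 0) (XT.lf (nat_lit 0) (nat_lit 304560789)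 (nat_lit 924) (nat_lit 1051887438) (nat_lit 1008) (nat_lit 5660737791) (nat_lit 214) (nat_lit 5) (nat_lit 225) (nat_lit 5) (nat_lit 226) (nat_lit 5) (nat_lit 336) (nat_lit 311) (nat_lit 298)) (XT.lf (nat_lit 0) (nat_lit 3924402569) (nat_lit 1008) (nat_lit 2684870638) (nat_lit 84) (nat_lit 468667350) (nat_lit 214) (nat_lit 5) (nat_lit 226) (nat_lit 5) (nat_lit 215) (nat_lit 5) (nat_lit 337) (nat_lit 311) (nat_lit 297))) (XT.nd (nat_lit 94) (nat_lit 84) (nat_lit 0) (XT.lf (nat_lit 0) (nat_lit 1411497706) (nat_lit 1008) (nat_lit 5103717739) (nat_lit 1092) (nat_lit 627119442) (nat_lit 202) (nat_lit 5) (nat_lit 214) (nat_lit 5) (nat_lit 215) (nat_lit 5) (nat_lit 338) (nat_lit 311) (nat_lit 296)) (XT.lf (nat_lit 0) (nat_lit 1886443969) (nat_lit 1092) (nat_lit 1611698166) (nat_lit 84) (nat_lit 3711633281) (nat_lit 201) (nat_lit 5) (nat_lit 214) (nat_lit 5) (nat_lit 202) (nat_lit 5) (nat_lit 339) (nat_lit 311) (nat_lit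 295)))) (XT.nd (nat_lit 188) (nat_lit 2520) (nat_lit 0) (XT.nd (nat_lit 94) (nat_lit 0) (nat_lit 0) (XT.lf (nat_lit 0) (nat_lit 2607344235) (nat_lit 1092) (nat_lit 1805298951) (nat_lit 1176) (nat_lit 2868090180) (nat_lit 188) (nat_lit 5) (nat_lit 201) (nat_lit 5) (nat_lit 202) (nat_lit 5) (nat_lit 340) (nat_lit 311) (nat_lit 294)) (XT.lf (nat_lit 0) (nat_lit 6918325785) (nat_lit 1092) (nat_lit 38888258) (nat_lit 1176) (nat_lit 398498810) (nat_lit 188) (nat_lit 5) (nat_lit 201) (nat_lit 5) (nat_lit 202) (nat_lit 5) (nat_lit 341) (nat_lit 311) (nat_lit 293))) (XT.nd (nat_lit 94) (nat_lit 1260) (nat_lit 0) (XT.lf (nat_lit 0) (nat_lit 2086273003) (nat_lit 1260) (nat_lit 3537116234) (nat_lit 84) (nat_lit 1809605869) (nat_lit 173) (nat_lit 5) (nat_lit 188) (nat_lit 5) (nat_lit 174) (nat_lit 5) (nat_lit 342) (nat_lit 311) (nat_lit 292)) (XT.lf (nat_lit 0) (nat_lit 797873614) (nat_lit 1260) (nat_lit 3781316431) (nat_lit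 1344) (nat_lit 2935194982) (nat_lit 158) (nat_lit 5) (nat_lit 173) (nat_lit 5) (nat_lit 174) (nat_lit 5) (nat_lit 343) (nat_lit 311) (nat_lit 291)))))) (XT.nd (nat_lit 752) (nat_lit 2520) (nat_lit 0) (XT.nd (nat_lit 376) (nat_lit 1344) (nat_lit 0) (XT.nd (nat_lit 188) (nat_lit 588) (nat_lit 0) (XT.nd (nat_lit 94) (nat_lit 672) (nat_lit 0) (XT.lf (nat_lit 0) (nat_lit 5267129766) (nat_lit 1260) (nat_lit 1845987815) (nat_lit 1344) (nat_lit 486263745) (nat_lit 158) (nat_lit 5) (nat_lit 173) (nat_lit 5) (nat_lit 174) (nat_lit 5) (nat_lit 344) (nat_lit 311) (nat_lit 290)) (XT.lf (nat_lit 0) (nat_lit 1950489502) (nat_lit 672) (nat_lit 5551855964) (nat_lit 84) (nat_lit 185514962) (nat_lit 150) (nat_lit 5) (nat_lit 158) (nat_lit 5) (nat_lit 151) (nat_lit 5) (nat_lit 345) (nat_lit 311) (nat_lit 289))) (XT.nd (nat_lit 94) (nat_lit 588) (nat_lit 0) (XT.lf (nat_lit 0) (nat_lit 4425691960) (nat_lit 672) (nat_lit 1084778565)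 (nat_lit 84) (nat_lit 2269263868) (nat_lit 150) (nat_lit 5) (nat_lit 158) (nat_lit 5) (nat_lit 151) (nat_lit 5) (nat_lit 346) (nat_lit 311) (nat_lit 288)) (XT.lf (nat_lit 0) (nat_lit 3517688433) (nat_lit 588) (nat_lit 3426284560) (nat_lit 672) (nat_lit 931461400) (nat_lit 143) (nat_lit 5) (nat_lit 150) (nat_lit 5) (nat_lit 151) (nat_lit 5) (nat_lit 347) (nat_lit 311) (nat_lit 287)))) (XT.nd (nat_lit 188) (nat_lit 672) (nat_lit 0) (XT.nd (nat_lit 94) (nat_lit 0) (nat_lit 0) (XT.lf (nat_lit 0) (nat_lit 228083225) (nat_lit 588) (nat_lit 1253955520) (nat_lit 672) (nat_lit 6493179744) (nat_lit 135) (nat_lit 5) (nat_lit 142) (nat_lit 5) (nat_lit 143) (nat_lit 5) (nat_lit 348) (nat_lit 311) (nat_lit 286)) (XT.lf (nat_lit 0) (nat_lit 3939811105) (nat_lit 672) (nat_lit 3124303111) (nat_lit 84) (nat_lit 1014010639) (nat_lit 135) (nat_lit 5) (nat_lit 143) (nat_lit 5) (nat_lit 136) (nat_lit 5) (nat_lit 349) (nat_lit 311)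 (nat_lit 285))) (XT.nd (nat_lit 94) (nat_lit 84) (nat_lit 0) (XT.lf (nat_lit 0) (nat_lit 1588483554) (nat_lit 588) (nat_lit 4849055687) (nat_lit 672) (nat_lit 1747711988) (nat_lit 128) (nat_lit 5) (nat_lit 135) (nat_lit 5) (nat_lit 136) (nat_lit 5) (nat_lit 350) (nat_lit 311) (nat_lit 284)) (XT.lf (nat_lit 0) (nat_lit 671501243) (nat_lit 672) (nat_lit 1863106851) (nat_lit 84) (nat_lit 5761764716) (nat_lit 127) (nat_lit 5) (nat_lit 135) (nat_lit 5) (nat_lit 128) (nat_lit 5) (nat_lit 351) (nat_lit 311) (nat_lit 283))))) (XT.nd (nat_lit 376) (nat_lit 1008) (nat_lit 0) (XT.nd (nat_lit 188) (nat_lit 1008) (nat_lit 0) (XT.nd (nat_lit 94) (nat_lit 0) (nat_lit 0) (XT.lf (nat_lit 0) (nat_lit 2987558433) (nat_lit 504) (nat_lit 110077072) (nat_lit 588) (nat_lit 5313698608) (nat_lit 121) (nat_lit 5) (nat_lit 127) (nat_lit 5) (nat_lit 128) (nat_lit 5) (nat_lit 352) (nat_lit 311) (nat_lit 282)) (XT.lf (nat_lit 0) (nat_lit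 5580282771) (nat_lit 588) (nat_lit 597511360) (nat_lit 84) (nat_lit 2352544423) (nat_lit 121) (nat_lit 5) (nat_lit 128) (nat_lit 5) (nat_lit 122) (nat_lit 5) (nat_lit 353) (nat_lit 311) (nat_lit 281))) (XT.nd (nat_lit 94) (nat_lit 504) (nat_lit 0) (XT.lf (nat_lit 0) (nat_lit 4392995887) (nat_lit 504) (nat_lit 3731209124) (nat_lit 588) (nat_lit 529207327) (nat_lit 115) (nat_lit 5) (nat_lit 121) (nat_lit 5) (nat_lit 122) (nat_lit 5) (nat_lit 354) (nat_lit 311) (nat_lit 280)) (XT.lf (nat_lit 0) (nat_lit 694322851) (nat_lit 420) (nat_lit 1188237325) (nat_lit 504) (nat_lit 6898450162) (nat_lit 109) (nat_lit 5) (nat_lit 114) (nat_lit 5) (nat_lit 115) (nat_lit 5) (nat_lit 355) (nat_lit 311) (nat_lit 279)))) (XT.nd (nat_lit 188) (nat_lit 504) (nat_lit 0) (XT.nd (nat_lit 94) (nat_lit 504) (nat_lit 0) (XT.lf (nat_lit 0) (nat_lit 4358017189) (nat_lit 504) (nat_lit 3112290124) (nat_lit 84) (nat_lit 1442006913) (nat_lit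 109) (nat_lit 5) (nat_lit 115) (nat_lit 5) (nat_lit 110) (nat_lit 5) (nat_lit 356) (nat_lit 311) (nat_lit 278)) (XT.lf (nat_lit 0) (nat_lit 1973262725) (nat_lit 504) (nat_lit 4911586122) (nat_lit 588) (nat_lit 2163486639) (nat_lit 103) (nat_lit 5) (nat_lit 109) (nat_lit 5) (nat_lit 110) (nat_lit 5) (nat_lit 357) (nat_lit 311) (nat_lit 277))) (XT.nd (nat_lit 94) (nat_lit 420) (nat_lit 0) (XT.lf (nat_lit 0) (nat_lit 271665878) (nat_lit 588) (nat_lit 1980827815) (nat_lit 84) (nat_lit 6936590177) (nat_lit 102) (nat_lit 5) (nat_lit 109) (nat_lit 5) (nat_lit 103) (nat_lit 5) (nat_lit 358) (nat_lit 311) (nat_lit 276)) (XT.nd (nat_lit 94) (nat_lit 0) (nat_lit 0) (XT.lf (nat_lit 0) (nat_lit 2720929153) (nat_lit 504) (nat_lit 6094481892) (nat_lit 84) (nat_lit 518548647) (nat_lit 97) (nat_lit 5) (nat_lit 103) (nat_lit 5) (nat_lit 98) (nat_lit 5) (nat_lit 359) (nat_lit 311) (nat_lit 275)) (XT.lf (nat_lit 0) (nat_lit 5235226907)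 (nat_lit 504) (nat_lit 912379196) (nat_lit 84) (nat_lit 3335910358) (nat_lit 97) (nat_lit 5) (nat_lit 103) (nat_lit 5) (nat_lit 98) (nat_lit 5) (nat_lit 360) (nat_lit 311) (nat_lit 274))))))))
noncomputable def xc17 : XT := (XT.nd (nat_lit 56212) (nat_lit 0) (nat_lit 7056) (XT.nd (nat_lit 752) (nat_lit 0) (nat_lit 0) (XT.nd (nat_lit 376) (nat_lit 756) (nat_lit 0) (XT.nd (nat_lit 188) (nat_lit 420) (nat_lit 0) (XT.nd (nat_lit 94) (nat_lit 420) (nat_lit 0) (XT.lf (nat_lit 0) (nat_lit 4449591681) (nat_lit 420) (nat_lit 3368672109) (nat_lit 504) (nat_lit 1819575836) (nat_lit 92) (nat_lit 5) (nat_lit 97) (nat_lit 5) (nat_lit 98) (nat_lit 5) (nat_lit 361) (nat_lit 311) (nat_lit 273)) (XT.lf (nat_lit 0) (nat_lit 127587594) (nat_lit 336) (nat_lit 502462285) (nat_lit 420) (nat_lit 9167779633) (nat_lit 87) (nat_lit 5) (nat_lit 91) (nat_lit 5) (nat_lit 92) (nat_lit 5) (nat_lit 362) (nat_lit 311) (nat_lit 272))) (XT.nd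 (nat_lit 94) (nat_lit 420) (nat_lit 0) (XT.lf (nat_lit 0) (nat_lit 3144578964) (nat_lit 420) (nat_lit 4357513821) (nat_lit 84) (nat_lit 2459218550) (nat_lit 87) (nat_lit 5) (nat_lit 92) (nat_lit 5) (nat_lit 88) (nat_lit 5) (nat_lit 363) (nat_lit 311) (nat_lit 271)) (XT.lf (nat_lit 0) (nat_lit 1068692776) (nat_lit 420) (nat_lit 4634038824) (nat_lit 504) (nat_lit 4427990570) (nat_lit 82) (nat_lit 5) (nat_lit 87) (nat_lit 5) (nat_lit 88) (nat_lit 5) (nat_lit 364) (nat_lit 311) (nat_lit 270)))) (XT.nd (nat_lit 188) (nat_lit 336) (nat_lit 0) (XT.nd (nat_lit 94) (nat_lit 420) (nat_lit 0) (XT.lf (nat_lit 0) (nat_lit 6685833530) (nat_lit 420) (nat_lit 1649520124) (nat_lit 504) (nat_lit 1969998079) (nat_lit 82) (nat_lit 5) (nat_lit 87) (nat_lit 5) (nat_lit 88) (nat_lit 5) (nat_lit 365) (nat_lit 311) (nat_lit 269)) (XT.lf (nat_lit 0) (nat_lit 537951788) (nat_lit 420) (nat_lit 8540983780) (nat_lit 84) (nat_lit 1406571484)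 (nat_lit 77) (nat_lit 5) (nat_lit 82) (nat_lit 5) (nat_lit 78) (nat_lit 5) (nat_lit 366) (nat_lit 311) (nat_lit 268))) (XT.nd (nat_lit 94) (nat_lit 336) (nat_lit 0) (XT.lf (nat_lit 0) (nat_lit 3089953548) (nat_lit 420) (nat_lit 3017516484) (nat_lit 84) (nat_lit 4562821962) (nat_lit 77) (nat_lit 5) (nat_lit 82) (nat_lit 5) (nat_lit 78) (nat_lit 5) (nat_lit 367) (nat_lit 311) (nat_lit 267)) (XT.lf (nat_lit 0) (nat_lit 2664394506) (nat_lit 336) (nat_lit 3036203135) (nat_lit 420) (nat_lit 5160620921) (nat_lit 73) (nat_lit 5) (nat_lit 77) (nat_lit 5) (nat_lit 78) (nat_lit 5) (nat_lit 368) (nat_lit 311) (nat_lit 266))))) (XT.nd (nat_lit 55084) (nat_lit 0) (nat_lit 16464) (XT.nd (nat_lit 54896) (nat_lit 0) (nat_lit 17304) (XT.nd (nat_lit 54802) (nat_lit 0) (nat_lit 17640) (XT.lf (nat_lit 0) (nat_lit 8378578528) (nat_lit 420) (nat_lit 2539726863) (nat_lit 84) (nat_lit 139955794) (nat_lit 73) (nat_lit 5) (nat_lit 78)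 (nat_lit 5) (nat_lit 74) (nat_lit 5) (nat_lit 369) (nat_lit 311) (nat_lit 265)) (XT.lf (nat_lit 0) (nat_lit 1381680698) (nat_lit 252) (nat_lit 478015518) (nat_lit 0) (nat_lit 1381680698) (nat_lit 283) (nat_lit 5) (nat_lit 286) (nat_lit 4) (nat_lit 283) (nat_lit 4) (nat_lit 321) (nat_lit 312) (nat_lit 312))) (XT.nd (nat_lit 94) (nat_lit 84) (nat_lit 0) (XT.lf (nat_lit 0) (nat_lit 2342468781) (nat_lit 252) (nat_lit 3320657083) (nat_lit 252) (nat_lit 834870183) (nat_lit 280) (nat_lit 4) (nat_lit 283) (nat_lit 5) (nat_lit 283) (nat_lit 4) (nat_lit 322) (nat_lit 312) (nat_lit 311)) (XT.lf (nat_lit 0) (nat_lit 1998795677) (nat_lit 336) (nat_lit 841617015) (nat_lit 84) (nat_lit 3675874268) (nat_lit 279) (nat_lit 5) (nat_lit 283) (nat_lit 5) (nat_lit 280) (nat_lit 4) (nat_lit 323) (nat_lit 312) (nat_lit 310)))) (XT.nd (nat_lit 188) (nat_lit 420) (nat_lit 0) (XT.nd (nat_lit 94) (nat_lit 84) (nat_lit 0) (XT.lf (nat_lit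 0) (nat_lit 2548017471) (nat_lit 336) (nat_lit 2274781678) (nat_lit 420) (nat_lit 1714742684) (nat_lit 275) (nat_lit 5) (nat_lit 279) (nat_lit 5) (nat_lit 280) (nat_lit 4) (nat_lit 324) (nat_lit 312) (nat_lit 309)) (XT.lf (nat_lit 0) (nat_lit 1056475043) (nat_lit 420) (nat_lit 580770638) (nat_lit 84) (nat_lit 4924940624) (nat_lit 274) (nat_lit 5) (nat_lit 279) (nat_lit 5) (nat_lit 275) (nat_lit 5) (nat_lit 325) (nat_lit 312) (nat_lit 308))) (XT.nd (nat_lit 94) (nat_lit 0) (nat_lit 0) (XT.lf (nat_lit 0) (nat_lit 2905069438) (nat_lit 420) (nat_lit 900847247) (nat_lit 504) (nat_lit 2783556280) (nat_lit 269) (nat_lit 5) (nat_lit 274) (nat_lit 5) (nat_lit 275) (nat_lit 5) (nat_lit 326) (nat_lit 312) (nat_lit 307)) (XT.lf (nat_lit 0) (nat_lit 6443139117) (nat_lit 420) (nat_lit 104441437) (nat_lit 504) (nat_lit 72995544) (nat_lit 269) (nat_lit 5) (nat_lit 274) (nat_lit 5) (nat_lit 275) (nat_lit 5) (nat_lit 327) (nat_lit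 312) (nat_lit 306)))))) (XT.nd (nat_lit 752) (nat_lit 5712) (nat_lit 0) (XT.nd (nat_lit 376) (nat_lit 1764) (nat_lit 0) (XT.nd (nat_lit 188) (nat_lit 756) (nat_lit 0) (XT.nd (nat_lit 94) (nat_lit 588) (nat_lit 0) (XT.lf (nat_lit 0) (nat_lit 2611838733) (nat_lit 588) (nat_lit 3251084369) (nat_lit 84) (nat_lit 790798192) (nat_lit 262) (nat_lit 5) (nat_lit 269) (nat_lit 5) (nat_lit 263) (nat_lit 5) (nat_lit 328) (nat_lit 312) (nat_lit 305)) (XT.lf (nat_lit 0) (nat_lit 343662522) (nat_lit 588) (nat_lit 4946122191) (nat_lit 672) (nat_lit 1400898870) (nat_lit 255) (nat_lit 5) (nat_lit 262) (nat_lit 5) (nat_lit 263) (nat_lit 5) (nat_lit 329) (nat_lit 312) (nat_lit 304))) (XT.nd (nat_lit 94) (nat_lit 672) (nat_lit 0) (XT.lf (nat_lit 0) (nat_lit 1235509823) (nat_lit 672) (nat_lit 2696499959) (nat_lit 84) (nat_lit 2798356486) (nat_lit 254) (nat_lit 5) (nat_lit 262) (nat_lit 5) (nat_lit 255) (nat_lit 5) (nat_lit 330)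 (nat_lit 312) (nat_lit 303)) (XT.lf (nat_lit 0) (nat_lit 1002610777) (nat_lit 672) (nat_lit 2841323205) (nat_lit 756) (nat_lit 2929499854) (nat_lit 246) (nat_lit 5) (nat_lit 254) (nat_lit 5) (nat_lit 255) (nat_lit 5) (nat_lit 331) (nat_lit 312) (nat_lit 302)))) (XT.nd (nat_lit 188) (nat_lit 924) (nat_lit 0) (XT.nd (nat_lit 94) (nat_lit 840) (nat_lit 0) (XT.lf (nat_lit 0) (nat_lit 4802003321) (nat_lit 672) (nat_lit 1669224322) (nat_lit 756) (nat_lit 348583116) (nat_lit 246) (nat_lit 5) (nat_lit 254) (nat_lit 5) (nat_lit 255) (nat_lit 5) (nat_lit 332) (nat_lit 312) (nat_lit 301)) (XT.lf (nat_lit 0) (nat_lit 1794653331) (nat_lit 756) (nat_lit 402140383) (nat_lit 840) (nat_lit 4672378354) (nat_lit 236) (nat_lit 5) (nat_lit 245) (nat_lit 5) (nat_lit 246) (nat_lit 5) (nat_lit 333) (nat_lit 312) (nat_lit 300))) (XT.nd (nat_lit 94) (nat_lit 924) (nat_lit 0) (XT.lf (nat_lit 0) (nat_lit 4757661099) (nat_lit 840) (nat_lit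 1237088194) (nat_lit 84) (nat_lit 926993138) (nat_lit 236) (nat_lit 5) (nat_lit 246) (nat_lit 5) (nat_lit 237) (nat_lit 5) (nat_lit 334) (nat_lit 312) (nat_lit 299)) (XT.lf (nat_lit 0) (nat_lit 359785685) (nat_lit 924) (nat_lit 4283237563) (nat_lit 84) (nat_lit 2334493934) (nat_lit 225) (nat_lit 5) (nat_lit 236) (nat_lit 5) (nat_lit 226) (nat_lit 5) (nat_lit 335) (nat_lit 312) (nat_lit 298))))) (XT.nd (nat_lit 376) (nat_lit 3696) (nat_lit 0) (XT.nd (nat_lit 188) (nat_lit 1092) (nat_lit 0) (XT.nd (nat_lit 94) (nat_lit 924) (nat_lit 0) (XT.lf (nat_lit 0) (nat_lit 2848526509) (nat_lit 924) (nat_lit 354549724) (nat_lit 84) (nat_lit 3833464042) (nat_lit 225) (nat_lit 5) (nat_lit 236) (nat_lit 5) (nat_lit 226) (nat_lit 5) (nat_lit 336) (nat_lit 312) (nat_lit 297)) (XT.lf (nat_lit 0) (nat_lit 3698780480) (nat_lit 924) (nat_lit 1671070847) (nat_lit 1008) (nat_lit 1728936831) (nat_lit 214) (nat_lit 5) (nat_lit 225)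 (nat_lit 5) (nat_lit 226) (nat_lit 5) (nat_lit 337) (nat_lit 312) (nat_lit 296))) (XT.nd (nat_lit 94) (nat_lit 0) (nat_lit 0) (XT.lf (nat_lit 0) (nat_lit 656769772) (nat_lit 1008) (nat_lit 64454974) (nat_lit 1092) (nat_lit 6443637660) (nat_lit 201) (nat_lit 5) (nat_lit 213) (nat_lit 5) (nat_lit 214) (nat_lit 5) (nat_lit 338) (nat_lit 312) (nat_lit 295)) (XT.lf (nat_lit 0) (nat_lit 3184872103) (nat_lit 1092) (nat_lit 2428027496) (nat_lit 84) (nat_lit 1620439293) (nat_lit 201) (nat_lit 5) (nat_lit 214) (nat_lit 5) (nat_lit 202) (nat_lit 5) (nat_lit 339) (nat_lit 312) (nat_lit 294)))) (XT.nd (nat_lit 188) (nat_lit 2520) (nat_lit 0) (XT.nd (nat_lit 94) (nat_lit 84) (nat_lit 0) (XT.lf (nat_lit 0) (nat_lit 1741433200) (nat_lit 1092) (nat_lit 3925334730) (nat_lit 1176) (nat_lit 1638941939) (nat_lit 188) (nat_lit 5) (nat_lit 201) (nat_lit 5) (nat_lit 202) (nat_lit 5) (nat_lit 340) (nat_lit 312) (nat_lit 293)) (XT.lf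 (nat_lit 0) (nat_lit 778768761) (nat_lit 1176) (nat_lit 1369412586) (nat_lit 84) (nat_lit 5233417727) (nat_lit 187) (nat_lit 5) (nat_lit 201) (nat_lit 5) (nat_lit 188) (nat_lit 5) (nat_lit 341) (nat_lit 312) (nat_lit 292))) (XT.nd (nat_lit 94) (nat_lit 1344) (nat_lit 0) (XT.lf (nat_lit 0) (nat_lit 2926842603) (nat_lit 1176) (nat_lit 267057241) (nat_lit 1260) (nat_lit 4266799306) (nat_lit 173) (nat_lit 5) (nat_lit 187) (nat_lit 5) (nat_lit 188) (nat_lit 5) (nat_lit 342) (nat_lit 312) (nat_lit 291)) (XT.nd (nat_lit 94) (nat_lit 1344) (nat_lit 0) (XT.lf (nat_lit 0) (nat_lit 5642669528) (nat_lit 1260) (nat_lit 244853307) (nat_lit 84) (nat_lit 1655965223) (nat_lit 173) (nat_lit 5) (nat_lit 188) (nat_lit 5) (nat_lit 174) (nat_lit 5) (nat_lit 343) (nat_lit 312) (nat_lit 290)) (XT.lf (nat_lit 0) (nat_lit 501355838) (nat_lit 1344) (nat_lit 3447672310) (nat_lit 84) (nat_lit 3680450271) (nat_lit 157) (nat_lit 5) (nat_lit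 173) (nat_lit 5) (nat_lit 158) (nat_lit 5) (nat_lit 344) (nat_lit 312) (nat_lit 289))))))))
noncomputable def xc18 : XT := (XT.nd (nat_lit 1504) (nat_lit 2016) (nat_lit 0) (XT.nd (nat_lit 752) (nat_lit 2016) (nat_lit 0) (XT.nd (nat_lit 376) (nat_lit 1764) (nat_lit 0) (XT.nd (nat_lit 188) (nat_lit 672) (nat_lit 0) (XT.nd (nat_lit 94) (nat_lit 0) (nat_lit 0) (XT.lf (nat_lit 0) (nat_lit 962417469) (nat_lit 588) (nat_lit 1920427635) (nat_lit 672) (nat_lit 4836413684) (nat_lit 150) (nat_lit 5) (nat_lit 157) (nat_lit 5) (nat_lit 158) (nat_lit 5) (nat_lit 345) (nat_lit 312) (nat_lit 288)) (XT.lf (nat_lit 0) (nat_lit 5307571635) (nat_lit 672) (nat_lit 2304439306) (nat_lit 84) (nat_lit 200702341) (nat_lit 150) (nat_lit 5) (nat_lit 158) (nat_lit 5) (nat_lit 151) (nat_lit 5) (nat_lit 346) (nat_lit 312) (nat_lit 287))) (XT.nd (nat_lit 94) (nat_lit 84) (nat_lit 0) (XT.lf (nat_lit 0) (nat_lit 2240943200) (nat_lit 588) (nat_lit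 5541553504) (nat_lit 672) (nat_lit 127281580) (nat_lit 143) (nat_lit 5) (nat_lit 150) (nat_lit 5) (nat_lit 151) (nat_lit 5) (nat_lit 347) (nat_lit 312) (nat_lit 286)) (XT.lf (nat_lit 0) (nat_lit 2237486606) (nat_lit 672) (nat_lit 1127716633) (nat_lit 84) (nat_lit 4645179048) (nat_lit 142) (nat_lit 5) (nat_lit 150) (nat_lit 5) (nat_lit 143) (nat_lit 5) (nat_lit 348) (nat_lit 312) (nat_lit 285)))) (XT.nd (nat_lit 188) (nat_lit 588) (nat_lit 0) (XT.nd (nat_lit 94) (nat_lit 588) (nat_lit 0) (XT.lf (nat_lit 0) (nat_lit 3553606810) (nat_lit 588) (nat_lit 1090396618) (nat_lit 672) (nat_lit 3470881755) (nat_lit 135) (nat_lit 5) (nat_lit 142) (nat_lit 5) (nat_lit 143) (nat_lit 5) (nat_lit 349) (nat_lit 312) (nat_lit 284)) (XT.lf (nat_lit 0) (nat_lit 100766249) (nat_lit 588) (nat_lit 6986787779) (nat_lit 672) (nat_lit 1136140004) (nat_lit 128) (nat_lit 5) (nat_lit 135) (nat_lit 5) (nat_lit 136) (nat_lit 5) (nat_lit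 350) (nat_lit 312) (nat_lit 283))) (XT.nd (nat_lit 94) (nat_lit 504) (nat_lit 0) (XT.lf (nat_lit 0) (nat_lit 1241953873) (nat_lit 672) (nat_lit 3427657739) (nat_lit 84) (nat_lit 3665957067) (nat_lit 127) (nat_lit 5) (nat_lit 135) (nat_lit 5) (nat_lit 128) (nat_lit 5) (nat_lit 351) (nat_lit 312) (nat_lit 282)) (XT.lf (nat_lit 0) (nat_lit 1359676683) (nat_lit 504) (nat_lit 2264427934) (nat_lit 588) (nat_lit 4827797171) (nat_lit 121) (nat_lit 5) (nat_lit 127) (nat_lit 5) (nat_lit 128) (nat_lit 5) (nat_lit 352) (nat_lit 312) (nat_lit 281))))) (XT.nd (nat_lit 376) (nat_lit 1008) (nat_lit 0) (XT.nd (nat_lit 188) (nat_lit 504) (nat_lit 0) (XT.nd (nat_lit 94) (nat_lit 504) (nat_lit 0) (XT.lf (nat_lit 0) (nat_lit 6058199359) (nat_lit 588) (nat_lit 2277359385) (nat_lit 84) (nat_lit 236854838) (nat_lit 121) (nat_lit 5) (nat_lit 128) (nat_lit 5) (nat_lit 122) (nat_lit 5) (nat_lit 353) (nat_lit 312) (nat_lit 280)) (XT.lf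 (nat_lit 0) (nat_lit 2647922834) (nat_lit 504) (nat_lit 5910391448) (nat_lit 588) (nat_lit 138536602) (nat_lit 115) (nat_lit 5) (nat_lit 121) (nat_lit 5) (nat_lit 122) (nat_lit 5) (nat_lit 354) (nat_lit 312) (nat_lit 279))) (XT.nd (nat_lit 94) (nat_lit 420) (nat_lit 0) (XT.lf (nat_lit 0) (nat_lit 2232081573) (nat_lit 588) (nat_lit 1142940476) (nat_lit 84) (nat_lit 5450366419) (nat_lit 114) (nat_lit 5) (nat_lit 121) (nat_lit 5) (nat_lit 115) (nat_lit 5) (nat_lit 355) (nat_lit 312) (nat_lit 278)) (XT.lf (nat_lit 0) (nat_lit 3923436145) (nat_lit 420) (nat_lit 732390896) (nat_lit 504) (nat_lit 4302461776) (nat_lit 109) (nat_lit 5) (nat_lit 114) (nat_lit 5) (nat_lit 115) (nat_lit 5) (nat_lit 356) (nat_lit 312) (nat_lit 277)))) (XT.nd (nat_lit 188) (nat_lit 420) (nat_lit 0) (XT.nd (nat_lit 94) (nat_lit 588) (nat_lit 0) (XT.lf (nat_lit 0) (nat_lit 7131004886) (nat_lit 504) (nat_lit 11764748) (nat_lit 84) (nat_lit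 1953133857) (nat_lit 109) (nat_lit 5) (nat_lit 115) (nat_lit 5) (nat_lit 110) (nat_lit 5) (nat_lit 357) (nat_lit 312) (nat_lit 276)) (XT.lf (nat_lit 0) (nat_lit 440777598) (nat_lit 588) (nat_lit 4046812917) (nat_lit 84) (nat_lit 4749813412) (nat_lit 102) (nat_lit 5) (nat_lit 109) (nat_lit 5) (nat_lit 103) (nat_lit 5) (nat_lit 358) (nat_lit 312) (nat_lit 275))) (XT.nd (nat_lit 94) (nat_lit 0) (nat_lit 0) (XT.lf (nat_lit 0) (nat_lit 1106673971) (nat_lit 420) (nat_lit 1732988550) (nat_lit 504) (nat_lit 6544168662) (nat_lit 97) (nat_lit 5) (nat_lit 102) (nat_lit 5) (nat_lit 103) (nat_lit 5) (nat_lit 359) (nat_lit 312) (nat_lit 274)) (XT.lf (nat_lit 0) (nat_lit 5312936212) (nat_lit 504) (nat_lit 3109145951) (nat_lit 84) (nat_lit 1112575428) (nat_lit 97) (nat_lit 5) (nat_lit 103) (nat_lit 5) (nat_lit 98) (nat_lit 5) (nat_lit 360) (nat_lit 312) (nat_lit 273)))))) (XT.nd (nat_lit 752) (nat_lit 336) (nat_lit 0) (XT.nd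 (nat_lit 376) (nat_lit 840) (nat_lit 0) (XT.nd (nat_lit 188) (nat_lit 336) (nat_lit 0) (XT.nd (nat_lit 94) (nat_lit 84) (nat_lit 0) (XT.lf (nat_lit 0) (nat_lit 2178656452) (nat_lit 420) (nat_lit 5671831183) (nat_lit 504) (nat_lit 1839895466) (nat_lit 92) (nat_lit 5) (nat_lit 97) (nat_lit 5) (nat_lit 98) (nat_lit 5) (nat_lit 361) (nat_lit 312) (nat_lit 272)) (XT.lf (nat_lit 0) (nat_lit 585383133) (nat_lit 504) (nat_lit 2228250789) (nat_lit 84) (nat_lit 7037522847) (nat_lit 91) (nat_lit 5) (nat_lit 97) (nat_lit 5) (nat_lit 92) (nat_lit 5) (nat_lit 362) (nat_lit 312) (nat_lit 271))) (XT.nd (nat_lit 94) (nat_lit 0) (nat_lit 0) (XT.lf (nat_lit 0) (nat_lit 3032451607) (nat_lit 420) (nat_lit 6819683438) (nat_lit 84) (nat_lit 164561942) (nat_lit 87) (nat_lit 5) (nat_lit 92) (nat_lit 5) (nat_lit 88) (nat_lit 5) (nat_lit 363) (nat_lit 312) (nat_lit 270)) (XT.lf (nat_lit 0) (nat_lit 5557824202) (nat_lit 420) (nat_lit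 1443879172) (nat_lit 84) (nat_lit 3185421419) (nat_lit 87) (nat_lit 5) (nat_lit 92) (nat_lit 5) (nat_lit 88) (nat_lit 5) (nat_lit 364) (nat_lit 312) (nat_lit 269)))) (XT.nd (nat_lit 188) (nat_lit 336) (nat_lit 0) (XT.nd (nat_lit 94) (nat_lit 84) (nat_lit 0) (XT.lf (nat_lit 0) (nat_lit 4115266955) (nat_lit 420) (nat_lit 4038890803) (nat_lit 504) (nat_lit 2208717844) (nat_lit 82) (nat_lit 5) (nat_lit 87) (nat_lit 5) (nat_lit 88) (nat_lit 5) (nat_lit 365) (nat_lit 312) (nat_lit 268)) (XT.lf (nat_lit 0) (nat_lit 249539957) (nat_lit 504) (nat_lit 734160288) (nat_lit 84) (nat_lit 9561060749) (nat_lit 81) (nat_lit 5) (nat_lit 87) (nat_lit 5) (nat_lit 82) (nat_lit 5) (nat_lit 366) (nat_lit 312) (nat_lit 267))) (XT.nd (nat_lit 94) (nat_lit 0) (nat_lit 0) (XT.lf (nat_lit 0) (nat_lit 2763373767) (nat_lit 420) (nat_lit 5789942258) (nat_lit 84) (nat_lit 2177404775) (nat_lit 77) (nat_lit 5) (nat_lit 82) (nat_lit 5) (nat_lit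 78) (nat_lit 5) (nat_lit 367) (nat_lit 312) (nat_lit 266)) (XT.lf (nat_lit 0) (nat_lit 5327587518) (nat_lit 420) (nat_lit 188361361) (nat_lit 84) (nat_lit 5407120356) (nat_lit 77) (nat_lit 5) (nat_lit 82) (nat_lit 5) (nat_lit 78) (nat_lit 5) (nat_lit 368) (nat_lit 312) (nat_lit 265))))) (XT.nd (nat_lit 54896) (nat_lit 0) (nat_lit 16464) (XT.nd (nat_lit 54708) (nat_lit 0) (nat_lit 17640) (XT.nd (nat_lit 54614) (nat_lit 0) (nat_lit 17892) (XT.lf (nat_lit 0) (nat_lit 5635382639) (nat_lit 336) (nat_lit 2346485051) (nat_lit 420) (nat_lit 3138983304) (nat_lit 73) (nat_lit 5) (nat_lit 77) (nat_lit 5) (nat_lit 78) (nat_lit 5) (nat_lit 369) (nat_lit 312) (nat_lit 264)) (XT.lf (nat_lit 0) (nat_lit 2796247982) (nat_lit 84) (nat_lit 216960607) (nat_lit 84) (nat_lit 216960607) (nat_lit 286) (nat_lit 4) (nat_lit 287) (nat_lit 5) (nat_lit 287) (nat_lit 4) (nat_lit 319) (nat_lit 313) (nat_lit 313))) (XT.nd (nat_lit 94) (nat_lit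 0) (nat_lit 0) (XT.lf (nat_lit 0) (nat_lit 2291916495) (nat_lit 168) (nat_lit 136205582) (nat_lit 252) (nat_lit 4042588646) (nat_lit 283) (nat_lit 5) (nat_lit 285) (nat_lit 5) (nat_lit 286) (nat_lit 4) (nat_lit 320) (nat_lit 313) (nat_lit 312)) (XT.lf (nat_lit 0) (nat_lit 5271224777) (nat_lit 252) (nat_lit 988202318) (nat_lit 0) (nat_lit 225077370) (nat_lit 283) (nat_lit 5) (nat_lit 286) (nat_lit 4) (nat_lit 283) (nat_lit 4) (nat_lit 321) (nat_lit 313) (nat_lit 311)))) (XT.nd (nat_lit 188) (nat_lit 840) (nat_lit 0) (XT.nd (nat_lit 94) (nat_lit 0) (nat_lit 0) (XT.lf (nat_lit 0) (nat_lit 1586362828) (nat_lit 336) (nat_lit 4239216205) (nat_lit 84) (nat_lit 675419368) (nat_lit 279) (nat_lit 5) (nat_lit 283) (nat_lit 5) (nat_lit 280) (nat_lit 4) (nat_lit 322) (nat_lit 313) (nat_lit 310)) (XT.lf (nat_lit 0) (nat_lit 4353301205) (nat_lit 336) (nat_lit 965423862) (nat_lit 84) (nat_lit 1201997384) (nat_lit 279) (nat_lit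 5) (nat_lit 283) (nat_lit 5) (nat_lit 280) (nat_lit 4) (nat_lit 323) (nat_lit 313) (nat_lit 309))) (XT.nd (nat_lit 94) (nat_lit 420) (nat_lit 0) (XT.lf (nat_lit 0) (nat_lit 571790475) (nat_lit 420) (nat_lit 4159285199) (nat_lit 84) (nat_lit 1812404196) (nat_lit 274) (nat_lit 5) (nat_lit 279) (nat_lit 5) (nat_lit 275) (nat_lit 5) (nat_lit 324) (nat_lit 313) (nat_lit 308)) (XT.nd (nat_lit 94) (nat_lit 420) (nat_lit 0) (XT.lf (nat_lit 0) (nat_lit 3261087647) (nat_lit 420) (nat_lit 798978659) (nat_lit 84) (nat_lit 2509164498) (nat_lit 274) (nat_lit 5) (nat_lit 279) (nat_lit 5) (nat_lit 275) (nat_lit 5) (nat_lit 325) (nat_lit 313) (nat_lit 307)) (XT.lf (nat_lit 0) (nat_lit 2650867995) (nat_lit 420) (nat_lit 3310169454) (nat_lit 504) (nat_lit 637107648) (nat_lit 269) (nat_lit 5) (nat_lit 274) (nat_lit 5) (nat_lit 275) (nat_lit 5) (nat_lit 326) (nat_lit 313) (nat_lit 306))))))))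
noncomputable def xc19 : XT := (XT.nd (nat_lit 1598) (nat_lit 6384) (nat_lit 0) (XT.nd (nat_lit 752) (nat_lit 5292) (nat_lit 0) (XT.nd (nat_lit 376) (nat_lit 1512) (nat_lit 0) (XT.nd (nat_lit 188) (nat_lit 672) (nat_lit 0) (XT.nd (nat_lit 94) (nat_lit 504) (nat_lit 0) (XT.lf (nat_lit 0) (nat_lit 1986428011) (nat_lit 504) (nat_lit 492032050) (nat_lit 84) (nat_lit 4151721843) (nat_lit 268) (nat_lit 5) (nat_lit 274) (nat_lit 5) (nat_lit 269) (nat_lit 5) (nat_lit 327) (nat_lit 313) (nat_lit 305)) (XT.lf (nat_lit 0) (nat_lit 3057572143) (nat_lit 504) (nat_lit 1555910793) (nat_lit 588) (nat_lit 2051644517) (nat_lit 262) (nat_lit 5) (nat_lit 268) (nat_lit 5) (nat_lit 269) (nat_lit 5) (nat_lit 328) (nat_lit 313) (nat_lit 304))) (XT.nd (nat_lit 94) (nat_lit 588) (nat_lit 0) (XT.lf (nat_lit 0) (nat_lit 520345083) (nat_lit 588) (nat_lit 47311882) (nat_lit 84) (nat_lit 6136110889) (nat_lit 261) (nat_lit 5) (nat_lit 268)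 (nat_lit 5) (nat_lit 262) (nat_lit 5) (nat_lit 329) (nat_lit 313) (nat_lit 303)) (XT.lf (nat_lit 0) (nat_lit 3079867551) (nat_lit 672) (nat_lit 3142337051) (nat_lit 84) (nat_lit 522448098) (nat_lit 254) (nat_lit 5) (nat_lit 262) (nat_lit 5) (nat_lit 255) (nat_lit 5) (nat_lit 330) (nat_lit 313) (nat_lit 302)))) (XT.nd (nat_lit 188) (nat_lit 756) (nat_lit 0) (XT.nd (nat_lit 94) (nat_lit 84) (nat_lit 0) (XT.lf (nat_lit 0) (nat_lit 515404534) (nat_lit 672) (nat_lit 5125849926) (nat_lit 756) (nat_lit 1147993098) (nat_lit 246) (nat_lit 5) (nat_lit 254) (nat_lit 5) (nat_lit 255) (nat_lit 5) (nat_lit 331) (nat_lit 313) (nat_lit 301)) (XT.lf (nat_lit 0) (nat_lit 1363017824) (nat_lit 756) (nat_lit 2567095450) (nat_lit 84) (nat_lit 2906465816) (nat_lit 245) (nat_lit 5) (nat_lit 254) (nat_lit 5) (nat_lit 246) (nat_lit 5) (nat_lit 332) (nat_lit 313) (nat_lit 300))) (XT.nd (nat_lit 94) (nat_lit 0) (nat_lit 0) (XT.lf (nat_lit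 0) (nat_lit 1198840588) (nat_lit 756) (nat_lit 2656302003) (nat_lit 840) (nat_lit 3032197097) (nat_lit 236) (nat_lit 5) (nat_lit 245) (nat_lit 5) (nat_lit 246) (nat_lit 5) (nat_lit 333) (nat_lit 313) (nat_lit 299)) (XT.lf (nat_lit 0) (nat_lit 5066964114) (nat_lit 756) (nat_lit 1300120875) (nat_lit 840) (nat_lit 574396032) (nat_lit 236) (nat_lit 5) (nat_lit 245) (nat_lit 5) (nat_lit 246) (nat_lit 5) (nat_lit 334) (nat_lit 313) (nat_lit 298))))) (XT.nd (nat_lit 376) (nat_lit 3360) (nat_lit 0) (XT.nd (nat_lit 188) (nat_lit 1008) (nat_lit 0) (XT.nd (nat_lit 94) (nat_lit 0) (nat_lit 0) (XT.lf (nat_lit 0) (nat_lit 1860251539) (nat_lit 924) (nat_lit 4989180635) (nat_lit 84) (nat_lit 149208429) (nat_lit 225) (nat_lit 5) (nat_lit 236) (nat_lit 5) (nat_lit 226) (nat_lit 5) (nat_lit 335) (nat_lit 313) (nat_lit 297)) (XT.lf (nat_lit 0) (nat_lit 4310749422) (nat_lit 924) (nat_lit 1092706982) (nat_lit 84) (nat_lit 1655449038)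 (nat_lit 225) (nat_lit 5) (nat_lit 236) (nat_lit 5) (nat_lit 226) (nat_lit 5) (nat_lit 336) (nat_lit 313) (nat_lit 296))) (XT.nd (nat_lit 94) (nat_lit 84) (nat_lit 0) (XT.lf (nat_lit 0) (nat_lit 2914034083) (nat_lit 924) (nat_lit 3873367627) (nat_lit 1008) (nat_lit 335183501) (nat_lit 214) (nat_lit 5) (nat_lit 225) (nat_lit 5) (nat_lit 226) (nat_lit 5) (nat_lit 337) (nat_lit 313) (nat_lit 295)) (XT.lf (nat_lit 0) (nat_lit 2044675167) (nat_lit 1008) (nat_lit 209775200) (nat_lit 84) (nat_lit 4935186779) (nat_lit 213) (nat_lit 5) (nat_lit 225) (nat_lit 5) (nat_lit 214) (nat_lit 5) (nat_lit 338) (nat_lit 313) (nat_lit 294)))) (XT.nd (nat_lit 188) (nat_lit 1260) (nat_lit 0) (XT.nd (nat_lit 94) (nat_lit 1092) (nat_lit 0) (XT.lf (nat_lit 0) (nat_lit 3919478422) (nat_lit 1008) (nat_lit 534877388) (nat_lit 1092) (nat_lit 2805460748) (nat_lit 201) (nat_lit 5) (nat_lit 213) (nat_lit 5) (nat_lit 214) (nat_lit 5) (nat_lit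 339) (nat_lit 313) (nat_lit 293)) (XT.lf (nat_lit 0) (nat_lit 783845461) (nat_lit 1092) (nat_lit 6103127919) (nat_lit 1176) (nat_lit 446773986) (nat_lit 188) (nat_lit 5) (nat_lit 201) (nat_lit 5) (nat_lit 202) (nat_lit 5) (nat_lit 340) (nat_lit 313) (nat_lit 292))) (XT.nd (nat_lit 94) (nat_lit 1176) (nat_lit 0) (XT.lf (nat_lit 0) (nat_lit 1913040499) (nat_lit 1176) (nat_lit 2398685309) (nat_lit 84) (nat_lit 3098682753) (nat_lit 187) (nat_lit 5) (nat_lit 201) (nat_lit 5) (nat_lit 188) (nat_lit 5) (nat_lit 341) (nat_lit 313) (nat_lit 291)) (XT.nd (nat_lit 94) (nat_lit 0) (nat_lit 0) (XT.lf (nat_lit 0) (nat_lit 1845213260) (nat_lit 1176) (nat_lit 2438937035) (nat_lit 1260) (nat_lit 3206753548) (nat_lit 173) (nat_lit 5) (nat_lit 187) (nat_lit 5) (nat_lit 188) (nat_lit 5) (nat_lit 342) (nat_lit 313) (nat_lit 290)) (XT.lf (nat_lit 0) (nat_lit 6202783648) (nat_lit 1176) (nat_lit 480959262) (nat_lit 1260) (nat_lit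 891497549) (nat_lit 173) (nat_lit 5) (nat_lit 187) (nat_lit 5) (nat_lit 188) (nat_lit 5) (nat_lit 343) (nat_lit 313) (nat_lit 289))))))) (XT.nd (nat_lit 752) (nat_lit 2520) (nat_lit 0) (XT.nd (nat_lit 376) (nat_lit 1260) (nat_lit 0) (XT.nd (nat_lit 188) (nat_lit 1260) (nat_lit 0) (XT.nd (nat_lit 94) (nat_lit 0) (nat_lit 0) (XT.lf (nat_lit 0) (nat_lit 1442536461) (nat_lit 1344) (nat_lit 4667198718) (nat_lit 84) (nat_lit 1552726159) (nat_lit 157) (nat_lit 5) (nat_lit 173) (nat_lit 5) (nat_lit 158) (nat_lit 5) (nat_lit 344) (nat_lit 313) (nat_lit 288)) (XT.lf (nat_lit 0) (nat_lit 3783068355) (nat_lit 1344) (nat_lit 307372524) (nat_lit 84) (nat_lit 3663095801) (nat_lit 157) (nat_lit 5) (nat_lit 173) (nat_lit 5) (nat_lit 158) (nat_lit 5) (nat_lit 345) (nat_lit 313) (nat_lit 287))) (XT.nd (nat_lit 94) (nat_lit 672) (nat_lit 0) (XT.lf (nat_lit 0) (nat_lit 4203218674) (nat_lit 588) (nat_lit 1968512867) (nat_lit 672)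 (nat_lit 1676405857) (nat_lit 150) (nat_lit 5) (nat_lit 157) (nat_lit 5) (nat_lit 158) (nat_lit 5) (nat_lit 346) (nat_lit 313) (nat_lit 286)) (XT.lf (nat_lit 0) (nat_lit 624724649) (nat_lit 672) (nat_lit 7092030926) (nat_lit 84) (nat_lit 230196420) (nat_lit 142) (nat_lit 5) (nat_lit 150) (nat_lit 5) (nat_lit 143) (nat_lit 5) (nat_lit 347) (nat_lit 313) (nat_lit 285)))) (XT.nd (nat_lit 188) (nat_lit 672) (nat_lit 0) (XT.nd (nat_lit 94) (nat_lit 588) (nat_lit 0) (XT.lf (nat_lit 0) (nat_lit 2957060533) (nat_lit 672) (nat_lit 2583718257) (nat_lit 84) (nat_lit 2507697824) (nat_lit 142) (nat_lit 5) (nat_lit 150) (nat_lit 5) (nat_lit 143) (nat_lit 5) (nat_lit 348) (nat_lit 313) (nat_lit 284)) (XT.lf (nat_lit 0) (nat_lit 2037355255) (nat_lit 588) (nat_lit 3282570670) (nat_lit 672) (nat_lit 2834420278) (nat_lit 135) (nat_lit 5) (nat_lit 142) (nat_lit 5) (nat_lit 143) (nat_lit 5) (nat_lit 349) (nat_lit 313) (nat_lit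 283))) (XT.nd (nat_lit 94) (nat_lit 672) (nat_lit 0) (XT.lf (nat_lit 0) (nat_lit 6788390231) (nat_lit 588) (nat_lit 933479365) (nat_lit 672) (nat_lit 542589148) (nat_lit 135) (nat_lit 5) (nat_lit 142) (nat_lit 5) (nat_lit 143) (nat_lit 5) (nat_lit 350) (nat_lit 313) (nat_lit 282)) (XT.lf (nat_lit 0) (nat_lit 1771999377) (nat_lit 672) (nat_lit 5103222155) (nat_lit 84) (nat_lit 1502550684) (nat_lit 127) (nat_lit 5) (nat_lit 135) (nat_lit 5) (nat_lit 128) (nat_lit 5) (nat_lit 351) (nat_lit 313) (nat_lit 281))))) (XT.nd (nat_lit 376) (nat_lit 1428) (nat_lit 0) (XT.nd (nat_lit 188) (nat_lit 588) (nat_lit 0) (XT.nd (nat_lit 94) (nat_lit 504) (nat_lit 0) (XT.lf (nat_lit 0) (nat_lit 4113570055) (nat_lit 672) (nat_lit 373065577) (nat_lit 84) (nat_lit 4008737870) (nat_lit 127) (nat_lit 5) (nat_lit 135) (nat_lit 5) (nat_lit 128) (nat_lit 5) (nat_lit 352) (nat_lit 313) (nat_lit 280)) (XT.lf (nat_lit 0) (nat_lit 4526933761)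 (nat_lit 504) (nat_lit 1987750967) (nat_lit 588) (nat_lit 2102239268) (nat_lit 121) (nat_lit 5) (nat_lit 127) (nat_lit 5) (nat_lit 128) (nat_lit 5) (nat_lit 353) (nat_lit 313) (nat_lit 279))) (XT.nd (nat_lit 94) (nat_lit 0) (nat_lit 0) (XT.lf (nat_lit 0) (nat_lit 204196587) (nat_lit 588) (nat_lit 7957470003) (nat_lit 84) (nat_lit 581579501) (nat_lit 114) (nat_lit 5) (nat_lit 121) (nat_lit 5) (nat_lit 115) (nat_lit 5) (nat_lit 354) (nat_lit 313) (nat_lit 278)) (XT.lf (nat_lit 0) (nat_lit 2546041823) (nat_lit 588) (nat_lit 3083345803) (nat_lit 84) (nat_lit 3243183302) (nat_lit 114) (nat_lit 5) (nat_lit 121) (nat_lit 5) (nat_lit 115) (nat_lit 5) (nat_lit 355) (nat_lit 313) (nat_lit 277)))) (XT.nd (nat_lit 188) (nat_lit 1008) (nat_lit 0) (XT.nd (nat_lit 94) (nat_lit 0) (nat_lit 0) (XT.lf (nat_lit 0) (nat_lit 1914180604) (nat_lit 420) (nat_lit 3010982211) (nat_lit 504) (nat_lit 4081690997) (nat_lit 109) (nat_lit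 5) (nat_lit 114) (nat_lit 5) (nat_lit 115) (nat_lit 5) (nat_lit 356) (nat_lit 313) (nat_lit 276)) (XT.lf (nat_lit 0) (nat_lit 7065254234) (nat_lit 420) (nat_lit 291082815) (nat_lit 504) (nat_lit 1789494068) (nat_lit 109) (nat_lit 5) (nat_lit 114) (nat_lit 5) (nat_lit 115) (nat_lit 5) (nat_lit 357) (nat_lit 313) (nat_lit 275))) (XT.nd (nat_lit 94) (nat_lit 420) (nat_lit 0) (XT.lf (nat_lit 0) (nat_lit 564735614) (nat_lit 588) (nat_lit 6236355974) (nat_lit 84) (nat_lit 2487670178) (nat_lit 102) (nat_lit 5) (nat_lit 109) (nat_lit 5) (nat_lit 103) (nat_lit 5) (nat_lit 358) (nat_lit 313) (nat_lit 274)) (XT.nd (nat_lit 94) (nat_lit 420) (nat_lit 0) (XT.lf (nat_lit 0) (nat_lit 2928960770) (nat_lit 588) (nat_lit 1133914949) (nat_lit 84) (nat_lit 5373392012) (nat_lit 102) (nat_lit 5) (nat_lit 109) (nat_lit 5) (nat_lit 103) (nat_lit 5) (nat_lit 359) (nat_lit 313) (nat_lit 273)) (XT.lf (nat_lit 0) (nat_lit 4144428482)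 (nat_lit 420) (nat_lit 1212179163) (nat_lit 504) (nat_lit 4231893081) (nat_lit 97) (nat_lit 5) (nat_lit 102) (nat_lit 5) (nat_lit 103) (nat_lit 5) (nat_lit 360) (nat_lit 313) (nat_lit 272))))))))
noncomputable def xc20 : XT := (XT.nd (nat_lit 55836) (nat_lit 0) (nat_lit 10668) (XT.nd (nat_lit 752) (nat_lit 336) (nat_lit 0) (XT.nd (nat_lit 376) (nat_lit 840) (nat_lit 0) (XT.nd (nat_lit 188) (nat_lit 336) (nat_lit 0) (XT.nd (nat_lit 94) (nat_lit 504) (nat_lit 0) (XT.lf (nat_lit 0) (nat_lit 7838597447) (nat_lit 504) (nat_lit 216115872) (nat_lit 84) (nat_lit 1691216449) (nat_lit 97) (nat_lit 5) (nat_lit 103) (nat_lit 5) (nat_lit 98) (nat_lit 5) (nat_lit 361) (nat_lit 313) (nat_lit 271)) (XT.lf (nat_lit 0) (nat_lit 494290244) (nat_lit 504) (nat_lit 4711454874) (nat_lit 84) (nat_lit 4701761501) (nat_lit 91) (nat_lit 5) (nat_lit 97) (nat_lit 5) (nat_lit 92) (nat_lit 5) (nat_lit 362) (nat_lit 313) (nat_lit 270)))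 (XT.nd (nat_lit 94) (nat_lit 0) (nat_lit 0) (XT.lf (nat_lit 0) (nat_lit 637147138) (nat_lit 336) (nat_lit 2255808058) (nat_lit 420) (nat_lit 7181577316) (nat_lit 87) (nat_lit 5) (nat_lit 91) (nat_lit 5) (nat_lit 92) (nat_lit 5) (nat_lit 363) (nat_lit 313) (nat_lit 269)) (XT.lf (nat_lit 0) (nat_lit 5374792018) (nat_lit 420) (nat_lit 4068584559) (nat_lit 84) (nat_lit 802922406) (nat_lit 87) (nat_lit 5) (nat_lit 92) (nat_lit 5) (nat_lit 88) (nat_lit 5) (nat_lit 364) (nat_lit 313) (nat_lit 268)))) (XT.nd (nat_lit 188) (nat_lit 420) (nat_lit 0) (XT.nd (nat_lit 94) (nat_lit 0) (nat_lit 0) (XT.lf (nat_lit 0) (nat_lit 1409918379) (nat_lit 420) (nat_lit 6513986618) (nat_lit 504) (nat_lit 2499593055) (nat_lit 82) (nat_lit 5) (nat_lit 87) (nat_lit 5) (nat_lit 88) (nat_lit 5) (nat_lit 365) (nat_lit 313) (nat_lit 267)) (XT.lf (nat_lit 0) (nat_lit 7080192959) (nat_lit 420) (nat_lit 3468032656) (nat_lit 504) (nat_lit 57887812)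 (nat_lit 82) (nat_lit 5) (nat_lit 87) (nat_lit 5) (nat_lit 88) (nat_lit 5) (nat_lit 366) (nat_lit 313) (nat_lit 266))) (XT.nd (nat_lit 94) (nat_lit 0) (nat_lit 0) (XT.lf (nat_lit 0) (nat_lit 2088257927) (nat_lit 336) (nat_lit 299354584) (nat_lit 420) (nat_lit 8406590265) (nat_lit 77) (nat_lit 5) (nat_lit 81) (nat_lit 5) (nat_lit 82) (nat_lit 5) (nat_lit 367) (nat_lit 313) (nat_lit 265)) (XT.lf (nat_lit 0) (nat_lit 4928736498) (nat_lit 420) (nat_lit 3128999150) (nat_lit 84) (nat_lit 2929536370) (nat_lit 77) (nat_lit 5) (nat_lit 82) (nat_lit 5) (nat_lit 78) (nat_lit 5) (nat_lit 368) (nat_lit 313) (nat_lit 264))))) (XT.nd (nat_lit 54708) (nat_lit 0) (nat_lit 17220) (XT.nd (nat_lit 54520) (nat_lit 0) (nat_lit 17808) (XT.nd (nat_lit 54426) (nat_lit 0) (nat_lit 17976) (XT.lf (nat_lit 0) (nat_lit 2608977348) (nat_lit 336) (nat_lit 4925324181) (nat_lit 420) (nat_lit 3652240997) (nat_lit 73) (nat_lit 5) (nat_lit 77)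 (nat_lit 5) (nat_lit 78) (nat_lit 5) (nat_lit 369) (nat_lit 313) (nat_lit 263)) (XT.lf (nat_lit 0) (nat_lit 1469813895) (nat_lit 84) (nat_lit 283584288) (nat_lit 0) (nat_lit 1469813895) (nat_lit 287) (nat_lit 5) (nat_lit 288) (nat_lit 0) (nat_lit 287) (nat_lit 4) (nat_lit 317) (nat_lit 314) (nat_lit 314))) (XT.nd (nat_lit 94) (nat_lit 84) (nat_lit 0) (XT.lf (nat_lit 0) (nat_lit 2476258250) (nat_lit 84) (nat_lit 3346242813) (nat_lit 84) (nat_lit 629956352) (nat_lit 286) (nat_lit 4) (nat_lit 287) (nat_lit 5) (nat_lit 287) (nat_lit 4) (nat_lit 318) (nat_lit 314) (nat_lit 313)) (XT.lf (nat_lit 0) (nat_lit 2183832098) (nat_lit 168) (nat_lit 920278624) (nat_lit 84) (nat_lit 3357370360) (nat_lit 285) (nat_lit 5) (nat_lit 287) (nat_lit 5) (nat_lit 286) (nat_lit 4) (nat_lit 319) (nat_lit 314) (nat_lit 312)))) (XT.nd (nat_lit 188) (nat_lit 336) (nat_lit 0) (XT.nd (nat_lit 94) (nat_lit 84) (nat_lit 0) (XT.lf (nat_lit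 0) (nat_lit 2203984870) (nat_lit 168) (nat_lit 2780154617) (nat_lit 252) (nat_lit 1489362569) (nat_lit 283) (nat_lit 5) (nat_lit 285) (nat_lit 5) (nat_lit 286) (nat_lit 4) (nat_lit 320) (nat_lit 314) (nat_lit 311)) (XT.lf (nat_lit 0) (nat_lit 1259718512) (nat_lit 252) (nat_lit 1120092939) (nat_lit 84) (nat_lit 4108885993) (nat_lit 282) (nat_lit 5) (nat_lit 285) (nat_lit 5) (nat_lit 283) (nat_lit 5) (nat_lit 321) (nat_lit 314) (nat_lit 310))) (XT.nd (nat_lit 94) (nat_lit 84) (nat_lit 0) (XT.lf (nat_lit 0) (nat_lit 2089702773) (nat_lit 252) (nat_lit 1889527887) (nat_lit 336) (nat_lit 2527465293) (nat_lit 279) (nat_lit 5) (nat_lit 282) (nat_lit 5) (nat_lit 283) (nat_lit 5) (nat_lit 322) (nat_lit 314) (nat_lit 309)) (XT.lf (nat_lit 0) (nat_lit 160449827) (nat_lit 336) (nat_lit 1170578700) (nat_lit 84) (nat_lit 5197130017) (nat_lit 278) (nat_lit 5) (nat_lit 282) (nat_lit 5) (nat_lit 279) (nat_lit 5) (nat_lit 323)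 (nat_lit 314) (nat_lit 308)))))) (XT.nd (nat_lit 752) (nat_lit 4452) (nat_lit 0) (XT.nd (nat_lit 376) (nat_lit 1260) (nat_lit 0) (XT.nd (nat_lit 188) (nat_lit 504) (nat_lit 0) (XT.nd (nat_lit 94) (nat_lit 0) (nat_lit 0) (XT.lf (nat_lit 0) (nat_lit 2129691203) (nat_lit 336) (nat_lit 670839019) (nat_lit 420) (nat_lit 3751612983) (nat_lit 274) (nat_lit 5) (nat_lit 278) (nat_lit 5) (nat_lit 279) (nat_lit 5) (nat_lit 324) (nat_lit 314) (nat_lit 307)) (XT.lf (nat_lit 0) (nat_lit 5436330580) (nat_lit 420) (nat_lit 1086729984) (nat_lit 84) (nat_lit 56581358) (nat_lit 274) (nat_lit 5) (nat_lit 279) (nat_lit 5) (nat_lit 275) (nat_lit 5) (nat_lit 325) (nat_lit 314) (nat_lit 306))) (XT.nd (nat_lit 94) (nat_lit 0) (nat_lit 0) (XT.lf (nat_lit 0) (nat_lit 1448499204) (nat_lit 504) (nat_lit 4297698676) (nat_lit 84) (nat_lit 863534856) (nat_lit 268) (nat_lit 5) (nat_lit 274) (nat_lit 5) (nat_lit 269) (nat_lit 5) (nat_lit 326)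 (nat_lit 314) (nat_lit 305)) (XT.lf (nat_lit 0) (nat_lit 4014394311) (nat_lit 504) (nat_lit 879442158) (nat_lit 84) (nat_lit 1749236350) (nat_lit 268) (nat_lit 5) (nat_lit 274) (nat_lit 5) (nat_lit 269) (nat_lit 5) (nat_lit 327) (nat_lit 314) (nat_lit 304)))) (XT.nd (nat_lit 188) (nat_lit 672) (nat_lit 0) (XT.nd (nat_lit 94) (nat_lit 84) (nat_lit 0) (XT.lf (nat_lit 0) (nat_lit 2631890140) (nat_lit 504) (nat_lit 3961575638) (nat_lit 588) (nat_lit 86119039) (nat_lit 262) (nat_lit 5) (nat_lit 268) (nat_lit 5) (nat_lit 269) (nat_lit 5) (nat_lit 328) (nat_lit 314) (nat_lit 303)) (XT.lf (nat_lit 0) (nat_lit 2404072132) (nat_lit 588) (nat_lit 537000888) (nat_lit 84) (nat_lit 3778008359) (nat_lit 261) (nat_lit 5) (nat_lit 268) (nat_lit 5) (nat_lit 262) (nat_lit 5) (nat_lit 329) (nat_lit 314) (nat_lit 302))) (XT.nd (nat_lit 94) (nat_lit 84) (nat_lit 0) (XT.lf (nat_lit 0) (nat_lit 3077801313) (nat_lit 588) (nat_lit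 1833399989) (nat_lit 672) (nat_lit 1850452894) (nat_lit 254) (nat_lit 5) (nat_lit 261) (nat_lit 5) (nat_lit 262) (nat_lit 5) (nat_lit 330) (nat_lit 314) (nat_lit 301)) (XT.lf (nat_lit 0) (nat_lit 595333343) (nat_lit 672) (nat_lit 61689007) (nat_lit 84) (nat_lit 6150884144) (nat_lit 253) (nat_lit 5) (nat_lit 261) (nat_lit 5) (nat_lit 254) (nat_lit 5) (nat_lit 331) (nat_lit 314) (nat_lit 300))))) (XT.nd (nat_lit 376) (nat_lit 2100) (nat_lit 0) (XT.nd (nat_lit 188) (nat_lit 924) (nat_lit 0) (XT.nd (nat_lit 94) (nat_lit 756) (nat_lit 0) (XT.lf (nat_lit 0) (nat_lit 3036293669) (nat_lit 756) (nat_lit 3200354813) (nat_lit 84) (nat_lit 619794278) (nat_lit 245) (nat_lit 5) (nat_lit 254) (nat_lit 5) (nat_lit 246) (nat_lit 5) (nat_lit 332) (nat_lit 314) (nat_lit 299)) (XT.lf (nat_lit 0) (nat_lit 521739928) (nat_lit 756) (nat_lit 4960633263) (nat_lit 840) (nat_lit 1426314742) (nat_lit 236) (nat_lit 5) (nat_lit 245) (nat_lit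 5) (nat_lit 246) (nat_lit 5) (nat_lit 333) (nat_lit 314) (nat_lit 298))) (XT.nd (nat_lit 94) (nat_lit 840) (nat_lit 0) (XT.lf (nat_lit 0) (nat_lit 972200594) (nat_lit 840) (nat_lit 2614086043) (nat_lit 84) (nat_lit 3377517196) (nat_lit 235) (nat_lit 5) (nat_lit 245) (nat_lit 5) (nat_lit 236) (nat_lit 5) (nat_lit 334) (nat_lit 314) (nat_lit 297)) (XT.lf (nat_lit 0) (nat_lit 1220148315) (nat_lit 840) (nat_lit 2128409458) (nat_lit 924) (nat_lit 3673746914) (nat_lit 225) (nat_lit 5) (nat_lit 235) (nat_lit 5) (nat_lit 236) (nat_lit 5) (nat_lit 335) (nat_lit 314) (nat_lit 296)))) (XT.nd (nat_lit 188) (nat_lit 1092) (nat_lit 0) (XT.nd (nat_lit 94) (nat_lit 1008) (nat_lit 0) (XT.lf (nat_lit 0) (nat_lit 5162097833) (nat_lit 840) (nat_lit 584992485) (nat_lit 924) (nat_lit 1337129876) (nat_lit 225) (nat_lit 5) (nat_lit 235) (nat_lit 5) (nat_lit 236) (nat_lit 5) (nat_lit 336) (nat_lit 314) (nat_lit 295)) (XT.lf (nat_lit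 0) (nat_lit 1004221250) (nat_lit 1008) (nat_lit 5116458009) (nat_lit 84) (nat_lit 1028515732) (nat_lit 213) (nat_lit 5) (nat_lit 225) (nat_lit 5) (nat_lit 214) (nat_lit 5) (nat_lit 337) (nat_lit 314) (nat_lit 294))) (XT.nd (nat_lit 94) (nat_lit 1092) (nat_lit 0) (XT.lf (nat_lit 0) (nat_lit 3341818418) (nat_lit 1008) (nat_lit 1151766175) (nat_lit 84) (nat_lit 2723721225) (nat_lit 213) (nat_lit 5) (nat_lit 225) (nat_lit 5) (nat_lit 214) (nat_lit 5) (nat_lit 338) (nat_lit 314) (nat_lit 293)) (XT.nd (nat_lit 94) (nat_lit 84) (nat_lit 0) (XT.lf (nat_lit 0) (nat_lit 2928180442) (nat_lit 1008) (nat_lit 2779109207) (nat_lit 1092) (nat_lit 1581603346) (nat_lit 201) (nat_lit 5) (nat_lit 213) (nat_lit 5) (nat_lit 214) (nat_lit 5) (nat_lit 339) (nat_lit 314) (nat_lit 292)) (XT.lf (nat_lit 0) (nat_lit 707831267) (nat_lit 1092) (nat_lit 277540327) (nat_lit 84) (nat_lit 6378927571) (nat_lit 200) (nat_lit 5) (nat_lit 213)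 (nat_lit 5) (nat_lit 201) (nat_lit 5) (nat_lit 340) (nat_lit 314) (nat_lit 291))))))))
noncomputable def xc21 : XT := (XT.nd (nat_lit 1504) (nat_lit 3108) (nat_lit 0) (XT.nd (nat_lit 752) (nat_lit 2352) (nat_lit 0) (XT.nd (nat_lit 376) (nat_lit 1260) (nat_lit 0) (XT.nd (nat_lit 188) (nat_lit 1344) (nat_lit 0) (XT.nd (nat_lit 94) (nat_lit 1176) (nat_lit 0) (XT.lf (nat_lit 0) (nat_lit 3013083661) (nat_lit 1176) (nat_lit 3522273990) (nat_lit 84) (nat_lit 906923756) (nat_lit 187) (nat_lit 5) (nat_lit 201) (nat_lit 5) (nat_lit 188) (nat_lit 5) (nat_lit 341) (nat_lit 314) (nat_lit 290)) (XT.lf (nat_lit 0) (nat_lit 668319200) (nat_lit 1176) (nat_lit 4671916566) (nat_lit 1260) (nat_lit 2183932048) (nat_lit 173) (nat_lit 5) (nat_lit 187) (nat_lit 5) (nat_lit 188) (nat_lit 5) (nat_lit 342) (nat_lit 314) (nat_lit 289))) (XT.nd (nat_lit 94) (nat_lit 1260) (nat_lit 0) (XT.lf (nat_lit 0) (nat_lit 96393137) (nat_lit 1260)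 (nat_lit 2614632126) (nat_lit 84) (nat_lit 4898480582) (nat_lit 172) (nat_lit 5) (nat_lit 187) (nat_lit 5) (nat_lit 173) (nat_lit 5) (nat_lit 343) (nat_lit 314) (nat_lit 288)) (XT.lf (nat_lit 0) (nat_lit 1704851500) (nat_lit 1260) (nat_lit 648976124) (nat_lit 1344) (nat_lit 5344484358) (nat_lit 157) (nat_lit 5) (nat_lit 172) (nat_lit 5) (nat_lit 173) (nat_lit 5) (nat_lit 344) (nat_lit 314) (nat_lit 287)))) (XT.nd (nat_lit 188) (nat_lit 672) (nat_lit 0) (XT.nd (nat_lit 94) (nat_lit 588) (nat_lit 0) (XT.lf (nat_lit 0) (nat_lit 4657338615) (nat_lit 1344) (nat_lit 1657962296) (nat_lit 84) (nat_lit 1475261364) (nat_lit 157) (nat_lit 5) (nat_lit 173) (nat_lit 5) (nat_lit 158) (nat_lit 5) (nat_lit 345) (nat_lit 314) (nat_lit 286)) (XT.lf (nat_lit 0) (nat_lit 2795482824) (nat_lit 588) (nat_lit 4207100987) (nat_lit 672) (nat_lit 883944169) (nat_lit 150) (nat_lit 5) (nat_lit 157) (nat_lit 5) (nat_lit 158) (nat_lit 5)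 (nat_lit 346) (nat_lit 314) (nat_lit 285))) (XT.nd (nat_lit 94) (nat_lit 588) (nat_lit 0) (XT.lf (nat_lit 0) (nat_lit 1361577860) (nat_lit 672) (nat_lit 643260452) (nat_lit 84) (nat_lit 5981538942) (nat_lit 149) (nat_lit 5) (nat_lit 157) (nat_lit 5) (nat_lit 150) (nat_lit 5) (nat_lit 347) (nat_lit 314) (nat_lit 284)) (XT.lf (nat_lit 0) (nat_lit 3639196804) (nat_lit 672) (nat_lit 4145644605) (nat_lit 84) (nat_lit 304759122) (nat_lit 142) (nat_lit 5) (nat_lit 150) (nat_lit 5) (nat_lit 143) (nat_lit 5) (nat_lit 348) (nat_lit 314) (nat_lit 283))))) (XT.nd (nat_lit 376) (nat_lit 1092) (nat_lit 0) (XT.nd (nat_lit 188) (nat_lit 588) (nat_lit 0) (XT.nd (nat_lit 94) (nat_lit 84) (nat_lit 0) (XT.lf (nat_lit 0) (nat_lit 413981720) (nat_lit 588) (nat_lit 5544246206) (nat_lit 672) (nat_lit 2238612707) (nat_lit 135) (nat_lit 5) (nat_lit 142) (nat_lit 5) (nat_lit 143) (nat_lit 5) (nat_lit 349) (nat_lit 314) (nat_lit 282))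 (XT.lf (nat_lit 0) (nat_lit 24162408) (nat_lit 672) (nat_lit 3172535416) (nat_lit 84) (nat_lit 5111132828) (nat_lit 134) (nat_lit 5) (nat_lit 142) (nat_lit 5) (nat_lit 135) (nat_lit 5) (nat_lit 350) (nat_lit 314) (nat_lit 281))) (XT.nd (nat_lit 94) (nat_lit 0) (nat_lit 0) (XT.lf (nat_lit 0) (nat_lit 1524381060) (nat_lit 588) (nat_lit 744880084) (nat_lit 672) (nat_lit 6153544343) (nat_lit 127) (nat_lit 5) (nat_lit 134) (nat_lit 5) (nat_lit 135) (nat_lit 5) (nat_lit 351) (nat_lit 314) (nat_lit 280)) (XT.lf (nat_lit 0) (nat_lit 4576962820) (nat_lit 672) (nat_lit 2190860670) (nat_lit 84) (nat_lit 1773648652) (nat_lit 127) (nat_lit 5) (nat_lit 135) (nat_lit 5) (nat_lit 128) (nat_lit 5) (nat_lit 352) (nat_lit 314) (nat_lit 279)))) (XT.nd (nat_lit 188) (nat_lit 504) (nat_lit 0) (XT.nd (nat_lit 94) (nat_lit 84) (nat_lit 0) (XT.lf (nat_lit 0) (nat_lit 2643499614) (nat_lit 504) (nat_lit 4290542323) (nat_lit 588) (nat_lit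 1730349626) (nat_lit 121) (nat_lit 5) (nat_lit 127) (nat_lit 5) (nat_lit 128) (nat_lit 5) (nat_lit 353) (nat_lit 314) (nat_lit 278)) (XT.lf (nat_lit 0) (nat_lit 529769684) (nat_lit 588) (nat_lit 1187436385) (nat_lit 84) (nat_lit 7074617249) (nat_lit 120) (nat_lit 5) (nat_lit 127) (nat_lit 5) (nat_lit 121) (nat_lit 5) (nat_lit 354) (nat_lit 314) (nat_lit 277))) (XT.nd (nat_lit 94) (nat_lit 0) (nat_lit 0) (XT.lf (nat_lit 0) (nat_lit 2818041005) (nat_lit 588) (nat_lit 5142137366) (nat_lit 84) (nat_lit 962620800) (nat_lit 114) (nat_lit 5) (nat_lit 121) (nat_lit 5) (nat_lit 115) (nat_lit 5) (nat_lit 355) (nat_lit 314) (nat_lit 276)) (XT.lf (nat_lit 0) (nat_lit 5154188631) (nat_lit 588) (nat_lit 210742548) (nat_lit 84) (nat_lit 3693482601) (nat_lit 114) (nat_lit 5) (nat_lit 121) (nat_lit 5) (nat_lit 115) (nat_lit 5) (nat_lit 356) (nat_lit 314) (nat_lit 275)))))) (XT.nd (nat_lit 752) (nat_lit 840) (nat_lit 0) (XT.nd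 (nat_lit 376) (nat_lit 840) (nat_lit 0) (XT.nd (nat_lit 188) (nat_lit 420) (nat_lit 0) (XT.nd (nat_lit 94) (nat_lit 588) (nat_lit 0) (XT.lf (nat_lit 0) (nat_lit 4907640007) (nat_lit 420) (nat_lit 2651525456) (nat_lit 504) (nat_lit 1639052833) (nat_lit 109) (nat_lit 5) (nat_lit 114) (nat_lit 5) (nat_lit 115) (nat_lit 5) (nat_lit 357) (nat_lit 314) (nat_lit 274)) (XT.lf (nat_lit 0) (nat_lit 643648239) (nat_lit 588) (nat_lit 8551370179) (nat_lit 84) (nat_lit 148183846) (nat_lit 102) (nat_lit 5) (nat_lit 109) (nat_lit 5) (nat_lit 103) (nat_lit 5) (nat_lit 358) (nat_lit 314) (nat_lit 273))) (XT.nd (nat_lit 94) (nat_lit 420) (nat_lit 0) (XT.lf (nat_lit 0) (nat_lit 2984551318) (nat_lit 588) (nat_lit 3477522037) (nat_lit 84) (nat_lit 3029372321) (nat_lit 102) (nat_lit 5) (nat_lit 109) (nat_lit 5) (nat_lit 103) (nat_lit 5) (nat_lit 359) (nat_lit 314) (nat_lit 272)) (XT.lf (nat_lit 0) (nat_lit 1725866459) (nat_lit 420)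 (nat_lit 3640440242) (nat_lit 504) (nat_lit 4278785395) (nat_lit 97) (nat_lit 5) (nat_lit 102) (nat_lit 5) (nat_lit 103) (nat_lit 5) (nat_lit 360) (nat_lit 314) (nat_lit 271)))) (XT.nd (nat_lit 188) (nat_lit 336) (nat_lit 0) (XT.nd (nat_lit 94) (nat_lit 504) (nat_lit 0) (XT.lf (nat_lit 0) (nat_lit 7100841922) (nat_lit 420) (nat_lit 708626502) (nat_lit 504) (nat_lit 1994253171) (nat_lit 97) (nat_lit 5) (nat_lit 102) (nat_lit 5) (nat_lit 103) (nat_lit 5) (nat_lit 361) (nat_lit 314) (nat_lit 270)) (XT.lf (nat_lit 0) (nat_lit 355465165) (nat_lit 504) (nat_lit 7326684143) (nat_lit 84) (nat_lit 2284815783) (nat_lit 91) (nat_lit 5) (nat_lit 97) (nat_lit 5) (nat_lit 92) (nat_lit 5) (nat_lit 362) (nat_lit 314) (nat_lit 269))) (XT.nd (nat_lit 94) (nat_lit 336) (nat_lit 0) (XT.lf (nat_lit 0) (nat_lit 2726483922) (nat_lit 504) (nat_lit 2018029184) (nat_lit 84) (nat_lit 5390339854) (nat_lit 91) (nat_lit 5) (nat_lit 97)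 (nat_lit 5) (nat_lit 92) (nat_lit 5) (nat_lit 363) (nat_lit 314) (nat_lit 268)) (XT.lf (nat_lit 0) (nat_lit 3463239032) (nat_lit 336) (nat_lit 1696268729) (nat_lit 420) (nat_lit 5148607703) (nat_lit 87) (nat_lit 5) (nat_lit 91) (nat_lit 5) (nat_lit 92) (nat_lit 5) (nat_lit 364) (nat_lit 314) (nat_lit 267))))) (XT.nd (nat_lit 376) (nat_lit 0) (nat_lit 0) (XT.nd (nat_lit 188) (nat_lit 420) (nat_lit 0) (XT.nd (nat_lit 94) (nat_lit 420) (nat_lit 0) (XT.lf (nat_lit 0) (nat_lit 7658164973) (nat_lit 420) (nat_lit 1404621376) (nat_lit 84) (nat_lit 1424072577) (nat_lit 87) (nat_lit 5) (nat_lit 92) (nat_lit 5) (nat_lit 88) (nat_lit 5) (nat_lit 365) (nat_lit 314) (nat_lit 266)) (XT.lf (nat_lit 0) (nat_lit 4210922721) (nat_lit 420) (nat_lit 6037537409) (nat_lit 504) (nat_lit 422064762) (nat_lit 82) (nat_lit 5) (nat_lit 87) (nat_lit 5) (nat_lit 88) (nat_lit 5) (nat_lit 366) (nat_lit 314) (nat_lit 265))) (XT.nd (nat_lit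 94) (nat_lit 336) (nat_lit 0) (XT.lf (nat_lit 0) (nat_lit 1990580539) (nat_lit 504) (nat_lit 909092323) (nat_lit 84) (nat_lit 7960273356) (nat_lit 81) (nat_lit 5) (nat_lit 87) (nat_lit 5) (nat_lit 82) (nat_lit 5) (nat_lit 367) (nat_lit 314) (nat_lit 264)) (XT.lf (nat_lit 0) (nat_lit 4478084279) (nat_lit 420) (nat_lit 6212080283) (nat_lit 84) (nat_lit 364486801) (nat_lit 77) (nat_lit 5) (nat_lit 82) (nat_lit 5) (nat_lit 78) (nat_lit 5) (nat_lit 368) (nat_lit 314) (nat_lit 263)))) (XT.nd (nat_lit 54332) (nat_lit 0) (nat_lit 17472) (XT.nd (nat_lit 54238) (nat_lit 0) (nat_lit 17724) (XT.lf (nat_lit 0) (nat_lit 7039518301) (nat_lit 420) (nat_lit 550947760) (nat_lit 84) (nat_lit 3664806241) (nat_lit 77) (nat_lit 5) (nat_lit 82) (nat_lit 5) (nat_lit 78) (nat_lit 5) (nat_lit 369) (nat_lit 314) (nat_lit 262)) (XT.lf (nat_lit 0) (nat_lit 1073741823) (nat_lit 0) (nat_lit 0) (nat_lit 0) (nat_lit 0) (nat_lit 288) (nat_lit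 0) (nat_lit 1) (nat_lit 0) (nat_lit 1) (nat_lit 0) (nat_lit 315) (nat_lit 315) (nat_lit 315))) (XT.nd (nat_lit 94) (nat_lit 168) (nat_lit 0) (XT.lf (nat_lit 0) (nat_lit 2854007564) (nat_lit 84) (nat_lit 3533239670) (nat_lit 0) (nat_lit 56232508) (nat_lit 287) (nat_lit 5) (nat_lit 288) (nat_lit 0) (nat_lit 287) (nat_lit 4) (nat_lit 316) (nat_lit 315) (nat_lit 314)) (XT.nd (nat_lit 94) (nat_lit 168) (nat_lit 0) (XT.lf (nat_lit 0) (nat_lit 5682808178) (nat_lit 84) (nat_lit 596699176) (nat_lit 0) (nat_lit 168746660) (nat_lit 287) (nat_lit 5) (nat_lit 288) (nat_lit 0) (nat_lit 287) (nat_lit 4) (nat_lit 317) (nat_lit 315) (nat_lit 313)) (XT.lf (nat_lit 0) (nat_lit 2015904908) (nat_lit 168) (nat_lit 4058945874) (nat_lit 84) (nat_lit 380637254) (nat_lit 285) (nat_lit 5) (nat_lit 287) (nat_lit 5) (nat_lit 286) (nat_lit 4) (nat_lit 318) (nat_lit 315) (nat_lit 312))))))))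
noncomputable def xc22 : XT := (XT.nd (nat_lit 1504) (nat_lit 8484) (nat_lit 0) (XT.nd (nat_lit 752) (nat_lit 2772) (nat_lit 0) (XT.nd (nat_lit 376) (nat_lit 924) (nat_lit 0) (XT.nd (nat_lit 188) (nat_lit 252) (nat_lit 0) (XT.nd (nat_lit 94) (nat_lit 252) (nat_lit 0) (XT.lf (nat_lit 0) (nat_lit 4764977358) (nat_lit 168) (nat_lit 1038689308) (nat_lit 84) (nat_lit 662411792) (nat_lit 285) (nat_lit 5) (nat_lit 287) (nat_lit 5) (nat_lit 286) (nat_lit 4) (nat_lit 319) (nat_lit 315) (nat_lit 311)) (XT.lf (nat_lit 0) (nat_lit 1012945824) (nat_lit 252) (nat_lit 4435871642) (nat_lit 84) (nat_lit 1030724819) (nat_lit 282) (nat_lit 5) (nat_lit 285) (nat_lit 5) (nat_lit 283) (nat_lit 5) (nat_lit 320) (nat_lit 315) (nat_lit 310))) (XT.nd (nat_lit 94) (nat_lit 252) (nat_lit 0) (XT.lf (nat_lit 0) (nat_lit 3682622130) (nat_lit 252) (nat_lit 1330391017) (nat_lit 84) (nat_lit 1482966094) (nat_lit 282) (nat_lit 5) (nat_lit 285)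 (nat_lit 5) (nat_lit 283) (nat_lit 5) (nat_lit 321) (nat_lit 315) (nat_lit 309)) (XT.lf (nat_lit 0) (nat_lit 1845882853) (nat_lit 252) (nat_lit 4505032002) (nat_lit 336) (nat_lit 164755606) (nat_lit 279) (nat_lit 5) (nat_lit 282) (nat_lit 5) (nat_lit 283) (nat_lit 5) (nat_lit 322) (nat_lit 315) (nat_lit 308)))) (XT.nd (nat_lit 188) (nat_lit 504) (nat_lit 0) (XT.nd (nat_lit 94) (nat_lit 336) (nat_lit 0) (XT.lf (nat_lit 0) (nat_lit 2428707482) (nat_lit 336) (nat_lit 1475676341) (nat_lit 84) (nat_lit 2633665451) (nat_lit 278) (nat_lit 5) (nat_lit 282) (nat_lit 5) (nat_lit 279) (nat_lit 5) (nat_lit 323) (nat_lit 315) (nat_lit 307)) (XT.lf (nat_lit 0) (nat_lit 1789220230) (nat_lit 336) (nat_lit 3229355943) (nat_lit 420) (nat_lit 1545106992) (nat_lit 274) (nat_lit 5) (nat_lit 278) (nat_lit 5) (nat_lit 279) (nat_lit 5) (nat_lit 324) (nat_lit 315) (nat_lit 306))) (XT.nd (nat_lit 94) (nat_lit 420) (nat_lit 0) (XT.lf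 (nat_lit 0) (nat_lit 995452561) (nat_lit 420) (nat_lit 1477907464) (nat_lit 84) (nat_lit 4119059790) (nat_lit 273) (nat_lit 5) (nat_lit 278) (nat_lit 5) (nat_lit 274) (nat_lit 5) (nat_lit 325) (nat_lit 315) (nat_lit 305)) (XT.lf (nat_lit 0) (nat_lit 1880793695) (nat_lit 420) (nat_lit 1626941667) (nat_lit 504) (nat_lit 3116292844) (nat_lit 268) (nat_lit 5) (nat_lit 273) (nat_lit 5) (nat_lit 274) (nat_lit 5) (nat_lit 326) (nat_lit 315) (nat_lit 304))))) (XT.nd (nat_lit 376) (nat_lit 1596) (nat_lit 0) (XT.nd (nat_lit 188) (nat_lit 588) (nat_lit 0) (XT.nd (nat_lit 94) (nat_lit 588) (nat_lit 0) (XT.lf (nat_lit 0) (nat_lit 5312967736) (nat_lit 420) (nat_lit 707937158) (nat_lit 504) (nat_lit 638172107) (nat_lit 268) (nat_lit 5) (nat_lit 273) (nat_lit 5) (nat_lit 274) (nat_lit 5) (nat_lit 327) (nat_lit 315) (nat_lit 303)) (XT.lf (nat_lit 0) (nat_lit 1812356365) (nat_lit 588) (nat_lit 4581902331) (nat_lit 84) (nat_lit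 302546863) (nat_lit 261) (nat_lit 5) (nat_lit 268) (nat_lit 5) (nat_lit 262) (nat_lit 5) (nat_lit 328) (nat_lit 315) (nat_lit 302))) (XT.nd (nat_lit 94) (nat_lit 588) (nat_lit 0) (XT.lf (nat_lit 0) (nat_lit 4258688454) (nat_lit 588) (nat_lit 1101799290) (nat_lit 84) (nat_lit 1377171074) (nat_lit 261) (nat_lit 5) (nat_lit 268) (nat_lit 5) (nat_lit 262) (nat_lit 5) (nat_lit 329) (nat_lit 315) (nat_lit 301)) (XT.lf (nat_lit 0) (nat_lit 2472291190) (nat_lit 588) (nat_lit 4246755813) (nat_lit 672) (nat_lit 62700539) (nat_lit 254) (nat_lit 5) (nat_lit 261) (nat_lit 5) (nat_lit 262) (nat_lit 5) (nat_lit 330) (nat_lit 315) (nat_lit 300)))) (XT.nd (nat_lit 188) (nat_lit 840) (nat_lit 0) (XT.nd (nat_lit 94) (nat_lit 672) (nat_lit 0) (XT.lf (nat_lit 0) (nat_lit 2307664072) (nat_lit 672) (nat_lit 734003254) (nat_lit 84) (nat_lit 3787139366) (nat_lit 253) (nat_lit 5) (nat_lit 261) (nat_lit 5) (nat_lit 254) (nat_lit 5)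 (nat_lit 331) (nat_lit 315) (nat_lit 299)) (XT.lf (nat_lit 0) (nat_lit 2947415698) (nat_lit 672) (nat_lit 1748904457) (nat_lit 756) (nat_lit 2182695146) (nat_lit 245) (nat_lit 5) (nat_lit 253) (nat_lit 5) (nat_lit 254) (nat_lit 5) (nat_lit 332) (nat_lit 315) (nat_lit 298))) (XT.nd (nat_lit 94) (nat_lit 756) (nat_lit 0) (XT.lf (nat_lit 0) (nat_lit 149891423) (nat_lit 756) (nat_lit 237821887) (nat_lit 84) (nat_lit 6545297401) (nat_lit 244) (nat_lit 5) (nat_lit 253) (nat_lit 5) (nat_lit 245) (nat_lit 5) (nat_lit 333) (nat_lit 315) (nat_lit 297)) (XT.lf (nat_lit 0) (nat_lit 2476475412) (nat_lit 840) (nat_lit 3443030365) (nat_lit 84) (nat_lit 1069626939) (nat_lit 235) (nat_lit 5) (nat_lit 245) (nat_lit 5) (nat_lit 236) (nat_lit 5) (nat_lit 334) (nat_lit 315) (nat_lit 296)))))) (XT.nd (nat_lit 752) (nat_lit 4452) (nat_lit 0) (XT.nd (nat_lit 376) (nat_lit 2184) (nat_lit 0) (XT.nd (nat_lit 188) (nat_lit 924) (nat_lit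 0) (XT.nd (nat_lit 94) (nat_lit 84) (nat_lit 0) (XT.lf (nat_lit 0) (nat_lit 344707325) (nat_lit 840) (nat_lit 4462800089) (nat_lit 924) (nat_lit 2241577619) (nat_lit 225) (nat_lit 5) (nat_lit 235) (nat_lit 5) (nat_lit 236) (nat_lit 5) (nat_lit 335) (nat_lit 315) (nat_lit 295)) (XT.lf (nat_lit 0) (nat_lit 56625158) (nat_lit 924) (nat_lit 2855196620) (nat_lit 84) (nat_lit 4200334590) (nat_lit 224) (nat_lit 5) (nat_lit 235) (nat_lit 5) (nat_lit 225) (nat_lit 5) (nat_lit 336) (nat_lit 315) (nat_lit 294))) (XT.nd (nat_lit 94) (nat_lit 0) (nat_lit 0) (XT.lf (nat_lit 0) (nat_lit 1048723771) (nat_lit 924) (nat_lit 1268023179) (nat_lit 1008) (nat_lit 4861736655) (nat_lit 213) (nat_lit 5) (nat_lit 224) (nat_lit 5) (nat_lit 225) (nat_lit 5) (nat_lit 337) (nat_lit 315) (nat_lit 293)) (XT.lf (nat_lit 0) (nat_lit 4607474653) (nat_lit 1008) (nat_lit 2182842197) (nat_lit 84) (nat_lit 457765148) (nat_lit 213) (nat_lit 5) (nat_lit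 225) (nat_lit 5) (nat_lit 214) (nat_lit 5) (nat_lit 338) (nat_lit 315) (nat_lit 292)))) (XT.nd (nat_lit 188) (nat_lit 1092) (nat_lit 0) (XT.nd (nat_lit 94) (nat_lit 84) (nat_lit 0) (XT.lf (nat_lit 0) (nat_lit 1846914532) (nat_lit 1008) (nat_lit 5081967222) (nat_lit 1092) (nat_lit 392188452) (nat_lit 201) (nat_lit 5) (nat_lit 213) (nat_lit 5) (nat_lit 214) (nat_lit 5) (nat_lit 339) (nat_lit 315) (nat_lit 291)) (XT.lf (nat_lit 0) (nat_lit 1840668141) (nat_lit 1092) (nat_lit 1431960787) (nat_lit 84) (nat_lit 4124580061) (nat_lit 200) (nat_lit 5) (nat_lit 213) (nat_lit 5) (nat_lit 201) (nat_lit 5) (nat_lit 340) (nat_lit 315) (nat_lit 290))) (XT.nd (nat_lit 94) (nat_lit 0) (nat_lit 0) (XT.lf (nat_lit 0) (nat_lit 2722515570) (nat_lit 1092) (nat_lit 1370518137) (nat_lit 1176) (nat_lit 3383816525) (nat_lit 187) (nat_lit 5) (nat_lit 200) (nat_lit 5) (nat_lit 201) (nat_lit 5) (nat_lit 341) (nat_lit 315) (nat_lit 289))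 (XT.lf (nat_lit 0) (nat_lit 6368893413) (nat_lit 1176) (nat_lit 593064778) (nat_lit 84) (nat_lit 598387507) (nat_lit 187) (nat_lit 5) (nat_lit 201) (nat_lit 5) (nat_lit 188) (nat_lit 5) (nat_lit 342) (nat_lit 315) (nat_lit 288))))) (XT.nd (nat_lit 376) (nat_lit 1344) (nat_lit 0) (XT.nd (nat_lit 188) (nat_lit 588) (nat_lit 0) (XT.nd (nat_lit 94) (nat_lit 1260) (nat_lit 0) (XT.lf (nat_lit 0) (nat_lit 1032208669) (nat_lit 1260) (nat_lit 3963513468) (nat_lit 84) (nat_lit 2650860554) (nat_lit 172) (nat_lit 5) (nat_lit 187) (nat_lit 5) (nat_lit 173) (nat_lit 5) (nat_lit 343) (nat_lit 315) (nat_lit 287)) (XT.lf (nat_lit 0) (nat_lit 299558367) (nat_lit 1260) (nat_lit 2946066109) (nat_lit 1344) (nat_lit 4491149236) (nat_lit 157) (nat_lit 5) (nat_lit 172) (nat_lit 5) (nat_lit 173) (nat_lit 5) (nat_lit 344) (nat_lit 315) (nat_lit 286))) (XT.nd (nat_lit 94) (nat_lit 588) (nat_lit 0) (XT.lf (nat_lit 0) (nat_lit 4713498844)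 (nat_lit 1260) (nat_lit 791275845) (nat_lit 1344) (nat_lit 2325642588) (nat_lit 157) (nat_lit 5) (nat_lit 172) (nat_lit 5) (nat_lit 173) (nat_lit 5) (nat_lit 345) (nat_lit 315) (nat_lit 285)) (XT.lf (nat_lit 0) (nat_lit 1285863067) (nat_lit 588) (nat_lit 6513023698) (nat_lit 672) (nat_lit 129090841) (nat_lit 150) (nat_lit 5) (nat_lit 157) (nat_lit 5) (nat_lit 158) (nat_lit 5) (nat_lit 346) (nat_lit 315) (nat_lit 284)))) (XT.nd (nat_lit 188) (nat_lit 672) (nat_lit 0) (XT.nd (nat_lit 94) (nat_lit 588) (nat_lit 0) (XT.lf (nat_lit 0) (nat_lit 2072917301) (nat_lit 672) (nat_lit 2230745214) (nat_lit 84) (nat_lit 3724867349) (nat_lit 149) (nat_lit 5) (nat_lit 157) (nat_lit 5) (nat_lit 150) (nat_lit 5) (nat_lit 347) (nat_lit 315) (nat_lit 283)) (XT.lf (nat_lit 0) (nat_lit 2299081181) (nat_lit 588) (nat_lit 2004680493) (nat_lit 672) (nat_lit 3829450189) (nat_lit 142) (nat_lit 5) (nat_lit 149) (nat_lit 5) (nat_lit 150)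 (nat_lit 5) (nat_lit 348) (nat_lit 315) (nat_lit 282))) (XT.nd (nat_lit 94) (nat_lit 672) (nat_lit 0) (XT.lf (nat_lit 0) (nat_lit 6572135942) (nat_lit 672) (nat_lit 1292214670) (nat_lit 84) (nat_lit 377674927) (nat_lit 142) (nat_lit 5) (nat_lit 150) (nat_lit 5) (nat_lit 143) (nat_lit 5) (nat_lit 349) (nat_lit 315) (nat_lit 281)) (XT.nd (nat_lit 94) (nat_lit 0) (nat_lit 0) (XT.lf (nat_lit 0) (nat_lit 541791989) (nat_lit 672) (nat_lit 4984566903) (nat_lit 84) (nat_lit 2827743307) (nat_lit 134) (nat_lit 5) (nat_lit 142) (nat_lit 5) (nat_lit 135) (nat_lit 5) (nat_lit 350) (nat_lit 315) (nat_lit 280)) (XT.lf (nat_lit 0) (nat_lit 2745828231) (nat_lit 672) (nat_lit 345756823) (nat_lit 84) (nat_lit 5378773153) (nat_lit 134) (nat_lit 5) (nat_lit 142) (nat_lit 5) (nat_lit 135) (nat_lit 5) (nat_lit 351) (nat_lit 315) (nat_lit 279))))))))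
noncomputable def xc23 : XT := (XT.nd (nat_lit 1598) (nat_lit 0) (nat_lit 0) (XT.nd (nat_lit 752) (nat_lit 2100) (nat_lit 0) (XT.nd (nat_lit 376) (nat_lit 1008) (nat_lit 0) (XT.nd (nat_lit 188) (nat_lit 588) (nat_lit 0) (XT.nd (nat_lit 94) (nat_lit 504) (nat_lit 0) (XT.lf (nat_lit 0) (nat_lit 4463420533) (nat_lit 588) (nat_lit 543420935) (nat_lit 672) (nat_lit 3583631908) (nat_lit 127) (nat_lit 5) (nat_lit 134) (nat_lit 5) (nat_lit 135) (nat_lit 5) (nat_lit 352) (nat_lit 315) (nat_lit 278)) (XT.lf (nat_lit 0) (nat_lit 645497807) (nat_lit 504) (nat_lit 6668817502) (nat_lit 588) (nat_lit 1400612115) (nat_lit 121) (nat_lit 5) (nat_lit 127) (nat_lit 5) (nat_lit 128) (nat_lit 5) (nat_lit 353) (nat_lit 315) (nat_lit 277))) (XT.nd (nat_lit 94) (nat_lit 504) (nat_lit 0) (XT.lf (nat_lit 0) (nat_lit 828074706) (nat_lit 588) (nat_lit 3267455167) (nat_lit 84) (nat_lit 4747527960) (nat_lit 120) (nat_lit 5) (nat_lit 127)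 (nat_lit 5) (nat_lit 121) (nat_lit 5) (nat_lit 354) (nat_lit 315) (nat_lit 276)) (XT.lf (nat_lit 0) (nat_lit 1640933241) (nat_lit 504) (nat_lit 1421043485) (nat_lit 588) (nat_lit 5913730564) (nat_lit 114) (nat_lit 5) (nat_lit 120) (nat_lit 5) (nat_lit 121) (nat_lit 5) (nat_lit 355) (nat_lit 315) (nat_lit 275)))) (XT.nd (nat_lit 188) (nat_lit 588) (nat_lit 0) (XT.nd (nat_lit 94) (nat_lit 420) (nat_lit 0) (XT.lf (nat_lit 0) (nat_lit 5360607044) (nat_lit 588) (nat_lit 2417660100) (nat_lit 84) (nat_lit 1334221561) (nat_lit 114) (nat_lit 5) (nat_lit 121) (nat_lit 5) (nat_lit 115) (nat_lit 5) (nat_lit 356) (nat_lit 315) (nat_lit 274)) (XT.lf (nat_lit 0) (nat_lit 2629133590) (nat_lit 420) (nat_lit 5091385393) (nat_lit 504) (nat_lit 1533166267) (nat_lit 109) (nat_lit 5) (nat_lit 114) (nat_lit 5) (nat_lit 115) (nat_lit 5) (nat_lit 357) (nat_lit 315) (nat_lit 273))) (XT.nd (nat_lit 94) (nat_lit 504) (nat_lit 0) (XT.lf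 (nat_lit 0) (nat_lit 715380406) (nat_lit 504) (nat_lit 1584500222) (nat_lit 84) (nat_lit 7099758484) (nat_lit 108) (nat_lit 5) (nat_lit 114) (nat_lit 5) (nat_lit 109) (nat_lit 5) (nat_lit 358) (nat_lit 315) (nat_lit 272)) (XT.lf (nat_lit 0) (nat_lit 2995844711) (nat_lit 588) (nat_lit 5947790298) (nat_lit 84) (nat_lit 606097359) (nat_lit 102) (nat_lit 5) (nat_lit 109) (nat_lit 5) (nat_lit 103) (nat_lit 5) (nat_lit 359) (nat_lit 315) (nat_lit 271))))) (XT.nd (nat_lit 376) (nat_lit 1176) (nat_lit 0) (XT.nd (nat_lit 188) (nat_lit 504) (nat_lit 0) (XT.nd (nat_lit 94) (nat_lit 420) (nat_lit 0) (XT.lf (nat_lit 0) (nat_lit 5339026716) (nat_lit 588) (nat_lit 805031206) (nat_lit 84) (nat_lit 3560513682) (nat_lit 102) (nat_lit 5) (nat_lit 109) (nat_lit 5) (nat_lit 103) (nat_lit 5) (nat_lit 360) (nat_lit 315) (nat_lit 270)) (XT.lf (nat_lit 0) (nat_lit 4527235254) (nat_lit 420) (nat_lit 3225461182) (nat_lit 504) (nat_lit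 2111424003) (nat_lit 97) (nat_lit 5) (nat_lit 102) (nat_lit 5) (nat_lit 103) (nat_lit 5) (nat_lit 361) (nat_lit 315) (nat_lit 269))) (XT.nd (nat_lit 94) (nat_lit 420) (nat_lit 0) (XT.lf (nat_lit 0) (nat_lit 171367855) (nat_lit 504) (nat_lit 47862431) (nat_lit 84) (nat_lit 9810276418) (nat_lit 96) (nat_lit 5) (nat_lit 102) (nat_lit 5) (nat_lit 97) (nat_lit 5) (nat_lit 362) (nat_lit 315) (nat_lit 268)) (XT.lf (nat_lit 0) (nat_lit 2518910646) (nat_lit 504) (nat_lit 4794281428) (nat_lit 84) (nat_lit 2884938420) (nat_lit 91) (nat_lit 5) (nat_lit 97) (nat_lit 5) (nat_lit 92) (nat_lit 5) (nat_lit 363) (nat_lit 315) (nat_lit 267)))) (XT.nd (nat_lit 188) (nat_lit 840) (nat_lit 0) (XT.nd (nat_lit 94) (nat_lit 0) (nat_lit 0) (XT.lf (nat_lit 0) (nat_lit 605283174) (nat_lit 336) (nat_lit 4298892769) (nat_lit 420) (nat_lit 5468680532) (nat_lit 87) (nat_lit 5) (nat_lit 91) (nat_lit 5) (nat_lit 92) (nat_lit 5) (nat_lit 364)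 (nat_lit 315) (nat_lit 266)) (XT.lf (nat_lit 0) (nat_lit 6212981693) (nat_lit 336) (nat_lit 1155947846) (nat_lit 420) (nat_lit 3183717332) (nat_lit 87) (nat_lit 5) (nat_lit 91) (nat_lit 5) (nat_lit 92) (nat_lit 5) (nat_lit 365) (nat_lit 315) (nat_lit 265))) (XT.nd (nat_lit 94) (nat_lit 420) (nat_lit 0) (XT.lf (nat_lit 0) (nat_lit 1202802728) (nat_lit 420) (nat_lit 8696979567) (nat_lit 504) (nat_lit 838342770) (nat_lit 82) (nat_lit 5) (nat_lit 87) (nat_lit 5) (nat_lit 88) (nat_lit 5) (nat_lit 366) (nat_lit 315) (nat_lit 264)) (XT.nd (nat_lit 94) (nat_lit 336) (nat_lit 0) (XT.lf (nat_lit 0) (nat_lit 1563117056) (nat_lit 504) (nat_lit 4006461268) (nat_lit 84) (nat_lit 5358694665) (nat_lit 81) (nat_lit 5) (nat_lit 87) (nat_lit 5) (nat_lit 82) (nat_lit 5) (nat_lit 367) (nat_lit 315) (nat_lit 263)) (XT.lf (nat_lit 0) (nat_lit 1661840198) (nat_lit 336) (nat_lit 2335850514) (nat_lit 420) (nat_lit 7126901823) (nat_lit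 77) (nat_lit 5) (nat_lit 81) (nat_lit 5) (nat_lit 82) (nat_lit 5) (nat_lit 368) (nat_lit 315) (nat_lit 262))))))) (XT.nd (nat_lit 54990) (nat_lit 0) (nat_lit 14784) (XT.nd (nat_lit 54614) (nat_lit 0) (nat_lit 16800) (XT.nd (nat_lit 54426) (nat_lit 0) (nat_lit 17388) (XT.nd (nat_lit 54332) (nat_lit 0) (nat_lit 17640) (XT.lf (nat_lit 0) (nat_lit 6518174097) (nat_lit 420) (nat_lit 3804344279) (nat_lit 84) (nat_lit 1003949346) (nat_lit 77) (nat_lit 5) (nat_lit 82) (nat_lit 5) (nat_lit 78) (nat_lit 5) (nat_lit 369) (nat_lit 315) (nat_lit 261)) (XT.lf (nat_lit 0) (nat_lit 1413013548) (nat_lit 0) (nat_lit 1413013548) (nat_lit 84) (nat_lit 397162595) (nat_lit 287) (nat_lit 5) (nat_lit 287) (nat_lit 3) (nat_lit 288) (nat_lit 0) (nat_lit 316) (nat_lit 316) (nat_lit 313))) (XT.nd (nat_lit 94) (nat_lit 0) (nat_lit 0) (XT.lf (nat_lit 0) (nat_lit 1935009732) (nat_lit 252) (nat_lit 730093897) (nat_lit 252) (nat_lit 3787298240)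 (nat_lit 284) (nat_lit 3) (nat_lit 287) (nat_lit 3) (nat_lit 287) (nat_lit 5) (nat_lit 317) (nat_lit 316) (nat_lit 312)) (XT.lf (nat_lit 84) (nat_lit 2227515945) (nat_lit 0) (nat_lit 2417786541) (nat_lit 252) (nat_lit 1815972031) (nat_lit 285) (nat_lit 5) (nat_lit 284) (nat_lit 3) (nat_lit 287) (nat_lit 5) (nat_lit 318) (nat_lit 316) (nat_lit 311)))) (XT.nd (nat_lit 188) (nat_lit 336) (nat_lit 0) (XT.nd (nat_lit 94) (nat_lit 0) (nat_lit 0) (XT.lf (nat_lit 0) (nat_lit 849914947) (nat_lit 252) (nat_lit 1247584277) (nat_lit 336) (nat_lit 4375903125) (nat_lit 281) (nat_lit 5) (nat_lit 284) (nat_lit 3) (nat_lit 285) (nat_lit 5) (nat_lit 319) (nat_lit 316) (nat_lit 310)) (XT.lf (nat_lit 84) (nat_lit 1789930198) (nat_lit 0) (nat_lit 1684456429) (nat_lit 336) (nat_lit 3013841217) (nat_lit 282) (nat_lit 5) (nat_lit 281) (nat_lit 5) (nat_lit 285) (nat_lit 5) (nat_lit 320) (nat_lit 316) (nat_lit 309))) (XT.nd (nat_lit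 94) (nat_lit 336) (nat_lit 0) (XT.lf (nat_lit 84) (nat_lit 4889492361) (nat_lit 0) (nat_lit 1201048078) (nat_lit 336) (nat_lit 415886163) (nat_lit 282) (nat_lit 5) (nat_lit 281) (nat_lit 5) (nat_lit 285) (nat_lit 5) (nat_lit 321) (nat_lit 316) (nat_lit 308)) (XT.lf (nat_lit 84) (nat_lit 1509287647) (nat_lit 0) (nat_lit 623119858) (nat_lit 420) (nat_lit 4394915800) (nat_lit 278) (nat_lit 5) (nat_lit 277) (nat_lit 5) (nat_lit 282) (nat_lit 5) (nat_lit 322) (nat_lit 316) (nat_lit 307))))) (XT.nd (nat_lit 376) (nat_lit 1260) (nat_lit 0) (XT.nd (nat_lit 188) (nat_lit 420) (nat_lit 0) (XT.nd (nat_lit 94) (nat_lit 420) (nat_lit 0) (XT.lf (nat_lit 0) (nat_lit 4669726921) (nat_lit 336) (nat_lit 1848247832) (nat_lit 84) (nat_lit 33410594) (nat_lit 278) (nat_lit 5) (nat_lit 282) (nat_lit 5) (nat_lit 279) (nat_lit 5) (nat_lit 323) (nat_lit 316) (nat_lit 306)) (XT.lf (nat_lit 0) (nat_lit 619132906) (nat_lit 420) (nat_lit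 5203926839) (nat_lit 84) (nat_lit 755401046) (nat_lit 273) (nat_lit 5) (nat_lit 278) (nat_lit 5) (nat_lit 274) (nat_lit 5) (nat_lit 324) (nat_lit 316) (nat_lit 305))) (XT.nd (nat_lit 94) (nat_lit 420) (nat_lit 0) (XT.lf (nat_lit 0) (nat_lit 3084459217) (nat_lit 420) (nat_lit 1950871145) (nat_lit 84) (nat_lit 1572904737) (nat_lit 273) (nat_lit 5) (nat_lit 278) (nat_lit 5) (nat_lit 274) (nat_lit 5) (nat_lit 325) (nat_lit 316) (nat_lit 304)) (XT.lf (nat_lit 0) (nat_lit 1370050701) (nat_lit 420) (nat_lit 4178012191) (nat_lit 504) (nat_lit 1093367917) (nat_lit 268) (nat_lit 5) (nat_lit 273) (nat_lit 5) (nat_lit 274) (nat_lit 5) (nat_lit 326) (nat_lit 316) (nat_lit 303)))) (XT.nd (nat_lit 188) (nat_lit 672) (nat_lit 0) (XT.nd (nat_lit 94) (nat_lit 504) (nat_lit 0) (XT.lf (nat_lit 0) (nat_lit 1314427655) (nat_lit 504) (nat_lit 1916087642) (nat_lit 84) (nat_lit 3446983742) (nat_lit 267) (nat_lit 5) (nat_lit 273) (nat_lit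 5) (nat_lit 268) (nat_lit 5) (nat_lit 327) (nat_lit 316) (nat_lit 302)) (XT.lf (nat_lit 0) (nat_lit 1502137641) (nat_lit 504) (nat_lit 2199437282) (nat_lit 588) (nat_lit 3015112658) (nat_lit 261) (nat_lit 5) (nat_lit 267) (nat_lit 5) (nat_lit 268) (nat_lit 5) (nat_lit 328) (nat_lit 316) (nat_lit 301))) (XT.nd (nat_lit 94) (nat_lit 672) (nat_lit 0) (XT.lf (nat_lit 0) (nat_lit 5006526059) (nat_lit 504) (nat_lit 1089764007) (nat_lit 588) (nat_lit 662912072) (nat_lit 261) (nat_lit 5) (nat_lit 267) (nat_lit 5) (nat_lit 268) (nat_lit 5) (nat_lit 329) (nat_lit 316) (nat_lit 300)) (XT.nd (nat_lit 94) (nat_lit 0) (nat_lit 0) (XT.lf (nat_lit 0) (nat_lit 1661687486) (nat_lit 672) (nat_lit 5030863118) (nat_lit 84) (nat_lit 112064622) (nat_lit 253) (nat_lit 5) (nat_lit 261) (nat_lit 5) (nat_lit 254) (nat_lit 5) (nat_lit 330) (nat_lit 316) (nat_lit 299)) (XT.lf (nat_lit 0) (nat_lit 3991473112) (nat_lit 672) (nat_lit 1484678566)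 (nat_lit 84) (nat_lit 1376788497) (nat_lit 253) (nat_lit 5) (nat_lit 261) (nat_lit 5) (nat_lit 254) (nat_lit 5) (nat_lit 331) (nat_lit 316) (nat_lit 298))))))))
noncomputable def xc24 : XT := (XT.nd (nat_lit 1504) (nat_lit 4872) (nat_lit 0) (XT.nd (nat_lit 752) (nat_lit 4284) (nat_lit 0) (XT.nd (nat_lit 376) (nat_lit 2940) (nat_lit 0) (XT.nd (nat_lit 188) (nat_lit 756) (nat_lit 0) (XT.nd (nat_lit 94) (nat_lit 84) (nat_lit 0) (XT.lf (nat_lit 0) (nat_lit 2153415680) (nat_lit 672) (nat_lit 4180871903) (nat_lit 756) (nat_lit 570336662) (nat_lit 245) (nat_lit 5) (nat_lit 253) (nat_lit 5) (nat_lit 254) (nat_lit 5) (nat_lit 332) (nat_lit 316) (nat_lit 297)) (XT.lf (nat_lit 0) (nat_lit 1692960464) (nat_lit 756) (nat_lit 1101335160) (nat_lit 84) (nat_lit 4165088317) (nat_lit 244) (nat_lit 5) (nat_lit 253) (nat_lit 5) (nat_lit 245) (nat_lit 5) (nat_lit 333) (nat_lit 316) (nat_lit 296))) (XT.nd (nat_lit 94) (nat_lit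 0) (nat_lit 0) (XT.lf (nat_lit 0) (nat_lit 2648077756) (nat_lit 756) (nat_lit 1315519192) (nat_lit 840) (nat_lit 3053679131) (nat_lit 235) (nat_lit 5) (nat_lit 244) (nat_lit 5) (nat_lit 245) (nat_lit 5) (nat_lit 334) (nat_lit 316) (nat_lit 295)) (XT.lf (nat_lit 0) (nat_lit 6242834981) (nat_lit 840) (nat_lit 604098491) (nat_lit 84) (nat_lit 231937781) (nat_lit 235) (nat_lit 5) (nat_lit 245) (nat_lit 5) (nat_lit 236) (nat_lit 5) (nat_lit 335) (nat_lit 316) (nat_lit 294)))) (XT.nd (nat_lit 188) (nat_lit 2016) (nat_lit 0) (XT.nd (nat_lit 94) (nat_lit 0) (nat_lit 0) (XT.lf (nat_lit 0) (nat_lit 1393263304) (nat_lit 924) (nat_lit 3888508686) (nat_lit 84) (nat_lit 1861093476) (nat_lit 224) (nat_lit 5) (nat_lit 235) (nat_lit 5) (nat_lit 225) (nat_lit 5) (nat_lit 336) (nat_lit 316) (nat_lit 293)) (XT.lf (nat_lit 0) (nat_lit 3608843099) (nat_lit 924) (nat_lit 33273377) (nat_lit 84) (nat_lit 3568493969) (nat_lit 224)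 (nat_lit 5) (nat_lit 235) (nat_lit 5) (nat_lit 225) (nat_lit 5) (nat_lit 337) (nat_lit 316) (nat_lit 292))) (XT.nd (nat_lit 94) (nat_lit 1092) (nat_lit 0) (XT.lf (nat_lit 0) (nat_lit 3959258948) (nat_lit 924) (nat_lit 1901771832) (nat_lit 1008) (nat_lit 1420413367) (nat_lit 213) (nat_lit 5) (nat_lit 224) (nat_lit 5) (nat_lit 225) (nat_lit 5) (nat_lit 338) (nat_lit 316) (nat_lit 291)) (XT.lf (nat_lit 0) (nat_lit 666347827) (nat_lit 1008) (nat_lit 83371880) (nat_lit 1092) (nat_lit 6606412290) (nat_lit 200) (nat_lit 5) (nat_lit 212) (nat_lit 5) (nat_lit 213) (nat_lit 5) (nat_lit 339) (nat_lit 316) (nat_lit 290))))) (XT.nd (nat_lit 376) (nat_lit 1932) (nat_lit 0) (XT.nd (nat_lit 188) (nat_lit 1260) (nat_lit 0) (XT.nd (nat_lit 94) (nat_lit 1092) (nat_lit 0) (XT.lf (nat_lit 0) (nat_lit 2941725510) (nat_lit 1092) (nat_lit 2679241268) (nat_lit 84) (nat_lit 1812259232) (nat_lit 200) (nat_lit 5) (nat_lit 213) (nat_lit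 5) (nat_lit 201) (nat_lit 5) (nat_lit 340) (nat_lit 316) (nat_lit 289)) (XT.lf (nat_lit 0) (nat_lit 1422009520) (nat_lit 1092) (nat_lit 3728127518) (nat_lit 1176) (nat_lit 2364119121) (nat_lit 187) (nat_lit 5) (nat_lit 200) (nat_lit 5) (nat_lit 201) (nat_lit 5) (nat_lit 341) (nat_lit 316) (nat_lit 288))) (XT.nd (nat_lit 94) (nat_lit 1260) (nat_lit 0) (XT.lf (nat_lit 0) (nat_lit 5645242420) (nat_lit 1092) (nat_lit 1744086036) (nat_lit 1176) (nat_lit 209591458) (nat_lit 187) (nat_lit 5) (nat_lit 200) (nat_lit 5) (nat_lit 201) (nat_lit 5) (nat_lit 342) (nat_lit 316) (nat_lit 287)) (XT.lf (nat_lit 0) (nat_lit 1934163077) (nat_lit 1260) (nat_lit 5411709854) (nat_lit 84) (nat_lit 340887555) (nat_lit 172) (nat_lit 5) (nat_lit 187) (nat_lit 5) (nat_lit 173) (nat_lit 5) (nat_lit 343) (nat_lit 316) (nat_lit 286)))) (XT.nd (nat_lit 188) (nat_lit 672) (nat_lit 0) (XT.nd (nat_lit 94) (nat_lit 1260) (nat_lit 0) (XT.lf (nat_lit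 0) (nat_lit 4115077849) (nat_lit 1260) (nat_lit 1182628586) (nat_lit 84) (nat_lit 2480282552) (nat_lit 172) (nat_lit 5) (nat_lit 187) (nat_lit 5) (nat_lit 173) (nat_lit 5) (nat_lit 344) (nat_lit 316) (nat_lit 285)) (XT.lf (nat_lit 0) (nat_lit 3179906088) (nat_lit 1260) (nat_lit 3153700944) (nat_lit 1344) (nat_lit 1539304780) (nat_lit 157) (nat_lit 5) (nat_lit 172) (nat_lit 5) (nat_lit 173) (nat_lit 5) (nat_lit 345) (nat_lit 316) (nat_lit 284))) (XT.nd (nat_lit 94) (nat_lit 588) (nat_lit 0) (XT.lf (nat_lit 0) (nat_lit 589533831) (nat_lit 1344) (nat_lit 335306620) (nat_lit 84) (nat_lit 7047145940) (nat_lit 156) (nat_lit 5) (nat_lit 172) (nat_lit 5) (nat_lit 157) (nat_lit 5) (nat_lit 346) (nat_lit 316) (nat_lit 283)) (XT.lf (nat_lit 0) (nat_lit 2748867336) (nat_lit 672) (nat_lit 3923323755) (nat_lit 84) (nat_lit 1401570484) (nat_lit 149) (nat_lit 5) (nat_lit 157) (nat_lit 5) (nat_lit 150) (nat_lit 5) (nat_lit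 347) (nat_lit 316) (nat_lit 282)))))) (XT.nd (nat_lit 752) (nat_lit 2436) (nat_lit 0) (XT.nd (nat_lit 376) (nat_lit 1176) (nat_lit 0) (XT.nd (nat_lit 188) (nat_lit 672) (nat_lit 0) (XT.nd (nat_lit 94) (nat_lit 0) (nat_lit 0) (XT.lf (nat_lit 0) (nat_lit 544784588) (nat_lit 588) (nat_lit 4390932088) (nat_lit 672) (nat_lit 3244100619) (nat_lit 142) (nat_lit 5) (nat_lit 149) (nat_lit 5) (nat_lit 150) (nat_lit 5) (nat_lit 348) (nat_lit 316) (nat_lit 281)) (XT.lf (nat_lit 0) (nat_lit 5172112111) (nat_lit 588) (nat_lit 2001673102) (nat_lit 672) (nat_lit 1115807230) (nat_lit 142) (nat_lit 5) (nat_lit 149) (nat_lit 5) (nat_lit 150) (nat_lit 5) (nat_lit 349) (nat_lit 316) (nat_lit 280))) (XT.nd (nat_lit 94) (nat_lit 0) (nat_lit 0) (XT.lf (nat_lit 0) (nat_lit 1021339761) (nat_lit 672) (nat_lit 6908530605) (nat_lit 84) (nat_lit 473599923) (nat_lit 134) (nat_lit 5) (nat_lit 142) (nat_lit 5) (nat_lit 135) (nat_lit 5) (nat_lit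 350) (nat_lit 316) (nat_lit 279)) (XT.lf (nat_lit 0) (nat_lit 3199735993) (nat_lit 672) (nat_lit 2297254730) (nat_lit 84) (nat_lit 3023552635) (nat_lit 134) (nat_lit 5) (nat_lit 142) (nat_lit 5) (nat_lit 135) (nat_lit 5) (nat_lit 351) (nat_lit 316) (nat_lit 278)))) (XT.nd (nat_lit 188) (nat_lit 588) (nat_lit 0) (XT.nd (nat_lit 94) (nat_lit 0) (nat_lit 0) (XT.lf (nat_lit 0) (nat_lit 2445819729) (nat_lit 588) (nat_lit 2970641874) (nat_lit 672) (nat_lit 3225572021) (nat_lit 127) (nat_lit 5) (nat_lit 134) (nat_lit 5) (nat_lit 135) (nat_lit 5) (nat_lit 352) (nat_lit 316) (nat_lit 277)) (XT.lf (nat_lit 0) (nat_lit 7324543473) (nat_lit 588) (nat_lit 348765366) (nat_lit 672) (nat_lit 1094742745) (nat_lit 127) (nat_lit 5) (nat_lit 134) (nat_lit 5) (nat_lit 135) (nat_lit 5) (nat_lit 353) (nat_lit 316) (nat_lit 276))) (XT.nd (nat_lit 94) (nat_lit 0) (nat_lit 0) (XT.lf (nat_lit 0) (nat_lit 1086060736) (nat_lit 588) (nat_lit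 5465672859) (nat_lit 84) (nat_lit 2345660159) (nat_lit 120) (nat_lit 5) (nat_lit 127) (nat_lit 5) (nat_lit 121) (nat_lit 5) (nat_lit 354) (nat_lit 316) (nat_lit 275)) (XT.lf (nat_lit 0) (nat_lit 3280625975) (nat_lit 588) (nat_lit 615991249) (nat_lit 84) (nat_lit 5134647377) (nat_lit 120) (nat_lit 5) (nat_lit 127) (nat_lit 5) (nat_lit 121) (nat_lit 5) (nat_lit 355) (nat_lit 316) (nat_lit 274))))) (XT.nd (nat_lit 376) (nat_lit 924) (nat_lit 0) (XT.nd (nat_lit 188) (nat_lit 588) (nat_lit 0) (XT.nd (nat_lit 94) (nat_lit 420) (nat_lit 0) (XT.lf (nat_lit 0) (nat_lit 4412693051) (nat_lit 504) (nat_lit 1124312674) (nat_lit 588) (nat_lit 3632347890) (nat_lit 114) (nat_lit 5) (nat_lit 120) (nat_lit 5) (nat_lit 121) (nat_lit 5) (nat_lit 356) (nat_lit 316) (nat_lit 273)) (XT.lf (nat_lit 0) (nat_lit 227744057) (nat_lit 420) (nat_lit 7612794542) (nat_lit 504) (nat_lit 1471741849) (nat_lit 109) (nat_lit 5) (nat_lit 114)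 (nat_lit 5) (nat_lit 115) (nat_lit 5) (nat_lit 357) (nat_lit 316) (nat_lit 272))) (XT.nd (nat_lit 94) (nat_lit 504) (nat_lit 0) (XT.lf (nat_lit 0) (nat_lit 753266961) (nat_lit 504) (nat_lit 4071635365) (nat_lit 84) (nat_lit 4634021130) (nat_lit 108) (nat_lit 5) (nat_lit 114) (nat_lit 5) (nat_lit 109) (nat_lit 5) (nat_lit 358) (nat_lit 316) (nat_lit 271)) (XT.lf (nat_lit 0) (nat_lit 1045128884) (nat_lit 504) (nat_lit 1936335170) (nat_lit 588) (nat_lit 6629156287) (nat_lit 102) (nat_lit 5) (nat_lit 108) (nat_lit 5) (nat_lit 109) (nat_lit 5) (nat_lit 359) (nat_lit 316) (nat_lit 270)))) (XT.nd (nat_lit 188) (nat_lit 504) (nat_lit 0) (XT.nd (nat_lit 94) (nat_lit 420) (nat_lit 0) (XT.lf (nat_lit 0) (nat_lit 5284689817) (nat_lit 588) (nat_lit 3430285665) (nat_lit 84) (nat_lit 1051717359) (nat_lit 102) (nat_lit 5) (nat_lit 109) (nat_lit 5) (nat_lit 103) (nat_lit 5) (nat_lit 360) (nat_lit 316) (nat_lit 269)) (XT.lf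 (nat_lit 0) (nat_lit 1823823081) (nat_lit 420) (nat_lit 5827828242) (nat_lit 504) (nat_lit 2276025170) (nat_lit 97) (nat_lit 5) (nat_lit 102) (nat_lit 5) (nat_lit 103) (nat_lit 5) (nat_lit 361) (nat_lit 316) (nat_lit 268))) (XT.nd (nat_lit 94) (nat_lit 504) (nat_lit 0) (XT.lf (nat_lit 0) (nat_lit 7254807238) (nat_lit 420) (nat_lit 2828123531) (nat_lit 504) (nat_lit 10825773) (nat_lit 97) (nat_lit 5) (nat_lit 102) (nat_lit 5) (nat_lit 103) (nat_lit 5) (nat_lit 362) (nat_lit 316) (nat_lit 267)) (XT.nd (nat_lit 94) (nat_lit 0) (nat_lit 0) (XT.lf (nat_lit 0) (nat_lit 2263929343) (nat_lit 504) (nat_lit 7706468481) (nat_lit 84) (nat_lit 294206318) (nat_lit 91) (nat_lit 5) (nat_lit 97) (nat_lit 5) (nat_lit 92) (nat_lit 5) (nat_lit 363) (nat_lit 316) (nat_lit 266)) (XT.lf (nat_lit 0) (nat_lit 4623681024) (nat_lit 504) (nat_lit 2343894357) (nat_lit 84) (nat_lit 3472549975) (nat_lit 91) (nat_lit 5) (nat_lit 97) (nat_lit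 5) (nat_lit 92) (nat_lit 5) (nat_lit 364) (nat_lit 316) (nat_lit 265))))))))
noncomputable def xc25 : XT := (XT.nd (nat_lit 55836) (nat_lit 0) (nat_lit 7980) (XT.nd (nat_lit 55084) (nat_lit 0) (nat_lit 15876) (XT.nd (nat_lit 376) (nat_lit 336) (nat_lit 0) (XT.nd (nat_lit 188) (nat_lit 504) (nat_lit 0) (XT.nd (nat_lit 94) (nat_lit 0) (nat_lit 0) (XT.lf (nat_lit 0) (nat_lit 3192223698) (nat_lit 336) (nat_lit 3853870285) (nat_lit 420) (nat_lit 3575120946) (nat_lit 87) (nat_lit 5) (nat_lit 91) (nat_lit 5) (nat_lit 92) (nat_lit 5) (nat_lit 365) (nat_lit 316) (nat_lit 264)) (XT.lf (nat_lit 0) (nat_lit 8893334278) (nat_lit 336) (nat_lit 633355149) (nat_lit 420) (nat_lit 1281539530) (nat_lit 87) (nat_lit 5) (nat_lit 91) (nat_lit 5) (nat_lit 92) (nat_lit 5) (nat_lit 366) (nat_lit 316) (nat_lit 263))) (XT.nd (nat_lit 94) (nat_lit 0) (nat_lit 0) (XT.lf (nat_lit 0) (nat_lit 1084774939) (nat_lit 504) (nat_lit 7247304780)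 (nat_lit 84) (nat_lit 2667765281) (nat_lit 81) (nat_lit 5) (nat_lit 87) (nat_lit 5) (nat_lit 82) (nat_lit 5) (nat_lit 367) (nat_lit 316) (nat_lit 262)) (XT.lf (nat_lit 0) (nat_lit 3485173804) (nat_lit 504) (nat_lit 1635609665) (nat_lit 84) (nat_lit 6076432049) (nat_lit 81) (nat_lit 5) (nat_lit 87) (nat_lit 5) (nat_lit 82) (nat_lit 5) (nat_lit 368) (nat_lit 316) (nat_lit 261)))) (XT.nd (nat_lit 54520) (nat_lit 0) (nat_lit 17136) (XT.nd (nat_lit 54426) (nat_lit 0) (nat_lit 17388) (XT.lf (nat_lit 0) (nat_lit 4178318832) (nat_lit 336) (nat_lit 1783560127) (nat_lit 420) (nat_lit 5438550071) (nat_lit 77) (nat_lit 5) (nat_lit 81) (nat_lit 5) (nat_lit 82) (nat_lit 5) (nat_lit 369) (nat_lit 316) (nat_lit 260)) (XT.lf (nat_lit 0) (nat_lit 2298222916) (nat_lit 252) (nat_lit 465874284) (nat_lit 252) (nat_lit 465874284) (nat_lit 284) (nat_lit 3) (nat_lit 287) (nat_lit 3) (nat_lit 287) (nat_lit 5) (nat_lit 317) (nat_lit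 317) (nat_lit 311))) (XT.nd (nat_lit 94) (nat_lit 0) (nat_lit 0) (XT.lf (nat_lit 0) (nat_lit 767771785) (nat_lit 252) (nat_lit 4483066417) (nat_lit 336) (nat_lit 1219515419) (nat_lit 281) (nat_lit 5) (nat_lit 284) (nat_lit 3) (nat_lit 285) (nat_lit 5) (nat_lit 318) (nat_lit 317) (nat_lit 310)) (XT.lf (nat_lit 0) (nat_lit 3347927746) (nat_lit 252) (nat_lit 1541537081) (nat_lit 336) (nat_lit 1594162596) (nat_lit 281) (nat_lit 5) (nat_lit 284) (nat_lit 3) (nat_lit 285) (nat_lit 5) (nat_lit 319) (nat_lit 317) (nat_lit 309))))) (XT.nd (nat_lit 376) (nat_lit 504) (nat_lit 0) (XT.nd (nat_lit 188) (nat_lit 420) (nat_lit 0) (XT.nd (nat_lit 94) (nat_lit 336) (nat_lit 0) (XT.lf (nat_lit 84) (nat_lit 1463204989) (nat_lit 0) (nat_lit 4457223792) (nat_lit 336) (nat_lit 579739384) (nat_lit 282) (nat_lit 5) (nat_lit 281) (nat_lit 5) (nat_lit 285) (nat_lit 5) (nat_lit 320) (nat_lit 317) (nat_lit 308)) (XT.lf (nat_lit 0) (nat_lit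 1930553532) (nat_lit 336) (nat_lit 2002246144) (nat_lit 420) (nat_lit 2586580786) (nat_lit 277) (nat_lit 5) (nat_lit 281) (nat_lit 5) (nat_lit 282) (nat_lit 5) (nat_lit 321) (nat_lit 317) (nat_lit 307))) (XT.nd (nat_lit 94) (nat_lit 420) (nat_lit 0) (XT.lf (nat_lit 84) (nat_lit 1085251036) (nat_lit 0) (nat_lit 3334531348) (nat_lit 420) (nat_lit 2122046208) (nat_lit 278) (nat_lit 5) (nat_lit 277) (nat_lit 5) (nat_lit 282) (nat_lit 5) (nat_lit 322) (nat_lit 317) (nat_lit 306)) (XT.lf (nat_lit 0) (nat_lit 336897526) (nat_lit 420) (nat_lit 2317469740) (nat_lit 504) (nat_lit 3912945618) (nat_lit 272) (nat_lit 5) (nat_lit 277) (nat_lit 5) (nat_lit 278) (nat_lit 5) (nat_lit 323) (nat_lit 317) (nat_lit 305)))) (XT.nd (nat_lit 188) (nat_lit 504) (nat_lit 0) (XT.nd (nat_lit 94) (nat_lit 0) (nat_lit 0) (XT.lf (nat_lit 84) (nat_lit 857833576) (nat_lit 0) (nat_lit 1886023154) (nat_lit 504) (nat_lit 3851833148) (nat_lit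 273) (nat_lit 5) (nat_lit 272) (nat_lit 5) (nat_lit 278) (nat_lit 5) (nat_lit 324) (nat_lit 317) (nat_lit 304)) (XT.lf (nat_lit 84) (nat_lit 4122721590) (nat_lit 0) (nat_lit 1034506602) (nat_lit 504) (nat_lit 1469921587) (nat_lit 273) (nat_lit 5) (nat_lit 272) (nat_lit 5) (nat_lit 278) (nat_lit 5) (nat_lit 325) (nat_lit 317) (nat_lit 303))) (XT.nd (nat_lit 94) (nat_lit 0) (nat_lit 84) (XT.lf (nat_lit 84) (nat_lit 778113373) (nat_lit 0) (nat_lit 105919901) (nat_lit 588) (nat_lit 5777886206) (nat_lit 267) (nat_lit 5) (nat_lit 266) (nat_lit 5) (nat_lit 273) (nat_lit 5) (nat_lit 326) (nat_lit 317) (nat_lit 302)) (XT.lf (nat_lit 0) (nat_lit 3227432758) (nat_lit 504) (nat_lit 2565696554) (nat_lit 84) (nat_lit 905951084) (nat_lit 267) (nat_lit 5) (nat_lit 273) (nat_lit 5) (nat_lit 268) (nat_lit 5) (nat_lit 327) (nat_lit 317) (nat_lit 301)))))) (XT.nd (nat_lit 752) (nat_lit 5208) (nat_lit 0) (XT.nd (nat_lit 376) (nat_lit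 1596) (nat_lit 0) (XT.nd (nat_lit 188) (nat_lit 588) (nat_lit 0) (XT.nd (nat_lit 94) (nat_lit 84) (nat_lit 0) (XT.lf (nat_lit 0) (nat_lit 812180759) (nat_lit 504) (nat_lit 4754949138) (nat_lit 588) (nat_lit 1172675334) (nat_lit 261) (nat_lit 5) (nat_lit 267) (nat_lit 5) (nat_lit 268) (nat_lit 5) (nat_lit 328) (nat_lit 317) (nat_lit 300)) (XT.lf (nat_lit 0) (nat_lit 1116121329) (nat_lit 588) (nat_lit 2504619881) (nat_lit 84) (nat_lit 3162556357) (nat_lit 260) (nat_lit 5) (nat_lit 267) (nat_lit 5) (nat_lit 261) (nat_lit 5) (nat_lit 329) (nat_lit 317) (nat_lit 299))) (XT.nd (nat_lit 94) (nat_lit 0) (nat_lit 0) (XT.lf (nat_lit 0) (nat_lit 974214604) (nat_lit 588) (nat_lit 2405564475) (nat_lit 672) (nat_lit 3450283804) (nat_lit 253) (nat_lit 5) (nat_lit 260) (nat_lit 5) (nat_lit 261) (nat_lit 5) (nat_lit 330) (nat_lit 317) (nat_lit 298)) (XT.lf (nat_lit 0) (nat_lit 4555028308) (nat_lit 588) (nat_lit 1103813977)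 (nat_lit 672) (nat_lit 1221167432) (nat_lit 253) (nat_lit 5) (nat_lit 260) (nat_lit 5) (nat_lit 261) (nat_lit 5) (nat_lit 331) (nat_lit 317) (nat_lit 297)))) (XT.nd (nat_lit 188) (nat_lit 840) (nat_lit 0) (XT.nd (nat_lit 94) (nat_lit 0) (nat_lit 0) (XT.lf (nat_lit 0) (nat_lit 992327251) (nat_lit 756) (nat_lit 5663550145) (nat_lit 84) (nat_lit 277305004) (nat_lit 244) (nat_lit 5) (nat_lit 253) (nat_lit 5) (nat_lit 245) (nat_lit 5) (nat_lit 332) (nat_lit 317) (nat_lit 296)) (XT.lf (nat_lit 0) (nat_lit 3207770278) (nat_lit 756) (nat_lit 2046737159) (nat_lit 84) (nat_lit 1734463637) (nat_lit 244) (nat_lit 5) (nat_lit 253) (nat_lit 5) (nat_lit 245) (nat_lit 5) (nat_lit 333) (nat_lit 317) (nat_lit 295))) (XT.nd (nat_lit 94) (nat_lit 84) (nat_lit 0) (XT.lf (nat_lit 0) (nat_lit 1656552781) (nat_lit 756) (nat_lit 3776667712) (nat_lit 840) (nat_lit 1615087344) (nat_lit 235) (nat_lit 5) (nat_lit 244) (nat_lit 5) (nat_lit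 245) (nat_lit 5) (nat_lit 334) (nat_lit 317) (nat_lit 294)) (XT.lf (nat_lit 0) (nat_lit 553199576) (nat_lit 840) (nat_lit 1657449691) (nat_lit 84) (nat_lit 4900291843) (nat_lit 234) (nat_lit 5) (nat_lit 244) (nat_lit 5) (nat_lit 235) (nat_lit 5) (nat_lit 335) (nat_lit 317) (nat_lit 293))))) (XT.nd (nat_lit 376) (nat_lit 3360) (nat_lit 0) (XT.nd (nat_lit 188) (nat_lit 1008) (nat_lit 0) (XT.nd (nat_lit 94) (nat_lit 0) (nat_lit 0) (XT.lf (nat_lit 0) (nat_lit 2161265555) (nat_lit 840) (nat_lit 544008504) (nat_lit 924) (nat_lit 4471328981) (nat_lit 224) (nat_lit 5) (nat_lit 234) (nat_lit 5) (nat_lit 235) (nat_lit 5) (nat_lit 336) (nat_lit 317) (nat_lit 292)) (XT.lf (nat_lit 0) (nat_lit 4882167209) (nat_lit 924) (nat_lit 1182271576) (nat_lit 84) (nat_lit 1181148942) (nat_lit 224) (nat_lit 5) (nat_lit 235) (nat_lit 5) (nat_lit 225) (nat_lit 5) (nat_lit 337) (nat_lit 317) (nat_lit 291))) (XT.nd (nat_lit 94) (nat_lit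 84) (nat_lit 0) (XT.lf (nat_lit 0) (nat_lit 2760263305) (nat_lit 924) (nat_lit 4330083286) (nat_lit 1008) (nat_lit 227471891) (nat_lit 213) (nat_lit 5) (nat_lit 224) (nat_lit 5) (nat_lit 225) (nat_lit 5) (nat_lit 338) (nat_lit 317) (nat_lit 290)) (XT.lf (nat_lit 0) (nat_lit 1880799479) (nat_lit 1008) (nat_lit 620545004) (nat_lit 84) (nat_lit 4892047719) (nat_lit 212) (nat_lit 5) (nat_lit 224) (nat_lit 5) (nat_lit 213) (nat_lit 5) (nat_lit 339) (nat_lit 317) (nat_lit 289)))) (XT.nd (nat_lit 188) (nat_lit 1260) (nat_lit 0) (XT.nd (nat_lit 94) (nat_lit 1092) (nat_lit 0) (XT.lf (nat_lit 0) (nat_lit 3446254610) (nat_lit 1008) (nat_lit 571201591) (nat_lit 1092) (nat_lit 3454760774) (nat_lit 200) (nat_lit 5) (nat_lit 212) (nat_lit 5) (nat_lit 213) (nat_lit 5) (nat_lit 340) (nat_lit 317) (nat_lit 288)) (XT.lf (nat_lit 0) (nat_lit 26511057) (nat_lit 1092) (nat_lit 6149914873) (nat_lit 1176) (nat_lit 1378372689) (nat_lit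 187) (nat_lit 5) (nat_lit 200) (nat_lit 5) (nat_lit 201) (nat_lit 5) (nat_lit 341) (nat_lit 317) (nat_lit 287))) (XT.nd (nat_lit 94) (nat_lit 1176) (nat_lit 0) (XT.lf (nat_lit 0) (nat_lit 730743744) (nat_lit 1176) (nat_lit 3424617797) (nat_lit 84) (nat_lit 3484849297) (nat_lit 186) (nat_lit 5) (nat_lit 200) (nat_lit 5) (nat_lit 187) (nat_lit 5) (nat_lit 342) (nat_lit 317) (nat_lit 286)) (XT.nd (nat_lit 94) (nat_lit 0) (nat_lit 0) (XT.lf (nat_lit 0) (nat_lit 749053712) (nat_lit 1176) (nat_lit 2073926616) (nat_lit 1260) (nat_lit 4906495931) (nat_lit 172) (nat_lit 5) (nat_lit 186) (nat_lit 5) (nat_lit 187) (nat_lit 5) (nat_lit 343) (nat_lit 317) (nat_lit 285)) (XT.lf (nat_lit 0) (nat_lit 4955200513) (nat_lit 1260) (nat_lit 2758730774) (nat_lit 84) (nat_lit 108294940) (nat_lit 172) (nat_lit 5) (nat_lit 187) (nat_lit 5) (nat_lit 173) (nat_lit 5) (nat_lit 344) (nat_lit 317) (nat_lit 284))))))))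
noncomputable def xc26 : XT := (XT.nd (nat_lit 1504) (nat_lit 2100) (nat_lit 0) (XT.nd (nat_lit 752) (nat_lit 2100) (nat_lit 0) (XT.nd (nat_lit 376) (nat_lit 1848) (nat_lit 0) (XT.nd (nat_lit 188) (nat_lit 588) (nat_lit 0) (XT.nd (nat_lit 94) (nat_lit 84) (nat_lit 0) (XT.lf (nat_lit 0) (nat_lit 1545378926) (nat_lit 1260) (nat_lit 5584717593) (nat_lit 1344) (nat_lit 788420393) (nat_lit 157) (nat_lit 5) (nat_lit 172) (nat_lit 5) (nat_lit 173) (nat_lit 5) (nat_lit 345) (nat_lit 317) (nat_lit 283)) (XT.lf (nat_lit 0) (nat_lit 1298078446) (nat_lit 1344) (nat_lit 2049532729) (nat_lit 84) (nat_lit 4670649882) (nat_lit 156) (nat_lit 5) (nat_lit 172) (nat_lit 5) (nat_lit 157) (nat_lit 5) (nat_lit 346) (nat_lit 317) (nat_lit 282))) (XT.nd (nat_lit 94) (nat_lit 0) (nat_lit 0) (XT.lf (nat_lit 0) (nat_lit 2389635969) (nat_lit 588) (nat_lit 1010092255) (nat_lit 672) (nat_lit 4722092398) (nat_lit 149) (nat_lit 5) (nat_lit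 156) (nat_lit 5) (nat_lit 157) (nat_lit 5) (nat_lit 347) (nat_lit 317) (nat_lit 281)) (XT.lf (nat_lit 0) (nat_lit 5545289719) (nat_lit 672) (nat_lit 1291682255) (nat_lit 84) (nat_lit 1392195302) (nat_lit 149) (nat_lit 5) (nat_lit 157) (nat_lit 5) (nat_lit 150) (nat_lit 5) (nat_lit 348) (nat_lit 317) (nat_lit 280)))) (XT.nd (nat_lit 188) (nat_lit 1176) (nat_lit 0) (XT.nd (nat_lit 94) (nat_lit 84) (nat_lit 0) (XT.lf (nat_lit 0) (nat_lit 3283515013) (nat_lit 588) (nat_lit 4461351502) (nat_lit 672) (nat_lit 595281438) (nat_lit 142) (nat_lit 5) (nat_lit 149) (nat_lit 5) (nat_lit 150) (nat_lit 5) (nat_lit 349) (nat_lit 317) (nat_lit 279)) (XT.lf (nat_lit 0) (nat_lit 1487276312) (nat_lit 672) (nat_lit 499905545) (nat_lit 84) (nat_lit 6468074652) (nat_lit 141) (nat_lit 5) (nat_lit 149) (nat_lit 5) (nat_lit 142) (nat_lit 5) (nat_lit 350) (nat_lit 317) (nat_lit 278))) (XT.nd (nat_lit 94) (nat_lit 588) (nat_lit 0) (XT.lf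 (nat_lit 0) (nat_lit 3616727763) (nat_lit 672) (nat_lit 4361564018) (nat_lit 84) (nat_lit 595552609) (nat_lit 134) (nat_lit 5) (nat_lit 142) (nat_lit 5) (nat_lit 135) (nat_lit 5) (nat_lit 351) (nat_lit 317) (nat_lit 277)) (XT.lf (nat_lit 0) (nat_lit 313956481) (nat_lit 588) (nat_lit 5474835949) (nat_lit 672) (nat_lit 2907927168) (nat_lit 127) (nat_lit 5) (nat_lit 134) (nat_lit 5) (nat_lit 135) (nat_lit 5) (nat_lit 352) (nat_lit 317) (nat_lit 276))))) (XT.nd (nat_lit 376) (nat_lit 1008) (nat_lit 0) (XT.nd (nat_lit 188) (nat_lit 504) (nat_lit 0) (XT.nd (nat_lit 94) (nat_lit 588) (nat_lit 0) (XT.lf (nat_lit 0) (nat_lit 5166981043) (nat_lit 588) (nat_lit 2854947346) (nat_lit 672) (nat_lit 801564308) (nat_lit 127) (nat_lit 5) (nat_lit 134) (nat_lit 5) (nat_lit 135) (nat_lit 5) (nat_lit 353) (nat_lit 317) (nat_lit 275)) (XT.lf (nat_lit 0) (nat_lit 1169524428) (nat_lit 504) (nat_lit 135733522) (nat_lit 588) (nat_lit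 7649581463) (nat_lit 120) (nat_lit 5) (nat_lit 126) (nat_lit 5) (nat_lit 127) (nat_lit 5) (nat_lit 354) (nat_lit 317) (nat_lit 274))) (XT.nd (nat_lit 94) (nat_lit 504) (nat_lit 0) (XT.lf (nat_lit 0) (nat_lit 3475641614) (nat_lit 588) (nat_lit 2960237634) (nat_lit 84) (nat_lit 2653596544) (nat_lit 120) (nat_lit 5) (nat_lit 127) (nat_lit 5) (nat_lit 121) (nat_lit 5) (nat_lit 355) (nat_lit 317) (nat_lit 273)) (XT.lf (nat_lit 0) (nat_lit 1996136566) (nat_lit 504) (nat_lit 3690444872) (nat_lit 588) (nat_lit 3542385483) (nat_lit 114) (nat_lit 5) (nat_lit 120) (nat_lit 5) (nat_lit 121) (nat_lit 5) (nat_lit 356) (nat_lit 317) (nat_lit 272)))) (XT.nd (nat_lit 188) (nat_lit 504) (nat_lit 0) (XT.nd (nat_lit 94) (nat_lit 504) (nat_lit 0) (XT.lf (nat_lit 0) (nat_lit 7111321192) (nat_lit 504) (nat_lit 838160713) (nat_lit 588) (nat_lit 1423668604) (nat_lit 114) (nat_lit 5) (nat_lit 120) (nat_lit 5) (nat_lit 121) (nat_lit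 5) (nat_lit 357) (nat_lit 317) (nat_lit 271)) (XT.lf (nat_lit 0) (nat_lit 748262267) (nat_lit 504) (nat_lit 6685730898) (nat_lit 84) (nat_lit 2087386298) (nat_lit 108) (nat_lit 5) (nat_lit 114) (nat_lit 5) (nat_lit 109) (nat_lit 5) (nat_lit 358) (nat_lit 317) (nat_lit 270))) (XT.nd (nat_lit 94) (nat_lit 504) (nat_lit 0) (XT.lf (nat_lit 0) (nat_lit 2945356056) (nat_lit 504) (nat_lit 1614396189) (nat_lit 84) (nat_lit 5114291779) (nat_lit 108) (nat_lit 5) (nat_lit 114) (nat_lit 5) (nat_lit 109) (nat_lit 5) (nat_lit 359) (nat_lit 317) (nat_lit 269)) (XT.lf (nat_lit 0) (nat_lit 3630582868) (nat_lit 504) (nat_lit 1571178706) (nat_lit 588) (nat_lit 4629793125) (nat_lit 102) (nat_lit 5) (nat_lit 108) (nat_lit 5) (nat_lit 109) (nat_lit 5) (nat_lit 360) (nat_lit 317) (nat_lit 268)))))) (XT.nd (nat_lit 752) (nat_lit 336) (nat_lit 0) (XT.nd (nat_lit 376) (nat_lit 840) (nat_lit 0) (XT.nd (nat_lit 188) (nat_lit 504) (nat_lit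 0) (XT.nd (nat_lit 94) (nat_lit 420) (nat_lit 0) (XT.lf (nat_lit 0) (nat_lit 7515970417) (nat_lit 588) (nat_lit 992013783) (nat_lit 84) (nat_lit 1486169322) (nat_lit 102) (nat_lit 5) (nat_lit 109) (nat_lit 5) (nat_lit 103) (nat_lit 5) (nat_lit 361) (nat_lit 317) (nat_lit 267)) (XT.lf (nat_lit 0) (nat_lit 4394804691) (nat_lit 420) (nat_lit 5522952908) (nat_lit 504) (nat_lit 243392381) (nat_lit 97) (nat_lit 5) (nat_lit 102) (nat_lit 5) (nat_lit 103) (nat_lit 5) (nat_lit 362) (nat_lit 317) (nat_lit 266))) (XT.nd (nat_lit 94) (nat_lit 420) (nat_lit 0) (XT.lf (nat_lit 0) (nat_lit 1988986607) (nat_lit 504) (nat_lit 438157724) (nat_lit 84) (nat_lit 7906357573) (nat_lit 96) (nat_lit 5) (nat_lit 102) (nat_lit 5) (nat_lit 97) (nat_lit 5) (nat_lit 363) (nat_lit 317) (nat_lit 265)) (XT.lf (nat_lit 0) (nat_lit 4301947281) (nat_lit 504) (nat_lit 5419006696) (nat_lit 84) (nat_lit 789501830) (nat_lit 91) (nat_lit 5) (nat_lit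 97) (nat_lit 5) (nat_lit 92) (nat_lit 5) (nat_lit 364) (nat_lit 317) (nat_lit 264)))) (XT.nd (nat_lit 188) (nat_lit 504) (nat_lit 0) (XT.nd (nat_lit 94) (nat_lit 0) (nat_lit 0) (XT.lf (nat_lit 0) (nat_lit 31704410) (nat_lit 336) (nat_lit 6643710310) (nat_lit 420) (nat_lit 4017627139) (nat_lit 87) (nat_lit 5) (nat_lit 91) (nat_lit 5) (nat_lit 92) (nat_lit 5) (nat_lit 365) (nat_lit 317) (nat_lit 263)) (XT.lf (nat_lit 0) (nat_lit 5709313841) (nat_lit 336) (nat_lit 3428446459) (nat_lit 420) (nat_lit 1742870378) (nat_lit 87) (nat_lit 5) (nat_lit 91) (nat_lit 5) (nat_lit 92) (nat_lit 5) (nat_lit 366) (nat_lit 317) (nat_lit 262))) (XT.nd (nat_lit 94) (nat_lit 0) (nat_lit 0) (XT.lf (nat_lit 0) (nat_lit 439110205) (nat_lit 420) (nat_lit 117152152) (nat_lit 504) (nat_lit 10518428649) (nat_lit 81) (nat_lit 5) (nat_lit 86) (nat_lit 5) (nat_lit 87) (nat_lit 5) (nat_lit 367) (nat_lit 317) (nat_lit 261)) (XT.lf (nat_lit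 0) (nat_lit 2937865019) (nat_lit 504) (nat_lit 5046233204) (nat_lit 84) (nat_lit 3288552166) (nat_lit 81) (nat_lit 5) (nat_lit 87) (nat_lit 5) (nat_lit 82) (nat_lit 5) (nat_lit 368) (nat_lit 317) (nat_lit 260))))) (XT.nd (nat_lit 54802) (nat_lit 0) (nat_lit 15876) (XT.nd (nat_lit 54614) (nat_lit 0) (nat_lit 16716) (XT.nd (nat_lit 54520) (nat_lit 0) (nat_lit 17136) (XT.lf (nat_lit 0) (nat_lit 676573676) (nat_lit 336) (nat_lit 4687180178) (nat_lit 420) (nat_lit 6113658787) (nat_lit 77) (nat_lit 5) (nat_lit 81) (nat_lit 5) (nat_lit 82) (nat_lit 5) (nat_lit 369) (nat_lit 317) (nat_lit 259)) (XT.lf (nat_lit 0) (nat_lit 826580324) (nat_lit 0) (nat_lit 826580324) (nat_lit 252) (nat_lit 1587878536) (nat_lit 281) (nat_lit 5) (nat_lit 281) (nat_lit 3) (nat_lit 284) (nat_lit 3) (nat_lit 318) (nat_lit 318) (nat_lit 309))) (XT.nd (nat_lit 94) (nat_lit 420) (nat_lit 0) (XT.lf (nat_lit 0) (nat_lit 4587214094) (nat_lit 0)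 (nat_lit 1246524364) (nat_lit 252) (nat_lit 663352004) (nat_lit 281) (nat_lit 5) (nat_lit 281) (nat_lit 3) (nat_lit 284) (nat_lit 3) (nat_lit 319) (nat_lit 318) (nat_lit 308)) (XT.lf (nat_lit 84) (nat_lit 1048089869) (nat_lit 0) (nat_lit 750896130) (nat_lit 420) (nat_lit 4715947303) (nat_lit 277) (nat_lit 5) (nat_lit 276) (nat_lit 3) (nat_lit 281) (nat_lit 5) (nat_lit 320) (nat_lit 318) (nat_lit 307)))) (XT.nd (nat_lit 188) (nat_lit 504) (nat_lit 0) (XT.nd (nat_lit 94) (nat_lit 336) (nat_lit 0) (XT.lf (nat_lit 84) (nat_lit 4077143596) (nat_lit 0) (nat_lit 168349440) (nat_lit 420) (nat_lit 2290202450) (nat_lit 277) (nat_lit 5) (nat_lit 276) (nat_lit 3) (nat_lit 281) (nat_lit 5) (nat_lit 321) (nat_lit 318) (nat_lit 306)) (XT.lf (nat_lit 0) (nat_lit 120647536) (nat_lit 420) (nat_lit 5965698967) (nat_lit 504) (nat_lit 473455419) (nat_lit 272) (nat_lit 5) (nat_lit 277) (nat_lit 5) (nat_lit 278) (nat_lit 5) (nat_lit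 322) (nat_lit 318) (nat_lit 305))) (XT.nd (nat_lit 94) (nat_lit 504) (nat_lit 0) (XT.lf (nat_lit 0) (nat_lit 2493183573) (nat_lit 420) (nat_lit 2873446107) (nat_lit 504) (nat_lit 1219525304) (nat_lit 272) (nat_lit 5) (nat_lit 277) (nat_lit 5) (nat_lit 278) (nat_lit 5) (nat_lit 323) (nat_lit 318) (nat_lit 304)) (XT.nd (nat_lit 94) (nat_lit 504) (nat_lit 0) (XT.lf (nat_lit 84) (nat_lit 264595017) (nat_lit 0) (nat_lit 4586156903) (nat_lit 504) (nat_lit 1765388729) (nat_lit 273) (nat_lit 5) (nat_lit 272) (nat_lit 5) (nat_lit 278) (nat_lit 5) (nat_lit 324) (nat_lit 318) (nat_lit 303)) (XT.lf (nat_lit 0) (nat_lit 561288729) (nat_lit 504) (nat_lit 3150457555) (nat_lit 588) (nat_lit 2937092238) (nat_lit 266) (nat_lit 5) (nat_lit 272) (nat_lit 5) (nat_lit 273) (nat_lit 5) (nat_lit 325) (nat_lit 318) (nat_lit 302))))))))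
noncomputable def xc27 : XT := (XT.nd (nat_lit 1598) (nat_lit 6552) (nat_lit 0) (XT.nd (nat_lit 752) (nat_lit 4872) (nat_lit 0) (XT.nd (nat_lit 376) (nat_lit 1260) (nat_lit 0) (XT.nd (nat_lit 188) (nat_lit 588) (nat_lit 0) (XT.nd (nat_lit 94) (nat_lit 0) (nat_lit 0) (XT.lf (nat_lit 84) (nat_lit 78661076) (nat_lit 0) (nat_lit 2759230320) (nat_lit 588) (nat_lit 3846869169) (nat_lit 267) (nat_lit 5) (nat_lit 266) (nat_lit 5) (nat_lit 273) (nat_lit 5) (nat_lit 326) (nat_lit 318) (nat_lit 301)) (XT.lf (nat_lit 84) (nat_lit 3417686977) (nat_lit 0) (nat_lit 1713754474) (nat_lit 588) (nat_lit 1592088301) (nat_lit 267) (nat_lit 5) (nat_lit 266) (nat_lit 5) (nat_lit 273) (nat_lit 5) (nat_lit 327) (nat_lit 318) (nat_lit 300))) (XT.nd (nat_lit 94) (nat_lit 0) (nat_lit 84) (XT.lf (nat_lit 84) (nat_lit 35198874) (nat_lit 0) (nat_lit 599464723) (nat_lit 672) (nat_lit 6131246251) (nat_lit 260) (nat_lit 5) (nat_lit 259) (nat_lit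 5) (nat_lit 267) (nat_lit 5) (nat_lit 328) (nat_lit 318) (nat_lit 299)) (XT.lf (nat_lit 0) (nat_lit 2855603910) (nat_lit 588) (nat_lit 3339945514) (nat_lit 84) (nat_lit 614967002) (nat_lit 260) (nat_lit 5) (nat_lit 267) (nat_lit 5) (nat_lit 261) (nat_lit 5) (nat_lit 329) (nat_lit 318) (nat_lit 298)))) (XT.nd (nat_lit 188) (nat_lit 672) (nat_lit 0) (XT.nd (nat_lit 94) (nat_lit 84) (nat_lit 0) (XT.lf (nat_lit 0) (nat_lit 95797324) (nat_lit 588) (nat_lit 4976951703) (nat_lit 672) (nat_lit 1786028306) (nat_lit 253) (nat_lit 5) (nat_lit 260) (nat_lit 5) (nat_lit 261) (nat_lit 5) (nat_lit 330) (nat_lit 318) (nat_lit 297)) (XT.lf (nat_lit 0) (nat_lit 396771082) (nat_lit 672) (nat_lit 3262912700) (nat_lit 84) (nat_lit 3250137189) (nat_lit 252) (nat_lit 5) (nat_lit 260) (nat_lit 5) (nat_lit 253) (nat_lit 5) (nat_lit 331) (nat_lit 318) (nat_lit 296))) (XT.nd (nat_lit 94) (nat_lit 0) (nat_lit 0) (XT.lf (nat_lit 0) (nat_lit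 277582174) (nat_lit 672) (nat_lit 2259998899) (nat_lit 756) (nat_lit 4426617791) (nat_lit 244) (nat_lit 5) (nat_lit 252) (nat_lit 5) (nat_lit 253) (nat_lit 5) (nat_lit 332) (nat_lit 318) (nat_lit 295)) (XT.lf (nat_lit 0) (nat_lit 3939383593) (nat_lit 672) (nat_lit 763601092) (nat_lit 756) (nat_lit 2318593073) (nat_lit 244) (nat_lit 5) (nat_lit 252) (nat_lit 5) (nat_lit 253) (nat_lit 5) (nat_lit 333) (nat_lit 318) (nat_lit 294))))) (XT.nd (nat_lit 376) (nat_lit 3192) (nat_lit 0) (XT.nd (nat_lit 188) (nat_lit 840) (nat_lit 0) (XT.nd (nat_lit 94) (nat_lit 84) (nat_lit 0) (XT.lf (nat_lit 0) (nat_lit 581462181) (nat_lit 756) (nat_lit 6294681464) (nat_lit 840) (nat_lit 206426056) (nat_lit 235) (nat_lit 5) (nat_lit 244) (nat_lit 5) (nat_lit 245) (nat_lit 5) (nat_lit 334) (nat_lit 318) (nat_lit 293)) (XT.lf (nat_lit 0) (nat_lit 1900099511) (nat_lit 840) (nat_lit 2806846710) (nat_lit 84) (nat_lit 2438960206) (nat_lit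 234) (nat_lit 5) (nat_lit 244) (nat_lit 5) (nat_lit 235) (nat_lit 5) (nat_lit 335) (nat_lit 318) (nat_lit 292))) (XT.nd (nat_lit 94) (nat_lit 0) (nat_lit 0) (XT.lf (nat_lit 0) (nat_lit 962749482) (nat_lit 840) (nat_lit 3044628598) (nat_lit 924) (nat_lit 3205613265) (nat_lit 224) (nat_lit 5) (nat_lit 234) (nat_lit 5) (nat_lit 235) (nat_lit 5) (nat_lit 336) (nat_lit 318) (nat_lit 291)) (XT.lf (nat_lit 0) (nat_lit 4851247948) (nat_lit 840) (nat_lit 1288892595) (nat_lit 924) (nat_lit 1143236212) (nat_lit 224) (nat_lit 5) (nat_lit 234) (nat_lit 5) (nat_lit 235) (nat_lit 5) (nat_lit 337) (nat_lit 318) (nat_lit 290)))) (XT.nd (nat_lit 188) (nat_lit 2184) (nat_lit 0) (XT.nd (nat_lit 94) (nat_lit 0) (nat_lit 0) (XT.lf (nat_lit 0) (nat_lit 916398795) (nat_lit 1008) (nat_lit 5894527990) (nat_lit 84) (nat_lit 546175111) (nat_lit 212) (nat_lit 5) (nat_lit 224) (nat_lit 5) (nat_lit 213) (nat_lit 5) (nat_lit 338) (nat_lit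 318) (nat_lit 289)) (XT.lf (nat_lit 0) (nat_lit 2988990810) (nat_lit 1008) (nat_lit 1985969197) (nat_lit 84) (nat_lit 2458657515) (nat_lit 212) (nat_lit 5) (nat_lit 224) (nat_lit 5) (nat_lit 213) (nat_lit 5) (nat_lit 339) (nat_lit 318) (nat_lit 288))) (XT.nd (nat_lit 94) (nat_lit 1176) (nat_lit 0) (XT.lf (nat_lit 0) (nat_lit 2027648515) (nat_lit 1008) (nat_lit 3054031866) (nat_lit 1092) (nat_lit 2432149166) (nat_lit 200) (nat_lit 5) (nat_lit 212) (nat_lit 5) (nat_lit 213) (nat_lit 5) (nat_lit 340) (nat_lit 318) (nat_lit 287)) (XT.nd (nat_lit 94) (nat_lit 1176) (nat_lit 0) (XT.lf (nat_lit 0) (nat_lit 6151128108) (nat_lit 1008) (nat_lit 1045806349) (nat_lit 1092) (nat_lit 400854455) (nat_lit 200) (nat_lit 5) (nat_lit 212) (nat_lit 5) (nat_lit 213) (nat_lit 5) (nat_lit 341) (nat_lit 318) (nat_lit 286)) (XT.lf (nat_lit 0) (nat_lit 1635426644) (nat_lit 1176) (nat_lit 4995839302) (nat_lit 84) (nat_lit 1053328553)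 (nat_lit 186) (nat_lit 5) (nat_lit 200) (nat_lit 5) (nat_lit 187) (nat_lit 5) (nat_lit 342) (nat_lit 318) (nat_lit 285))))))) (XT.nd (nat_lit 752) (nat_lit 2772) (nat_lit 0) (XT.nd (nat_lit 376) (nat_lit 1260) (nat_lit 0) (XT.nd (nat_lit 188) (nat_lit 1344) (nat_lit 0) (XT.nd (nat_lit 94) (nat_lit 1176) (nat_lit 0) (XT.lf (nat_lit 0) (nat_lit 3691934588) (nat_lit 1176) (nat_lit 862647950) (nat_lit 84) (nat_lit 3220409872) (nat_lit 186) (nat_lit 5) (nat_lit 200) (nat_lit 5) (nat_lit 187) (nat_lit 5) (nat_lit 343) (nat_lit 318) (nat_lit 284)) (XT.lf (nat_lit 0) (nat_lit 3410109112) (nat_lit 1176) (nat_lit 2376583076) (nat_lit 1260) (nat_lit 2082232930) (nat_lit 172) (nat_lit 5) (nat_lit 186) (nat_lit 5) (nat_lit 187) (nat_lit 5) (nat_lit 344) (nat_lit 318) (nat_lit 283))) (XT.nd (nat_lit 94) (nat_lit 1344) (nat_lit 0) (XT.lf (nat_lit 0) (nat_lit 7778258525) (nat_lit 1176) (nat_lit 119671864) (nat_lit 1260) (nat_lit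 69252298) (nat_lit 172) (nat_lit 5) (nat_lit 186) (nat_lit 5) (nat_lit 187) (nat_lit 5) (nat_lit 345) (nat_lit 318) (nat_lit 282)) (XT.lf (nat_lit 0) (nat_lit 1973311199) (nat_lit 1344) (nat_lit 3868154599) (nat_lit 84) (nat_lit 2226204563) (nat_lit 156) (nat_lit 5) (nat_lit 172) (nat_lit 5) (nat_lit 157) (nat_lit 5) (nat_lit 346) (nat_lit 318) (nat_lit 281)))) (XT.nd (nat_lit 188) (nat_lit 672) (nat_lit 0) (XT.nd (nat_lit 94) (nat_lit 0) (nat_lit 0) (XT.lf (nat_lit 0) (nat_lit 508982678) (nat_lit 588) (nat_lit 3521802361) (nat_lit 672) (nat_lit 4141822465) (nat_lit 149) (nat_lit 5) (nat_lit 156) (nat_lit 5) (nat_lit 157) (nat_lit 5) (nat_lit 347) (nat_lit 318) (nat_lit 280)) (XT.lf (nat_lit 0) (nat_lit 5045805438) (nat_lit 588) (nat_lit 1091313179) (nat_lit 672) (nat_lit 2144063156) (nat_lit 149) (nat_lit 5) (nat_lit 156) (nat_lit 5) (nat_lit 157) (nat_lit 5) (nat_lit 348) (nat_lit 318) (nat_lit 279))) (XT.nd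 (nat_lit 94) (nat_lit 84) (nat_lit 0) (XT.lf (nat_lit 0) (nat_lit 1286183122) (nat_lit 588) (nat_lit 6995993032) (nat_lit 672) (nat_lit 111671172) (nat_lit 142) (nat_lit 5) (nat_lit 149) (nat_lit 5) (nat_lit 150) (nat_lit 5) (nat_lit 349) (nat_lit 318) (nat_lit 278)) (XT.lf (nat_lit 0) (nat_lit 1936816082) (nat_lit 672) (nat_lit 2581028731) (nat_lit 84) (nat_lit 3991757079) (nat_lit 141) (nat_lit 5) (nat_lit 149) (nat_lit 5) (nat_lit 142) (nat_lit 5) (nat_lit 350) (nat_lit 318) (nat_lit 277))))) (XT.nd (nat_lit 376) (nat_lit 1512) (nat_lit 0) (XT.nd (nat_lit 188) (nat_lit 672) (nat_lit 0) (XT.nd (nat_lit 94) (nat_lit 0) (nat_lit 0) (XT.lf (nat_lit 0) (nat_lit 2070558945) (nat_lit 588) (nat_lit 1945308453) (nat_lit 672) (nat_lit 4613879493) (nat_lit 134) (nat_lit 5) (nat_lit 141) (nat_lit 5) (nat_lit 142) (nat_lit 5) (nat_lit 351) (nat_lit 318) (nat_lit 276)) (XT.lf (nat_lit 0) (nat_lit 6142750388) (nat_lit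 672) (nat_lit 1896292072) (nat_lit 84) (nat_lit 714978890) (nat_lit 134) (nat_lit 5) (nat_lit 142) (nat_lit 5) (nat_lit 135) (nat_lit 5) (nat_lit 352) (nat_lit 318) (nat_lit 275))) (XT.nd (nat_lit 94) (nat_lit 84) (nat_lit 0) (XT.lf (nat_lit 0) (nat_lit 2894041896) (nat_lit 588) (nat_lit 5440232694) (nat_lit 672) (nat_lit 547810736) (nat_lit 127) (nat_lit 5) (nat_lit 134) (nat_lit 5) (nat_lit 135) (nat_lit 5) (nat_lit 353) (nat_lit 318) (nat_lit 274)) (XT.lf (nat_lit 0) (nat_lit 1520205770) (nat_lit 672) (nat_lit 1211982265) (nat_lit 84) (nat_lit 6282226538) (nat_lit 126) (nat_lit 5) (nat_lit 134) (nat_lit 5) (nat_lit 127) (nat_lit 5) (nat_lit 354) (nat_lit 318) (nat_lit 273)))) (XT.nd (nat_lit 188) (nat_lit 1008) (nat_lit 0) (XT.nd (nat_lit 94) (nat_lit 0) (nat_lit 0) (XT.lf (nat_lit 0) (nat_lit 3631420392) (nat_lit 588) (nat_lit 5425874801) (nat_lit 84) (nat_lit 93569746) (nat_lit 120) (nat_lit 5) (nat_lit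 127) (nat_lit 5) (nat_lit 121) (nat_lit 5) (nat_lit 355) (nat_lit 318) (nat_lit 272)) (XT.lf (nat_lit 0) (nat_lit 5801608530) (nat_lit 588) (nat_lit 532874142) (nat_lit 84) (nat_lit 2957133727) (nat_lit 120) (nat_lit 5) (nat_lit 127) (nat_lit 5) (nat_lit 121) (nat_lit 5) (nat_lit 356) (nat_lit 318) (nat_lit 271))) (XT.nd (nat_lit 94) (nat_lit 504) (nat_lit 0) (XT.lf (nat_lit 0) (nat_lit 4547522943) (nat_lit 504) (nat_lit 3490593809) (nat_lit 588) (nat_lit 1398511685) (nat_lit 114) (nat_lit 5) (nat_lit 120) (nat_lit 5) (nat_lit 121) (nat_lit 5) (nat_lit 357) (nat_lit 318) (nat_lit 270)) (XT.nd (nat_lit 94) (nat_lit 0) (nat_lit 0) (XT.lf (nat_lit 0) (nat_lit 152513837) (nat_lit 420) (nat_lit 553165479) (nat_lit 504) (nat_lit 8881222866) (nat_lit 108) (nat_lit 5) (nat_lit 113) (nat_lit 5) (nat_lit 114) (nat_lit 5) (nat_lit 358) (nat_lit 318) (nat_lit 269)) (XT.lf (nat_lit 0) (nat_lit 2877012160) (nat_lit 504)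 (nat_lit 4382042400) (nat_lit 84) (nat_lit 2481318580) (nat_lit 108) (nat_lit 5) (nat_lit 114) (nat_lit 5) (nat_lit 109) (nat_lit 5) (nat_lit 359) (nat_lit 318) (nat_lit 268))))))))
noncomputable def xc28 : XT := (XT.nd (nat_lit 56024) (nat_lit 0) (nat_lit 9912) (XT.nd (nat_lit 752) (nat_lit 420) (nat_lit 0) (XT.nd (nat_lit 376) (nat_lit 840) (nat_lit 0) (XT.nd (nat_lit 188) (nat_lit 504) (nat_lit 0) (XT.nd (nat_lit 94) (nat_lit 0) (nat_lit 0) (XT.lf (nat_lit 0) (nat_lit 783787237) (nat_lit 504) (nat_lit 4302417164) (nat_lit 588) (nat_lit 4813128404) (nat_lit 102) (nat_lit 5) (nat_lit 108) (nat_lit 5) (nat_lit 109) (nat_lit 5) (nat_lit 360) (nat_lit 318) (nat_lit 267)) (XT.lf (nat_lit 0) (nat_lit 6146984677) (nat_lit 504) (nat_lit 1219363629) (nat_lit 588) (nat_lit 2696636913) (nat_lit 102) (nat_lit 5) (nat_lit 108) (nat_lit 5) (nat_lit 109) (nat_lit 5) (nat_lit 361) (nat_lit 318) (nat_lit 266))) (XT.nd (nat_lit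 94) (nat_lit 84) (nat_lit 0) (XT.lf (nat_lit 0) (nat_lit 1400868084) (nat_lit 420) (nat_lit 8307803602) (nat_lit 504) (nat_lit 523124627) (nat_lit 97) (nat_lit 5) (nat_lit 102) (nat_lit 5) (nat_lit 103) (nat_lit 5) (nat_lit 362) (nat_lit 318) (nat_lit 265)) (XT.lf (nat_lit 0) (nat_lit 1695867274) (nat_lit 504) (nat_lit 3523476432) (nat_lit 84) (nat_lit 5185479527) (nat_lit 96) (nat_lit 5) (nat_lit 102) (nat_lit 5) (nat_lit 97) (nat_lit 5) (nat_lit 363) (nat_lit 318) (nat_lit 264)))) (XT.nd (nat_lit 188) (nat_lit 420) (nat_lit 0) (XT.nd (nat_lit 94) (nat_lit 0) (nat_lit 0) (XT.lf (nat_lit 0) (nat_lit 1929503862) (nat_lit 420) (nat_lit 2022815916) (nat_lit 504) (nat_lit 6631180716) (nat_lit 91) (nat_lit 5) (nat_lit 96) (nat_lit 5) (nat_lit 97) (nat_lit 5) (nat_lit 364) (nat_lit 318) (nat_lit 263)) (XT.lf (nat_lit 0) (nat_lit 6288013954) (nat_lit 504) (nat_lit 3207502206) (nat_lit 84) (nat_lit 1271730878) (nat_lit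 91) (nat_lit 5) (nat_lit 97) (nat_lit 5) (nat_lit 92) (nat_lit 5) (nat_lit 365) (nat_lit 318) (nat_lit 262))) (XT.nd (nat_lit 94) (nat_lit 84) (nat_lit 0) (XT.lf (nat_lit 0) (nat_lit 2383454990) (nat_lit 336) (nat_lit 6317740129) (nat_lit 420) (nat_lit 2255142170) (nat_lit 87) (nat_lit 5) (nat_lit 91) (nat_lit 5) (nat_lit 92) (nat_lit 5) (nat_lit 366) (nat_lit 318) (nat_lit 261)) (XT.lf (nat_lit 0) (nat_lit 32368044) (nat_lit 420) (nat_lit 2988622925) (nat_lit 84) (nat_lit 8130227919) (nat_lit 86) (nat_lit 5) (nat_lit 91) (nat_lit 5) (nat_lit 87) (nat_lit 5) (nat_lit 367) (nat_lit 318) (nat_lit 260))))) (XT.nd (nat_lit 54896) (nat_lit 0) (nat_lit 15456) (XT.nd (nat_lit 54708) (nat_lit 0) (nat_lit 16380) (XT.nd (nat_lit 94) (nat_lit 0) (nat_lit 0) (XT.lf (nat_lit 0) (nat_lit 2339311501) (nat_lit 504) (nat_lit 8605439060) (nat_lit 84) (nat_lit 406691737) (nat_lit 81) (nat_lit 5) (nat_lit 87) (nat_lit 5) (nat_lit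 82) (nat_lit 5) (nat_lit 368) (nat_lit 318) (nat_lit 259)) (XT.lf (nat_lit 0) (nat_lit 4742040965) (nat_lit 504) (nat_lit 2917960741) (nat_lit 84) (nat_lit 3896921171) (nat_lit 81) (nat_lit 5) (nat_lit 87) (nat_lit 5) (nat_lit 82) (nat_lit 5) (nat_lit 369) (nat_lit 318) (nat_lit 258))) (XT.nd (nat_lit 94) (nat_lit 0) (nat_lit 0) (XT.lf (nat_lit 0) (nat_lit 882357208) (nat_lit 420) (nat_lit 1187112446) (nat_lit 420) (nat_lit 1187112446) (nat_lit 276) (nat_lit 3) (nat_lit 281) (nat_lit 3) (nat_lit 281) (nat_lit 5) (nat_lit 319) (nat_lit 319) (nat_lit 307)) (XT.lf (nat_lit 84) (nat_lit 543314903) (nat_lit 0) (nat_lit 3619089507) (nat_lit 420) (nat_lit 2370105321) (nat_lit 277) (nat_lit 5) (nat_lit 276) (nat_lit 3) (nat_lit 281) (nat_lit 5) (nat_lit 320) (nat_lit 319) (nat_lit 306)))) (XT.nd (nat_lit 188) (nat_lit 504) (nat_lit 0) (XT.nd (nat_lit 94) (nat_lit 0) (nat_lit 0) (XT.lf (nat_lit 0) (nat_lit 8247991)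 (nat_lit 420) (nat_lit 3006457046) (nat_lit 504) (nat_lit 3540074684) (nat_lit 271) (nat_lit 5) (nat_lit 276) (nat_lit 3) (nat_lit 277) (nat_lit 5) (nat_lit 321) (nat_lit 319) (nat_lit 305)) (XT.lf (nat_lit 0) (nat_lit 2319052222) (nat_lit 420) (nat_lit 7012648) (nat_lit 504) (nat_lit 4253952267) (nat_lit 271) (nat_lit 5) (nat_lit 276) (nat_lit 3) (nat_lit 277) (nat_lit 5) (nat_lit 322) (nat_lit 319) (nat_lit 304))) (XT.nd (nat_lit 94) (nat_lit 504) (nat_lit 0) (XT.lf (nat_lit 84) (nat_lit 3094935477) (nat_lit 0) (nat_lit 1545390746) (nat_lit 504) (nat_lit 1967708782) (nat_lit 272) (nat_lit 5) (nat_lit 271) (nat_lit 5) (nat_lit 277) (nat_lit 5) (nat_lit 323) (nat_lit 319) (nat_lit 303)) (XT.lf (nat_lit 0) (nat_lit 299140192) (nat_lit 504) (nat_lit 399986417) (nat_lit 588) (nat_lit 5940521278) (nat_lit 265) (nat_lit 5) (nat_lit 271) (nat_lit 5) (nat_lit 272) (nat_lit 5) (nat_lit 324) (nat_lit 319) (nat_lit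 302)))))) (XT.nd (nat_lit 752) (nat_lit 4452) (nat_lit 0) (XT.nd (nat_lit 376) (nat_lit 588) (nat_lit 0) (XT.nd (nat_lit 188) (nat_lit 588) (nat_lit 0) (XT.nd (nat_lit 94) (nat_lit 0) (nat_lit 0) (XT.lf (nat_lit 0) (nat_lit 2538742698) (nat_lit 504) (nat_lit 3882479434) (nat_lit 588) (nat_lit 252309476) (nat_lit 266) (nat_lit 5) (nat_lit 272) (nat_lit 5) (nat_lit 273) (nat_lit 5) (nat_lit 325) (nat_lit 319) (nat_lit 301)) (XT.lf (nat_lit 0) (nat_lit 4773865764) (nat_lit 504) (nat_lit 679793154) (nat_lit 588) (nat_lit 1257151911) (nat_lit 266) (nat_lit 5) (nat_lit 272) (nat_lit 5) (nat_lit 273) (nat_lit 5) (nat_lit 326) (nat_lit 319) (nat_lit 300))) (XT.nd (nat_lit 94) (nat_lit 0) (nat_lit 0) (XT.lf (nat_lit 0) (nat_lit 264627557) (nat_lit 588) (nat_lit 4132626847) (nat_lit 672) (nat_lit 2353750454) (nat_lit 259) (nat_lit 5) (nat_lit 266) (nat_lit 5) (nat_lit 267) (nat_lit 5) (nat_lit 327) (nat_lit 319) (nat_lit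 299)) (XT.lf (nat_lit 0) (nat_lit 2420871302) (nat_lit 588) (nat_lit 832392854) (nat_lit 672) (nat_lit 3540948116) (nat_lit 259) (nat_lit 5) (nat_lit 266) (nat_lit 5) (nat_lit 267) (nat_lit 5) (nat_lit 328) (nat_lit 319) (nat_lit 298)))) (XT.nd (nat_lit 188) (nat_lit 588) (nat_lit 0) (XT.nd (nat_lit 94) (nat_lit 0) (nat_lit 0) (XT.lf (nat_lit 84) (nat_lit 2568049521) (nat_lit 0) (nat_lit 2021372556) (nat_lit 672) (nat_lit 2251068671) (nat_lit 260) (nat_lit 5) (nat_lit 259) (nat_lit 5) (nat_lit 267) (nat_lit 5) (nat_lit 329) (nat_lit 319) (nat_lit 297)) (XT.lf (nat_lit 84) (nat_lit 6039137387) (nat_lit 0) (nat_lit 717010670) (nat_lit 672) (nat_lit 134213465) (nat_lit 260) (nat_lit 5) (nat_lit 259) (nat_lit 5) (nat_lit 267) (nat_lit 5) (nat_lit 330) (nat_lit 319) (nat_lit 296))) (XT.nd (nat_lit 94) (nat_lit 0) (nat_lit 0) (XT.lf (nat_lit 0) (nat_lit 1964459228) (nat_lit 672) (nat_lit 4293380329) (nat_lit 84)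 (nat_lit 684737780) (nat_lit 252) (nat_lit 5) (nat_lit 260) (nat_lit 5) (nat_lit 253) (nat_lit 5) (nat_lit 331) (nat_lit 319) (nat_lit 295)) (XT.lf (nat_lit 0) (nat_lit 4067092646) (nat_lit 672) (nat_lit 783318885) (nat_lit 84) (nat_lit 2147778032) (nat_lit 252) (nat_lit 5) (nat_lit 260) (nat_lit 5) (nat_lit 253) (nat_lit 5) (nat_lit 332) (nat_lit 319) (nat_lit 294))))) (XT.nd (nat_lit 376) (nat_lit 2940) (nat_lit 0) (XT.nd (nat_lit 188) (nat_lit 756) (nat_lit 0) (XT.nd (nat_lit 94) (nat_lit 84) (nat_lit 0) (XT.lf (nat_lit 0) (nat_lit 2838121412) (nat_lit 672) (nat_lit 3351983068) (nat_lit 756) (nat_lit 866822174) (nat_lit 244) (nat_lit 5) (nat_lit 252) (nat_lit 5) (nat_lit 253) (nat_lit 5) (nat_lit 333) (nat_lit 319) (nat_lit 293)) (XT.lf (nat_lit 0) (nat_lit 1173536326) (nat_lit 756) (nat_lit 595475977) (nat_lit 84) (nat_lit 5350053867) (nat_lit 243) (nat_lit 5) (nat_lit 252) (nat_lit 5) (nat_lit 244) (nat_lit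 5) (nat_lit 334) (nat_lit 319) (nat_lit 292))) (XT.nd (nat_lit 94) (nat_lit 0) (nat_lit 0) (XT.lf (nat_lit 0) (nat_lit 3140351946) (nat_lit 756) (nat_lit 80277834) (nat_lit 840) (nat_lit 3963454814) (nat_lit 234) (nat_lit 5) (nat_lit 243) (nat_lit 5) (nat_lit 244) (nat_lit 5) (nat_lit 335) (nat_lit 319) (nat_lit 291)) (XT.lf (nat_lit 0) (nat_lit 5285576264) (nat_lit 840) (nat_lit 317133709) (nat_lit 84) (nat_lit 1649806306) (nat_lit 234) (nat_lit 5) (nat_lit 244) (nat_lit 5) (nat_lit 235) (nat_lit 5) (nat_lit 336) (nat_lit 319) (nat_lit 290)))) (XT.nd (nat_lit 188) (nat_lit 1092) (nat_lit 0) (XT.nd (nat_lit 94) (nat_lit 924) (nat_lit 0) (XT.lf (nat_lit 0) (nat_lit 58446057) (nat_lit 924) (nat_lit 3784274737) (nat_lit 84) (nat_lit 3481279627) (nat_lit 223) (nat_lit 5) (nat_lit 234) (nat_lit 5) (nat_lit 224) (nat_lit 5) (nat_lit 337) (nat_lit 319) (nat_lit 289)) (XT.lf (nat_lit 0) (nat_lit 52627861) (nat_lit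 924) (nat_lit 1993126596) (nat_lit 1008) (nat_lit 5353212246) (nat_lit 212) (nat_lit 5) (nat_lit 223) (nat_lit 5) (nat_lit 224) (nat_lit 5) (nat_lit 338) (nat_lit 319) (nat_lit 288))) (XT.nd (nat_lit 94) (nat_lit 1092) (nat_lit 0) (XT.lf (nat_lit 0) (nat_lit 4032551633) (nat_lit 924) (nat_lit 36657420) (nat_lit 1008) (nat_lit 3407815638) (nat_lit 212) (nat_lit 5) (nat_lit 223) (nat_lit 5) (nat_lit 224) (nat_lit 5) (nat_lit 339) (nat_lit 319) (nat_lit 287)) (XT.nd (nat_lit 94) (nat_lit 84) (nat_lit 0) (XT.lf (nat_lit 0) (nat_lit 515227164) (nat_lit 1008) (nat_lit 5602333544) (nat_lit 1092) (nat_lit 1441072398) (nat_lit 200) (nat_lit 5) (nat_lit 212) (nat_lit 5) (nat_lit 213) (nat_lit 5) (nat_lit 340) (nat_lit 319) (nat_lit 286)) (XT.lf (nat_lit 0) (nat_lit 549531298) (nat_lit 1092) (nat_lit 3034716714) (nat_lit 84) (nat_lit 4059111910) (nat_lit 199) (nat_lit 5) (nat_lit 212) (nat_lit 5) (nat_lit 200) (nat_lit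 5) (nat_lit 341) (nat_lit 319) (nat_lit 285))))))))
noncomputable def xc29 : XT := (XT.nd (nat_lit 1598) (nat_lit 2688) (nat_lit 0) (XT.nd (nat_lit 752) (nat_lit 2940) (nat_lit 0) (XT.nd (nat_lit 376) (nat_lit 1932) (nat_lit 0) (XT.nd (nat_lit 188) (nat_lit 1260) (nat_lit 0) (XT.nd (nat_lit 94) (nat_lit 0) (nat_lit 0) (XT.lf (nat_lit 0) (nat_lit 1050889690) (nat_lit 1092) (nat_lit 1472603501) (nat_lit 1176) (nat_lit 5208252262) (nat_lit 186) (nat_lit 5) (nat_lit 199) (nat_lit 5) (nat_lit 200) (nat_lit 5) (nat_lit 342) (nat_lit 319) (nat_lit 284)) (XT.lf (nat_lit 0) (nat_lit 4538148212) (nat_lit 1176) (nat_lit 2558618965) (nat_lit 84) (nat_lit 726690639) (nat_lit 186) (nat_lit 5) (nat_lit 200) (nat_lit 5) (nat_lit 187) (nat_lit 5) (nat_lit 343) (nat_lit 319) (nat_lit 283))) (XT.nd (nat_lit 94) (nat_lit 84) (nat_lit 0) (XT.lf (nat_lit 0) (nat_lit 1655521008) (nat_lit 1176) (nat_lit 4933627992) (nat_lit 1260)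 (nat_lit 1329611379) (nat_lit 172) (nat_lit 5) (nat_lit 186) (nat_lit 5) (nat_lit 187) (nat_lit 5) (nat_lit 344) (nat_lit 319) (nat_lit 282)) (XT.lf (nat_lit 0) (nat_lit 643379606) (nat_lit 1260) (nat_lit 2024640587) (nat_lit 84) (nat_lit 5349654193) (nat_lit 171) (nat_lit 5) (nat_lit 186) (nat_lit 5) (nat_lit 172) (nat_lit 5) (nat_lit 345) (nat_lit 319) (nat_lit 281)))) (XT.nd (nat_lit 188) (nat_lit 672) (nat_lit 0) (XT.nd (nat_lit 94) (nat_lit 0) (nat_lit 0) (XT.lf (nat_lit 0) (nat_lit 2324584634) (nat_lit 1260) (nat_lit 294064191) (nat_lit 1344) (nat_lit 5501523852) (nat_lit 156) (nat_lit 5) (nat_lit 171) (nat_lit 5) (nat_lit 172) (nat_lit 5) (nat_lit 346) (nat_lit 319) (nat_lit 280)) (XT.lf (nat_lit 0) (nat_lit 4643065475) (nat_lit 1344) (nat_lit 1450151369) (nat_lit 84) (nat_lit 2132935470) (nat_lit 156) (nat_lit 5) (nat_lit 172) (nat_lit 5) (nat_lit 157) (nat_lit 5) (nat_lit 347) (nat_lit 319) (nat_lit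 279))) (XT.nd (nat_lit 94) (nat_lit 84) (nat_lit 0) (XT.lf (nat_lit 0) (nat_lit 3033456421) (nat_lit 588) (nat_lit 3676891535) (nat_lit 672) (nat_lit 1625599456) (nat_lit 149) (nat_lit 5) (nat_lit 156) (nat_lit 5) (nat_lit 157) (nat_lit 5) (nat_lit 348) (nat_lit 319) (nat_lit 278)) (XT.lf (nat_lit 0) (nat_lit 348254565) (nat_lit 672) (nat_lit 820276566) (nat_lit 84) (nat_lit 7281528990) (nat_lit 148) (nat_lit 5) (nat_lit 156) (nat_lit 5) (nat_lit 149) (nat_lit 5) (nat_lit 349) (nat_lit 319) (nat_lit 277))))) (XT.nd (nat_lit 376) (nat_lit 1176) (nat_lit 0) (XT.nd (nat_lit 188) (nat_lit 1176) (nat_lit 0) (XT.nd (nat_lit 94) (nat_lit 0) (nat_lit 0) (XT.lf (nat_lit 0) (nat_lit 2351292490) (nat_lit 672) (nat_lit 4774730881) (nat_lit 84) (nat_lit 1441102335) (nat_lit 141) (nat_lit 5) (nat_lit 149) (nat_lit 5) (nat_lit 142) (nat_lit 5) (nat_lit 350) (nat_lit 319) (nat_lit 276)) (XT.lf (nat_lit 0) (nat_lit 4387220873)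 (nat_lit 672) (nat_lit 187529890) (nat_lit 84) (nat_lit 4113857429) (nat_lit 141) (nat_lit 5) (nat_lit 149) (nat_lit 5) (nat_lit 142) (nat_lit 5) (nat_lit 351) (nat_lit 319) (nat_lit 275))) (XT.nd (nat_lit 94) (nat_lit 588) (nat_lit 0) (XT.lf (nat_lit 0) (nat_lit 4579380615) (nat_lit 588) (nat_lit 1903103688) (nat_lit 672) (nat_lit 2331389460) (nat_lit 134) (nat_lit 5) (nat_lit 141) (nat_lit 5) (nat_lit 142) (nat_lit 5) (nat_lit 352) (nat_lit 319) (nat_lit 274)) (XT.lf (nat_lit 0) (nat_lit 503739968) (nat_lit 588) (nat_lit 8106880398) (nat_lit 672) (nat_lit 333260304) (nat_lit 127) (nat_lit 5) (nat_lit 134) (nat_lit 5) (nat_lit 135) (nat_lit 5) (nat_lit 353) (nat_lit 319) (nat_lit 273)))) (XT.nd (nat_lit 188) (nat_lit 588) (nat_lit 0) (XT.nd (nat_lit 94) (nat_lit 504) (nat_lit 0) (XT.lf (nat_lit 0) (nat_lit 1708616228) (nat_lit 672) (nat_lit 3690136147) (nat_lit 84) (nat_lit 3678093184) (nat_lit 126) (nat_lit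 5) (nat_lit 134) (nat_lit 5) (nat_lit 127) (nat_lit 5) (nat_lit 354) (nat_lit 319) (nat_lit 272)) (XT.lf (nat_lit 0) (nat_lit 1174702020) (nat_lit 504) (nat_lit 2598373561) (nat_lit 588) (nat_lit 5441660785) (nat_lit 120) (nat_lit 5) (nat_lit 126) (nat_lit 5) (nat_lit 127) (nat_lit 5) (nat_lit 355) (nat_lit 319) (nat_lit 271))) (XT.nd (nat_lit 94) (nat_lit 588) (nat_lit 0) (XT.lf (nat_lit 0) (nat_lit 5897351030) (nat_lit 588) (nat_lit 3145766947) (nat_lit 84) (nat_lit 313783913) (nat_lit 120) (nat_lit 5) (nat_lit 127) (nat_lit 5) (nat_lit 121) (nat_lit 5) (nat_lit 356) (nat_lit 319) (nat_lit 270)) (XT.nd (nat_lit 94) (nat_lit 84) (nat_lit 0) (XT.lf (nat_lit 0) (nat_lit 1859150488) (nat_lit 504) (nat_lit 6228540723) (nat_lit 588) (nat_lit 1415643372) (nat_lit 114) (nat_lit 5) (nat_lit 120) (nat_lit 5) (nat_lit 121) (nat_lit 5) (nat_lit 357) (nat_lit 319) (nat_lit 269)) (XT.lf (nat_lit 0) (nat_lit 667231560)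 (nat_lit 588) (nat_lit 2628605590) (nat_lit 84) (nat_lit 6358459198) (nat_lit 113) (nat_lit 5) (nat_lit 120) (nat_lit 5) (nat_lit 114) (nat_lit 5) (nat_lit 358) (nat_lit 319) (nat_lit 268))))))) (XT.nd (nat_lit 752) (nat_lit 840) (nat_lit 0) (XT.nd (nat_lit 376) (nat_lit 924) (nat_lit 0) (XT.nd (nat_lit 188) (nat_lit 504) (nat_lit 0) (XT.nd (nat_lit 94) (nat_lit 0) (nat_lit 0) (XT.lf (nat_lit 0) (nat_lit 2526951686) (nat_lit 420) (nat_lit 241697893) (nat_lit 504) (nat_lit 7041247763) (nat_lit 108) (nat_lit 5) (nat_lit 113) (nat_lit 5) (nat_lit 114) (nat_lit 5) (nat_lit 359) (nat_lit 319) (nat_lit 267)) (XT.lf (nat_lit 0) (nat_lit 4948714197) (nat_lit 504) (nat_lit 2152998040) (nat_lit 84) (nat_lit 2868050242) (nat_lit 108) (nat_lit 5) (nat_lit 114) (nat_lit 5) (nat_lit 109) (nat_lit 5) (nat_lit 360) (nat_lit 319) (nat_lit 266))) (XT.nd (nat_lit 94) (nat_lit 0) (nat_lit 0) (XT.lf (nat_lit 0) (nat_lit 3144664274)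 (nat_lit 504) (nat_lit 4044159157) (nat_lit 588) (nat_lit 2945823222) (nat_lit 102) (nat_lit 5) (nat_lit 108) (nat_lit 5) (nat_lit 109) (nat_lit 5) (nat_lit 361) (nat_lit 319) (nat_lit 265)) (XT.lf (nat_lit 0) (nat_lit 8600679090) (nat_lit 504) (nat_lit 879895488) (nat_lit 588) (nat_lit 824430162) (nat_lit 102) (nat_lit 5) (nat_lit 108) (nat_lit 5) (nat_lit 109) (nat_lit 5) (nat_lit 362) (nat_lit 319) (nat_lit 264)))) (XT.nd (nat_lit 188) (nat_lit 420) (nat_lit 0) (XT.nd (nat_lit 94) (nat_lit 0) (nat_lit 0) (XT.lf (nat_lit 0) (nat_lit 1356811922) (nat_lit 504) (nat_lit 6747521876) (nat_lit 84) (nat_lit 2375121747) (nat_lit 96) (nat_lit 5) (nat_lit 102) (nat_lit 5) (nat_lit 97) (nat_lit 5) (nat_lit 363) (nat_lit 319) (nat_lit 263)) (XT.lf (nat_lit 0) (nat_lit 3576953003) (nat_lit 504) (nat_lit 1354273202) (nat_lit 84) (nat_lit 5728023239) (nat_lit 96) (nat_lit 5) (nat_lit 102) (nat_lit 5) (nat_lit 97) (nat_lit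 5) (nat_lit 364) (nat_lit 319) (nat_lit 262))) (XT.nd (nat_lit 94) (nat_lit 0) (nat_lit 0) (XT.lf (nat_lit 0) (nat_lit 4239993486) (nat_lit 420) (nat_lit 1629451930) (nat_lit 504) (nat_lit 4974873126) (nat_lit 91) (nat_lit 5) (nat_lit 96) (nat_lit 5) (nat_lit 97) (nat_lit 5) (nat_lit 365) (nat_lit 319) (nat_lit 261)) (XT.lf (nat_lit 0) (nat_lit 8227062757) (nat_lit 504) (nat_lit 1065934181) (nat_lit 84) (nat_lit 1742104496) (nat_lit 91) (nat_lit 5) (nat_lit 97) (nat_lit 5) (nat_lit 92) (nat_lit 5) (nat_lit 366) (nat_lit 319) (nat_lit 260))))) (XT.nd (nat_lit 54990) (nat_lit 0) (nat_lit 15456) (XT.nd (nat_lit 188) (nat_lit 420) (nat_lit 0) (XT.nd (nat_lit 94) (nat_lit 84) (nat_lit 0) (XT.lf (nat_lit 0) (nat_lit 4670812583) (nat_lit 336) (nat_lit 6012144149) (nat_lit 420) (nat_lit 547875347) (nat_lit 87) (nat_lit 5) (nat_lit 91) (nat_lit 5) (nat_lit 92) (nat_lit 5) (nat_lit 367) (nat_lit 319) (nat_lit 259))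 (XT.lf (nat_lit 0) (nat_lit 1722937129) (nat_lit 420) (nat_lit 890914967) (nat_lit 84) (nat_lit 8818789594) (nat_lit 86) (nat_lit 5) (nat_lit 91) (nat_lit 5) (nat_lit 87) (nat_lit 5) (nat_lit 368) (nat_lit 319) (nat_lit 258))) (XT.nd (nat_lit 54708) (nat_lit 0) (nat_lit 16380) (XT.lf (nat_lit 0) (nat_lit 4075549094) (nat_lit 504) (nat_lit 6650340622) (nat_lit 84) (nat_lit 913758935) (nat_lit 81) (nat_lit 5) (nat_lit 87) (nat_lit 5) (nat_lit 82) (nat_lit 5) (nat_lit 369) (nat_lit 319) (nat_lit 257)) (XT.lf (nat_lit 0) (nat_lit 3252081120) (nat_lit 420) (nat_lit 12377426) (nat_lit 420) (nat_lit 12377426) (nat_lit 276) (nat_lit 3) (nat_lit 281) (nat_lit 3) (nat_lit 281) (nat_lit 5) (nat_lit 320) (nat_lit 320) (nat_lit 305)))) (XT.nd (nat_lit 188) (nat_lit 504) (nat_lit 0) (XT.nd (nat_lit 94) (nat_lit 0) (nat_lit 0) (XT.lf (nat_lit 0) (nat_lit 2238358233) (nat_lit 420) (nat_lit 3642783758) (nat_lit 504) (nat_lit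 695617553) (nat_lit 271) (nat_lit 5) (nat_lit 276) (nat_lit 3) (nat_lit 277) (nat_lit 5) (nat_lit 321) (nat_lit 320) (nat_lit 304)) (XT.lf (nat_lit 0) (nat_lit 4505514794) (nat_lit 420) (nat_lit 666922090) (nat_lit 504) (nat_lit 1430996450) (nat_lit 271) (nat_lit 5) (nat_lit 276) (nat_lit 3) (nat_lit 277) (nat_lit 5) (nat_lit 322) (nat_lit 320) (nat_lit 303))) (XT.nd (nat_lit 94) (nat_lit 0) (nat_lit 0) (XT.lf (nat_lit 0) (nat_lit 141848614) (nat_lit 504) (nat_lit 4235896224) (nat_lit 588) (nat_lit 2255260009) (nat_lit 265) (nat_lit 5) (nat_lit 271) (nat_lit 5) (nat_lit 272) (nat_lit 5) (nat_lit 323) (nat_lit 320) (nat_lit 302)) (XT.nd (nat_lit 94) (nat_lit 0) (nat_lit 0) (XT.lf (nat_lit 0) (nat_lit 2328413629) (nat_lit 504) (nat_lit 1165319123) (nat_lit 588) (nat_lit 3171690313) (nat_lit 265) (nat_lit 5) (nat_lit 271) (nat_lit 5) (nat_lit 272) (nat_lit 5) (nat_lit 324) (nat_lit 320) (nat_lit 301)) (XT.lf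 (nat_lit 84) (nat_lit 1989646069) (nat_lit 0) (nat_lit 2527501477) (nat_lit 588) (nat_lit 2183798086) (nat_lit 266) (nat_lit 5) (nat_lit 265) (nat_lit 5) (nat_lit 272) (nat_lit 5) (nat_lit 325) (nat_lit 320) (nat_lit 300))))))))
noncomputable def xc30 : XT := (XT.nd (nat_lit 1504) (nat_lit 7224) (nat_lit 0) (XT.nd (nat_lit 752) (nat_lit 3696) (nat_lit 0) (XT.nd (nat_lit 376) (nat_lit 1260) (nat_lit 0) (XT.nd (nat_lit 188) (nat_lit 0) (nat_lit 84) (XT.nd (nat_lit 94) (nat_lit 588) (nat_lit 0) (XT.lf (nat_lit 84) (nat_lit 5217050150) (nat_lit 0) (nat_lit 1485668382) (nat_lit 588) (nat_lit 37102386) (nat_lit 266) (nat_lit 5) (nat_lit 265) (nat_lit 5) (nat_lit 272) (nat_lit 5) (nat_lit 326) (nat_lit 320) (nat_lit 299)) (XT.lf (nat_lit 84) (nat_lit 1727687838) (nat_lit 0) (nat_lit 341260133) (nat_lit 672) (nat_lit 4712375807) (nat_lit 259) (nat_lit 5) (nat_lit 258) (nat_lit 5) (nat_lit 266) (nat_lit 5) (nat_lit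 327) (nat_lit 320) (nat_lit 298))) (XT.nd (nat_lit 94) (nat_lit 0) (nat_lit 0) (XT.lf (nat_lit 0) (nat_lit 4183947796) (nat_lit 588) (nat_lit 1774215405) (nat_lit 672) (nat_lit 867705521) (nat_lit 259) (nat_lit 5) (nat_lit 266) (nat_lit 5) (nat_lit 267) (nat_lit 5) (nat_lit 328) (nat_lit 320) (nat_lit 297)) (XT.lf (nat_lit 84) (nat_lit 1583625210) (nat_lit 0) (nat_lit 4722552687) (nat_lit 672) (nat_lit 567456215) (nat_lit 260) (nat_lit 5) (nat_lit 259) (nat_lit 5) (nat_lit 267) (nat_lit 5) (nat_lit 329) (nat_lit 320) (nat_lit 296)))) (XT.nd (nat_lit 188) (nat_lit 672) (nat_lit 0) (XT.nd (nat_lit 94) (nat_lit 0) (nat_lit 0) (XT.lf (nat_lit 0) (nat_lit 1482708602) (nat_lit 672) (nat_lit 1907665597) (nat_lit 756) (nat_lit 3533869262) (nat_lit 251) (nat_lit 5) (nat_lit 259) (nat_lit 5) (nat_lit 260) (nat_lit 5) (nat_lit 330) (nat_lit 320) (nat_lit 295)) (XT.lf (nat_lit 84) (nat_lit 1553584063) (nat_lit 0) (nat_lit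 1972472753) (nat_lit 756) (nat_lit 3452033957) (nat_lit 252) (nat_lit 5) (nat_lit 251) (nat_lit 5) (nat_lit 260) (nat_lit 5) (nat_lit 331) (nat_lit 320) (nat_lit 294))) (XT.nd (nat_lit 94) (nat_lit 672) (nat_lit 0) (XT.lf (nat_lit 84) (nat_lit 5110978253) (nat_lit 0) (nat_lit 468783539) (nat_lit 756) (nat_lit 1455495504) (nat_lit 252) (nat_lit 5) (nat_lit 251) (nat_lit 5) (nat_lit 260) (nat_lit 5) (nat_lit 332) (nat_lit 320) (nat_lit 293)) (XT.lf (nat_lit 0) (nat_lit 546979784) (nat_lit 756) (nat_lit 5445921547) (nat_lit 84) (nat_lit 1102496578) (nat_lit 243) (nat_lit 5) (nat_lit 252) (nat_lit 5) (nat_lit 244) (nat_lit 5) (nat_lit 333) (nat_lit 320) (nat_lit 292))))) (XT.nd (nat_lit 376) (nat_lit 2016) (nat_lit 0) (XT.nd (nat_lit 188) (nat_lit 924) (nat_lit 0) (XT.nd (nat_lit 94) (nat_lit 756) (nat_lit 0) (XT.lf (nat_lit 0) (nat_lit 2537300055) (nat_lit 756) (nat_lit 1855012588) (nat_lit 84) (nat_lit 2766047620)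 (nat_lit 243) (nat_lit 5) (nat_lit 252) (nat_lit 5) (nat_lit 244) (nat_lit 5) (nat_lit 334) (nat_lit 320) (nat_lit 291)) (XT.lf (nat_lit 0) (nat_lit 1831896361) (nat_lit 756) (nat_lit 2707760825) (nat_lit 840) (nat_lit 2685140395) (nat_lit 234) (nat_lit 5) (nat_lit 243) (nat_lit 5) (nat_lit 244) (nat_lit 5) (nat_lit 335) (nat_lit 320) (nat_lit 290))) (XT.nd (nat_lit 94) (nat_lit 924) (nat_lit 0) (XT.lf (nat_lit 0) (nat_lit 5620429778) (nat_lit 756) (nat_lit 936554732) (nat_lit 840) (nat_lit 737747897) (nat_lit 234) (nat_lit 5) (nat_lit 243) (nat_lit 5) (nat_lit 244) (nat_lit 5) (nat_lit 336) (nat_lit 320) (nat_lit 289)) (XT.lf (nat_lit 0) (nat_lit 1210155144) (nat_lit 924) (nat_lit 5238455726) (nat_lit 84) (nat_lit 918926407) (nat_lit 223) (nat_lit 5) (nat_lit 234) (nat_lit 5) (nat_lit 224) (nat_lit 5) (nat_lit 337) (nat_lit 320) (nat_lit 288)))) (XT.nd (nat_lit 188) (nat_lit 1092) (nat_lit 0) (XT.nd (nat_lit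 94) (nat_lit 924) (nat_lit 0) (XT.lf (nat_lit 0) (nat_lit 3166805215) (nat_lit 924) (nat_lit 1426565694) (nat_lit 84) (nat_lit 2850120639) (nat_lit 223) (nat_lit 5) (nat_lit 234) (nat_lit 5) (nat_lit 224) (nat_lit 5) (nat_lit 338) (nat_lit 320) (nat_lit 287)) (XT.lf (nat_lit 0) (nat_lit 2501216166) (nat_lit 924) (nat_lit 2645555189) (nat_lit 1008) (nat_lit 2376149086) (nat_lit 212) (nat_lit 5) (nat_lit 223) (nat_lit 5) (nat_lit 224) (nat_lit 5) (nat_lit 339) (nat_lit 320) (nat_lit 286))) (XT.nd (nat_lit 94) (nat_lit 1092) (nat_lit 0) (XT.lf (nat_lit 0) (nat_lit 6529265530) (nat_lit 924) (nat_lit 613130730) (nat_lit 1008) (nat_lit 463778721) (nat_lit 212) (nat_lit 5) (nat_lit 223) (nat_lit 5) (nat_lit 224) (nat_lit 5) (nat_lit 340) (nat_lit 320) (nat_lit 285)) (XT.lf (nat_lit 0) (nat_lit 1462874266) (nat_lit 1092) (nat_lit 4723965257) (nat_lit 84) (nat_lit 1505187479) (nat_lit 199) (nat_lit 5) (nat_lit 212)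 (nat_lit 5) (nat_lit 200) (nat_lit 5) (nat_lit 341) (nat_lit 320) (nat_lit 284)))))) (XT.nd (nat_lit 752) (nat_lit 2940) (nat_lit 0) (XT.nd (nat_lit 376) (nat_lit 1932) (nat_lit 0) (XT.nd (nat_lit 188) (nat_lit 1260) (nat_lit 0) (XT.nd (nat_lit 94) (nat_lit 1092) (nat_lit 0) (XT.lf (nat_lit 0) (nat_lit 3399235402) (nat_lit 1092) (nat_lit 682578778) (nat_lit 84) (nat_lit 3699785241) (nat_lit 199) (nat_lit 5) (nat_lit 212) (nat_lit 5) (nat_lit 200) (nat_lit 5) (nat_lit 342) (nat_lit 320) (nat_lit 283)) (XT.lf (nat_lit 0) (nat_lit 3501643079) (nat_lit 1092) (nat_lit 1871507242) (nat_lit 1176) (nat_lit 2501440814) (nat_lit 186) (nat_lit 5) (nat_lit 199) (nat_lit 5) (nat_lit 200) (nat_lit 5) (nat_lit 343) (nat_lit 320) (nat_lit 282))) (XT.nd (nat_lit 94) (nat_lit 1260) (nat_lit 0) (XT.lf (nat_lit 0) (nat_lit 7364139740) (nat_lit 1176) (nat_lit 196791884) (nat_lit 84) (nat_lit 410817901) (nat_lit 186) (nat_lit 5)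 (nat_lit 200) (nat_lit 5) (nat_lit 187) (nat_lit 5) (nat_lit 344) (nat_lit 320) (nat_lit 281)) (XT.lf (nat_lit 0) (nat_lit 1323465612) (nat_lit 1260) (nat_lit 3964842247) (nat_lit 84) (nat_lit 2783034566) (nat_lit 171) (nat_lit 5) (nat_lit 186) (nat_lit 5) (nat_lit 172) (nat_lit 5) (nat_lit 345) (nat_lit 320) (nat_lit 280)))) (XT.nd (nat_lit 188) (nat_lit 672) (nat_lit 0) (XT.nd (nat_lit 94) (nat_lit 0) (nat_lit 0) (XT.lf (nat_lit 0) (nat_lit 322000512) (nat_lit 1260) (nat_lit 2932359690) (nat_lit 1344) (nat_lit 4920862529) (nat_lit 156) (nat_lit 5) (nat_lit 171) (nat_lit 5) (nat_lit 172) (nat_lit 5) (nat_lit 346) (nat_lit 320) (nat_lit 279)) (XT.lf (nat_lit 0) (nat_lit 4771878935) (nat_lit 1260) (nat_lit 461372178) (nat_lit 1344) (nat_lit 3049366323) (nat_lit 156) (nat_lit 5) (nat_lit 171) (nat_lit 5) (nat_lit 172) (nat_lit 5) (nat_lit 347) (nat_lit 320) (nat_lit 278))) (XT.nd (nat_lit 94) (nat_lit 84) (nat_lit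 0) (XT.lf (nat_lit 0) (nat_lit 912738051) (nat_lit 588) (nat_lit 6339091591) (nat_lit 672) (nat_lit 1142091874) (nat_lit 149) (nat_lit 5) (nat_lit 156) (nat_lit 5) (nat_lit 157) (nat_lit 5) (nat_lit 348) (nat_lit 320) (nat_lit 277)) (XT.lf (nat_lit 0) (nat_lit 798641489) (nat_lit 672) (nat_lit 3027089404) (nat_lit 84) (nat_lit 4682919583) (nat_lit 148) (nat_lit 5) (nat_lit 156) (nat_lit 5) (nat_lit 149) (nat_lit 5) (nat_lit 349) (nat_lit 320) (nat_lit 276))))) (XT.nd (nat_lit 376) (nat_lit 1764) (nat_lit 0) (XT.nd (nat_lit 188) (nat_lit 588) (nat_lit 0) (XT.nd (nat_lit 94) (nat_lit 0) (nat_lit 0) (XT.lf (nat_lit 0) (nat_lit 1532971923) (nat_lit 588) (nat_lit 1209724386) (nat_lit 672) (nat_lit 5884833045) (nat_lit 141) (nat_lit 5) (nat_lit 148) (nat_lit 5) (nat_lit 149) (nat_lit 5) (nat_lit 350) (nat_lit 320) (nat_lit 275)) (XT.lf (nat_lit 0) (nat_lit 4744452923) (nat_lit 672) (nat_lit 2519011931) (nat_lit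 84) (nat_lit 1486614665) (nat_lit 141) (nat_lit 5) (nat_lit 149) (nat_lit 5) (nat_lit 142) (nat_lit 5) (nat_lit 351) (nat_lit 320) (nat_lit 274))) (XT.nd (nat_lit 94) (nat_lit 0) (nat_lit 0) (XT.lf (nat_lit 0) (nat_lit 2178441685) (nat_lit 588) (nat_lit 4616308812) (nat_lit 672) (nat_lit 2081984854) (nat_lit 134) (nat_lit 5) (nat_lit 141) (nat_lit 5) (nat_lit 142) (nat_lit 5) (nat_lit 352) (nat_lit 320) (nat_lit 273)) (XT.lf (nat_lit 0) (nat_lit 7023016065) (nat_lit 588) (nat_lit 1865405566) (nat_lit 672) (nat_lit 119394659) (nat_lit 134) (nat_lit 5) (nat_lit 141) (nat_lit 5) (nat_lit 142) (nat_lit 5) (nat_lit 353) (nat_lit 320) (nat_lit 272)))) (XT.nd (nat_lit 188) (nat_lit 1092) (nat_lit 0) (XT.nd (nat_lit 94) (nat_lit 0) (nat_lit 0) (XT.lf (nat_lit 0) (nat_lit 1859411772) (nat_lit 672) (nat_lit 6289924230) (nat_lit 84) (nat_lit 993188190) (nat_lit 126) (nat_lit 5) (nat_lit 134) (nat_lit 5) (nat_lit 127)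 (nat_lit 5) (nat_lit 354) (nat_lit 320) (nat_lit 271)) (XT.lf (nat_lit 0) (nat_lit 3891886059) (nat_lit 672) (nat_lit 1470625585) (nat_lit 84) (nat_lit 3918899588) (nat_lit 126) (nat_lit 5) (nat_lit 134) (nat_lit 5) (nat_lit 127) (nat_lit 5) (nat_lit 355) (nat_lit 320) (nat_lit 270))) (XT.nd (nat_lit 94) (nat_lit 588) (nat_lit 0) (XT.lf (nat_lit 0) (nat_lit 3517312485) (nat_lit 504) (nat_lit 2461049136) (nat_lit 588) (nat_lit 3446384747) (nat_lit 120) (nat_lit 5) (nat_lit 126) (nat_lit 5) (nat_lit 127) (nat_lit 5) (nat_lit 356) (nat_lit 320) (nat_lit 269)) (XT.nd (nat_lit 94) (nat_lit 588) (nat_lit 0) (XT.lf (nat_lit 0) (nat_lit 8107439652) (nat_lit 588) (nat_lit 937487399) (nat_lit 84) (nat_lit 528124449) (nat_lit 120) (nat_lit 5) (nat_lit 127) (nat_lit 5) (nat_lit 121) (nat_lit 5) (nat_lit 357) (nat_lit 320) (nat_lit 268)) (XT.lf (nat_lit 0) (nat_lit 589359673) (nat_lit 588) (nat_lit 5535875465) (nat_lit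 84) (nat_lit 3599691483) (nat_lit 113) (nat_lit 5) (nat_lit 120) (nat_lit 5) (nat_lit 114) (nat_lit 5) (nat_lit 358) (nat_lit 320) (nat_lit 267))))))))
noncomputable def xc31 : XT := (XT.nd (nat_lit 56306) (nat_lit 0) (nat_lit 8820) (XT.nd (nat_lit 752) (nat_lit 840) (nat_lit 0) (XT.nd (nat_lit 376) (nat_lit 924) (nat_lit 0) (XT.nd (nat_lit 188) (nat_lit 504) (nat_lit 0) (XT.nd (nat_lit 94) (nat_lit 420) (nat_lit 0) (XT.lf (nat_lit 0) (nat_lit 2647461436) (nat_lit 588) (nat_lit 451524066) (nat_lit 84) (nat_lit 6782873244) (nat_lit 113) (nat_lit 5) (nat_lit 120) (nat_lit 5) (nat_lit 114) (nat_lit 5) (nat_lit 359) (nat_lit 320) (nat_lit 266)) (XT.lf (nat_lit 0) (nat_lit 4776880750) (nat_lit 504) (nat_lit 5207287938) (nat_lit 84) (nat_lit 59105275) (nat_lit 108) (nat_lit 5) (nat_lit 114) (nat_lit 5) (nat_lit 109) (nat_lit 5) (nat_lit 360) (nat_lit 320) (nat_lit 265))) (XT.nd (nat_lit 94) (nat_lit 0) (nat_lit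 0) (XT.lf (nat_lit 0) (nat_lit 7562542) (nat_lit 504) (nat_lit 6961107845) (nat_lit 588) (nat_lit 3240967163) (nat_lit 102) (nat_lit 5) (nat_lit 108) (nat_lit 5) (nat_lit 109) (nat_lit 5) (nat_lit 361) (nat_lit 320) (nat_lit 264)) (XT.lf (nat_lit 0) (nat_lit 5442193400) (nat_lit 504) (nat_lit 3800387766) (nat_lit 588) (nat_lit 1137978639) (nat_lit 102) (nat_lit 5) (nat_lit 108) (nat_lit 5) (nat_lit 109) (nat_lit 5) (nat_lit 362) (nat_lit 320) (nat_lit 263)))) (XT.nd (nat_lit 188) (nat_lit 420) (nat_lit 0) (XT.nd (nat_lit 94) (nat_lit 0) (nat_lit 0) (XT.lf (nat_lit 0) (nat_lit 439029472) (nat_lit 420) (nat_lit 537663164) (nat_lit 504) (nat_lit 9580616367) (nat_lit 96) (nat_lit 5) (nat_lit 101) (nat_lit 5) (nat_lit 102) (nat_lit 5) (nat_lit 363) (nat_lit 320) (nat_lit 262)) (XT.lf (nat_lit 0) (nat_lit 3174418911) (nat_lit 504) (nat_lit 4741299452) (nat_lit 84) (nat_lit 2822083483) (nat_lit 96) (nat_lit 5) (nat_lit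 102) (nat_lit 5) (nat_lit 97) (nat_lit 5) (nat_lit 364) (nat_lit 320) (nat_lit 261))) (XT.nd (nat_lit 94) (nat_lit 0) (nat_lit 0) (XT.lf (nat_lit 0) (nat_lit 764331996) (nat_lit 420) (nat_lit 4652425009) (nat_lit 504) (nat_lit 5507644296) (nat_lit 91) (nat_lit 5) (nat_lit 96) (nat_lit 5) (nat_lit 97) (nat_lit 5) (nat_lit 365) (nat_lit 320) (nat_lit 260)) (XT.lf (nat_lit 0) (nat_lit 6490489084) (nat_lit 420) (nat_lit 1250351263) (nat_lit 504) (nat_lit 3375374846) (nat_lit 91) (nat_lit 5) (nat_lit 96) (nat_lit 5) (nat_lit 97) (nat_lit 5) (nat_lit 366) (nat_lit 320) (nat_lit 259))))) (XT.nd (nat_lit 55084) (nat_lit 0) (nat_lit 14868) (XT.nd (nat_lit 188) (nat_lit 420) (nat_lit 0) (XT.nd (nat_lit 94) (nat_lit 84) (nat_lit 0) (XT.lf (nat_lit 0) (nat_lit 1031551694) (nat_lit 336) (nat_lit 9102166633) (nat_lit 420) (nat_lit 1180142241) (nat_lit 87) (nat_lit 5) (nat_lit 91) (nat_lit 5) (nat_lit 92) (nat_lit 5) (nat_lit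 367) (nat_lit 320) (nat_lit 258)) (XT.lf (nat_lit 0) (nat_lit 1087086594) (nat_lit 420) (nat_lit 4627738634) (nat_lit 84) (nat_lit 5801527785) (nat_lit 86) (nat_lit 5) (nat_lit 91) (nat_lit 5) (nat_lit 87) (nat_lit 5) (nat_lit 368) (nat_lit 320) (nat_lit 257))) (XT.nd (nat_lit 54802) (nat_lit 0) (nat_lit 15960) (XT.lf (nat_lit 0) (nat_lit 1166931472) (nat_lit 420) (nat_lit 2211519234) (nat_lit 504) (nat_lit 8346768899) (nat_lit 81) (nat_lit 5) (nat_lit 86) (nat_lit 5) (nat_lit 87) (nat_lit 5) (nat_lit 369) (nat_lit 320) (nat_lit 256)) (XT.lf (nat_lit 0) (nat_lit 1117060688) (nat_lit 0) (nat_lit 1117060688) (nat_lit 420) (nat_lit 1066713788) (nat_lit 271) (nat_lit 5) (nat_lit 271) (nat_lit 3) (nat_lit 276) (nat_lit 3) (nat_lit 321) (nat_lit 321) (nat_lit 303)))) (XT.nd (nat_lit 188) (nat_lit 504) (nat_lit 0) (XT.nd (nat_lit 94) (nat_lit 0) (nat_lit 0) (XT.lf (nat_lit 0) (nat_lit 54561708) (nat_lit 588) (nat_lit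 1407703805) (nat_lit 588) (nat_lit 5167679528) (nat_lit 264) (nat_lit 3) (nat_lit 271) (nat_lit 3) (nat_lit 271) (nat_lit 5) (nat_lit 322) (nat_lit 321) (nat_lit 302)) (XT.lf (nat_lit 84) (nat_lit 1607289417) (nat_lit 0) (nat_lit 588480800) (nat_lit 588) (nat_lit 4464986137) (nat_lit 265) (nat_lit 5) (nat_lit 264) (nat_lit 3) (nat_lit 271) (nat_lit 5) (nat_lit 323) (nat_lit 321) (nat_lit 301))) (XT.nd (nat_lit 94) (nat_lit 588) (nat_lit 0) (XT.lf (nat_lit 0) (nat_lit 4336011526) (nat_lit 504) (nat_lit 2000166192) (nat_lit 588) (nat_lit 358499354) (nat_lit 265) (nat_lit 5) (nat_lit 271) (nat_lit 5) (nat_lit 272) (nat_lit 5) (nat_lit 324) (nat_lit 321) (nat_lit 300)) (XT.nd (nat_lit 94) (nat_lit 588) (nat_lit 0) (XT.lf (nat_lit 84) (nat_lit 1115475548) (nat_lit 0) (nat_lit 5361384436) (nat_lit 588) (nat_lit 254885723) (nat_lit 266) (nat_lit 5) (nat_lit 265) (nat_lit 5) (nat_lit 272) (nat_lit 5) (nat_lit 325)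 (nat_lit 321) (nat_lit 299)) (XT.lf (nat_lit 0) (nat_lit 1815863729) (nat_lit 588) (nat_lit 2468853546) (nat_lit 672) (nat_lit 2486632287) (nat_lit 258) (nat_lit 5) (nat_lit 265) (nat_lit 5) (nat_lit 266) (nat_lit 5) (nat_lit 326) (nat_lit 321) (nat_lit 298))))))) (XT.nd (nat_lit 752) (nat_lit 4704) (nat_lit 0) (XT.nd (nat_lit 376) (nat_lit 672) (nat_lit 0) (XT.nd (nat_lit 188) (nat_lit 672) (nat_lit 0) (XT.nd (nat_lit 94) (nat_lit 0) (nat_lit 0) (XT.lf (nat_lit 84) (nat_lit 739710238) (nat_lit 0) (nat_lit 3134089386) (nat_lit 672) (nat_lit 2940564024) (nat_lit 259) (nat_lit 5) (nat_lit 258) (nat_lit 5) (nat_lit 266) (nat_lit 5) (nat_lit 327) (nat_lit 321) (nat_lit 297)) (XT.lf (nat_lit 84) (nat_lit 4050396898) (nat_lit 0) (nat_lit 1892894036) (nat_lit 672) (nat_lit 917080206) (nat_lit 259) (nat_lit 5) (nat_lit 258) (nat_lit 5) (nat_lit 266) (nat_lit 5) (nat_lit 328) (nat_lit 321) (nat_lit 296))) (XT.nd (nat_lit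 94) (nat_lit 0) (nat_lit 84) (XT.lf (nat_lit 84) (nat_lit 506208740) (nat_lit 0) (nat_lit 569155367) (nat_lit 756) (nat_lit 5834313435) (nat_lit 251) (nat_lit 5) (nat_lit 250) (nat_lit 5) (nat_lit 259) (nat_lit 5) (nat_lit 329) (nat_lit 321) (nat_lit 295)) (XT.lf (nat_lit 0) (nat_lit 3073590535) (nat_lit 672) (nat_lit 3044390733) (nat_lit 756) (nat_lit 843456978) (nat_lit 251) (nat_lit 5) (nat_lit 259) (nat_lit 5) (nat_lit 260) (nat_lit 5) (nat_lit 330) (nat_lit 321) (nat_lit 294)))) (XT.nd (nat_lit 188) (nat_lit 0) (nat_lit 0) (XT.nd (nat_lit 94) (nat_lit 756) (nat_lit 0) (XT.lf (nat_lit 84) (nat_lit 371182549) (nat_lit 0) (nat_lit 4700026925) (nat_lit 756) (nat_lit 1945534405) (nat_lit 252) (nat_lit 5) (nat_lit 251) (nat_lit 5) (nat_lit 260) (nat_lit 5) (nat_lit 331) (nat_lit 321) (nat_lit 293)) (XT.lf (nat_lit 0) (nat_lit 16016452) (nat_lit 756) (nat_lit 3168963804) (nat_lit 840) (nat_lit 3890016689) (nat_lit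 242) (nat_lit 5) (nat_lit 251) (nat_lit 5) (nat_lit 252) (nat_lit 5) (nat_lit 332) (nat_lit 321) (nat_lit 292))) (XT.nd (nat_lit 94) (nat_lit 0) (nat_lit 84) (XT.lf (nat_lit 84) (nat_lit 353970429) (nat_lit 0) (nat_lit 1579748094) (nat_lit 840) (nat_lit 5202769548) (nat_lit 243) (nat_lit 5) (nat_lit 242) (nat_lit 5) (nat_lit 252) (nat_lit 5) (nat_lit 333) (nat_lit 321) (nat_lit 291)) (XT.lf (nat_lit 0) (nat_lit 3876694641) (nat_lit 756) (nat_lit 3199809471) (nat_lit 84) (nat_lit 124443441) (nat_lit 243) (nat_lit 5) (nat_lit 252) (nat_lit 5) (nat_lit 244) (nat_lit 5) (nat_lit 334) (nat_lit 321) (nat_lit 290))))) (XT.nd (nat_lit 376) (nat_lit 3108) (nat_lit 0) (XT.nd (nat_lit 188) (nat_lit 840) (nat_lit 0) (XT.nd (nat_lit 94) (nat_lit 84) (nat_lit 0) (XT.lf (nat_lit 0) (nat_lit 437178368) (nat_lit 756) (nat_lit 5397244535) (nat_lit 840) (nat_lit 1434375403) (nat_lit 234) (nat_lit 5) (nat_lit 243) (nat_lit 5)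 (nat_lit 244) (nat_lit 5) (nat_lit 335) (nat_lit 321) (nat_lit 289)) (XT.lf (nat_lit 0) (nat_lit 472104310) (nat_lit 840) (nat_lit 3141120616) (nat_lit 84) (nat_lit 3726357607) (nat_lit 233) (nat_lit 5) (nat_lit 243) (nat_lit 5) (nat_lit 234) (nat_lit 5) (nat_lit 336) (nat_lit 321) (nat_lit 288))) (XT.nd (nat_lit 94) (nat_lit 0) (nat_lit 0) (XT.lf (nat_lit 0) (nat_lit 612176844) (nat_lit 840) (nat_lit 1739752777) (nat_lit 924) (nat_lit 5061923720) (nat_lit 223) (nat_lit 5) (nat_lit 233) (nat_lit 5) (nat_lit 234) (nat_lit 5) (nat_lit 337) (nat_lit 321) (nat_lit 287)) (XT.lf (nat_lit 0) (nat_lit 4262581911) (nat_lit 924) (nat_lit 2996349897) (nat_lit 84) (nat_lit 232321989) (nat_lit 223) (nat_lit 5) (nat_lit 234) (nat_lit 5) (nat_lit 224) (nat_lit 5) (nat_lit 338) (nat_lit 321) (nat_lit 286)))) (XT.nd (nat_lit 188) (nat_lit 2100) (nat_lit 0) (XT.nd (nat_lit 94) (nat_lit 84) (nat_lit 0) (XT.lf (nat_lit 0) (nat_lit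 877131484) (nat_lit 924) (nat_lit 5321383306) (nat_lit 1008) (nat_lit 1373553220) (nat_lit 212) (nat_lit 5) (nat_lit 223) (nat_lit 5) (nat_lit 224) (nat_lit 5) (nat_lit 339) (nat_lit 321) (nat_lit 285)) (XT.lf (nat_lit 0) (nat_lit 500157363) (nat_lit 1008) (nat_lit 2778329006) (nat_lit 84) (nat_lit 4377585794) (nat_lit 211) (nat_lit 5) (nat_lit 223) (nat_lit 5) (nat_lit 212) (nat_lit 5) (nat_lit 340) (nat_lit 321) (nat_lit 284))) (XT.nd (nat_lit 94) (nat_lit 1092) (nat_lit 0) (XT.lf (nat_lit 0) (nat_lit 1220650902) (nat_lit 1008) (nat_lit 1138083682) (nat_lit 1092) (nat_lit 5384885493) (nat_lit 199) (nat_lit 5) (nat_lit 211) (nat_lit 5) (nat_lit 212) (nat_lit 5) (nat_lit 341) (nat_lit 321) (nat_lit 283)) (XT.nd (nat_lit 94) (nat_lit 1092) (nat_lit 0) (XT.lf (nat_lit 0) (nat_lit 4257457741) (nat_lit 1092) (nat_lit 2493665343) (nat_lit 84) (nat_lit 1083255699) (nat_lit 199) (nat_lit 5) (nat_lit 212) (nat_lit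 5) (nat_lit 200) (nat_lit 5) (nat_lit 342) (nat_lit 321) (nat_lit 282)) (XT.lf (nat_lit 0) (nat_lit 1631715447) (nat_lit 1092) (nat_lit 4555761915) (nat_lit 1176) (nat_lit 1741265481) (nat_lit 186) (nat_lit 5) (nat_lit 199) (nat_lit 5) (nat_lit 200) (nat_lit 5) (nat_lit 343) (nat_lit 321) (nat_lit 281))))))))
noncomputable def xc32 : XT := (XT.nd (nat_lit 1504) (nat_lit 2268) (nat_lit 0) (XT.nd (nat_lit 752) (nat_lit 2352) (nat_lit 0) (XT.nd (nat_lit 376) (nat_lit 1260) (nat_lit 0) (XT.nd (nat_lit 188) (nat_lit 1260) (nat_lit 0) (XT.nd (nat_lit 94) (nat_lit 1176) (nat_lit 0) (XT.lf (nat_lit 0) (nat_lit 119838652) (nat_lit 1176) (nat_lit 2140966605) (nat_lit 84) (nat_lit 5765996772) (nat_lit 185) (nat_lit 5) (nat_lit 199) (nat_lit 5) (nat_lit 186) (nat_lit 5) (nat_lit 344) (nat_lit 321) (nat_lit 280)) (XT.lf (nat_lit 0) (nat_lit 1972951331) (nat_lit 1260) (nat_lit 6010558766) (nat_lit 84) (nat_lit 144743569)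 (nat_lit 171) (nat_lit 5) (nat_lit 186) (nat_lit 5) (nat_lit 172) (nat_lit 5) (nat_lit 345) (nat_lit 321) (nat_lit 279))) (XT.nd (nat_lit 94) (nat_lit 1260) (nat_lit 0) (XT.lf (nat_lit 0) (nat_lit 3876357874) (nat_lit 1260) (nat_lit 1752625447) (nat_lit 84) (nat_lit 2604024590) (nat_lit 171) (nat_lit 5) (nat_lit 186) (nat_lit 5) (nat_lit 172) (nat_lit 5) (nat_lit 346) (nat_lit 321) (nat_lit 278)) (XT.lf (nat_lit 0) (nat_lit 2639968064) (nat_lit 1260) (nat_lit 3174200443) (nat_lit 1344) (nat_lit 2527514380) (nat_lit 156) (nat_lit 5) (nat_lit 171) (nat_lit 5) (nat_lit 172) (nat_lit 5) (nat_lit 347) (nat_lit 321) (nat_lit 277)))) (XT.nd (nat_lit 188) (nat_lit 588) (nat_lit 0) (XT.nd (nat_lit 94) (nat_lit 672) (nat_lit 0) (XT.lf (nat_lit 0) (nat_lit 7156110582) (nat_lit 1260) (nat_lit 624601656) (nat_lit 1344) (nat_lit 673882240) (nat_lit 156) (nat_lit 5) (nat_lit 171) (nat_lit 5) (nat_lit 172) (nat_lit 5) (nat_lit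 348) (nat_lit 321) (nat_lit 276)) (XT.lf (nat_lit 0) (nat_lit 1215858528) (nat_lit 672) (nat_lit 5346368145) (nat_lit 84) (nat_lit 2008261228) (nat_lit 148) (nat_lit 5) (nat_lit 156) (nat_lit 5) (nat_lit 149) (nat_lit 5) (nat_lit 349) (nat_lit 321) (nat_lit 275))) (XT.nd (nat_lit 94) (nat_lit 588) (nat_lit 0) (XT.lf (nat_lit 0) (nat_lit 3122851456) (nat_lit 672) (nat_lit 838345791) (nat_lit 84) (nat_lit 4729323914) (nat_lit 148) (nat_lit 5) (nat_lit 156) (nat_lit 5) (nat_lit 149) (nat_lit 5) (nat_lit 350) (nat_lit 321) (nat_lit 274)) (XT.lf (nat_lit 0) (nat_lit 3836168785) (nat_lit 588) (nat_lit 1243759203) (nat_lit 672) (nat_lit 3734525027) (nat_lit 141) (nat_lit 5) (nat_lit 148) (nat_lit 5) (nat_lit 149) (nat_lit 5) (nat_lit 351) (nat_lit 321) (nat_lit 273))))) (XT.nd (nat_lit 376) (nat_lit 1092) (nat_lit 0) (XT.nd (nat_lit 188) (nat_lit 588) (nat_lit 0) (XT.nd (nat_lit 94) (nat_lit 672) (nat_lit 0) (XT.lf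 (nat_lit 0) (nat_lit 7076080185) (nat_lit 672) (nat_lit 333331580) (nat_lit 84) (nat_lit 1533361526) (nat_lit 141) (nat_lit 5) (nat_lit 149) (nat_lit 5) (nat_lit 142) (nat_lit 5) (nat_lit 352) (nat_lit 321) (nat_lit 272)) (XT.lf (nat_lit 0) (nat_lit 69641905) (nat_lit 672) (nat_lit 4592422601) (nat_lit 84) (nat_lit 4412531368) (nat_lit 133) (nat_lit 5) (nat_lit 141) (nat_lit 5) (nat_lit 134) (nat_lit 5) (nat_lit 353) (nat_lit 321) (nat_lit 271))) (XT.nd (nat_lit 94) (nat_lit 0) (nat_lit 0) (XT.lf (nat_lit 0) (nat_lit 179967338) (nat_lit 588) (nat_lit 1810157164) (nat_lit 672) (nat_lit 7220861347) (nat_lit 126) (nat_lit 5) (nat_lit 133) (nat_lit 5) (nat_lit 134) (nat_lit 5) (nat_lit 354) (nat_lit 321) (nat_lit 270)) (XT.lf (nat_lit 0) (nat_lit 3985108051) (nat_lit 672) (nat_lit 4216277640) (nat_lit 84) (nat_lit 1149647533) (nat_lit 126) (nat_lit 5) (nat_lit 134) (nat_lit 5) (nat_lit 127) (nat_lit 5) (nat_lit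 355) (nat_lit 321) (nat_lit 269)))) (XT.nd (nat_lit 188) (nat_lit 588) (nat_lit 0) (XT.nd (nat_lit 94) (nat_lit 0) (nat_lit 0) (XT.lf (nat_lit 0) (nat_lit 695273734) (nat_lit 504) (nat_lit 5329677473) (nat_lit 588) (nat_lit 3470850701) (nat_lit 120) (nat_lit 5) (nat_lit 126) (nat_lit 5) (nat_lit 127) (nat_lit 5) (nat_lit 356) (nat_lit 321) (nat_lit 268)) (XT.lf (nat_lit 0) (nat_lit 5797748821) (nat_lit 504) (nat_lit 2331962679) (nat_lit 588) (nat_lit 1515158642) (nat_lit 120) (nat_lit 5) (nat_lit 126) (nat_lit 5) (nat_lit 127) (nat_lit 5) (nat_lit 357) (nat_lit 321) (nat_lit 267))) (XT.nd (nat_lit 94) (nat_lit 0) (nat_lit 0) (XT.lf (nat_lit 0) (nat_lit 470529556) (nat_lit 588) (nat_lit 8574812214) (nat_lit 84) (nat_lit 753556929) (nat_lit 113) (nat_lit 5) (nat_lit 120) (nat_lit 5) (nat_lit 114) (nat_lit 5) (nat_lit 358) (nat_lit 321) (nat_lit 266)) (XT.lf (nat_lit 0) (nat_lit 2510159812) (nat_lit 588) (nat_lit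 3511719019) (nat_lit 84) (nat_lit 3934536859) (nat_lit 113) (nat_lit 5) (nat_lit 120) (nat_lit 5) (nat_lit 114) (nat_lit 5) (nat_lit 359) (nat_lit 321) (nat_lit 265)))))) (XT.nd (nat_lit 752) (nat_lit 420) (nat_lit 0) (XT.nd (nat_lit 376) (nat_lit 840) (nat_lit 0) (XT.nd (nat_lit 188) (nat_lit 588) (nat_lit 0) (XT.nd (nat_lit 94) (nat_lit 0) (nat_lit 0) (XT.lf (nat_lit 0) (nat_lit 1694434251) (nat_lit 420) (nat_lit 2896427654) (nat_lit 504) (nat_lit 5528460343) (nat_lit 108) (nat_lit 5) (nat_lit 113) (nat_lit 5) (nat_lit 114) (nat_lit 5) (nat_lit 360) (nat_lit 321) (nat_lit 264)) (XT.lf (nat_lit 0) (nat_lit 6737101802) (nat_lit 504) (nat_lit 3203309535) (nat_lit 84) (nat_lit 346669948) (nat_lit 108) (nat_lit 5) (nat_lit 114) (nat_lit 5) (nat_lit 109) (nat_lit 5) (nat_lit 361) (nat_lit 321) (nat_lit 263))) (XT.nd (nat_lit 94) (nat_lit 84) (nat_lit 0) (XT.lf (nat_lit 0) (nat_lit 2146808057) (nat_lit 504) (nat_lit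 6815478784) (nat_lit 588) (nat_lit 1497206586) (nat_lit 102) (nat_lit 5) (nat_lit 108) (nat_lit 5) (nat_lit 109) (nat_lit 5) (nat_lit 362) (nat_lit 321) (nat_lit 262)) (XT.lf (nat_lit 0) (nat_lit 603244784) (nat_lit 588) (nat_lit 2960924873) (nat_lit 84) (nat_lit 7072839953) (nat_lit 101) (nat_lit 5) (nat_lit 108) (nat_lit 5) (nat_lit 102) (nat_lit 5) (nat_lit 363) (nat_lit 321) (nat_lit 261)))) (XT.nd (nat_lit 188) (nat_lit 420) (nat_lit 0) (XT.nd (nat_lit 94) (nat_lit 0) (nat_lit 0) (XT.lf (nat_lit 0) (nat_lit 2545797084) (nat_lit 420) (nat_lit 181768388) (nat_lit 504) (nat_lit 8092164876) (nat_lit 96) (nat_lit 5) (nat_lit 101) (nat_lit 5) (nat_lit 102) (nat_lit 5) (nat_lit 364) (nat_lit 321) (nat_lit 260)) (XT.lf (nat_lit 0) (nat_lit 4944552630) (nat_lit 504) (nat_lit 2801675790) (nat_lit 84) (nat_lit 3260886890) (nat_lit 96) (nat_lit 5) (nat_lit 102) (nat_lit 5) (nat_lit 97) (nat_lit 5) (nat_lit 365) (nat_lit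 321) (nat_lit 259))) (XT.nd (nat_lit 94) (nat_lit 0) (nat_lit 0) (XT.lf (nat_lit 0) (nat_lit 2848714183) (nat_lit 420) (nat_lit 4376479094) (nat_lit 504) (nat_lit 3975063457) (nat_lit 91) (nat_lit 5) (nat_lit 96) (nat_lit 5) (nat_lit 97) (nat_lit 5) (nat_lit 366) (nat_lit 321) (nat_lit 258)) (XT.lf (nat_lit 0) (nat_lit 8686613686) (nat_lit 420) (nat_lit 884445622) (nat_lit 504) (nat_lit 1828276705) (nat_lit 91) (nat_lit 5) (nat_lit 96) (nat_lit 5) (nat_lit 97) (nat_lit 5) (nat_lit 367) (nat_lit 321) (nat_lit 257))))) (XT.nd (nat_lit 55178) (nat_lit 0) (nat_lit 13776) (XT.nd (nat_lit 54990) (nat_lit 0) (nat_lit 14952) (XT.nd (nat_lit 94) (nat_lit 0) (nat_lit 0) (XT.lf (nat_lit 0) (nat_lit 400781386) (nat_lit 420) (nat_lit 8517290712) (nat_lit 84) (nat_lit 2685490007) (nat_lit 86) (nat_lit 5) (nat_lit 91) (nat_lit 5) (nat_lit 87) (nat_lit 5) (nat_lit 368) (nat_lit 321) (nat_lit 256)) (XT.lf (nat_lit 0) (nat_lit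 2665920750) (nat_lit 420) (nat_lit 2764820451) (nat_lit 84) (nat_lit 6382495784) (nat_lit 86) (nat_lit 5) (nat_lit 91) (nat_lit 5) (nat_lit 87) (nat_lit 5) (nat_lit 369) (nat_lit 321) (nat_lit 255))) (XT.nd (nat_lit 94) (nat_lit 0) (nat_lit 0) (XT.lf (nat_lit 0) (nat_lit 1079526344) (nat_lit 588) (nat_lit 1124981006) (nat_lit 588) (nat_lit 1124981006) (nat_lit 264) (nat_lit 3) (nat_lit 271) (nat_lit 3) (nat_lit 271) (nat_lit 5) (nat_lit 322) (nat_lit 322) (nat_lit 301)) (XT.lf (nat_lit 84) (nat_lit 726860755) (nat_lit 0) (nat_lit 3524289213) (nat_lit 588) (nat_lit 2440224184) (nat_lit 265) (nat_lit 5) (nat_lit 264) (nat_lit 3) (nat_lit 271) (nat_lit 5) (nat_lit 323) (nat_lit 322) (nat_lit 300)))) (XT.nd (nat_lit 188) (nat_lit 588) (nat_lit 0) (XT.nd (nat_lit 94) (nat_lit 588) (nat_lit 0) (XT.lf (nat_lit 84) (nat_lit 3796918025) (nat_lit 0) (nat_lit 2551294675) (nat_lit 588) (nat_lit 378487033) (nat_lit 265)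 (nat_lit 5) (nat_lit 264) (nat_lit 3) (nat_lit 271) (nat_lit 5) (nat_lit 324) (nat_lit 322) (nat_lit 299)) (XT.lf (nat_lit 84) (nat_lit 139184703) (nat_lit 0) (nat_lit 1494044136) (nat_lit 672) (nat_lit 5131897128) (nat_lit 258) (nat_lit 5) (nat_lit 257) (nat_lit 5) (nat_lit 265) (nat_lit 5) (nat_lit 325) (nat_lit 322) (nat_lit 298))) (XT.nd (nat_lit 94) (nat_lit 588) (nat_lit 0) (XT.lf (nat_lit 84) (nat_lit 3314126651) (nat_lit 0) (nat_lit 335851226) (nat_lit 672) (nat_lit 3156249454) (nat_lit 258) (nat_lit 5) (nat_lit 257) (nat_lit 5) (nat_lit 265) (nat_lit 5) (nat_lit 326) (nat_lit 322) (nat_lit 297)) (XT.nd (nat_lit 94) (nat_lit 672) (nat_lit 0) (XT.lf (nat_lit 0) (nat_lit 5660785092) (nat_lit 588) (nat_lit 316353745) (nat_lit 672) (nat_lit 873613733) (nat_lit 258) (nat_lit 5) (nat_lit 265) (nat_lit 5) (nat_lit 266) (nat_lit 5) (nat_lit 327) (nat_lit 322) (nat_lit 296)) (XT.lf (nat_lit 0) (nat_lit 777747039)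 (nat_lit 672) (nat_lit 3939012376) (nat_lit 756) (nat_lit 2181037121) (nat_lit 250) (nat_lit 5) (nat_lit 258) (nat_lit 5) (nat_lit 259) (nat_lit 5) (nat_lit 328) (nat_lit 322) (nat_lit 295))))))))
noncomputable def xc33 : XT := (XT.nd (nat_lit 1504) (nat_lit 6468) (nat_lit 0) (XT.nd (nat_lit 752) (nat_lit 4032) (nat_lit 0) (XT.nd (nat_lit 376) (nat_lit 756) (nat_lit 0) (XT.nd (nat_lit 188) (nat_lit 672) (nat_lit 0) (XT.nd (nat_lit 94) (nat_lit 0) (nat_lit 0) (XT.lf (nat_lit 0) (nat_lit 2712117032) (nat_lit 672) (nat_lit 663090418) (nat_lit 756) (nat_lit 3572925421) (nat_lit 250) (nat_lit 5) (nat_lit 258) (nat_lit 5) (nat_lit 259) (nat_lit 5) (nat_lit 329) (nat_lit 322) (nat_lit 294)) (XT.lf (nat_lit 84) (nat_lit 2721712729) (nat_lit 0) (nat_lit 1939371103) (nat_lit 756) (nat_lit 2340373976) (nat_lit 251) (nat_lit 5) (nat_lit 250) (nat_lit 5) (nat_lit 259) (nat_lit 5) (nat_lit 330) (nat_lit 322) (nat_lit 293)))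 (XT.nd (nat_lit 94) (nat_lit 672) (nat_lit 0) (XT.lf (nat_lit 84) (nat_lit 6179562520) (nat_lit 0) (nat_lit 427678470) (nat_lit 756) (nat_lit 451150231) (nat_lit 251) (nat_lit 5) (nat_lit 250) (nat_lit 5) (nat_lit 259) (nat_lit 5) (nat_lit 331) (nat_lit 322) (nat_lit 292)) (XT.lf (nat_lit 0) (nat_lit 1435425172) (nat_lit 756) (nat_lit 4511005693) (nat_lit 840) (nat_lit 1171236021) (nat_lit 242) (nat_lit 5) (nat_lit 251) (nat_lit 5) (nat_lit 252) (nat_lit 5) (nat_lit 332) (nat_lit 322) (nat_lit 291)))) (XT.nd (nat_lit 188) (nat_lit 756) (nat_lit 0) (XT.nd (nat_lit 94) (nat_lit 0) (nat_lit 0) (XT.lf (nat_lit 0) (nat_lit 3317683640) (nat_lit 756) (nat_lit 1016790232) (nat_lit 840) (nat_lit 2845824252) (nat_lit 242) (nat_lit 5) (nat_lit 251) (nat_lit 5) (nat_lit 252) (nat_lit 5) (nat_lit 333) (nat_lit 322) (nat_lit 290)) (XT.lf (nat_lit 84) (nat_lit 2589800239) (nat_lit 0) (nat_lit 2628355552) (nat_lit 840) (nat_lit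 2027951501) (nat_lit 243) (nat_lit 5) (nat_lit 242) (nat_lit 5) (nat_lit 252) (nat_lit 5) (nat_lit 334) (nat_lit 322) (nat_lit 289))) (XT.nd (nat_lit 94) (nat_lit 756) (nat_lit 0) (XT.lf (nat_lit 84) (nat_lit 6282865294) (nat_lit 0) (nat_lit 841325699) (nat_lit 840) (nat_lit 191390238) (nat_lit 243) (nat_lit 5) (nat_lit 242) (nat_lit 5) (nat_lit 252) (nat_lit 5) (nat_lit 335) (nat_lit 322) (nat_lit 288)) (XT.lf (nat_lit 0) (nat_lit 1642520195) (nat_lit 840) (nat_lit 4704908457) (nat_lit 84) (nat_lit 1040096023) (nat_lit 233) (nat_lit 5) (nat_lit 243) (nat_lit 5) (nat_lit 234) (nat_lit 5) (nat_lit 336) (nat_lit 322) (nat_lit 287))))) (XT.nd (nat_lit 376) (nat_lit 2184) (nat_lit 0) (XT.nd (nat_lit 188) (nat_lit 1008) (nat_lit 0) (XT.nd (nat_lit 94) (nat_lit 840) (nat_lit 0) (XT.lf (nat_lit 0) (nat_lit 3487332814) (nat_lit 840) (nat_lit 985394678) (nat_lit 84) (nat_lit 2990184622) (nat_lit 233) (nat_lit 5) (nat_lit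 243) (nat_lit 5) (nat_lit 234) (nat_lit 5) (nat_lit 337) (nat_lit 322) (nat_lit 286)) (XT.lf (nat_lit 0) (nat_lit 2858443278) (nat_lit 840) (nat_lit 2499115882) (nat_lit 924) (nat_lit 2184030510) (nat_lit 223) (nat_lit 5) (nat_lit 233) (nat_lit 5) (nat_lit 234) (nat_lit 5) (nat_lit 338) (nat_lit 322) (nat_lit 285))) (XT.nd (nat_lit 94) (nat_lit 1008) (nat_lit 0) (XT.lf (nat_lit 0) (nat_lit 6795178199) (nat_lit 840) (nat_lit 442519300) (nat_lit 924) (nat_lit 386442670) (nat_lit 223) (nat_lit 5) (nat_lit 233) (nat_lit 5) (nat_lit 234) (nat_lit 5) (nat_lit 339) (nat_lit 322) (nat_lit 284)) (XT.lf (nat_lit 0) (nat_lit 1428218775) (nat_lit 1008) (nat_lit 4580728611) (nat_lit 84) (nat_lit 1700164750) (nat_lit 211) (nat_lit 5) (nat_lit 223) (nat_lit 5) (nat_lit 212) (nat_lit 5) (nat_lit 340) (nat_lit 322) (nat_lit 283)))) (XT.nd (nat_lit 188) (nat_lit 1176) (nat_lit 0) (XT.nd (nat_lit 94) (nat_lit 1008) (nat_lit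 0) (XT.lf (nat_lit 0) (nat_lit 3248532504) (nat_lit 1008) (nat_lit 627255115) (nat_lit 84) (nat_lit 3922077486) (nat_lit 211) (nat_lit 5) (nat_lit 223) (nat_lit 5) (nat_lit 212) (nat_lit 5) (nat_lit 341) (nat_lit 322) (nat_lit 282)) (XT.lf (nat_lit 0) (nat_lit 3469788076) (nat_lit 1008) (nat_lit 1634734309) (nat_lit 1092) (nat_lit 2785438910) (nat_lit 199) (nat_lit 5) (nat_lit 211) (nat_lit 5) (nat_lit 212) (nat_lit 5) (nat_lit 342) (nat_lit 322) (nat_lit 281))) (XT.nd (nat_lit 94) (nat_lit 1176) (nat_lit 0) (XT.lf (nat_lit 0) (nat_lit 6977977446) (nat_lit 1092) (nat_lit 332620019) (nat_lit 84) (nat_lit 675478694) (nat_lit 199) (nat_lit 5) (nat_lit 212) (nat_lit 5) (nat_lit 200) (nat_lit 5) (nat_lit 343) (nat_lit 322) (nat_lit 280)) (XT.lf (nat_lit 0) (nat_lit 810471167) (nat_lit 1176) (nat_lit 4198403643) (nat_lit 84) (nat_lit 3075946709) (nat_lit 185) (nat_lit 5) (nat_lit 199) (nat_lit 5) (nat_lit 186) (nat_lit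 5) (nat_lit 344) (nat_lit 322) (nat_lit 279)))))) (XT.nd (nat_lit 752) (nat_lit 2772) (nat_lit 0) (XT.nd (nat_lit 376) (nat_lit 1260) (nat_lit 0) (XT.nd (nat_lit 188) (nat_lit 1260) (nat_lit 0) (XT.nd (nat_lit 94) (nat_lit 1176) (nat_lit 0) (XT.lf (nat_lit 0) (nat_lit 2617586142) (nat_lit 1176) (nat_lit 1026357) (nat_lit 84) (nat_lit 5569089884) (nat_lit 185) (nat_lit 5) (nat_lit 199) (nat_lit 5) (nat_lit 186) (nat_lit 5) (nat_lit 345) (nat_lit 322) (nat_lit 278)) (XT.lf (nat_lit 0) (nat_lit 4365290965) (nat_lit 1176) (nat_lit 107874495) (nat_lit 1260) (nat_lit 3820773847) (nat_lit 171) (nat_lit 5) (nat_lit 185) (nat_lit 5) (nat_lit 186) (nat_lit 5) (nat_lit 346) (nat_lit 322) (nat_lit 277))) (XT.nd (nat_lit 94) (nat_lit 0) (nat_lit 0) (XT.lf (nat_lit 0) (nat_lit 399943963) (nat_lit 1260) (nat_lit 5965470158) (nat_lit 1344) (nat_lit 2038613490) (nat_lit 156) (nat_lit 5) (nat_lit 171) (nat_lit 5) (nat_lit 172)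 (nat_lit 5) (nat_lit 347) (nat_lit 322) (nat_lit 276)) (XT.lf (nat_lit 0) (nat_lit 4894968347) (nat_lit 1260) (nat_lit 3414463653) (nat_lit 1344) (nat_lit 208228091) (nat_lit 156) (nat_lit 5) (nat_lit 171) (nat_lit 5) (nat_lit 172) (nat_lit 5) (nat_lit 348) (nat_lit 322) (nat_lit 275)))) (XT.nd (nat_lit 188) (nat_lit 588) (nat_lit 0) (XT.nd (nat_lit 94) (nat_lit 0) (nat_lit 0) (XT.lf (nat_lit 0) (nat_lit 847966237) (nat_lit 588) (nat_lit 759605799) (nat_lit 672) (nat_lit 7027835341) (nat_lit 148) (nat_lit 5) (nat_lit 155) (nat_lit 5) (nat_lit 156) (nat_lit 5) (nat_lit 349) (nat_lit 322) (nat_lit 274)) (XT.lf (nat_lit 0) (nat_lit 3485587412) (nat_lit 672) (nat_lit 3293597738) (nat_lit 84) (nat_lit 1977166098) (nat_lit 148) (nat_lit 5) (nat_lit 156) (nat_lit 5) (nat_lit 149) (nat_lit 5) (nat_lit 350) (nat_lit 322) (nat_lit 273))) (XT.nd (nat_lit 94) (nat_lit 0) (nat_lit 0) (XT.lf (nat_lit 0) (nat_lit 1310782357)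 (nat_lit 588) (nat_lit 4086561604) (nat_lit 672) (nat_lit 3484338823) (nat_lit 141) (nat_lit 5) (nat_lit 148) (nat_lit 5) (nat_lit 149) (nat_lit 5) (nat_lit 351) (nat_lit 322) (nat_lit 272)) (XT.lf (nat_lit 0) (nat_lit 6078888596) (nat_lit 588) (nat_lit 1278944621) (nat_lit 672) (nat_lit 1653278649) (nat_lit 141) (nat_lit 5) (nat_lit 148) (nat_lit 5) (nat_lit 149) (nat_lit 5) (nat_lit 352) (nat_lit 322) (nat_lit 271))))) (XT.nd (nat_lit 376) (nat_lit 1512) (nat_lit 0) (XT.nd (nat_lit 188) (nat_lit 588) (nat_lit 0) (XT.nd (nat_lit 94) (nat_lit 0) (nat_lit 0) (XT.lf (nat_lit 0) (nat_lit 220396791) (nat_lit 672) (nat_lit 7323188899) (nat_lit 84) (nat_lit 1601078749) (nat_lit 133) (nat_lit 5) (nat_lit 141) (nat_lit 5) (nat_lit 134) (nat_lit 5) (nat_lit 353) (nat_lit 322) (nat_lit 270)) (XT.lf (nat_lit 0) (nat_lit 2119276144) (nat_lit 672) (nat_lit 2575226702) (nat_lit 84) (nat_lit 4587235279) (nat_lit 133) (nat_lit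 5) (nat_lit 141) (nat_lit 5) (nat_lit 134) (nat_lit 5) (nat_lit 354) (nat_lit 322) (nat_lit 269))) (XT.nd (nat_lit 94) (nat_lit 0) (nat_lit 0) (XT.lf (nat_lit 0) (nat_lit 2319207793) (nat_lit 588) (nat_lit 1739039983) (nat_lit 672) (nat_lit 5365252658) (nat_lit 126) (nat_lit 5) (nat_lit 133) (nat_lit 5) (nat_lit 134) (nat_lit 5) (nat_lit 355) (nat_lit 322) (nat_lit 268)) (XT.lf (nat_lit 0) (nat_lit 6055753691) (nat_lit 672) (nat_lit 2210289471) (nat_lit 84) (nat_lit 1303529641) (nat_lit 126) (nat_lit 5) (nat_lit 134) (nat_lit 5) (nat_lit 127) (nat_lit 5) (nat_lit 356) (nat_lit 322) (nat_lit 267)))) (XT.nd (nat_lit 188) (nat_lit 924) (nat_lit 0) (XT.nd (nat_lit 94) (nat_lit 84) (nat_lit 0) (XT.lf (nat_lit 0) (nat_lit 2827701812) (nat_lit 504) (nat_lit 5292560098) (nat_lit 588) (nat_lit 1599619283) (nat_lit 120) (nat_lit 5) (nat_lit 126) (nat_lit 5) (nat_lit 127) (nat_lit 5) (nat_lit 357) (nat_lit 322) (nat_lit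 266)) (XT.lf (nat_lit 0) (nat_lit 350238437) (nat_lit 588) (nat_lit 1856876789) (nat_lit 84) (nat_lit 7667973958) (nat_lit 119) (nat_lit 5) (nat_lit 126) (nat_lit 5) (nat_lit 120) (nat_lit 5) (nat_lit 358) (nat_lit 322) (nat_lit 265))) (XT.nd (nat_lit 94) (nat_lit 420) (nat_lit 0) (XT.lf (nat_lit 0) (nat_lit 2332334131) (nat_lit 588) (nat_lit 6705617056) (nat_lit 84) (nat_lit 996410852) (nat_lit 113) (nat_lit 5) (nat_lit 120) (nat_lit 5) (nat_lit 114) (nat_lit 5) (nat_lit 359) (nat_lit 322) (nat_lit 264)) (XT.nd (nat_lit 94) (nat_lit 420) (nat_lit 0) (XT.lf (nat_lit 0) (nat_lit 4379337119) (nat_lit 588) (nat_lit 1552566196) (nat_lit 84) (nat_lit 4266405212) (nat_lit 113) (nat_lit 5) (nat_lit 120) (nat_lit 5) (nat_lit 114) (nat_lit 5) (nat_lit 360) (nat_lit 322) (nat_lit 263)) (XT.lf (nat_lit 0) (nat_lit 3789531432) (nat_lit 420) (nat_lit 2700330847) (nat_lit 504) (nat_lit 3877304841) (nat_lit 108) (nat_lit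 5) (nat_lit 113) (nat_lit 5) (nat_lit 114) (nat_lit 5) (nat_lit 361) (nat_lit 322) (nat_lit 262))))))))
noncomputable def xc34 : XT := (XT.nd (nat_lit 56400) (nat_lit 0) (nat_lit 7140) (XT.nd (nat_lit 55648) (nat_lit 0) (nat_lit 13692) (XT.nd (nat_lit 376) (nat_lit 840) (nat_lit 0) (XT.nd (nat_lit 188) (nat_lit 420) (nat_lit 0) (XT.nd (nat_lit 94) (nat_lit 588) (nat_lit 0) (XT.lf (nat_lit 0) (nat_lit 8651831153) (nat_lit 504) (nat_lit 1263215928) (nat_lit 84) (nat_lit 626455960) (nat_lit 108) (nat_lit 5) (nat_lit 114) (nat_lit 5) (nat_lit 109) (nat_lit 5) (nat_lit 362) (nat_lit 322) (nat_lit 261)) (XT.lf (nat_lit 0) (nat_lit 189416710) (nat_lit 588) (nat_lit 6494498988) (nat_lit 84) (nat_lit 4036113068) (nat_lit 101) (nat_lit 5) (nat_lit 108) (nat_lit 5) (nat_lit 102) (nat_lit 5) (nat_lit 363) (nat_lit 322) (nat_lit 260))) (XT.nd (nat_lit 94) (nat_lit 420) (nat_lit 0) (XT.lf (nat_lit 0) (nat_lit 2273232540)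 (nat_lit 588) (nat_lit 1056798139) (nat_lit 84) (nat_lit 7573958951) (nat_lit 101) (nat_lit 5) (nat_lit 108) (nat_lit 5) (nat_lit 102) (nat_lit 5) (nat_lit 364) (nat_lit 322) (nat_lit 259)) (XT.lf (nat_lit 0) (nat_lit 4433710373) (nat_lit 504) (nat_lit 6499125706) (nat_lit 84) (nat_lit 160258043) (nat_lit 96) (nat_lit 5) (nat_lit 102) (nat_lit 5) (nat_lit 97) (nat_lit 5) (nat_lit 365) (nat_lit 322) (nat_lit 258)))) (XT.nd (nat_lit 188) (nat_lit 420) (nat_lit 0) (XT.nd (nat_lit 94) (nat_lit 420) (nat_lit 0) (XT.lf (nat_lit 0) (nat_lit 6671644182) (nat_lit 504) (nat_lit 923370851) (nat_lit 84) (nat_lit 3692525263) (nat_lit 96) (nat_lit 5) (nat_lit 102) (nat_lit 5) (nat_lit 97) (nat_lit 5) (nat_lit 366) (nat_lit 322) (nat_lit 257)) (XT.lf (nat_lit 0) (nat_lit 4877292045) (nat_lit 420) (nat_lit 4116107274) (nat_lit 504) (nat_lit 2493966442) (nat_lit 91) (nat_lit 5) (nat_lit 96) (nat_lit 5) (nat_lit 97) (nat_lit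 5) (nat_lit 367) (nat_lit 322) (nat_lit 256))) (XT.nd (nat_lit 94) (nat_lit 420) (nat_lit 0) (XT.lf (nat_lit 0) (nat_lit 10833732909) (nat_lit 420) (nat_lit 530720550) (nat_lit 504) (nat_lit 329388192) (nat_lit 91) (nat_lit 5) (nat_lit 96) (nat_lit 5) (nat_lit 97) (nat_lit 5) (nat_lit 368) (nat_lit 322) (nat_lit 255)) (XT.lf (nat_lit 0) (nat_lit 1913990805) (nat_lit 420) (nat_lit 6829362499) (nat_lit 84) (nat_lit 3161124771) (nat_lit 86) (nat_lit 5) (nat_lit 91) (nat_lit 5) (nat_lit 87) (nat_lit 5) (nat_lit 369) (nat_lit 322) (nat_lit 254))))) (XT.nd (nat_lit 376) (nat_lit 672) (nat_lit 0) (XT.nd (nat_lit 188) (nat_lit 0) (nat_lit 0) (XT.nd (nat_lit 94) (nat_lit 588) (nat_lit 0) (XT.lf (nat_lit 0) (nat_lit 3144904551) (nat_lit 588) (nat_lit 108918784) (nat_lit 588) (nat_lit 108918784) (nat_lit 264) (nat_lit 3) (nat_lit 271) (nat_lit 3) (nat_lit 271) (nat_lit 5) (nat_lit 323) (nat_lit 323) (nat_lit 299)) (XT.lf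 (nat_lit 0) (nat_lit 1553180745) (nat_lit 588) (nat_lit 3949657385) (nat_lit 672) (nat_lit 1258840515) (nat_lit 257) (nat_lit 5) (nat_lit 264) (nat_lit 3) (nat_lit 265) (nat_lit 5) (nat_lit 324) (nat_lit 323) (nat_lit 298))) (XT.nd (nat_lit 94) (nat_lit 0) (nat_lit 0) (XT.lf (nat_lit 0) (nat_lit 3518314663) (nat_lit 588) (nat_lit 907490113) (nat_lit 672) (nat_lit 2375467058) (nat_lit 257) (nat_lit 5) (nat_lit 264) (nat_lit 3) (nat_lit 265) (nat_lit 5) (nat_lit 325) (nat_lit 323) (nat_lit 297)) (XT.lf (nat_lit 84) (nat_lit 2229146545) (nat_lit 0) (nat_lit 3260069881) (nat_lit 672) (nat_lit 1354629484) (nat_lit 258) (nat_lit 5) (nat_lit 257) (nat_lit 5) (nat_lit 265) (nat_lit 5) (nat_lit 326) (nat_lit 323) (nat_lit 296)))) (XT.nd (nat_lit 188) (nat_lit 0) (nat_lit 84) (XT.nd (nat_lit 94) (nat_lit 0) (nat_lit 0) (XT.lf (nat_lit 0) (nat_lit 554745412) (nat_lit 672) (nat_lit 1456651763) (nat_lit 756) (nat_lit 4878238440)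 (nat_lit 249) (nat_lit 5) (nat_lit 257) (nat_lit 5) (nat_lit 258) (nat_lit 5) (nat_lit 327) (nat_lit 323) (nat_lit 295)) (XT.lf (nat_lit 84) (nat_lit 1777059324) (nat_lit 0) (nat_lit 662611830) (nat_lit 756) (nat_lit 4498541349) (nat_lit 250) (nat_lit 5) (nat_lit 249) (nat_lit 5) (nat_lit 258) (nat_lit 5) (nat_lit 328) (nat_lit 323) (nat_lit 294))) (XT.nd (nat_lit 94) (nat_lit 0) (nat_lit 0) (XT.lf (nat_lit 0) (nat_lit 4333387451) (nat_lit 672) (nat_lit 1899801145) (nat_lit 756) (nat_lit 756666298) (nat_lit 250) (nat_lit 5) (nat_lit 258) (nat_lit 5) (nat_lit 259) (nat_lit 5) (nat_lit 329) (nat_lit 323) (nat_lit 293)) (XT.lf (nat_lit 84) (nat_lit 1439654967) (nat_lit 0) (nat_lit 4797089664) (nat_lit 756) (nat_lit 807887414) (nat_lit 251) (nat_lit 5) (nat_lit 250) (nat_lit 5) (nat_lit 259) (nat_lit 5) (nat_lit 330) (nat_lit 323) (nat_lit 292)))))) (XT.nd (nat_lit 752) (nat_lit 4368) (nat_lit 0) (XT.nd (nat_lit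 376) (nat_lit 1512) (nat_lit 0) (XT.nd (nat_lit 188) (nat_lit 0) (nat_lit 84) (XT.nd (nat_lit 94) (nat_lit 0) (nat_lit 0) (XT.lf (nat_lit 0) (nat_lit 1027324081) (nat_lit 756) (nat_lit 2235319438) (nat_lit 840) (nat_lit 3839676558) (nat_lit 241) (nat_lit 5) (nat_lit 250) (nat_lit 5) (nat_lit 251) (nat_lit 5) (nat_lit 331) (nat_lit 323) (nat_lit 291)) (XT.lf (nat_lit 84) (nat_lit 1209918056) (nat_lit 0) (nat_lit 1638202221) (nat_lit 840) (nat_lit 4315131436) (nat_lit 242) (nat_lit 5) (nat_lit 241) (nat_lit 5) (nat_lit 251) (nat_lit 5) (nat_lit 332) (nat_lit 323) (nat_lit 290))) (XT.nd (nat_lit 94) (nat_lit 0) (nat_lit 0) (XT.lf (nat_lit 0) (nat_lit 4683523553) (nat_lit 756) (nat_lit 2464547042) (nat_lit 840) (nat_lit 79292579) (nat_lit 242) (nat_lit 5) (nat_lit 251) (nat_lit 5) (nat_lit 252) (nat_lit 5) (nat_lit 333) (nat_lit 323) (nat_lit 289)) (XT.lf (nat_lit 84) (nat_lit 1092261592) (nat_lit 0) (nat_lit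 5447137116) (nat_lit 840) (nat_lit 755183939) (nat_lit 243) (nat_lit 5) (nat_lit 242) (nat_lit 5) (nat_lit 252) (nat_lit 5) (nat_lit 334) (nat_lit 323) (nat_lit 288)))) (XT.nd (nat_lit 188) (nat_lit 756) (nat_lit 0) (XT.nd (nat_lit 94) (nat_lit 0) (nat_lit 0) (XT.lf (nat_lit 0) (nat_lit 1030396818) (nat_lit 840) (nat_lit 2610145590) (nat_lit 924) (nat_lit 3724166941) (nat_lit 232) (nat_lit 5) (nat_lit 242) (nat_lit 5) (nat_lit 243) (nat_lit 5) (nat_lit 335) (nat_lit 323) (nat_lit 287)) (XT.lf (nat_lit 84) (nat_lit 1061604475) (nat_lit 0) (nat_lit 1744079248) (nat_lit 924) (nat_lit 4632626791) (nat_lit 233) (nat_lit 5) (nat_lit 232) (nat_lit 5) (nat_lit 243) (nat_lit 5) (nat_lit 336) (nat_lit 323) (nat_lit 286))) (XT.nd (nat_lit 94) (nat_lit 840) (nat_lit 0) (XT.lf (nat_lit 0) (nat_lit 4605451503) (nat_lit 840) (nat_lit 2661628957) (nat_lit 84) (nat_lit 248033162) (nat_lit 233) (nat_lit 5) (nat_lit 243) (nat_lit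 5) (nat_lit 234) (nat_lit 5) (nat_lit 337) (nat_lit 323) (nat_lit 285)) (XT.lf (nat_lit 0) (nat_lit 1127854661) (nat_lit 840) (nat_lit 5303731710) (nat_lit 924) (nat_lit 1163590001) (nat_lit 223) (nat_lit 5) (nat_lit 233) (nat_lit 5) (nat_lit 234) (nat_lit 5) (nat_lit 338) (nat_lit 323) (nat_lit 284))))) (XT.nd (nat_lit 376) (nat_lit 2352) (nat_lit 0) (XT.nd (nat_lit 188) (nat_lit 1008) (nat_lit 0) (XT.nd (nat_lit 94) (nat_lit 924) (nat_lit 0) (XT.lf (nat_lit 0) (nat_lit 594448704) (nat_lit 924) (nat_lit 2640213929) (nat_lit 84) (nat_lit 4443755596) (nat_lit 222) (nat_lit 5) (nat_lit 233) (nat_lit 5) (nat_lit 223) (nat_lit 5) (nat_lit 339) (nat_lit 323) (nat_lit 283)) (XT.lf (nat_lit 0) (nat_lit 1273687221) (nat_lit 924) (nat_lit 1066834276) (nat_lit 1008) (nat_lit 5424645840) (nat_lit 211) (nat_lit 5) (nat_lit 222) (nat_lit 5) (nat_lit 223) (nat_lit 5) (nat_lit 340) (nat_lit 323) (nat_lit 282))) (XT.nd (nat_lit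 94) (nat_lit 1008) (nat_lit 0) (XT.lf (nat_lit 0) (nat_lit 4124823027) (nat_lit 1008) (nat_lit 2548807011) (nat_lit 84) (nat_lit 1181426118) (nat_lit 211) (nat_lit 5) (nat_lit 223) (nat_lit 5) (nat_lit 212) (nat_lit 5) (nat_lit 341) (nat_lit 323) (nat_lit 281)) (XT.lf (nat_lit 0) (nat_lit 1489144500) (nat_lit 1008) (nat_lit 4447622322) (nat_lit 1092) (nat_lit 2011760775) (nat_lit 199) (nat_lit 5) (nat_lit 211) (nat_lit 5) (nat_lit 212) (nat_lit 5) (nat_lit 342) (nat_lit 323) (nat_lit 280)))) (XT.nd (nat_lit 188) (nat_lit 1176) (nat_lit 0) (XT.nd (nat_lit 94) (nat_lit 1176) (nat_lit 0) (XT.lf (nat_lit 0) (nat_lit 5659391800) (nat_lit 1008) (nat_lit 2119734596) (nat_lit 1092) (nat_lit 266501230) (nat_lit 199) (nat_lit 5) (nat_lit 211) (nat_lit 5) (nat_lit 212) (nat_lit 5) (nat_lit 343) (nat_lit 323) (nat_lit 279)) (XT.lf (nat_lit 0) (nat_lit 1472680376) (nat_lit 1176) (nat_lit 6360992536) (nat_lit 84) (nat_lit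 312483022) (nat_lit 185) (nat_lit 5) (nat_lit 199) (nat_lit 5) (nat_lit 186) (nat_lit 5) (nat_lit 344) (nat_lit 323) (nat_lit 278))) (XT.nd (nat_lit 94) (nat_lit 1176) (nat_lit 0) (XT.lf (nat_lit 0) (nat_lit 3256292419) (nat_lit 1176) (nat_lit 2184385611) (nat_lit 84) (nat_lit 2809111720) (nat_lit 185) (nat_lit 5) (nat_lit 199) (nat_lit 5) (nat_lit 186) (nat_lit 5) (nat_lit 345) (nat_lit 323) (nat_lit 277)) (XT.nd (nat_lit 94) (nat_lit 0) (nat_lit 0) (XT.lf (nat_lit 0) (nat_lit 2117911854) (nat_lit 1176) (nat_lit 2949538320) (nat_lit 1260) (nat_lit 3289955614) (nat_lit 171) (nat_lit 5) (nat_lit 185) (nat_lit 5) (nat_lit 186) (nat_lit 5) (nat_lit 346) (nat_lit 323) (nat_lit 276)) (XT.lf (nat_lit 0) (nat_lit 6553521580) (nat_lit 1176) (nat_lit 356117303) (nat_lit 1260) (nat_lit 1559402120) (nat_lit 171) (nat_lit 5) (nat_lit 185) (nat_lit 5) (nat_lit 186) (nat_lit 5) (nat_lit 347) (nat_lit 323) (nat_lit 275))))))))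
noncomputable def xc35 : XT := (XT.nd (nat_lit 1598) (nat_lit 1260) (nat_lit 0) (XT.nd (nat_lit 752) (nat_lit 2688) (nat_lit 0) (XT.nd (nat_lit 376) (nat_lit 1260) (nat_lit 0) (XT.nd (nat_lit 188) (nat_lit 588) (nat_lit 0) (XT.nd (nat_lit 94) (nat_lit 0) (nat_lit 0) (XT.lf (nat_lit 0) (nat_lit 221177425) (nat_lit 1344) (nat_lit 6061836191) (nat_lit 84) (nat_lit 2300959787) (nat_lit 155) (nat_lit 5) (nat_lit 171) (nat_lit 5) (nat_lit 156) (nat_lit 5) (nat_lit 348) (nat_lit 323) (nat_lit 274)) (XT.lf (nat_lit 0) (nat_lit 2003278407) (nat_lit 1344) (nat_lit 1630101440) (nat_lit 84) (nat_lit 5069211155) (nat_lit 155) (nat_lit 5) (nat_lit 171) (nat_lit 5) (nat_lit 156) (nat_lit 5) (nat_lit 349) (nat_lit 323) (nat_lit 273))) (XT.nd (nat_lit 94) (nat_lit 0) (nat_lit 0) (XT.lf (nat_lit 0) (nat_lit 2952034132) (nat_lit 588) (nat_lit 872841421) (nat_lit 672) (nat_lit 5000391951) (nat_lit 148) (nat_lit 5) (nat_lit 155)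 (nat_lit 5) (nat_lit 156) (nat_lit 5) (nat_lit 350) (nat_lit 323) (nat_lit 272)) (XT.lf (nat_lit 0) (nat_lit 5695210297) (nat_lit 672) (nat_lit 1306288740) (nat_lit 84) (nat_lit 1950381573) (nat_lit 148) (nat_lit 5) (nat_lit 156) (nat_lit 5) (nat_lit 149) (nat_lit 5) (nat_lit 351) (nat_lit 323) (nat_lit 271)))) (XT.nd (nat_lit 188) (nat_lit 588) (nat_lit 0) (XT.nd (nat_lit 94) (nat_lit 84) (nat_lit 0) (XT.lf (nat_lit 0) (nat_lit 3415770632) (nat_lit 588) (nat_lit 4207093056) (nat_lit 672) (nat_lit 1459468863) (nat_lit 141) (nat_lit 5) (nat_lit 148) (nat_lit 5) (nat_lit 149) (nat_lit 5) (nat_lit 352) (nat_lit 323) (nat_lit 270)) (XT.lf (nat_lit 0) (nat_lit 357389010) (nat_lit 672) (nat_lit 954309781) (nat_lit 84) (nat_lit 7905757124) (nat_lit 140) (nat_lit 5) (nat_lit 148) (nat_lit 5) (nat_lit 141) (nat_lit 5) (nat_lit 353) (nat_lit 323) (nat_lit 269))) (XT.nd (nat_lit 94) (nat_lit 0) (nat_lit 0) (XT.lf (nat_lit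 0) (nat_lit 2214916444) (nat_lit 672) (nat_lit 5450682063) (nat_lit 84) (nat_lit 1690206228) (nat_lit 133) (nat_lit 5) (nat_lit 141) (nat_lit 5) (nat_lit 134) (nat_lit 5) (nat_lit 354) (nat_lit 323) (nat_lit 268)) (XT.lf (nat_lit 0) (nat_lit 4112861952) (nat_lit 672) (nat_lit 621218938) (nat_lit 84) (nat_lit 4764750508) (nat_lit 133) (nat_lit 5) (nat_lit 141) (nat_lit 5) (nat_lit 134) (nat_lit 5) (nat_lit 355) (nat_lit 323) (nat_lit 267))))) (XT.nd (nat_lit 376) (nat_lit 1008) (nat_lit 0) (XT.nd (nat_lit 188) (nat_lit 1092) (nat_lit 0) (XT.nd (nat_lit 94) (nat_lit 0) (nat_lit 0) (XT.lf (nat_lit 0) (nat_lit 4400134234) (nat_lit 588) (nat_lit 1672989016) (nat_lit 672) (nat_lit 3572930448) (nat_lit 126) (nat_lit 5) (nat_lit 133) (nat_lit 5) (nat_lit 134) (nat_lit 5) (nat_lit 356) (nat_lit 323) (nat_lit 266)) (XT.lf (nat_lit 0) (nat_lit 8076518015) (nat_lit 672) (nat_lit 266534532) (nat_lit 84) (nat_lit 1455174584)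 (nat_lit 126) (nat_lit 5) (nat_lit 134) (nat_lit 5) (nat_lit 127) (nat_lit 5) (nat_lit 357) (nat_lit 323) (nat_lit 265))) (XT.nd (nat_lit 94) (nat_lit 504) (nat_lit 0) (XT.lf (nat_lit 0) (nat_lit 210172659) (nat_lit 588) (nat_lit 5053343258) (nat_lit 84) (nat_lit 4690594992) (nat_lit 119) (nat_lit 5) (nat_lit 126) (nat_lit 5) (nat_lit 120) (nat_lit 5) (nat_lit 358) (nat_lit 323) (nat_lit 264)) (XT.lf (nat_lit 0) (nat_lit 59216799) (nat_lit 504) (nat_lit 2074554094) (nat_lit 588) (nat_lit 7981396750) (nat_lit 113) (nat_lit 5) (nat_lit 119) (nat_lit 5) (nat_lit 120) (nat_lit 5) (nat_lit 359) (nat_lit 323) (nat_lit 263)))) (XT.nd (nat_lit 188) (nat_lit 588) (nat_lit 0) (XT.nd (nat_lit 94) (nat_lit 420) (nat_lit 0) (XT.lf (nat_lit 0) (nat_lit 4143927953) (nat_lit 588) (nat_lit 4902412370) (nat_lit 84) (nat_lit 1233907301) (nat_lit 113) (nat_lit 5) (nat_lit 120) (nat_lit 5) (nat_lit 114) (nat_lit 5) (nat_lit 360)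 (nat_lit 323) (nat_lit 262)) (XT.lf (nat_lit 0) (nat_lit 353753211) (nat_lit 420) (nat_lit 5851261405) (nat_lit 504) (nat_lit 4245602050) (nat_lit 108) (nat_lit 5) (nat_lit 113) (nat_lit 5) (nat_lit 114) (nat_lit 5) (nat_lit 361) (nat_lit 323) (nat_lit 261))) (XT.nd (nat_lit 94) (nat_lit 588) (nat_lit 0) (XT.lf (nat_lit 0) (nat_lit 5830132403) (nat_lit 420) (nat_lit 2514595898) (nat_lit 504) (nat_lit 2280918442) (nat_lit 108) (nat_lit 5) (nat_lit 113) (nat_lit 5) (nat_lit 114) (nat_lit 5) (nat_lit 362) (nat_lit 323) (nat_lit 260)) (XT.nd (nat_lit 94) (nat_lit 84) (nat_lit 0) (XT.lf (nat_lit 0) (nat_lit 630497971) (nat_lit 504) (nat_lit 9901253963) (nat_lit 588) (nat_lit 274734458) (nat_lit 102) (nat_lit 5) (nat_lit 108) (nat_lit 5) (nat_lit 109) (nat_lit 5) (nat_lit 363) (nat_lit 323) (nat_lit 259)) (XT.lf (nat_lit 0) (nat_lit 1798876311) (nat_lit 588) (nat_lit 4754426694) (nat_lit 84) (nat_lit 4437714712)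 (nat_lit 101) (nat_lit 5) (nat_lit 108) (nat_lit 5) (nat_lit 102) (nat_lit 5) (nat_lit 364) (nat_lit 323) (nat_lit 258))))))) (XT.nd (nat_lit 55742) (nat_lit 0) (nat_lit 12180) (XT.nd (nat_lit 376) (nat_lit 420) (nat_lit 0) (XT.nd (nat_lit 188) (nat_lit 420) (nat_lit 0) (XT.nd (nat_lit 94) (nat_lit 0) (nat_lit 0) (XT.lf (nat_lit 0) (nat_lit 805772174) (nat_lit 420) (nat_lit 3100468061) (nat_lit 504) (nat_lit 7275498937) (nat_lit 96) (nat_lit 5) (nat_lit 101) (nat_lit 5) (nat_lit 102) (nat_lit 5) (nat_lit 365) (nat_lit 323) (nat_lit 257)) (XT.lf (nat_lit 0) (nat_lit 6099493503) (nat_lit 504) (nat_lit 4788900242) (nat_lit 84) (nat_lit 489154878) (nat_lit 96) (nat_lit 5) (nat_lit 102) (nat_lit 5) (nat_lit 97) (nat_lit 5) (nat_lit 366) (nat_lit 323) (nat_lit 256))) (XT.nd (nat_lit 94) (nat_lit 0) (nat_lit 0) (XT.lf (nat_lit 0) (nat_lit 916520637) (nat_lit 420) (nat_lit 7452211007) (nat_lit 504) (nat_lit 3210240146)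 (nat_lit 91) (nat_lit 5) (nat_lit 96) (nat_lit 5) (nat_lit 97) (nat_lit 5) (nat_lit 367) (nat_lit 323) (nat_lit 255)) (XT.lf (nat_lit 0) (nat_lit 6855184410) (nat_lit 420) (nat_lit 3870407540) (nat_lit 504) (nat_lit 1060303091) (nat_lit 91) (nat_lit 5) (nat_lit 96) (nat_lit 5) (nat_lit 97) (nat_lit 5) (nat_lit 368) (nat_lit 323) (nat_lit 254)))) (XT.nd (nat_lit 55178) (nat_lit 0) (nat_lit 13692) (XT.nd (nat_lit 55084) (nat_lit 0) (nat_lit 14364) (XT.lf (nat_lit 0) (nat_lit 944681302) (nat_lit 336) (nat_lit 167717488) (nat_lit 420) (nat_lit 10886911963) (nat_lit 86) (nat_lit 5) (nat_lit 90) (nat_lit 5) (nat_lit 91) (nat_lit 5) (nat_lit 369) (nat_lit 323) (nat_lit 253)) (XT.lf (nat_lit 0) (nat_lit 868760234) (nat_lit 0) (nat_lit 868760234) (nat_lit 588) (nat_lit 1662280754) (nat_lit 257) (nat_lit 5) (nat_lit 257) (nat_lit 3) (nat_lit 264) (nat_lit 3) (nat_lit 324) (nat_lit 324) (nat_lit 297))) (XT.nd (nat_lit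 94) (nat_lit 672) (nat_lit 0) (XT.lf (nat_lit 0) (nat_lit 4812090057) (nat_lit 0) (nat_lit 580204255) (nat_lit 588) (nat_lit 1448435032) (nat_lit 257) (nat_lit 5) (nat_lit 257) (nat_lit 3) (nat_lit 264) (nat_lit 3) (nat_lit 325) (nat_lit 324) (nat_lit 296)) (XT.lf (nat_lit 0) (nat_lit 417528560) (nat_lit 672) (nat_lit 5817345179) (nat_lit 756) (nat_lit 649972988) (nat_lit 249) (nat_lit 5) (nat_lit 257) (nat_lit 5) (nat_lit 258) (nat_lit 5) (nat_lit 326) (nat_lit 324) (nat_lit 295))))) (XT.nd (nat_lit 376) (nat_lit 756) (nat_lit 0) (XT.nd (nat_lit 188) (nat_lit 756) (nat_lit 0) (XT.nd (nat_lit 94) (nat_lit 0) (nat_lit 0) (XT.lf (nat_lit 0) (nat_lit 2265205781) (nat_lit 672) (nat_lit 2692192305) (nat_lit 756) (nat_lit 1973994657) (nat_lit 249) (nat_lit 5) (nat_lit 257) (nat_lit 5) (nat_lit 258) (nat_lit 5) (nat_lit 327) (nat_lit 324) (nat_lit 294)) (XT.lf (nat_lit 84) (nat_lit 497250737) (nat_lit 0) (nat_lit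 3606341613) (nat_lit 756) (nat_lit 2877859900) (nat_lit 250) (nat_lit 5) (nat_lit 249) (nat_lit 5) (nat_lit 258) (nat_lit 5) (nat_lit 328) (nat_lit 324) (nat_lit 293))) (XT.nd (nat_lit 94) (nat_lit 756) (nat_lit 0) (XT.lf (nat_lit 84) (nat_lit 3798780800) (nat_lit 0) (nat_lit 2157686219) (nat_lit 756) (nat_lit 1077936796) (nat_lit 250) (nat_lit 5) (nat_lit 249) (nat_lit 5) (nat_lit 258) (nat_lit 5) (nat_lit 329) (nat_lit 324) (nat_lit 292)) (XT.lf (nat_lit 84) (nat_lit 65081823) (nat_lit 0) (nat_lit 629697984) (nat_lit 840) (nat_lit 6396082793) (nat_lit 241) (nat_lit 5) (nat_lit 240) (nat_lit 5) (nat_lit 250) (nat_lit 5) (nat_lit 330) (nat_lit 324) (nat_lit 291)))) (XT.nd (nat_lit 188) (nat_lit 840) (nat_lit 0) (XT.nd (nat_lit 94) (nat_lit 0) (nat_lit 0) (XT.lf (nat_lit 0) (nat_lit 2476220571) (nat_lit 756) (nat_lit 3678092578) (nat_lit 840) (nat_lit 995221488) (nat_lit 241) (nat_lit 5) (nat_lit 250) (nat_lit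 5) (nat_lit 251) (nat_lit 5) (nat_lit 331) (nat_lit 324) (nat_lit 290)) (XT.lf (nat_lit 0) (nat_lit 4254364066) (nat_lit 756) (nat_lit 276131520) (nat_lit 840) (nat_lit 2681324835) (nat_lit 241) (nat_lit 5) (nat_lit 250) (nat_lit 5) (nat_lit 251) (nat_lit 5) (nat_lit 332) (nat_lit 324) (nat_lit 289))) (XT.nd (nat_lit 94) (nat_lit 840) (nat_lit 0) (XT.lf (nat_lit 84) (nat_lit 3252597927) (nat_lit 0) (nat_lit 2803379001) (nat_lit 840) (nat_lit 1221041062) (nat_lit 242) (nat_lit 5) (nat_lit 241) (nat_lit 5) (nat_lit 251) (nat_lit 5) (nat_lit 333) (nat_lit 324) (nat_lit 288)) (XT.nd (nat_lit 94) (nat_lit 0) (nat_lit 84) (XT.lf (nat_lit 0) (nat_lit 498749062) (nat_lit 840) (nat_lit 496442738) (nat_lit 924) (nat_lit 6350683896) (nat_lit 231) (nat_lit 5) (nat_lit 241) (nat_lit 5) (nat_lit 242) (nat_lit 5) (nat_lit 334) (nat_lit 324) (nat_lit 287)) (XT.lf (nat_lit 0) (nat_lit 2226103115) (nat_lit 840) (nat_lit 4278222407)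 (nat_lit 924) (nat_lit 912830058) (nat_lit 232) (nat_lit 5) (nat_lit 242) (nat_lit 5) (nat_lit 243) (nat_lit 5) (nat_lit 335) (nat_lit 324) (nat_lit 286))))))))
noncomputable def xc36 : XT := (XT.nd (nat_lit 1504) (nat_lit 4788) (nat_lit 0) (XT.nd (nat_lit 752) (nat_lit 4200) (nat_lit 0) (XT.nd (nat_lit 376) (nat_lit 2016) (nat_lit 0) (XT.nd (nat_lit 188) (nat_lit 840) (nat_lit 0) (XT.nd (nat_lit 94) (nat_lit 0) (nat_lit 0) (XT.lf (nat_lit 0) (nat_lit 3963021464) (nat_lit 840) (nat_lit 647002179) (nat_lit 924) (nat_lit 2881948482) (nat_lit 232) (nat_lit 5) (nat_lit 242) (nat_lit 5) (nat_lit 243) (nat_lit 5) (nat_lit 336) (nat_lit 324) (nat_lit 285)) (XT.lf (nat_lit 84) (nat_lit 3114886193) (nat_lit 0) (nat_lit 2611596134) (nat_lit 924) (nat_lit 1843444561) (nat_lit 233) (nat_lit 5) (nat_lit 232) (nat_lit 5) (nat_lit 243) (nat_lit 5) (nat_lit 337) (nat_lit 324) (nat_lit 284))) (XT.nd (nat_lit 94) (nat_lit 840)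 (nat_lit 0) (XT.lf (nat_lit 84) (nat_lit 6964225871) (nat_lit 0) (nat_lit 530892385) (nat_lit 924) (nat_lit 156656980) (nat_lit 233) (nat_lit 5) (nat_lit 232) (nat_lit 5) (nat_lit 243) (nat_lit 5) (nat_lit 338) (nat_lit 324) (nat_lit 283)) (XT.lf (nat_lit 0) (nat_lit 1543436178) (nat_lit 924) (nat_lit 4550983008) (nat_lit 84) (nat_lit 1641513579) (nat_lit 222) (nat_lit 5) (nat_lit 233) (nat_lit 5) (nat_lit 223) (nat_lit 5) (nat_lit 339) (nat_lit 324) (nat_lit 282)))) (XT.nd (nat_lit 188) (nat_lit 1092) (nat_lit 0) (XT.nd (nat_lit 94) (nat_lit 924) (nat_lit 0) (XT.lf (nat_lit 0) (nat_lit 3251648061) (nat_lit 924) (nat_lit 681713880) (nat_lit 84) (nat_lit 3890511245) (nat_lit 222) (nat_lit 5) (nat_lit 233) (nat_lit 5) (nat_lit 223) (nat_lit 5) (nat_lit 340) (nat_lit 324) (nat_lit 281)) (XT.lf (nat_lit 0) (nat_lit 3329626791) (nat_lit 924) (nat_lit 1662997158) (nat_lit 1008) (nat_lit 2922491695) (nat_lit 211)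 (nat_lit 5) (nat_lit 222) (nat_lit 5) (nat_lit 223) (nat_lit 5) (nat_lit 341) (nat_lit 324) (nat_lit 280))) (XT.nd (nat_lit 94) (nat_lit 1092) (nat_lit 0) (XT.lf (nat_lit 0) (nat_lit 6749988860) (nat_lit 1008) (nat_lit 580456953) (nat_lit 84) (nat_lit 679830938) (nat_lit 211) (nat_lit 5) (nat_lit 223) (nat_lit 5) (nat_lit 212) (nat_lit 5) (nat_lit 342) (nat_lit 324) (nat_lit 279)) (XT.lf (nat_lit 0) (nat_lit 445715637) (nat_lit 1092) (nat_lit 4554094945) (nat_lit 84) (nat_lit 3108369415) (nat_lit 198) (nat_lit 5) (nat_lit 211) (nat_lit 5) (nat_lit 199) (nat_lit 5) (nat_lit 343) (nat_lit 324) (nat_lit 278))))) (XT.nd (nat_lit 376) (nat_lit 1932) (nat_lit 0) (XT.nd (nat_lit 188) (nat_lit 1176) (nat_lit 0) (XT.nd (nat_lit 94) (nat_lit 1092) (nat_lit 0) (XT.lf (nat_lit 0) (nat_lit 2136097848) (nat_lit 1092) (nat_lit 436590856) (nat_lit 84) (nat_lit 5637298578) (nat_lit 198) (nat_lit 5) (nat_lit 211) (nat_lit 5)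 (nat_lit 199) (nat_lit 5) (nat_lit 344) (nat_lit 324) (nat_lit 277)) (XT.lf (nat_lit 0) (nat_lit 3840771718) (nat_lit 1092) (nat_lit 27329561) (nat_lit 1176) (nat_lit 4447114545) (nat_lit 185) (nat_lit 5) (nat_lit 198) (nat_lit 5) (nat_lit 199) (nat_lit 5) (nat_lit 345) (nat_lit 324) (nat_lit 276))) (XT.nd (nat_lit 94) (nat_lit 1176) (nat_lit 0) (XT.lf (nat_lit 0) (nat_lit 5636483894) (nat_lit 1176) (nat_lit 232790078) (nat_lit 84) (nat_lit 2554886259) (nat_lit 185) (nat_lit 5) (nat_lit 199) (nat_lit 5) (nat_lit 186) (nat_lit 5) (nat_lit 346) (nat_lit 324) (nat_lit 275)) (XT.lf (nat_lit 0) (nat_lit 4178800554) (nat_lit 1176) (nat_lit 3275894929) (nat_lit 1260) (nat_lit 1081863077) (nat_lit 171) (nat_lit 5) (nat_lit 185) (nat_lit 5) (nat_lit 186) (nat_lit 5) (nat_lit 347) (nat_lit 324) (nat_lit 274)))) (XT.nd (nat_lit 188) (nat_lit 588) (nat_lit 0) (XT.nd (nat_lit 94) (nat_lit 0) (nat_lit 0) (XT.lf (nat_lit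 0) (nat_lit 30175942) (nat_lit 1260) (nat_lit 591172769) (nat_lit 1344) (nat_lit 8032087300) (nat_lit 155) (nat_lit 5) (nat_lit 170) (nat_lit 5) (nat_lit 171) (nat_lit 5) (nat_lit 348) (nat_lit 324) (nat_lit 273)) (XT.lf (nat_lit 0) (nat_lit 2376908052) (nat_lit 1344) (nat_lit 4205623905) (nat_lit 84) (nat_lit 2190357986) (nat_lit 155) (nat_lit 5) (nat_lit 171) (nat_lit 5) (nat_lit 156) (nat_lit 5) (nat_lit 349) (nat_lit 324) (nat_lit 272))) (XT.nd (nat_lit 94) (nat_lit 0) (nat_lit 0) (XT.lf (nat_lit 0) (nat_lit 305666354) (nat_lit 588) (nat_lit 3847148952) (nat_lit 672) (nat_lit 4744160752) (nat_lit 148) (nat_lit 5) (nat_lit 155) (nat_lit 5) (nat_lit 156) (nat_lit 5) (nat_lit 350) (nat_lit 324) (nat_lit 271)) (XT.lf (nat_lit 0) (nat_lit 4999902262) (nat_lit 588) (nat_lit 984282058) (nat_lit 672) (nat_lit 3040611599) (nat_lit 148) (nat_lit 5) (nat_lit 155) (nat_lit 5) (nat_lit 156) (nat_lit 5) (nat_lit 351)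 (nat_lit 324) (nat_lit 270)))))) (XT.nd (nat_lit 752) (nat_lit 2352) (nat_lit 0) (XT.nd (nat_lit 376) (nat_lit 1176) (nat_lit 0) (XT.nd (nat_lit 188) (nat_lit 588) (nat_lit 0) (XT.nd (nat_lit 94) (nat_lit 84) (nat_lit 0) (XT.lf (nat_lit 0) (nat_lit 633244767) (nat_lit 588) (nat_lit 7223125453) (nat_lit 672) (nat_lit 1300578345) (nat_lit 141) (nat_lit 5) (nat_lit 148) (nat_lit 5) (nat_lit 149) (nat_lit 5) (nat_lit 352) (nat_lit 324) (nat_lit 269)) (XT.lf (nat_lit 0) (nat_lit 494077800) (nat_lit 672) (nat_lit 3832291996) (nat_lit 84) (nat_lit 4966263927) (nat_lit 140) (nat_lit 5) (nat_lit 148) (nat_lit 5) (nat_lit 141) (nat_lit 5) (nat_lit 353) (nat_lit 324) (nat_lit 268))) (XT.nd (nat_lit 94) (nat_lit 0) (nat_lit 0) (XT.lf (nat_lit 0) (nat_lit 967807097) (nat_lit 588) (nat_lit 1320283290) (nat_lit 672) (nat_lit 7144831169) (nat_lit 133) (nat_lit 5) (nat_lit 140) (nat_lit 5) (nat_lit 141) (nat_lit 5) (nat_lit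 354) (nat_lit 324) (nat_lit 267)) (XT.lf (nat_lit 0) (nat_lit 4155157650) (nat_lit 672) (nat_lit 3642101005) (nat_lit 84) (nat_lit 1779648503) (nat_lit 133) (nat_lit 5) (nat_lit 141) (nat_lit 5) (nat_lit 134) (nat_lit 5) (nat_lit 355) (nat_lit 324) (nat_lit 266)))) (XT.nd (nat_lit 188) (nat_lit 588) (nat_lit 0) (XT.nd (nat_lit 94) (nat_lit 0) (nat_lit 0) (XT.lf (nat_lit 0) (nat_lit 1300177305) (nat_lit 588) (nat_lit 4767785801) (nat_lit 672) (nat_lit 3657621670) (nat_lit 126) (nat_lit 5) (nat_lit 133) (nat_lit 5) (nat_lit 134) (nat_lit 5) (nat_lit 356) (nat_lit 324) (nat_lit 265)) (XT.lf (nat_lit 0) (nat_lit 6428028738) (nat_lit 588) (nat_lit 1611742957) (nat_lit 672) (nat_lit 1838964822) (nat_lit 126) (nat_lit 5) (nat_lit 133) (nat_lit 5) (nat_lit 134) (nat_lit 5) (nat_lit 357) (nat_lit 324) (nat_lit 264))) (XT.nd (nat_lit 94) (nat_lit 0) (nat_lit 0) (XT.lf (nat_lit 0) (nat_lit 30982208) (nat_lit 588) (nat_lit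 8384531324) (nat_lit 84) (nat_lit 1621096217) (nat_lit 119) (nat_lit 5) (nat_lit 126) (nat_lit 5) (nat_lit 120) (nat_lit 5) (nat_lit 358) (nat_lit 324) (nat_lit 263)) (XT.lf (nat_lit 0) (nat_lit 1937308980) (nat_lit 588) (nat_lit 3291696604) (nat_lit 84) (nat_lit 4969207157) (nat_lit 119) (nat_lit 5) (nat_lit 126) (nat_lit 5) (nat_lit 120) (nat_lit 5) (nat_lit 359) (nat_lit 324) (nat_lit 262))))) (XT.nd (nat_lit 376) (nat_lit 1428) (nat_lit 0) (XT.nd (nat_lit 188) (nat_lit 420) (nat_lit 0) (XT.nd (nat_lit 94) (nat_lit 0) (nat_lit 0) (XT.lf (nat_lit 0) (nat_lit 1955482931) (nat_lit 504) (nat_lit 1931221928) (nat_lit 588) (nat_lit 6478437994) (nat_lit 113) (nat_lit 5) (nat_lit 119) (nat_lit 5) (nat_lit 120) (nat_lit 5) (nat_lit 360) (nat_lit 324) (nat_lit 261)) (XT.lf (nat_lit 0) (nat_lit 5909893260) (nat_lit 588) (nat_lit 3160170766) (nat_lit 84) (nat_lit 1466611317) (nat_lit 113) (nat_lit 5) (nat_lit 120)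 (nat_lit 5) (nat_lit 114) (nat_lit 5) (nat_lit 361) (nat_lit 324) (nat_lit 260))) (XT.nd (nat_lit 94) (nat_lit 0) (nat_lit 0) (XT.lf (nat_lit 0) (nat_lit 2235157097) (nat_lit 420) (nat_lit 5767823641) (nat_lit 504) (nat_lit 2710149195) (nat_lit 108) (nat_lit 5) (nat_lit 113) (nat_lit 5) (nat_lit 114) (nat_lit 5) (nat_lit 362) (nat_lit 324) (nat_lit 259)) (XT.lf (nat_lit 0) (nat_lit 7821338599) (nat_lit 420) (nat_lit 2338601147) (nat_lit 504) (nat_lit 734956755) (nat_lit 108) (nat_lit 5) (nat_lit 113) (nat_lit 5) (nat_lit 114) (nat_lit 5) (nat_lit 363) (nat_lit 324) (nat_lit 258)))) (XT.nd (nat_lit 188) (nat_lit 840) (nat_lit 0) (XT.nd (nat_lit 94) (nat_lit 0) (nat_lit 0) (XT.lf (nat_lit 0) (nat_lit 1279610543) (nat_lit 588) (nat_lit 8599997191) (nat_lit 84) (nat_lit 1202017077) (nat_lit 101) (nat_lit 5) (nat_lit 108) (nat_lit 5) (nat_lit 102) (nat_lit 5) (nat_lit 364) (nat_lit 324) (nat_lit 257)) (XT.lf (nat_lit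 0) (nat_lit 3364556333) (nat_lit 588) (nat_lit 3073223825) (nat_lit 84) (nat_lit 4835261510) (nat_lit 101) (nat_lit 5) (nat_lit 108) (nat_lit 5) (nat_lit 102) (nat_lit 5) (nat_lit 365) (nat_lit 324) (nat_lit 256))) (XT.nd (nat_lit 94) (nat_lit 420) (nat_lit 0) (XT.lf (nat_lit 0) (nat_lit 2635900269) (nat_lit 420) (nat_lit 2872570353) (nat_lit 504) (nat_lit 5961882859) (nat_lit 96) (nat_lit 5) (nat_lit 101) (nat_lit 5) (nat_lit 102) (nat_lit 5) (nat_lit 366) (nat_lit 324) (nat_lit 255)) (XT.nd (nat_lit 94) (nat_lit 420) (nat_lit 0) (XT.lf (nat_lit 0) (nat_lit 7727262754) (nat_lit 504) (nat_lit 3136734243) (nat_lit 84) (nat_lit 809314578) (nat_lit 96) (nat_lit 5) (nat_lit 102) (nat_lit 5) (nat_lit 97) (nat_lit 5) (nat_lit 367) (nat_lit 324) (nat_lit 254)) (XT.lf (nat_lit 0) (nat_lit 2722243056) (nat_lit 420) (nat_lit 7317347287) (nat_lit 504) (nat_lit 1842001385) (nat_lit 91) (nat_lit 5) (nat_lit 96) (nat_lit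 5) (nat_lit 97) (nat_lit 5) (nat_lit 368) (nat_lit 324) (nat_lit 253))))))))
noncomputable def xc37 : XT := (XT.nd (nat_lit 56588) (nat_lit 0) (nat_lit 3612) (XT.nd (nat_lit 55836) (nat_lit 0) (nat_lit 11004) (XT.nd (nat_lit 55460) (nat_lit 0) (nat_lit 12600) (XT.nd (nat_lit 55272) (nat_lit 0) (nat_lit 13272) (XT.nd (nat_lit 55178) (nat_lit 0) (nat_lit 13272) (XT.lf (nat_lit 0) (nat_lit 323341963) (nat_lit 504) (nat_lit 3311922343) (nat_lit 84) (nat_lit 8460666646) (nat_lit 90) (nat_lit 5) (nat_lit 96) (nat_lit 5) (nat_lit 91) (nat_lit 5) (nat_lit 369) (nat_lit 324) (nat_lit 252)) (XT.lf (nat_lit 0) (nat_lit 191520252) (nat_lit 756) (nat_lit 1624968316) (nat_lit 756) (nat_lit 1624968316) (nat_lit 248) (nat_lit 3) (nat_lit 257) (nat_lit 3) (nat_lit 257) (nat_lit 5) (nat_lit 325) (nat_lit 325) (nat_lit 295))) (XT.nd (nat_lit 94) (nat_lit 0) (nat_lit 0) (XT.lf (nat_lit 0) (nat_lit 2168795352) (nat_lit 756) (nat_lit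 200311550) (nat_lit 756) (nat_lit 4559153926) (nat_lit 248) (nat_lit 3) (nat_lit 257) (nat_lit 3) (nat_lit 257) (nat_lit 5) (nat_lit 326) (nat_lit 325) (nat_lit 294)) (XT.lf (nat_lit 84) (nat_lit 2962752084) (nat_lit 0) (nat_lit 1004381762) (nat_lit 756) (nat_lit 3009239603) (nat_lit 249) (nat_lit 5) (nat_lit 248) (nat_lit 3) (nat_lit 257) (nat_lit 5) (nat_lit 327) (nat_lit 325) (nat_lit 293)))) (XT.nd (nat_lit 188) (nat_lit 0) (nat_lit 0) (XT.nd (nat_lit 94) (nat_lit 756) (nat_lit 0) (XT.lf (nat_lit 0) (nat_lit 5757846127) (nat_lit 672) (nat_lit 842959141) (nat_lit 756) (nat_lit 427141842) (nat_lit 249) (nat_lit 5) (nat_lit 257) (nat_lit 5) (nat_lit 258) (nat_lit 5) (nat_lit 328) (nat_lit 325) (nat_lit 292)) (XT.lf (nat_lit 0) (nat_lit 478286238) (nat_lit 756) (nat_lit 4663645029) (nat_lit 840) (nat_lit 1940129642) (nat_lit 240) (nat_lit 5) (nat_lit 249) (nat_lit 5) (nat_lit 250) (nat_lit 5) (nat_lit 329)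 (nat_lit 325) (nat_lit 291))) (XT.nd (nat_lit 94) (nat_lit 0) (nat_lit 0) (XT.lf (nat_lit 0) (nat_lit 2197448620) (nat_lit 756) (nat_lit 1393292010) (nat_lit 840) (nat_lit 3548520607) (nat_lit 240) (nat_lit 5) (nat_lit 249) (nat_lit 5) (nat_lit 250) (nat_lit 5) (nat_lit 330) (nat_lit 325) (nat_lit 290)) (XT.lf (nat_lit 84) (nat_lit 1976852244) (nat_lit 0) (nat_lit 1947476926) (nat_lit 840) (nat_lit 3275315479) (nat_lit 241) (nat_lit 5) (nat_lit 240) (nat_lit 5) (nat_lit 250) (nat_lit 5) (nat_lit 331) (nat_lit 325) (nat_lit 289))))) (XT.nd (nat_lit 376) (nat_lit 840) (nat_lit 0) (XT.nd (nat_lit 188) (nat_lit 0) (nat_lit 0) (XT.nd (nat_lit 94) (nat_lit 756) (nat_lit 0) (XT.lf (nat_lit 84) (nat_lit 5440128800) (nat_lit 0) (nat_lit 215577115) (nat_lit 840) (nat_lit 1607699915) (nat_lit 241) (nat_lit 5) (nat_lit 240) (nat_lit 5) (nat_lit 250) (nat_lit 5) (nat_lit 332) (nat_lit 325) (nat_lit 288)) (XT.lf (nat_lit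 0) (nat_lit 79029745) (nat_lit 840) (nat_lit 5672979667) (nat_lit 924) (nat_lit 1578040327) (nat_lit 231) (nat_lit 5) (nat_lit 241) (nat_lit 5) (nat_lit 242) (nat_lit 5) (nat_lit 333) (nat_lit 325) (nat_lit 287))) (XT.nd (nat_lit 94) (nat_lit 0) (nat_lit 0) (XT.lf (nat_lit 0) (nat_lit 1746077036) (nat_lit 840) (nat_lit 2175737365) (nat_lit 924) (nat_lit 3477674651) (nat_lit 231) (nat_lit 5) (nat_lit 241) (nat_lit 5) (nat_lit 242) (nat_lit 5) (nat_lit 334) (nat_lit 325) (nat_lit 286)) (XT.lf (nat_lit 84) (nat_lit 1416623705) (nat_lit 0) (nat_lit 2003139858) (nat_lit 924) (nat_lit 4052679721) (nat_lit 232) (nat_lit 5) (nat_lit 231) (nat_lit 5) (nat_lit 242) (nat_lit 5) (nat_lit 335) (nat_lit 325) (nat_lit 285)))) (XT.nd (nat_lit 188) (nat_lit 924) (nat_lit 0) (XT.nd (nat_lit 94) (nat_lit 0) (nat_lit 0) (XT.lf (nat_lit 0) (nat_lit 5110083045) (nat_lit 840) (nat_lit 2424580946) (nat_lit 924) (nat_lit 14056253)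 (nat_lit 232) (nat_lit 5) (nat_lit 242) (nat_lit 5) (nat_lit 243) (nat_lit 5) (nat_lit 336) (nat_lit 325) (nat_lit 284)) (XT.lf (nat_lit 84) (nat_lit 1282881721) (nat_lit 0) (nat_lit 5546504789) (nat_lit 924) (nat_lit 798673848) (nat_lit 233) (nat_lit 5) (nat_lit 232) (nat_lit 5) (nat_lit 243) (nat_lit 5) (nat_lit 337) (nat_lit 325) (nat_lit 283))) (XT.nd (nat_lit 94) (nat_lit 0) (nat_lit 0) (XT.lf (nat_lit 0) (nat_lit 844517165) (nat_lit 924) (nat_lit 2605297895) (nat_lit 1008) (nat_lit 4260682672) (nat_lit 221) (nat_lit 5) (nat_lit 232) (nat_lit 5) (nat_lit 233) (nat_lit 5) (nat_lit 338) (nat_lit 325) (nat_lit 282)) (XT.lf (nat_lit 84) (nat_lit 1225187990) (nat_lit 0) (nat_lit 1255773122) (nat_lit 1008) (nat_lit 5315522226) (nat_lit 222) (nat_lit 5) (nat_lit 221) (nat_lit 5) (nat_lit 233) (nat_lit 5) (nat_lit 339) (nat_lit 325) (nat_lit 281)))))) (XT.nd (nat_lit 752) (nat_lit 3192) (nat_lit 0) (XT.nd (nat_lit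 376) (nat_lit 2268) (nat_lit 0) (XT.nd (nat_lit 188) (nat_lit 1092) (nat_lit 0) (XT.nd (nat_lit 94) (nat_lit 924) (nat_lit 0) (XT.lf (nat_lit 0) (nat_lit 4152230425) (nat_lit 924) (nat_lit 2709156705) (nat_lit 84) (nat_lit 1024198773) (nat_lit 222) (nat_lit 5) (nat_lit 233) (nat_lit 5) (nat_lit 223) (nat_lit 5) (nat_lit 340) (nat_lit 325) (nat_lit 280)) (XT.lf (nat_lit 0) (nat_lit 1242820385) (nat_lit 924) (nat_lit 4606179364) (nat_lit 1008) (nat_lit 2129207109) (nat_lit 211) (nat_lit 5) (nat_lit 222) (nat_lit 5) (nat_lit 223) (nat_lit 5) (nat_lit 341) (nat_lit 325) (nat_lit 279))) (XT.nd (nat_lit 94) (nat_lit 1092) (nat_lit 0) (XT.lf (nat_lit 0) (nat_lit 5331418651) (nat_lit 924) (nat_lit 2244659958) (nat_lit 1008) (nat_lit 498248715) (nat_lit 211) (nat_lit 5) (nat_lit 222) (nat_lit 5) (nat_lit 223) (nat_lit 5) (nat_lit 342) (nat_lit 325) (nat_lit 278)) (XT.lf (nat_lit 0) (nat_lit 1126552203) (nat_lit 1092)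 (nat_lit 6829400807) (nat_lit 84) (nat_lit 218095639) (nat_lit 198) (nat_lit 5) (nat_lit 211) (nat_lit 5) (nat_lit 199) (nat_lit 5) (nat_lit 343) (nat_lit 325) (nat_lit 277)))) (XT.nd (nat_lit 188) (nat_lit 1176) (nat_lit 0) (XT.nd (nat_lit 94) (nat_lit 1092) (nat_lit 0) (XT.lf (nat_lit 0) (nat_lit 2794269344) (nat_lit 1092) (nat_lit 2730918357) (nat_lit 84) (nat_lit 2751394655) (nat_lit 198) (nat_lit 5) (nat_lit 211) (nat_lit 5) (nat_lit 199) (nat_lit 5) (nat_lit 344) (nat_lit 325) (nat_lit 276)) (XT.lf (nat_lit 0) (nat_lit 1481947449) (nat_lit 1092) (nat_lit 2999645941) (nat_lit 1176) (nat_lit 3901603003) (nat_lit 185) (nat_lit 5) (nat_lit 198) (nat_lit 5) (nat_lit 199) (nat_lit 5) (nat_lit 345) (nat_lit 325) (nat_lit 275))) (XT.nd (nat_lit 94) (nat_lit 1176) (nat_lit 0) (XT.lf (nat_lit 0) (nat_lit 5840058671) (nat_lit 1092) (nat_lit 363329644) (nat_lit 1176) (nat_lit 2290193916) (nat_lit 185) (nat_lit 5)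 (nat_lit 198) (nat_lit 5) (nat_lit 199) (nat_lit 5) (nat_lit 346) (nat_lit 325) (nat_lit 274)) (XT.lf (nat_lit 0) (nat_lit 1694630314) (nat_lit 1176) (nat_lit 6278715630) (nat_lit 1260) (nat_lit 634124760) (nat_lit 171) (nat_lit 5) (nat_lit 185) (nat_lit 5) (nat_lit 186) (nat_lit 5) (nat_lit 347) (nat_lit 325) (nat_lit 273))))) (XT.nd (nat_lit 376) (nat_lit 1260) (nat_lit 0) (XT.nd (nat_lit 188) (nat_lit 588) (nat_lit 0) (XT.nd (nat_lit 94) (nat_lit 1260) (nat_lit 0) (XT.lf (nat_lit 0) (nat_lit 1039367532) (nat_lit 1260) (nat_lit 2548524393) (nat_lit 84) (nat_lit 5136996672) (nat_lit 170) (nat_lit 5) (nat_lit 185) (nat_lit 5) (nat_lit 171) (nat_lit 5) (nat_lit 348) (nat_lit 325) (nat_lit 272)) (XT.lf (nat_lit 0) (nat_lit 1941421796) (nat_lit 1260) (nat_lit 786777463) (nat_lit 1344) (nat_lit 6118184013) (nat_lit 155) (nat_lit 5) (nat_lit 170) (nat_lit 5) (nat_lit 171) (nat_lit 5) (nat_lit 349) (nat_lit 325)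 (nat_lit 271))) (XT.nd (nat_lit 94) (nat_lit 588) (nat_lit 0) (XT.lf (nat_lit 0) (nat_lit 4473943736) (nat_lit 1344) (nat_lit 2410718655) (nat_lit 84) (nat_lit 2086749662) (nat_lit 155) (nat_lit 5) (nat_lit 171) (nat_lit 5) (nat_lit 156) (nat_lit 5) (nat_lit 350) (nat_lit 325) (nat_lit 270)) (XT.lf (nat_lit 0) (nat_lit 2217076253) (nat_lit 588) (nat_lit 4045335649) (nat_lit 672) (nat_lit 2838143720) (nat_lit 148) (nat_lit 5) (nat_lit 155) (nat_lit 5) (nat_lit 156) (nat_lit 5) (nat_lit 351) (nat_lit 325) (nat_lit 269)))) (XT.nd (nat_lit 188) (nat_lit 588) (nat_lit 0) (XT.nd (nat_lit 94) (nat_lit 672) (nat_lit 0) (XT.lf (nat_lit 0) (nat_lit 6996734192) (nat_lit 588) (nat_lit 1094171906) (nat_lit 672) (nat_lit 1143148534) (nat_lit 148) (nat_lit 5) (nat_lit 155) (nat_lit 5) (nat_lit 156) (nat_lit 5) (nat_lit 352) (nat_lit 325) (nat_lit 268)) (XT.lf (nat_lit 0) (nat_lit 597221194) (nat_lit 672) (nat_lit 6834677129)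 (nat_lit 84) (nat_lit 1939366069) (nat_lit 140) (nat_lit 5) (nat_lit 148) (nat_lit 5) (nat_lit 141) (nat_lit 5) (nat_lit 353) (nat_lit 325) (nat_lit 267))) (XT.nd (nat_lit 94) (nat_lit 588) (nat_lit 0) (XT.lf (nat_lit 0) (nat_lit 2363925914) (nat_lit 672) (nat_lit 2071667775) (nat_lit 84) (nat_lit 5076810365) (nat_lit 140) (nat_lit 5) (nat_lit 148) (nat_lit 5) (nat_lit 141) (nat_lit 5) (nat_lit 354) (nat_lit 325) (nat_lit 266)) (XT.nd (nat_lit 94) (nat_lit 0) (nat_lit 0) (XT.lf (nat_lit 0) (nat_lit 2854046125) (nat_lit 588) (nat_lit 1321535466) (nat_lit 672) (nat_lit 5482502053) (nat_lit 133) (nat_lit 5) (nat_lit 140) (nat_lit 5) (nat_lit 141) (nat_lit 5) (nat_lit 355) (nat_lit 325) (nat_lit 265)) (XT.lf (nat_lit 0) (nat_lit 6046042667) (nat_lit 672) (nat_lit 1892469211) (nat_lit 84) (nat_lit 1869550437) (nat_lit 133) (nat_lit 5) (nat_lit 141) (nat_lit 5) (nat_lit 134) (nat_lit 5) (nat_lit 356) (nat_lit 325)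 (nat_lit 264))))))))
noncomputable def xc38 : XT := (XT.nd (nat_lit 56682) (nat_lit 0) (nat_lit 8988) (XT.nd (nat_lit 752) (nat_lit 1344) (nat_lit 0) (XT.nd (nat_lit 376) (nat_lit 1008) (nat_lit 0) (XT.nd (nat_lit 188) (nat_lit 588) (nat_lit 0) (XT.nd (nat_lit 94) (nat_lit 0) (nat_lit 0) (XT.lf (nat_lit 0) (nat_lit 3179852990) (nat_lit 588) (nat_lit 4802629345) (nat_lit 672) (nat_lit 1979822612) (nat_lit 126) (nat_lit 5) (nat_lit 133) (nat_lit 5) (nat_lit 134) (nat_lit 5) (nat_lit 357) (nat_lit 325) (nat_lit 263)) (XT.lf (nat_lit 0) (nat_lit 8407928208) (nat_lit 588) (nat_lit 1555056382) (nat_lit 672) (nat_lit 158669972) (nat_lit 126) (nat_lit 5) (nat_lit 133) (nat_lit 5) (nat_lit 134) (nat_lit 5) (nat_lit 358) (nat_lit 325) (nat_lit 262))) (XT.nd (nat_lit 94) (nat_lit 0) (nat_lit 0) (XT.lf (nat_lit 0) (nat_lit 1702621520) (nat_lit 588) (nat_lit 6778545952) (nat_lit 84) (nat_lit 1803607079) (nat_lit 119) (nat_lit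 5) (nat_lit 126) (nat_lit 5) (nat_lit 120) (nat_lit 5) (nat_lit 359) (nat_lit 325) (nat_lit 261)) (XT.lf (nat_lit 0) (nat_lit 3617476644) (nat_lit 588) (nat_lit 1587028753) (nat_lit 84) (nat_lit 5248261988) (nat_lit 119) (nat_lit 5) (nat_lit 126) (nat_lit 5) (nat_lit 120) (nat_lit 5) (nat_lit 360) (nat_lit 325) (nat_lit 260)))) (XT.nd (nat_lit 188) (nat_lit 504) (nat_lit 0) (XT.nd (nat_lit 94) (nat_lit 0) (nat_lit 0) (XT.lf (nat_lit 0) (nat_lit 3799885592) (nat_lit 504) (nat_lit 1795390286) (nat_lit 588) (nat_lit 5030411400) (nat_lit 113) (nat_lit 5) (nat_lit 119) (nat_lit 5) (nat_lit 120) (nat_lit 5) (nat_lit 361) (nat_lit 325) (nat_lit 259)) (XT.lf (nat_lit 0) (nat_lit 7634600245) (nat_lit 588) (nat_lit 1474116264) (nat_lit 84) (nat_lit 1695063232) (nat_lit 113) (nat_lit 5) (nat_lit 120) (nat_lit 5) (nat_lit 114) (nat_lit 5) (nat_lit 362) (nat_lit 325) (nat_lit 258))) (XT.nd (nat_lit 94) (nat_lit 84) (nat_lit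 0) (XT.lf (nat_lit 0) (nat_lit 4065612027) (nat_lit 420) (nat_lit 5696749003) (nat_lit 504) (nat_lit 1224085476) (nat_lit 108) (nat_lit 5) (nat_lit 113) (nat_lit 5) (nat_lit 114) (nat_lit 5) (nat_lit 363) (nat_lit 325) (nat_lit 257)) (XT.lf (nat_lit 0) (nat_lit 749788965) (nat_lit 504) (nat_lit 1414399452) (nat_lit 84) (nat_lit 9010657438) (nat_lit 107) (nat_lit 5) (nat_lit 113) (nat_lit 5) (nat_lit 108) (nat_lit 5) (nat_lit 364) (nat_lit 325) (nat_lit 256))))) (XT.nd (nat_lit 376) (nat_lit 420) (nat_lit 0) (XT.nd (nat_lit 188) (nat_lit 420) (nat_lit 0) (XT.nd (nat_lit 94) (nat_lit 0) (nat_lit 0) (XT.lf (nat_lit 0) (nat_lit 2785682095) (nat_lit 588) (nat_lit 7087282863) (nat_lit 84) (nat_lit 1494791528) (nat_lit 101) (nat_lit 5) (nat_lit 108) (nat_lit 5) (nat_lit 102) (nat_lit 5) (nat_lit 365) (nat_lit 325) (nat_lit 255)) (XT.lf (nat_lit 0) (nat_lit 4890428204) (nat_lit 588) (nat_lit 1446280497) (nat_lit 84)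 (nat_lit 5229556189) (nat_lit 101) (nat_lit 5) (nat_lit 108) (nat_lit 5) (nat_lit 102) (nat_lit 5) (nat_lit 366) (nat_lit 325) (nat_lit 254))) (XT.nd (nat_lit 94) (nat_lit 0) (nat_lit 0) (XT.lf (nat_lit 0) (nat_lit 4417263005) (nat_lit 420) (nat_lit 2656257362) (nat_lit 504) (nat_lit 4696794537) (nat_lit 96) (nat_lit 5) (nat_lit 101) (nat_lit 5) (nat_lit 102) (nat_lit 5) (nat_lit 367) (nat_lit 325) (nat_lit 253)) (XT.lf (nat_lit 0) (nat_lit 9320928546) (nat_lit 504) (nat_lit 1538091426) (nat_lit 84) (nat_lit 1121542977) (nat_lit 96) (nat_lit 5) (nat_lit 102) (nat_lit 5) (nat_lit 97) (nat_lit 5) (nat_lit 368) (nat_lit 325) (nat_lit 252)))) (XT.nd (nat_lit 55366) (nat_lit 0) (nat_lit 12432) (XT.nd (nat_lit 55272) (nat_lit 0) (nat_lit 13188) (XT.lf (nat_lit 0) (nat_lit 4480059655) (nat_lit 420) (nat_lit 7199013006) (nat_lit 504) (nat_lit 516786391) (nat_lit 91) (nat_lit 5) (nat_lit 96) (nat_lit 5) (nat_lit 97)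 (nat_lit 5) (nat_lit 369) (nat_lit 325) (nat_lit 251)) (XT.lf (nat_lit 0) (nat_lit 1960164562) (nat_lit 756) (nat_lit 763597960) (nat_lit 756) (nat_lit 763597960) (nat_lit 248) (nat_lit 3) (nat_lit 257) (nat_lit 3) (nat_lit 257) (nat_lit 5) (nat_lit 326) (nat_lit 326) (nat_lit 293))) (XT.nd (nat_lit 94) (nat_lit 756) (nat_lit 0) (XT.lf (nat_lit 84) (nat_lit 1591966245) (nat_lit 0) (nat_lit 4080300196) (nat_lit 756) (nat_lit 1352043105) (nat_lit 249) (nat_lit 5) (nat_lit 248) (nat_lit 3) (nat_lit 257) (nat_lit 5) (nat_lit 327) (nat_lit 326) (nat_lit 292)) (XT.lf (nat_lit 0) (nat_lit 342491968) (nat_lit 756) (nat_lit 2278889594) (nat_lit 840) (nat_lit 4455580620) (nat_lit 239) (nat_lit 5) (nat_lit 248) (nat_lit 3) (nat_lit 249) (nat_lit 5) (nat_lit 328) (nat_lit 326) (nat_lit 291)))))) (XT.nd (nat_lit 752) (nat_lit 2688) (nat_lit 0) (XT.nd (nat_lit 376) (nat_lit 756) (nat_lit 0) (XT.nd (nat_lit 188) (nat_lit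 0) (nat_lit 84) (XT.nd (nat_lit 94) (nat_lit 0) (nat_lit 84) (XT.lf (nat_lit 84) (nat_lit 939190884) (nat_lit 0) (nat_lit 1065839924) (nat_lit 840) (nat_lit 5127587632) (nat_lit 240) (nat_lit 5) (nat_lit 239) (nat_lit 5) (nat_lit 249) (nat_lit 5) (nat_lit 329) (nat_lit 326) (nat_lit 290)) (XT.lf (nat_lit 0) (nat_lit 3682982455) (nat_lit 756) (nat_lit 2931003841) (nat_lit 840) (nat_lit 577143361) (nat_lit 240) (nat_lit 5) (nat_lit 249) (nat_lit 5) (nat_lit 250) (nat_lit 5) (nat_lit 330) (nat_lit 326) (nat_lit 289))) (XT.nd (nat_lit 94) (nat_lit 0) (nat_lit 0) (XT.lf (nat_lit 84) (nat_lit 390540308) (nat_lit 0) (nat_lit 4974010766) (nat_lit 840) (nat_lit 1888393747) (nat_lit 241) (nat_lit 5) (nat_lit 240) (nat_lit 5) (nat_lit 250) (nat_lit 5) (nat_lit 331) (nat_lit 326) (nat_lit 288)) (XT.lf (nat_lit 84) (nat_lit 3836344414) (nat_lit 0) (nat_lit 3230227752) (nat_lit 840) (nat_lit 251084795) (nat_lit 241) (nat_lit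 5) (nat_lit 240) (nat_lit 5) (nat_lit 250) (nat_lit 5) (nat_lit 332) (nat_lit 326) (nat_lit 287)))) (XT.nd (nat_lit 188) (nat_lit 0) (nat_lit 84) (XT.nd (nat_lit 94) (nat_lit 0) (nat_lit 84) (XT.lf (nat_lit 0) (nat_lit 1348769756) (nat_lit 840) (nat_lit 48321264) (nat_lit 924) (nat_lit 5988696960) (nat_lit 230) (nat_lit 5) (nat_lit 240) (nat_lit 5) (nat_lit 241) (nat_lit 5) (nat_lit 333) (nat_lit 326) (nat_lit 286)) (XT.lf (nat_lit 0) (nat_lit 2973835214) (nat_lit 840) (nat_lit 3942852761) (nat_lit 924) (nat_lit 539863097) (nat_lit 231) (nat_lit 5) (nat_lit 241) (nat_lit 5) (nat_lit 242) (nat_lit 5) (nat_lit 334) (nat_lit 326) (nat_lit 285))) (XT.nd (nat_lit 94) (nat_lit 0) (nat_lit 0) (XT.lf (nat_lit 0) (nat_lit 4606648256) (nat_lit 840) (nat_lit 396042209) (nat_lit 924) (nat_lit 2528103492) (nat_lit 231) (nat_lit 5) (nat_lit 241) (nat_lit 5) (nat_lit 242) (nat_lit 5) (nat_lit 335) (nat_lit 326) (nat_lit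 284)) (XT.lf (nat_lit 84) (nat_lit 3286001779) (nat_lit 0) (nat_lit 2980312772) (nat_lit 924) (nat_lit 1341736591) (nat_lit 232) (nat_lit 5) (nat_lit 231) (nat_lit 5) (nat_lit 242) (nat_lit 5) (nat_lit 336) (nat_lit 326) (nat_lit 283))))) (XT.nd (nat_lit 376) (nat_lit 1848) (nat_lit 0) (XT.nd (nat_lit 188) (nat_lit 0) (nat_lit 84) (XT.nd (nat_lit 94) (nat_lit 0) (nat_lit 84) (XT.lf (nat_lit 0) (nat_lit 233434516) (nat_lit 924) (nat_lit 639809859) (nat_lit 1008) (nat_lit 6815887213) (nat_lit 220) (nat_lit 5) (nat_lit 231) (nat_lit 5) (nat_lit 232) (nat_lit 5) (nat_lit 337) (nat_lit 326) (nat_lit 282)) (XT.lf (nat_lit 0) (nat_lit 1820810386) (nat_lit 924) (nat_lit 4619721388) (nat_lit 1008) (nat_lit 1332069257) (nat_lit 221) (nat_lit 5) (nat_lit 232) (nat_lit 5) (nat_lit 233) (nat_lit 5) (nat_lit 338) (nat_lit 326) (nat_lit 281))) (XT.nd (nat_lit 94) (nat_lit 0) (nat_lit 0) (XT.lf (nat_lit 0) (nat_lit 3420718599)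 (nat_lit 924) (nat_lit 831121931) (nat_lit 1008) (nat_lit 3607896047) (nat_lit 221) (nat_lit 5) (nat_lit 232) (nat_lit 5) (nat_lit 233) (nat_lit 5) (nat_lit 339) (nat_lit 326) (nat_lit 280)) (XT.lf (nat_lit 84) (nat_lit 3096118384) (nat_lit 0) (nat_lit 1953471625) (nat_lit 1008) (nat_lit 2900573371) (nat_lit 222) (nat_lit 5) (nat_lit 221) (nat_lit 5) (nat_lit 233) (nat_lit 5) (nat_lit 340) (nat_lit 326) (nat_lit 279)))) (XT.nd (nat_lit 188) (nat_lit 1008) (nat_lit 0) (XT.nd (nat_lit 94) (nat_lit 1008) (nat_lit 0) (XT.lf (nat_lit 0) (nat_lit 6692191024) (nat_lit 924) (nat_lit 925641329) (nat_lit 84) (nat_lit 426627807) (nat_lit 222) (nat_lit 5) (nat_lit 233) (nat_lit 5) (nat_lit 223) (nat_lit 5) (nat_lit 341) (nat_lit 326) (nat_lit 278)) (XT.lf (nat_lit 0) (nat_lit 240877814) (nat_lit 1008) (nat_lit 5017338892) (nat_lit 84) (nat_lit 2883302610) (nat_lit 210) (nat_lit 5) (nat_lit 222) (nat_lit 5) (nat_lit 211)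 (nat_lit 5) (nat_lit 342) (nat_lit 326) (nat_lit 277))) (XT.nd (nat_lit 94) (nat_lit 1008) (nat_lit 0) (XT.lf (nat_lit 0) (nat_lit 1818338694) (nat_lit 1008) (nat_lit 976546353) (nat_lit 84) (nat_lit 5447386901) (nat_lit 210) (nat_lit 5) (nat_lit 222) (nat_lit 5) (nat_lit 211) (nat_lit 5) (nat_lit 343) (nat_lit 326) (nat_lit 276)) (XT.nd (nat_lit 94) (nat_lit 0) (nat_lit 0) (XT.lf (nat_lit 0) (nat_lit 3212896461) (nat_lit 1008) (nat_lit 216702607) (nat_lit 1092) (nat_lit 4916945403) (nat_lit 198) (nat_lit 5) (nat_lit 210) (nat_lit 5) (nat_lit 211) (nat_lit 5) (nat_lit 344) (nat_lit 326) (nat_lit 275)) (XT.lf (nat_lit 0) (nat_lit 5079230649) (nat_lit 1092) (nat_lit 965546977) (nat_lit 84) (nat_lit 2409555457) (nat_lit 198) (nat_lit 5) (nat_lit 211) (nat_lit 5) (nat_lit 199) (nat_lit 5) (nat_lit 345) (nat_lit 326) (nat_lit 274))))))))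
noncomputable def xc39 : XT := (XT.nd (nat_lit 1598) (nat_lit 1848) (nat_lit 0) (XT.nd (nat_lit 752) (nat_lit 2856) (nat_lit 0) (XT.nd (nat_lit 376) (nat_lit 1932) (nat_lit 0) (XT.nd (nat_lit 188) (nat_lit 1260) (nat_lit 0) (XT.nd (nat_lit 94) (nat_lit 0) (nat_lit 0) (XT.lf (nat_lit 0) (nat_lit 3355594029) (nat_lit 1092) (nat_lit 3415052986) (nat_lit 1176) (nat_lit 1795025787) (nat_lit 185) (nat_lit 5) (nat_lit 198) (nat_lit 5) (nat_lit 199) (nat_lit 5) (nat_lit 346) (nat_lit 326) (nat_lit 273)) (XT.lf (nat_lit 0) (nat_lit 7791171264) (nat_lit 1092) (nat_lit 690169016) (nat_lit 1176) (nat_lit 200040213) (nat_lit 185) (nat_lit 5) (nat_lit 198) (nat_lit 5) (nat_lit 199) (nat_lit 5) (nat_lit 347) (nat_lit 326) (nat_lit 272))) (XT.nd (nat_lit 94) (nat_lit 0) (nat_lit 0) (XT.lf (nat_lit 0) (nat_lit 1429443499) (nat_lit 1260) (nat_lit 5240884189) (nat_lit 84) (nat_lit 2129450572) (nat_lit 170) (nat_lit 5) (nat_lit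 185) (nat_lit 5) (nat_lit 171) (nat_lit 5) (nat_lit 348) (nat_lit 326) (nat_lit 271)) (XT.lf (nat_lit 0) (nat_lit 3080108483) (nat_lit 1260) (nat_lit 806472406) (nat_lit 84) (nat_lit 5035874832) (nat_lit 170) (nat_lit 5) (nat_lit 185) (nat_lit 5) (nat_lit 171) (nat_lit 5) (nat_lit 349) (nat_lit 326) (nat_lit 270)))) (XT.nd (nat_lit 188) (nat_lit 672) (nat_lit 0) (XT.nd (nat_lit 94) (nat_lit 0) (nat_lit 0) (XT.lf (nat_lit 0) (nat_lit 3800343661) (nat_lit 1260) (nat_lit 978039859) (nat_lit 1344) (nat_lit 4270561746) (nat_lit 155) (nat_lit 5) (nat_lit 170) (nat_lit 5) (nat_lit 171) (nat_lit 5) (nat_lit 350) (nat_lit 326) (nat_lit 269)) (XT.lf (nat_lit 0) (nat_lit 6517605390) (nat_lit 1344) (nat_lit 672243752) (nat_lit 84) (nat_lit 1989752696) (nat_lit 155) (nat_lit 5) (nat_lit 171) (nat_lit 5) (nat_lit 156) (nat_lit 5) (nat_lit 351) (nat_lit 326) (nat_lit 268))) (XT.nd (nat_lit 94) (nat_lit 84) (nat_lit 0) (XT.lf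 (nat_lit 0) (nat_lit 4076632096) (nat_lit 588) (nat_lit 4244716482) (nat_lit 672) (nat_lit 992529378) (nat_lit 148) (nat_lit 5) (nat_lit 155) (nat_lit 5) (nat_lit 156) (nat_lit 5) (nat_lit 352) (nat_lit 326) (nat_lit 267)) (XT.lf (nat_lit 0) (nat_lit 683477432) (nat_lit 672) (nat_lit 512366163) (nat_lit 84) (nat_lit 8257075990) (nat_lit 147) (nat_lit 5) (nat_lit 155) (nat_lit 5) (nat_lit 148) (nat_lit 5) (nat_lit 353) (nat_lit 326) (nat_lit 266))))) (XT.nd (nat_lit 376) (nat_lit 1680) (nat_lit 0) (XT.nd (nat_lit 188) (nat_lit 588) (nat_lit 0) (XT.nd (nat_lit 94) (nat_lit 0) (nat_lit 0) (XT.lf (nat_lit 0) (nat_lit 2416133733) (nat_lit 672) (nat_lit 5218753383) (nat_lit 84) (nat_lit 1960225225) (nat_lit 140) (nat_lit 5) (nat_lit 148) (nat_lit 5) (nat_lit 141) (nat_lit 5) (nat_lit 354) (nat_lit 326) (nat_lit 265)) (XT.lf (nat_lit 0) (nat_lit 4183383403) (nat_lit 672) (nat_lit 365891537) (nat_lit 84) (nat_lit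 5192879894) (nat_lit 140) (nat_lit 5) (nat_lit 148) (nat_lit 5) (nat_lit 141) (nat_lit 5) (nat_lit 355) (nat_lit 326) (nat_lit 264))) (XT.nd (nat_lit 94) (nat_lit 0) (nat_lit 0) (XT.lf (nat_lit 0) (nat_lit 4690261170) (nat_lit 588) (nat_lit 1325027017) (nat_lit 672) (nat_lit 3878031831) (nat_lit 133) (nat_lit 5) (nat_lit 140) (nat_lit 5) (nat_lit 141) (nat_lit 5) (nat_lit 356) (nat_lit 326) (nat_lit 263)) (XT.lf (nat_lit 0) (nat_lit 7892265391) (nat_lit 672) (nat_lit 197056629) (nat_lit 84) (nat_lit 1960053463) (nat_lit 133) (nat_lit 5) (nat_lit 141) (nat_lit 5) (nat_lit 134) (nat_lit 5) (nat_lit 357) (nat_lit 326) (nat_lit 262)))) (XT.nd (nat_lit 188) (nat_lit 1008) (nat_lit 0) (XT.nd (nat_lit 94) (nat_lit 84) (nat_lit 0) (XT.lf (nat_lit 0) (nat_lit 5010256937) (nat_lit 588) (nat_lit 4844728747) (nat_lit 672) (nat_lit 354300985) (nat_lit 126) (nat_lit 5) (nat_lit 133) (nat_lit 5) (nat_lit 134) (nat_lit 5)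 (nat_lit 358) (nat_lit 326) (nat_lit 261)) (XT.lf (nat_lit 0) (nat_lit 1443678958) (nat_lit 672) (nat_lit 44441585) (nat_lit 84) (nat_lit 8886382901) (nat_lit 125) (nat_lit 5) (nat_lit 133) (nat_lit 5) (nat_lit 126) (nat_lit 5) (nat_lit 359) (nat_lit 326) (nat_lit 260))) (XT.nd (nat_lit 94) (nat_lit 504) (nat_lit 0) (XT.lf (nat_lit 0) (nat_lit 3328504432) (nat_lit 588) (nat_lit 5231010341) (nat_lit 84) (nat_lit 1983908124) (nat_lit 119) (nat_lit 5) (nat_lit 126) (nat_lit 5) (nat_lit 120) (nat_lit 5) (nat_lit 360) (nat_lit 326) (nat_lit 259)) (XT.nd (nat_lit 94) (nat_lit 0) (nat_lit 0) (XT.lf (nat_lit 0) (nat_lit 66554232) (nat_lit 504) (nat_lit 5189022651) (nat_lit 588) (nat_lit 5462312689) (nat_lit 113) (nat_lit 5) (nat_lit 119) (nat_lit 5) (nat_lit 120) (nat_lit 5) (nat_lit 361) (nat_lit 326) (nat_lit 258)) (XT.lf (nat_lit 0) (nat_lit 5597111656) (nat_lit 504) (nat_lit 1666606789) (nat_lit 588) (nat_lit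 3633223324) (nat_lit 113) (nat_lit 5) (nat_lit 119) (nat_lit 5) (nat_lit 120) (nat_lit 5) (nat_lit 362) (nat_lit 326) (nat_lit 257))))))) (XT.nd (nat_lit 56024) (nat_lit 0) (nat_lit 11676) (XT.nd (nat_lit 376) (nat_lit 840) (nat_lit 0) (XT.nd (nat_lit 188) (nat_lit 504) (nat_lit 0) (XT.nd (nat_lit 94) (nat_lit 84) (nat_lit 0) (XT.lf (nat_lit 0) (nat_lit 163481354) (nat_lit 420) (nat_lit 9160310893) (nat_lit 504) (nat_lit 1757870442) (nat_lit 108) (nat_lit 5) (nat_lit 113) (nat_lit 5) (nat_lit 114) (nat_lit 5) (nat_lit 363) (nat_lit 326) (nat_lit 256)) (XT.lf (nat_lit 0) (nat_lit 212360418) (nat_lit 504) (nat_lit 5423050159) (nat_lit 84) (nat_lit 5635249376) (nat_lit 107) (nat_lit 5) (nat_lit 113) (nat_lit 5) (nat_lit 108) (nat_lit 5) (nat_lit 364) (nat_lit 326) (nat_lit 255))) (XT.nd (nat_lit 94) (nat_lit 0) (nat_lit 0) (XT.lf (nat_lit 0) (nat_lit 190863579) (nat_lit 504) (nat_lit 1989628076) (nat_lit 588)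 (nat_lit 9285133333) (nat_lit 101) (nat_lit 5) (nat_lit 107) (nat_lit 5) (nat_lit 108) (nat_lit 5) (nat_lit 365) (nat_lit 326) (nat_lit 254)) (XT.lf (nat_lit 0) (nat_lit 4252684772) (nat_lit 588) (nat_lit 5630833347) (nat_lit 84) (nat_lit 1781612783) (nat_lit 101) (nat_lit 5) (nat_lit 108) (nat_lit 5) (nat_lit 102) (nat_lit 5) (nat_lit 366) (nat_lit 326) (nat_lit 253)))) (XT.nd (nat_lit 188) (nat_lit 420) (nat_lit 0) (XT.nd (nat_lit 94) (nat_lit 0) (nat_lit 0) (XT.lf (nat_lit 0) (nat_lit 133388345) (nat_lit 420) (nat_lit 6248172987) (nat_lit 504) (nat_lit 5489266360) (nat_lit 96) (nat_lit 5) (nat_lit 101) (nat_lit 5) (nat_lit 102) (nat_lit 5) (nat_lit 367) (nat_lit 326) (nat_lit 252)) (XT.lf (nat_lit 0) (nat_lit 6154348458) (nat_lit 420) (nat_lit 2450819150) (nat_lit 504) (nat_lit 3476641904) (nat_lit 96) (nat_lit 5) (nat_lit 101) (nat_lit 5) (nat_lit 102) (nat_lit 5) (nat_lit 368) (nat_lit 326) (nat_lit 251)))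 (XT.nd (nat_lit 55366) (nat_lit 0) (nat_lit 12432) (XT.lf (nat_lit 0) (nat_lit 11565888) (nat_lit 420) (nat_lit 10872773959) (nat_lit 504) (nat_lit 1415154069) (nat_lit 91) (nat_lit 5) (nat_lit 96) (nat_lit 5) (nat_lit 97) (nat_lit 5) (nat_lit 369) (nat_lit 326) (nat_lit 250)) (XT.lf (nat_lit 0) (nat_lit 70669234) (nat_lit 0) (nat_lit 70669234) (nat_lit 756) (nat_lit 3396511534) (nat_lit 239) (nat_lit 5) (nat_lit 239) (nat_lit 3) (nat_lit 248) (nat_lit 3) (nat_lit 327) (nat_lit 327) (nat_lit 291))))) (XT.nd (nat_lit 376) (nat_lit 756) (nat_lit 0) (XT.nd (nat_lit 188) (nat_lit 0) (nat_lit 0) (XT.nd (nat_lit 94) (nat_lit 0) (nat_lit 0) (XT.lf (nat_lit 0) (nat_lit 1917605303) (nat_lit 756) (nat_lit 3809746490) (nat_lit 840) (nat_lit 1401684457) (nat_lit 239) (nat_lit 5) (nat_lit 248) (nat_lit 3) (nat_lit 249) (nat_lit 5) (nat_lit 328) (nat_lit 327) (nat_lit 290)) (XT.lf (nat_lit 0) (nat_lit 3540179324) (nat_lit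 756) (nat_lit 626692646) (nat_lit 840) (nat_lit 3019094050) (nat_lit 239) (nat_lit 5) (nat_lit 248) (nat_lit 3) (nat_lit 249) (nat_lit 5) (nat_lit 329) (nat_lit 327) (nat_lit 289))) (XT.nd (nat_lit 94) (nat_lit 0) (nat_lit 0) (XT.lf (nat_lit 84) (nat_lit 2671061975) (nat_lit 0) (nat_lit 2505072056) (nat_lit 840) (nat_lit 2069675510) (nat_lit 240) (nat_lit 5) (nat_lit 239) (nat_lit 5) (nat_lit 249) (nat_lit 5) (nat_lit 330) (nat_lit 327) (nat_lit 288)) (XT.lf (nat_lit 84) (nat_lit 6048005618) (nat_lit 0) (nat_lit 759980332) (nat_lit 840) (nat_lit 501200543) (nat_lit 240) (nat_lit 5) (nat_lit 239) (nat_lit 5) (nat_lit 249) (nat_lit 5) (nat_lit 331) (nat_lit 327) (nat_lit 287)))) (XT.nd (nat_lit 188) (nat_lit 0) (nat_lit 0) (XT.nd (nat_lit 94) (nat_lit 0) (nat_lit 0) (XT.lf (nat_lit 0) (nat_lit 1065296778) (nat_lit 840) (nat_lit 5235843425) (nat_lit 924) (nat_lit 1073956313) (nat_lit 230) (nat_lit 5) (nat_lit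 240) (nat_lit 5) (nat_lit 241) (nat_lit 5) (nat_lit 332) (nat_lit 327) (nat_lit 286)) (XT.lf (nat_lit 0) (nat_lit 2632242317) (nat_lit 840) (nat_lit 1822356948) (nat_lit 924) (nat_lit 2989460470) (nat_lit 230) (nat_lit 5) (nat_lit 240) (nat_lit 5) (nat_lit 241) (nat_lit 5) (nat_lit 333) (nat_lit 327) (nat_lit 285))) (XT.nd (nat_lit 94) (nat_lit 0) (nat_lit 0) (XT.lf (nat_lit 84) (nat_lit 1692883732) (nat_lit 0) (nat_lit 2514382442) (nat_lit 924) (nat_lit 3309120347) (nat_lit 231) (nat_lit 5) (nat_lit 230) (nat_lit 5) (nat_lit 241) (nat_lit 5) (nat_lit 334) (nat_lit 327) (nat_lit 284)) (XT.nd (nat_lit 94) (nat_lit 0) (nat_lit 84) (XT.lf (nat_lit 84) (nat_lit 5317583758) (nat_lit 0) (nat_lit 476443376) (nat_lit 924) (nat_lit 1798044466) (nat_lit 231) (nat_lit 5) (nat_lit 230) (nat_lit 5) (nat_lit 241) (nat_lit 5) (nat_lit 335) (nat_lit 327) (nat_lit 283)) (XT.lf (nat_lit 84) (nat_lit 1357627331) (nat_lit 0)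 (nat_lit 6047258095) (nat_lit 924) (nat_lit 265966464) (nat_lit 232) (nat_lit 5) (nat_lit 231) (nat_lit 5) (nat_lit 242) (nat_lit 5) (nat_lit 336) (nat_lit 327) (nat_lit 282))))))))
noncomputable def xc40 : XT := (XT.nd (nat_lit 1504) (nat_lit 4368) (nat_lit 0) (XT.nd (nat_lit 752) (nat_lit 4200) (nat_lit 0) (XT.nd (nat_lit 376) (nat_lit 1848) (nat_lit 0) (XT.nd (nat_lit 188) (nat_lit 0) (nat_lit 84) (XT.nd (nat_lit 94) (nat_lit 0) (nat_lit 0) (XT.lf (nat_lit 0) (nat_lit 1262804116) (nat_lit 924) (nat_lit 2658600842) (nat_lit 1008) (nat_lit 3831034885) (nat_lit 220) (nat_lit 5) (nat_lit 231) (nat_lit 5) (nat_lit 232) (nat_lit 5) (nat_lit 337) (nat_lit 327) (nat_lit 281)) (XT.lf (nat_lit 84) (nat_lit 1090256582) (nat_lit 0) (nat_lit 1702239075) (nat_lit 1008) (nat_lit 5045198027) (nat_lit 221) (nat_lit 5) (nat_lit 220) (nat_lit 5) (nat_lit 232) (nat_lit 5) (nat_lit 338) (nat_lit 327) (nat_lit 280))) (XT.nd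 (nat_lit 94) (nat_lit 0) (nat_lit 0) (XT.lf (nat_lit 0) (nat_lit 4352003551) (nat_lit 924) (nat_lit 2959929631) (nat_lit 1008) (nat_lit 614160358) (nat_lit 221) (nat_lit 5) (nat_lit 232) (nat_lit 5) (nat_lit 233) (nat_lit 5) (nat_lit 339) (nat_lit 327) (nat_lit 279)) (XT.lf (nat_lit 84) (nat_lit 907659415) (nat_lit 0) (nat_lit 5028841500) (nat_lit 1008) (nat_lit 2081401426) (nat_lit 222) (nat_lit 5) (nat_lit 221) (nat_lit 5) (nat_lit 233) (nat_lit 5) (nat_lit 340) (nat_lit 327) (nat_lit 278)))) (XT.nd (nat_lit 188) (nat_lit 924) (nat_lit 0) (XT.nd (nat_lit 94) (nat_lit 1008) (nat_lit 0) (XT.lf (nat_lit 84) (nat_lit 4917887556) (nat_lit 0) (nat_lit 2634212929) (nat_lit 1008) (nat_lit 560957976) (nat_lit 222) (nat_lit 5) (nat_lit 221) (nat_lit 5) (nat_lit 233) (nat_lit 5) (nat_lit 341) (nat_lit 327) (nat_lit 277)) (XT.lf (nat_lit 84) (nat_lit 809414025) (nat_lit 0) (nat_lit 138338687) (nat_lit 1092) (nat_lit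 7264253024) (nat_lit 210) (nat_lit 5) (nat_lit 209) (nat_lit 5) (nat_lit 222) (nat_lit 5) (nat_lit 342) (nat_lit 327) (nat_lit 276))) (XT.nd (nat_lit 94) (nat_lit 1008) (nat_lit 0) (XT.lf (nat_lit 0) (nat_lit 2502007610) (nat_lit 1008) (nat_lit 3377843112) (nat_lit 84) (nat_lit 2433648940) (nat_lit 210) (nat_lit 5) (nat_lit 222) (nat_lit 5) (nat_lit 211) (nat_lit 5) (nat_lit 343) (nat_lit 327) (nat_lit 275)) (XT.lf (nat_lit 0) (nat_lit 746605784) (nat_lit 1008) (nat_lit 3321715690) (nat_lit 1092) (nat_lit 4350842906) (nat_lit 198) (nat_lit 5) (nat_lit 210) (nat_lit 5) (nat_lit 211) (nat_lit 5) (nat_lit 344) (nat_lit 327) (nat_lit 274))))) (XT.nd (nat_lit 376) (nat_lit 1848) (nat_lit 0) (XT.nd (nat_lit 188) (nat_lit 1260) (nat_lit 0) (XT.nd (nat_lit 94) (nat_lit 1092) (nat_lit 0) (XT.lf (nat_lit 0) (nat_lit 5030124880) (nat_lit 1008) (nat_lit 643424125) (nat_lit 1092) (nat_lit 2854778634) (nat_lit 198) (nat_lit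 5) (nat_lit 210) (nat_lit 5) (nat_lit 211) (nat_lit 5) (nat_lit 345) (nat_lit 327) (nat_lit 273)) (XT.lf (nat_lit 0) (nat_lit 761604679) (nat_lit 1092) (nat_lit 6552103072) (nat_lit 1176) (nat_lit 1327538622) (nat_lit 185) (nat_lit 5) (nat_lit 198) (nat_lit 5) (nat_lit 199) (nat_lit 5) (nat_lit 346) (nat_lit 327) (nat_lit 272))) (XT.nd (nat_lit 94) (nat_lit 1176) (nat_lit 0) (XT.lf (nat_lit 0) (nat_lit 242281675) (nat_lit 1176) (nat_lit 3579513691) (nat_lit 84) (nat_lit 4935718879) (nat_lit 184) (nat_lit 5) (nat_lit 198) (nat_lit 5) (nat_lit 185) (nat_lit 5) (nat_lit 347) (nat_lit 327) (nat_lit 271)) (XT.lf (nat_lit 0) (nat_lit 818606936) (nat_lit 1176) (nat_lit 982464501) (nat_lit 1260) (nat_lit 7076824385) (nat_lit 170) (nat_lit 5) (nat_lit 184) (nat_lit 5) (nat_lit 185) (nat_lit 5) (nat_lit 348) (nat_lit 327) (nat_lit 270)))) (XT.nd (nat_lit 188) (nat_lit 588) (nat_lit 0) (XT.nd (nat_lit 94) (nat_lit 1260)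 (nat_lit 0) (XT.lf (nat_lit 0) (nat_lit 3423355858) (nat_lit 1260) (nat_lit 3632569241) (nat_lit 84) (nat_lit 1945536283) (nat_lit 170) (nat_lit 5) (nat_lit 185) (nat_lit 5) (nat_lit 171) (nat_lit 5) (nat_lit 349) (nat_lit 327) (nat_lit 269)) (XT.lf (nat_lit 0) (nat_lit 901033772) (nat_lit 1260) (nat_lit 4174342219) (nat_lit 1344) (nat_lit 4053998198) (nat_lit 155) (nat_lit 5) (nat_lit 170) (nat_lit 5) (nat_lit 171) (nat_lit 5) (nat_lit 350) (nat_lit 327) (nat_lit 268))) (XT.nd (nat_lit 94) (nat_lit 588) (nat_lit 0) (XT.lf (nat_lit 0) (nat_lit 5611666830) (nat_lit 1260) (nat_lit 1165415811) (nat_lit 1344) (nat_lit 2484108151) (nat_lit 155) (nat_lit 5) (nat_lit 170) (nat_lit 5) (nat_lit 171) (nat_lit 5) (nat_lit 351) (nat_lit 327) (nat_lit 267)) (XT.lf (nat_lit 0) (nat_lit 1034627583) (nat_lit 588) (nat_lit 7488284925) (nat_lit 672) (nat_lit 874325372) (nat_lit 148) (nat_lit 5) (nat_lit 155) (nat_lit 5) (nat_lit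 156) (nat_lit 5) (nat_lit 352) (nat_lit 327) (nat_lit 266)))))) (XT.nd (nat_lit 752) (nat_lit 1932) (nat_lit 0) (XT.nd (nat_lit 376) (nat_lit 1176) (nat_lit 0) (XT.nd (nat_lit 188) (nat_lit 588) (nat_lit 0) (XT.nd (nat_lit 94) (nat_lit 588) (nat_lit 0) (XT.lf (nat_lit 0) (nat_lit 782055509) (nat_lit 672) (nat_lit 3655647291) (nat_lit 84) (nat_lit 5099093843) (nat_lit 147) (nat_lit 5) (nat_lit 155) (nat_lit 5) (nat_lit 148) (nat_lit 5) (nat_lit 353) (nat_lit 327) (nat_lit 265)) (XT.lf (nat_lit 0) (nat_lit 1173698877) (nat_lit 588) (nat_lit 1274003939) (nat_lit 672) (nat_lit 7233327575) (nat_lit 140) (nat_lit 5) (nat_lit 147) (nat_lit 5) (nat_lit 148) (nat_lit 5) (nat_lit 354) (nat_lit 327) (nat_lit 264))) (XT.nd (nat_lit 94) (nat_lit 588) (nat_lit 0) (XT.lf (nat_lit 0) (nat_lit 4186229116) (nat_lit 672) (nat_lit 3658882711) (nat_lit 84) (nat_lit 1983852582) (nat_lit 140) (nat_lit 5) (nat_lit 148) (nat_lit 5)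 (nat_lit 141) (nat_lit 5) (nat_lit 355) (nat_lit 327) (nat_lit 263)) (XT.lf (nat_lit 0) (nat_lit 1315236795) (nat_lit 588) (nat_lit 4654457350) (nat_lit 672) (nat_lit 4011917599) (nat_lit 133) (nat_lit 5) (nat_lit 140) (nat_lit 5) (nat_lit 141) (nat_lit 5) (nat_lit 356) (nat_lit 327) (nat_lit 262)))) (XT.nd (nat_lit 188) (nat_lit 588) (nat_lit 0) (XT.nd (nat_lit 94) (nat_lit 588) (nat_lit 0) (XT.lf (nat_lit 0) (nat_lit 6481071429) (nat_lit 588) (nat_lit 1330698731) (nat_lit 672) (nat_lit 2326972198) (nat_lit 133) (nat_lit 5) (nat_lit 140) (nat_lit 5) (nat_lit 141) (nat_lit 5) (nat_lit 357) (nat_lit 327) (nat_lit 261)) (XT.lf (nat_lit 0) (nat_lit 1477466336) (nat_lit 588) (nat_lit 8235042061) (nat_lit 672) (nat_lit 588031904) (nat_lit 126) (nat_lit 5) (nat_lit 133) (nat_lit 5) (nat_lit 134) (nat_lit 5) (nat_lit 358) (nat_lit 327) (nat_lit 260))) (XT.nd (nat_lit 94) (nat_lit 504) (nat_lit 0) (XT.lf (nat_lit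 0) (nat_lit 1199394890) (nat_lit 672) (nat_lit 3682438742) (nat_lit 84) (nat_lit 5584469997) (nat_lit 125) (nat_lit 5) (nat_lit 133) (nat_lit 5) (nat_lit 126) (nat_lit 5) (nat_lit 359) (nat_lit 327) (nat_lit 259)) (XT.lf (nat_lit 0) (nat_lit 1606004835) (nat_lit 504) (nat_lit 1408270749) (nat_lit 588) (nat_lit 7623070819) (nat_lit 119) (nat_lit 5) (nat_lit 125) (nat_lit 5) (nat_lit 126) (nat_lit 5) (nat_lit 360) (nat_lit 327) (nat_lit 258))))) (XT.nd (nat_lit 376) (nat_lit 1008) (nat_lit 0) (XT.nd (nat_lit 188) (nat_lit 420) (nat_lit 0) (XT.nd (nat_lit 94) (nat_lit 504) (nat_lit 0) (XT.lf (nat_lit 0) (nat_lit 4912763623) (nat_lit 588) (nat_lit 3737557025) (nat_lit 84) (nat_lit 2162374215) (nat_lit 119) (nat_lit 5) (nat_lit 126) (nat_lit 5) (nat_lit 120) (nat_lit 5) (nat_lit 361) (nat_lit 327) (nat_lit 257)) (XT.lf (nat_lit 0) (nat_lit 1702754254) (nat_lit 504) (nat_lit 5167367888) (nat_lit 588) (nat_lit 4123171955)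 (nat_lit 113) (nat_lit 5) (nat_lit 119) (nat_lit 5) (nat_lit 120) (nat_lit 5) (nat_lit 362) (nat_lit 327) (nat_lit 256))) (XT.nd (nat_lit 94) (nat_lit 420) (nat_lit 0) (XT.lf (nat_lit 0) (nat_lit 7351630244) (nat_lit 504) (nat_lit 1544444368) (nat_lit 588) (nat_lit 2282986903) (nat_lit 113) (nat_lit 5) (nat_lit 119) (nat_lit 5) (nat_lit 120) (nat_lit 5) (nat_lit 363) (nat_lit 327) (nat_lit 255)) (XT.lf (nat_lit 0) (nat_lit 1782146795) (nat_lit 420) (nat_lit 9211725587) (nat_lit 504) (nat_lit 376242625) (nat_lit 108) (nat_lit 5) (nat_lit 113) (nat_lit 5) (nat_lit 114) (nat_lit 5) (nat_lit 364) (nat_lit 327) (nat_lit 254)))) (XT.nd (nat_lit 188) (nat_lit 420) (nat_lit 0) (XT.nd (nat_lit 94) (nat_lit 504) (nat_lit 0) (XT.lf (nat_lit 0) (nat_lit 1584143195) (nat_lit 504) (nat_lit 3989653723) (nat_lit 84) (nat_lit 5991865161) (nat_lit 107) (nat_lit 5) (nat_lit 113) (nat_lit 5) (nat_lit 108) (nat_lit 5) (nat_lit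 365) (nat_lit 327) (nat_lit 253)) (XT.lf (nat_lit 0) (nat_lit 1777029506) (nat_lit 504) (nat_lit 1809711738) (nat_lit 588) (nat_lit 8180534911) (nat_lit 101) (nat_lit 5) (nat_lit 107) (nat_lit 5) (nat_lit 108) (nat_lit 5) (nat_lit 366) (nat_lit 327) (nat_lit 252))) (XT.nd (nat_lit 94) (nat_lit 420) (nat_lit 0) (XT.lf (nat_lit 0) (nat_lit 5684282861) (nat_lit 588) (nat_lit 4226501676) (nat_lit 84) (nat_lit 2063148176) (nat_lit 101) (nat_lit 5) (nat_lit 108) (nat_lit 5) (nat_lit 102) (nat_lit 5) (nat_lit 367) (nat_lit 327) (nat_lit 251)) (XT.nd (nat_lit 94) (nat_lit 0) (nat_lit 0) (XT.lf (nat_lit 0) (nat_lit 1695222581) (nat_lit 420) (nat_lit 6158796883) (nat_lit 504) (nat_lit 4332530303) (nat_lit 96) (nat_lit 5) (nat_lit 101) (nat_lit 5) (nat_lit 102) (nat_lit 5) (nat_lit 368) (nat_lit 327) (nat_lit 250)) (XT.lf (nat_lit 0) (nat_lit 7851437733) (nat_lit 420) (nat_lit 2255585187) (nat_lit 504) (nat_lit 2298014901)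 (nat_lit 96) (nat_lit 5) (nat_lit 101) (nat_lit 5) (nat_lit 102) (nat_lit 5) (nat_lit 369) (nat_lit 327) (nat_lit 249))))))))
noncomputable def xc41 : XT := (XT.nd (nat_lit 1504) (nat_lit 7056) (nat_lit 0) (XT.nd (nat_lit 752) (nat_lit 1680) (nat_lit 0) (XT.nd (nat_lit 376) (nat_lit 0) (nat_lit 0) (XT.nd (nat_lit 188) (nat_lit 840) (nat_lit 0) (XT.nd (nat_lit 94) (nat_lit 0) (nat_lit 0) (XT.lf (nat_lit 0) (nat_lit 873490877) (nat_lit 0) (nat_lit 873490877) (nat_lit 756) (nat_lit 1845120330) (nat_lit 239) (nat_lit 5) (nat_lit 239) (nat_lit 3) (nat_lit 248) (nat_lit 3) (nat_lit 328) (nat_lit 328) (nat_lit 289)) (XT.lf (nat_lit 0) (nat_lit 4988207668) (nat_lit 0) (nat_lit 82292173) (nat_lit 756) (nat_lit 2172087622) (nat_lit 239) (nat_lit 5) (nat_lit 239) (nat_lit 3) (nat_lit 248) (nat_lit 3) (nat_lit 329) (nat_lit 328) (nat_lit 288))) (XT.nd (nat_lit 94) (nat_lit 840) (nat_lit 0) (XT.lf (nat_lit 84) (nat_lit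 995733159) (nat_lit 0) (nat_lit 5664665214) (nat_lit 840) (nat_lit 643484583) (nat_lit 240) (nat_lit 5) (nat_lit 239) (nat_lit 5) (nat_lit 249) (nat_lit 5) (nat_lit 330) (nat_lit 328) (nat_lit 287)) (XT.lf (nat_lit 0) (nat_lit 878130456) (nat_lit 840) (nat_lit 3019700994) (nat_lit 924) (nat_lit 3470092264) (nat_lit 229) (nat_lit 5) (nat_lit 239) (nat_lit 5) (nat_lit 240) (nat_lit 5) (nat_lit 331) (nat_lit 328) (nat_lit 286)))) (XT.nd (nat_lit 188) (nat_lit 0) (nat_lit 84) (XT.nd (nat_lit 94) (nat_lit 0) (nat_lit 0) (XT.lf (nat_lit 84) (nat_lit 335598864) (nat_lit 0) (nat_lit 2043306720) (nat_lit 924) (nat_lit 5056526199) (nat_lit 230) (nat_lit 5) (nat_lit 229) (nat_lit 5) (nat_lit 240) (nat_lit 5) (nat_lit 332) (nat_lit 328) (nat_lit 285)) (XT.lf (nat_lit 84) (nat_lit 3821792140) (nat_lit 0) (nat_lit 77973360) (nat_lit 924) (nat_lit 3606074518) (nat_lit 230) (nat_lit 5) (nat_lit 229) (nat_lit 5) (nat_lit 240)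 (nat_lit 5) (nat_lit 333) (nat_lit 328) (nat_lit 284))) (XT.nd (nat_lit 94) (nat_lit 0) (nat_lit 0) (XT.lf (nat_lit 0) (nat_lit 5431365209) (nat_lit 840) (nat_lit 217202049) (nat_lit 924) (nat_lit 1930962902) (nat_lit 230) (nat_lit 5) (nat_lit 240) (nat_lit 5) (nat_lit 241) (nat_lit 5) (nat_lit 334) (nat_lit 328) (nat_lit 283)) (XT.lf (nat_lit 84) (nat_lit 3387223052) (nat_lit 0) (nat_lit 3602987733) (nat_lit 924) (nat_lit 665900780) (nat_lit 231) (nat_lit 5) (nat_lit 230) (nat_lit 5) (nat_lit 241) (nat_lit 5) (nat_lit 335) (nat_lit 328) (nat_lit 282))))) (XT.nd (nat_lit 376) (nat_lit 840) (nat_lit 0) (XT.nd (nat_lit 188) (nat_lit 0) (nat_lit 84) (XT.nd (nat_lit 94) (nat_lit 0) (nat_lit 84) (XT.lf (nat_lit 0) (nat_lit 794810645) (nat_lit 924) (nat_lit 671563903) (nat_lit 1008) (nat_lit 6269956934) (nat_lit 219) (nat_lit 5) (nat_lit 230) (nat_lit 5) (nat_lit 231) (nat_lit 5) (nat_lit 336) (nat_lit 328) (nat_lit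 281)) (XT.lf (nat_lit 0) (nat_lit 2272978096) (nat_lit 924) (nat_lit 4772002060) (nat_lit 1008) (nat_lit 774278844) (nat_lit 220) (nat_lit 5) (nat_lit 231) (nat_lit 5) (nat_lit 232) (nat_lit 5) (nat_lit 337) (nat_lit 328) (nat_lit 280))) (XT.nd (nat_lit 94) (nat_lit 0) (nat_lit 0) (XT.lf (nat_lit 0) (nat_lit 3768239590) (nat_lit 924) (nat_lit 1060702650) (nat_lit 1008) (nat_lit 3076655801) (nat_lit 220) (nat_lit 5) (nat_lit 231) (nat_lit 5) (nat_lit 232) (nat_lit 5) (nat_lit 338) (nat_lit 328) (nat_lit 279)) (XT.lf (nat_lit 84) (nat_lit 2784172887) (nat_lit 0) (nat_lit 2503747116) (nat_lit 1008) (nat_lit 2707323495) (nat_lit 221) (nat_lit 5) (nat_lit 220) (nat_lit 5) (nat_lit 232) (nat_lit 5) (nat_lit 339) (nat_lit 328) (nat_lit 278)))) (XT.nd (nat_lit 188) (nat_lit 0) (nat_lit 0) (XT.nd (nat_lit 94) (nat_lit 924) (nat_lit 0) (XT.lf (nat_lit 84) (nat_lit 6734360588) (nat_lit 0) (nat_lit 83408513) (nat_lit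 1008) (nat_lit 1270971945) (nat_lit 221) (nat_lit 5) (nat_lit 220) (nat_lit 5) (nat_lit 232) (nat_lit 5) (nat_lit 340) (nat_lit 328) (nat_lit 277)) (XT.lf (nat_lit 0) (nat_lit 207971468) (nat_lit 1008) (nat_lit 5573651829) (nat_lit 1092) (nat_lit 2403347354) (nat_lit 209) (nat_lit 5) (nat_lit 221) (nat_lit 5) (nat_lit 222) (nat_lit 5) (nat_lit 341) (nat_lit 328) (nat_lit 276))) (XT.nd (nat_lit 94) (nat_lit 0) (nat_lit 0) (XT.lf (nat_lit 0) (nat_lit 1676187818) (nat_lit 1008) (nat_lit 1606549226) (nat_lit 1092) (nat_lit 5001950667) (nat_lit 209) (nat_lit 5) (nat_lit 221) (nat_lit 5) (nat_lit 222) (nat_lit 5) (nat_lit 342) (nat_lit 328) (nat_lit 275)) (XT.lf (nat_lit 84) (nat_lit 2496159186) (nat_lit 0) (nat_lit 673385196) (nat_lit 1092) (nat_lit 5218508006) (nat_lit 210) (nat_lit 5) (nat_lit 209) (nat_lit 5) (nat_lit 222) (nat_lit 5) (nat_lit 343) (nat_lit 328) (nat_lit 274)))))) (XT.nd (nat_lit 752) (nat_lit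 2520) (nat_lit 0) (XT.nd (nat_lit 376) (nat_lit 2436) (nat_lit 0) (XT.nd (nat_lit 188) (nat_lit 1176) (nat_lit 0) (XT.nd (nat_lit 94) (nat_lit 1008) (nat_lit 0) (XT.lf (nat_lit 0) (nat_lit 4701588021) (nat_lit 1008) (nat_lit 1791916696) (nat_lit 84) (nat_lit 2001283021) (nat_lit 210) (nat_lit 5) (nat_lit 222) (nat_lit 5) (nat_lit 211) (nat_lit 5) (nat_lit 344) (nat_lit 328) (nat_lit 273)) (XT.lf (nat_lit 0) (nat_lit 2439723885) (nat_lit 1008) (nat_lit 3829348170) (nat_lit 1092) (nat_lit 2336052533) (nat_lit 198) (nat_lit 5) (nat_lit 210) (nat_lit 5) (nat_lit 211) (nat_lit 5) (nat_lit 345) (nat_lit 328) (nat_lit 272))) (XT.nd (nat_lit 94) (nat_lit 1176) (nat_lit 0) (XT.lf (nat_lit 0) (nat_lit 6803086808) (nat_lit 1008) (nat_lit 1058824915) (nat_lit 1092) (nat_lit 857591254) (nat_lit 198) (nat_lit 5) (nat_lit 210) (nat_lit 5) (nat_lit 211) (nat_lit 5) (nat_lit 346) (nat_lit 328) (nat_lit 271)) (XT.lf (nat_lit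 0) (nat_lit 654540727) (nat_lit 1176) (nat_lit 6385319122) (nat_lit 84) (nat_lit 1797268799) (nat_lit 184) (nat_lit 5) (nat_lit 198) (nat_lit 5) (nat_lit 185) (nat_lit 5) (nat_lit 347) (nat_lit 328) (nat_lit 270)))) (XT.nd (nat_lit 188) (nat_lit 1260) (nat_lit 0) (XT.nd (nat_lit 94) (nat_lit 1176) (nat_lit 0) (XT.lf (nat_lit 0) (nat_lit 2186660122) (nat_lit 1176) (nat_lit 2019357474) (nat_lit 84) (nat_lit 4752329422) (nat_lit 184) (nat_lit 5) (nat_lit 198) (nat_lit 5) (nat_lit 185) (nat_lit 5) (nat_lit 348) (nat_lit 328) (nat_lit 269)) (XT.lf (nat_lit 0) (nat_lit 2494358325) (nat_lit 1176) (nat_lit 1257306852) (nat_lit 1260) (nat_lit 5332001395) (nat_lit 170) (nat_lit 5) (nat_lit 184) (nat_lit 5) (nat_lit 185) (nat_lit 5) (nat_lit 349) (nat_lit 328) (nat_lit 268))) (XT.nd (nat_lit 94) (nat_lit 1260) (nat_lit 0) (XT.lf (nat_lit 0) (nat_lit 5365088539) (nat_lit 1260) (nat_lit 2077354147) (nat_lit 84) (nat_lit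 1770329173) (nat_lit 170) (nat_lit 5) (nat_lit 185) (nat_lit 5) (nat_lit 171) (nat_lit 5) (nat_lit 350) (nat_lit 328) (nat_lit 267)) (XT.lf (nat_lit 0) (nat_lit 2575941346) (nat_lit 1260) (nat_lit 4453004287) (nat_lit 1344) (nat_lit 2316811885) (nat_lit 155) (nat_lit 5) (nat_lit 170) (nat_lit 5) (nat_lit 171) (nat_lit 5) (nat_lit 351) (nat_lit 328) (nat_lit 266))))) (XT.nd (nat_lit 376) (nat_lit 1260) (nat_lit 0) (XT.nd (nat_lit 188) (nat_lit 588) (nat_lit 0) (XT.nd (nat_lit 94) (nat_lit 672) (nat_lit 0) (XT.lf (nat_lit 0) (nat_lit 7379896991) (nat_lit 1260) (nat_lit 1349341200) (nat_lit 1344) (nat_lit 753965125) (nat_lit 155) (nat_lit 5) (nat_lit 170) (nat_lit 5) (nat_lit 171) (nat_lit 5) (nat_lit 352) (nat_lit 328) (nat_lit 265)) (XT.lf (nat_lit 0) (nat_lit 849456690) (nat_lit 672) (nat_lit 6926298986) (nat_lit 84) (nat_lit 1848520728) (nat_lit 147) (nat_lit 5) (nat_lit 155) (nat_lit 5) (nat_lit 148) (nat_lit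 5) (nat_lit 353) (nat_lit 328) (nat_lit 264))) (XT.nd (nat_lit 94) (nat_lit 588) (nat_lit 0) (XT.lf (nat_lit 0) (nat_lit 2487496543) (nat_lit 672) (nat_lit 2135673086) (nat_lit 84) (nat_lit 5146198572) (nat_lit 147) (nat_lit 5) (nat_lit 155) (nat_lit 5) (nat_lit 148) (nat_lit 5) (nat_lit 354) (nat_lit 328) (nat_lit 263)) (XT.lf (nat_lit 0) (nat_lit 2822576569) (nat_lit 588) (nat_lit 1347058561) (nat_lit 672) (nat_lit 5749387678) (nat_lit 140) (nat_lit 5) (nat_lit 147) (nat_lit 5) (nat_lit 148) (nat_lit 5) (nat_lit 355) (nat_lit 328) (nat_lit 262)))) (XT.nd (nat_lit 188) (nat_lit 672) (nat_lit 0) (XT.nd (nat_lit 94) (nat_lit 588) (nat_lit 0) (XT.lf (nat_lit 0) (nat_lit 5911977523) (nat_lit 672) (nat_lit 2150746211) (nat_lit 84) (nat_lit 2010208202) (nat_lit 140) (nat_lit 5) (nat_lit 148) (nat_lit 5) (nat_lit 141) (nat_lit 5) (nat_lit 356) (nat_lit 328) (nat_lit 261)) (XT.lf (nat_lit 0) (nat_lit 2956735086)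 (nat_lit 588) (nat_lit 4761004570) (nat_lit 672) (nat_lit 2513439605) (nat_lit 133) (nat_lit 5) (nat_lit 140) (nat_lit 5) (nat_lit 141) (nat_lit 5) (nat_lit 357) (nat_lit 328) (nat_lit 260))) (XT.nd (nat_lit 94) (nat_lit 672) (nat_lit 0) (XT.lf (nat_lit 0) (nat_lit 8230883365) (nat_lit 588) (nat_lit 1338496877) (nat_lit 672) (nat_lit 825096392) (nat_lit 133) (nat_lit 5) (nat_lit 140) (nat_lit 5) (nat_lit 141) (nat_lit 5) (nat_lit 358) (nat_lit 328) (nat_lit 259)) (XT.nd (nat_lit 94) (nat_lit 0) (nat_lit 0) (XT.lf (nat_lit 0) (nat_lit 917994353) (nat_lit 672) (nat_lit 7461503356) (nat_lit 84) (nat_lit 2182304456) (nat_lit 125) (nat_lit 5) (nat_lit 133) (nat_lit 5) (nat_lit 126) (nat_lit 5) (nat_lit 359) (nat_lit 328) (nat_lit 258)) (XT.lf (nat_lit 0) (nat_lit 2703190676) (nat_lit 672) (nat_lit 2219668477) (nat_lit 84) (nat_lit 5810900569) (nat_lit 125) (nat_lit 5) (nat_lit 133) (nat_lit 5) (nat_lit 126) (nat_lit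 5) (nat_lit 360) (nat_lit 328) (nat_lit 257))))))))
noncomputable def xc42 : XT := (XT.nd (nat_lit 56964) (nat_lit 0) (nat_lit 4956) (XT.nd (nat_lit 752) (nat_lit 420) (nat_lit 0) (XT.nd (nat_lit 376) (nat_lit 1008) (nat_lit 0) (XT.nd (nat_lit 188) (nat_lit 504) (nat_lit 0) (XT.nd (nat_lit 94) (nat_lit 0) (nat_lit 0) (XT.lf (nat_lit 0) (nat_lit 3212004453) (nat_lit 504) (nat_lit 1332736189) (nat_lit 588) (nat_lit 6366099226) (nat_lit 119) (nat_lit 5) (nat_lit 125) (nat_lit 5) (nat_lit 126) (nat_lit 5) (nat_lit 361) (nat_lit 328) (nat_lit 256)) (XT.lf (nat_lit 0) (nat_lit 6459339725) (nat_lit 588) (nat_lit 2294038880) (nat_lit 84) (nat_lit 2339366138) (nat_lit 119) (nat_lit 5) (nat_lit 126) (nat_lit 5) (nat_lit 120) (nat_lit 5) (nat_lit 362) (nat_lit 328) (nat_lit 255))) (XT.nd (nat_lit 94) (nat_lit 0) (nat_lit 0) (XT.lf (nat_lit 0) (nat_lit 3294230316) (nat_lit 504) (nat_lit 5155242687) (nat_lit 588) (nat_lit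 2830135929) (nat_lit 113) (nat_lit 5) (nat_lit 119) (nat_lit 5) (nat_lit 120) (nat_lit 5) (nat_lit 363) (nat_lit 328) (nat_lit 254)) (XT.lf (nat_lit 0) (nat_lit 9067706758) (nat_lit 504) (nat_lit 1428499799) (nat_lit 588) (nat_lit 976009340) (nat_lit 113) (nat_lit 5) (nat_lit 119) (nat_lit 5) (nat_lit 120) (nat_lit 5) (nat_lit 364) (nat_lit 328) (nat_lit 253)))) (XT.nd (nat_lit 188) (nat_lit 504) (nat_lit 0) (XT.nd (nat_lit 94) (nat_lit 0) (nat_lit 0) (XT.lf (nat_lit 0) (nat_lit 945674884) (nat_lit 504) (nat_lit 8322282142) (nat_lit 84) (nat_lit 2401511370) (nat_lit 107) (nat_lit 5) (nat_lit 113) (nat_lit 5) (nat_lit 108) (nat_lit 5) (nat_lit 365) (nat_lit 328) (nat_lit 252)) (XT.lf (nat_lit 0) (nat_lit 2918699223) (nat_lit 504) (nat_lit 2604877370) (nat_lit 84) (nat_lit 6348412807) (nat_lit 107) (nat_lit 5) (nat_lit 113) (nat_lit 5) (nat_lit 108) (nat_lit 5) (nat_lit 366) (nat_lit 328) (nat_lit 251))) (XT.nd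 (nat_lit 94) (nat_lit 0) (nat_lit 0) (XT.lf (nat_lit 0) (nat_lit 3320056689) (nat_lit 504) (nat_lit 1638152228) (nat_lit 588) (nat_lit 7122197143) (nat_lit 101) (nat_lit 5) (nat_lit 107) (nat_lit 5) (nat_lit 108) (nat_lit 5) (nat_lit 367) (nat_lit 328) (nat_lit 250)) (XT.lf (nat_lit 0) (nat_lit 7083972950) (nat_lit 588) (nat_lit 2870351425) (nat_lit 84) (nat_lit 2340036503) (nat_lit 101) (nat_lit 5) (nat_lit 108) (nat_lit 5) (nat_lit 102) (nat_lit 5) (nat_lit 368) (nat_lit 328) (nat_lit 249))))) (XT.nd (nat_lit 55836) (nat_lit 0) (nat_lit 10332) (XT.nd (nat_lit 55648) (nat_lit 0) (nat_lit 11088) (XT.nd (nat_lit 55554) (nat_lit 0) (nat_lit 12012) (XT.lf (nat_lit 0) (nat_lit 3214485881) (nat_lit 420) (nat_lit 6082630170) (nat_lit 504) (nat_lit 3216946737) (nat_lit 96) (nat_lit 5) (nat_lit 101) (nat_lit 5) (nat_lit 102) (nat_lit 5) (nat_lit 369) (nat_lit 328) (nat_lit 248)) (XT.lf (nat_lit 0) (nat_lit 1654433623)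 (nat_lit 0) (nat_lit 1654433623) (nat_lit 756) (nat_lit 342092800) (nat_lit 239) (nat_lit 5) (nat_lit 239) (nat_lit 3) (nat_lit 248) (nat_lit 3) (nat_lit 329) (nat_lit 329) (nat_lit 287))) (XT.nd (nat_lit 94) (nat_lit 0) (nat_lit 84) (XT.lf (nat_lit 0) (nat_lit 773341530) (nat_lit 924) (nat_lit 769120894) (nat_lit 924) (nat_lit 5822213854) (nat_lit 228) (nat_lit 3) (nat_lit 239) (nat_lit 3) (nat_lit 239) (nat_lit 5) (nat_lit 330) (nat_lit 329) (nat_lit 286)) (XT.lf (nat_lit 0) (nat_lit 2231986810) (nat_lit 840) (nat_lit 4867919115) (nat_lit 924) (nat_lit 330202256) (nat_lit 229) (nat_lit 5) (nat_lit 239) (nat_lit 5) (nat_lit 240) (nat_lit 5) (nat_lit 331) (nat_lit 329) (nat_lit 285)))) (XT.nd (nat_lit 188) (nat_lit 840) (nat_lit 0) (XT.nd (nat_lit 94) (nat_lit 0) (nat_lit 0) (XT.lf (nat_lit 0) (nat_lit 3702379736) (nat_lit 840) (nat_lit 1534462857) (nat_lit 924) (nat_lit 2261747572) (nat_lit 229) (nat_lit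 5) (nat_lit 239) (nat_lit 5) (nat_lit 240) (nat_lit 5) (nat_lit 332) (nat_lit 329) (nat_lit 284)) (XT.lf (nat_lit 84) (nat_lit 1906046691) (nat_lit 0) (nat_lit 3275638364) (nat_lit 924) (nat_lit 2388620615) (nat_lit 230) (nat_lit 5) (nat_lit 229) (nat_lit 5) (nat_lit 240) (nat_lit 5) (nat_lit 333) (nat_lit 329) (nat_lit 283))) (XT.nd (nat_lit 94) (nat_lit 840) (nat_lit 0) (XT.lf (nat_lit 84) (nat_lit 5451377808) (nat_lit 0) (nat_lit 1217237262) (nat_lit 924) (nat_lit 976779696) (nat_lit 230) (nat_lit 5) (nat_lit 229) (nat_lit 5) (nat_lit 240) (nat_lit 5) (nat_lit 334) (nat_lit 329) (nat_lit 282)) (XT.lf (nat_lit 0) (nat_lit 439008589) (nat_lit 924) (nat_lit 6360505575) (nat_lit 1008) (nat_lit 924070082) (nat_lit 219) (nat_lit 5) (nat_lit 230) (nat_lit 5) (nat_lit 231) (nat_lit 5) (nat_lit 335) (nat_lit 329) (nat_lit 281)))))) (XT.nd (nat_lit 752) (nat_lit 4452) (nat_lit 0) (XT.nd (nat_lit 376) (nat_lit 924)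 (nat_lit 0) (XT.nd (nat_lit 188) (nat_lit 0) (nat_lit 0) (XT.nd (nat_lit 94) (nat_lit 0) (nat_lit 0) (XT.lf (nat_lit 0) (nat_lit 1862125106) (nat_lit 924) (nat_lit 2785161941) (nat_lit 1008) (nat_lit 3157116978) (nat_lit 219) (nat_lit 5) (nat_lit 230) (nat_lit 5) (nat_lit 231) (nat_lit 5) (nat_lit 336) (nat_lit 329) (nat_lit 280)) (XT.lf (nat_lit 84) (nat_lit 883985670) (nat_lit 0) (nat_lit 2403961814) (nat_lit 1008) (nat_lit 4601006710) (nat_lit 220) (nat_lit 5) (nat_lit 219) (nat_lit 5) (nat_lit 231) (nat_lit 5) (nat_lit 337) (nat_lit 329) (nat_lit 279))) (XT.nd (nat_lit 94) (nat_lit 0) (nat_lit 84) (XT.lf (nat_lit 84) (nat_lit 4689895766) (nat_lit 0) (nat_lit 47408314) (nat_lit 1008) (nat_lit 3239417080) (nat_lit 220) (nat_lit 5) (nat_lit 219) (nat_lit 5) (nat_lit 231) (nat_lit 5) (nat_lit 338) (nat_lit 329) (nat_lit 278)) (XT.lf (nat_lit 84) (nat_lit 498556797) (nat_lit 0) (nat_lit 5713426223) (nat_lit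 1008) (nat_lit 1855782939) (nat_lit 221) (nat_lit 5) (nat_lit 220) (nat_lit 5) (nat_lit 232) (nat_lit 5) (nat_lit 339) (nat_lit 329) (nat_lit 277)))) (XT.nd (nat_lit 188) (nat_lit 0) (nat_lit 84) (XT.nd (nat_lit 94) (nat_lit 1008) (nat_lit 0) (XT.lf (nat_lit 84) (nat_lit 4433546512) (nat_lit 0) (nat_lit 3286222023) (nat_lit 1008) (nat_lit 442204740) (nat_lit 221) (nat_lit 5) (nat_lit 220) (nat_lit 5) (nat_lit 232) (nat_lit 5) (nat_lit 340) (nat_lit 329) (nat_lit 276)) (XT.lf (nat_lit 84) (nat_lit 190633236) (nat_lit 0) (nat_lit 761189969) (nat_lit 1092) (nat_lit 7308248087) (nat_lit 209) (nat_lit 5) (nat_lit 208) (nat_lit 5) (nat_lit 221) (nat_lit 5) (nat_lit 341) (nat_lit 329) (nat_lit 275))) (XT.nd (nat_lit 94) (nat_lit 0) (nat_lit 0) (XT.lf (nat_lit 0) (nat_lit 2391589091) (nat_lit 1008) (nat_lit 4110839280) (nat_lit 1092) (nat_lit 1858257297) (nat_lit 209) (nat_lit 5) (nat_lit 221) (nat_lit 5) (nat_lit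 222) (nat_lit 5) (nat_lit 342) (nat_lit 329) (nat_lit 274)) (XT.lf (nat_lit 0) (nat_lit 3840433142) (nat_lit 1008) (nat_lit 72199971) (nat_lit 1092) (nat_lit 4552795131) (nat_lit 209) (nat_lit 5) (nat_lit 221) (nat_lit 5) (nat_lit 222) (nat_lit 5) (nat_lit 343) (nat_lit 329) (nat_lit 273))))) (XT.nd (nat_lit 376) (nat_lit 3528) (nat_lit 0) (XT.nd (nat_lit 188) (nat_lit 1008) (nat_lit 0) (XT.nd (nat_lit 94) (nat_lit 0) (nat_lit 84) (XT.lf (nat_lit 84) (nat_lit 4138074539) (nat_lit 0) (nat_lit 1194007479) (nat_lit 1092) (nat_lit 3241334706) (nat_lit 210) (nat_lit 5) (nat_lit 209) (nat_lit 5) (nat_lit 222) (nat_lit 5) (nat_lit 344) (nat_lit 329) (nat_lit 272)) (XT.lf (nat_lit 0) (nat_lit 6845199695) (nat_lit 1008) (nat_lit 255268213) (nat_lit 84) (nat_lit 1584956739) (nat_lit 210) (nat_lit 5) (nat_lit 222) (nat_lit 5) (nat_lit 211) (nat_lit 5) (nat_lit 345) (nat_lit 329) (nat_lit 271))) (XT.nd (nat_lit 94) (nat_lit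 84) (nat_lit 0) (XT.lf (nat_lit 0) (nat_lit 4087729370) (nat_lit 1008) (nat_lit 4328789845) (nat_lit 1092) (nat_lit 383968343) (nat_lit 198) (nat_lit 5) (nat_lit 210) (nat_lit 5) (nat_lit 211) (nat_lit 5) (nat_lit 346) (nat_lit 329) (nat_lit 270)) (XT.lf (nat_lit 0) (nat_lit 1058875052) (nat_lit 1092) (nat_lit 394382466) (nat_lit 84) (nat_lit 7466557205) (nat_lit 197) (nat_lit 5) (nat_lit 210) (nat_lit 5) (nat_lit 198) (nat_lit 5) (nat_lit 347) (nat_lit 329) (nat_lit 269)))) (XT.nd (nat_lit 188) (nat_lit 2436) (nat_lit 0) (XT.nd (nat_lit 94) (nat_lit 0) (nat_lit 0) (XT.lf (nat_lit 0) (nat_lit 2554866267) (nat_lit 1176) (nat_lit 4957906241) (nat_lit 84) (nat_lit 1529380044) (nat_lit 184) (nat_lit 5) (nat_lit 198) (nat_lit 5) (nat_lit 185) (nat_lit 5) (nat_lit 348) (nat_lit 329) (nat_lit 268)) (XT.lf (nat_lit 0) (nat_lit 4078171885) (nat_lit 1176) (nat_lit 508120281) (nat_lit 84) (nat_lit 4582465500) (nat_lit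 184) (nat_lit 5) (nat_lit 198) (nat_lit 5) (nat_lit 185) (nat_lit 5) (nat_lit 349) (nat_lit 329) (nat_lit 267))) (XT.nd (nat_lit 94) (nat_lit 1260) (nat_lit 0) (XT.lf (nat_lit 0) (nat_lit 4125597012) (nat_lit 1176) (nat_lit 1526309322) (nat_lit 1260) (nat_lit 3647180854) (nat_lit 170) (nat_lit 5) (nat_lit 184) (nat_lit 5) (nat_lit 185) (nat_lit 5) (nat_lit 350) (nat_lit 329) (nat_lit 266)) (XT.nd (nat_lit 94) (nat_lit 1260) (nat_lit 0) (XT.lf (nat_lit 0) (nat_lit 7259505240) (nat_lit 1260) (nat_lit 571014039) (nat_lit 84) (nat_lit 1603273907) (nat_lit 170) (nat_lit 5) (nat_lit 185) (nat_lit 5) (nat_lit 171) (nat_lit 5) (nat_lit 351) (nat_lit 329) (nat_lit 265)) (XT.lf (nat_lit 0) (nat_lit 4206501292) (nat_lit 1260) (nat_lit 4731218605) (nat_lit 1344) (nat_lit 634213066) (nat_lit 155) (nat_lit 5) (nat_lit 170) (nat_lit 5) (nat_lit 171) (nat_lit 5) (nat_lit 352) (nat_lit 329) (nat_lit 264))))))))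
noncomputable def xc43 : XT := (XT.nd (nat_lit 57152) (nat_lit 0) (nat_lit 8064) (XT.nd (nat_lit 752) (nat_lit 2016) (nat_lit 0) (XT.nd (nat_lit 376) (nat_lit 1260) (nat_lit 0) (XT.nd (nat_lit 188) (nat_lit 588) (nat_lit 0) (XT.nd (nat_lit 94) (nat_lit 588) (nat_lit 0) (XT.lf (nat_lit 0) (nat_lit 906446895) (nat_lit 1344) (nat_lit 614633039) (nat_lit 84) (nat_lit 8193734161) (nat_lit 154) (nat_lit 5) (nat_lit 170) (nat_lit 5) (nat_lit 155) (nat_lit 5) (nat_lit 353) (nat_lit 329) (nat_lit 263)) (XT.lf (nat_lit 0) (nat_lit 2507930069) (nat_lit 672) (nat_lit 5551909680) (nat_lit 84) (nat_lit 1801191800) (nat_lit 147) (nat_lit 5) (nat_lit 155) (nat_lit 5) (nat_lit 148) (nat_lit 5) (nat_lit 354) (nat_lit 329) (nat_lit 262))) (XT.nd (nat_lit 94) (nat_lit 588) (nat_lit 0) (XT.lf (nat_lit 0) (nat_lit 4147548312) (nat_lit 672) (nat_lit 663647864) (nat_lit 84) (nat_lit 5200793704) (nat_lit 147) (nat_lit 5) (nat_lit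 155) (nat_lit 5) (nat_lit 148) (nat_lit 5) (nat_lit 355) (nat_lit 329) (nat_lit 261)) (XT.lf (nat_lit 0) (nat_lit 4428289521) (nat_lit 588) (nat_lit 1420305178) (nat_lit 672) (nat_lit 4318570483) (nat_lit 140) (nat_lit 5) (nat_lit 147) (nat_lit 5) (nat_lit 148) (nat_lit 5) (nat_lit 356) (nat_lit 329) (nat_lit 260)))) (XT.nd (nat_lit 188) (nat_lit 672) (nat_lit 0) (XT.nd (nat_lit 94) (nat_lit 588) (nat_lit 0) (XT.lf (nat_lit 0) (nat_lit 7597642564) (nat_lit 672) (nat_lit 690239865) (nat_lit 84) (nat_lit 2039258006) (nat_lit 140) (nat_lit 5) (nat_lit 148) (nat_lit 5) (nat_lit 141) (nat_lit 5) (nat_lit 357) (nat_lit 329) (nat_lit 259)) (XT.lf (nat_lit 0) (nat_lit 4555514609) (nat_lit 588) (nat_lit 4872647506) (nat_lit 672) (nat_lit 1062935053) (nat_lit 133) (nat_lit 5) (nat_lit 140) (nat_lit 5) (nat_lit 141) (nat_lit 5) (nat_lit 358) (nat_lit 329) (nat_lit 258))) (XT.nd (nat_lit 94) (nat_lit 588) (nat_lit 0)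 (XT.lf (nat_lit 0) (nat_lit 619289467) (nat_lit 672) (nat_lit 722829871) (nat_lit 84) (nat_lit 9318361420) (nat_lit 132) (nat_lit 5) (nat_lit 140) (nat_lit 5) (nat_lit 133) (nat_lit 5) (nat_lit 359) (nat_lit 329) (nat_lit 257)) (XT.lf (nat_lit 0) (nat_lit 2370596260) (nat_lit 672) (nat_lit 6157927654) (nat_lit 84) (nat_lit 2304954631) (nat_lit 125) (nat_lit 5) (nat_lit 133) (nat_lit 5) (nat_lit 126) (nat_lit 5) (nat_lit 360) (nat_lit 329) (nat_lit 256))))) (XT.nd (nat_lit 376) (nat_lit 1008) (nat_lit 0) (XT.nd (nat_lit 188) (nat_lit 504) (nat_lit 0) (XT.nd (nat_lit 94) (nat_lit 504) (nat_lit 0) (XT.lf (nat_lit 0) (nat_lit 4167841810) (nat_lit 672) (nat_lit 803325713) (nat_lit 84) (nat_lit 6040743160) (nat_lit 125) (nat_lit 5) (nat_lit 133) (nat_lit 5) (nat_lit 126) (nat_lit 5) (nat_lit 361) (nat_lit 329) (nat_lit 255)) (XT.lf (nat_lit 0) (nat_lit 4776758848) (nat_lit 504) (nat_lit 1261696800) (nat_lit 588)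 (nat_lit 5156701661) (nat_lit 119) (nat_lit 5) (nat_lit 125) (nat_lit 5) (nat_lit 126) (nat_lit 5) (nat_lit 362) (nat_lit 329) (nat_lit 254))) (XT.nd (nat_lit 94) (nat_lit 504) (nat_lit 0) (XT.lf (nat_lit 0) (nat_lit 7971993697) (nat_lit 588) (nat_lit 896515570) (nat_lit 84) (nat_lit 2515231633) (nat_lit 119) (nat_lit 5) (nat_lit 126) (nat_lit 5) (nat_lit 120) (nat_lit 5) (nat_lit 363) (nat_lit 329) (nat_lit 253)) (XT.lf (nat_lit 0) (nat_lit 4845025776) (nat_lit 504) (nat_lit 5152348608) (nat_lit 588) (nat_lit 1579634987) (nat_lit 113) (nat_lit 5) (nat_lit 119) (nat_lit 5) (nat_lit 120) (nat_lit 5) (nat_lit 364) (nat_lit 329) (nat_lit 252)))) (XT.nd (nat_lit 188) (nat_lit 504) (nat_lit 0) (XT.nd (nat_lit 94) (nat_lit 420) (nat_lit 0) (XT.lf (nat_lit 0) (nat_lit 285537353) (nat_lit 588) (nat_lit 1029971587) (nat_lit 84) (nat_lit 10460995444) (nat_lit 112) (nat_lit 5) (nat_lit 119) (nat_lit 5) (nat_lit 113)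 (nat_lit 5) (nat_lit 365) (nat_lit 329) (nat_lit 251)) (XT.lf (nat_lit 0) (nat_lit 2223590501) (nat_lit 504) (nat_lit 7111304039) (nat_lit 84) (nat_lit 2645199129) (nat_lit 107) (nat_lit 5) (nat_lit 113) (nat_lit 5) (nat_lit 108) (nat_lit 5) (nat_lit 366) (nat_lit 329) (nat_lit 250))) (XT.nd (nat_lit 94) (nat_lit 504) (nat_lit 0) (XT.lf (nat_lit 0) (nat_lit 4219411045) (nat_lit 504) (nat_lit 1264920228) (nat_lit 84) (nat_lit 6705508315) (nat_lit 107) (nat_lit 5) (nat_lit 113) (nat_lit 5) (nat_lit 108) (nat_lit 5) (nat_lit 367) (nat_lit 329) (nat_lit 249)) (XT.nd (nat_lit 94) (nat_lit 0) (nat_lit 0) (XT.lf (nat_lit 0) (nat_lit 4823858878) (nat_lit 504) (nat_lit 1474410696) (nat_lit 588) (nat_lit 6106950044) (nat_lit 101) (nat_lit 5) (nat_lit 107) (nat_lit 5) (nat_lit 108) (nat_lit 5) (nat_lit 368) (nat_lit 329) (nat_lit 248)) (XT.lf (nat_lit 0) (nat_lit 8455094838) (nat_lit 588) (nat_lit 1558643792) (nat_lit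 84) (nat_lit 2612889952) (nat_lit 101) (nat_lit 5) (nat_lit 108) (nat_lit 5) (nat_lit 102) (nat_lit 5) (nat_lit 369) (nat_lit 329) (nat_lit 247))))))) (XT.nd (nat_lit 752) (nat_lit 1764) (nat_lit 0) (XT.nd (nat_lit 376) (nat_lit 840) (nat_lit 0) (XT.nd (nat_lit 188) (nat_lit 0) (nat_lit 0) (XT.nd (nat_lit 94) (nat_lit 0) (nat_lit 0) (XT.lf (nat_lit 0) (nat_lit 1094779836) (nat_lit 924) (nat_lit 1309644636) (nat_lit 924) (nat_lit 1309644636) (nat_lit 228) (nat_lit 3) (nat_lit 239) (nat_lit 3) (nat_lit 239) (nat_lit 5) (nat_lit 330) (nat_lit 330) (nat_lit 285)) (XT.lf (nat_lit 84) (nat_lit 664244015) (nat_lit 0) (nat_lit 2935303646) (nat_lit 924) (nat_lit 3895544629) (nat_lit 229) (nat_lit 5) (nat_lit 228) (nat_lit 3) (nat_lit 239) (nat_lit 5) (nat_lit 331) (nat_lit 330) (nat_lit 284))) (XT.nd (nat_lit 94) (nat_lit 0) (nat_lit 84) (XT.lf (nat_lit 84) (nat_lit 4071814177) (nat_lit 0) (nat_lit 952703180) (nat_lit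 924) (nat_lit 2540480244) (nat_lit 229) (nat_lit 5) (nat_lit 228) (nat_lit 3) (nat_lit 239) (nat_lit 5) (nat_lit 332) (nat_lit 330) (nat_lit 283)) (XT.lf (nat_lit 0) (nat_lit 6450745281) (nat_lit 840) (nat_lit 95126617) (nat_lit 924) (nat_lit 1092492393) (nat_lit 229) (nat_lit 5) (nat_lit 239) (nat_lit 5) (nat_lit 240) (nat_lit 5) (nat_lit 333) (nat_lit 330) (nat_lit 282)))) (XT.nd (nat_lit 188) (nat_lit 0) (nat_lit 0) (XT.nd (nat_lit 94) (nat_lit 0) (nat_lit 0) (XT.lf (nat_lit 0) (nat_lit 193612220) (nat_lit 924) (nat_lit 4282150580) (nat_lit 1008) (nat_lit 3238468441) (nat_lit 218) (nat_lit 5) (nat_lit 229) (nat_lit 5) (nat_lit 230) (nat_lit 5) (nat_lit 334) (nat_lit 330) (nat_lit 281)) (XT.lf (nat_lit 0) (nat_lit 1543532270) (nat_lit 924) (nat_lit 766296033) (nat_lit 1008) (nat_lit 5483768837) (nat_lit 218) (nat_lit 5) (nat_lit 229) (nat_lit 5) (nat_lit 230) (nat_lit 5) (nat_lit 335) (nat_lit 330) (nat_lit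 280))) (XT.nd (nat_lit 94) (nat_lit 0) (nat_lit 84) (XT.lf (nat_lit 84) (nat_lit 2882904866) (nat_lit 0) (nat_lit 30360938) (nat_lit 1008) (nat_lit 4962804904) (nat_lit 219) (nat_lit 5) (nat_lit 218) (nat_lit 5) (nat_lit 230) (nat_lit 5) (nat_lit 336) (nat_lit 330) (nat_lit 279)) (XT.lf (nat_lit 0) (nat_lit 4307110325) (nat_lit 924) (nat_lit 1355661704) (nat_lit 1008) (nat_lit 2298858961) (nat_lit 219) (nat_lit 5) (nat_lit 230) (nat_lit 5) (nat_lit 231) (nat_lit 5) (nat_lit 337) (nat_lit 330) (nat_lit 278))))) (XT.nd (nat_lit 376) (nat_lit 924) (nat_lit 0) (XT.nd (nat_lit 188) (nat_lit 924) (nat_lit 0) (XT.nd (nat_lit 94) (nat_lit 0) (nat_lit 0) (XT.lf (nat_lit 84) (nat_lit 2408726462) (nat_lit 0) (nat_lit 3311796670) (nat_lit 1008) (nat_lit 2330002435) (nat_lit 220) (nat_lit 5) (nat_lit 219) (nat_lit 5) (nat_lit 231) (nat_lit 5) (nat_lit 338) (nat_lit 330) (nat_lit 277)) (XT.lf (nat_lit 84) (nat_lit 6285176348)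 (nat_lit 0) (nat_lit 860205322) (nat_lit 1008) (nat_lit 997731169) (nat_lit 220) (nat_lit 5) (nat_lit 219) (nat_lit 5) (nat_lit 231) (nat_lit 5) (nat_lit 339) (nat_lit 330) (nat_lit 276))) (XT.nd (nat_lit 94) (nat_lit 0) (nat_lit 0) (XT.lf (nat_lit 0) (nat_lit 359389521) (nat_lit 1008) (nat_lit 6208570061) (nat_lit 1092) (nat_lit 1670736052) (nat_lit 208) (nat_lit 5) (nat_lit 220) (nat_lit 5) (nat_lit 221) (nat_lit 5) (nat_lit 340) (nat_lit 330) (nat_lit 275)) (XT.lf (nat_lit 0) (nat_lit 1721908789) (nat_lit 1008) (nat_lit 2312268984) (nat_lit 1092) (nat_lit 4303218547) (nat_lit 208) (nat_lit 5) (nat_lit 220) (nat_lit 5) (nat_lit 221) (nat_lit 5) (nat_lit 341) (nat_lit 330) (nat_lit 274)))) (XT.nd (nat_lit 188) (nat_lit 924) (nat_lit 0) (XT.nd (nat_lit 94) (nat_lit 0) (nat_lit 84) (XT.lf (nat_lit 84) (nat_lit 1705046980) (nat_lit 0) (nat_lit 1395165259) (nat_lit 1092) (nat_lit 5339684855) (nat_lit 209) (nat_lit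 5) (nat_lit 208) (nat_lit 5) (nat_lit 221) (nat_lit 5) (nat_lit 342) (nat_lit 330) (nat_lit 273)) (XT.lf (nat_lit 0) (nat_lit 4515724812) (nat_lit 1008) (nat_lit 2697712292) (nat_lit 1092) (nat_lit 1332243797) (nat_lit 209) (nat_lit 5) (nat_lit 221) (nat_lit 5) (nat_lit 222) (nat_lit 5) (nat_lit 343) (nat_lit 330) (nat_lit 272))) (XT.nd (nat_lit 94) (nat_lit 1008) (nat_lit 0) (XT.lf (nat_lit 84) (nat_lit 1445542910) (nat_lit 0) (nat_lit 4516608423) (nat_lit 1092) (nat_lit 2692914800) (nat_lit 210) (nat_lit 5) (nat_lit 209) (nat_lit 5) (nat_lit 222) (nat_lit 5) (nat_lit 344) (nat_lit 330) (nat_lit 271)) (XT.nd (nat_lit 94) (nat_lit 1008) (nat_lit 0) (XT.lf (nat_lit 84) (nat_lit 5739293387) (nat_lit 0) (nat_lit 1701522233) (nat_lit 1092) (nat_lit 1327330954) (nat_lit 210) (nat_lit 5) (nat_lit 209) (nat_lit 5) (nat_lit 222) (nat_lit 5) (nat_lit 345) (nat_lit 330) (nat_lit 270)) (XT.lf (nat_lit 0) (nat_lit 63909077)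 (nat_lit 1092) (nat_lit 7624942969) (nat_lit 84) (nat_lit 1196231965) (nat_lit 197) (nat_lit 5) (nat_lit 210) (nat_lit 5) (nat_lit 198) (nat_lit 5) (nat_lit 346) (nat_lit 330) (nat_lit 269))))))))
noncomputable def xc44 : XT := (XT.nd (nat_lit 1504) (nat_lit 1512) (nat_lit 0) (XT.nd (nat_lit 752) (nat_lit 2352) (nat_lit 0) (XT.nd (nat_lit 376) (nat_lit 1932) (nat_lit 0) (XT.nd (nat_lit 188) (nat_lit 1176) (nat_lit 0) (XT.nd (nat_lit 94) (nat_lit 1092) (nat_lit 0) (XT.lf (nat_lit 0) (nat_lit 1481120581) (nat_lit 1092) (nat_lit 3325062387) (nat_lit 84) (nat_lit 4198697272) (nat_lit 197) (nat_lit 5) (nat_lit 210) (nat_lit 5) (nat_lit 198) (nat_lit 5) (nat_lit 347) (nat_lit 330) (nat_lit 268)) (XT.lf (nat_lit 0) (nat_lit 1096024791) (nat_lit 1092) (nat_lit 1819609058) (nat_lit 1176) (nat_lit 6213463135) (nat_lit 184) (nat_lit 5) (nat_lit 197) (nat_lit 5) (nat_lit 198) (nat_lit 5) (nat_lit 348) (nat_lit 330) (nat_lit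 267))) (XT.nd (nat_lit 94) (nat_lit 1176) (nat_lit 0) (XT.lf (nat_lit 0) (nat_lit 4404242312) (nat_lit 1176) (nat_lit 3580606616) (nat_lit 84) (nat_lit 1271927654) (nat_lit 184) (nat_lit 5) (nat_lit 198) (nat_lit 5) (nat_lit 185) (nat_lit 5) (nat_lit 349) (nat_lit 330) (nat_lit 266)) (XT.lf (nat_lit 0) (nat_lit 977295809) (nat_lit 1176) (nat_lit 4953712740) (nat_lit 1260) (nat_lit 3457539194) (nat_lit 170) (nat_lit 5) (nat_lit 184) (nat_lit 5) (nat_lit 185) (nat_lit 5) (nat_lit 350) (nat_lit 330) (nat_lit 265)))) (XT.nd (nat_lit 188) (nat_lit 672) (nat_lit 0) (XT.nd (nat_lit 94) (nat_lit 1260) (nat_lit 0) (XT.lf (nat_lit 0) (nat_lit 5716428677) (nat_lit 1176) (nat_lit 1790105262) (nat_lit 1260) (nat_lit 2017713649) (nat_lit 170) (nat_lit 5) (nat_lit 184) (nat_lit 5) (nat_lit 185) (nat_lit 5) (nat_lit 351) (nat_lit 330) (nat_lit 264)) (XT.lf (nat_lit 0) (nat_lit 908190802) (nat_lit 1260) (nat_lit 8211785797)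 (nat_lit 1344) (nat_lit 544384646) (nat_lit 155) (nat_lit 5) (nat_lit 170) (nat_lit 5) (nat_lit 171) (nat_lit 5) (nat_lit 352) (nat_lit 330) (nat_lit 263))) (XT.nd (nat_lit 94) (nat_lit 588) (nat_lit 0) (XT.lf (nat_lit 0) (nat_lit 978805675) (nat_lit 1344) (nat_lit 4020787638) (nat_lit 84) (nat_lit 4808123619) (nat_lit 154) (nat_lit 5) (nat_lit 170) (nat_lit 5) (nat_lit 155) (nat_lit 5) (nat_lit 353) (nat_lit 330) (nat_lit 262)) (XT.lf (nat_lit 0) (nat_lit 838956950) (nat_lit 588) (nat_lit 1674881976) (nat_lit 672) (nat_lit 7442117072) (nat_lit 147) (nat_lit 5) (nat_lit 154) (nat_lit 5) (nat_lit 155) (nat_lit 5) (nat_lit 354) (nat_lit 330) (nat_lit 261))))) (XT.nd (nat_lit 376) (nat_lit 1176) (nat_lit 0) (XT.nd (nat_lit 188) (nat_lit 588) (nat_lit 0) (XT.nd (nat_lit 94) (nat_lit 588) (nat_lit 0) (XT.lf (nat_lit 0) (nat_lit 4122417361) (nat_lit 672) (nat_lit 4227112199) (nat_lit 84) (nat_lit 1758343257) (nat_lit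 147) (nat_lit 5) (nat_lit 155) (nat_lit 5) (nat_lit 148) (nat_lit 5) (nat_lit 355) (nat_lit 330) (nat_lit 260)) (XT.lf (nat_lit 0) (nat_lit 779572213) (nat_lit 588) (nat_lit 4994313156) (nat_lit 672) (nat_lit 4490676603) (nat_lit 140) (nat_lit 5) (nat_lit 147) (nat_lit 5) (nat_lit 148) (nat_lit 5) (nat_lit 356) (nat_lit 330) (nat_lit 259))) (XT.nd (nat_lit 94) (nat_lit 588) (nat_lit 0) (XT.lf (nat_lit 0) (nat_lit 5994860193) (nat_lit 588) (nat_lit 1493864339) (nat_lit 672) (nat_lit 2936864683) (nat_lit 140) (nat_lit 5) (nat_lit 147) (nat_lit 5) (nat_lit 148) (nat_lit 5) (nat_lit 357) (nat_lit 330) (nat_lit 258)) (XT.lf (nat_lit 0) (nat_lit 740998328) (nat_lit 588) (nat_lit 8513419239) (nat_lit 672) (nat_lit 1337098154) (nat_lit 133) (nat_lit 5) (nat_lit 140) (nat_lit 5) (nat_lit 141) (nat_lit 5) (nat_lit 358) (nat_lit 330) (nat_lit 257)))) (XT.nd (nat_lit 188) (nat_lit 504) (nat_lit 0) (XT.nd (nat_lit 94)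 (nat_lit 588) (nat_lit 0) (XT.lf (nat_lit 0) (nat_lit 336788537) (nat_lit 672) (nat_lit 4649240563) (nat_lit 84) (nat_lit 5775383451) (nat_lit 132) (nat_lit 5) (nat_lit 140) (nat_lit 5) (nat_lit 133) (nat_lit 5) (nat_lit 359) (nat_lit 330) (nat_lit 256)) (XT.lf (nat_lit 0) (nat_lit 680299514) (nat_lit 588) (nat_lit 1333280615) (nat_lit 672) (nat_lit 8923088523) (nat_lit 125) (nat_lit 5) (nat_lit 132) (nat_lit 5) (nat_lit 133) (nat_lit 5) (nat_lit 360) (nat_lit 330) (nat_lit 255))) (XT.nd (nat_lit 94) (nat_lit 504) (nat_lit 0) (XT.lf (nat_lit 0) (nat_lit 3784971831) (nat_lit 672) (nat_lit 4902924883) (nat_lit 84) (nat_lit 2428001885) (nat_lit 125) (nat_lit 5) (nat_lit 133) (nat_lit 5) (nat_lit 126) (nat_lit 5) (nat_lit 361) (nat_lit 330) (nat_lit 254)) (XT.lf (nat_lit 0) (nat_lit 581732622) (nat_lit 504) (nat_lit 5020870084) (nat_lit 588) (nat_lit 5698153555) (nat_lit 119) (nat_lit 5) (nat_lit 125) (nat_lit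 5) (nat_lit 126) (nat_lit 5) (nat_lit 362) (nat_lit 330) (nat_lit 253)))))) (XT.nd (nat_lit 56400) (nat_lit 0) (nat_lit 8904) (XT.nd (nat_lit 376) (nat_lit 504) (nat_lit 0) (XT.nd (nat_lit 188) (nat_lit 504) (nat_lit 0) (XT.nd (nat_lit 94) (nat_lit 504) (nat_lit 0) (XT.lf (nat_lit 0) (nat_lit 6304164037) (nat_lit 504) (nat_lit 1194899317) (nat_lit 588) (nat_lit 3991409740) (nat_lit 119) (nat_lit 5) (nat_lit 125) (nat_lit 5) (nat_lit 126) (nat_lit 5) (nat_lit 363) (nat_lit 330) (nat_lit 252)) (XT.lf (nat_lit 0) (nat_lit 467889475) (nat_lit 504) (nat_lit 8990926702) (nat_lit 588) (nat_lit 2226914533) (nat_lit 113) (nat_lit 5) (nat_lit 119) (nat_lit 5) (nat_lit 120) (nat_lit 5) (nat_lit 364) (nat_lit 330) (nat_lit 251))) (XT.nd (nat_lit 94) (nat_lit 504) (nat_lit 0) (XT.lf (nat_lit 0) (nat_lit 6358996164) (nat_lit 504) (nat_lit 5158411800) (nat_lit 588) (nat_lit 368276728) (nat_lit 113) (nat_lit 5) (nat_lit 119)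 (nat_lit 5) (nat_lit 120) (nat_lit 5) (nat_lit 365) (nat_lit 330) (nat_lit 250)) (XT.lf (nat_lit 0) (nat_lit 299492596) (nat_lit 420) (nat_lit 1195727274) (nat_lit 504) (nat_lit 10596631187) (nat_lit 107) (nat_lit 5) (nat_lit 112) (nat_lit 5) (nat_lit 113) (nat_lit 5) (nat_lit 366) (nat_lit 330) (nat_lit 249)))) (XT.nd (nat_lit 188) (nat_lit 0) (nat_lit 0) (XT.nd (nat_lit 94) (nat_lit 504) (nat_lit 0) (XT.lf (nat_lit 0) (nat_lit 3468114571) (nat_lit 504) (nat_lit 5947843681) (nat_lit 84) (nat_lit 2886344544) (nat_lit 107) (nat_lit 5) (nat_lit 113) (nat_lit 5) (nat_lit 108) (nat_lit 5) (nat_lit 367) (nat_lit 330) (nat_lit 248)) (XT.lf (nat_lit 0) (nat_lit 34503984) (nat_lit 504) (nat_lit 5455332090) (nat_lit 588) (nat_lit 7029578381) (nat_lit 101) (nat_lit 5) (nat_lit 107) (nat_lit 5) (nat_lit 108) (nat_lit 5) (nat_lit 368) (nat_lit 330) (nat_lit 247))) (XT.nd (nat_lit 55742) (nat_lit 0) (nat_lit 10668) (XT.lf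 (nat_lit 0) (nat_lit 6292168280) (nat_lit 504) (nat_lit 1317977451) (nat_lit 588) (nat_lit 5131790167) (nat_lit 101) (nat_lit 5) (nat_lit 107) (nat_lit 5) (nat_lit 108) (nat_lit 5) (nat_lit 369) (nat_lit 330) (nat_lit 246)) (XT.lf (nat_lit 0) (nat_lit 2485206127) (nat_lit 924) (nat_lit 648217110) (nat_lit 924) (nat_lit 648217110) (nat_lit 228) (nat_lit 3) (nat_lit 239) (nat_lit 3) (nat_lit 239) (nat_lit 5) (nat_lit 331) (nat_lit 331) (nat_lit 283))))) (XT.nd (nat_lit 376) (nat_lit 840) (nat_lit 0) (XT.nd (nat_lit 188) (nat_lit 0) (nat_lit 0) (XT.nd (nat_lit 94) (nat_lit 924) (nat_lit 0) (XT.lf (nat_lit 84) (nat_lit 2071865521) (nat_lit 0) (nat_lit 4285091229) (nat_lit 924) (nat_lit 1277440875) (nat_lit 229) (nat_lit 5) (nat_lit 228) (nat_lit 3) (nat_lit 239) (nat_lit 5) (nat_lit 332) (nat_lit 331) (nat_lit 282)) (XT.lf (nat_lit 0) (nat_lit 37862578) (nat_lit 924) (nat_lit 2168018460) (nat_lit 1008) (nat_lit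 5502999594) (nat_lit 217) (nat_lit 5) (nat_lit 228) (nat_lit 3) (nat_lit 229) (nat_lit 5) (nat_lit 333) (nat_lit 331) (nat_lit 281))) (XT.nd (nat_lit 94) (nat_lit 0) (nat_lit 84) (XT.lf (nat_lit 84) (nat_lit 1314459775) (nat_lit 0) (nat_lit 15322852) (nat_lit 1008) (nat_lit 6456660434) (nat_lit 218) (nat_lit 5) (nat_lit 217) (nat_lit 5) (nat_lit 229) (nat_lit 5) (nat_lit 334) (nat_lit 331) (nat_lit 280)) (XT.lf (nat_lit 0) (nat_lit 2655714812) (nat_lit 924) (nat_lit 2969964274) (nat_lit 1008) (nat_lit 2240901809) (nat_lit 218) (nat_lit 5) (nat_lit 229) (nat_lit 5) (nat_lit 230) (nat_lit 5) (nat_lit 335) (nat_lit 331) (nat_lit 279)))) (XT.nd (nat_lit 188) (nat_lit 924) (nat_lit 0) (XT.nd (nat_lit 94) (nat_lit 0) (nat_lit 0) (XT.lf (nat_lit 84) (nat_lit 621533564) (nat_lit 0) (nat_lit 3359030911) (nat_lit 1008) (nat_lit 3969887282) (nat_lit 219) (nat_lit 5) (nat_lit 218) (nat_lit 5) (nat_lit 230) (nat_lit 5)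 (nat_lit 336) (nat_lit 331) (nat_lit 278)) (XT.lf (nat_lit 84) (nat_lit 4354369484) (nat_lit 0) (nat_lit 974900434) (nat_lit 1008) (nat_lit 2708145591) (nat_lit 219) (nat_lit 5) (nat_lit 218) (nat_lit 5) (nat_lit 230) (nat_lit 5) (nat_lit 337) (nat_lit 331) (nat_lit 277))) (XT.nd (nat_lit 94) (nat_lit 1008) (nat_lit 0) (XT.lf (nat_lit 84) (nat_lit 30462417) (nat_lit 0) (nat_lit 6658130160) (nat_lit 1008) (nat_lit 1439388074) (nat_lit 220) (nat_lit 5) (nat_lit 219) (nat_lit 5) (nat_lit 231) (nat_lit 5) (nat_lit 338) (nat_lit 331) (nat_lit 276)) (XT.nd (nat_lit 94) (nat_lit 1008) (nat_lit 0) (XT.lf (nat_lit 84) (nat_lit 3893205450) (nat_lit 0) (nat_lit 4198893054) (nat_lit 1008) (nat_lit 129156466) (nat_lit 220) (nat_lit 5) (nat_lit 219) (nat_lit 5) (nat_lit 231) (nat_lit 5) (nat_lit 339) (nat_lit 331) (nat_lit 275)) (XT.lf (nat_lit 0) (nat_lit 1153978272) (nat_lit 1008) (nat_lit 485178820) (nat_lit 1092) (nat_lit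 6679185103) (nat_lit 207) (nat_lit 5) (nat_lit 219) (nat_lit 5) (nat_lit 220) (nat_lit 5) (nat_lit 340) (nat_lit 331) (nat_lit 274))))))))
noncomputable def xc45 : XT := (XT.nd (nat_lit 1598) (nat_lit 3276) (nat_lit 0) (XT.nd (nat_lit 752) (nat_lit 4704) (nat_lit 0) (XT.nd (nat_lit 376) (nat_lit 1008) (nat_lit 0) (XT.nd (nat_lit 188) (nat_lit 0) (nat_lit 0) (XT.nd (nat_lit 94) (nat_lit 0) (nat_lit 0) (XT.lf (nat_lit 0) (nat_lit 2475503046) (nat_lit 1008) (nat_lit 4915572486) (nat_lit 1092) (nat_lit 1027239709) (nat_lit 208) (nat_lit 5) (nat_lit 220) (nat_lit 5) (nat_lit 221) (nat_lit 5) (nat_lit 341) (nat_lit 331) (nat_lit 273)) (XT.lf (nat_lit 0) (nat_lit 3817577548) (nat_lit 1008) (nat_lit 945467463) (nat_lit 1092) (nat_lit 3758899157) (nat_lit 208) (nat_lit 5) (nat_lit 220) (nat_lit 5) (nat_lit 221) (nat_lit 5) (nat_lit 342) (nat_lit 331) (nat_lit 272))) (XT.nd (nat_lit 94) (nat_lit 0) (nat_lit 84) (XT.lf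 (nat_lit 84) (nat_lit 3178287885) (nat_lit 0) (nat_lit 2013077894) (nat_lit 1092) (nat_lit 3437654009) (nat_lit 209) (nat_lit 5) (nat_lit 208) (nat_lit 5) (nat_lit 221) (nat_lit 5) (nat_lit 343) (nat_lit 331) (nat_lit 271)) (XT.lf (nat_lit 0) (nat_lit 6585769134) (nat_lit 1008) (nat_lit 1330390133) (nat_lit 1092) (nat_lit 823845365) (nat_lit 209) (nat_lit 5) (nat_lit 221) (nat_lit 5) (nat_lit 222) (nat_lit 5) (nat_lit 344) (nat_lit 331) (nat_lit 270)))) (XT.nd (nat_lit 188) (nat_lit 0) (nat_lit 84) (XT.nd (nat_lit 94) (nat_lit 1092) (nat_lit 0) (XT.lf (nat_lit 84) (nat_lit 2922964161) (nat_lit 0) (nat_lit 5110062530) (nat_lit 1092) (nat_lit 821038367) (nat_lit 210) (nat_lit 5) (nat_lit 209) (nat_lit 5) (nat_lit 222) (nat_lit 5) (nat_lit 345) (nat_lit 331) (nat_lit 269)) (XT.lf (nat_lit 0) (nat_lit 518323632) (nat_lit 1092) (nat_lit 1673627549) (nat_lit 1176) (nat_lit 6780200876) (nat_lit 196) (nat_lit 5) (nat_lit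 209) (nat_lit 5) (nat_lit 210) (nat_lit 5) (nat_lit 346) (nat_lit 331) (nat_lit 268))) (XT.nd (nat_lit 94) (nat_lit 0) (nat_lit 0) (XT.lf (nat_lit 0) (nat_lit 1880283234) (nat_lit 1092) (nat_lit 6372839918) (nat_lit 84) (nat_lit 840517268) (nat_lit 197) (nat_lit 5) (nat_lit 210) (nat_lit 5) (nat_lit 198) (nat_lit 5) (nat_lit 347) (nat_lit 331) (nat_lit 267)) (XT.lf (nat_lit 0) (nat_lit 3287162825) (nat_lit 1092) (nat_lit 1987094511) (nat_lit 84) (nat_lit 3944462408) (nat_lit 197) (nat_lit 5) (nat_lit 210) (nat_lit 5) (nat_lit 198) (nat_lit 5) (nat_lit 348) (nat_lit 331) (nat_lit 266))))) (XT.nd (nat_lit 376) (nat_lit 2520) (nat_lit 0) (XT.nd (nat_lit 188) (nat_lit 1176) (nat_lit 0) (XT.nd (nat_lit 94) (nat_lit 0) (nat_lit 0) (XT.lf (nat_lit 0) (nat_lit 2552529990) (nat_lit 1092) (nat_lit 2174557260) (nat_lit 1176) (nat_lit 4620805204) (nat_lit 184) (nat_lit 5) (nat_lit 197) (nat_lit 5) (nat_lit 198) (nat_lit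 5) (nat_lit 349) (nat_lit 331) (nat_lit 265)) (XT.lf (nat_lit 0) (nat_lit 6207337681) (nat_lit 1176) (nat_lit 2249588758) (nat_lit 84) (nat_lit 1024164293) (nat_lit 184) (nat_lit 5) (nat_lit 198) (nat_lit 5) (nat_lit 185) (nat_lit 5) (nat_lit 350) (nat_lit 331) (nat_lit 264))) (XT.nd (nat_lit 94) (nat_lit 0) (nat_lit 0) (XT.lf (nat_lit 0) (nat_lit 2430948426) (nat_lit 1176) (nat_lit 5313981073) (nat_lit 1260) (nat_lit 1873029806) (nat_lit 170) (nat_lit 5) (nat_lit 184) (nat_lit 5) (nat_lit 185) (nat_lit 5) (nat_lit 351) (nat_lit 331) (nat_lit 263)) (XT.lf (nat_lit 0) (nat_lit 7270769831) (nat_lit 1176) (nat_lit 2049300605) (nat_lit 1260) (nat_lit 439181404) (nat_lit 170) (nat_lit 5) (nat_lit 184) (nat_lit 5) (nat_lit 185) (nat_lit 5) (nat_lit 352) (nat_lit 331) (nat_lit 262)))) (XT.nd (nat_lit 188) (nat_lit 1176) (nat_lit 0) (XT.nd (nat_lit 94) (nat_lit 0) (nat_lit 0) (XT.lf (nat_lit 0) (nat_lit 1022359463)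 (nat_lit 1344) (nat_lit 7557807701) (nat_lit 84) (nat_lit 1324226034) (nat_lit 154) (nat_lit 5) (nat_lit 170) (nat_lit 5) (nat_lit 155) (nat_lit 5) (nat_lit 353) (nat_lit 331) (nat_lit 261)) (XT.lf (nat_lit 0) (nat_lit 2534513591) (nat_lit 1344) (nat_lit 2728151162) (nat_lit 84) (nat_lit 4790681181) (nat_lit 154) (nat_lit 5) (nat_lit 170) (nat_lit 5) (nat_lit 155) (nat_lit 5) (nat_lit 354) (nat_lit 331) (nat_lit 260))) (XT.nd (nat_lit 94) (nat_lit 588) (nat_lit 0) (XT.lf (nat_lit 0) (nat_lit 2263530272) (nat_lit 588) (nat_lit 1821062886) (nat_lit 672) (nat_lit 6122451061) (nat_lit 147) (nat_lit 5) (nat_lit 154) (nat_lit 5) (nat_lit 155) (nat_lit 5) (nat_lit 355) (nat_lit 331) (nat_lit 259)) (XT.nd (nat_lit 94) (nat_lit 588) (nat_lit 0) (XT.lf (nat_lit 0) (nat_lit 5696980061) (nat_lit 672) (nat_lit 2948180660) (nat_lit 84) (nat_lit 1719770814) (nat_lit 147) (nat_lit 5) (nat_lit 155) (nat_lit 5) (nat_lit 148)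 (nat_lit 5) (nat_lit 356) (nat_lit 331) (nat_lit 258)) (XT.lf (nat_lit 0) (nat_lit 2194922473) (nat_lit 588) (nat_lit 5174191099) (nat_lit 672) (nat_lit 3158151353) (nat_lit 140) (nat_lit 5) (nat_lit 147) (nat_lit 5) (nat_lit 148) (nat_lit 5) (nat_lit 357) (nat_lit 331) (nat_lit 257))))))) (XT.nd (nat_lit 752) (nat_lit 1008) (nat_lit 0) (XT.nd (nat_lit 376) (nat_lit 1008) (nat_lit 0) (XT.nd (nat_lit 188) (nat_lit 588) (nat_lit 0) (XT.nd (nat_lit 94) (nat_lit 672) (nat_lit 0) (XT.lf (nat_lit 0) (nat_lit 7526126477) (nat_lit 588) (nat_lit 1567853618) (nat_lit 672) (nat_lit 1600460383) (nat_lit 140) (nat_lit 5) (nat_lit 147) (nat_lit 5) (nat_lit 148) (nat_lit 5) (nat_lit 358) (nat_lit 331) (nat_lit 256)) (XT.lf (nat_lit 0) (nat_lit 18835773) (nat_lit 672) (nat_lit 8721255131) (nat_lit 84) (nat_lit 2126137101) (nat_lit 132) (nat_lit 5) (nat_lit 140) (nat_lit 5) (nat_lit 133) (nat_lit 5) (nat_lit 359) (nat_lit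 331) (nat_lit 255))) (XT.nd (nat_lit 94) (nat_lit 588) (nat_lit 0) (XT.lf (nat_lit 0) (nat_lit 1676185905) (nat_lit 672) (nat_lit 3418291383) (nat_lit 84) (nat_lit 5947612256) (nat_lit 132) (nat_lit 5) (nat_lit 140) (nat_lit 5) (nat_lit 133) (nat_lit 5) (nat_lit 360) (nat_lit 331) (nat_lit 254)) (XT.lf (nat_lit 0) (nat_lit 2057699343) (nat_lit 588) (nat_lit 1319908836) (nat_lit 672) (nat_lit 7845831941) (nat_lit 125) (nat_lit 5) (nat_lit 132) (nat_lit 5) (nat_lit 133) (nat_lit 5) (nat_lit 361) (nat_lit 331) (nat_lit 253)))) (XT.nd (nat_lit 188) (nat_lit 504) (nat_lit 0) (XT.nd (nat_lit 94) (nat_lit 504) (nat_lit 0) (XT.lf (nat_lit 0) (nat_lit 5164670183) (nat_lit 672) (nat_lit 3692919029) (nat_lit 84) (nat_lit 2551646556) (nat_lit 125) (nat_lit 5) (nat_lit 133) (nat_lit 5) (nat_lit 126) (nat_lit 5) (nat_lit 362) (nat_lit 331) (nat_lit 252)) (XT.lf (nat_lit 0) (nat_lit 1942973362) (nat_lit 504) (nat_lit 5069895811)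 (nat_lit 588) (nat_lit 4587551588) (nat_lit 119) (nat_lit 5) (nat_lit 125) (nat_lit 5) (nat_lit 126) (nat_lit 5) (nat_lit 363) (nat_lit 331) (nat_lit 251))) (XT.nd (nat_lit 94) (nat_lit 504) (nat_lit 0) (XT.lf (nat_lit 0) (nat_lit 7797938241) (nat_lit 504) (nat_lit 1132105154) (nat_lit 588) (nat_lit 2866932058) (nat_lit 119) (nat_lit 5) (nat_lit 125) (nat_lit 5) (nat_lit 126) (nat_lit 5) (nat_lit 364) (nat_lit 331) (nat_lit 250)) (XT.lf (nat_lit 0) (nat_lit 1810683068) (nat_lit 504) (nat_lit 9116472691) (nat_lit 588) (nat_lit 1071637203) (nat_lit 113) (nat_lit 5) (nat_lit 119) (nat_lit 5) (nat_lit 120) (nat_lit 5) (nat_lit 365) (nat_lit 331) (nat_lit 249))))) (XT.nd (nat_lit 56118) (nat_lit 0) (nat_lit 9744) (XT.nd (nat_lit 188) (nat_lit 504) (nat_lit 0) (XT.nd (nat_lit 94) (nat_lit 420) (nat_lit 0) (XT.lf (nat_lit 0) (nat_lit 791414336) (nat_lit 588) (nat_lit 4373775742) (nat_lit 84) (nat_lit 7040415231)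 (nat_lit 112) (nat_lit 5) (nat_lit 119) (nat_lit 5) (nat_lit 113) (nat_lit 5) (nat_lit 366) (nat_lit 331) (nat_lit 248)) (XT.lf (nat_lit 0) (nat_lit 1610651696) (nat_lit 420) (nat_lit 1071395822) (nat_lit 504) (nat_lit 9736494897) (nat_lit 107) (nat_lit 5) (nat_lit 112) (nat_lit 5) (nat_lit 113) (nat_lit 5) (nat_lit 367) (nat_lit 331) (nat_lit 247))) (XT.nd (nat_lit 94) (nat_lit 504) (nat_lit 0) (XT.lf (nat_lit 0) (nat_lit 4682362886) (nat_lit 504) (nat_lit 4828513435) (nat_lit 84) (nat_lit 3125436945) (nat_lit 107) (nat_lit 5) (nat_lit 113) (nat_lit 5) (nat_lit 108) (nat_lit 5) (nat_lit 368) (nat_lit 331) (nat_lit 246)) (XT.lf (nat_lit 0) (nat_lit 1320581468) (nat_lit 504) (nat_lit 5424171115) (nat_lit 588) (nat_lit 6115836239) (nat_lit 101) (nat_lit 5) (nat_lit 107) (nat_lit 5) (nat_lit 108) (nat_lit 5) (nat_lit 369) (nat_lit 331) (nat_lit 245)))) (XT.nd (nat_lit 188) (nat_lit 0) (nat_lit 0) (XT.nd (nat_lit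 94) (nat_lit 924) (nat_lit 0) (XT.lf (nat_lit 0) (nat_lit 3839414395) (nat_lit 924) (nat_lit 7170772) (nat_lit 924) (nat_lit 7170772) (nat_lit 228) (nat_lit 3) (nat_lit 239) (nat_lit 3) (nat_lit 239) (nat_lit 5) (nat_lit 332) (nat_lit 332) (nat_lit 281)) (XT.lf (nat_lit 0) (nat_lit 1237577305) (nat_lit 924) (nat_lit 4352869654) (nat_lit 1008) (nat_lit 2191981940) (nat_lit 217) (nat_lit 5) (nat_lit 228) (nat_lit 3) (nat_lit 229) (nat_lit 5) (nat_lit 333) (nat_lit 332) (nat_lit 280))) (XT.nd (nat_lit 94) (nat_lit 0) (nat_lit 0) (XT.lf (nat_lit 0) (nat_lit 2493043223) (nat_lit 924) (nat_lit 908893495) (nat_lit 1008) (nat_lit 4459200534) (nat_lit 217) (nat_lit 5) (nat_lit 228) (nat_lit 3) (nat_lit 229) (nat_lit 5) (nat_lit 334) (nat_lit 332) (nat_lit 279)) (XT.nd (nat_lit 94) (nat_lit 0) (nat_lit 84) (XT.lf (nat_lit 84) (nat_lit 2665077072) (nat_lit 0) (nat_lit 1099770667) (nat_lit 1008) (nat_lit 4178101954) (nat_lit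 218) (nat_lit 5) (nat_lit 217) (nat_lit 5) (nat_lit 229) (nat_lit 5) (nat_lit 335) (nat_lit 332) (nat_lit 278)) (XT.lf (nat_lit 0) (nat_lit 5050679146) (nat_lit 924) (nat_lit 1701111629) (nat_lit 1008) (nat_lit 1276249624) (nat_lit 218) (nat_lit 5) (nat_lit 229) (nat_lit 5) (nat_lit 230) (nat_lit 5) (nat_lit 336) (nat_lit 332) (nat_lit 277))))))))
noncomputable def xc46 : XT := (XT.nd (nat_lit 1504) (nat_lit 5292) (nat_lit 0) (XT.nd (nat_lit 752) (nat_lit 3108) (nat_lit 0) (XT.nd (nat_lit 376) (nat_lit 0) (nat_lit 0) (XT.nd (nat_lit 188) (nat_lit 924) (nat_lit 0) (XT.nd (nat_lit 94) (nat_lit 0) (nat_lit 0) (XT.lf (nat_lit 84) (nat_lit 1984817893) (nat_lit 0) (nat_lit 4375946176) (nat_lit 1008) (nat_lit 1755446560) (nat_lit 219) (nat_lit 5) (nat_lit 218) (nat_lit 5) (nat_lit 230) (nat_lit 5) (nat_lit 337) (nat_lit 332) (nat_lit 276)) (XT.lf (nat_lit 84) (nat_lit 5790474668) (nat_lit 0) (nat_lit 1893607969)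 (nat_lit 1008) (nat_lit 523819725) (nat_lit 219) (nat_lit 5) (nat_lit 218) (nat_lit 5) (nat_lit 230) (nat_lit 5) (nat_lit 338) (nat_lit 332) (nat_lit 275))) (XT.nd (nat_lit 94) (nat_lit 0) (nat_lit 0) (XT.lf (nat_lit 0) (nat_lit 707948527) (nat_lit 1008) (nat_lit 6907575174) (nat_lit 1092) (nat_lit 687363525) (nat_lit 207) (nat_lit 5) (nat_lit 219) (nat_lit 5) (nat_lit 220) (nat_lit 5) (nat_lit 339) (nat_lit 332) (nat_lit 274)) (XT.lf (nat_lit 0) (nat_lit 1968193852) (nat_lit 1008) (nat_lit 3079313938) (nat_lit 1092) (nat_lit 3353083012) (nat_lit 207) (nat_lit 5) (nat_lit 219) (nat_lit 5) (nat_lit 220) (nat_lit 5) (nat_lit 340) (nat_lit 332) (nat_lit 273)))) (XT.nd (nat_lit 188) (nat_lit 0) (nat_lit 84) (XT.nd (nat_lit 94) (nat_lit 0) (nat_lit 84) (XT.lf (nat_lit 84) (nat_lit 854115492) (nat_lit 0) (nat_lit 2380196385) (nat_lit 1092) (nat_lit 5267955459) (nat_lit 208) (nat_lit 5) (nat_lit 207) (nat_lit 5)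 (nat_lit 220) (nat_lit 5) (nat_lit 341) (nat_lit 332) (nat_lit 272)) (XT.lf (nat_lit 0) (nat_lit 4534245317) (nat_lit 1008) (nat_lit 3668700252) (nat_lit 1092) (nat_lit 404255010) (nat_lit 208) (nat_lit 5) (nat_lit 220) (nat_lit 5) (nat_lit 221) (nat_lit 5) (nat_lit 342) (nat_lit 332) (nat_lit 271))) (XT.nd (nat_lit 94) (nat_lit 0) (nat_lit 0) (XT.lf (nat_lit 84) (nat_lit 387456769) (nat_lit 0) (nat_lit 5475049449) (nat_lit 1092) (nat_lit 2853174717) (nat_lit 209) (nat_lit 5) (nat_lit 208) (nat_lit 5) (nat_lit 221) (nat_lit 5) (nat_lit 343) (nat_lit 332) (nat_lit 270)) (XT.lf (nat_lit 84) (nat_lit 4614092263) (nat_lit 0) (nat_lit 2616459842) (nat_lit 1092) (nat_lit 1596942181) (nat_lit 209) (nat_lit 5) (nat_lit 208) (nat_lit 5) (nat_lit 221) (nat_lit 5) (nat_lit 344) (nat_lit 332) (nat_lit 269))))) (XT.nd (nat_lit 376) (nat_lit 2184) (nat_lit 0) (XT.nd (nat_lit 188) (nat_lit 0) (nat_lit 0) (XT.nd (nat_lit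 94) (nat_lit 1092) (nat_lit 0) (XT.lf (nat_lit 0) (nat_lit 8606862406) (nat_lit 1008) (nat_lit 5183987) (nat_lit 1092) (nat_lit 331673418) (nat_lit 209) (nat_lit 5) (nat_lit 221) (nat_lit 5) (nat_lit 222) (nat_lit 5) (nat_lit 345) (nat_lit 332) (nat_lit 268)) (XT.lf (nat_lit 0) (nat_lit 975489314) (nat_lit 1092) (nat_lit 4709691877) (nat_lit 1176) (nat_lit 3377047584) (nat_lit 196) (nat_lit 5) (nat_lit 209) (nat_lit 5) (nat_lit 210) (nat_lit 5) (nat_lit 346) (nat_lit 332) (nat_lit 267))) (XT.nd (nat_lit 94) (nat_lit 0) (nat_lit 84) (XT.lf (nat_lit 0) (nat_lit 2285967296) (nat_lit 1092) (nat_lit 373144187) (nat_lit 1176) (nat_lit 6526183672) (nat_lit 196) (nat_lit 5) (nat_lit 209) (nat_lit 5) (nat_lit 210) (nat_lit 5) (nat_lit 347) (nat_lit 332) (nat_lit 266)) (XT.lf (nat_lit 0) (nat_lit 3646991368) (nat_lit 1092) (nat_lit 5168180701) (nat_lit 84) (nat_lit 496610667) (nat_lit 197) (nat_lit 5) (nat_lit 210)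 (nat_lit 5) (nat_lit 198) (nat_lit 5) (nat_lit 348) (nat_lit 332) (nat_lit 265)))) (XT.nd (nat_lit 188) (nat_lit 1176) (nat_lit 0) (XT.nd (nat_lit 94) (nat_lit 1092) (nat_lit 0) (XT.lf (nat_lit 0) (nat_lit 5046262794) (nat_lit 1092) (nat_lit 691518594) (nat_lit 84) (nat_lit 3704425291) (nat_lit 197) (nat_lit 5) (nat_lit 210) (nat_lit 5) (nat_lit 198) (nat_lit 5) (nat_lit 349) (nat_lit 332) (nat_lit 264)) (XT.lf (nat_lit 0) (nat_lit 3971008478) (nat_lit 1092) (nat_lit 2522912020) (nat_lit 1176) (nat_lit 3082492961) (nat_lit 184) (nat_lit 5) (nat_lit 197) (nat_lit 5) (nat_lit 198) (nat_lit 5) (nat_lit 350) (nat_lit 332) (nat_lit 263))) (XT.nd (nat_lit 94) (nat_lit 1176) (nat_lit 0) (XT.lf (nat_lit 0) (nat_lit 7968605506) (nat_lit 1176) (nat_lit 961212478) (nat_lit 84) (nat_lit 785381077) (nat_lit 184) (nat_lit 5) (nat_lit 198) (nat_lit 5) (nat_lit 185) (nat_lit 5) (nat_lit 351) (nat_lit 332) (nat_lit 262)) (XT.lf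 (nat_lit 0) (nat_lit 3846448037) (nat_lit 1176) (nat_lit 5672907481) (nat_lit 1260) (nat_lit 337896763) (nat_lit 170) (nat_lit 5) (nat_lit 184) (nat_lit 5) (nat_lit 185) (nat_lit 5) (nat_lit 352) (nat_lit 332) (nat_lit 261)))))) (XT.nd (nat_lit 752) (nat_lit 2100) (nat_lit 0) (XT.nd (nat_lit 376) (nat_lit 1260) (nat_lit 0) (XT.nd (nat_lit 188) (nat_lit 588) (nat_lit 0) (XT.nd (nat_lit 94) (nat_lit 1260) (nat_lit 0) (XT.lf (nat_lit 0) (nat_lit 1071296939) (nat_lit 1260) (nat_lit 1222360778) (nat_lit 84) (nat_lit 7710245132) (nat_lit 169) (nat_lit 5) (nat_lit 184) (nat_lit 5) (nat_lit 170) (nat_lit 5) (nat_lit 353) (nat_lit 332) (nat_lit 260)) (XT.lf (nat_lit 0) (nat_lit 2534917379) (nat_lit 1344) (nat_lit 6412444743) (nat_lit 84) (nat_lit 1206975973) (nat_lit 154) (nat_lit 5) (nat_lit 170) (nat_lit 5) (nat_lit 155) (nat_lit 5) (nat_lit 354) (nat_lit 332) (nat_lit 259))) (XT.nd (nat_lit 94) (nat_lit 588) (nat_lit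 0) (XT.lf (nat_lit 0) (nat_lit 4049274368) (nat_lit 1344) (nat_lit 1477862502) (nat_lit 84) (nat_lit 4781996915) (nat_lit 154) (nat_lit 5) (nat_lit 170) (nat_lit 5) (nat_lit 155) (nat_lit 5) (nat_lit 355) (nat_lit 332) (nat_lit 258)) (XT.lf (nat_lit 0) (nat_lit 3650509245) (nat_lit 588) (nat_lit 1966122193) (nat_lit 672) (nat_lit 4851765537) (nat_lit 147) (nat_lit 5) (nat_lit 154) (nat_lit 5) (nat_lit 155) (nat_lit 5) (nat_lit 356) (nat_lit 332) (nat_lit 257)))) (XT.nd (nat_lit 188) (nat_lit 672) (nat_lit 0) (XT.nd (nat_lit 94) (nat_lit 588) (nat_lit 0) (XT.lf (nat_lit 0) (nat_lit 7235492609) (nat_lit 672) (nat_lit 1711576682) (nat_lit 84) (nat_lit 1685283496) (nat_lit 147) (nat_lit 5) (nat_lit 155) (nat_lit 5) (nat_lit 148) (nat_lit 5) (nat_lit 357) (nat_lit 332) (nat_lit 256)) (XT.lf (nat_lit 0) (nat_lit 3572828864) (nat_lit 588) (nat_lit 5357740472) (nat_lit 672) (nat_lit 1869876242) (nat_lit 140) (nat_lit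 5) (nat_lit 147) (nat_lit 5) (nat_lit 148) (nat_lit 5) (nat_lit 358) (nat_lit 332) (nat_lit 255))) (XT.nd (nat_lit 94) (nat_lit 672) (nat_lit 0) (XT.lf (nat_lit 0) (nat_lit 9025753686) (nat_lit 588) (nat_lit 1642387905) (nat_lit 672) (nat_lit 305736669) (nat_lit 140) (nat_lit 5) (nat_lit 147) (nat_lit 5) (nat_lit 148) (nat_lit 5) (nat_lit 359) (nat_lit 332) (nat_lit 254)) (XT.lf (nat_lit 0) (nat_lit 1309977267) (nat_lit 672) (nat_lit 7652381720) (nat_lit 84) (nat_lit 2188918593) (nat_lit 132) (nat_lit 5) (nat_lit 140) (nat_lit 5) (nat_lit 133) (nat_lit 5) (nat_lit 360) (nat_lit 332) (nat_lit 253))))) (XT.nd (nat_lit 376) (nat_lit 1008) (nat_lit 0) (XT.nd (nat_lit 188) (nat_lit 504) (nat_lit 0) (XT.nd (nat_lit 94) (nat_lit 588) (nat_lit 0) (XT.lf (nat_lit 0) (nat_lit 2979458298) (nat_lit 672) (nat_lit 2229081810) (nat_lit 84) (nat_lit 6125067205) (nat_lit 132) (nat_lit 5) (nat_lit 140) (nat_lit 5) (nat_lit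 133) (nat_lit 5) (nat_lit 361) (nat_lit 332) (nat_lit 252)) (XT.lf (nat_lit 0) (nat_lit 3398524341) (nat_lit 588) (nat_lit 1309199572) (nat_lit 672) (nat_lit 6813463249) (nat_lit 125) (nat_lit 5) (nat_lit 132) (nat_lit 5) (nat_lit 133) (nat_lit 5) (nat_lit 362) (nat_lit 332) (nat_lit 251))) (XT.nd (nat_lit 94) (nat_lit 504) (nat_lit 0) (XT.lf (nat_lit 0) (nat_lit 6513077343) (nat_lit 672) (nat_lit 2524515724) (nat_lit 84) (nat_lit 2676084174) (nat_lit 125) (nat_lit 5) (nat_lit 133) (nat_lit 5) (nat_lit 126) (nat_lit 5) (nat_lit 363) (nat_lit 332) (nat_lit 250)) (XT.lf (nat_lit 0) (nat_lit 3267912352) (nat_lit 504) (nat_lit 5126224586) (nat_lit 588) (nat_lit 3517197578) (nat_lit 119) (nat_lit 5) (nat_lit 125) (nat_lit 5) (nat_lit 126) (nat_lit 5) (nat_lit 364) (nat_lit 332) (nat_lit 249)))) (XT.nd (nat_lit 188) (nat_lit 420) (nat_lit 0) (XT.nd (nat_lit 94) (nat_lit 588) (nat_lit 0) (XT.lf (nat_lit 0) (nat_lit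 9261633465) (nat_lit 504) (nat_lit 1073089572) (nat_lit 588) (nat_lit 1780143362) (nat_lit 119) (nat_lit 5) (nat_lit 125) (nat_lit 5) (nat_lit 126) (nat_lit 5) (nat_lit 365) (nat_lit 332) (nat_lit 248)) (XT.lf (nat_lit 0) (nat_lit 47206282) (nat_lit 588) (nat_lit 9206378711) (nat_lit 84) (nat_lit 3069801412) (nat_lit 112) (nat_lit 5) (nat_lit 119) (nat_lit 5) (nat_lit 113) (nat_lit 5) (nat_lit 366) (nat_lit 332) (nat_lit 247))) (XT.nd (nat_lit 94) (nat_lit 420) (nat_lit 0) (XT.lf (nat_lit 0) (nat_lit 1911713811) (nat_lit 588) (nat_lit 3265412111) (nat_lit 84) (nat_lit 7359998369) (nat_lit 112) (nat_lit 5) (nat_lit 119) (nat_lit 5) (nat_lit 113) (nat_lit 5) (nat_lit 367) (nat_lit 332) (nat_lit 246)) (XT.nd (nat_lit 94) (nat_lit 0) (nat_lit 0) (XT.lf (nat_lit 0) (nat_lit 2886395436) (nat_lit 420) (nat_lit 952530749) (nat_lit 504) (nat_lit 8918178561) (nat_lit 107) (nat_lit 5) (nat_lit 112) (nat_lit 5) (nat_lit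 113) (nat_lit 5) (nat_lit 368) (nat_lit 332) (nat_lit 245)) (XT.lf (nat_lit 0) (nat_lit 5869308349) (nat_lit 504) (nat_lit 3750100334) (nat_lit 84) (nat_lit 3362947877) (nat_lit 107) (nat_lit 5) (nat_lit 113) (nat_lit 5) (nat_lit 108) (nat_lit 5) (nat_lit 369) (nat_lit 332) (nat_lit 244))))))))
noncomputable def xc47 : XT := (XT.nd (nat_lit 1598) (nat_lit 6384) (nat_lit 0) (XT.nd (nat_lit 752) (nat_lit 924) (nat_lit 0) (XT.nd (nat_lit 376) (nat_lit 924) (nat_lit 0) (XT.nd (nat_lit 188) (nat_lit 0) (nat_lit 0) (XT.nd (nat_lit 94) (nat_lit 0) (nat_lit 0) (XT.lf (nat_lit 0) (nat_lit 609160670) (nat_lit 0) (nat_lit 609160670) (nat_lit 924) (nat_lit 2711373162) (nat_lit 217) (nat_lit 5) (nat_lit 217) (nat_lit 3) (nat_lit 228) (nat_lit 3) (nat_lit 333) (nat_lit 333) (nat_lit 279)) (XT.lf (nat_lit 0) (nat_lit 3657272359) (nat_lit 924) (nat_lit 3197858153) (nat_lit 1008) (nat_lit 1084062711) (nat_lit 217) (nat_lit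 5) (nat_lit 228) (nat_lit 3) (nat_lit 229) (nat_lit 5) (nat_lit 334) (nat_lit 333) (nat_lit 278))) (XT.nd (nat_lit 94) (nat_lit 0) (nat_lit 0) (XT.lf (nat_lit 84) (nat_lit 318201966) (nat_lit 0) (nat_lit 4565863863) (nat_lit 1008) (nat_lit 3138339464) (nat_lit 218) (nat_lit 5) (nat_lit 217) (nat_lit 5) (nat_lit 229) (nat_lit 5) (nat_lit 335) (nat_lit 333) (nat_lit 277)) (XT.lf (nat_lit 84) (nat_lit 3980945591) (nat_lit 0) (nat_lit 2154526563) (nat_lit 1008) (nat_lit 1973104460) (nat_lit 218) (nat_lit 5) (nat_lit 217) (nat_lit 5) (nat_lit 229) (nat_lit 5) (nat_lit 336) (nat_lit 333) (nat_lit 276)))) (XT.nd (nat_lit 188) (nat_lit 0) (nat_lit 0) (XT.nd (nat_lit 94) (nat_lit 1008) (nat_lit 0) (XT.lf (nat_lit 0) (nat_lit 7384585126) (nat_lit 924) (nat_lit 472145381) (nat_lit 1008) (nat_lit 341891963) (nat_lit 218) (nat_lit 5) (nat_lit 229) (nat_lit 5) (nat_lit 230) (nat_lit 5) (nat_lit 337) (nat_lit 333) (nat_lit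 275)) (XT.lf (nat_lit 0) (nat_lit 383833749) (nat_lit 1008) (nat_lit 4983068748) (nat_lit 1092) (nat_lit 2924103294) (nat_lit 206) (nat_lit 5) (nat_lit 218) (nat_lit 5) (nat_lit 219) (nat_lit 5) (nat_lit 338) (nat_lit 333) (nat_lit 274))) (XT.nd (nat_lit 94) (nat_lit 0) (nat_lit 0) (XT.lf (nat_lit 0) (nat_lit 1564839541) (nat_lit 1008) (nat_lit 1208176705) (nat_lit 1092) (nat_lit 5614082101) (nat_lit 206) (nat_lit 5) (nat_lit 218) (nat_lit 5) (nat_lit 219) (nat_lit 5) (nat_lit 339) (nat_lit 333) (nat_lit 273)) (XT.lf (nat_lit 84) (nat_lit 2708392592) (nat_lit 0) (nat_lit 58864206) (nat_lit 1092) (nat_lit 5719321253) (nat_lit 207) (nat_lit 5) (nat_lit 206) (nat_lit 5) (nat_lit 219) (nat_lit 5) (nat_lit 340) (nat_lit 333) (nat_lit 272))))) (XT.nd (nat_lit 376) (nat_lit 1008) (nat_lit 0) (XT.nd (nat_lit 188) (nat_lit 0) (nat_lit 0) (XT.nd (nat_lit 94) (nat_lit 0) (nat_lit 0) (XT.lf (nat_lit 0) (nat_lit 4005398868)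 (nat_lit 1008) (nat_lit 1873457620) (nat_lit 1092) (nat_lit 2710277459) (nat_lit 207) (nat_lit 5) (nat_lit 219) (nat_lit 5) (nat_lit 220) (nat_lit 5) (nat_lit 341) (nat_lit 333) (nat_lit 271)) (XT.lf (nat_lit 84) (nat_lit 2165246891) (nat_lit 0) (nat_lit 3098994345) (nat_lit 1092) (nat_lit 3431097603) (nat_lit 208) (nat_lit 5) (nat_lit 207) (nat_lit 5) (nat_lit 220) (nat_lit 5) (nat_lit 342) (nat_lit 333) (nat_lit 270))) (XT.nd (nat_lit 94) (nat_lit 0) (nat_lit 84) (XT.lf (nat_lit 84) (nat_lit 6338925941) (nat_lit 0) (nat_lit 203866496) (nat_lit 1092) (nat_lit 2262555831) (nat_lit 208) (nat_lit 5) (nat_lit 207) (nat_lit 5) (nat_lit 220) (nat_lit 5) (nat_lit 343) (nat_lit 333) (nat_lit 269)) (XT.lf (nat_lit 84) (nat_lit 1700493814) (nat_lit 0) (nat_lit 6166475312) (nat_lit 1092) (nat_lit 1051545252) (nat_lit 209) (nat_lit 5) (nat_lit 208) (nat_lit 5) (nat_lit 221) (nat_lit 5) (nat_lit 344) (nat_lit 333) (nat_lit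 268)))) (XT.nd (nat_lit 188) (nat_lit 0) (nat_lit 84) (XT.nd (nat_lit 94) (nat_lit 0) (nat_lit 0) (XT.lf (nat_lit 0) (nat_lit 183749572) (nat_lit 1092) (nat_lit 3021168340) (nat_lit 1176) (nat_lit 5830418046) (nat_lit 195) (nat_lit 5) (nat_lit 208) (nat_lit 5) (nat_lit 209) (nat_lit 5) (nat_lit 345) (nat_lit 333) (nat_lit 267)) (XT.lf (nat_lit 84) (nat_lit 1291457201) (nat_lit 0) (nat_lit 121559766) (nat_lit 1176) (nat_lit 7743059562) (nat_lit 196) (nat_lit 5) (nat_lit 195) (nat_lit 5) (nat_lit 209) (nat_lit 5) (nat_lit 346) (nat_lit 333) (nat_lit 266))) (XT.nd (nat_lit 94) (nat_lit 0) (nat_lit 0) (XT.lf (nat_lit 0) (nat_lit 2705816086) (nat_lit 1092) (nat_lit 3539630994) (nat_lit 1176) (nat_lit 3034258788) (nat_lit 196) (nat_lit 5) (nat_lit 209) (nat_lit 5) (nat_lit 210) (nat_lit 5) (nat_lit 347) (nat_lit 333) (nat_lit 265)) (XT.nd (nat_lit 94) (nat_lit 0) (nat_lit 84) (XT.lf (nat_lit 84) (nat_lit 906507647)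 (nat_lit 0) (nat_lit 3108269168) (nat_lit 1176) (nat_lit 5393010175) (nat_lit 197) (nat_lit 5) (nat_lit 196) (nat_lit 5) (nat_lit 210) (nat_lit 5) (nat_lit 348) (nat_lit 333) (nat_lit 264)) (XT.lf (nat_lit 0) (nat_lit 5368522550) (nat_lit 1092) (nat_lit 4007508887) (nat_lit 84) (nat_lit 163575988) (nat_lit 197) (nat_lit 5) (nat_lit 210) (nat_lit 5) (nat_lit 198) (nat_lit 5) (nat_lit 349) (nat_lit 333) (nat_lit 263))))))) (XT.nd (nat_lit 752) (nat_lit 2352) (nat_lit 0) (XT.nd (nat_lit 376) (nat_lit 1848) (nat_lit 0) (XT.nd (nat_lit 188) (nat_lit 1260) (nat_lit 0) (XT.nd (nat_lit 94) (nat_lit 0) (nat_lit 0) (XT.lf (nat_lit 0) (nat_lit 576378440) (nat_lit 1092) (nat_lit 6191979187) (nat_lit 1176) (nat_lit 2906921082) (nat_lit 184) (nat_lit 5) (nat_lit 197) (nat_lit 5) (nat_lit 198) (nat_lit 5) (nat_lit 350) (nat_lit 333) (nat_lit 262)) (XT.lf (nat_lit 0) (nat_lit 5355010622) (nat_lit 1092) (nat_lit 2865465288)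 (nat_lit 1176) (nat_lit 1594294361) (nat_lit 184) (nat_lit 5) (nat_lit 197) (nat_lit 5) (nat_lit 198) (nat_lit 5) (nat_lit 351) (nat_lit 333) (nat_lit 261))) (XT.nd (nat_lit 94) (nat_lit 84) (nat_lit 0) (XT.lf (nat_lit 0) (nat_lit 293714378) (nat_lit 1176) (nat_lit 9401406170) (nat_lit 1260) (nat_lit 264014219) (nat_lit 170) (nat_lit 5) (nat_lit 184) (nat_lit 5) (nat_lit 185) (nat_lit 5) (nat_lit 352) (nat_lit 333) (nat_lit 260)) (XT.lf (nat_lit 0) (nat_lit 1129463232) (nat_lit 1260) (nat_lit 4890280568) (nat_lit 84) (nat_lit 4086474964) (nat_lit 169) (nat_lit 5) (nat_lit 184) (nat_lit 5) (nat_lit 170) (nat_lit 5) (nat_lit 353) (nat_lit 333) (nat_lit 259)))) (XT.nd (nat_lit 188) (nat_lit 588) (nat_lit 0) (XT.nd (nat_lit 94) (nat_lit 0) (nat_lit 0) (XT.lf (nat_lit 0) (nat_lit 692881) (nat_lit 1260) (nat_lit 2530619053) (nat_lit 1344) (nat_lit 7727220956) (nat_lit 154) (nat_lit 5) (nat_lit 169) (nat_lit 5) (nat_lit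 170) (nat_lit 5) (nat_lit 354) (nat_lit 333) (nat_lit 258)) (XT.lf (nat_lit 0) (nat_lit 4007785648) (nat_lit 1344) (nat_lit 5311484887) (nat_lit 84) (nat_lit 1095219524) (nat_lit 154) (nat_lit 5) (nat_lit 170) (nat_lit 5) (nat_lit 155) (nat_lit 5) (nat_lit 355) (nat_lit 333) (nat_lit 257))) (XT.nd (nat_lit 94) (nat_lit 588) (nat_lit 0) (XT.lf (nat_lit 0) (nat_lit 5526889248) (nat_lit 1344) (nat_lit 266535078) (nat_lit 84) (nat_lit 4781800776) (nat_lit 154) (nat_lit 5) (nat_lit 170) (nat_lit 5) (nat_lit 155) (nat_lit 5) (nat_lit 356) (nat_lit 333) (nat_lit 256)) (XT.lf (nat_lit 0) (nat_lit 5003377397) (nat_lit 588) (nat_lit 2110342375) (nat_lit 672) (nat_lit 3626445607) (nat_lit 147) (nat_lit 5) (nat_lit 154) (nat_lit 5) (nat_lit 155) (nat_lit 5) (nat_lit 357) (nat_lit 333) (nat_lit 255))))) (XT.nd (nat_lit 376) (nat_lit 1092) (nat_lit 0) (XT.nd (nat_lit 188) (nat_lit 672) (nat_lit 0) (XT.nd (nat_lit 94) (nat_lit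 588) (nat_lit 0) (XT.lf (nat_lit 0) (nat_lit 8741654519) (nat_lit 672) (nat_lit 513937841) (nat_lit 84) (nat_lit 1654702928) (nat_lit 147) (nat_lit 5) (nat_lit 155) (nat_lit 5) (nat_lit 148) (nat_lit 5) (nat_lit 358) (nat_lit 333) (nat_lit 254)) (XT.lf (nat_lit 0) (nat_lit 4916754910) (nat_lit 588) (nat_lit 5545170432) (nat_lit 672) (nat_lit 622343864) (nat_lit 140) (nat_lit 5) (nat_lit 147) (nat_lit 5) (nat_lit 148) (nat_lit 5) (nat_lit 359) (nat_lit 333) (nat_lit 253))) (XT.nd (nat_lit 94) (nat_lit 588) (nat_lit 0) (XT.lf (nat_lit 0) (nat_lit 932197569) (nat_lit 672) (nat_lit 775968747) (nat_lit 84) (nat_lit 9555634951) (nat_lit 139) (nat_lit 5) (nat_lit 147) (nat_lit 5) (nat_lit 140) (nat_lit 5) (nat_lit 360) (nat_lit 333) (nat_lit 252)) (XT.lf (nat_lit 0) (nat_lit 2565768639) (nat_lit 672) (nat_lit 6627818886) (nat_lit 84) (nat_lit 2253641085) (nat_lit 132) (nat_lit 5) (nat_lit 140) (nat_lit 5) (nat_lit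 133) (nat_lit 5) (nat_lit 361) (nat_lit 333) (nat_lit 251)))) (XT.nd (nat_lit 188) (nat_lit 504) (nat_lit 0) (XT.nd (nat_lit 94) (nat_lit 588) (nat_lit 0) (XT.lf (nat_lit 0) (nat_lit 4249902294) (nat_lit 672) (nat_lit 1078348161) (nat_lit 84) (nat_lit 6307901681) (nat_lit 132) (nat_lit 5) (nat_lit 140) (nat_lit 5) (nat_lit 133) (nat_lit 5) (nat_lit 362) (nat_lit 333) (nat_lit 250)) (XT.lf (nat_lit 0) (nat_lit 4706148860) (nat_lit 588) (nat_lit 1301056830) (nat_lit 672) (nat_lit 5822897169) (nat_lit 125) (nat_lit 5) (nat_lit 132) (nat_lit 5) (nat_lit 133) (nat_lit 5) (nat_lit 363) (nat_lit 333) (nat_lit 249))) (XT.nd (nat_lit 94) (nat_lit 504) (nat_lit 0) (XT.lf (nat_lit 0) (nat_lit 7833426825) (nat_lit 672) (nat_lit 1394491109) (nat_lit 84) (nat_lit 2801505941) (nat_lit 125) (nat_lit 5) (nat_lit 133) (nat_lit 5) (nat_lit 126) (nat_lit 5) (nat_lit 364) (nat_lit 333) (nat_lit 248)) (XT.nd (nat_lit 94) (nat_lit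 0) (nat_lit 0) (XT.lf (nat_lit 0) (nat_lit 4559888632) (nat_lit 504) (nat_lit 5189740705) (nat_lit 588) (nat_lit 2484075974) (nat_lit 119) (nat_lit 5) (nat_lit 125) (nat_lit 5) (nat_lit 126) (nat_lit 5) (nat_lit 365) (nat_lit 333) (nat_lit 247)) (XT.lf (nat_lit 0) (nat_lit 10698646459) (nat_lit 504) (nat_lit 1017640882) (nat_lit 588) (nat_lit 728074331) (nat_lit 119) (nat_lit 5) (nat_lit 125) (nat_lit 5) (nat_lit 126) (nat_lit 5) (nat_lit 366) (nat_lit 333) (nat_lit 246))))))))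
noncomputable def xc48 : XT := (XT.nd (nat_lit 57434) (nat_lit 0) (nat_lit 1512) (XT.nd (nat_lit 56682) (nat_lit 0) (nat_lit 7392) (XT.nd (nat_lit 56306) (nat_lit 0) (nat_lit 8232) (XT.nd (nat_lit 188) (nat_lit 420) (nat_lit 0) (XT.nd (nat_lit 94) (nat_lit 0) (nat_lit 0) (XT.lf (nat_lit 0) (nat_lit 1113240961) (nat_lit 588) (nat_lit 8279097350) (nat_lit 84) (nat_lit 3267109708) (nat_lit 112) (nat_lit 5) (nat_lit 119) (nat_lit 5) (nat_lit 113) (nat_lit 5) (nat_lit 367) (nat_lit 333) (nat_lit 245)) (XT.lf (nat_lit 0) (nat_lit 3002675410) (nat_lit 588) (nat_lit 2194954355) (nat_lit 84) (nat_lit 7682948081) (nat_lit 112) (nat_lit 5) (nat_lit 119) (nat_lit 5) (nat_lit 113) (nat_lit 5) (nat_lit 368) (nat_lit 333) (nat_lit 244))) (XT.nd (nat_lit 56024) (nat_lit 0) (nat_lit 9240) (XT.lf (nat_lit 0) (nat_lit 4129952319) (nat_lit 420) (nat_lit 838768141) (nat_lit 504) (nat_lit 8139054878) (nat_lit 107) (nat_lit 5) (nat_lit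 112) (nat_lit 5) (nat_lit 113) (nat_lit 5) (nat_lit 369) (nat_lit 333) (nat_lit 243)) (XT.lf (nat_lit 0) (nat_lit 1208521507) (nat_lit 0) (nat_lit 1208521507) (nat_lit 924) (nat_lit 1593137594) (nat_lit 217) (nat_lit 5) (nat_lit 217) (nat_lit 3) (nat_lit 228) (nat_lit 3) (nat_lit 334) (nat_lit 334) (nat_lit 277)))) (XT.nd (nat_lit 188) (nat_lit 1008) (nat_lit 0) (XT.nd (nat_lit 94) (nat_lit 0) (nat_lit 0) (XT.lf (nat_lit 0) (nat_lit 6012789130) (nat_lit 924) (nat_lit 2081994868) (nat_lit 1008) (nat_lit 10279863) (nat_lit 217) (nat_lit 5) (nat_lit 228) (nat_lit 3) (nat_lit 229) (nat_lit 5) (nat_lit 335) (nat_lit 334) (nat_lit 276)) (XT.lf (nat_lit 84) (nat_lit 1527666672) (nat_lit 0) (nat_lit 5694842474) (nat_lit 1008) (nat_lit 970023092) (nat_lit 218) (nat_lit 5) (nat_lit 217) (nat_lit 5) (nat_lit 229) (nat_lit 5) (nat_lit 336) (nat_lit 334) (nat_lit 275))) (XT.nd (nat_lit 94) (nat_lit 0) (nat_lit 0) (XT.lf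 (nat_lit 0) (nat_lit 161066341) (nat_lit 1008) (nat_lit 3019578977) (nat_lit 1092) (nat_lit 5102650723) (nat_lit 205) (nat_lit 5) (nat_lit 217) (nat_lit 5) (nat_lit 218) (nat_lit 5) (nat_lit 337) (nat_lit 334) (nat_lit 274)) (XT.lf (nat_lit 84) (nat_lit 716247484) (nat_lit 0) (nat_lit 556030958) (nat_lit 1092) (nat_lit 7105331920) (nat_lit 206) (nat_lit 5) (nat_lit 205) (nat_lit 5) (nat_lit 218) (nat_lit 5) (nat_lit 338) (nat_lit 334) (nat_lit 273))))) (XT.nd (nat_lit 376) (nat_lit 924) (nat_lit 0) (XT.nd (nat_lit 188) (nat_lit 0) (nat_lit 0) (XT.nd (nat_lit 94) (nat_lit 0) (nat_lit 0) (XT.lf (nat_lit 0) (nat_lit 2428208568) (nat_lit 1008) (nat_lit 3893155484) (nat_lit 1092) (nat_lit 2153132422) (nat_lit 206) (nat_lit 5) (nat_lit 218) (nat_lit 5) (nat_lit 219) (nat_lit 5) (nat_lit 339) (nat_lit 334) (nat_lit 272)) (XT.lf (nat_lit 0) (nat_lit 3585435025) (nat_lit 1008) (nat_lit 41115863) (nat_lit 1092) (nat_lit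 4948821097) (nat_lit 206) (nat_lit 5) (nat_lit 218) (nat_lit 5) (nat_lit 219) (nat_lit 5) (nat_lit 340) (nat_lit 334) (nat_lit 271))) (XT.nd (nat_lit 94) (nat_lit 0) (nat_lit 84) (XT.lf (nat_lit 84) (nat_lit 3981153393) (nat_lit 0) (nat_lit 796739961) (nat_lit 1092) (nat_lit 3901443956) (nat_lit 207) (nat_lit 5) (nat_lit 206) (nat_lit 5) (nat_lit 219) (nat_lit 5) (nat_lit 341) (nat_lit 334) (nat_lit 270)) (XT.lf (nat_lit 0) (nat_lit 5990165605) (nat_lit 1008) (nat_lit 705949656) (nat_lit 1092) (nat_lit 2090861827) (nat_lit 207) (nat_lit 5) (nat_lit 219) (nat_lit 5) (nat_lit 220) (nat_lit 5) (nat_lit 342) (nat_lit 334) (nat_lit 269)))) (XT.nd (nat_lit 188) (nat_lit 1008) (nat_lit 0) (XT.nd (nat_lit 94) (nat_lit 0) (nat_lit 0) (XT.lf (nat_lit 84) (nat_lit 3441918818) (nat_lit 0) (nat_lit 3802193290) (nat_lit 1092) (nat_lit 1653649232) (nat_lit 208) (nat_lit 5) (nat_lit 207) (nat_lit 5) (nat_lit 220) (nat_lit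 5) (nat_lit 343) (nat_lit 334) (nat_lit 268)) (XT.lf (nat_lit 84) (nat_lit 7705515584) (nat_lit 0) (nat_lit 802437942) (nat_lit 1092) (nat_lit 504819595) (nat_lit 208) (nat_lit 5) (nat_lit 207) (nat_lit 5) (nat_lit 220) (nat_lit 5) (nat_lit 344) (nat_lit 334) (nat_lit 267))) (XT.nd (nat_lit 94) (nat_lit 0) (nat_lit 0) (XT.lf (nat_lit 0) (nat_lit 682221140) (nat_lit 1092) (nat_lit 6159271749) (nat_lit 1176) (nat_lit 2289105283) (nat_lit 195) (nat_lit 5) (nat_lit 208) (nat_lit 5) (nat_lit 209) (nat_lit 5) (nat_lit 345) (nat_lit 334) (nat_lit 266)) (XT.lf (nat_lit 0) (nat_lit 1882638497) (nat_lit 1092) (nat_lit 1883766406) (nat_lit 1176) (nat_lit 5485831932) (nat_lit 195) (nat_lit 5) (nat_lit 208) (nat_lit 5) (nat_lit 209) (nat_lit 5) (nat_lit 346) (nat_lit 334) (nat_lit 265)))))) (XT.nd (nat_lit 752) (nat_lit 3696) (nat_lit 0) (XT.nd (nat_lit 376) (nat_lit 2184) (nat_lit 0) (XT.nd (nat_lit 188) (nat_lit 0) (nat_lit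 84) (XT.nd (nat_lit 94) (nat_lit 0) (nat_lit 84) (XT.lf (nat_lit 84) (nat_lit 2546198322) (nat_lit 0) (nat_lit 564952859) (nat_lit 1176) (nat_lit 6266675228) (nat_lit 196) (nat_lit 5) (nat_lit 195) (nat_lit 5) (nat_lit 209) (nat_lit 5) (nat_lit 347) (nat_lit 334) (nat_lit 264)) (XT.lf (nat_lit 0) (nat_lit 4390404738) (nat_lit 1092) (nat_lit 2409745233) (nat_lit 1176) (nat_lit 2706679497) (nat_lit 196) (nat_lit 5) (nat_lit 209) (nat_lit 5) (nat_lit 210) (nat_lit 5) (nat_lit 348) (nat_lit 334) (nat_lit 263))) (XT.nd (nat_lit 94) (nat_lit 0) (nat_lit 0) (XT.lf (nat_lit 84) (nat_lit 2157659188) (nat_lit 0) (nat_lit 3546039135) (nat_lit 1176) (nat_lit 3936194970) (nat_lit 197) (nat_lit 5) (nat_lit 196) (nat_lit 5) (nat_lit 210) (nat_lit 5) (nat_lit 349) (nat_lit 334) (nat_lit 262)) (XT.lf (nat_lit 84) (nat_lit 6888069944) (nat_lit 0) (nat_lit 162650857) (nat_lit 1176) (nat_lit 2726457112) (nat_lit 197) (nat_lit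 5) (nat_lit 196) (nat_lit 5) (nat_lit 210) (nat_lit 5) (nat_lit 350) (nat_lit 334) (nat_lit 261)))) (XT.nd (nat_lit 188) (nat_lit 1260) (nat_lit 0) (XT.nd (nat_lit 94) (nat_lit 0) (nat_lit 0) (XT.lf (nat_lit 0) (nat_lit 1821700755) (nat_lit 1092) (nat_lit 6636831677) (nat_lit 1176) (nat_lit 1459494356) (nat_lit 184) (nat_lit 5) (nat_lit 197) (nat_lit 5) (nat_lit 198) (nat_lit 5) (nat_lit 351) (nat_lit 334) (nat_lit 260)) (XT.lf (nat_lit 0) (nat_lit 6707924010) (nat_lit 1092) (nat_lit 3202975960) (nat_lit 1176) (nat_lit 152186921) (nat_lit 184) (nat_lit 5) (nat_lit 197) (nat_lit 5) (nat_lit 198) (nat_lit 5) (nat_lit 352) (nat_lit 334) (nat_lit 259))) (XT.nd (nat_lit 94) (nat_lit 0) (nat_lit 0) (XT.lf (nat_lit 0) (nat_lit 1161241204) (nat_lit 1260) (nat_lit 8693058036) (nat_lit 84) (nat_lit 358201143) (nat_lit 169) (nat_lit 5) (nat_lit 184) (nat_lit 5) (nat_lit 170) (nat_lit 5) (nat_lit 353) (nat_lit 334) (nat_lit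 258)) (XT.lf (nat_lit 0) (nat_lit 2549628126) (nat_lit 1260) (nat_lit 3813968633) (nat_lit 84) (nat_lit 4001646582) (nat_lit 169) (nat_lit 5) (nat_lit 184) (nat_lit 5) (nat_lit 170) (nat_lit 5) (nat_lit 354) (nat_lit 334) (nat_lit 257))))) (XT.nd (nat_lit 376) (nat_lit 1848) (nat_lit 0) (XT.nd (nat_lit 188) (nat_lit 588) (nat_lit 0) (XT.nd (nat_lit 94) (nat_lit 0) (nat_lit 0) (XT.lf (nat_lit 0) (nat_lit 1211743624) (nat_lit 1260) (nat_lit 2753052709) (nat_lit 1344) (nat_lit 6558267594) (nat_lit 154) (nat_lit 5) (nat_lit 169) (nat_lit 5) (nat_lit 170) (nat_lit 5) (nat_lit 355) (nat_lit 334) (nat_lit 256)) (XT.lf (nat_lit 0) (nat_lit 5444656739) (nat_lit 1344) (nat_lit 4251738852) (nat_lit 84) (nat_lit 988604219) (nat_lit 154) (nat_lit 5) (nat_lit 170) (nat_lit 5) (nat_lit 155) (nat_lit 5) (nat_lit 356) (nat_lit 334) (nat_lit 255))) (XT.nd (nat_lit 94) (nat_lit 0) (nat_lit 0) (XT.lf (nat_lit 0) (nat_lit 927143874)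 (nat_lit 588) (nat_lit 6052753182) (nat_lit 672) (nat_lit 3871613596) (nat_lit 147) (nat_lit 5) (nat_lit 154) (nat_lit 5) (nat_lit 155) (nat_lit 5) (nat_lit 357) (nat_lit 334) (nat_lit 254)) (XT.lf (nat_lit 0) (nat_lit 6325458052) (nat_lit 588) (nat_lit 2253996238) (nat_lit 672) (nat_lit 2443059790) (nat_lit 147) (nat_lit 5) (nat_lit 154) (nat_lit 5) (nat_lit 155) (nat_lit 5) (nat_lit 358) (nat_lit 334) (nat_lit 253)))) (XT.nd (nat_lit 188) (nat_lit 1176) (nat_lit 0) (XT.nd (nat_lit 94) (nat_lit 84) (nat_lit 0) (XT.lf (nat_lit 0) (nat_lit 660828393) (nat_lit 588) (nat_lit 9564525731) (nat_lit 672) (nat_lit 973386551) (nat_lit 140) (nat_lit 5) (nat_lit 147) (nat_lit 5) (nat_lit 148) (nat_lit 5) (nat_lit 359) (nat_lit 334) (nat_lit 252)) (XT.lf (nat_lit 0) (nat_lit 576311144) (nat_lit 672) (nat_lit 5154559975) (nat_lit 84) (nat_lit 5647873976) (nat_lit 139) (nat_lit 5) (nat_lit 147) (nat_lit 5) (nat_lit 140)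 (nat_lit 5) (nat_lit 360) (nat_lit 334) (nat_lit 251))) (XT.nd (nat_lit 94) (nat_lit 588) (nat_lit 0) (XT.lf (nat_lit 0) (nat_lit 364979032) (nat_lit 588) (nat_lit 1768417943) (nat_lit 672) (nat_lit 9431089737) (nat_lit 132) (nat_lit 5) (nat_lit 139) (nat_lit 5) (nat_lit 140) (nat_lit 5) (nat_lit 361) (nat_lit 334) (nat_lit 250)) (XT.nd (nat_lit 94) (nat_lit 588) (nat_lit 0) (XT.lf (nat_lit 0) (nat_lit 3789402131) (nat_lit 672) (nat_lit 5644511604) (nat_lit 84) (nat_lit 2320359502) (nat_lit 132) (nat_lit 5) (nat_lit 140) (nat_lit 5) (nat_lit 133) (nat_lit 5) (nat_lit 362) (nat_lit 334) (nat_lit 249)) (XT.lf (nat_lit 0) (nat_lit 37748535) (nat_lit 588) (nat_lit 5453276246) (nat_lit 672) (nat_lit 6458888189) (nat_lit 125) (nat_lit 5) (nat_lit 132) (nat_lit 5) (nat_lit 133) (nat_lit 5) (nat_lit 363) (nat_lit 334) (nat_lit 248))))))))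
noncomputable def xc49 : XT := (XT.nd (nat_lit 57528) (nat_lit 0) (nat_lit 2268) (XT.nd (nat_lit 56776) (nat_lit 0) (nat_lit 6888) (XT.nd (nat_lit 376) (nat_lit 504) (nat_lit 0) (XT.nd (nat_lit 188) (nat_lit 588) (nat_lit 0) (XT.nd (nat_lit 94) (nat_lit 0) (nat_lit 0) (XT.lf (nat_lit 0) (nat_lit 5983791794) (nat_lit 588) (nat_lit 1295391835) (nat_lit 672) (nat_lit 4871210271) (nat_lit 125) (nat_lit 5) (nat_lit 132) (nat_lit 5) (nat_lit 133) (nat_lit 5) (nat_lit 364) (nat_lit 334) (nat_lit 247)) (XT.lf (nat_lit 0) (nat_lit 9128809649) (nat_lit 672) (nat_lit 299781317) (nat_lit 84) (nat_lit 2928099183) (nat_lit 125) (nat_lit 5) (nat_lit 133) (nat_lit 5) (nat_lit 126) (nat_lit 5) (nat_lit 365) (nat_lit 334) (nat_lit 246))) (XT.nd (nat_lit 94) (nat_lit 84) (nat_lit 0) (XT.lf (nat_lit 0) (nat_lit 5822087223) (nat_lit 504) (nat_lit 5260344211) (nat_lit 588) (nat_lit 1485323173) (nat_lit 119) (nat_lit 5) (nat_lit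 125) (nat_lit 5) (nat_lit 126) (nat_lit 5) (nat_lit 366) (nat_lit 334) (nat_lit 245)) (XT.lf (nat_lit 0) (nat_lit 286398193) (nat_lit 588) (nat_lit 676269451) (nat_lit 84) (nat_lit 11822938834) (nat_lit 118) (nat_lit 5) (nat_lit 125) (nat_lit 5) (nat_lit 119) (nat_lit 5) (nat_lit 367) (nat_lit 334) (nat_lit 244)))) (XT.nd (nat_lit 56212) (nat_lit 0) (nat_lit 7728) (XT.nd (nat_lit 94) (nat_lit 0) (nat_lit 0) (XT.lf (nat_lit 0) (nat_lit 2150143224) (nat_lit 588) (nat_lit 7393081805) (nat_lit 84) (nat_lit 3464297524) (nat_lit 112) (nat_lit 5) (nat_lit 119) (nat_lit 5) (nat_lit 113) (nat_lit 5) (nat_lit 368) (nat_lit 334) (nat_lit 243)) (XT.lf (nat_lit 0) (nat_lit 4067032403) (nat_lit 588) (nat_lit 1159454961) (nat_lit 84) (nat_lit 8009722470) (nat_lit 112) (nat_lit 5) (nat_lit 119) (nat_lit 5) (nat_lit 113) (nat_lit 5) (nat_lit 369) (nat_lit 334) (nat_lit 242))) (XT.nd (nat_lit 94) (nat_lit 1092) (nat_lit 0)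 (XT.lf (nat_lit 0) (nat_lit 1792506454) (nat_lit 0) (nat_lit 1792506454) (nat_lit 924) (nat_lit 510215573) (nat_lit 217) (nat_lit 5) (nat_lit 217) (nat_lit 3) (nat_lit 228) (nat_lit 3) (nat_lit 335) (nat_lit 335) (nat_lit 275)) (XT.lf (nat_lit 0) (nat_lit 39626793) (nat_lit 1092) (nat_lit 1012726110) (nat_lit 1092) (nat_lit 7227393081) (nat_lit 204) (nat_lit 3) (nat_lit 217) (nat_lit 3) (nat_lit 217) (nat_lit 5) (nat_lit 336) (nat_lit 335) (nat_lit 274))))) (XT.nd (nat_lit 376) (nat_lit 924) (nat_lit 0) (XT.nd (nat_lit 188) (nat_lit 0) (nat_lit 0) (XT.nd (nat_lit 94) (nat_lit 0) (nat_lit 0) (XT.lf (nat_lit 0) (nat_lit 1111349893) (nat_lit 1008) (nat_lit 5678173083) (nat_lit 1092) (nat_lit 1581962732) (nat_lit 205) (nat_lit 5) (nat_lit 217) (nat_lit 5) (nat_lit 218) (nat_lit 5) (nat_lit 337) (nat_lit 335) (nat_lit 273)) (XT.lf (nat_lit 0) (nat_lit 2195973259) (nat_lit 1008) (nat_lit 1967414636) (nat_lit 1092)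 (nat_lit 4303251083) (nat_lit 205) (nat_lit 5) (nat_lit 217) (nat_lit 5) (nat_lit 218) (nat_lit 5) (nat_lit 338) (nat_lit 335) (nat_lit 272))) (XT.nd (nat_lit 94) (nat_lit 0) (nat_lit 84) (XT.lf (nat_lit 84) (nat_lit 1869283170) (nat_lit 0) (nat_lit 1422987290) (nat_lit 1092) (nat_lit 5273083700) (nat_lit 206) (nat_lit 5) (nat_lit 205) (nat_lit 5) (nat_lit 218) (nat_lit 5) (nat_lit 339) (nat_lit 335) (nat_lit 271)) (XT.lf (nat_lit 0) (nat_lit 4417220163) (nat_lit 1008) (nat_lit 2841691758) (nat_lit 1092) (nat_lit 1408324970) (nat_lit 206) (nat_lit 5) (nat_lit 218) (nat_lit 5) (nat_lit 219) (nat_lit 5) (nat_lit 340) (nat_lit 335) (nat_lit 270)))) (XT.nd (nat_lit 188) (nat_lit 1008) (nat_lit 0) (XT.nd (nat_lit 94) (nat_lit 0) (nat_lit 0) (XT.lf (nat_lit 84) (nat_lit 1113612702) (nat_lit 0) (nat_lit 4450444797) (nat_lit 1092) (nat_lit 3208551128) (nat_lit 207) (nat_lit 5) (nat_lit 206) (nat_lit 5) (nat_lit 219)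 (nat_lit 5) (nat_lit 341) (nat_lit 335) (nat_lit 269)) (XT.lf (nat_lit 84) (nat_lit 5223699526) (nat_lit 0) (nat_lit 1514496272) (nat_lit 1092) (nat_lit 2143233308) (nat_lit 207) (nat_lit 5) (nat_lit 206) (nat_lit 5) (nat_lit 219) (nat_lit 5) (nat_lit 342) (nat_lit 335) (nat_lit 268))) (XT.nd (nat_lit 94) (nat_lit 1092) (nat_lit 0) (XT.lf (nat_lit 84) (nat_lit 434822442) (nat_lit 0) (nat_lit 7496796738) (nat_lit 1092) (nat_lit 1062445485) (nat_lit 208) (nat_lit 5) (nat_lit 207) (nat_lit 5) (nat_lit 220) (nat_lit 5) (nat_lit 343) (nat_lit 335) (nat_lit 267)) (XT.lf (nat_lit 0) (nat_lit 67831038) (nat_lit 1092) (nat_lit 4422942556) (nat_lit 1176) (nat_lit 4618817533) (nat_lit 194) (nat_lit 5) (nat_lit 207) (nat_lit 5) (nat_lit 208) (nat_lit 5) (nat_lit 344) (nat_lit 335) (nat_lit 266)))))) (XT.nd (nat_lit 752) (nat_lit 3780) (nat_lit 0) (XT.nd (nat_lit 376) (nat_lit 840) (nat_lit 0) (XT.nd (nat_lit 188) (nat_lit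 0) (nat_lit 84) (XT.nd (nat_lit 94) (nat_lit 0) (nat_lit 84) (XT.lf (nat_lit 0) (nat_lit 1177418148) (nat_lit 1092) (nat_lit 195649402) (nat_lit 1176) (nat_lit 7856263725) (nat_lit 194) (nat_lit 5) (nat_lit 207) (nat_lit 5) (nat_lit 208) (nat_lit 5) (nat_lit 345) (nat_lit 335) (nat_lit 265)) (XT.lf (nat_lit 0) (nat_lit 2346742568) (nat_lit 1092) (nat_lit 5151780985) (nat_lit 1176) (nat_lit 1853410815) (nat_lit 195) (nat_lit 5) (nat_lit 208) (nat_lit 5) (nat_lit 209) (nat_lit 5) (nat_lit 346) (nat_lit 335) (nat_lit 264))) (XT.nd (nat_lit 94) (nat_lit 0) (nat_lit 0) (XT.lf (nat_lit 0) (nat_lit 3535287355) (nat_lit 1092) (nat_lit 782736762) (nat_lit 1176) (nat_lit 5160729583) (nat_lit 195) (nat_lit 5) (nat_lit 208) (nat_lit 5) (nat_lit 209) (nat_lit 5) (nat_lit 347) (nat_lit 335) (nat_lit 263)) (XT.lf (nat_lit 84) (nat_lit 3768778452) (nat_lit 0) (nat_lit 996404508) (nat_lit 1176) (nat_lit 4844084363) (nat_lit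 196) (nat_lit 5) (nat_lit 195) (nat_lit 5) (nat_lit 209) (nat_lit 5) (nat_lit 348) (nat_lit 335) (nat_lit 262)))) (XT.nd (nat_lit 188) (nat_lit 1008) (nat_lit 0) (XT.nd (nat_lit 94) (nat_lit 0) (nat_lit 0) (XT.lf (nat_lit 0) (nat_lit 6033488517) (nat_lit 1092) (nat_lit 1316918643) (nat_lit 1176) (nat_lit 2393302586) (nat_lit 196) (nat_lit 5) (nat_lit 209) (nat_lit 5) (nat_lit 210) (nat_lit 5) (nat_lit 349) (nat_lit 335) (nat_lit 261)) (XT.lf (nat_lit 84) (nat_lit 3376085176) (nat_lit 0) (nat_lit 3977165234) (nat_lit 1176) (nat_lit 2528589887) (nat_lit 197) (nat_lit 5) (nat_lit 196) (nat_lit 5) (nat_lit 210) (nat_lit 5) (nat_lit 350) (nat_lit 335) (nat_lit 260))) (XT.nd (nat_lit 94) (nat_lit 1008) (nat_lit 0) (XT.lf (nat_lit 84) (nat_lit 8214805452) (nat_lit 0) (nat_lit 482816718) (nat_lit 1176) (nat_lit 1326997493) (nat_lit 197) (nat_lit 5) (nat_lit 196) (nat_lit 5) (nat_lit 210) (nat_lit 5) (nat_lit 351)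 (nat_lit 335) (nat_lit 259)) (XT.lf (nat_lit 0) (nat_lit 3033888738) (nat_lit 1092) (nat_lit 7080156737) (nat_lit 1176) (nat_lit 56739119) (nat_lit 184) (nat_lit 5) (nat_lit 197) (nat_lit 5) (nat_lit 198) (nat_lit 5) (nat_lit 352) (nat_lit 335) (nat_lit 258))))) (XT.nd (nat_lit 376) (nat_lit 1260) (nat_lit 0) (XT.nd (nat_lit 188) (nat_lit 1260) (nat_lit 0) (XT.nd (nat_lit 94) (nat_lit 1176) (nat_lit 0) (XT.lf (nat_lit 0) (nat_lit 1223309055) (nat_lit 1176) (nat_lit 2300510064) (nat_lit 84) (nat_lit 6797321943) (nat_lit 183) (nat_lit 5) (nat_lit 197) (nat_lit 5) (nat_lit 184) (nat_lit 5) (nat_lit 353) (nat_lit 335) (nat_lit 257)) (XT.lf (nat_lit 0) (nat_lit 2541982321) (nat_lit 1260) (nat_lit 7766451377) (nat_lit 84) (nat_lit 167565982) (nat_lit 169) (nat_lit 5) (nat_lit 184) (nat_lit 5) (nat_lit 170) (nat_lit 5) (nat_lit 354) (nat_lit 335) (nat_lit 256))) (XT.nd (nat_lit 94) (nat_lit 1260) (nat_lit 0) (XT.lf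 (nat_lit 0) (nat_lit 3932819766) (nat_lit 1260) (nat_lit 2775573711) (nat_lit 84) (nat_lit 3926180256) (nat_lit 169) (nat_lit 5) (nat_lit 184) (nat_lit 5) (nat_lit 170) (nat_lit 5) (nat_lit 355) (nat_lit 335) (nat_lit 255)) (XT.lf (nat_lit 0) (nat_lit 2389607815) (nat_lit 1260) (nat_lit 2973748809) (nat_lit 1344) (nat_lit 5434655559) (nat_lit 154) (nat_lit 5) (nat_lit 169) (nat_lit 5) (nat_lit 170) (nat_lit 5) (nat_lit 356) (nat_lit 335) (nat_lit 254)))) (XT.nd (nat_lit 188) (nat_lit 672) (nat_lit 0) (XT.nd (nat_lit 94) (nat_lit 588) (nat_lit 0) (XT.lf (nat_lit 0) (nat_lit 6849053584) (nat_lit 1344) (nat_lit 3230181223) (nat_lit 84) (nat_lit 886796712) (nat_lit 154) (nat_lit 5) (nat_lit 170) (nat_lit 5) (nat_lit 155) (nat_lit 5) (nat_lit 357) (nat_lit 335) (nat_lit 253)) (XT.lf (nat_lit 0) (nat_lit 2092802202) (nat_lit 588) (nat_lit 6312339265) (nat_lit 672) (nat_lit 2733219107) (nat_lit 147) (nat_lit 5) (nat_lit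 154) (nat_lit 5) (nat_lit 155) (nat_lit 5) (nat_lit 358) (nat_lit 335) (nat_lit 252))) (XT.nd (nat_lit 94) (nat_lit 672) (nat_lit 0) (XT.lf (nat_lit 0) (nat_lit 7619924719) (nat_lit 588) (nat_lit 2397347666) (nat_lit 672) (nat_lit 1298348771) (nat_lit 147) (nat_lit 5) (nat_lit 154) (nat_lit 5) (nat_lit 155) (nat_lit 5) (nat_lit 359) (nat_lit 335) (nat_lit 251)) (XT.nd (nat_lit 94) (nat_lit 0) (nat_lit 0) (XT.lf (nat_lit 0) (nat_lit 186701034) (nat_lit 672) (nat_lit 9687307374) (nat_lit 84) (nat_lit 1623860270) (nat_lit 139) (nat_lit 5) (nat_lit 147) (nat_lit 5) (nat_lit 140) (nat_lit 5) (nat_lit 360) (nat_lit 335) (nat_lit 250)) (XT.lf (nat_lit 0) (nat_lit 1729255894) (nat_lit 672) (nat_lit 4185794068) (nat_lit 84) (nat_lit 5769015407) (nat_lit 139) (nat_lit 5) (nat_lit 147) (nat_lit 5) (nat_lit 140) (nat_lit 5) (nat_lit 361) (nat_lit 335) (nat_lit 249))))))))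
noncomputable def xc50 : XT := (XT.nd (nat_lit 57622) (nat_lit 0) (nat_lit 2940) (XT.nd (nat_lit 56870) (nat_lit 0) (nat_lit 7728) (XT.nd (nat_lit 376) (nat_lit 1092) (nat_lit 0) (XT.nd (nat_lit 188) (nat_lit 588) (nat_lit 0) (XT.nd (nat_lit 94) (nat_lit 0) (nat_lit 0) (XT.lf (nat_lit 0) (nat_lit 1488317357) (nat_lit 588) (nat_lit 1822352564) (nat_lit 672) (nat_lit 8565438294) (nat_lit 132) (nat_lit 5) (nat_lit 139) (nat_lit 5) (nat_lit 140) (nat_lit 5) (nat_lit 362) (nat_lit 335) (nat_lit 248)) (XT.lf (nat_lit 0) (nat_lit 4983921629) (nat_lit 672) (nat_lit 4699564883) (nat_lit 84) (nat_lit 2389130608) (nat_lit 132) (nat_lit 5) (nat_lit 140) (nat_lit 5) (nat_lit 133) (nat_lit 5) (nat_lit 363) (nat_lit 335) (nat_lit 247))) (XT.nd (nat_lit 94) (nat_lit 0) (nat_lit 0) (XT.lf (nat_lit 0) (nat_lit 1142238727) (nat_lit 588) (nat_lit 5573479679) (nat_lit 672) (nat_lit 5559088026) (nat_lit 125) (nat_lit 5) (nat_lit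 132) (nat_lit 5) (nat_lit 133) (nat_lit 5) (nat_lit 364) (nat_lit 335) (nat_lit 246)) (XT.lf (nat_lit 0) (nat_lit 7234526650) (nat_lit 588) (nat_lit 1292122663) (nat_lit 672) (nat_lit 3955631231) (nat_lit 125) (nat_lit 5) (nat_lit 132) (nat_lit 5) (nat_lit 133) (nat_lit 5) (nat_lit 365) (nat_lit 335) (nat_lit 245)))) (XT.nd (nat_lit 188) (nat_lit 588) (nat_lit 0) (XT.nd (nat_lit 94) (nat_lit 0) (nat_lit 0) (XT.lf (nat_lit 0) (nat_lit 777703254) (nat_lit 504) (nat_lit 9631956312) (nat_lit 588) (nat_lit 2285820295) (nat_lit 119) (nat_lit 5) (nat_lit 125) (nat_lit 5) (nat_lit 126) (nat_lit 5) (nat_lit 366) (nat_lit 335) (nat_lit 244)) (XT.lf (nat_lit 0) (nat_lit 7057549096) (nat_lit 504) (nat_lit 5337950262) (nat_lit 588) (nat_lit 518218169) (nat_lit 119) (nat_lit 5) (nat_lit 125) (nat_lit 5) (nat_lit 126) (nat_lit 5) (nat_lit 367) (nat_lit 335) (nat_lit 243))) (XT.nd (nat_lit 94) (nat_lit 0) (nat_lit 0) (XT.lf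 (nat_lit 0) (nat_lit 361114581) (nat_lit 504) (nat_lit 900379314) (nat_lit 588) (nat_lit 11877128621) (nat_lit 112) (nat_lit 5) (nat_lit 118) (nat_lit 5) (nat_lit 119) (nat_lit 5) (nat_lit 368) (nat_lit 335) (nat_lit 242)) (XT.lf (nat_lit 0) (nat_lit 3160547260) (nat_lit 588) (nat_lit 6545604333) (nat_lit 84) (nat_lit 3661707951) (nat_lit 112) (nat_lit 5) (nat_lit 119) (nat_lit 5) (nat_lit 113) (nat_lit 5) (nat_lit 369) (nat_lit 335) (nat_lit 241))))) (XT.nd (nat_lit 376) (nat_lit 0) (nat_lit 84) (XT.nd (nat_lit 188) (nat_lit 0) (nat_lit 84) (XT.nd (nat_lit 94) (nat_lit 0) (nat_lit 0) (XT.lf (nat_lit 0) (nat_lit 529743442) (nat_lit 1092) (nat_lit 1827476235) (nat_lit 1092) (nat_lit 1827476235) (nat_lit 204) (nat_lit 3) (nat_lit 217) (nat_lit 3) (nat_lit 217) (nat_lit 5) (nat_lit 336) (nat_lit 336) (nat_lit 273)) (XT.lf (nat_lit 84) (nat_lit 4109807) (nat_lit 0) (nat_lit 2065892199) (nat_lit 1092) (nat_lit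 6393007068) (nat_lit 205) (nat_lit 5) (nat_lit 204) (nat_lit 3) (nat_lit 217) (nat_lit 5) (nat_lit 337) (nat_lit 336) (nat_lit 272))) (XT.nd (nat_lit 94) (nat_lit 0) (nat_lit 0) (XT.lf (nat_lit 0) (nat_lit 3115636921) (nat_lit 1008) (nat_lit 4739050595) (nat_lit 1092) (nat_lit 704684564) (nat_lit 205) (nat_lit 5) (nat_lit 217) (nat_lit 5) (nat_lit 218) (nat_lit 5) (nat_lit 338) (nat_lit 336) (nat_lit 271)) (XT.lf (nat_lit 0) (nat_lit 4175392778) (nat_lit 1008) (nat_lit 949283988) (nat_lit 1092) (nat_lit 3534545654) (nat_lit 205) (nat_lit 5) (nat_lit 217) (nat_lit 5) (nat_lit 218) (nat_lit 5) (nat_lit 339) (nat_lit 336) (nat_lit 270)))) (XT.nd (nat_lit 188) (nat_lit 0) (nat_lit 84) (XT.nd (nat_lit 94) (nat_lit 0) (nat_lit 84) (XT.lf (nat_lit 84) (nat_lit 2991954428) (nat_lit 0) (nat_lit 2267143025) (nat_lit 1092) (nat_lit 3503282830) (nat_lit 206) (nat_lit 5) (nat_lit 205) (nat_lit 5) (nat_lit 218) (nat_lit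 5) (nat_lit 340) (nat_lit 336) (nat_lit 269)) (XT.lf (nat_lit 0) (nat_lit 6355906377) (nat_lit 1008) (nat_lit 1825746930) (nat_lit 1092) (nat_lit 687636247) (nat_lit 206) (nat_lit 5) (nat_lit 218) (nat_lit 5) (nat_lit 219) (nat_lit 5) (nat_lit 341) (nat_lit 336) (nat_lit 268))) (XT.nd (nat_lit 94) (nat_lit 0) (nat_lit 0) (XT.lf (nat_lit 84) (nat_lit 2237420628) (nat_lit 0) (nat_lit 5257602910) (nat_lit 1092) (nat_lit 1484172742) (nat_lit 207) (nat_lit 5) (nat_lit 206) (nat_lit 5) (nat_lit 219) (nat_lit 5) (nat_lit 342) (nat_lit 336) (nat_lit 267)) (XT.lf (nat_lit 84) (nat_lit 6439050846) (nat_lit 0) (nat_lit 2213955208) (nat_lit 1092) (nat_lit 439923588) (nat_lit 207) (nat_lit 5) (nat_lit 206) (nat_lit 5) (nat_lit 219) (nat_lit 5) (nat_lit 343) (nat_lit 336) (nat_lit 266)))))) (XT.nd (nat_lit 752) (nat_lit 3948) (nat_lit 0) (XT.nd (nat_lit 376) (nat_lit 0) (nat_lit 84) (XT.nd (nat_lit 188) (nat_lit 0) (nat_lit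 0) (XT.nd (nat_lit 94) (nat_lit 0) (nat_lit 0) (XT.lf (nat_lit 0) (nat_lit 614271209) (nat_lit 1092) (nat_lit 7659672580) (nat_lit 1176) (nat_lit 936283407) (nat_lit 194) (nat_lit 5) (nat_lit 207) (nat_lit 5) (nat_lit 208) (nat_lit 5) (nat_lit 344) (nat_lit 336) (nat_lit 265)) (XT.lf (nat_lit 0) (nat_lit 1707959132) (nat_lit 1092) (nat_lit 3443176806) (nat_lit 1176) (nat_lit 4179340024) (nat_lit 194) (nat_lit 5) (nat_lit 207) (nat_lit 5) (nat_lit 208) (nat_lit 5) (nat_lit 345) (nat_lit 336) (nat_lit 264))) (XT.nd (nat_lit 94) (nat_lit 0) (nat_lit 84) (XT.lf (nat_lit 84) (nat_lit 896018109) (nat_lit 0) (nat_lit 1915717368) (nat_lit 1176) (nat_lit 6643340742) (nat_lit 195) (nat_lit 5) (nat_lit 194) (nat_lit 5) (nat_lit 208) (nat_lit 5) (nat_lit 346) (nat_lit 336) (nat_lit 263)) (XT.lf (nat_lit 0) (nat_lit 3966824169) (nat_lit 1092) (nat_lit 4182506612) (nat_lit 1176) (nat_lit 1433598279) (nat_lit 195) (nat_lit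 5) (nat_lit 208) (nat_lit 5) (nat_lit 209) (nat_lit 5) (nat_lit 347) (nat_lit 336) (nat_lit 262)))) (XT.nd (nat_lit 188) (nat_lit 0) (nat_lit 84) (XT.nd (nat_lit 94) (nat_lit 0) (nat_lit 0) (XT.lf (nat_lit 84) (nat_lit 290545682) (nat_lit 0) (nat_lit 4858136229) (nat_lit 1176) (nat_lit 4566230864) (nat_lit 196) (nat_lit 5) (nat_lit 195) (nat_lit 5) (nat_lit 209) (nat_lit 5) (nat_lit 348) (nat_lit 336) (nat_lit 261)) (XT.lf (nat_lit 84) (nat_lit 4962239750) (nat_lit 0) (nat_lit 1417005535) (nat_lit 1176) (nat_lit 3471270292) (nat_lit 196) (nat_lit 5) (nat_lit 195) (nat_lit 5) (nat_lit 209) (nat_lit 5) (nat_lit 349) (nat_lit 336) (nat_lit 260))) (XT.nd (nat_lit 94) (nat_lit 0) (nat_lit 0) (XT.lf (nat_lit 0) (nat_lit 7639105895) (nat_lit 1092) (nat_lit 258189849) (nat_lit 1176) (nat_lit 2093174717) (nat_lit 196) (nat_lit 5) (nat_lit 209) (nat_lit 5) (nat_lit 210) (nat_lit 5) (nat_lit 350) (nat_lit 336) (nat_lit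 259)) (XT.lf (nat_lit 84) (nat_lit 4564837061) (nat_lit 0) (nat_lit 4402583429) (nat_lit 1176) (nat_lit 1166337552) (nat_lit 197) (nat_lit 5) (nat_lit 196) (nat_lit 5) (nat_lit 210) (nat_lit 5) (nat_lit 351) (nat_lit 336) (nat_lit 258))))) (XT.nd (nat_lit 376) (nat_lit 1848) (nat_lit 0) (XT.nd (nat_lit 188) (nat_lit 1092) (nat_lit 0) (XT.nd (nat_lit 94) (nat_lit 0) (nat_lit 84) (XT.lf (nat_lit 0) (nat_lit 28841903) (nat_lit 1176) (nat_lit 765355680) (nat_lit 1260) (nat_lit 9487911932) (nat_lit 182) (nat_lit 5) (nat_lit 196) (nat_lit 5) (nat_lit 197) (nat_lit 5) (nat_lit 352) (nat_lit 336) (nat_lit 257)) (XT.lf (nat_lit 0) (nat_lit 1279595008) (nat_lit 1176) (nat_lit 6230245906) (nat_lit 84) (nat_lit 2923478594) (nat_lit 183) (nat_lit 5) (nat_lit 197) (nat_lit 5) (nat_lit 184) (nat_lit 5) (nat_lit 353) (nat_lit 336) (nat_lit 256))) (XT.nd (nat_lit 94) (nat_lit 1176) (nat_lit 0) (XT.lf (nat_lit 0) (nat_lit 2557965512)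 (nat_lit 1176) (nat_lit 1281957354) (nat_lit 84) (nat_lit 6749487888) (nat_lit 183) (nat_lit 5) (nat_lit 197) (nat_lit 5) (nat_lit 184) (nat_lit 5) (nat_lit 354) (nat_lit 336) (nat_lit 255)) (XT.lf (nat_lit 0) (nat_lit 3869483183) (nat_lit 1176) (nat_lit 17571001) (nat_lit 1260) (nat_lit 6862805945) (nat_lit 169) (nat_lit 5) (nat_lit 183) (nat_lit 5) (nat_lit 184) (nat_lit 5) (nat_lit 355) (nat_lit 336) (nat_lit 254)))) (XT.nd (nat_lit 188) (nat_lit 588) (nat_lit 0) (XT.nd (nat_lit 94) (nat_lit 1260) (nat_lit 0) (XT.lf (nat_lit 0) (nat_lit 5282497069) (nat_lit 1260) (nat_lit 1772203181) (nat_lit 84) (nat_lit 3859673342) (nat_lit 169) (nat_lit 5) (nat_lit 184) (nat_lit 5) (nat_lit 170) (nat_lit 5) (nat_lit 356) (nat_lit 336) (nat_lit 253)) (XT.lf (nat_lit 0) (nat_lit 3537280481) (nat_lit 1260) (nat_lit 3193138028) (nat_lit 1344) (nat_lit 4353129232) (nat_lit 154) (nat_lit 5) (nat_lit 169) (nat_lit 5) (nat_lit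 170) (nat_lit 5) (nat_lit 357) (nat_lit 336) (nat_lit 252))) (XT.nd (nat_lit 94) (nat_lit 588) (nat_lit 0) (XT.lf (nat_lit 0) (nat_lit 8224340577) (nat_lit 1344) (nat_lit 2243940467) (nat_lit 84) (nat_lit 789481645) (nat_lit 154) (nat_lit 5) (nat_lit 170) (nat_lit 5) (nat_lit 155) (nat_lit 5) (nat_lit 358) (nat_lit 336) (nat_lit 251)) (XT.nd (nat_lit 94) (nat_lit 0) (nat_lit 0) (XT.lf (nat_lit 0) (nat_lit 3228113380) (nat_lit 588) (nat_lit 6575235210) (nat_lit 672) (nat_lit 1632688677) (nat_lit 147) (nat_lit 5) (nat_lit 154) (nat_lit 5) (nat_lit 155) (nat_lit 5) (nat_lit 359) (nat_lit 336) (nat_lit 250)) (XT.lf (nat_lit 0) (nat_lit 8889810918) (nat_lit 588) (nat_lit 2540652336) (nat_lit 672) (nat_lit 189214765) (nat_lit 147) (nat_lit 5) (nat_lit 154) (nat_lit 5) (nat_lit 155) (nat_lit 5) (nat_lit 360) (nat_lit 336) (nat_lit 249))))))))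
noncomputable def xc51 : XT := (XT.nd (nat_lit 57810) (nat_lit 0) (nat_lit 2856) (XT.nd (nat_lit 752) (nat_lit 504) (nat_lit 0) (XT.nd (nat_lit 376) (nat_lit 1176) (nat_lit 0) (XT.nd (nat_lit 188) (nat_lit 588) (nat_lit 0) (XT.nd (nat_lit 94) (nat_lit 0) (nat_lit 0) (XT.lf (nat_lit 0) (nat_lit 1294880138) (nat_lit 672) (nat_lit 8887244356) (nat_lit 84) (nat_lit 1625687934) (nat_lit 139) (nat_lit 5) (nat_lit 147) (nat_lit 5) (nat_lit 140) (nat_lit 5) (nat_lit 361) (nat_lit 336) (nat_lit 248)) (XT.lf (nat_lit 0) (nat_lit 2851597719) (nat_lit 672) (nat_lit 3252453095) (nat_lit 84) (nat_lit 5896563399) (nat_lit 139) (nat_lit 5) (nat_lit 147) (nat_lit 5) (nat_lit 140) (nat_lit 5) (nat_lit 362) (nat_lit 336) (nat_lit 247))) (XT.nd (nat_lit 94) (nat_lit 0) (nat_lit 0) (XT.lf (nat_lit 0) (nat_lit 2581500155) (nat_lit 588) (nat_lit 1877854587) (nat_lit 672) (nat_lit 7739750736) (nat_lit 132) (nat_lit 5) (nat_lit 139)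 (nat_lit 5) (nat_lit 140) (nat_lit 5) (nat_lit 363) (nat_lit 336) (nat_lit 246)) (XT.lf (nat_lit 0) (nat_lit 6152232221) (nat_lit 672) (nat_lit 3790234109) (nat_lit 84) (nat_lit 2460013048) (nat_lit 132) (nat_lit 5) (nat_lit 140) (nat_lit 5) (nat_lit 133) (nat_lit 5) (nat_lit 364) (nat_lit 336) (nat_lit 245)))) (XT.nd (nat_lit 188) (nat_lit 588) (nat_lit 0) (XT.nd (nat_lit 94) (nat_lit 0) (nat_lit 0) (XT.lf (nat_lit 0) (nat_lit 2216526377) (nat_lit 588) (nat_lit 5699780257) (nat_lit 672) (nat_lit 4695069066) (nat_lit 125) (nat_lit 5) (nat_lit 132) (nat_lit 5) (nat_lit 133) (nat_lit 5) (nat_lit 365) (nat_lit 336) (nat_lit 244)) (XT.lf (nat_lit 0) (nat_lit 8461291079) (nat_lit 588) (nat_lit 1291173904) (nat_lit 672) (nat_lit 3073531624) (nat_lit 125) (nat_lit 5) (nat_lit 132) (nat_lit 5) (nat_lit 133) (nat_lit 5) (nat_lit 366) (nat_lit 336) (nat_lit 243))) (XT.nd (nat_lit 94) (nat_lit 84) (nat_lit 0) (XT.lf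 (nat_lit 0) (nat_lit 1830936543) (nat_lit 504) (nat_lit 9843046773) (nat_lit 588) (nat_lit 1372196167) (nat_lit 119) (nat_lit 5) (nat_lit 125) (nat_lit 5) (nat_lit 126) (nat_lit 5) (nat_lit 367) (nat_lit 336) (nat_lit 242)) (XT.lf (nat_lit 0) (nat_lit 411633968) (nat_lit 588) (nat_lit 5006697883) (nat_lit 84) (nat_lit 7853389944) (nat_lit 118) (nat_lit 5) (nat_lit 125) (nat_lit 5) (nat_lit 119) (nat_lit 5) (nat_lit 368) (nat_lit 336) (nat_lit 241))))) (XT.nd (nat_lit 56588) (nat_lit 0) (nat_lit 6804) (XT.nd (nat_lit 56400) (nat_lit 0) (nat_lit 7728) (XT.nd (nat_lit 56306) (nat_lit 0) (nat_lit 7728) (XT.lf (nat_lit 0) (nat_lit 1381972505) (nat_lit 504) (nat_lit 834825677) (nat_lit 588) (nat_lit 11286991562) (nat_lit 112) (nat_lit 5) (nat_lit 118) (nat_lit 5) (nat_lit 119) (nat_lit 5) (nat_lit 369) (nat_lit 336) (nat_lit 240)) (XT.lf (nat_lit 0) (nat_lit 1530658514) (nat_lit 1092) (nat_lit 1373981345) (nat_lit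 1092) (nat_lit 1373981345) (nat_lit 204) (nat_lit 3) (nat_lit 217) (nat_lit 3) (nat_lit 217) (nat_lit 5) (nat_lit 337) (nat_lit 337) (nat_lit 271))) (XT.nd (nat_lit 94) (nat_lit 0) (nat_lit 0) (XT.lf (nat_lit 84) (nat_lit 1010904412) (nat_lit 0) (nat_lit 3043539965) (nat_lit 1092) (nat_lit 4600775182) (nat_lit 205) (nat_lit 5) (nat_lit 204) (nat_lit 3) (nat_lit 217) (nat_lit 5) (nat_lit 338) (nat_lit 337) (nat_lit 270)) (XT.lf (nat_lit 84) (nat_lit 4919611328) (nat_lit 0) (nat_lit 148730527) (nat_lit 1092) (nat_lit 3688141578) (nat_lit 205) (nat_lit 5) (nat_lit 204) (nat_lit 3) (nat_lit 217) (nat_lit 5) (nat_lit 339) (nat_lit 337) (nat_lit 269)))) (XT.nd (nat_lit 188) (nat_lit 1008) (nat_lit 0) (XT.nd (nat_lit 94) (nat_lit 0) (nat_lit 0) (XT.lf (nat_lit 84) (nat_lit 38305055) (nat_lit 0) (nat_lit 6066412996) (nat_lit 1092) (nat_lit 2756379782) (nat_lit 206) (nat_lit 5) (nat_lit 205) (nat_lit 5) (nat_lit 218)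 (nat_lit 5) (nat_lit 340) (nat_lit 337) (nat_lit 268)) (XT.lf (nat_lit 84) (nat_lit 4087079036) (nat_lit 0) (nat_lit 3090615999) (nat_lit 1092) (nat_lit 1791062641) (nat_lit 206) (nat_lit 5) (nat_lit 205) (nat_lit 5) (nat_lit 218) (nat_lit 5) (nat_lit 341) (nat_lit 337) (nat_lit 267))) (XT.nd (nat_lit 94) (nat_lit 1008) (nat_lit 0) (XT.lf (nat_lit 84) (nat_lit 8238084465) (nat_lit 0) (nat_lit 11093827) (nat_lit 1092) (nat_lit 831549703) (nat_lit 206) (nat_lit 5) (nat_lit 205) (nat_lit 5) (nat_lit 218) (nat_lit 5) (nat_lit 342) (nat_lit 337) (nat_lit 266)) (XT.nd (nat_lit 94) (nat_lit 0) (nat_lit 0) (XT.lf (nat_lit 0) (nat_lit 183767764) (nat_lit 1092) (nat_lit 5864682344) (nat_lit 1176) (nat_lit 3146725939) (nat_lit 193) (nat_lit 5) (nat_lit 206) (nat_lit 5) (nat_lit 207) (nat_lit 5) (nat_lit 343) (nat_lit 337) (nat_lit 265)) (XT.lf (nat_lit 0) (nat_lit 1189347223) (nat_lit 1092) (nat_lit 1695496958) (nat_lit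 1176) (nat_lit 6428735122) (nat_lit 193) (nat_lit 5) (nat_lit 206) (nat_lit 5) (nat_lit 207) (nat_lit 5) (nat_lit 344) (nat_lit 337) (nat_lit 264))))))) (XT.nd (nat_lit 752) (nat_lit 3024) (nat_lit 0) (XT.nd (nat_lit 376) (nat_lit 1008) (nat_lit 0) (XT.nd (nat_lit 188) (nat_lit 0) (nat_lit 0) (XT.nd (nat_lit 94) (nat_lit 0) (nat_lit 0) (XT.lf (nat_lit 0) (nat_lit 2223081057) (nat_lit 1092) (nat_lit 6809410304) (nat_lit 1176) (nat_lit 403166050) (nat_lit 194) (nat_lit 5) (nat_lit 207) (nat_lit 5) (nat_lit 208) (nat_lit 5) (nat_lit 345) (nat_lit 337) (nat_lit 263)) (XT.lf (nat_lit 0) (nat_lit 3303257821) (nat_lit 1092) (nat_lit 2497877495) (nat_lit 1176) (nat_lit 3759860167) (nat_lit 194) (nat_lit 5) (nat_lit 207) (nat_lit 5) (nat_lit 208) (nat_lit 5) (nat_lit 346) (nat_lit 337) (nat_lit 262))) (XT.nd (nat_lit 94) (nat_lit 0) (nat_lit 84) (XT.lf (nat_lit 84) (nat_lit 1961212928) (nat_lit 0) (nat_lit 2443942821)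 (nat_lit 1176) (nat_lit 5285317253) (nat_lit 195) (nat_lit 5) (nat_lit 194) (nat_lit 5) (nat_lit 208) (nat_lit 5) (nat_lit 347) (nat_lit 337) (nat_lit 261)) (XT.lf (nat_lit 0) (nat_lit 5546550284) (nat_lit 1092) (nat_lit 3248666320) (nat_lit 1176) (nat_lit 1028482123) (nat_lit 195) (nat_lit 5) (nat_lit 208) (nat_lit 5) (nat_lit 209) (nat_lit 5) (nat_lit 348) (nat_lit 337) (nat_lit 260)))) (XT.nd (nat_lit 188) (nat_lit 1092) (nat_lit 0) (XT.nd (nat_lit 94) (nat_lit 0) (nat_lit 0) (XT.lf (nat_lit 84) (nat_lit 1348192096) (nat_lit 0) (nat_lit 5383209337) (nat_lit 1176) (nat_lit 3229298759) (nat_lit 196) (nat_lit 5) (nat_lit 195) (nat_lit 5) (nat_lit 209) (nat_lit 5) (nat_lit 349) (nat_lit 337) (nat_lit 259)) (XT.lf (nat_lit 84) (nat_lit 6129485626) (nat_lit 0) (nat_lit 1827796304) (nat_lit 1176) (nat_lit 2144419050) (nat_lit 196) (nat_lit 5) (nat_lit 195) (nat_lit 5) (nat_lit 209) (nat_lit 5) (nat_lit 350) (nat_lit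 337) (nat_lit 258))) (XT.nd (nat_lit 94) (nat_lit 1176) (nat_lit 0) (XT.lf (nat_lit 84) (nat_lit 784567281) (nat_lit 0) (nat_lit 8434087655) (nat_lit 1176) (nat_lit 1028367600) (nat_lit 197) (nat_lit 5) (nat_lit 196) (nat_lit 5) (nat_lit 210) (nat_lit 5) (nat_lit 351) (nat_lit 337) (nat_lit 257)) (XT.lf (nat_lit 0) (nat_lit 151219391) (nat_lit 1176) (nat_lit 4670446182) (nat_lit 1260) (nat_lit 5574079904) (nat_lit 182) (nat_lit 5) (nat_lit 196) (nat_lit 5) (nat_lit 197) (nat_lit 5) (nat_lit 352) (nat_lit 337) (nat_lit 256))))) (XT.nd (nat_lit 376) (nat_lit 1932) (nat_lit 0) (XT.nd (nat_lit 188) (nat_lit 1092) (nat_lit 0) (XT.nd (nat_lit 94) (nat_lit 0) (nat_lit 84) (XT.lf (nat_lit 84) (nat_lit 239655861) (nat_lit 0) (nat_lit 1082748066) (nat_lit 1260) (nat_lit 9226962146) (nat_lit 183) (nat_lit 5) (nat_lit 182) (nat_lit 5) (nat_lit 197) (nat_lit 5) (nat_lit 353) (nat_lit 337) (nat_lit 255)) (XT.lf (nat_lit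 0) (nat_lit 2578135466) (nat_lit 1176) (nat_lit 5361262010) (nat_lit 84) (nat_lit 2766761871) (nat_lit 183) (nat_lit 5) (nat_lit 197) (nat_lit 5) (nat_lit 184) (nat_lit 5) (nat_lit 354) (nat_lit 337) (nat_lit 254))) (XT.nd (nat_lit 94) (nat_lit 1176) (nat_lit 0) (XT.lf (nat_lit 0) (nat_lit 3858153611) (nat_lit 1176) (nat_lit 295278916) (nat_lit 84) (nat_lit 6714670504) (nat_lit 183) (nat_lit 5) (nat_lit 197) (nat_lit 5) (nat_lit 184) (nat_lit 5) (nat_lit 355) (nat_lit 337) (nat_lit 253)) (XT.lf (nat_lit 0) (nat_lit 5000654473) (nat_lit 1176) (nat_lit 200583665) (nat_lit 1260) (nat_lit 5832970653) (nat_lit 169) (nat_lit 5) (nat_lit 183) (nat_lit 5) (nat_lit 184) (nat_lit 5) (nat_lit 356) (nat_lit 337) (nat_lit 252)))) (XT.nd (nat_lit 188) (nat_lit 672) (nat_lit 0) (XT.nd (nat_lit 94) (nat_lit 1260) (nat_lit 0) (XT.lf (nat_lit 0) (nat_lit 6601960491) (nat_lit 1260) (nat_lit 801108986) (nat_lit 84) (nat_lit 3801750355)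 (nat_lit 169) (nat_lit 5) (nat_lit 184) (nat_lit 5) (nat_lit 170) (nat_lit 5) (nat_lit 357) (nat_lit 337) (nat_lit 251)) (XT.lf (nat_lit 0) (nat_lit 4657617418) (nat_lit 1260) (nat_lit 3411636245) (nat_lit 1344) (nat_lit 3310600294) (nat_lit 154) (nat_lit 5) (nat_lit 169) (nat_lit 5) (nat_lit 170) (nat_lit 5) (nat_lit 358) (nat_lit 337) (nat_lit 250))) (XT.nd (nat_lit 94) (nat_lit 672) (nat_lit 0) (XT.lf (nat_lit 0) (nat_lit 9573733992) (nat_lit 1344) (nat_lit 1290289512) (nat_lit 84) (nat_lit 696360582) (nat_lit 154) (nat_lit 5) (nat_lit 170) (nat_lit 5) (nat_lit 155) (nat_lit 5) (nat_lit 359) (nat_lit 337) (nat_lit 249)) (XT.nd (nat_lit 94) (nat_lit 84) (nat_lit 0) (XT.lf (nat_lit 0) (nat_lit 4335916450) (nat_lit 588) (nat_lit 6841797355) (nat_lit 672) (nat_lit 567024222) (nat_lit 147) (nat_lit 5) (nat_lit 154) (nat_lit 5) (nat_lit 155) (nat_lit 5) (nat_lit 360) (nat_lit 337) (nat_lit 248)) (XT.lf (nat_lit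 0) (nat_lit 869974320) (nat_lit 672) (nat_lit 1805399045) (nat_lit 84) (nat_lit 9259260132) (nat_lit 146) (nat_lit 5) (nat_lit 154) (nat_lit 5) (nat_lit 147) (nat_lit 5) (nat_lit 361) (nat_lit 337) (nat_lit 247))))))))
noncomputable def xc52 : XT := (XT.nd (nat_lit 57904) (nat_lit 0) (nat_lit 1680) (XT.nd (nat_lit 57152) (nat_lit 0) (nat_lit 6132) (XT.nd (nat_lit 376) (nat_lit 1092) (nat_lit 0) (XT.nd (nat_lit 188) (nat_lit 588) (nat_lit 0) (XT.nd (nat_lit 94) (nat_lit 0) (nat_lit 0) (XT.lf (nat_lit 0) (nat_lit 2373012123) (nat_lit 672) (nat_lit 8125789070) (nat_lit 84) (nat_lit 1630262000) (nat_lit 139) (nat_lit 5) (nat_lit 147) (nat_lit 5) (nat_lit 140) (nat_lit 5) (nat_lit 362) (nat_lit 337) (nat_lit 246)) (XT.lf (nat_lit 0) (nat_lit 3946160777) (nat_lit 672) (nat_lit 2351897934) (nat_lit 84) (nat_lit 6030551007) (nat_lit 139) (nat_lit 5) (nat_lit 147) (nat_lit 5) (nat_lit 140) (nat_lit 5) (nat_lit 363)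 (nat_lit 337) (nat_lit 245))) (XT.nd (nat_lit 94) (nat_lit 0) (nat_lit 0) (XT.lf (nat_lit 0) (nat_lit 3647288337) (nat_lit 588) (nat_lit 1934973944) (nat_lit 672) (nat_lit 6951441131) (nat_lit 132) (nat_lit 5) (nat_lit 139) (nat_lit 5) (nat_lit 140) (nat_lit 5) (nat_lit 364) (nat_lit 337) (nat_lit 244)) (XT.lf (nat_lit 0) (nat_lit 7297109249) (nat_lit 672) (nat_lit 2913915945) (nat_lit 84) (nat_lit 2533067396) (nat_lit 132) (nat_lit 5) (nat_lit 140) (nat_lit 5) (nat_lit 133) (nat_lit 5) (nat_lit 365) (nat_lit 337) (nat_lit 243)))) (XT.nd (nat_lit 188) (nat_lit 504) (nat_lit 0) (XT.nd (nat_lit 94) (nat_lit 0) (nat_lit 0) (XT.lf (nat_lit 0) (nat_lit 3263341226) (nat_lit 588) (nat_lit 5832217898) (nat_lit 672) (nat_lit 3864301193) (nat_lit 125) (nat_lit 5) (nat_lit 132) (nat_lit 5) (nat_lit 133) (nat_lit 5) (nat_lit 366) (nat_lit 337) (nat_lit 242)) (XT.lf (nat_lit 0) (nat_lit 9666895886) (nat_lit 588) (nat_lit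 1292476339) (nat_lit 672) (nat_lit 2222417237) (nat_lit 125) (nat_lit 5) (nat_lit 132) (nat_lit 5) (nat_lit 133) (nat_lit 5) (nat_lit 367) (nat_lit 337) (nat_lit 241))) (XT.nd (nat_lit 56494) (nat_lit 0) (nat_lit 7140) (XT.lf (nat_lit 0) (nat_lit 2856646232) (nat_lit 504) (nat_lit 10064939902) (nat_lit 588) (nat_lit 487545540) (nat_lit 119) (nat_lit 5) (nat_lit 125) (nat_lit 5) (nat_lit 126) (nat_lit 5) (nat_lit 368) (nat_lit 337) (nat_lit 240)) (XT.lf (nat_lit 0) (nat_lit 2505056702) (nat_lit 1092) (nat_lit 936061209) (nat_lit 1092) (nat_lit 936061209) (nat_lit 204) (nat_lit 3) (nat_lit 217) (nat_lit 3) (nat_lit 217) (nat_lit 5) (nat_lit 338) (nat_lit 338) (nat_lit 269))))) (XT.nd (nat_lit 376) (nat_lit 1008) (nat_lit 0) (XT.nd (nat_lit 188) (nat_lit 0) (nat_lit 84) (XT.nd (nat_lit 94) (nat_lit 0) (nat_lit 0) (XT.lf (nat_lit 84) (nat_lit 1990115804) (nat_lit 0) (nat_lit 3997953904) (nat_lit 1092) (nat_lit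 2868667324) (nat_lit 205) (nat_lit 5) (nat_lit 204) (nat_lit 3) (nat_lit 217) (nat_lit 5) (nat_lit 339) (nat_lit 338) (nat_lit 268)) (XT.lf (nat_lit 84) (nat_lit 5988446521) (nat_lit 0) (nat_lit 991161121) (nat_lit 1092) (nat_lit 1983124551) (nat_lit 205) (nat_lit 5) (nat_lit 204) (nat_lit 3) (nat_lit 217) (nat_lit 5) (nat_lit 340) (nat_lit 338) (nat_lit 267))) (XT.nd (nat_lit 94) (nat_lit 0) (nat_lit 0) (XT.lf (nat_lit 84) (nat_lit 1015537678) (nat_lit 0) (nat_lit 6981860418) (nat_lit 1092) (nat_lit 1074684113) (nat_lit 206) (nat_lit 5) (nat_lit 205) (nat_lit 5) (nat_lit 218) (nat_lit 5) (nat_lit 341) (nat_lit 338) (nat_lit 266)) (XT.lf (nat_lit 84) (nat_lit 5157345263) (nat_lit 0) (nat_lit 3895426742) (nat_lit 1092) (nat_lit 131797372) (nat_lit 206) (nat_lit 5) (nat_lit 205) (nat_lit 5) (nat_lit 218) (nat_lit 5) (nat_lit 342) (nat_lit 338) (nat_lit 265)))) (XT.nd (nat_lit 188) (nat_lit 0) (nat_lit 84) (XT.nd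 (nat_lit 94) (nat_lit 0) (nat_lit 84) (XT.lf (nat_lit 84) (nat_lit 97987967) (nat_lit 0) (nat_lit 693821960) (nat_lit 1176) (nat_lit 8509379014) (nat_lit 193) (nat_lit 5) (nat_lit 192) (nat_lit 5) (nat_lit 206) (nat_lit 5) (nat_lit 343) (nat_lit 338) (nat_lit 264)) (XT.lf (nat_lit 0) (nat_lit 1775325934) (nat_lit 1092) (nat_lit 5037086383) (nat_lit 1176) (nat_lit 2607872506) (nat_lit 193) (nat_lit 5) (nat_lit 206) (nat_lit 5) (nat_lit 207) (nat_lit 5) (nat_lit 344) (nat_lit 338) (nat_lit 263))) (XT.nd (nat_lit 94) (nat_lit 0) (nat_lit 0) (XT.lf (nat_lit 0) (nat_lit 2764877288) (nat_lit 1092) (nat_lit 772054653) (nat_lit 1176) (nat_lit 6006786291) (nat_lit 193) (nat_lit 5) (nat_lit 206) (nat_lit 5) (nat_lit 207) (nat_lit 5) (nat_lit 345) (nat_lit 338) (nat_lit 262)) (XT.lf (nat_lit 84) (nat_lit 3673983026) (nat_lit 0) (nat_lit 115992751) (nat_lit 1176) (nat_lit 5880761830) (nat_lit 194) (nat_lit 5) (nat_lit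 193) (nat_lit 5) (nat_lit 207) (nat_lit 5) (nat_lit 346) (nat_lit 338) (nat_lit 261)))))) (XT.nd (nat_lit 752) (nat_lit 3612) (nat_lit 0) (XT.nd (nat_lit 376) (nat_lit 1008) (nat_lit 0) (XT.nd (nat_lit 188) (nat_lit 0) (nat_lit 84) (XT.nd (nat_lit 94) (nat_lit 0) (nat_lit 0) (XT.lf (nat_lit 0) (nat_lit 4857780114) (nat_lit 1092) (nat_lit 1584412825) (nat_lit 1176) (nat_lit 3359073110) (nat_lit 194) (nat_lit 5) (nat_lit 207) (nat_lit 5) (nat_lit 208) (nat_lit 5) (nat_lit 347) (nat_lit 338) (nat_lit 260)) (XT.lf (nat_lit 84) (nat_lit 2998760105) (nat_lit 0) (nat_lit 2960991835) (nat_lit 1176) (nat_lit 3975949811) (nat_lit 195) (nat_lit 5) (nat_lit 194) (nat_lit 5) (nat_lit 208) (nat_lit 5) (nat_lit 348) (nat_lit 338) (nat_lit 259))) (XT.nd (nat_lit 94) (nat_lit 0) (nat_lit 0) (XT.lf (nat_lit 0) (nat_lit 7089816800) (nat_lit 1092) (nat_lit 2347619863) (nat_lit 1176) (nat_lit 636936640) (nat_lit 195) (nat_lit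 5) (nat_lit 208) (nat_lit 5) (nat_lit 209) (nat_lit 5) (nat_lit 349) (nat_lit 338) (nat_lit 258)) (XT.lf (nat_lit 84) (nat_lit 2377355027) (nat_lit 0) (nat_lit 5902259601) (nat_lit 1176) (nat_lit 1936867672) (nat_lit 196) (nat_lit 5) (nat_lit 195) (nat_lit 5) (nat_lit 209) (nat_lit 5) (nat_lit 350) (nat_lit 338) (nat_lit 257)))) (XT.nd (nat_lit 188) (nat_lit 0) (nat_lit 0) (XT.nd (nat_lit 94) (nat_lit 1092) (nat_lit 0) (XT.lf (nat_lit 84) (nat_lit 7273289775) (nat_lit 0) (nat_lit 2229769983) (nat_lit 1176) (nat_lit 859906913) (nat_lit 196) (nat_lit 5) (nat_lit 195) (nat_lit 5) (nat_lit 209) (nat_lit 5) (nat_lit 351) (nat_lit 338) (nat_lit 256)) (XT.lf (nat_lit 0) (nat_lit 251843590) (nat_lit 1176) (nat_lit 8712851393) (nat_lit 1260) (nat_lit 1548906070) (nat_lit 182) (nat_lit 5) (nat_lit 196) (nat_lit 5) (nat_lit 197) (nat_lit 5) (nat_lit 352) (nat_lit 338) (nat_lit 255))) (XT.nd (nat_lit 94) (nat_lit 0) (nat_lit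 0) (XT.lf (nat_lit 0) (nat_lit 1408564757) (nat_lit 1176) (nat_lit 3817068633) (nat_lit 1260) (nat_lit 5442045019) (nat_lit 182) (nat_lit 5) (nat_lit 196) (nat_lit 5) (nat_lit 197) (nat_lit 5) (nat_lit 353) (nat_lit 338) (nat_lit 254)) (XT.lf (nat_lit 84) (nat_lit 1230596364) (nat_lit 0) (nat_lit 1357255304) (nat_lit 1260) (nat_lit 8238935546) (nat_lit 183) (nat_lit 5) (nat_lit 182) (nat_lit 5) (nat_lit 197) (nat_lit 5) (nat_lit 354) (nat_lit 338) (nat_lit 253))))) (XT.nd (nat_lit 376) (nat_lit 1260) (nat_lit 0) (XT.nd (nat_lit 188) (nat_lit 1260) (nat_lit 0) (XT.nd (nat_lit 94) (nat_lit 1176) (nat_lit 0) (XT.lf (nat_lit 0) (nat_lit 3843294222) (nat_lit 1176) (nat_lit 4526821076) (nat_lit 84) (nat_lit 2619374416) (nat_lit 183) (nat_lit 5) (nat_lit 197) (nat_lit 5) (nat_lit 184) (nat_lit 5) (nat_lit 355) (nat_lit 338) (nat_lit 252)) (XT.lf (nat_lit 0) (nat_lit 675330946) (nat_lit 1176) (nat_lit 4458277114)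 (nat_lit 1260) (nat_lit 6023591453) (nat_lit 169) (nat_lit 5) (nat_lit 183) (nat_lit 5) (nat_lit 184) (nat_lit 5) (nat_lit 356) (nat_lit 338) (nat_lit 251))) (XT.nd (nat_lit 94) (nat_lit 1260) (nat_lit 0) (XT.lf (nat_lit 0) (nat_lit 6107490767) (nat_lit 1176) (nat_lit 378611292) (nat_lit 1260) (nat_lit 4843175656) (nat_lit 169) (nat_lit 5) (nat_lit 183) (nat_lit 5) (nat_lit 184) (nat_lit 5) (nat_lit 357) (nat_lit 338) (nat_lit 250)) (XT.lf (nat_lit 0) (nat_lit 143113973) (nat_lit 1260) (nat_lit 7752624051) (nat_lit 1344) (nat_lit 3610323251) (nat_lit 154) (nat_lit 5) (nat_lit 169) (nat_lit 5) (nat_lit 170) (nat_lit 5) (nat_lit 358) (nat_lit 338) (nat_lit 249)))) (XT.nd (nat_lit 188) (nat_lit 1260) (nat_lit 0) (XT.nd (nat_lit 94) (nat_lit 0) (nat_lit 0) (XT.lf (nat_lit 0) (nat_lit 5753344171) (nat_lit 1260) (nat_lit 3629645693) (nat_lit 1344) (nat_lit 2304137537) (nat_lit 154) (nat_lit 5) (nat_lit 169) (nat_lit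 5) (nat_lit 170) (nat_lit 5) (nat_lit 359) (nat_lit 338) (nat_lit 248)) (XT.lf (nat_lit 0) (nat_lit 10900311830) (nat_lit 1344) (nat_lit 366636834) (nat_lit 84) (nat_lit 607151001) (nat_lit 154) (nat_lit 5) (nat_lit 170) (nat_lit 5) (nat_lit 155) (nat_lit 5) (nat_lit 360) (nat_lit 338) (nat_lit 247))) (XT.nd (nat_lit 94) (nat_lit 588) (nat_lit 0) (XT.lf (nat_lit 0) (nat_lit 457519442) (nat_lit 672) (nat_lit 6650238476) (nat_lit 84) (nat_lit 4956780898) (nat_lit 146) (nat_lit 5) (nat_lit 154) (nat_lit 5) (nat_lit 147) (nat_lit 5) (nat_lit 361) (nat_lit 338) (nat_lit 246)) (XT.nd (nat_lit 94) (nat_lit 588) (nat_lit 0) (XT.lf (nat_lit 0) (nat_lit 1896226720) (nat_lit 672) (nat_lit 912732232) (nat_lit 84) (nat_lit 9451956486) (nat_lit 146) (nat_lit 5) (nat_lit 154) (nat_lit 5) (nat_lit 147) (nat_lit 5) (nat_lit 362) (nat_lit 338) (nat_lit 245)) (XT.lf (nat_lit 0) (nat_lit 3423828824) (nat_lit 672) (nat_lit 7400505700)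 (nat_lit 84) (nat_lit 1637510351) (nat_lit 139) (nat_lit 5) (nat_lit 147) (nat_lit 5) (nat_lit 140) (nat_lit 5) (nat_lit 363) (nat_lit 338) (nat_lit 244))))))))
noncomputable def xc53 : XT := (XT.nd (nat_lit 58092) (nat_lit 0) (nat_lit 588) (XT.nd (nat_lit 57246) (nat_lit 0) (nat_lit 5628) (XT.nd (nat_lit 376) (nat_lit 0) (nat_lit 0) (XT.nd (nat_lit 188) (nat_lit 588) (nat_lit 0) (XT.nd (nat_lit 94) (nat_lit 588) (nat_lit 0) (XT.lf (nat_lit 0) (nat_lit 5015639132) (nat_lit 672) (nat_lit 1481622792) (nat_lit 84) (nat_lit 6171021412) (nat_lit 139) (nat_lit 5) (nat_lit 147) (nat_lit 5) (nat_lit 140) (nat_lit 5) (nat_lit 364) (nat_lit 338) (nat_lit 243)) (XT.lf (nat_lit 0) (nat_lit 4688315223) (nat_lit 588) (nat_lit 1993761892) (nat_lit 672) (nat_lit 6198063235) (nat_lit 132) (nat_lit 5) (nat_lit 139) (nat_lit 5) (nat_lit 140) (nat_lit 5) (nat_lit 365) (nat_lit 338) (nat_lit 242))) (XT.nd (nat_lit 94) (nat_lit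 588) (nat_lit 0) (XT.lf (nat_lit 0) (nat_lit 8421206861) (nat_lit 672) (nat_lit 2068139733) (nat_lit 84) (nat_lit 2608356199) (nat_lit 132) (nat_lit 5) (nat_lit 140) (nat_lit 5) (nat_lit 133) (nat_lit 5) (nat_lit 366) (nat_lit 338) (nat_lit 241)) (XT.lf (nat_lit 0) (nat_lit 4285286196) (nat_lit 588) (nat_lit 5970841928) (nat_lit 672) (nat_lit 3064385243) (nat_lit 125) (nat_lit 5) (nat_lit 132) (nat_lit 5) (nat_lit 133) (nat_lit 5) (nat_lit 367) (nat_lit 338) (nat_lit 240)))) (XT.nd (nat_lit 56682) (nat_lit 0) (nat_lit 6636) (XT.nd (nat_lit 56588) (nat_lit 0) (nat_lit 6636) (XT.lf (nat_lit 0) (nat_lit 10854033572) (nat_lit 588) (nat_lit 1295966641) (nat_lit 672) (nat_lit 1399919865) (nat_lit 125) (nat_lit 5) (nat_lit 132) (nat_lit 5) (nat_lit 133) (nat_lit 5) (nat_lit 368) (nat_lit 338) (nat_lit 239)) (XT.lf (nat_lit 0) (nat_lit 3455388376) (nat_lit 1092) (nat_lit 512508040) (nat_lit 1092) (nat_lit 512508040)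 (nat_lit 204) (nat_lit 3) (nat_lit 217) (nat_lit 3) (nat_lit 217) (nat_lit 5) (nat_lit 339) (nat_lit 339) (nat_lit 267))) (XT.nd (nat_lit 94) (nat_lit 0) (nat_lit 0) (XT.lf (nat_lit 84) (nat_lit 2944233699) (nat_lit 0) (nat_lit 4931454345) (nat_lit 1092) (nat_lit 1191949407) (nat_lit 205) (nat_lit 5) (nat_lit 204) (nat_lit 3) (nat_lit 217) (nat_lit 5) (nat_lit 340) (nat_lit 339) (nat_lit 266)) (XT.lf (nat_lit 84) (nat_lit 7036463433) (nat_lit 0) (nat_lit 1810761803) (nat_lit 1092) (nat_lit 331183397) (nat_lit 205) (nat_lit 5) (nat_lit 204) (nat_lit 3) (nat_lit 217) (nat_lit 5) (nat_lit 341) (nat_lit 339) (nat_lit 265))))) (XT.nd (nat_lit 376) (nat_lit 0) (nat_lit 84) (XT.nd (nat_lit 188) (nat_lit 0) (nat_lit 0) (XT.nd (nat_lit 94) (nat_lit 0) (nat_lit 0) (XT.lf (nat_lit 0) (nat_lit 545326326) (nat_lit 1092) (nat_lit 7331834889) (nat_lit 1176) (nat_lit 1415223041) (nat_lit 192) (nat_lit 5) (nat_lit 205) (nat_lit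 5) (nat_lit 206) (nat_lit 5) (nat_lit 342) (nat_lit 339) (nat_lit 264)) (XT.lf (nat_lit 0) (nat_lit 1450053893) (nat_lit 1092) (nat_lit 3218808205) (nat_lit 1176) (nat_lit 4740623673) (nat_lit 192) (nat_lit 5) (nat_lit 205) (nat_lit 5) (nat_lit 206) (nat_lit 5) (nat_lit 343) (nat_lit 339) (nat_lit 263))) (XT.nd (nat_lit 94) (nat_lit 0) (nat_lit 84) (XT.lf (nat_lit 84) (nat_lit 1019757986) (nat_lit 0) (nat_lit 1341683445) (nat_lit 1176) (nat_lit 7169333901) (nat_lit 193) (nat_lit 5) (nat_lit 192) (nat_lit 5) (nat_lit 206) (nat_lit 5) (nat_lit 344) (nat_lit 339) (nat_lit 262)) (XT.lf (nat_lit 0) (nat_lit 3323585370) (nat_lit 1092) (nat_lit 4242269640) (nat_lit 1176) (nat_lit 2089204910) (nat_lit 193) (nat_lit 5) (nat_lit 206) (nat_lit 5) (nat_lit 207) (nat_lit 5) (nat_lit 345) (nat_lit 339) (nat_lit 261)))) (XT.nd (nat_lit 188) (nat_lit 0) (nat_lit 84) (XT.nd (nat_lit 94) (nat_lit 0) (nat_lit 0) (XT.lf (nat_lit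 84) (nat_lit 125612861) (nat_lit 0) (nat_lit 4174874192) (nat_lit 1176) (nat_lit 5483066262) (nat_lit 194) (nat_lit 5) (nat_lit 193) (nat_lit 5) (nat_lit 207) (nat_lit 5) (nat_lit 346) (nat_lit 339) (nat_lit 260)) (XT.lf (nat_lit 84) (nat_lit 4693576806) (nat_lit 0) (nat_lit 628020269) (nat_lit 1176) (nat_lit 4593912806) (nat_lit 194) (nat_lit 5) (nat_lit 193) (nat_lit 5) (nat_lit 207) (nat_lit 5) (nat_lit 347) (nat_lit 339) (nat_lit 259))) (XT.nd (nat_lit 94) (nat_lit 0) (nat_lit 0) (XT.lf (nat_lit 0) (nat_lit 6375390752) (nat_lit 1092) (nat_lit 700282475) (nat_lit 1176) (nat_lit 2975744200) (nat_lit 194) (nat_lit 5) (nat_lit 207) (nat_lit 5) (nat_lit 208) (nat_lit 5) (nat_lit 348) (nat_lit 339) (nat_lit 258)) (XT.nd (nat_lit 94) (nat_lit 0) (nat_lit 84) (XT.lf (nat_lit 84) (nat_lit 4011251694) (nat_lit 0) (nat_lit 3468080361) (nat_lit 1176) (nat_lit 2711566359) (nat_lit 195) (nat_lit 5) (nat_lit 194) (nat_lit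 5) (nat_lit 208) (nat_lit 5) (nat_lit 349) (nat_lit 339) (nat_lit 257)) (XT.lf (nat_lit 0) (nat_lit 8600343341) (nat_lit 1092) (nat_lit 1476860367) (nat_lit 1176) (nat_lit 257892278) (nat_lit 195) (nat_lit 5) (nat_lit 208) (nat_lit 5) (nat_lit 209) (nat_lit 5) (nat_lit 350) (nat_lit 339) (nat_lit 256))))))) (XT.nd (nat_lit 752) (nat_lit 3108) (nat_lit 0) (XT.nd (nat_lit 376) (nat_lit 1008) (nat_lit 0) (XT.nd (nat_lit 188) (nat_lit 0) (nat_lit 84) (XT.nd (nat_lit 94) (nat_lit 1176) (nat_lit 0) (XT.lf (nat_lit 84) (nat_lit 3380636436) (nat_lit 0) (nat_lit 6416356311) (nat_lit 1176) (nat_lit 685415733) (nat_lit 196) (nat_lit 5) (nat_lit 195) (nat_lit 5) (nat_lit 209) (nat_lit 5) (nat_lit 351) (nat_lit 339) (nat_lit 255)) (XT.lf (nat_lit 0) (nat_lit 378184765) (nat_lit 1176) (nat_lit 2241871939) (nat_lit 1260) (nat_lit 8014301049) (nat_lit 181) (nat_lit 5) (nat_lit 195) (nat_lit 5) (nat_lit 196) (nat_lit 5) (nat_lit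 352) (nat_lit 339) (nat_lit 254))) (XT.nd (nat_lit 94) (nat_lit 0) (nat_lit 0) (XT.lf (nat_lit 0) (nat_lit 1475718107) (nat_lit 1176) (nat_lit 8009682629) (nat_lit 1260) (nat_lit 1304832201) (nat_lit 182) (nat_lit 5) (nat_lit 196) (nat_lit 5) (nat_lit 197) (nat_lit 5) (nat_lit 353) (nat_lit 339) (nat_lit 253)) (XT.lf (nat_lit 0) (nat_lit 2631714136) (nat_lit 1176) (nat_lit 2995120201) (nat_lit 1260) (nat_lit 5323227679) (nat_lit 182) (nat_lit 5) (nat_lit 196) (nat_lit 5) (nat_lit 197) (nat_lit 5) (nat_lit 354) (nat_lit 339) (nat_lit 252)))) (XT.nd (nat_lit 188) (nat_lit 1092) (nat_lit 0) (XT.nd (nat_lit 94) (nat_lit 0) (nat_lit 84) (XT.lf (nat_lit 84) (nat_lit 2194793761) (nat_lit 0) (nat_lit 1626104546) (nat_lit 1260) (nat_lit 7293874878) (nat_lit 183) (nat_lit 5) (nat_lit 182) (nat_lit 5) (nat_lit 197) (nat_lit 5) (nat_lit 355) (nat_lit 339) (nat_lit 251)) (XT.lf (nat_lit 0) (nat_lit 5078222319) (nat_lit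 1176) (nat_lit 3724479988) (nat_lit 84) (nat_lit 2480790683) (nat_lit 183) (nat_lit 5) (nat_lit 197) (nat_lit 5) (nat_lit 184) (nat_lit 5) (nat_lit 356) (nat_lit 339) (nat_lit 250))) (XT.nd (nat_lit 94) (nat_lit 0) (nat_lit 0) (XT.lf (nat_lit 0) (nat_lit 1624539088) (nat_lit 1176) (nat_lit 4759025542) (nat_lit 1260) (nat_lit 5073440830) (nat_lit 169) (nat_lit 5) (nat_lit 183) (nat_lit 5) (nat_lit 184) (nat_lit 5) (nat_lit 357) (nat_lit 339) (nat_lit 249)) (XT.lf (nat_lit 0) (nat_lit 7192606959) (nat_lit 1176) (nat_lit 552105664) (nat_lit 1260) (nat_lit 3890550181) (nat_lit 169) (nat_lit 5) (nat_lit 183) (nat_lit 5) (nat_lit 184) (nat_lit 5) (nat_lit 358) (nat_lit 339) (nat_lit 248))))) (XT.nd (nat_lit 376) (nat_lit 1176) (nat_lit 0) (XT.nd (nat_lit 188) (nat_lit 672) (nat_lit 0) (XT.nd (nat_lit 94) (nat_lit 0) (nat_lit 0) (XT.lf (nat_lit 0) (nat_lit 1075561014) (nat_lit 1260) (nat_lit 8097494385) (nat_lit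 1344) (nat_lit 2645059390) (nat_lit 154) (nat_lit 5) (nat_lit 169) (nat_lit 5) (nat_lit 170) (nat_lit 5) (nat_lit 359) (nat_lit 339) (nat_lit 247)) (XT.lf (nat_lit 0) (nat_lit 6827064518) (nat_lit 1260) (nat_lit 3847556047) (nat_lit 1344) (nat_lit 1330957237) (nat_lit 154) (nat_lit 5) (nat_lit 169) (nat_lit 5) (nat_lit 170) (nat_lit 5) (nat_lit 360) (nat_lit 339) (nat_lit 246))) (XT.nd (nat_lit 94) (nat_lit 0) (nat_lit 0) (XT.lf (nat_lit 0) (nat_lit 12984901) (nat_lit 672) (nat_lit 11659078457) (nat_lit 84) (nat_lit 526903648) (nat_lit 146) (nat_lit 5) (nat_lit 154) (nat_lit 5) (nat_lit 147) (nat_lit 5) (nat_lit 361) (nat_lit 339) (nat_lit 245)) (XT.lf (nat_lit 0) (nat_lit 1442267522) (nat_lit 672) (nat_lit 5930494384) (nat_lit 84) (nat_lit 5022880977) (nat_lit 146) (nat_lit 5) (nat_lit 154) (nat_lit 5) (nat_lit 147) (nat_lit 5) (nat_lit 362) (nat_lit 339) (nat_lit 244)))) (XT.nd (nat_lit 188) (nat_lit 588)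 (nat_lit 0) (XT.nd (nat_lit 94) (nat_lit 588) (nat_lit 0) (XT.lf (nat_lit 0) (nat_lit 2895853810) (nat_lit 672) (nat_lit 47637261) (nat_lit 84) (nat_lit 9655317755) (nat_lit 146) (nat_lit 5) (nat_lit 154) (nat_lit 5) (nat_lit 147) (nat_lit 5) (nat_lit 363) (nat_lit 339) (nat_lit 243)) (XT.lf (nat_lit 0) (nat_lit 4449935466) (nat_lit 672) (nat_lit 6709091667) (nat_lit 84) (nat_lit 1647367579) (nat_lit 139) (nat_lit 5) (nat_lit 147) (nat_lit 5) (nat_lit 140) (nat_lit 5) (nat_lit 364) (nat_lit 339) (nat_lit 242))) (XT.nd (nat_lit 94) (nat_lit 588) (nat_lit 0) (XT.lf (nat_lit 0) (nat_lit 6062605177) (nat_lit 672) (nat_lit 639247006) (nat_lit 84) (nat_lit 6318027703) (nat_lit 139) (nat_lit 5) (nat_lit 147) (nat_lit 5) (nat_lit 140) (nat_lit 5) (nat_lit 365) (nat_lit 339) (nat_lit 241)) (XT.nd (nat_lit 94) (nat_lit 0) (nat_lit 0) (XT.lf (nat_lit 0) (nat_lit 5707094792) (nat_lit 588) (nat_lit 2054271072) (nat_lit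 672) (nat_lit 5477302210) (nat_lit 132) (nat_lit 5) (nat_lit 139) (nat_lit 5) (nat_lit 140) (nat_lit 5) (nat_lit 366) (nat_lit 339) (nat_lit 240)) (XT.lf (nat_lit 0) (nat_lit 9527066118) (nat_lit 672) (nat_lit 1250559369) (nat_lit 84) (nat_lit 2685944035) (nat_lit 132) (nat_lit 5) (nat_lit 140) (nat_lit 5) (nat_lit 133) (nat_lit 5) (nat_lit 367) (nat_lit 339) (nat_lit 239))))))))
noncomputable def xc54 : XT := (XT.nd (nat_lit 58092) (nat_lit 0) (nat_lit 588) (XT.nd (nat_lit 57340) (nat_lit 0) (nat_lit 4704) (XT.nd (nat_lit 56964) (nat_lit 0) (nat_lit 5628) (XT.nd (nat_lit 56776) (nat_lit 0) (nat_lit 5544) (XT.nd (nat_lit 56682) (nat_lit 0) (nat_lit 6636) (XT.lf (nat_lit 0) (nat_lit 5284845567) (nat_lit 588) (nat_lit 6115710887) (nat_lit 672) (nat_lit 2293045063) (nat_lit 125) (nat_lit 5) (nat_lit 132) (nat_lit 5) (nat_lit 133) (nat_lit 5) (nat_lit 368) (nat_lit 339) (nat_lit 238)) (XT.lf (nat_lit 0) (nat_lit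 4383991088) (nat_lit 1092) (nat_lit 102173974) (nat_lit 1092) (nat_lit 102173974) (nat_lit 204) (nat_lit 3) (nat_lit 217) (nat_lit 3) (nat_lit 217) (nat_lit 5) (nat_lit 340) (nat_lit 340) (nat_lit 265))) (XT.nd (nat_lit 94) (nat_lit 0) (nat_lit 0) (XT.lf (nat_lit 0) (nat_lit 425412832) (nat_lit 1092) (nat_lit 5416549354) (nat_lit 1176) (nat_lit 3445923416) (nat_lit 191) (nat_lit 5) (nat_lit 204) (nat_lit 3) (nat_lit 205) (nat_lit 5) (nat_lit 341) (nat_lit 340) (nat_lit 264)) (XT.lf (nat_lit 0) (nat_lit 1247249907) (nat_lit 1092) (nat_lit 1349764289) (nat_lit 1176) (nat_lit 6806228547) (nat_lit 191) (nat_lit 5) (nat_lit 204) (nat_lit 3) (nat_lit 205) (nat_lit 5) (nat_lit 342) (nat_lit 340) (nat_lit 263)))) (XT.nd (nat_lit 188) (nat_lit 0) (nat_lit 0) (XT.nd (nat_lit 94) (nat_lit 0) (nat_lit 0) (XT.lf (nat_lit 0) (nat_lit 2098730962) (nat_lit 1092) (nat_lit 6650889247) (nat_lit 1176) (nat_lit 772351269) (nat_lit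 192) (nat_lit 5) (nat_lit 205) (nat_lit 5) (nat_lit 206) (nat_lit 5) (nat_lit 343) (nat_lit 340) (nat_lit 262)) (XT.lf (nat_lit 0) (nat_lit 2985832060) (nat_lit 1092) (nat_lit 2440711587) (nat_lit 1176) (nat_lit 4217474943) (nat_lit 192) (nat_lit 5) (nat_lit 205) (nat_lit 5) (nat_lit 206) (nat_lit 5) (nat_lit 344) (nat_lit 340) (nat_lit 261))) (XT.nd (nat_lit 94) (nat_lit 0) (nat_lit 84) (XT.lf (nat_lit 84) (nat_lit 1916436482) (nat_lit 0) (nat_lit 1972985722) (nat_lit 1176) (nat_lit 5880665702) (nat_lit 193) (nat_lit 5) (nat_lit 192) (nat_lit 5) (nat_lit 206) (nat_lit 5) (nat_lit 345) (nat_lit 340) (nat_lit 260)) (XT.lf (nat_lit 0) (nat_lit 4832473493) (nat_lit 1092) (nat_lit 3477908609) (nat_lit 1176) (nat_lit 1589242005) (nat_lit 193) (nat_lit 5) (nat_lit 206) (nat_lit 5) (nat_lit 207) (nat_lit 5) (nat_lit 346) (nat_lit 340) (nat_lit 259))))) (XT.nd (nat_lit 376) (nat_lit 1008) (nat_lit 0) (XT.nd (nat_lit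 188) (nat_lit 0) (nat_lit 84) (XT.nd (nat_lit 94) (nat_lit 0) (nat_lit 0) (XT.lf (nat_lit 84) (nat_lit 1012268905) (nat_lit 0) (nat_lit 4793856083) (nat_lit 1176) (nat_lit 4226905940) (nat_lit 194) (nat_lit 5) (nat_lit 193) (nat_lit 5) (nat_lit 207) (nat_lit 5) (nat_lit 347) (nat_lit 340) (nat_lit 258)) (XT.lf (nat_lit 84) (nat_lit 5691556594) (nat_lit 0) (nat_lit 1126215892) (nat_lit 1176) (nat_lit 3352456103) (nat_lit 194) (nat_lit 5) (nat_lit 193) (nat_lit 5) (nat_lit 207) (nat_lit 5) (nat_lit 348) (nat_lit 340) (nat_lit 257))) (XT.nd (nat_lit 94) (nat_lit 0) (nat_lit 0) (XT.lf (nat_lit 84) (nat_lit 160012960) (nat_lit 0) (nat_lit 7701303526) (nat_lit 1176) (nat_lit 2450229987) (nat_lit 195) (nat_lit 5) (nat_lit 194) (nat_lit 5) (nat_lit 208) (nat_lit 5) (nat_lit 349) (nat_lit 340) (nat_lit 256)) (XT.lf (nat_lit 84) (nat_lit 5001161104) (nat_lit 0) (nat_lit 3966371778) (nat_lit 1176) (nat_lit 1488679259)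 (nat_lit 195) (nat_lit 5) (nat_lit 194) (nat_lit 5) (nat_lit 208) (nat_lit 5) (nat_lit 350) (nat_lit 340) (nat_lit 255)))) (XT.nd (nat_lit 188) (nat_lit 0) (nat_lit 0) (XT.nd (nat_lit 94) (nat_lit 1092) (nat_lit 0) (XT.lf (nat_lit 84) (nat_lit 9970909544) (nat_lit 0) (nat_lit 111850440) (nat_lit 1176) (nat_lit 523230867) (nat_lit 195) (nat_lit 5) (nat_lit 194) (nat_lit 5) (nat_lit 208) (nat_lit 5) (nat_lit 351) (nat_lit 340) (nat_lit 254)) (XT.lf (nat_lit 0) (nat_lit 518094679) (nat_lit 1176) (nat_lit 6403202664) (nat_lit 1260) (nat_lit 3837191507) (nat_lit 181) (nat_lit 5) (nat_lit 195) (nat_lit 5) (nat_lit 196) (nat_lit 5) (nat_lit 352) (nat_lit 340) (nat_lit 253))) (XT.nd (nat_lit 94) (nat_lit 0) (nat_lit 84) (XT.lf (nat_lit 0) (nat_lit 1564575654) (nat_lit 1176) (nat_lit 1430646303) (nat_lit 1260) (nat_lit 7920695194) (nat_lit 181) (nat_lit 5) (nat_lit 195) (nat_lit 5) (nat_lit 196) (nat_lit 5) (nat_lit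 353) (nat_lit 340) (nat_lit 252)) (XT.lf (nat_lit 0) (nat_lit 2666487160) (nat_lit 1176) (nat_lit 7340788165) (nat_lit 1260) (nat_lit 1070114361) (nat_lit 182) (nat_lit 5) (nat_lit 196) (nat_lit 5) (nat_lit 197) (nat_lit 5) (nat_lit 354) (nat_lit 340) (nat_lit 251)))))) (XT.nd (nat_lit 752) (nat_lit 1176) (nat_lit 0) (XT.nd (nat_lit 376) (nat_lit 1932) (nat_lit 0) (XT.nd (nat_lit 188) (nat_lit 1092) (nat_lit 0) (XT.nd (nat_lit 94) (nat_lit 0) (nat_lit 0) (XT.lf (nat_lit 0) (nat_lit 3823769939) (nat_lit 1176) (nat_lit 2202269979) (nat_lit 1260) (nat_lit 5217038289) (nat_lit 182) (nat_lit 5) (nat_lit 196) (nat_lit 5) (nat_lit 197) (nat_lit 5) (nat_lit 355) (nat_lit 340) (nat_lit 250)) (XT.lf (nat_lit 84) (nat_lit 3134687443) (nat_lit 0) (nat_lit 1889923579) (nat_lit 1260) (nat_lit 6388901197) (nat_lit 183) (nat_lit 5) (nat_lit 182) (nat_lit 5) (nat_lit 197) (nat_lit 5) (nat_lit 356) (nat_lit 340) (nat_lit 249)))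 (XT.nd (nat_lit 94) (nat_lit 1176) (nat_lit 0) (XT.lf (nat_lit 0) (nat_lit 6285926958) (nat_lit 1176) (nat_lit 2951922069) (nat_lit 84) (nat_lit 2350515597) (nat_lit 183) (nat_lit 5) (nat_lit 197) (nat_lit 5) (nat_lit 184) (nat_lit 5) (nat_lit 357) (nat_lit 340) (nat_lit 248)) (XT.lf (nat_lit 0) (nat_lit 2548898046) (nat_lit 1176) (nat_lit 5059209932) (nat_lit 1260) (nat_lit 4159701585) (nat_lit 169) (nat_lit 5) (nat_lit 183) (nat_lit 5) (nat_lit 184) (nat_lit 5) (nat_lit 358) (nat_lit 340) (nat_lit 247)))) (XT.nd (nat_lit 188) (nat_lit 672) (nat_lit 0) (XT.nd (nat_lit 94) (nat_lit 1260) (nat_lit 0) (XT.lf (nat_lit 0) (nat_lit 8258504377) (nat_lit 1176) (nat_lit 721497595) (nat_lit 1260) (nat_lit 2972371085) (nat_lit 169) (nat_lit 5) (nat_lit 183) (nat_lit 5) (nat_lit 184) (nat_lit 5) (nat_lit 359) (nat_lit 340) (nat_lit 246)) (XT.lf (nat_lit 0) (nat_lit 1982701652) (nat_lit 1260) (nat_lit 8446264831) (nat_lit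 1344) (nat_lit 1712465127) (nat_lit 154) (nat_lit 5) (nat_lit 169) (nat_lit 5) (nat_lit 170) (nat_lit 5) (nat_lit 360) (nat_lit 340) (nat_lit 245))) (XT.nd (nat_lit 94) (nat_lit 672) (nat_lit 0) (XT.lf (nat_lit 0) (nat_lit 7881268499) (nat_lit 1260) (nat_lit 4065745460) (nat_lit 1344) (nat_lit 388414066) (nat_lit 154) (nat_lit 5) (nat_lit 169) (nat_lit 5) (nat_lit 170) (nat_lit 5) (nat_lit 361) (nat_lit 340) (nat_lit 244)) (XT.lf (nat_lit 0) (nat_lit 956114736) (nat_lit 672) (nat_lit 11116373872) (nat_lit 84) (nat_lit 462513331) (nat_lit 146) (nat_lit 5) (nat_lit 154) (nat_lit 5) (nat_lit 147) (nat_lit 5) (nat_lit 362) (nat_lit 340) (nat_lit 243))))) (XT.nd (nat_lit 376) (nat_lit 0) (nat_lit 0) (XT.nd (nat_lit 188) (nat_lit 588) (nat_lit 0) (XT.nd (nat_lit 94) (nat_lit 588) (nat_lit 0) (XT.lf (nat_lit 0) (nat_lit 2400817380) (nat_lit 672) (nat_lit 5241926751) (nat_lit 84) (nat_lit 5095705827) (nat_lit 146)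 (nat_lit 5) (nat_lit 154) (nat_lit 5) (nat_lit 147) (nat_lit 5) (nat_lit 363) (nat_lit 340) (nat_lit 242)) (XT.lf (nat_lit 0) (nat_lit 807944642) (nat_lit 588) (nat_lit 3071174379) (nat_lit 672) (nat_lit 9069205338) (nat_lit 139) (nat_lit 5) (nat_lit 146) (nat_lit 5) (nat_lit 147) (nat_lit 5) (nat_lit 364) (nat_lit 340) (nat_lit 241))) (XT.nd (nat_lit 94) (nat_lit 588) (nat_lit 0) (XT.lf (nat_lit 0) (nat_lit 5453818843) (nat_lit 672) (nat_lit 6049369786) (nat_lit 84) (nat_lit 1659774672) (nat_lit 139) (nat_lit 5) (nat_lit 147) (nat_lit 5) (nat_lit 140) (nat_lit 5) (nat_lit 365) (nat_lit 340) (nat_lit 240)) (XT.lf (nat_lit 0) (nat_lit 181025153) (nat_lit 588) (nat_lit 6910232588) (nat_lit 672) (nat_lit 6292347647) (nat_lit 132) (nat_lit 5) (nat_lit 139) (nat_lit 5) (nat_lit 140) (nat_lit 5) (nat_lit 366) (nat_lit 340) (nat_lit 239)))) (XT.nd (nat_lit 56870) (nat_lit 0) (nat_lit 4956) (XT.nd (nat_lit 94) (nat_lit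 0) (nat_lit 0) (XT.lf (nat_lit 0) (nat_lit 6706029488) (nat_lit 588) (nat_lit 2116555556) (nat_lit 672) (nat_lit 4786966810) (nat_lit 132) (nat_lit 5) (nat_lit 139) (nat_lit 5) (nat_lit 140) (nat_lit 5) (nat_lit 367) (nat_lit 340) (nat_lit 238)) (XT.lf (nat_lit 0) (nat_lit 10617122659) (nat_lit 672) (nat_lit 458945642) (nat_lit 84) (nat_lit 2765897556) (nat_lit 132) (nat_lit 5) (nat_lit 140) (nat_lit 5) (nat_lit 133) (nat_lit 5) (nat_lit 368) (nat_lit 340) (nat_lit 237))) (XT.nd (nat_lit 94) (nat_lit 0) (nat_lit 0) (XT.lf (nat_lit 0) (nat_lit 293130377) (nat_lit 0) (nat_lit 293130377) (nat_lit 1092) (nat_lit 4114427616) (nat_lit 191) (nat_lit 5) (nat_lit 191) (nat_lit 3) (nat_lit 204) (nat_lit 3) (nat_lit 341) (nat_lit 341) (nat_lit 263)) (XT.nd (nat_lit 94) (nat_lit 0) (nat_lit 0) (XT.lf (nat_lit 0) (nat_lit 1973818274) (nat_lit 1092) (nat_lit 4750734937) (nat_lit 1176) (nat_lit 2792826706) (nat_lit 191)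 (nat_lit 5) (nat_lit 204) (nat_lit 3) (nat_lit 205) (nat_lit 5) (nat_lit 342) (nat_lit 341) (nat_lit 262)) (XT.lf (nat_lit 0) (nat_lit 2775582994) (nat_lit 1092) (nat_lit 586071880) (nat_lit 1176) (nat_lit 6275974226) (nat_lit 191) (nat_lit 5) (nat_lit 204) (nat_lit 3) (nat_lit 205) (nat_lit 5) (nat_lit 343) (nat_lit 341) (nat_lit 261))))))))
noncomputable def xc55 : XT := (XT.nd (nat_lit 1598) (nat_lit 3108) (nat_lit 0) (XT.nd (nat_lit 752) (nat_lit 1932) (nat_lit 0) (XT.nd (nat_lit 376) (nat_lit 0) (nat_lit 84) (XT.nd (nat_lit 188) (nat_lit 0) (nat_lit 0) (XT.nd (nat_lit 94) (nat_lit 0) (nat_lit 0) (XT.lf (nat_lit 0) (nat_lit 3610505075) (nat_lit 1092) (nat_lit 6001230620) (nat_lit 1176) (nat_lit 149534001) (nat_lit 192) (nat_lit 5) (nat_lit 205) (nat_lit 5) (nat_lit 206) (nat_lit 5) (nat_lit 344) (nat_lit 341) (nat_lit 260)) (XT.lf (nat_lit 0) (nat_lit 4482020792) (nat_lit 1092) (nat_lit 1689481184) (nat_lit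 1176) (nat_lit 3716826564) (nat_lit 192) (nat_lit 5) (nat_lit 205) (nat_lit 5) (nat_lit 206) (nat_lit 5) (nat_lit 345) (nat_lit 341) (nat_lit 259))) (XT.nd (nat_lit 94) (nat_lit 0) (nat_lit 84) (XT.lf (nat_lit 84) (nat_lit 2790298468) (nat_lit 0) (nat_lit 2589298277) (nat_lit 1176) (nat_lit 4639658755) (nat_lit 193) (nat_lit 5) (nat_lit 192) (nat_lit 5) (nat_lit 206) (nat_lit 5) (nat_lit 346) (nat_lit 341) (nat_lit 258)) (XT.lf (nat_lit 0) (nat_lit 6305735531) (nat_lit 1092) (nat_lit 2741799905) (nat_lit 1176) (nat_lit 1106577995) (nat_lit 193) (nat_lit 5) (nat_lit 206) (nat_lit 5) (nat_lit 207) (nat_lit 5) (nat_lit 347) (nat_lit 341) (nat_lit 257)))) (XT.nd (nat_lit 188) (nat_lit 0) (nat_lit 84) (XT.nd (nat_lit 94) (nat_lit 0) (nat_lit 0) (XT.lf (nat_lit 84) (nat_lit 1874843268) (nat_lit 0) (nat_lit 5403064983) (nat_lit 1176) (nat_lit 3014612062) (nat_lit 194) (nat_lit 5) (nat_lit 193) (nat_lit 5) (nat_lit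 207) (nat_lit 5) (nat_lit 348) (nat_lit 341) (nat_lit 256)) (XT.lf (nat_lit 84) (nat_lit 6670270569) (nat_lit 0) (nat_lit 1611840444) (nat_lit 1176) (nat_lit 2152931673) (nat_lit 194) (nat_lit 5) (nat_lit 193) (nat_lit 5) (nat_lit 207) (nat_lit 5) (nat_lit 349) (nat_lit 341) (nat_lit 255))) (XT.nd (nat_lit 94) (nat_lit 0) (nat_lit 0) (XT.lf (nat_lit 84) (nat_lit 1009057873) (nat_lit 0) (nat_lit 8315108657) (nat_lit 1176) (nat_lit 1257490197) (nat_lit 195) (nat_lit 5) (nat_lit 194) (nat_lit 5) (nat_lit 208) (nat_lit 5) (nat_lit 350) (nat_lit 341) (nat_lit 254)) (XT.lf (nat_lit 84) (nat_lit 5970850815) (nat_lit 0) (nat_lit 4456980432) (nat_lit 1176) (nat_lit 303973919) (nat_lit 195) (nat_lit 5) (nat_lit 194) (nat_lit 5) (nat_lit 208) (nat_lit 5) (nat_lit 351) (nat_lit 341) (nat_lit 253))))) (XT.nd (nat_lit 376) (nat_lit 924) (nat_lit 0) (XT.nd (nat_lit 188) (nat_lit 0) (nat_lit 84) (XT.nd (nat_lit 94) (nat_lit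 0) (nat_lit 84) (XT.lf (nat_lit 84) (nat_lit 175768677) (nat_lit 0) (nat_lit 467777862) (nat_lit 1260) (nat_lit 10243400742) (nat_lit 181) (nat_lit 5) (nat_lit 180) (nat_lit 5) (nat_lit 195) (nat_lit 5) (nat_lit 352) (nat_lit 341) (nat_lit 252)) (XT.lf (nat_lit 0) (nat_lit 1674458244) (nat_lit 1176) (nat_lit 5742403799) (nat_lit 1260) (nat_lit 3628001537) (nat_lit 181) (nat_lit 5) (nat_lit 195) (nat_lit 5) (nat_lit 196) (nat_lit 5) (nat_lit 353) (nat_lit 341) (nat_lit 251))) (XT.nd (nat_lit 94) (nat_lit 0) (nat_lit 84) (XT.lf (nat_lit 0) (nat_lit 2719105861) (nat_lit 1176) (nat_lit 645512348) (nat_lit 1260) (nat_lit 7843456133) (nat_lit 181) (nat_lit 5) (nat_lit 195) (nat_lit 5) (nat_lit 196) (nat_lit 5) (nat_lit 354) (nat_lit 341) (nat_lit 250)) (XT.lf (nat_lit 0) (nat_lit 3827165638) (nat_lit 1176) (nat_lit 6704017802) (nat_lit 1260) (nat_lit 844075831) (nat_lit 182) (nat_lit 5) (nat_lit 196) (nat_lit 5)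 (nat_lit 197) (nat_lit 5) (nat_lit 355) (nat_lit 341) (nat_lit 249)))) (XT.nd (nat_lit 188) (nat_lit 1092) (nat_lit 0) (XT.nd (nat_lit 94) (nat_lit 0) (nat_lit 0) (XT.lf (nat_lit 0) (nat_lit 4987690672) (nat_lit 1176) (nat_lit 1436305061) (nat_lit 1260) (nat_lit 5122926175) (nat_lit 182) (nat_lit 5) (nat_lit 196) (nat_lit 5) (nat_lit 197) (nat_lit 5) (nat_lit 356) (nat_lit 341) (nat_lit 248)) (XT.lf (nat_lit 84) (nat_lit 4052603897) (nat_lit 0) (nat_lit 2149313242) (nat_lit 1260) (nat_lit 5521288445) (nat_lit 183) (nat_lit 5) (nat_lit 182) (nat_lit 5) (nat_lit 197) (nat_lit 5) (nat_lit 357) (nat_lit 341) (nat_lit 247))) (XT.nd (nat_lit 94) (nat_lit 1176) (nat_lit 0) (XT.lf (nat_lit 0) (nat_lit 7469280871) (nat_lit 1176) (nat_lit 2206949410) (nat_lit 84) (nat_lit 2228082806) (nat_lit 183) (nat_lit 5) (nat_lit 197) (nat_lit 5) (nat_lit 184) (nat_lit 5) (nat_lit 358) (nat_lit 341) (nat_lit 246)) (XT.nd (nat_lit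 94) (nat_lit 0) (nat_lit 0) (XT.lf (nat_lit 0) (nat_lit 3450723444) (nat_lit 1176) (nat_lit 5359363668) (nat_lit 1260) (nat_lit 3279739621) (nat_lit 169) (nat_lit 5) (nat_lit 183) (nat_lit 5) (nat_lit 184) (nat_lit 5) (nat_lit 359) (nat_lit 341) (nat_lit 245)) (XT.lf (nat_lit 0) (nat_lit 9307578397) (nat_lit 1176) (nat_lit 887198288) (nat_lit 1260) (nat_lit 2086053856) (nat_lit 169) (nat_lit 5) (nat_lit 183) (nat_lit 5) (nat_lit 184) (nat_lit 5) (nat_lit 360) (nat_lit 341) (nat_lit 244))))))) (XT.nd (nat_lit 57528) (nat_lit 0) (nat_lit 4956) (XT.nd (nat_lit 376) (nat_lit 1176) (nat_lit 0) (XT.nd (nat_lit 188) (nat_lit 588) (nat_lit 0) (XT.nd (nat_lit 94) (nat_lit 84) (nat_lit 0) (XT.lf (nat_lit 0) (nat_lit 2866835173) (nat_lit 1260) (nat_lit 8799422419) (nat_lit 1344) (nat_lit 809982878) (nat_lit 154) (nat_lit 5) (nat_lit 169) (nat_lit 5) (nat_lit 170) (nat_lit 5) (nat_lit 361) (nat_lit 341) (nat_lit 243))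 (XT.lf (nat_lit 0) (nat_lit 515743193) (nat_lit 1344) (nat_lit 3763630367) (nat_lit 84) (nat_lit 8397388833) (nat_lit 153) (nat_lit 5) (nat_lit 169) (nat_lit 5) (nat_lit 154) (nat_lit 5) (nat_lit 362) (nat_lit 341) (nat_lit 242))) (XT.nd (nat_lit 94) (nat_lit 0) (nat_lit 0) (XT.lf (nat_lit 0) (nat_lit 1873421317) (nat_lit 672) (nat_lit 10608619977) (nat_lit 84) (nat_lit 400794966) (nat_lit 146) (nat_lit 5) (nat_lit 154) (nat_lit 5) (nat_lit 147) (nat_lit 5) (nat_lit 363) (nat_lit 341) (nat_lit 241)) (XT.lf (nat_lit 0) (nat_lit 3335582813) (nat_lit 672) (nat_lit 4582441727) (nat_lit 84) (nat_lit 5175184997) (nat_lit 146) (nat_lit 5) (nat_lit 154) (nat_lit 5) (nat_lit 147) (nat_lit 5) (nat_lit 364) (nat_lit 341) (nat_lit 240)))) (XT.nd (nat_lit 188) (nat_lit 588) (nat_lit 0) (XT.nd (nat_lit 94) (nat_lit 0) (nat_lit 0) (XT.lf (nat_lit 0) (nat_lit 1640918525) (nat_lit 588) (nat_lit 3199960662) (nat_lit 672) (nat_lit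 8469065641) (nat_lit 139) (nat_lit 5) (nat_lit 146) (nat_lit 5) (nat_lit 147) (nat_lit 5) (nat_lit 365) (nat_lit 341) (nat_lit 239)) (XT.lf (nat_lit 0) (nat_lit 6437855043) (nat_lit 672) (nat_lit 5419280863) (nat_lit 84) (nat_lit 1674678730) (nat_lit 139) (nat_lit 5) (nat_lit 147) (nat_lit 5) (nat_lit 140) (nat_lit 5) (nat_lit 366) (nat_lit 341) (nat_lit 238))) (XT.nd (nat_lit 94) (nat_lit 0) (nat_lit 0) (XT.lf (nat_lit 0) (nat_lit 990069355) (nat_lit 588) (nat_lit 7118176800) (nat_lit 672) (nat_lit 5651356460) (nat_lit 132) (nat_lit 5) (nat_lit 139) (nat_lit 5) (nat_lit 140) (nat_lit 5) (nat_lit 367) (nat_lit 341) (nat_lit 237)) (XT.lf (nat_lit 0) (nat_lit 7687417604) (nat_lit 588) (nat_lit 2180670897) (nat_lit 672) (nat_lit 4124982012) (nat_lit 132) (nat_lit 5) (nat_lit 139) (nat_lit 5) (nat_lit 140) (nat_lit 5) (nat_lit 368) (nat_lit 341) (nat_lit 236))))) (XT.nd (nat_lit 376) (nat_lit 0) (nat_lit 84) (XT.nd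 (nat_lit 188) (nat_lit 0) (nat_lit 0) (XT.nd (nat_lit 94) (nat_lit 0) (nat_lit 0) (XT.lf (nat_lit 0) (nat_lit 676453287) (nat_lit 0) (nat_lit 676453287) (nat_lit 1092) (nat_lit 3464838979) (nat_lit 191) (nat_lit 5) (nat_lit 191) (nat_lit 3) (nat_lit 204) (nat_lit 3) (nat_lit 342) (nat_lit 342) (nat_lit 261)) (XT.lf (nat_lit 0) (nat_lit 3480523686) (nat_lit 1092) (nat_lit 4112494521) (nat_lit 1176) (nat_lit 2163561821) (nat_lit 191) (nat_lit 5) (nat_lit 204) (nat_lit 3) (nat_lit 205) (nat_lit 5) (nat_lit 343) (nat_lit 342) (nat_lit 260))) (XT.nd (nat_lit 94) (nat_lit 0) (nat_lit 0) (XT.lf (nat_lit 84) (nat_lit 157439993) (nat_lit 0) (nat_lit 4108254835) (nat_lit 1176) (nat_lit 5616045619) (nat_lit 192) (nat_lit 5) (nat_lit 191) (nat_lit 5) (nat_lit 205) (nat_lit 5) (nat_lit 344) (nat_lit 342) (nat_lit 259)) (XT.lf (nat_lit 84) (nat_lit 4624985772) (nat_lit 0) (nat_lit 463938553) (nat_lit 1176) (nat_lit 4921350053)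 (nat_lit 192) (nat_lit 5) (nat_lit 191) (nat_lit 5) (nat_lit 205) (nat_lit 5) (nat_lit 345) (nat_lit 342) (nat_lit 258)))) (XT.nd (nat_lit 188) (nat_lit 0) (nat_lit 84) (XT.nd (nat_lit 94) (nat_lit 0) (nat_lit 0) (XT.lf (nat_lit 0) (nat_lit 5942349802) (nat_lit 1092) (nat_lit 963040771) (nat_lit 1176) (nat_lit 3237161008) (nat_lit 192) (nat_lit 5) (nat_lit 205) (nat_lit 5) (nat_lit 206) (nat_lit 5) (nat_lit 346) (nat_lit 342) (nat_lit 257)) (XT.lf (nat_lit 84) (nat_lit 3643513399) (nat_lit 0) (nat_lit 3192119071) (nat_lit 1176) (nat_lit 3442787704) (nat_lit 193) (nat_lit 5) (nat_lit 192) (nat_lit 5) (nat_lit 206) (nat_lit 5) (nat_lit 347) (nat_lit 342) (nat_lit 256))) (XT.nd (nat_lit 94) (nat_lit 0) (nat_lit 0) (XT.lf (nat_lit 0) (nat_lit 7746946274) (nat_lit 1092) (nat_lit 2031852977) (nat_lit 1176) (nat_lit 639877824) (nat_lit 193) (nat_lit 5) (nat_lit 206) (nat_lit 5) (nat_lit 207) (nat_lit 5) (nat_lit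 348) (nat_lit 342) (nat_lit 255)) (XT.nd (nat_lit 94) (nat_lit 0) (nat_lit 0) (XT.lf (nat_lit 84) (nat_lit 2715522816) (nat_lit 0) (nat_lit 6003834677) (nat_lit 1176) (nat_lit 1842819247) (nat_lit 194) (nat_lit 5) (nat_lit 193) (nat_lit 5) (nat_lit 207) (nat_lit 5) (nat_lit 349) (nat_lit 342) (nat_lit 254)) (XT.lf (nat_lit 84) (nat_lit 7631965336) (nat_lit 0) (nat_lit 2086096380) (nat_lit 1176) (nat_lit 992052461) (nat_lit 194) (nat_lit 5) (nat_lit 193) (nat_lit 5) (nat_lit 207) (nat_lit 5) (nat_lit 350) (nat_lit 342) (nat_lit 253))))))))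
noncomputable def xc56 : XT := (XT.nd (nat_lit 1504) (nat_lit 588) (nat_lit 0) (XT.nd (nat_lit 752) (nat_lit 3444) (nat_lit 0) (XT.nd (nat_lit 376) (nat_lit 0) (nat_lit 84) (XT.nd (nat_lit 188) (nat_lit 0) (nat_lit 0) (XT.nd (nat_lit 94) (nat_lit 1176) (nat_lit 0) (XT.lf (nat_lit 84) (nat_lit 1835111044) (nat_lit 0) (nat_lit 8925355607) (nat_lit 1176) (nat_lit 101655953) (nat_lit 195) (nat_lit 5) (nat_lit 194) (nat_lit 5) (nat_lit 208) (nat_lit 5) (nat_lit 351) (nat_lit 342) (nat_lit 252)) (XT.lf (nat_lit 0) (nat_lit 829199268) (nat_lit 1176) (nat_lit 4103402426) (nat_lit 1260) (nat_lit 6085007118) (nat_lit 180) (nat_lit 5) (nat_lit 194) (nat_lit 5) (nat_lit 195) (nat_lit 5) (nat_lit 352) (nat_lit 342) (nat_lit 251))) (XT.nd (nat_lit 94) (nat_lit 0) (nat_lit 84) (XT.lf (nat_lit 84) (nat_lit 970595289) (nat_lit 0) (nat_lit 802937445) (nat_lit 1260) (nat_lit 9404610034) (nat_lit 181) (nat_lit 5) (nat_lit 180)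 (nat_lit 5) (nat_lit 195) (nat_lit 5) (nat_lit 353) (nat_lit 342) (nat_lit 250)) (XT.lf (nat_lit 0) (nat_lit 2800024940) (nat_lit 1176) (nat_lit 5110740627) (nat_lit 1260) (nat_lit 3431152344) (nat_lit 181) (nat_lit 5) (nat_lit 195) (nat_lit 5) (nat_lit 196) (nat_lit 5) (nat_lit 354) (nat_lit 342) (nat_lit 249)))) (XT.nd (nat_lit 188) (nat_lit 0) (nat_lit 84) (XT.nd (nat_lit 94) (nat_lit 0) (nat_lit 84) (XT.lf (nat_lit 84) (nat_lit 117943478) (nat_lit 0) (nat_lit 3727881874) (nat_lit 1260) (nat_lit 7665164413) (nat_lit 182) (nat_lit 5) (nat_lit 181) (nat_lit 5) (nat_lit 196) (nat_lit 5) (nat_lit 355) (nat_lit 342) (nat_lit 248)) (XT.lf (nat_lit 0) (nat_lit 4960628796) (nat_lit 1176) (nat_lit 6097339291) (nat_lit 1260) (nat_lit 626074549) (nat_lit 182) (nat_lit 5) (nat_lit 196) (nat_lit 5) (nat_lit 197) (nat_lit 5) (nat_lit 356) (nat_lit 342) (nat_lit 247))) (XT.nd (nat_lit 94) (nat_lit 0) (nat_lit 0) (XT.lf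 (nat_lit 0) (nat_lit 6126300216) (nat_lit 1176) (nat_lit 695123295) (nat_lit 1260) (nat_lit 5040377498) (nat_lit 182) (nat_lit 5) (nat_lit 196) (nat_lit 5) (nat_lit 197) (nat_lit 5) (nat_lit 357) (nat_lit 342) (nat_lit 246)) (XT.lf (nat_lit 84) (nat_lit 4950764001) (nat_lit 0) (nat_lit 2404849249) (nat_lit 1260) (nat_lit 4688454303) (nat_lit 183) (nat_lit 5) (nat_lit 182) (nat_lit 5) (nat_lit 197) (nat_lit 5) (nat_lit 358) (nat_lit 342) (nat_lit 245))))) (XT.nd (nat_lit 376) (nat_lit 1176) (nat_lit 0) (XT.nd (nat_lit 188) (nat_lit 1344) (nat_lit 0) (XT.nd (nat_lit 94) (nat_lit 1176) (nat_lit 0) (XT.lf (nat_lit 0) (nat_lit 8631031184) (nat_lit 1176) (nat_lit 1487475621) (nat_lit 84) (nat_lit 2113053051) (nat_lit 183) (nat_lit 5) (nat_lit 197) (nat_lit 5) (nat_lit 184) (nat_lit 5) (nat_lit 359) (nat_lit 342) (nat_lit 244)) (XT.lf (nat_lit 0) (nat_lit 4332224651) (nat_lit 1176) (nat_lit 5660004545) (nat_lit 1260)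 (nat_lit 2431055731) (nat_lit 169) (nat_lit 5) (nat_lit 183) (nat_lit 5) (nat_lit 184) (nat_lit 5) (nat_lit 360) (nat_lit 342) (nat_lit 243))) (XT.nd (nat_lit 94) (nat_lit 1344) (nat_lit 0) (XT.lf (nat_lit 0) (nat_lit 10342125656) (nat_lit 1176) (nat_lit 1049600612) (nat_lit 1260) (nat_lit 1229144134) (nat_lit 169) (nat_lit 5) (nat_lit 183) (nat_lit 5) (nat_lit 184) (nat_lit 5) (nat_lit 361) (nat_lit 342) (nat_lit 242)) (XT.lf (nat_lit 0) (nat_lit 63553744) (nat_lit 1344) (nat_lit 9093252035) (nat_lit 84) (nat_lit 3665958761) (nat_lit 153) (nat_lit 5) (nat_lit 169) (nat_lit 5) (nat_lit 154) (nat_lit 5) (nat_lit 362) (nat_lit 342) (nat_lit 241)))) (XT.nd (nat_lit 188) (nat_lit 588) (nat_lit 0) (XT.nd (nat_lit 94) (nat_lit 588) (nat_lit 0) (XT.lf (nat_lit 0) (nat_lit 1387095349) (nat_lit 1344) (nat_lit 3103320066) (nat_lit 84) (nat_lit 8539461761) (nat_lit 153) (nat_lit 5) (nat_lit 169) (nat_lit 5) (nat_lit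 154) (nat_lit 5) (nat_lit 363) (nat_lit 342) (nat_lit 240)) (XT.lf (nat_lit 0) (nat_lit 2767236492) (nat_lit 672) (nat_lit 10133924376) (nat_lit 84) (nat_lit 341564440) (nat_lit 146) (nat_lit 5) (nat_lit 154) (nat_lit 5) (nat_lit 147) (nat_lit 5) (nat_lit 364) (nat_lit 342) (nat_lit 239))) (XT.nd (nat_lit 94) (nat_lit 588) (nat_lit 0) (XT.lf (nat_lit 0) (nat_lit 4248866351) (nat_lit 672) (nat_lit 3950056531) (nat_lit 84) (nat_lit 5261261542) (nat_lit 146) (nat_lit 5) (nat_lit 154) (nat_lit 5) (nat_lit 147) (nat_lit 5) (nat_lit 365) (nat_lit 342) (nat_lit 238)) (XT.lf (nat_lit 0) (nat_lit 2452456896) (nat_lit 588) (nat_lit 3330506614) (nat_lit 672) (nat_lit 7900990511) (nat_lit 139) (nat_lit 5) (nat_lit 146) (nat_lit 5) (nat_lit 147) (nat_lit 5) (nat_lit 366) (nat_lit 342) (nat_lit 237)))))) (XT.nd (nat_lit 57622) (nat_lit 0) (nat_lit 3948) (XT.nd (nat_lit 57246) (nat_lit 0) (nat_lit 4956) (XT.nd (nat_lit 57058)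 (nat_lit 0) (nat_lit 4956) (XT.nd (nat_lit 94) (nat_lit 588) (nat_lit 0) (XT.lf (nat_lit 0) (nat_lit 7404316771) (nat_lit 672) (nat_lit 4816876711) (nat_lit 84) (nat_lit 1692032691) (nat_lit 139) (nat_lit 5) (nat_lit 147) (nat_lit 5) (nat_lit 140) (nat_lit 5) (nat_lit 367) (nat_lit 342) (nat_lit 236)) (XT.lf (nat_lit 0) (nat_lit 1777254185) (nat_lit 588) (nat_lit 7332322759) (nat_lit 672) (nat_lit 5038767248) (nat_lit 132) (nat_lit 5) (nat_lit 139) (nat_lit 5) (nat_lit 140) (nat_lit 5) (nat_lit 368) (nat_lit 342) (nat_lit 235))) (XT.nd (nat_lit 94) (nat_lit 0) (nat_lit 0) (XT.lf (nat_lit 0) (nat_lit 1049776387) (nat_lit 0) (nat_lit 1049776387) (nat_lit 1092) (nat_lit 2840137277) (nat_lit 191) (nat_lit 5) (nat_lit 191) (nat_lit 3) (nat_lit 204) (nat_lit 3) (nat_lit 343) (nat_lit 343) (nat_lit 259)) (XT.lf (nat_lit 0) (nat_lit 4949338363) (nat_lit 1092) (nat_lit 3499925853) (nat_lit 1176) (nat_lit 1556350958)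 (nat_lit 191) (nat_lit 5) (nat_lit 204) (nat_lit 3) (nat_lit 205) (nat_lit 5) (nat_lit 344) (nat_lit 343) (nat_lit 258)))) (XT.nd (nat_lit 188) (nat_lit 0) (nat_lit 84) (XT.nd (nat_lit 94) (nat_lit 0) (nat_lit 0) (XT.lf (nat_lit 84) (nat_lit 890891565) (nat_lit 0) (nat_lit 4834438282) (nat_lit 1176) (nat_lit 4410262126) (nat_lit 192) (nat_lit 5) (nat_lit 191) (nat_lit 5) (nat_lit 205) (nat_lit 5) (nat_lit 345) (nat_lit 343) (nat_lit 257)) (XT.lf (nat_lit 84) (nat_lit 5471238619) (nat_lit 0) (nat_lit 1063231275) (nat_lit 1176) (nat_lit 3734752824) (nat_lit 192) (nat_lit 5) (nat_lit 191) (nat_lit 5) (nat_lit 205) (nat_lit 5) (nat_lit 346) (nat_lit 343) (nat_lit 256))) (XT.nd (nat_lit 94) (nat_lit 0) (nat_lit 0) (XT.lf (nat_lit 0) (nat_lit 7370378413) (nat_lit 1092) (nat_lit 259417291) (nat_lit 1176) (nat_lit 2777041083) (nat_lit 192) (nat_lit 5) (nat_lit 205) (nat_lit 5) (nat_lit 206) (nat_lit 5) (nat_lit 347)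 (nat_lit 343) (nat_lit 255)) (XT.lf (nat_lit 84) (nat_lit 4478151987) (nat_lit 0) (nat_lit 3782879198) (nat_lit 1176) (nat_lit 2286705878) (nat_lit 193) (nat_lit 5) (nat_lit 192) (nat_lit 5) (nat_lit 206) (nat_lit 5) (nat_lit 348) (nat_lit 343) (nat_lit 254))))) (XT.nd (nat_lit 376) (nat_lit 0) (nat_lit 84) (XT.nd (nat_lit 188) (nat_lit 1176) (nat_lit 0) (XT.nd (nat_lit 94) (nat_lit 0) (nat_lit 0) (XT.lf (nat_lit 0) (nat_lit 9159521198) (nat_lit 1092) (nat_lit 1346083215) (nat_lit 1176) (nat_lit 187872810) (nat_lit 193) (nat_lit 5) (nat_lit 206) (nat_lit 5) (nat_lit 207) (nat_lit 5) (nat_lit 349) (nat_lit 343) (nat_lit 253)) (XT.lf (nat_lit 84) (nat_lit 3536393015) (nat_lit 0) (nat_lit 6597445564) (nat_lit 1176) (nat_lit 708329880) (nat_lit 194) (nat_lit 5) (nat_lit 193) (nat_lit 5) (nat_lit 207) (nat_lit 5) (nat_lit 350) (nat_lit 343) (nat_lit 252))) (XT.nd (nat_lit 94) (nat_lit 0) (nat_lit 84) (XT.lf (nat_lit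 0) (nat_lit 130705012) (nat_lit 1176) (nat_lit 2418106673) (nat_lit 1260) (nat_lit 8446767881) (nat_lit 179) (nat_lit 5) (nat_lit 193) (nat_lit 5) (nat_lit 194) (nat_lit 5) (nat_lit 351) (nat_lit 343) (nat_lit 251)) (XT.lf (nat_lit 0) (nat_lit 1000427678) (nat_lit 1176) (nat_lit 8522668894) (nat_lit 1260) (nat_lit 1629734663) (nat_lit 180) (nat_lit 5) (nat_lit 194) (nat_lit 5) (nat_lit 195) (nat_lit 5) (nat_lit 352) (nat_lit 343) (nat_lit 250)))) (XT.nd (nat_lit 188) (nat_lit 0) (nat_lit 84) (XT.nd (nat_lit 94) (nat_lit 0) (nat_lit 0) (XT.lf (nat_lit 0) (nat_lit 1925036535) (nat_lit 1176) (nat_lit 3474905937) (nat_lit 1260) (nat_lit 5914034177) (nat_lit 180) (nat_lit 5) (nat_lit 194) (nat_lit 5) (nat_lit 195) (nat_lit 5) (nat_lit 353) (nat_lit 343) (nat_lit 249)) (XT.lf (nat_lit 84) (nat_lit 1743943096) (nat_lit 0) (nat_lit 1129717855) (nat_lit 1260) (nat_lit 8606446017) (nat_lit 181) (nat_lit 5) (nat_lit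 180) (nat_lit 5) (nat_lit 195) (nat_lit 5) (nat_lit 354) (nat_lit 343) (nat_lit 248))) (XT.nd (nat_lit 94) (nat_lit 0) (nat_lit 0) (XT.lf (nat_lit 0) (nat_lit 3897630126) (nat_lit 1176) (nat_lit 4506276734) (nat_lit 1260) (nat_lit 3245945487) (nat_lit 181) (nat_lit 5) (nat_lit 195) (nat_lit 5) (nat_lit 196) (nat_lit 5) (nat_lit 355) (nat_lit 343) (nat_lit 247)) (XT.nd (nat_lit 94) (nat_lit 0) (nat_lit 84) (XT.lf (nat_lit 84) (nat_lit 871838619) (nat_lit 0) (nat_lit 4080656361) (nat_lit 1260) (nat_lit 6872226440) (nat_lit 182) (nat_lit 5) (nat_lit 181) (nat_lit 5) (nat_lit 196) (nat_lit 5) (nat_lit 356) (nat_lit 343) (nat_lit 246)) (XT.lf (nat_lit 0) (nat_lit 6069621275) (nat_lit 1176) (nat_lit 5518831393) (nat_lit 1260) (nat_lit 415500997) (nat_lit 182) (nat_lit 5) (nat_lit 196) (nat_lit 5) (nat_lit 197) (nat_lit 5) (nat_lit 357) (nat_lit 343) (nat_lit 245))))))))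
noncomputable def xc57 : XT := (XT.nd (nat_lit 58468) (nat_lit 0) (nat_lit 1176) (XT.nd (nat_lit 752) (nat_lit 588) (nat_lit 0) (XT.nd (nat_lit 376) (nat_lit 1932) (nat_lit 0) (XT.nd (nat_lit 188) (nat_lit 1092) (nat_lit 0) (XT.nd (nat_lit 94) (nat_lit 0) (nat_lit 0) (XT.lf (nat_lit 84) (nat_lit 23736754) (nat_lit 0) (nat_lit 7218788033) (nat_lit 1260) (nat_lit 4945404717) (nat_lit 183) (nat_lit 5) (nat_lit 182) (nat_lit 5) (nat_lit 197) (nat_lit 5) (nat_lit 358) (nat_lit 343) (nat_lit 244)) (XT.lf (nat_lit 84) (nat_lit 5831289926) (nat_lit 0) (nat_lit 2657083904) (nat_lit 1260) (nat_lit 3887951560) (nat_lit 183) (nat_lit 5) (nat_lit 182) (nat_lit 5) (nat_lit 197) (nat_lit 5) (nat_lit 359) (nat_lit 343) (nat_lit 243))) (XT.nd (nat_lit 94) (nat_lit 1176) (nat_lit 0) (XT.lf (nat_lit 0) (nat_lit 9773807805) (nat_lit 1176) (nat_lit 791518995) (nat_lit 84) (nat_lit 2005012614) (nat_lit 183) (nat_lit 5) (nat_lit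 197) (nat_lit 5) (nat_lit 184) (nat_lit 5) (nat_lit 360) (nat_lit 343) (nat_lit 242)) (XT.lf (nat_lit 0) (nat_lit 5195511688) (nat_lit 1176) (nat_lit 5961636113) (nat_lit 1260) (nat_lit 1611277366) (nat_lit 169) (nat_lit 5) (nat_lit 183) (nat_lit 5) (nat_lit 184) (nat_lit 5) (nat_lit 361) (nat_lit 343) (nat_lit 241)))) (XT.nd (nat_lit 188) (nat_lit 588) (nat_lit 0) (XT.nd (nat_lit 94) (nat_lit 1344) (nat_lit 0) (XT.lf (nat_lit 0) (nat_lit 11364350880) (nat_lit 1176) (nat_lit 1209080312) (nat_lit 1260) (nat_lit 399309684) (nat_lit 169) (nat_lit 5) (nat_lit 183) (nat_lit 5) (nat_lit 184) (nat_lit 5) (nat_lit 362) (nat_lit 343) (nat_lit 240)) (XT.lf (nat_lit 0) (nat_lit 896411677) (nat_lit 1344) (nat_lit 8615351332) (nat_lit 84) (nat_lit 3669288264) (nat_lit 153) (nat_lit 5) (nat_lit 169) (nat_lit 5) (nat_lit 154) (nat_lit 5) (nat_lit 363) (nat_lit 343) (nat_lit 239))) (XT.nd (nat_lit 94) (nat_lit 588) (nat_lit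 0) (XT.lf (nat_lit 0) (nat_lit 2235457065) (nat_lit 1344) (nat_lit 2467586401) (nat_lit 84) (nat_lit 8692102643) (nat_lit 153) (nat_lit 5) (nat_lit 169) (nat_lit 5) (nat_lit 154) (nat_lit 5) (nat_lit 364) (nat_lit 343) (nat_lit 238)) (XT.lf (nat_lit 0) (nat_lit 3639783736) (nat_lit 672) (nat_lit 9690506722) (nat_lit 84) (nat_lit 284647292) (nat_lit 146) (nat_lit 5) (nat_lit 154) (nat_lit 5) (nat_lit 147) (nat_lit 5) (nat_lit 365) (nat_lit 343) (nat_lit 237))))) (XT.nd (nat_lit 57340) (nat_lit 0) (nat_lit 4368) (XT.nd (nat_lit 188) (nat_lit 0) (nat_lit 0) (XT.nd (nat_lit 94) (nat_lit 588) (nat_lit 0) (XT.lf (nat_lit 0) (nat_lit 5142866467) (nat_lit 672) (nat_lit 3342892805) (nat_lit 84) (nat_lit 5353891542) (nat_lit 146) (nat_lit 5) (nat_lit 154) (nat_lit 5) (nat_lit 147) (nat_lit 5) (nat_lit 366) (nat_lit 343) (nat_lit 236)) (XT.lf (nat_lit 0) (nat_lit 3244581659) (nat_lit 588) (nat_lit 3462985798) (nat_lit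 672) (nat_lit 7363067734) (nat_lit 139) (nat_lit 5) (nat_lit 146) (nat_lit 5) (nat_lit 147) (nat_lit 5) (nat_lit 367) (nat_lit 343) (nat_lit 235))) (XT.nd (nat_lit 57058) (nat_lit 0) (nat_lit 4368) (XT.lf (nat_lit 0) (nat_lit 8355380270) (nat_lit 672) (nat_lit 4240313564) (nat_lit 84) (nat_lit 1711795085) (nat_lit 139) (nat_lit 5) (nat_lit 147) (nat_lit 5) (nat_lit 140) (nat_lit 5) (nat_lit 368) (nat_lit 343) (nat_lit 234)) (XT.lf (nat_lit 0) (nat_lit 1414033843) (nat_lit 0) (nat_lit 1414033843) (nat_lit 1092) (nat_lit 2238521836) (nat_lit 191) (nat_lit 5) (nat_lit 191) (nat_lit 3) (nat_lit 204) (nat_lit 3) (nat_lit 344) (nat_lit 344) (nat_lit 257)))) (XT.nd (nat_lit 188) (nat_lit 0) (nat_lit 0) (XT.nd (nat_lit 94) (nat_lit 0) (nat_lit 0) (XT.lf (nat_lit 0) (nat_lit 6383895399) (nat_lit 1092) (nat_lit 2911226292) (nat_lit 1176) (nat_lit 969506076) (nat_lit 191) (nat_lit 5) (nat_lit 204) (nat_lit 3) (nat_lit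 205) (nat_lit 5) (nat_lit 345) (nat_lit 344) (nat_lit 256)) (XT.lf (nat_lit 84) (nat_lit 1604514694) (nat_lit 0) (nat_lit 5547796251) (nat_lit 1176) (nat_lit 3247193552) (nat_lit 192) (nat_lit 5) (nat_lit 191) (nat_lit 5) (nat_lit 205) (nat_lit 5) (nat_lit 346) (nat_lit 344) (nat_lit 255))) (XT.nd (nat_lit 94) (nat_lit 0) (nat_lit 84) (XT.lf (nat_lit 84) (nat_lit 6302265469) (nat_lit 0) (nat_lit 1646899883) (nat_lit 1176) (nat_lit 2589148382) (nat_lit 192) (nat_lit 5) (nat_lit 191) (nat_lit 5) (nat_lit 205) (nat_lit 5) (nat_lit 347) (nat_lit 344) (nat_lit 254)) (XT.lf (nat_lit 84) (nat_lit 431689366) (nat_lit 0) (nat_lit 8341966949) (nat_lit 1176) (nat_lit 1907565409) (nat_lit 193) (nat_lit 5) (nat_lit 192) (nat_lit 5) (nat_lit 206) (nat_lit 5) (nat_lit 348) (nat_lit 344) (nat_lit 253)))))) (XT.nd (nat_lit 752) (nat_lit 2184) (nat_lit 0) (XT.nd (nat_lit 376) (nat_lit 0) (nat_lit 84) (XT.nd (nat_lit 188) (nat_lit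 1092) (nat_lit 0) (XT.nd (nat_lit 94) (nat_lit 0) (nat_lit 0) (XT.lf (nat_lit 84) (nat_lit 5296192641) (nat_lit 0) (nat_lit 4362947302) (nat_lit 1176) (nat_lit 1168234326) (nat_lit 193) (nat_lit 5) (nat_lit 192) (nat_lit 5) (nat_lit 206) (nat_lit 5) (nat_lit 349) (nat_lit 344) (nat_lit 252)) (XT.lf (nat_lit 84) (nat_lit 10293552506) (nat_lit 0) (nat_lit 255631765) (nat_lit 1176) (nat_lit 429430973) (nat_lit 193) (nat_lit 5) (nat_lit 192) (nat_lit 5) (nat_lit 206) (nat_lit 5) (nat_lit 350) (nat_lit 344) (nat_lit 251))) (XT.nd (nat_lit 94) (nat_lit 0) (nat_lit 0) (XT.lf (nat_lit 0) (nat_lit 384248967) (nat_lit 1176) (nat_lit 6796999296) (nat_lit 1260) (nat_lit 3951315348) (nat_lit 179) (nat_lit 5) (nat_lit 193) (nat_lit 5) (nat_lit 194) (nat_lit 5) (nat_lit 351) (nat_lit 344) (nat_lit 250)) (XT.lf (nat_lit 0) (nat_lit 1202191226) (nat_lit 1176) (nat_lit 1790711771) (nat_lit 1260) (nat_lit 8298485414) (nat_lit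 179) (nat_lit 5) (nat_lit 193) (nat_lit 5) (nat_lit 194) (nat_lit 5) (nat_lit 352) (nat_lit 344) (nat_lit 249)))) (XT.nd (nat_lit 188) (nat_lit 0) (nat_lit 0) (XT.nd (nat_lit 94) (nat_lit 0) (nat_lit 0) (XT.lf (nat_lit 0) (nat_lit 2070208750) (nat_lit 1176) (nat_lit 8048641620) (nat_lit 1260) (nat_lit 1335400339) (nat_lit 180) (nat_lit 5) (nat_lit 194) (nat_lit 5) (nat_lit 195) (nat_lit 5) (nat_lit 353) (nat_lit 344) (nat_lit 248)) (XT.lf (nat_lit 0) (nat_lit 2992271360) (nat_lit 1176) (nat_lit 2870699386) (nat_lit 1260) (nat_lit 5758225723) (nat_lit 180) (nat_lit 5) (nat_lit 194) (nat_lit 5) (nat_lit 195) (nat_lit 5) (nat_lit 354) (nat_lit 344) (nat_lit 247))) (XT.nd (nat_lit 94) (nat_lit 0) (nat_lit 84) (XT.lf (nat_lit 84) (nat_lit 2497769493) (nat_lit 0) (nat_lit 1448925902) (nat_lit 1260) (nat_lit 7846350851) (nat_lit 181) (nat_lit 5) (nat_lit 180) (nat_lit 5) (nat_lit 195) (nat_lit 5) (nat_lit 355) (nat_lit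 344) (nat_lit 246)) (XT.lf (nat_lit 0) (nat_lit 4969978426) (nat_lit 1176) (nat_lit 3927178947) (nat_lit 1260) (nat_lit 3071722921) (nat_lit 181) (nat_lit 5) (nat_lit 195) (nat_lit 5) (nat_lit 196) (nat_lit 5) (nat_lit 356) (nat_lit 344) (nat_lit 245))))) (XT.nd (nat_lit 376) (nat_lit 2352) (nat_lit 0) (XT.nd (nat_lit 188) (nat_lit 0) (nat_lit 84) (XT.nd (nat_lit 94) (nat_lit 0) (nat_lit 84) (XT.lf (nat_lit 84) (nat_lit 1605277062) (nat_lit 0) (nat_lit 4430183255) (nat_lit 1260) (nat_lit 6114218565) (nat_lit 182) (nat_lit 5) (nat_lit 181) (nat_lit 5) (nat_lit 196) (nat_lit 5) (nat_lit 357) (nat_lit 344) (nat_lit 244)) (XT.lf (nat_lit 0) (nat_lit 7156765636) (nat_lit 1176) (nat_lit 4966677346) (nat_lit 1260) (nat_lit 211776199) (nat_lit 182) (nat_lit 5) (nat_lit 196) (nat_lit 5) (nat_lit 197) (nat_lit 5) (nat_lit 358) (nat_lit 344) (nat_lit 243))) (XT.nd (nat_lit 94) (nat_lit 0) (nat_lit 0) (XT.lf (nat_lit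 84) (nat_lit 735131386) (nat_lit 0) (nat_lit 7610195536) (nat_lit 1260) (nat_lit 4180022808) (nat_lit 183) (nat_lit 5) (nat_lit 182) (nat_lit 5) (nat_lit 197) (nat_lit 5) (nat_lit 359) (nat_lit 344) (nat_lit 242)) (XT.lf (nat_lit 84) (nat_lit 6696211661) (nat_lit 0) (nat_lit 2906547744) (nat_lit 1260) (nat_lit 3117459960) (nat_lit 183) (nat_lit 5) (nat_lit 182) (nat_lit 5) (nat_lit 197) (nat_lit 5) (nat_lit 360) (nat_lit 344) (nat_lit 241)))) (XT.nd (nat_lit 188) (nat_lit 1344) (nat_lit 0) (XT.nd (nat_lit 94) (nat_lit 1176) (nat_lit 0) (XT.lf (nat_lit 0) (nat_lit 10900131366) (nat_lit 1176) (nat_lit 117196043) (nat_lit 84) (nat_lit 1903571864) (nat_lit 183) (nat_lit 5) (nat_lit 197) (nat_lit 5) (nat_lit 184) (nat_lit 5) (nat_lit 361) (nat_lit 344) (nat_lit 240)) (XT.lf (nat_lit 0) (nat_lit 6042601751) (nat_lit 1176) (nat_lit 6264748965) (nat_lit 1260) (nat_lit 818150858) (nat_lit 169) (nat_lit 5) (nat_lit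 183) (nat_lit 5) (nat_lit 184) (nat_lit 5) (nat_lit 362) (nat_lit 344) (nat_lit 239))) (XT.nd (nat_lit 94) (nat_lit 1260) (nat_lit 0) (XT.lf (nat_lit 0) (nat_lit 397751142) (nat_lit 1260) (nat_lit 964229508) (nat_lit 84) (nat_lit 11974605712) (nat_lit 168) (nat_lit 5) (nat_lit 183) (nat_lit 5) (nat_lit 169) (nat_lit 5) (nat_lit 363) (nat_lit 344) (nat_lit 238)) (XT.nd (nat_lit 94) (nat_lit 0) (nat_lit 0) (XT.lf (nat_lit 0) (nat_lit 1706555343) (nat_lit 1344) (nat_lit 8166206760) (nat_lit 84) (nat_lit 3678839756) (nat_lit 153) (nat_lit 5) (nat_lit 169) (nat_lit 5) (nat_lit 154) (nat_lit 5) (nat_lit 364) (nat_lit 344) (nat_lit 237)) (XT.lf (nat_lit 0) (nat_lit 3062958947) (nat_lit 1344) (nat_lit 1854618738) (nat_lit 84) (nat_lit 8855266542) (nat_lit 153) (nat_lit 5) (nat_lit 169) (nat_lit 5) (nat_lit 154) (nat_lit 5) (nat_lit 365) (nat_lit 344) (nat_lit 236))))))))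
noncomputable def xc58 : XT := (XT.nd (nat_lit 58656) (nat_lit 0) (nat_lit 0) (XT.nd (nat_lit 57904) (nat_lit 0) (nat_lit 2688) (XT.nd (nat_lit 57528) (nat_lit 0) (nat_lit 3780) (XT.nd (nat_lit 57340) (nat_lit 0) (nat_lit 3780) (XT.nd (nat_lit 94) (nat_lit 0) (nat_lit 0) (XT.lf (nat_lit 0) (nat_lit 4493185136) (nat_lit 672) (nat_lit 9276692387) (nat_lit 84) (nat_lit 229878122) (nat_lit 146) (nat_lit 5) (nat_lit 154) (nat_lit 5) (nat_lit 147) (nat_lit 5) (nat_lit 366) (nat_lit 344) (nat_lit 235)) (XT.lf (nat_lit 0) (nat_lit 6019684392) (nat_lit 672) (nat_lit 2759170330) (nat_lit 84) (nat_lit 5453043639) (nat_lit 146) (nat_lit 5) (nat_lit 154) (nat_lit 5) (nat_lit 147) (nat_lit 5) (nat_lit 367) (nat_lit 344) (nat_lit 234))) (XT.nd (nat_lit 94) (nat_lit 0) (nat_lit 0) (XT.lf (nat_lit 0) (nat_lit 1770116998) (nat_lit 0) (nat_lit 1770116998) (nat_lit 1092) (nat_lit 1658284184) (nat_lit 191) (nat_lit 5) (nat_lit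 191) (nat_lit 3) (nat_lit 204) (nat_lit 3) (nat_lit 345) (nat_lit 345) (nat_lit 255)) (XT.lf (nat_lit 0) (nat_lit 7787663071) (nat_lit 1092) (nat_lit 2344686809) (nat_lit 1176) (nat_lit 401423372) (nat_lit 191) (nat_lit 5) (nat_lit 204) (nat_lit 3) (nat_lit 205) (nat_lit 5) (nat_lit 346) (nat_lit 345) (nat_lit 254)))) (XT.nd (nat_lit 188) (nat_lit 0) (nat_lit 84) (XT.nd (nat_lit 94) (nat_lit 0) (nat_lit 0) (XT.lf (nat_lit 84) (nat_lit 2300115855) (nat_lit 0) (nat_lit 6249930789) (nat_lit 1176) (nat_lit 2123592828) (nat_lit 192) (nat_lit 5) (nat_lit 191) (nat_lit 5) (nat_lit 205) (nat_lit 5) (nat_lit 347) (nat_lit 345) (nat_lit 253)) (XT.lf (nat_lit 84) (nat_lit 7119940928) (nat_lit 0) (nat_lit 2216404599) (nat_lit 1176) (nat_lit 1481369891) (nat_lit 192) (nat_lit 5) (nat_lit 191) (nat_lit 5) (nat_lit 205) (nat_lit 5) (nat_lit 348) (nat_lit 345) (nat_lit 252))) (XT.nd (nat_lit 94) (nat_lit 0) (nat_lit 0) (XT.lf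 (nat_lit 84) (nat_lit 1108422662) (nat_lit 0) (nat_lit 9045217927) (nat_lit 1176) (nat_lit 812294577) (nat_lit 193) (nat_lit 5) (nat_lit 192) (nat_lit 5) (nat_lit 206) (nat_lit 5) (nat_lit 349) (nat_lit 345) (nat_lit 251)) (XT.lf (nat_lit 84) (nat_lit 6099527561) (nat_lit 0) (nat_lit 4933633749) (nat_lit 1176) (nat_lit 84351458) (nat_lit 193) (nat_lit 5) (nat_lit 192) (nat_lit 5) (nat_lit 206) (nat_lit 5) (nat_lit 350) (nat_lit 345) (nat_lit 250))))) (XT.nd (nat_lit 376) (nat_lit 0) (nat_lit 168) (XT.nd (nat_lit 188) (nat_lit 0) (nat_lit 84) (XT.nd (nat_lit 94) (nat_lit 0) (nat_lit 84) (XT.lf (nat_lit 0) (nat_lit 631458540) (nat_lit 1176) (nat_lit 52454061) (nat_lit 1260) (nat_lit 10590202825) (nat_lit 178) (nat_lit 5) (nat_lit 192) (nat_lit 5) (nat_lit 193) (nat_lit 5) (nat_lit 351) (nat_lit 345) (nat_lit 249)) (XT.lf (nat_lit 0) (nat_lit 1432247371) (nat_lit 1176) (nat_lit 6321357719) (nat_lit 1260) (nat_lit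 3679868884) (nat_lit 179) (nat_lit 5) (nat_lit 193) (nat_lit 5) (nat_lit 194) (nat_lit 5) (nat_lit 352) (nat_lit 345) (nat_lit 248))) (XT.nd (nat_lit 94) (nat_lit 0) (nat_lit 84) (XT.lf (nat_lit 0) (nat_lit 2244539424) (nat_lit 1176) (nat_lit 1184674333) (nat_lit 1260) (nat_lit 8168812865) (nat_lit 179) (nat_lit 5) (nat_lit 193) (nat_lit 5) (nat_lit 194) (nat_lit 5) (nat_lit 353) (nat_lit 345) (nat_lit 247)) (XT.lf (nat_lit 0) (nat_lit 3112396303) (nat_lit 1176) (nat_lit 7602281714) (nat_lit 1260) (nat_lit 1051938582) (nat_lit 180) (nat_lit 5) (nat_lit 194) (nat_lit 5) (nat_lit 195) (nat_lit 5) (nat_lit 354) (nat_lit 345) (nat_lit 246)))) (XT.nd (nat_lit 188) (nat_lit 0) (nat_lit 84) (XT.nd (nat_lit 94) (nat_lit 0) (nat_lit 0) (XT.lf (nat_lit 0) (nat_lit 4033574734) (nat_lit 1176) (nat_lit 2289034781) (nat_lit 1260) (nat_lit 5616871750) (nat_lit 180) (nat_lit 5) (nat_lit 194) (nat_lit 5) (nat_lit 195) (nat_lit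 5) (nat_lit 355) (nat_lit 345) (nat_lit 245)) (XT.lf (nat_lit 84) (nat_lit 3233941248) (nat_lit 0) (nat_lit 1761331855) (nat_lit 1260) (nat_lit 7121906759) (nat_lit 181) (nat_lit 5) (nat_lit 180) (nat_lit 5) (nat_lit 195) (nat_lit 5) (nat_lit 356) (nat_lit 345) (nat_lit 244))) (XT.nd (nat_lit 94) (nat_lit 0) (nat_lit 0) (XT.lf (nat_lit 0) (nat_lit 6019652194) (nat_lit 1176) (nat_lit 3371711169) (nat_lit 1260) (nat_lit 2907864683) (nat_lit 181) (nat_lit 5) (nat_lit 195) (nat_lit 5) (nat_lit 196) (nat_lit 5) (nat_lit 357) (nat_lit 345) (nat_lit 243)) (XT.lf (nat_lit 84) (nat_lit 2320117704) (nat_lit 0) (nat_lit 4777159072) (nat_lit 1260) (nat_lit 5388818024) (nat_lit 182) (nat_lit 5) (nat_lit 181) (nat_lit 5) (nat_lit 196) (nat_lit 5) (nat_lit 358) (nat_lit 345) (nat_lit 242)))))) (XT.nd (nat_lit 752) (nat_lit 588) (nat_lit 0) (XT.nd (nat_lit 376) (nat_lit 1344) (nat_lit 0) (XT.nd (nat_lit 188) (nat_lit 1092)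 (nat_lit 0) (XT.nd (nat_lit 94) (nat_lit 0) (nat_lit 0) (XT.lf (nat_lit 0) (nat_lit 8224570426) (nat_lit 1176) (nat_lit 4439158683) (nat_lit 1260) (nat_lit 14349837) (nat_lit 182) (nat_lit 5) (nat_lit 196) (nat_lit 5) (nat_lit 197) (nat_lit 5) (nat_lit 359) (nat_lit 345) (nat_lit 241)) (XT.lf (nat_lit 84) (nat_lit 1427071772) (nat_lit 0) (nat_lit 8003308512) (nat_lit 1260) (nat_lit 3444132088) (nat_lit 183) (nat_lit 5) (nat_lit 182) (nat_lit 5) (nat_lit 197) (nat_lit 5) (nat_lit 360) (nat_lit 345) (nat_lit 240))) (XT.nd (nat_lit 94) (nat_lit 1092) (nat_lit 0) (XT.lf (nat_lit 84) (nat_lit 7547473200) (nat_lit 0) (nat_lit 3153751078) (nat_lit 1260) (nat_lit 2374778512) (nat_lit 183) (nat_lit 5) (nat_lit 182) (nat_lit 5) (nat_lit 197) (nat_lit 5) (nat_lit 361) (nat_lit 345) (nat_lit 239)) (XT.lf (nat_lit 0) (nat_lit 547977625) (nat_lit 1176) (nat_lit 11469710620) (nat_lit 1260) (nat_lit 1265653753) (nat_lit 169)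 (nat_lit 5) (nat_lit 183) (nat_lit 5) (nat_lit 184) (nat_lit 5) (nat_lit 362) (nat_lit 345) (nat_lit 238)))) (XT.nd (nat_lit 188) (nat_lit 1260) (nat_lit 0) (XT.nd (nat_lit 94) (nat_lit 84) (nat_lit 0) (XT.lf (nat_lit 0) (nat_lit 6875425390) (nat_lit 1176) (nat_lit 6569821954) (nat_lit 1260) (nat_lit 49534078) (nat_lit 169) (nat_lit 5) (nat_lit 183) (nat_lit 5) (nat_lit 184) (nat_lit 5) (nat_lit 363) (nat_lit 345) (nat_lit 237)) (XT.lf (nat_lit 0) (nat_lit 1164716561) (nat_lit 1260) (nat_lit 344218108) (nat_lit 84) (nat_lit 12203755177) (nat_lit 168) (nat_lit 5) (nat_lit 183) (nat_lit 5) (nat_lit 169) (nat_lit 5) (nat_lit 364) (nat_lit 345) (nat_lit 236))) (XT.nd (nat_lit 94) (nat_lit 0) (nat_lit 0) (XT.lf (nat_lit 0) (nat_lit 2496041489) (nat_lit 1344) (nat_lit 7744207278) (nat_lit 84) (nat_lit 3694448463) (nat_lit 153) (nat_lit 5) (nat_lit 169) (nat_lit 5) (nat_lit 154) (nat_lit 5) (nat_lit 365) (nat_lit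 345) (nat_lit 235)) (XT.lf (nat_lit 0) (nat_lit 3871633624) (nat_lit 1344) (nat_lit 1262698384) (nat_lit 84) (nat_lit 9028927950) (nat_lit 153) (nat_lit 5) (nat_lit 169) (nat_lit 5) (nat_lit 154) (nat_lit 5) (nat_lit 366) (nat_lit 345) (nat_lit 234))))) (XT.nd (nat_lit 57622) (nat_lit 0) (nat_lit 2688) (XT.nd (nat_lit 57434) (nat_lit 0) (nat_lit 3780) (XT.nd (nat_lit 57340) (nat_lit 0) (nat_lit 3780) (XT.lf (nat_lit 0) (nat_lit 5329468002) (nat_lit 672) (nat_lit 8890906499) (nat_lit 84) (nat_lit 177100049) (nat_lit 146) (nat_lit 5) (nat_lit 154) (nat_lit 5) (nat_lit 147) (nat_lit 5) (nat_lit 367) (nat_lit 345) (nat_lit 233)) (XT.lf (nat_lit 0) (nat_lit 2118877158) (nat_lit 0) (nat_lit 2118877158) (nat_lit 1092) (nat_lit 1097802426) (nat_lit 191) (nat_lit 5) (nat_lit 191) (nat_lit 3) (nat_lit 204) (nat_lit 3) (nat_lit 346) (nat_lit 346) (nat_lit 253))) (XT.nd (nat_lit 94) (nat_lit 0) (nat_lit 0) (XT.lf (nat_lit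 0) (nat_lit 9013024815) (nat_lit 0) (nat_lit 152395723) (nat_lit 1092) (nat_lit 1647755512) (nat_lit 191) (nat_lit 5) (nat_lit 191) (nat_lit 3) (nat_lit 204) (nat_lit 3) (nat_lit 347) (nat_lit 346) (nat_lit 252)) (XT.lf (nat_lit 84) (nat_lit 2979417870) (nat_lit 0) (nat_lit 6942377955) (nat_lit 1176) (nat_lit 1036375426) (nat_lit 192) (nat_lit 5) (nat_lit 191) (nat_lit 5) (nat_lit 205) (nat_lit 5) (nat_lit 348) (nat_lit 346) (nat_lit 251)))) (XT.nd (nat_lit 188) (nat_lit 0) (nat_lit 0) (XT.nd (nat_lit 94) (nat_lit 1092) (nat_lit 0) (XT.lf (nat_lit 84) (nat_lit 7926062009) (nat_lit 0) (nat_lit 2773138719) (nat_lit 1176) (nat_lit 408407894) (nat_lit 192) (nat_lit 5) (nat_lit 191) (nat_lit 5) (nat_lit 205) (nat_lit 5) (nat_lit 349) (nat_lit 346) (nat_lit 250)) (XT.lf (nat_lit 0) (nat_lit 244804207) (nat_lit 1176) (nat_lit 9496286591) (nat_lit 1260) (nat_lit 1520077870) (nat_lit 178) (nat_lit 5) (nat_lit 192)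 (nat_lit 5) (nat_lit 193) (nat_lit 5) (nat_lit 350) (nat_lit 346) (nat_lit 249))) (XT.nd (nat_lit 94) (nat_lit 0) (nat_lit 0) (XT.lf (nat_lit 0) (nat_lit 948931150) (nat_lit 1176) (nat_lit 4537681089) (nat_lit 1260) (nat_lit 5931455018) (nat_lit 178) (nat_lit 5) (nat_lit 192) (nat_lit 5) (nat_lit 193) (nat_lit 5) (nat_lit 351) (nat_lit 346) (nat_lit 248)) (XT.nd (nat_lit 94) (nat_lit 0) (nat_lit 84) (XT.lf (nat_lit 84) (nat_lit 568729018) (nat_lit 0) (nat_lit 1091138086) (nat_lit 1260) (nat_lit 9920272873) (nat_lit 179) (nat_lit 5) (nat_lit 178) (nat_lit 5) (nat_lit 193) (nat_lit 5) (nat_lit 352) (nat_lit 346) (nat_lit 247)) (XT.lf (nat_lit 0) (nat_lit 2452188055) (nat_lit 1176) (nat_lit 5870455935) (nat_lit 1260) (nat_lit 3422665813) (nat_lit 179) (nat_lit 5) (nat_lit 193) (nat_lit 5) (nat_lit 194) (nat_lit 5) (nat_lit 353) (nat_lit 346) (nat_lit 246))))))))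
noncomputable def xc59 : XT := (XT.nd (nat_lit 58938) (nat_lit 0) (nat_lit 0) (XT.nd (nat_lit 752) (nat_lit 2184) (nat_lit 0) (XT.nd (nat_lit 376) (nat_lit 0) (nat_lit 168) (XT.nd (nat_lit 188) (nat_lit 0) (nat_lit 84) (XT.nd (nat_lit 94) (nat_lit 0) (nat_lit 84) (XT.lf (nat_lit 0) (nat_lit 3260393338) (nat_lit 1176) (nat_lit 598328625) (nat_lit 1260) (nat_lit 8056984885) (nat_lit 179) (nat_lit 5) (nat_lit 193) (nat_lit 5) (nat_lit 194) (nat_lit 5) (nat_lit 354) (nat_lit 346) (nat_lit 245)) (XT.lf (nat_lit 0) (nat_lit 4129588807) (nat_lit 1176) (nat_lit 7182014644) (nat_lit 1260) (nat_lit 778544561) (nat_lit 180) (nat_lit 5) (nat_lit 194) (nat_lit 5) (nat_lit 195) (nat_lit 5) (nat_lit 355) (nat_lit 346) (nat_lit 244))) (XT.nd (nat_lit 94) (nat_lit 0) (nat_lit 0) (XT.lf (nat_lit 0) (nat_lit 5051495195) (nat_lit 1176) (nat_lit 1728253862) (nat_lit 1260) (nat_lit 5489307826) (nat_lit 180) (nat_lit 5) (nat_lit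 194) (nat_lit 5) (nat_lit 195) (nat_lit 5) (nat_lit 356) (nat_lit 346) (nat_lit 243)) (XT.lf (nat_lit 84) (nat_lit 3954240350) (nat_lit 0) (nat_lit 2067671835) (nat_lit 1260) (nat_lit 6430827777) (nat_lit 181) (nat_lit 5) (nat_lit 180) (nat_lit 5) (nat_lit 195) (nat_lit 5) (nat_lit 357) (nat_lit 346) (nat_lit 242)))) (XT.nd (nat_lit 188) (nat_lit 0) (nat_lit 0) (XT.nd (nat_lit 94) (nat_lit 0) (nat_lit 0) (XT.lf (nat_lit 0) (nat_lit 7049119519) (nat_lit 1176) (nat_lit 2838228566) (nat_lit 1260) (nat_lit 2753786715) (nat_lit 181) (nat_lit 5) (nat_lit 195) (nat_lit 5) (nat_lit 196) (nat_lit 5) (nat_lit 358) (nat_lit 346) (nat_lit 241)) (XT.lf (nat_lit 84) (nat_lit 3018133273) (nat_lit 0) (nat_lit 5122255653) (nat_lit 1260) (nat_lit 4693825860) (nat_lit 182) (nat_lit 5) (nat_lit 181) (nat_lit 5) (nat_lit 196) (nat_lit 5) (nat_lit 359) (nat_lit 346) (nat_lit 240))) (XT.nd (nat_lit 94) (nat_lit 0) (nat_lit 84) (XT.lf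 (nat_lit 84) (nat_lit 9096345897) (nat_lit 0) (nat_lit 180830177) (nat_lit 1260) (nat_lit 3755557490) (nat_lit 182) (nat_lit 5) (nat_lit 181) (nat_lit 5) (nat_lit 196) (nat_lit 5) (nat_lit 360) (nat_lit 346) (nat_lit 239)) (XT.lf (nat_lit 84) (nat_lit 2101316147) (nat_lit 0) (nat_lit 8398754274) (nat_lit 1260) (nat_lit 2735606297) (nat_lit 183) (nat_lit 5) (nat_lit 182) (nat_lit 5) (nat_lit 197) (nat_lit 5) (nat_lit 361) (nat_lit 346) (nat_lit 238))))) (XT.nd (nat_lit 376) (nat_lit 0) (nat_lit 0) (XT.nd (nat_lit 188) (nat_lit 1344) (nat_lit 0) (XT.nd (nat_lit 94) (nat_lit 1092) (nat_lit 0) (XT.lf (nat_lit 84) (nat_lit 8386938388) (nat_lit 0) (nat_lit 3399185462) (nat_lit 1260) (nat_lit 1657818223) (nat_lit 183) (nat_lit 5) (nat_lit 182) (nat_lit 5) (nat_lit 197) (nat_lit 5) (nat_lit 362) (nat_lit 346) (nat_lit 237)) (XT.lf (nat_lit 0) (nat_lit 1196985484) (nat_lit 1176) (nat_lit 11927520890) (nat_lit 1260)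 (nat_lit 533563846) (nat_lit 169) (nat_lit 5) (nat_lit 183) (nat_lit 5) (nat_lit 184) (nat_lit 5) (nat_lit 363) (nat_lit 346) (nat_lit 236))) (XT.nd (nat_lit 94) (nat_lit 1260) (nat_lit 0) (XT.lf (nat_lit 0) (nat_lit 683017120) (nat_lit 1260) (nat_lit 6187409107) (nat_lit 84) (nat_lit 7005918102) (nat_lit 168) (nat_lit 5) (nat_lit 183) (nat_lit 5) (nat_lit 169) (nat_lit 5) (nat_lit 364) (nat_lit 346) (nat_lit 235)) (XT.lf (nat_lit 0) (nat_lit 262259549) (nat_lit 1260) (nat_lit 1651610416) (nat_lit 1344) (nat_lit 12187508199) (nat_lit 153) (nat_lit 5) (nat_lit 168) (nat_lit 5) (nat_lit 169) (nat_lit 5) (nat_lit 365) (nat_lit 346) (nat_lit 234)))) (XT.nd (nat_lit 57528) (nat_lit 0) (nat_lit 2016) (XT.nd (nat_lit 94) (nat_lit 0) (nat_lit 0) (XT.lf (nat_lit 0) (nat_lit 3266831383) (nat_lit 1344) (nat_lit 7347835519) (nat_lit 84) (nat_lit 3715964841) (nat_lit 153) (nat_lit 5) (nat_lit 169) (nat_lit 5) (nat_lit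 154) (nat_lit 5) (nat_lit 366) (nat_lit 346) (nat_lit 233)) (XT.lf (nat_lit 0) (nat_lit 4663422098) (nat_lit 1344) (nat_lit 690192949) (nat_lit 84) (nat_lit 9213080181) (nat_lit 153) (nat_lit 5) (nat_lit 169) (nat_lit 5) (nat_lit 154) (nat_lit 5) (nat_lit 367) (nat_lit 346) (nat_lit 232))) (XT.nd (nat_lit 94) (nat_lit 1176) (nat_lit 0) (XT.lf (nat_lit 0) (nat_lit 2461128221) (nat_lit 0) (nat_lit 2461128221) (nat_lit 1092) (nat_lit 555535931) (nat_lit 191) (nat_lit 5) (nat_lit 191) (nat_lit 3) (nat_lit 204) (nat_lit 3) (nat_lit 347) (nat_lit 347) (nat_lit 251)) (XT.nd (nat_lit 94) (nat_lit 1176) (nat_lit 0) (XT.lf (nat_lit 0) (nat_lit 9824550994) (nat_lit 0) (nat_lit 698103029) (nat_lit 1092) (nat_lit 580293870) (nat_lit 191) (nat_lit 5) (nat_lit 191) (nat_lit 3) (nat_lit 204) (nat_lit 3) (nat_lit 348) (nat_lit 347) (nat_lit 250)) (XT.lf (nat_lit 0) (nat_lit 17051328) (nat_lit 1176) (nat_lit 7609388870) (nat_lit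 1260) (nat_lit 3626841798) (nat_lit 177) (nat_lit 5) (nat_lit 191) (nat_lit 5) (nat_lit 192) (nat_lit 5) (nat_lit 349) (nat_lit 347) (nat_lit 249))))))) (XT.nd (nat_lit 752) (nat_lit 2016) (nat_lit 0) (XT.nd (nat_lit 376) (nat_lit 0) (nat_lit 168) (XT.nd (nat_lit 188) (nat_lit 0) (nat_lit 84) (XT.nd (nat_lit 94) (nat_lit 0) (nat_lit 84) (XT.lf (nat_lit 0) (nat_lit 620255159) (nat_lit 1176) (nat_lit 2691914447) (nat_lit 1260) (nat_lit 8095834966) (nat_lit 177) (nat_lit 5) (nat_lit 191) (nat_lit 5) (nat_lit 192) (nat_lit 5) (nat_lit 350) (nat_lit 347) (nat_lit 248)) (XT.lf (nat_lit 0) (nat_lit 1256146171) (nat_lit 1176) (nat_lit 9169516439) (nat_lit 1260) (nat_lit 1141306216) (nat_lit 178) (nat_lit 5) (nat_lit 192) (nat_lit 5) (nat_lit 193) (nat_lit 5) (nat_lit 351) (nat_lit 347) (nat_lit 247))) (XT.nd (nat_lit 94) (nat_lit 0) (nat_lit 0) (XT.lf (nat_lit 0) (nat_lit 1952154267) (nat_lit 1176) (nat_lit 4079968075)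 (nat_lit 1260) (nat_lit 5697385085) (nat_lit 178) (nat_lit 5) (nat_lit 192) (nat_lit 5) (nat_lit 193) (nat_lit 5) (nat_lit 352) (nat_lit 347) (nat_lit 246)) (XT.lf (nat_lit 84) (nat_lit 1173812340) (nat_lit 0) (nat_lit 1487867453) (nat_lit 1260) (nat_lit 9235498841) (nat_lit 179) (nat_lit 5) (nat_lit 178) (nat_lit 5) (nat_lit 193) (nat_lit 5) (nat_lit 353) (nat_lit 347) (nat_lit 245)))) (XT.nd (nat_lit 188) (nat_lit 0) (nat_lit 84) (XT.nd (nat_lit 94) (nat_lit 0) (nat_lit 0) (XT.lf (nat_lit 0) (nat_lit 3446644699) (nat_lit 1176) (nat_lit 5442796858) (nat_lit 1260) (nat_lit 3178848344) (nat_lit 179) (nat_lit 5) (nat_lit 193) (nat_lit 5) (nat_lit 194) (nat_lit 5) (nat_lit 354) (nat_lit 347) (nat_lit 244)) (XT.lf (nat_lit 0) (nat_lit 4252274072) (nat_lit 1176) (nat_lit 30091342) (nat_lit 1260) (nat_lit 7962289147) (nat_lit 179) (nat_lit 5) (nat_lit 193) (nat_lit 5) (nat_lit 194) (nat_lit 5) (nat_lit 355) (nat_lit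 347) (nat_lit 243))) (XT.nd (nat_lit 94) (nat_lit 0) (nat_lit 0) (XT.lf (nat_lit 0) (nat_lit 5124266004) (nat_lit 1176) (nat_lit 6786356673) (nat_lit 1260) (nat_lit 514454221) (nat_lit 180) (nat_lit 5) (nat_lit 194) (nat_lit 5) (nat_lit 195) (nat_lit 5) (nat_lit 356) (nat_lit 347) (nat_lit 242)) (XT.lf (nat_lit 0) (nat_lit 6048466781) (nat_lit 1176) (nat_lit 1186782633) (nat_lit 1260) (nat_lit 5374912617) (nat_lit 180) (nat_lit 5) (nat_lit 194) (nat_lit 5) (nat_lit 195) (nat_lit 5) (nat_lit 357) (nat_lit 347) (nat_lit 241))))) (XT.nd (nat_lit 376) (nat_lit 2268) (nat_lit 0) (XT.nd (nat_lit 188) (nat_lit 0) (nat_lit 84) (XT.nd (nat_lit 94) (nat_lit 0) (nat_lit 84) (XT.lf (nat_lit 84) (nat_lit 4660369554) (nat_lit 0) (nat_lit 2368650077) (nat_lit 1260) (nat_lit 5770951985) (nat_lit 181) (nat_lit 5) (nat_lit 180) (nat_lit 5) (nat_lit 195) (nat_lit 5) (nat_lit 358) (nat_lit 347) (nat_lit 240)) (XT.lf (nat_lit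 0) (nat_lit 8060741808) (nat_lit 1176) (nat_lit 2325172068) (nat_lit 1260) (nat_lit 2608938813) (nat_lit 181) (nat_lit 5) (nat_lit 195) (nat_lit 5) (nat_lit 196) (nat_lit 5) (nat_lit 359) (nat_lit 347) (nat_lit 239))) (XT.nd (nat_lit 94) (nat_lit 0) (nat_lit 0) (XT.lf (nat_lit 84) (nat_lit 3701015886) (nat_lit 0) (nat_lit 5466122029) (nat_lit 1260) (nat_lit 4027159530) (nat_lit 182) (nat_lit 5) (nat_lit 181) (nat_lit 5) (nat_lit 196) (nat_lit 5) (nat_lit 360) (nat_lit 347) (nat_lit 238)) (XT.lf (nat_lit 84) (nat_lit 9944322309) (nat_lit 0) (nat_lit 370914021) (nat_lit 1260) (nat_lit 3084261976) (nat_lit 182) (nat_lit 5) (nat_lit 181) (nat_lit 5) (nat_lit 196) (nat_lit 5) (nat_lit 361) (nat_lit 347) (nat_lit 237)))) (XT.nd (nat_lit 188) (nat_lit 2436) (nat_lit 0) (XT.nd (nat_lit 94) (nat_lit 0) (nat_lit 0) (XT.lf (nat_lit 84) (nat_lit 2759541061) (nat_lit 0) (nat_lit 8797145884) (nat_lit 1260) (nat_lit 2052428229)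 (nat_lit 183) (nat_lit 5) (nat_lit 182) (nat_lit 5) (nat_lit 197) (nat_lit 5) (nat_lit 362) (nat_lit 347) (nat_lit 236)) (XT.lf (nat_lit 84) (nat_lit 9216396471) (nat_lit 0) (nat_lit 3643325086) (nat_lit 1260) (nat_lit 964595238) (nat_lit 183) (nat_lit 5) (nat_lit 182) (nat_lit 5) (nat_lit 197) (nat_lit 5) (nat_lit 363) (nat_lit 347) (nat_lit 235))) (XT.nd (nat_lit 94) (nat_lit 1260) (nat_lit 0) (XT.lf (nat_lit 0) (nat_lit 172844252) (nat_lit 1260) (nat_lit 12217947895) (nat_lit 84) (nat_lit 1654561918) (nat_lit 168) (nat_lit 5) (nat_lit 183) (nat_lit 5) (nat_lit 169) (nat_lit 5) (nat_lit 364) (nat_lit 347) (nat_lit 234)) (XT.nd (nat_lit 94) (nat_lit 1260) (nat_lit 0) (XT.lf (nat_lit 0) (nat_lit 1394469681) (nat_lit 1260) (nat_lit 5779160921) (nat_lit 84) (nat_lit 7097046051) (nat_lit 168) (nat_lit 5) (nat_lit 183) (nat_lit 5) (nat_lit 169) (nat_lit 5) (nat_lit 365) (nat_lit 347) (nat_lit 233)) (XT.lf (nat_lit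 0) (nat_lit 858175536) (nat_lit 1260) (nat_lit 1789600147) (nat_lit 1344) (nat_lit 11855155794) (nat_lit 153) (nat_lit 5) (nat_lit 168) (nat_lit 5) (nat_lit 169) (nat_lit 5) (nat_lit 366) (nat_lit 347) (nat_lit 232))))))))
noncomputable def xc60 : XT := (XT.nd (nat_lit 58938) (nat_lit 0) (nat_lit 1260) (XT.nd (nat_lit 58186) (nat_lit 0) (nat_lit 2184) (XT.nd (nat_lit 57810) (nat_lit 0) (nat_lit 2016) (XT.nd (nat_lit 57622) (nat_lit 0) (nat_lit 1932) (XT.nd (nat_lit 57528) (nat_lit 0) (nat_lit 3192) (XT.lf (nat_lit 0) (nat_lit 4020796971) (nat_lit 1344) (nat_lit 6975662442) (nat_lit 84) (nat_lit 3743253876) (nat_lit 153) (nat_lit 5) (nat_lit 169) (nat_lit 5) (nat_lit 154) (nat_lit 5) (nat_lit 367) (nat_lit 347) (nat_lit 231)) (XT.lf (nat_lit 0) (nat_lit 2797649172) (nat_lit 0) (nat_lit 2797649172) (nat_lit 1092) (nat_lit 30020306) (nat_lit 191) (nat_lit 5) (nat_lit 191) (nat_lit 3) (nat_lit 204) (nat_lit 3)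 (nat_lit 348) (nat_lit 348) (nat_lit 249))) (XT.nd (nat_lit 94) (nat_lit 0) (nat_lit 84) (XT.lf (nat_lit 0) (nat_lit 446197121) (nat_lit 1260) (nat_lit 778415329) (nat_lit 1260) (nat_lit 10178656733) (nat_lit 176) (nat_lit 3) (nat_lit 191) (nat_lit 3) (nat_lit 191) (nat_lit 5) (nat_lit 349) (nat_lit 348) (nat_lit 248)) (XT.lf (nat_lit 0) (nat_lit 1020190729) (nat_lit 1176) (nat_lit 7273558961) (nat_lit 1260) (nat_lit 3265136963) (nat_lit 177) (nat_lit 5) (nat_lit 191) (nat_lit 5) (nat_lit 192) (nat_lit 5) (nat_lit 350) (nat_lit 348) (nat_lit 247)))) (XT.nd (nat_lit 188) (nat_lit 0) (nat_lit 84) (XT.nd (nat_lit 94) (nat_lit 0) (nat_lit 84) (XT.lf (nat_lit 0) (nat_lit 1612287922) (nat_lit 1176) (nat_lit 2224990739) (nat_lit 1260) (nat_lit 7881904103) (nat_lit 177) (nat_lit 5) (nat_lit 191) (nat_lit 5) (nat_lit 192) (nat_lit 5) (nat_lit 351) (nat_lit 348) (nat_lit 246)) (XT.lf (nat_lit 0) (nat_lit 2240194810)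 (nat_lit 1176) (nat_lit 8868054897) (nat_lit 1260) (nat_lit 775532215) (nat_lit 178) (nat_lit 5) (nat_lit 192) (nat_lit 5) (nat_lit 193) (nat_lit 5) (nat_lit 352) (nat_lit 348) (nat_lit 245))) (XT.nd (nat_lit 94) (nat_lit 0) (nat_lit 0) (XT.lf (nat_lit 0) (nat_lit 2929519142) (nat_lit 1176) (nat_lit 3642612713) (nat_lit 1260) (nat_lit 5479944320) (nat_lit 178) (nat_lit 5) (nat_lit 192) (nat_lit 5) (nat_lit 193) (nat_lit 5) (nat_lit 353) (nat_lit 348) (nat_lit 244)) (XT.lf (nat_lit 84) (nat_lit 1763293326) (nat_lit 0) (nat_lit 1875603886) (nat_lit 1260) (nat_lit 8586574347) (nat_lit 179) (nat_lit 5) (nat_lit 178) (nat_lit 5) (nat_lit 193) (nat_lit 5) (nat_lit 354) (nat_lit 348) (nat_lit 243))))) (XT.nd (nat_lit 376) (nat_lit 0) (nat_lit 84) (XT.nd (nat_lit 188) (nat_lit 0) (nat_lit 84) (XT.nd (nat_lit 94) (nat_lit 0) (nat_lit 0) (XT.lf (nat_lit 0) (nat_lit 4418072130) (nat_lit 1176) (nat_lit 5036967034) (nat_lit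 1260) (nat_lit 2947606722) (nat_lit 179) (nat_lit 5) (nat_lit 193) (nat_lit 5) (nat_lit 194) (nat_lit 5) (nat_lit 355) (nat_lit 348) (nat_lit 242)) (XT.lf (nat_lit 84) (nat_lit 531923256) (nat_lit 0) (nat_lit 4695777928) (nat_lit 1260) (nat_lit 7357253491) (nat_lit 180) (nat_lit 5) (nat_lit 179) (nat_lit 5) (nat_lit 194) (nat_lit 5) (nat_lit 356) (nat_lit 348) (nat_lit 241))) (XT.nd (nat_lit 94) (nat_lit 0) (nat_lit 0) (XT.lf (nat_lit 0) (nat_lit 6098796635) (nat_lit 1176) (nat_lit 6413909660) (nat_lit 1260) (nat_lit 258941786) (nat_lit 180) (nat_lit 5) (nat_lit 194) (nat_lit 5) (nat_lit 195) (nat_lit 5) (nat_lit 357) (nat_lit 348) (nat_lit 240)) (XT.lf (nat_lit 0) (nat_lit 7026816562) (nat_lit 1176) (nat_lit 663126196) (nat_lit 1260) (nat_lit 5273105568) (nat_lit 180) (nat_lit 5) (nat_lit 194) (nat_lit 5) (nat_lit 195) (nat_lit 5) (nat_lit 358) (nat_lit 348) (nat_lit 239)))) (XT.nd (nat_lit 188) (nat_lit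 0) (nat_lit 84) (XT.nd (nat_lit 94) (nat_lit 0) (nat_lit 84) (XT.lf (nat_lit 84) (nat_lit 5353957616) (nat_lit 0) (nat_lit 2664941068) (nat_lit 1260) (nat_lit 5140234163) (nat_lit 181) (nat_lit 5) (nat_lit 180) (nat_lit 5) (nat_lit 195) (nat_lit 5) (nat_lit 359) (nat_lit 348) (nat_lit 238)) (XT.lf (nat_lit 0) (nat_lit 9056780957) (nat_lit 1176) (nat_lit 1831063196) (nat_lit 1260) (nat_lit 2472802695) (nat_lit 181) (nat_lit 5) (nat_lit 195) (nat_lit 5) (nat_lit 196) (nat_lit 5) (nat_lit 360) (nat_lit 348) (nat_lit 237))) (XT.nd (nat_lit 94) (nat_lit 0) (nat_lit 0) (XT.lf (nat_lit 84) (nat_lit 4370382319) (nat_lit 0) (nat_lit 5809386213) (nat_lit 1260) (nat_lit 3386845929) (nat_lit 182) (nat_lit 5) (nat_lit 181) (nat_lit 5) (nat_lit 196) (nat_lit 5) (nat_lit 361) (nat_lit 348) (nat_lit 236)) (XT.lf (nat_lit 84) (nat_lit 10784725722) (nat_lit 0) (nat_lit 556100202) (nat_lit 1260) (nat_lit 2437830237) (nat_lit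 182) (nat_lit 5) (nat_lit 181) (nat_lit 5) (nat_lit 196) (nat_lit 5) (nat_lit 362) (nat_lit 348) (nat_lit 235)))))) (XT.nd (nat_lit 58374) (nat_lit 0) (nat_lit 840) (XT.nd (nat_lit 57998) (nat_lit 0) (nat_lit 672) (XT.nd (nat_lit 188) (nat_lit 1176) (nat_lit 0) (XT.nd (nat_lit 94) (nat_lit 0) (nat_lit 0) (XT.lf (nat_lit 84) (nat_lit 3403346643) (nat_lit 0) (nat_lit 9199083620) (nat_lit 1260) (nat_lit 1392683084) (nat_lit 183) (nat_lit 5) (nat_lit 182) (nat_lit 5) (nat_lit 197) (nat_lit 5) (nat_lit 363) (nat_lit 348) (nat_lit 234)) (XT.lf (nat_lit 84) (nat_lit 10037567347) (nat_lit 0) (nat_lit 3886628100) (nat_lit 1260) (nat_lit 293224366) (nat_lit 183) (nat_lit 5) (nat_lit 182) (nat_lit 5) (nat_lit 197) (nat_lit 5) (nat_lit 364) (nat_lit 348) (nat_lit 233))) (XT.nd (nat_lit 94) (nat_lit 0) (nat_lit 0) (XT.lf (nat_lit 0) (nat_lit 848866518) (nat_lit 1260) (nat_lit 12007913071) (nat_lit 84) (nat_lit 1588616645)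 (nat_lit 168) (nat_lit 5) (nat_lit 183) (nat_lit 5) (nat_lit 169) (nat_lit 5) (nat_lit 365) (nat_lit 348) (nat_lit 232)) (XT.lf (nat_lit 0) (nat_lit 2087601771) (nat_lit 1260) (nat_lit 5392755883) (nat_lit 84) (nat_lit 7197741772) (nat_lit 168) (nat_lit 5) (nat_lit 183) (nat_lit 5) (nat_lit 169) (nat_lit 5) (nat_lit 366) (nat_lit 348) (nat_lit 231)))) (XT.nd (nat_lit 188) (nat_lit 0) (nat_lit 84) (XT.nd (nat_lit 94) (nat_lit 0) (nat_lit 0) (XT.lf (nat_lit 0) (nat_lit 470768130) (nat_lit 1260) (nat_lit 2653664471) (nat_lit 1260) (nat_lit 2653664471) (nat_lit 176) (nat_lit 3) (nat_lit 191) (nat_lit 3) (nat_lit 191) (nat_lit 5) (nat_lit 349) (nat_lit 349) (nat_lit 247)) (XT.lf (nat_lit 0) (nat_lit 1432564913) (nat_lit 1260) (nat_lit 299752525) (nat_lit 1260) (nat_lit 9982001171) (nat_lit 176) (nat_lit 3) (nat_lit 191) (nat_lit 3) (nat_lit 191) (nat_lit 5) (nat_lit 350) (nat_lit 349) (nat_lit 246))) (XT.nd (nat_lit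 94) (nat_lit 0) (nat_lit 0) (XT.lf (nat_lit 0) (nat_lit 1995869371) (nat_lit 1176) (nat_lit 6960036466) (nat_lit 1260) (nat_lit 2919590186) (nat_lit 177) (nat_lit 5) (nat_lit 191) (nat_lit 5) (nat_lit 192) (nat_lit 5) (nat_lit 351) (nat_lit 349) (nat_lit 245)) (XT.lf (nat_lit 0) (nat_lit 2578203084) (nat_lit 1176) (nat_lit 1775498458) (nat_lit 1260) (nat_lit 7687777842) (nat_lit 177) (nat_lit 5) (nat_lit 191) (nat_lit 5) (nat_lit 192) (nat_lit 5) (nat_lit 352) (nat_lit 349) (nat_lit 244))))) (XT.nd (nat_lit 376) (nat_lit 0) (nat_lit 84) (XT.nd (nat_lit 188) (nat_lit 0) (nat_lit 0) (XT.nd (nat_lit 94) (nat_lit 0) (nat_lit 0) (XT.lf (nat_lit 0) (nat_lit 3199439729) (nat_lit 1176) (nat_lit 8590645666) (nat_lit 1260) (nat_lit 421747388) (nat_lit 178) (nat_lit 5) (nat_lit 192) (nat_lit 5) (nat_lit 193) (nat_lit 5) (nat_lit 353) (nat_lit 349) (nat_lit 243)) (XT.lf (nat_lit 0) (nat_lit 3883462070) (nat_lit 1176)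 (nat_lit 3224268884) (nat_lit 1260) (nat_lit 5278273918) (nat_lit 178) (nat_lit 5) (nat_lit 192) (nat_lit 5) (nat_lit 193) (nat_lit 5) (nat_lit 354) (nat_lit 349) (nat_lit 242))) (XT.nd (nat_lit 94) (nat_lit 0) (nat_lit 84) (XT.lf (nat_lit 84) (nat_lit 2338641570) (nat_lit 0) (nat_lit 2255277045) (nat_lit 1260) (nat_lit 7971337701) (nat_lit 179) (nat_lit 5) (nat_lit 178) (nat_lit 5) (nat_lit 193) (nat_lit 5) (nat_lit 355) (nat_lit 349) (nat_lit 241)) (XT.lf (nat_lit 0) (nat_lit 5368814022) (nat_lit 1176) (nat_lit 4651631772) (nat_lit 1260) (nat_lit 2728176433) (nat_lit 179) (nat_lit 5) (nat_lit 193) (nat_lit 5) (nat_lit 194) (nat_lit 5) (nat_lit 356) (nat_lit 349) (nat_lit 240)))) (XT.nd (nat_lit 188) (nat_lit 0) (nat_lit 84) (XT.nd (nat_lit 94) (nat_lit 0) (nat_lit 84) (XT.lf (nat_lit 84) (nat_lit 1079065969) (nat_lit 0) (nat_lit 5104940993) (nat_lit 1260) (nat_lit 6753000418) (nat_lit 180) (nat_lit 5) (nat_lit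 179) (nat_lit 5) (nat_lit 194) (nat_lit 5) (nat_lit 357) (nat_lit 349) (nat_lit 239)) (XT.lf (nat_lit 0) (nat_lit 7055445755) (nat_lit 1176) (nat_lit 6063356158) (nat_lit 1260) (nat_lit 11317391) (nat_lit 180) (nat_lit 5) (nat_lit 194) (nat_lit 5) (nat_lit 195) (nat_lit 5) (nat_lit 358) (nat_lit 349) (nat_lit 238))) (XT.nd (nat_lit 94) (nat_lit 0) (nat_lit 0) (XT.lf (nat_lit 0) (nat_lit 7988771759) (nat_lit 1176) (nat_lit 155863873) (nat_lit 1260) (nat_lit 5183344707) (nat_lit 180) (nat_lit 5) (nat_lit 194) (nat_lit 5) (nat_lit 195) (nat_lit 5) (nat_lit 359) (nat_lit 349) (nat_lit 237)) (XT.nd (nat_lit 94) (nat_lit 0) (nat_lit 84) (XT.lf (nat_lit 84) (nat_lit 6036564256) (nat_lit 0) (nat_lit 2957191579) (nat_lit 1260) (nat_lit 4536738877) (nat_lit 181) (nat_lit 5) (nat_lit 180) (nat_lit 5) (nat_lit 195) (nat_lit 5) (nat_lit 360) (nat_lit 349) (nat_lit 236)) (XT.lf (nat_lit 0) (nat_lit 10039406145) (nat_lit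 1176) (nat_lit 1354499159) (nat_lit 1260) (nat_lit 2344890176) (nat_lit 181) (nat_lit 5) (nat_lit 195) (nat_lit 5) (nat_lit 196) (nat_lit 5) (nat_lit 361) (nat_lit 349) (nat_lit 235))))))))
noncomputable def xc61 : XT := (XT.nd (nat_lit 59314) (nat_lit 0) (nat_lit 0) (XT.nd (nat_lit 58468) (nat_lit 0) (nat_lit 840) (XT.nd (nat_lit 376) (nat_lit 0) (nat_lit 84) (XT.nd (nat_lit 188) (nat_lit 1176) (nat_lit 0) (XT.nd (nat_lit 94) (nat_lit 0) (nat_lit 0) (XT.lf (nat_lit 84) (nat_lit 5027778976) (nat_lit 0) (nat_lit 6152656887) (nat_lit 1260) (nat_lit 2771014803) (nat_lit 182) (nat_lit 5) (nat_lit 181) (nat_lit 5) (nat_lit 196) (nat_lit 5) (nat_lit 362) (nat_lit 349) (nat_lit 234)) (XT.lf (nat_lit 84) (nat_lit 11619223987) (nat_lit 0) (nat_lit 736850283) (nat_lit 1260) (nat_lit 1814424849) (nat_lit 182) (nat_lit 5) (nat_lit 181) (nat_lit 5) (nat_lit 196) (nat_lit 5) (nat_lit 363) (nat_lit 349) (nat_lit 233))) (XT.nd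 (nat_lit 94) (nat_lit 1260) (nat_lit 0) (XT.lf (nat_lit 84) (nat_lit 4034261588) (nat_lit 0) (nat_lit 9605156382) (nat_lit 1260) (nat_lit 754552189) (nat_lit 183) (nat_lit 5) (nat_lit 182) (nat_lit 5) (nat_lit 197) (nat_lit 5) (nat_lit 364) (nat_lit 349) (nat_lit 232)) (XT.lf (nat_lit 0) (nat_lit 351099478) (nat_lit 1260) (nat_lit 3774892974) (nat_lit 1344) (nat_lit 10497461652) (nat_lit 167) (nat_lit 5) (nat_lit 182) (nat_lit 5) (nat_lit 183) (nat_lit 5) (nat_lit 365) (nat_lit 349) (nat_lit 231)))) (XT.nd (nat_lit 57904) (nat_lit 0) (nat_lit 672) (XT.nd (nat_lit 57810) (nat_lit 0) (nat_lit 672) (XT.lf (nat_lit 0) (nat_lit 1506660668) (nat_lit 1260) (nat_lit 11824674865) (nat_lit 84) (nat_lit 1527327901) (nat_lit 168) (nat_lit 5) (nat_lit 183) (nat_lit 5) (nat_lit 169) (nat_lit 5) (nat_lit 366) (nat_lit 349) (nat_lit 230)) (XT.lf (nat_lit 0) (nat_lit 957212474) (nat_lit 1260) (nat_lit 2489577675) (nat_lit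 1260) (nat_lit 2489577675) (nat_lit 176) (nat_lit 3) (nat_lit 191) (nat_lit 3) (nat_lit 191) (nat_lit 5) (nat_lit 350) (nat_lit 350) (nat_lit 245))) (XT.nd (nat_lit 94) (nat_lit 0) (nat_lit 84) (XT.lf (nat_lit 84) (nat_lit 167725358) (nat_lit 0) (nat_lit 2226557520) (nat_lit 1260) (nat_lit 9642150593) (nat_lit 177) (nat_lit 5) (nat_lit 176) (nat_lit 3) (nat_lit 191) (nat_lit 5) (nat_lit 351) (nat_lit 350) (nat_lit 244)) (XT.lf (nat_lit 0) (nat_lit 2946567321) (nat_lit 1176) (nat_lit 6667631732) (nat_lit 1260) (nat_lit 2589135772) (nat_lit 177) (nat_lit 5) (nat_lit 191) (nat_lit 5) (nat_lit 192) (nat_lit 5) (nat_lit 352) (nat_lit 350) (nat_lit 243))))) (XT.nd (nat_lit 376) (nat_lit 0) (nat_lit 168) (XT.nd (nat_lit 188) (nat_lit 0) (nat_lit 84) (XT.nd (nat_lit 94) (nat_lit 0) (nat_lit 84) (XT.lf (nat_lit 0) (nat_lit 3520424778) (nat_lit 1176) (nat_lit 1342155812) (nat_lit 1260) (nat_lit 7512545041) (nat_lit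 177) (nat_lit 5) (nat_lit 191) (nat_lit 5) (nat_lit 192) (nat_lit 5) (nat_lit 353) (nat_lit 350) (nat_lit 242)) (XT.lf (nat_lit 0) (nat_lit 4136255304) (nat_lit 1176) (nat_lit 8336110463) (nat_lit 1260) (nat_lit 78993273) (nat_lit 178) (nat_lit 5) (nat_lit 192) (nat_lit 5) (nat_lit 193) (nat_lit 5) (nat_lit 354) (nat_lit 350) (nat_lit 241))) (XT.nd (nat_lit 94) (nat_lit 0) (nat_lit 0) (XT.lf (nat_lit 0) (nat_lit 4816308052) (nat_lit 1176) (nat_lit 2823662413) (nat_lit 1260) (nat_lit 5091567246) (nat_lit 178) (nat_lit 5) (nat_lit 192) (nat_lit 5) (nat_lit 193) (nat_lit 5) (nat_lit 355) (nat_lit 350) (nat_lit 240)) (XT.lf (nat_lit 84) (nat_lit 2901259525) (nat_lit 0) (nat_lit 2627775626) (nat_lit 1260) (nat_lit 7387748191) (nat_lit 179) (nat_lit 5) (nat_lit 178) (nat_lit 5) (nat_lit 193) (nat_lit 5) (nat_lit 356) (nat_lit 350) (nat_lit 239)))) (XT.nd (nat_lit 188) (nat_lit 0) (nat_lit 0) (XT.nd (nat_lit 94)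 (nat_lit 0) (nat_lit 0) (XT.lf (nat_lit 0) (nat_lit 6301110158) (nat_lit 1176) (nat_lit 4285530548) (nat_lit 1260) (nat_lit 2519835573) (nat_lit 179) (nat_lit 5) (nat_lit 193) (nat_lit 5) (nat_lit 194) (nat_lit 5) (nat_lit 357) (nat_lit 350) (nat_lit 238)) (XT.lf (nat_lit 84) (nat_lit 1612130771) (nat_lit 0) (nat_lit 5510978023) (nat_lit 1260) (nat_lit 6177976444) (nat_lit 180) (nat_lit 5) (nat_lit 179) (nat_lit 5) (nat_lit 194) (nat_lit 5) (nat_lit 358) (nat_lit 350) (nat_lit 237))) (XT.nd (nat_lit 94) (nat_lit 0) (nat_lit 84) (XT.lf (nat_lit 84) (nat_lit 7764993289) (nat_lit 0) (nat_lit 233634197) (nat_lit 1260) (nat_lit 5502066432) (nat_lit 180) (nat_lit 5) (nat_lit 179) (nat_lit 5) (nat_lit 194) (nat_lit 5) (nat_lit 359) (nat_lit 350) (nat_lit 236)) (XT.nd (nat_lit 94) (nat_lit 0) (nat_lit 0) (XT.lf (nat_lit 84) (nat_lit 343049534) (nat_lit 0) (nat_lit 8596714556) (nat_lit 1260) (nat_lit 4765372663) (nat_lit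 181) (nat_lit 5) (nat_lit 180) (nat_lit 5) (nat_lit 195) (nat_lit 5) (nat_lit 360) (nat_lit 350) (nat_lit 235)) (XT.lf (nat_lit 84) (nat_lit 6709684854) (nat_lit 0) (nat_lit 3246022587) (nat_lit 1260) (nat_lit 3958633945) (nat_lit 181) (nat_lit 5) (nat_lit 180) (nat_lit 5) (nat_lit 195) (nat_lit 5) (nat_lit 361) (nat_lit 350) (nat_lit 234))))))) (XT.nd (nat_lit 58562) (nat_lit 0) (nat_lit 840) (XT.nd (nat_lit 376) (nat_lit 1176) (nat_lit 0) (XT.nd (nat_lit 188) (nat_lit 0) (nat_lit 0) (XT.nd (nat_lit 94) (nat_lit 0) (nat_lit 0) (XT.lf (nat_lit 0) (nat_lit 11010700271) (nat_lit 1176) (nat_lit 894148242) (nat_lit 1260) (nat_lit 2224741453) (nat_lit 181) (nat_lit 5) (nat_lit 195) (nat_lit 5) (nat_lit 196) (nat_lit 5) (nat_lit 362) (nat_lit 350) (nat_lit 233)) (XT.lf (nat_lit 84) (nat_lit 5674686611) (nat_lit 0) (nat_lit 6496525016) (nat_lit 1260) (nat_lit 2177892534) (nat_lit 182) (nat_lit 5) (nat_lit 181) (nat_lit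 5) (nat_lit 196) (nat_lit 5) (nat_lit 363) (nat_lit 350) (nat_lit 232))) (XT.nd (nat_lit 94) (nat_lit 0) (nat_lit 84) (XT.lf (nat_lit 84) (nat_lit 12449426207) (nat_lit 0) (nat_lit 913604746) (nat_lit 1260) (nat_lit 1212301562) (nat_lit 182) (nat_lit 5) (nat_lit 181) (nat_lit 5) (nat_lit 196) (nat_lit 5) (nat_lit 364) (nat_lit 350) (nat_lit 231)) (XT.lf (nat_lit 84) (nat_lit 4653747862) (nat_lit 0) (nat_lit 10015943041) (nat_lit 1260) (nat_lit 136307062) (nat_lit 183) (nat_lit 5) (nat_lit 182) (nat_lit 5) (nat_lit 197) (nat_lit 5) (nat_lit 365) (nat_lit 350) (nat_lit 230)))) (XT.nd (nat_lit 57998) (nat_lit 0) (nat_lit 756) (XT.nd (nat_lit 57904) (nat_lit 0) (nat_lit 756) (XT.lf (nat_lit 0) (nat_lit 971706037) (nat_lit 1260) (nat_lit 3390965803) (nat_lit 1344) (nat_lit 10680091600) (nat_lit 167) (nat_lit 5) (nat_lit 182) (nat_lit 5) (nat_lit 183) (nat_lit 5) (nat_lit 366) (nat_lit 350) (nat_lit 229)) (XT.lf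 (nat_lit 0) (nat_lit 1431136974) (nat_lit 1260) (nat_lit 2334557465) (nat_lit 1260) (nat_lit 2334557465) (nat_lit 176) (nat_lit 3) (nat_lit 191) (nat_lit 3) (nat_lit 191) (nat_lit 5) (nat_lit 351) (nat_lit 351) (nat_lit 243))) (XT.nd (nat_lit 94) (nat_lit 0) (nat_lit 84) (XT.lf (nat_lit 84) (nat_lit 627668131) (nat_lit 0) (nat_lit 2707297914) (nat_lit 1260) (nat_lit 9034842922) (nat_lit 177) (nat_lit 5) (nat_lit 176) (nat_lit 3) (nat_lit 191) (nat_lit 5) (nat_lit 352) (nat_lit 351) (nat_lit 242)) (XT.lf (nat_lit 0) (nat_lit 3874649390) (nat_lit 1176) (nat_lit 6395226120) (nat_lit 1260) (nat_lit 2272765052) (nat_lit 177) (nat_lit 5) (nat_lit 191) (nat_lit 5) (nat_lit 192) (nat_lit 5) (nat_lit 353) (nat_lit 351) (nat_lit 241))))) (XT.nd (nat_lit 376) (nat_lit 0) (nat_lit 168) (XT.nd (nat_lit 188) (nat_lit 0) (nat_lit 84) (XT.nd (nat_lit 94) (nat_lit 0) (nat_lit 0) (XT.lf (nat_lit 0) (nat_lit 4441265724) (nat_lit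 1176) (nat_lit 923746153) (nat_lit 1260) (nat_lit 7355353633) (nat_lit 177) (nat_lit 5) (nat_lit 191) (nat_lit 5) (nat_lit 192) (nat_lit 5) (nat_lit 354) (nat_lit 351) (nat_lit 240)) (XT.lf (nat_lit 84) (nat_lit 4796705169) (nat_lit 0) (nat_lit 258689641) (nat_lit 1260) (nat_lit 7847141753) (nat_lit 178) (nat_lit 5) (nat_lit 177) (nat_lit 5) (nat_lit 192) (nat_lit 5) (nat_lit 355) (nat_lit 351) (nat_lit 239))) (XT.nd (nat_lit 94) (nat_lit 0) (nat_lit 0) (XT.lf (nat_lit 0) (nat_lit 5730278035) (nat_lit 1176) (nat_lit 2439586785) (nat_lit 1260) (nat_lit 4919066936) (nat_lit 178) (nat_lit 5) (nat_lit 192) (nat_lit 5) (nat_lit 193) (nat_lit 5) (nat_lit 356) (nat_lit 351) (nat_lit 238)) (XT.lf (nat_lit 84) (nat_lit 3452486875) (nat_lit 0) (nat_lit 2993950087) (nat_lit 1260) (nat_lit 6833879043) (nat_lit 179) (nat_lit 5) (nat_lit 178) (nat_lit 5) (nat_lit 193) (nat_lit 5) (nat_lit 357) (nat_lit 351) (nat_lit 237))))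 (XT.nd (nat_lit 188) (nat_lit 0) (nat_lit 0) (XT.nd (nat_lit 94) (nat_lit 0) (nat_lit 0) (XT.lf (nat_lit 0) (nat_lit 7217103323) (nat_lit 1176) (nat_lit 3937472676) (nat_lit 1260) (nat_lit 2321902359) (nat_lit 179) (nat_lit 5) (nat_lit 193) (nat_lit 5) (nat_lit 194) (nat_lit 5) (nat_lit 358) (nat_lit 351) (nat_lit 236)) (XT.lf (nat_lit 84) (nat_lit 2132445700) (nat_lit 0) (nat_lit 5914679311) (nat_lit 1260) (nat_lit 5630339975) (nat_lit 180) (nat_lit 5) (nat_lit 179) (nat_lit 5) (nat_lit 194) (nat_lit 5) (nat_lit 359) (nat_lit 351) (nat_lit 235))) (XT.nd (nat_lit 94) (nat_lit 0) (nat_lit 84) (XT.lf (nat_lit 84) (nat_lit 8456147948) (nat_lit 0) (nat_lit 472072298) (nat_lit 1260) (nat_lit 4955501471) (nat_lit 180) (nat_lit 5) (nat_lit 179) (nat_lit 5) (nat_lit 194) (nat_lit 5) (nat_lit 360) (nat_lit 351) (nat_lit 234)) (XT.nd (nat_lit 94) (nat_lit 0) (nat_lit 0) (XT.lf (nat_lit 84) (nat_lit 831033904) (nat_lit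 0) (nat_lit 9048902654) (nat_lit 1260) (nat_lit 4214928893) (nat_lit 181) (nat_lit 5) (nat_lit 180) (nat_lit 5) (nat_lit 195) (nat_lit 5) (nat_lit 361) (nat_lit 351) (nat_lit 233)) (XT.lf (nat_lit 84) (nat_lit 7374754899) (nat_lit 0) (nat_lit 3532031090) (nat_lit 1260) (nat_lit 3404184274) (nat_lit 181) (nat_lit 5) (nat_lit 180) (nat_lit 5) (nat_lit 195) (nat_lit 5) (nat_lit 362) (nat_lit 351) (nat_lit 232))))))))
noncomputable def xc62 : XT := (XT.nd (nat_lit 59502) (nat_lit 0) (nat_lit 0) (XT.nd (nat_lit 58750) (nat_lit 0) (nat_lit 168) (XT.nd (nat_lit 58374) (nat_lit 0) (nat_lit 0) (XT.nd (nat_lit 188) (nat_lit 420) (nat_lit 0) (XT.nd (nat_lit 94) (nat_lit 0) (nat_lit 0) (XT.lf (nat_lit 0) (nat_lit 11972666055) (nat_lit 1176) (nat_lit 448745438) (nat_lit 1260) (nat_lit 2111923486) (nat_lit 181) (nat_lit 5) (nat_lit 195) (nat_lit 5) (nat_lit 196) (nat_lit 5) (nat_lit 363) (nat_lit 351) (nat_lit 231)) (XT.lf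 (nat_lit 84) (nat_lit 6312524782) (nat_lit 0) (nat_lit 6841565382) (nat_lit 1260) (nat_lit 1605796269) (nat_lit 182) (nat_lit 5) (nat_lit 181) (nat_lit 5) (nat_lit 196) (nat_lit 5) (nat_lit 364) (nat_lit 351) (nat_lit 230))) (XT.nd (nat_lit 58092) (nat_lit 420) (nat_lit 0) (XT.lf (nat_lit 84) (nat_lit 13276887219) (nat_lit 0) (nat_lit 1086784360) (nat_lit 1260) (nat_lit 629803578) (nat_lit 182) (nat_lit 5) (nat_lit 181) (nat_lit 5) (nat_lit 196) (nat_lit 5) (nat_lit 365) (nat_lit 351) (nat_lit 229)) (XT.lf (nat_lit 0) (nat_lit 1893722441) (nat_lit 1260) (nat_lit 2188072801) (nat_lit 1260) (nat_lit 2188072801) (nat_lit 176) (nat_lit 3) (nat_lit 191) (nat_lit 3) (nat_lit 191) (nat_lit 5) (nat_lit 352) (nat_lit 352) (nat_lit 241)))) (XT.nd (nat_lit 188) (nat_lit 0) (nat_lit 84) (XT.nd (nat_lit 94) (nat_lit 0) (nat_lit 84) (XT.lf (nat_lit 84) (nat_lit 1075295433) (nat_lit 0) (nat_lit 3178698460) (nat_lit 1260)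 (nat_lit 8460782932) (nat_lit 177) (nat_lit 5) (nat_lit 176) (nat_lit 3) (nat_lit 191) (nat_lit 5) (nat_lit 353) (nat_lit 352) (nat_lit 240)) (XT.lf (nat_lit 0) (nat_lit 4782372563) (nat_lit 1176) (nat_lit 6141768017) (nat_lit 1260) (nat_lit 1969522994) (nat_lit 177) (nat_lit 5) (nat_lit 191) (nat_lit 5) (nat_lit 192) (nat_lit 5) (nat_lit 354) (nat_lit 352) (nat_lit 239))) (XT.nd (nat_lit 94) (nat_lit 0) (nat_lit 0) (XT.lf (nat_lit 0) (nat_lit 5342934465) (nat_lit 1176) (nat_lit 519113987) (nat_lit 1260) (nat_lit 7215407436) (nat_lit 177) (nat_lit 5) (nat_lit 191) (nat_lit 5) (nat_lit 192) (nat_lit 5) (nat_lit 355) (nat_lit 352) (nat_lit 238)) (XT.lf (nat_lit 84) (nat_lit 5368712202) (nat_lit 0) (nat_lit 588508958) (nat_lit 1260) (nat_lit 7308461648) (nat_lit 178) (nat_lit 5) (nat_lit 177) (nat_lit 5) (nat_lit 192) (nat_lit 5) (nat_lit 356) (nat_lit 352) (nat_lit 237))))) (XT.nd (nat_lit 376) (nat_lit 0) (nat_lit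 84) (XT.nd (nat_lit 188) (nat_lit 0) (nat_lit 84) (XT.nd (nat_lit 94) (nat_lit 0) (nat_lit 0) (XT.lf (nat_lit 0) (nat_lit 6627495775) (nat_lit 1176) (nat_lit 2070899094) (nat_lit 1260) (nat_lit 4760062144) (nat_lit 178) (nat_lit 5) (nat_lit 192) (nat_lit 5) (nat_lit 193) (nat_lit 5) (nat_lit 357) (nat_lit 352) (nat_lit 236)) (XT.lf (nat_lit 84) (nat_lit 3993604666) (nat_lit 0) (nat_lit 3354615221) (nat_lit 1260) (nat_lit 6307910784) (nat_lit 179) (nat_lit 5) (nat_lit 178) (nat_lit 5) (nat_lit 193) (nat_lit 5) (nat_lit 358) (nat_lit 352) (nat_lit 235))) (XT.nd (nat_lit 94) (nat_lit 0) (nat_lit 0) (XT.lf (nat_lit 0) (nat_lit 8118845814) (nat_lit 1176) (nat_lit 3606333223) (nat_lit 1260) (nat_lit 2133732791) (nat_lit 179) (nat_lit 5) (nat_lit 193) (nat_lit 5) (nat_lit 194) (nat_lit 5) (nat_lit 359) (nat_lit 352) (nat_lit 234)) (XT.lf (nat_lit 84) (nat_lit 2641278159) (nat_lit 0) (nat_lit 6316808113) (nat_lit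 1260) (nat_lit 5108350219) (nat_lit 180) (nat_lit 5) (nat_lit 179) (nat_lit 5) (nat_lit 194) (nat_lit 5) (nat_lit 360) (nat_lit 352) (nat_lit 233)))) (XT.nd (nat_lit 188) (nat_lit 0) (nat_lit 84) (XT.nd (nat_lit 94) (nat_lit 0) (nat_lit 84) (XT.lf (nat_lit 84) (nat_lit 9141734414) (nat_lit 0) (nat_lit 704378567) (nat_lit 1260) (nat_lit 4433389860) (nat_lit 180) (nat_lit 5) (nat_lit 179) (nat_lit 5) (nat_lit 194) (nat_lit 5) (nat_lit 361) (nat_lit 352) (nat_lit 232)) (XT.lf (nat_lit 84) (nat_lit 1306236279) (nat_lit 0) (nat_lit 9503503545) (nat_lit 1260) (nat_lit 3687776090) (nat_lit 181) (nat_lit 5) (nat_lit 180) (nat_lit 5) (nat_lit 195) (nat_lit 5) (nat_lit 362) (nat_lit 352) (nat_lit 231))) (XT.nd (nat_lit 94) (nat_lit 0) (nat_lit 84) (XT.lf (nat_lit 84) (nat_lit 8033154204) (nat_lit 0) (nat_lit 3815791840) (nat_lit 1260) (nat_lit 2871746046) (nat_lit 181) (nat_lit 5) (nat_lit 180) (nat_lit 5) (nat_lit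 195) (nat_lit 5) (nat_lit 363) (nat_lit 352) (nat_lit 230)) (XT.lf (nat_lit 0) (nat_lit 12927231818) (nat_lit 1176) (nat_lit 17088325) (nat_lit 1260) (nat_lit 2006028470) (nat_lit 181) (nat_lit 5) (nat_lit 195) (nat_lit 5) (nat_lit 196) (nat_lit 5) (nat_lit 364) (nat_lit 352) (nat_lit 229)))))) (XT.nd (nat_lit 58844) (nat_lit 0) (nat_lit 0) (XT.nd (nat_lit 58468) (nat_lit 0) (nat_lit 84) (XT.nd (nat_lit 58280) (nat_lit 0) (nat_lit 0) (XT.nd (nat_lit 58186) (nat_lit 420) (nat_lit 0) (XT.lf (nat_lit 84) (nat_lit 6942656085) (nat_lit 0) (nat_lit 7188338044) (nat_lit 1260) (nat_lit 1053128380) (nat_lit 182) (nat_lit 5) (nat_lit 181) (nat_lit 5) (nat_lit 196) (nat_lit 5) (nat_lit 365) (nat_lit 352) (nat_lit 228)) (XT.lf (nat_lit 0) (nat_lit 2346095768) (nat_lit 1260) (nat_lit 2049622810) (nat_lit 1260) (nat_lit 2049622810) (nat_lit 176) (nat_lit 3) (nat_lit 191) (nat_lit 3) (nat_lit 191) (nat_lit 5) (nat_lit 353)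 (nat_lit 353) (nat_lit 239))) (XT.nd (nat_lit 94) (nat_lit 0) (nat_lit 84) (XT.lf (nat_lit 84) (nat_lit 1511736839) (nat_lit 0) (nat_lit 3641843001) (nat_lit 1260) (nat_lit 7918013643) (nat_lit 177) (nat_lit 5) (nat_lit 176) (nat_lit 3) (nat_lit 191) (nat_lit 5) (nat_lit 354) (nat_lit 353) (nat_lit 238)) (XT.lf (nat_lit 0) (nat_lit 5671893031) (nat_lit 1176) (nat_lit 5906269067) (nat_lit 1260) (nat_lit 1678504990) (nat_lit 177) (nat_lit 5) (nat_lit 191) (nat_lit 5) (nat_lit 192) (nat_lit 5) (nat_lit 355) (nat_lit 353) (nat_lit 237)))) (XT.nd (nat_lit 188) (nat_lit 0) (nat_lit 84) (XT.nd (nat_lit 94) (nat_lit 0) (nat_lit 0) (XT.lf (nat_lit 0) (nat_lit 6227542198) (nat_lit 1176) (nat_lit 127161202) (nat_lit 1260) (nat_lit 7091963160) (nat_lit 177) (nat_lit 5) (nat_lit 191) (nat_lit 5) (nat_lit 192) (nat_lit 5) (nat_lit 356) (nat_lit 353) (nat_lit 236)) (XT.lf (nat_lit 84) (nat_lit 5933304417) (nat_lit 0) (nat_lit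 909735372) (nat_lit 1260) (nat_lit 6798057323) (nat_lit 178) (nat_lit 5) (nat_lit 177) (nat_lit 5) (nat_lit 192) (nat_lit 5) (nat_lit 357) (nat_lit 353) (nat_lit 235))) (XT.nd (nat_lit 94) (nat_lit 0) (nat_lit 0) (XT.lf (nat_lit 0) (nat_lit 7509994322) (nat_lit 1176) (nat_lit 1716516221) (nat_lit 1260) (nat_lit 4613885971) (nat_lit 178) (nat_lit 5) (nat_lit 192) (nat_lit 5) (nat_lit 193) (nat_lit 5) (nat_lit 358) (nat_lit 353) (nat_lit 234)) (XT.lf (nat_lit 84) (nat_lit 4525839221) (nat_lit 0) (nat_lit 3710552604) (nat_lit 1260) (nat_lit 5808124986) (nat_lit 179) (nat_lit 5) (nat_lit 178) (nat_lit 5) (nat_lit 193) (nat_lit 5) (nat_lit 359) (nat_lit 353) (nat_lit 233))))) (XT.nd (nat_lit 376) (nat_lit 252) (nat_lit 0) (XT.nd (nat_lit 188) (nat_lit 0) (nat_lit 0) (XT.nd (nat_lit 94) (nat_lit 0) (nat_lit 0) (XT.lf (nat_lit 0) (nat_lit 9008305608) (nat_lit 1176) (nat_lit 3291049157) (nat_lit 1260) (nat_lit 1954718439)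 (nat_lit 179) (nat_lit 5) (nat_lit 193) (nat_lit 5) (nat_lit 194) (nat_lit 5) (nat_lit 360) (nat_lit 353) (nat_lit 232)) (XT.lf (nat_lit 84) (nat_lit 3139838860) (nat_lit 0) (nat_lit 6718102745) (nat_lit 1260) (nat_lit 4610361254) (nat_lit 180) (nat_lit 5) (nat_lit 179) (nat_lit 5) (nat_lit 194) (nat_lit 5) (nat_lit 361) (nat_lit 353) (nat_lit 231))) (XT.nd (nat_lit 94) (nat_lit 0) (nat_lit 84) (XT.lf (nat_lit 84) (nat_lit 9823095530) (nat_lit 0) (nat_lit 931131660) (nat_lit 1260) (nat_lit 3934120224) (nat_lit 180) (nat_lit 5) (nat_lit 179) (nat_lit 5) (nat_lit 194) (nat_lit 5) (nat_lit 362) (nat_lit 353) (nat_lit 230)) (XT.lf (nat_lit 84) (nat_lit 1769847307) (nat_lit 0) (nat_lit 9961229833) (nat_lit 1260) (nat_lit 3182328056) (nat_lit 181) (nat_lit 5) (nat_lit 180) (nat_lit 5) (nat_lit 195) (nat_lit 5) (nat_lit 363) (nat_lit 353) (nat_lit 229)))) (XT.nd (nat_lit 58468) (nat_lit 0) (nat_lit 0) (XT.nd (nat_lit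 58374) (nat_lit 336) (nat_lit 0) (XT.lf (nat_lit 84) (nat_lit 8686210908) (nat_lit 0) (nat_lit 4097858975) (nat_lit 1260) (nat_lit 2359761226) (nat_lit 181) (nat_lit 5) (nat_lit 180) (nat_lit 5) (nat_lit 195) (nat_lit 5) (nat_lit 364) (nat_lit 353) (nat_lit 228)) (XT.lf (nat_lit 0) (nat_lit 2789333437) (nat_lit 1260) (nat_lit 1918735045) (nat_lit 1260) (nat_lit 1918735045) (nat_lit 176) (nat_lit 3) (nat_lit 191) (nat_lit 3) (nat_lit 191) (nat_lit 5) (nat_lit 354) (nat_lit 354) (nat_lit 237))) (XT.nd (nat_lit 94) (nat_lit 0) (nat_lit 84) (XT.lf (nat_lit 84) (nat_lit 1938069755) (nat_lit 0) (nat_lit 4097769597) (nat_lit 1260) (nat_lit 7404688959) (nat_lit 177) (nat_lit 5) (nat_lit 176) (nat_lit 3) (nat_lit 191) (nat_lit 5) (nat_lit 355) (nat_lit 354) (nat_lit 236)) (XT.nd (nat_lit 94) (nat_lit 0) (nat_lit 0) (XT.lf (nat_lit 0) (nat_lit 6545272831) (nat_lit 1176) (nat_lit 5687800630) (nat_lit 1260) (nat_lit 1398853829)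 (nat_lit 177) (nat_lit 5) (nat_lit 191) (nat_lit 5) (nat_lit 192) (nat_lit 5) (nat_lit 356) (nat_lit 354) (nat_lit 235)) (XT.lf (nat_lit 84) (nat_lit 258194804) (nat_lit 0) (nat_lit 6841396371) (nat_lit 1260) (nat_lit 6728614701) (nat_lit 178) (nat_lit 5) (nat_lit 177) (nat_lit 5) (nat_lit 192) (nat_lit 5) (nat_lit 357) (nat_lit 354) (nat_lit 234))))))))
noncomputable def xc63 : XT := (XT.nd (nat_lit 118534) (nat_lit 0) (nat_lit 0) (XT.nd (nat_lit 59126) (nat_lit 0) (nat_lit 0) (XT.nd (nat_lit 376) (nat_lit 84) (nat_lit 0) (XT.nd (nat_lit 188) (nat_lit 0) (nat_lit 84) (XT.nd (nat_lit 94) (nat_lit 0) (nat_lit 84) (XT.lf (nat_lit 84) (nat_lit 6491670078) (nat_lit 0) (nat_lit 1223172352) (nat_lit 1260) (nat_lit 6314226233) (nat_lit 178) (nat_lit 5) (nat_lit 177) (nat_lit 5) (nat_lit 192) (nat_lit 5) (nat_lit 358) (nat_lit 354) (nat_lit 233)) (XT.lf (nat_lit 0) (nat_lit 8379722158) (nat_lit 1176) (nat_lit 1375411231)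 (nat_lit 1260) (nat_lit 4479913034) (nat_lit 178) (nat_lit 5) (nat_lit 192) (nat_lit 5) (nat_lit 193) (nat_lit 5) (nat_lit 359) (nat_lit 354) (nat_lit 232))) (XT.nd (nat_lit 94) (nat_lit 0) (nat_lit 84) (XT.lf (nat_lit 84) (nat_lit 5050365850) (nat_lit 0) (nat_lit 4062512906) (nat_lit 1260) (nat_lit 5332898359) (nat_lit 179) (nat_lit 5) (nat_lit 178) (nat_lit 5) (nat_lit 193) (nat_lit 5) (nat_lit 360) (nat_lit 354) (nat_lit 231)) (XT.lf (nat_lit 0) (nat_lit 9887372215) (nat_lit 1176) (nat_lit 2990615713) (nat_lit 1260) (nat_lit 1784284363) (nat_lit 179) (nat_lit 5) (nat_lit 193) (nat_lit 5) (nat_lit 194) (nat_lit 5) (nat_lit 361) (nat_lit 354) (nat_lit 230)))) (XT.nd (nat_lit 188) (nat_lit 252) (nat_lit 0) (XT.nd (nat_lit 94) (nat_lit 0) (nat_lit 0) (XT.lf (nat_lit 84) (nat_lit 3629285563) (nat_lit 0) (nat_lit 7119278581) (nat_lit 1260) (nat_lit 4134816430) (nat_lit 180) (nat_lit 5) (nat_lit 179) (nat_lit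 5) (nat_lit 194) (nat_lit 5) (nat_lit 362) (nat_lit 354) (nat_lit 229)) (XT.lf (nat_lit 84) (nat_lit 10501527753) (nat_lit 0) (nat_lit 1152883818) (nat_lit 1260) (nat_lit 3456167461) (nat_lit 180) (nat_lit 5) (nat_lit 179) (nat_lit 5) (nat_lit 194) (nat_lit 5) (nat_lit 363) (nat_lit 354) (nat_lit 228))) (XT.nd (nat_lit 58468) (nat_lit 336) (nat_lit 0) (XT.lf (nat_lit 84) (nat_lit 2223002996) (nat_lit 0) (nat_lit 10422778747) (nat_lit 1260) (nat_lit 2697082169) (nat_lit 181) (nat_lit 5) (nat_lit 180) (nat_lit 5) (nat_lit 195) (nat_lit 5) (nat_lit 364) (nat_lit 354) (nat_lit 227)) (XT.lf (nat_lit 0) (nat_lit 3224464846) (nat_lit 1260) (nat_lit 1794963843) (nat_lit 1260) (nat_lit 1794963843) (nat_lit 176) (nat_lit 3) (nat_lit 191) (nat_lit 3) (nat_lit 191) (nat_lit 5) (nat_lit 355) (nat_lit 355) (nat_lit 235))))) (XT.nd (nat_lit 376) (nat_lit 0) (nat_lit 0) (XT.nd (nat_lit 188) (nat_lit 0) (nat_lit 84) (XT.nd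 (nat_lit 94) (nat_lit 0) (nat_lit 84) (XT.lf (nat_lit 84) (nat_lit 2355322801) (nat_lit 0) (nat_lit 4547473639) (nat_lit 1260) (nat_lit 6919067263) (nat_lit 177) (nat_lit 5) (nat_lit 176) (nat_lit 3) (nat_lit 191) (nat_lit 5) (nat_lit 356) (nat_lit 355) (nat_lit 234)) (XT.lf (nat_lit 0) (nat_lit 7404486147) (nat_lit 1176) (nat_lit 5485490442) (nat_lit 1260) (nat_lit 1129756846) (nat_lit 177) (nat_lit 5) (nat_lit 191) (nat_lit 5) (nat_lit 192) (nat_lit 5) (nat_lit 357) (nat_lit 355) (nat_lit 233))) (XT.nd (nat_lit 94) (nat_lit 0) (nat_lit 0) (XT.lf (nat_lit 84) (nat_lit 635228540) (nat_lit 0) (nat_lit 7324448864) (nat_lit 1260) (nat_lit 6262732549) (nat_lit 178) (nat_lit 5) (nat_lit 177) (nat_lit 5) (nat_lit 192) (nat_lit 5) (nat_lit 358) (nat_lit 355) (nat_lit 232)) (XT.lf (nat_lit 84) (nat_lit 7044952113) (nat_lit 0) (nat_lit 1529586554) (nat_lit 1260) (nat_lit 5855361183) (nat_lit 178) (nat_lit 5) (nat_lit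 177) (nat_lit 5) (nat_lit 192) (nat_lit 5) (nat_lit 359) (nat_lit 355) (nat_lit 231)))) (XT.nd (nat_lit 188) (nat_lit 168) (nat_lit 0) (XT.nd (nat_lit 94) (nat_lit 0) (nat_lit 0) (XT.lf (nat_lit 0) (nat_lit 9238549026) (nat_lit 1176) (nat_lit 1046609965) (nat_lit 1260) (nat_lit 4357557182) (nat_lit 178) (nat_lit 5) (nat_lit 192) (nat_lit 5) (nat_lit 193) (nat_lit 5) (nat_lit 360) (nat_lit 355) (nat_lit 230)) (XT.lf (nat_lit 84) (nat_lit 5568312354) (nat_lit 0) (nat_lit 4411218083) (nat_lit 1260) (nat_lit 4880697190) (nat_lit 179) (nat_lit 5) (nat_lit 178) (nat_lit 5) (nat_lit 193) (nat_lit 5) (nat_lit 361) (nat_lit 355) (nat_lit 229))) (XT.nd (nat_lit 94) (nat_lit 252) (nat_lit 0) (XT.lf (nat_lit 0) (nat_lit 10757862208) (nat_lit 1176) (nat_lit 2704082964) (nat_lit 1260) (nat_lit 1621887143) (nat_lit 179) (nat_lit 5) (nat_lit 193) (nat_lit 5) (nat_lit 194) (nat_lit 5) (nat_lit 362) (nat_lit 355) (nat_lit 228))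 (XT.nd (nat_lit 58656) (nat_lit 252) (nat_lit 0) (XT.lf (nat_lit 84) (nat_lit 4110726613) (nat_lit 0) (nat_lit 7521029955) (nat_lit 1260) (nat_lit 3680243087) (nat_lit 180) (nat_lit 5) (nat_lit 179) (nat_lit 5) (nat_lit 194) (nat_lit 5) (nat_lit 363) (nat_lit 355) (nat_lit 227)) (XT.lf (nat_lit 0) (nat_lit 3652475448) (nat_lit 1260) (nat_lit 1677888775) (nat_lit 1260) (nat_lit 1677888775) (nat_lit 176) (nat_lit 3) (nat_lit 191) (nat_lit 3) (nat_lit 191) (nat_lit 5) (nat_lit 356) (nat_lit 356) (nat_lit 233))))))) (XT.nd (nat_lit 59502) (nat_lit 0) (nat_lit 0) (XT.nd (nat_lit 376) (nat_lit 0) (nat_lit 0) (XT.nd (nat_lit 188) (nat_lit 0) (nat_lit 84) (XT.nd (nat_lit 94) (nat_lit 0) (nat_lit 84) (XT.lf (nat_lit 84) (nat_lit 2764479001) (nat_lit 0) (nat_lit 4991910812) (nat_lit 1260) (nat_lit 6459505371) (nat_lit 177) (nat_lit 5) (nat_lit 176) (nat_lit 3) (nat_lit 191) (nat_lit 5) (nat_lit 357) (nat_lit 356) (nat_lit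 232)) (XT.lf (nat_lit 0) (nat_lit 8251425267) (nat_lit 1176) (nat_lit 5298519471) (nat_lit 1260) (nat_lit 870443219) (nat_lit 177) (nat_lit 5) (nat_lit 191) (nat_lit 5) (nat_lit 192) (nat_lit 5) (nat_lit 358) (nat_lit 356) (nat_lit 231))) (XT.nd (nat_lit 94) (nat_lit 0) (nat_lit 0) (XT.lf (nat_lit 84) (nat_lit 1002374651) (nat_lit 0) (nat_lit 7806045466) (nat_lit 1260) (nat_lit 5821204975) (nat_lit 178) (nat_lit 5) (nat_lit 177) (nat_lit 5) (nat_lit 192) (nat_lit 5) (nat_lit 359) (nat_lit 356) (nat_lit 230)) (XT.lf (nat_lit 84) (nat_lit 7594251410) (nat_lit 0) (nat_lit 1829710205) (nat_lit 1260) (nat_lit 5419944785) (nat_lit 178) (nat_lit 5) (nat_lit 177) (nat_lit 5) (nat_lit 192) (nat_lit 5) (nat_lit 360) (nat_lit 356) (nat_lit 229)))) (XT.nd (nat_lit 58938) (nat_lit 168) (nat_lit 0) (XT.nd (nat_lit 94) (nat_lit 0) (nat_lit 0) (XT.lf (nat_lit 0) (nat_lit 10088271435) (nat_lit 1176) (nat_lit 729187826) (nat_lit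 1260) (nat_lit 4246269341) (nat_lit 178) (nat_lit 5) (nat_lit 192) (nat_lit 5) (nat_lit 193) (nat_lit 5) (nat_lit 361) (nat_lit 356) (nat_lit 228)) (XT.lf (nat_lit 84) (nat_lit 6080762355) (nat_lit 0) (nat_lit 4757363458) (nat_lit 1260) (nat_lit 4450072089) (nat_lit 179) (nat_lit 5) (nat_lit 178) (nat_lit 5) (nat_lit 193) (nat_lit 5) (nat_lit 362) (nat_lit 356) (nat_lit 227))) (XT.nd (nat_lit 94) (nat_lit 0) (nat_lit 0) (XT.lf (nat_lit 0) (nat_lit 4074309734) (nat_lit 1260) (nat_lit 1567113191) (nat_lit 1260) (nat_lit 1567113191) (nat_lit 176) (nat_lit 3) (nat_lit 191) (nat_lit 3) (nat_lit 191) (nat_lit 5) (nat_lit 357) (nat_lit 357) (nat_lit 231)) (XT.lf (nat_lit 84) (nat_lit 3166478802) (nat_lit 0) (nat_lit 5431999897) (nat_lit 1260) (nat_lit 6024452838) (nat_lit 177) (nat_lit 5) (nat_lit 176) (nat_lit 3) (nat_lit 191) (nat_lit 5) (nat_lit 358) (nat_lit 357) (nat_lit 230))))) (XT.nd (nat_lit 59220) (nat_lit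 84) (nat_lit 0) (XT.nd (nat_lit 188) (nat_lit 0) (nat_lit 0) (XT.nd (nat_lit 94) (nat_lit 0) (nat_lit 0) (XT.lf (nat_lit 0) (nat_lit 9087906224) (nat_lit 1176) (nat_lit 5126118958) (nat_lit 1260) (nat_lit 620181426) (nat_lit 177) (nat_lit 5) (nat_lit 191) (nat_lit 5) (nat_lit 192) (nat_lit 5) (nat_lit 359) (nat_lit 357) (nat_lit 229)) (XT.lf (nat_lit 84) (nat_lit 1360553399) (nat_lit 0) (nat_lit 8287057951) (nat_lit 1260) (nat_lit 5402562257) (nat_lit 178) (nat_lit 5) (nat_lit 177) (nat_lit 5) (nat_lit 192) (nat_lit 5) (nat_lit 360) (nat_lit 357) (nat_lit 228))) (XT.nd (nat_lit 94) (nat_lit 0) (nat_lit 84) (XT.lf (nat_lit 84) (nat_lit 8140629932) (nat_lit 0) (nat_lit 2124243376) (nat_lit 1260) (nat_lit 5006544227) (nat_lit 178) (nat_lit 5) (nat_lit 177) (nat_lit 5) (nat_lit 192) (nat_lit 5) (nat_lit 361) (nat_lit 357) (nat_lit 227)) (XT.lf (nat_lit 0) (nat_lit 10930617889) (nat_lit 1176) (nat_lit 422266743)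 (nat_lit 1260) (nat_lit 4145535490) (nat_lit 178) (nat_lit 5) (nat_lit 192) (nat_lit 5) (nat_lit 193) (nat_lit 5) (nat_lit 362) (nat_lit 357) (nat_lit 226)))) (XT.nd (nat_lit 188) (nat_lit 0) (nat_lit 0) (XT.nd (nat_lit 94) (nat_lit 0) (nat_lit 0) (XT.lf (nat_lit 0) (nat_lit 4490874045) (nat_lit 1260) (nat_lit 1462262841) (nat_lit 1260) (nat_lit 1462262841) (nat_lit 176) (nat_lit 3) (nat_lit 191) (nat_lit 3) (nat_lit 191) (nat_lit 5) (nat_lit 358) (nat_lit 358) (nat_lit 229)) (XT.lf (nat_lit 84) (nat_lit 3562222936) (nat_lit 0) (nat_lit 5868625424) (nat_lit 1260) (nat_lit 5612446585) (nat_lit 177) (nat_lit 5) (nat_lit 176) (nat_lit 3) (nat_lit 191) (nat_lit 5) (nat_lit 359) (nat_lit 358) (nat_lit 228))) (XT.nd (nat_lit 94) (nat_lit 84) (nat_lit 0) (XT.lf (nat_lit 0) (nat_lit 9915674148) (nat_lit 1176) (nat_lit 4967567625) (nat_lit 1260) (nat_lit 378276840) (nat_lit 177) (nat_lit 5) (nat_lit 191) (nat_lit 5)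 (nat_lit 192) (nat_lit 5) (nat_lit 360) (nat_lit 358) (nat_lit 227)) (XT.nd (nat_lit 59220) (nat_lit 84) (nat_lit 0) (XT.lf (nat_lit 84) (nat_lit 1710642796) (nat_lit 0) (nat_lit 8768331695) (nat_lit 1260) (nat_lit 5005416891) (nat_lit 178) (nat_lit 5) (nat_lit 177) (nat_lit 5) (nat_lit 192) (nat_lit 5) (nat_lit 361) (nat_lit 358) (nat_lit 226)) (XT.lf (nat_lit 84) (nat_lit 3952575127) (nat_lit 0) (nat_lit 6302640195) (nat_lit 1260) (nat_lit 5222105835) (nat_lit 177) (nat_lit 5) (nat_lit 176) (nat_lit 3) (nat_lit 191) (nat_lit 5) (nat_lit 360) (nat_lit 359) (nat_lit 226))))))))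

set_option maxRecDepth 10000000 in
noncomputable def Tp : PT := (PT.nd (nat_lit 3919518) (PT.nd (nat_lit 3268286) (PT.nd (nat_lit 2735776) (PT.nd (nat_lit 2379986) (PT.nd (nat_lit 2142730) pc0 pc1) (PT.nd (nat_lit 236222) pc2 pc3)) (PT.nd (nat_lit 295724) (PT.nd (nat_lit 176814) pc4 pc5) (PT.nd (nat_lit 118534) pc6 pc7))) (PT.nd (nat_lit 355790) (PT.nd (nat_lit 178318) (PT.nd (nat_lit 117782) pc8 pc9) (PT.nd (nat_lit 117218) pc10 pc11)) (PT.nd (nat_lit 119850) (PT.nd (nat_lit 59972) pc12 pc13) (PT.nd (nat_lit 115996) pc14 pc15)))) (PT.nd (nat_lit 416420) (PT.nd (nat_lit 236786) (PT.nd (nat_lit 118722) (PT.nd (nat_lit 59408) pc16 pc17) (PT.nd (nat_lit 59032) pc18 pc19)) (PT.nd (nat_lit 62322) (PT.nd (nat_lit 58844) pc20 pc21) (PT.nd (nat_lit 58750) pc22 pc23))) (PT.nd (nat_lit 178412) (PT.nd (nat_lit 116748) (PT.nd (nat_lit 58374) pc24 pc25) (PT.nd (nat_lit 3384) pc26 pc27)) (PT.nd (nat_lit 116184) (PT.nd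 (nat_lit 58092) pc28 pc29) (PT.nd (nat_lit 59126) pc30 pc31)))))

set_option maxRecDepth 10000000 in
noncomputable def Tx : XT := (XT.nd (nat_lit 17176244) (nat_lit 0) (nat_lit 5208) XT.nil (XT.nd (nat_lit 4151416) (nat_lit 0) (nat_lit 0) (XT.nd (nat_lit 1895886) (nat_lit 0) (nat_lit 2016) (XT.nd (nat_lit 1301242) (nat_lit 0) (nat_lit 924) (XT.nd (nat_lit 887924) (nat_lit 0) (nat_lit 252) (XT.nd (nat_lit 592482) (nat_lit 0) (nat_lit 0) (XT.nd (nat_lit 414164) (nat_lit 0) (nat_lit 0) (XT.nd (nat_lit 237350) (nat_lit 0) (nat_lit 0) xc0 xc1) (XT.nd (nat_lit 117970) (nat_lit 0) (nat_lit 0) xc2 xc3)) (XT.nd (nat_lit 176532) (nat_lit 0) (nat_lit 252) (XT.nd (nat_lit 60066) (nat_lit 0) (nat_lit 0) xc4 xc5) (XT.nd (nat_lit 59502) (nat_lit 0) (nat_lit 0) xc6 xc7))) (XT.nd (nat_lit 235470) (nat_lit 0) (nat_lit 336) (XT.nd (nat_lit 118064) (nat_lit 0) (nat_lit 336) (XT.nd (nat_lit 59126) (nat_lit 0) (nat_lit 0) xc8 xc9)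 (XT.nd (nat_lit 58750) (nat_lit 0) (nat_lit 0) xc10 xc11)) (XT.nd (nat_lit 61570) (nat_lit 0) (nat_lit 0) (XT.nd (nat_lit 3102) (nat_lit 1596) (nat_lit 0) xc12 xc13) (XT.nd (nat_lit 58186) (nat_lit 0) (nat_lit 0) xc14 xc15)))) (XT.nd (nat_lit 296946) (nat_lit 0) (nat_lit 336) (XT.nd (nat_lit 121730) (nat_lit 0) (nat_lit 0) (XT.nd (nat_lit 60912) (nat_lit 0) (nat_lit 0) (XT.nd (nat_lit 3102) (nat_lit 2016) (nat_lit 0) xc16 xc17) (XT.nd (nat_lit 57622) (nat_lit 0) (nat_lit 2016) xc18 xc19)) (XT.nd (nat_lit 114680) (nat_lit 0) (nat_lit 336) (XT.nd (nat_lit 57434) (nat_lit 0) (nat_lit 336) xc20 xc21) (XT.nd (nat_lit 3102) (nat_lit 4788) (nat_lit 0) xc22 xc23))) (XT.nd (nat_lit 121260) (nat_lit 0) (nat_lit 336) (XT.nd (nat_lit 60536) (nat_lit 0) (nat_lit 0) (XT.nd (nat_lit 3102) (nat_lit 1176) (nat_lit 0) xc24 xc25) (XT.nd (nat_lit 57528) (nat_lit 0) (nat_lit 2604) xc26 xc27)) (XT.nd (nat_lit 115432) (nat_lit 0)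 (nat_lit 0) (XT.nd (nat_lit 57622) (nat_lit 0) (nat_lit 0) xc28 xc29) (XT.nd (nat_lit 3102) (nat_lit 2688) (nat_lit 0) xc30 xc31))))) (XT.nd (nat_lit 713930) (nat_lit 0) (nat_lit 1764) (XT.nd (nat_lit 355226) (nat_lit 0) (nat_lit 840) (XT.nd (nat_lit 177190) (nat_lit 0) (nat_lit 336) (XT.nd (nat_lit 61006) (nat_lit 0) (nat_lit 0) (XT.nd (nat_lit 57904) (nat_lit 0) (nat_lit 1848) xc32 xc33) (XT.nd (nat_lit 57998) (nat_lit 0) (nat_lit 0) xc34 xc35)) (XT.nd (nat_lit 61288) (nat_lit 0) (nat_lit 84) (XT.nd (nat_lit 3102) (nat_lit 84) (nat_lit 0) xc36 xc37) (XT.nd (nat_lit 58280) (nat_lit 0) (nat_lit 0) xc38 xc39))) (XT.nd (nat_lit 178882) (nat_lit 0) (nat_lit 420) (XT.nd (nat_lit 61570) (nat_lit 0) (nat_lit 0) (XT.nd (nat_lit 58468) (nat_lit 0) (nat_lit 2436) xc40 xc41) (XT.nd (nat_lit 58562) (nat_lit 0) (nat_lit 420) xc42 xc43)) (XT.nd (nat_lit 117688) (nat_lit 0) (nat_lit 504) (XT.nd (nat_lit 58750) (nat_lit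 0) (nat_lit 0) xc44 xc45) (XT.nd (nat_lit 58938) (nat_lit 0) (nat_lit 1008) xc46 xc47)))) (XT.nd (nat_lit 532322) (nat_lit 0) (nat_lit 2100) (XT.nd (nat_lit 236786) (nat_lit 0) (nat_lit 1008) (XT.nd (nat_lit 118158) (nat_lit 0) (nat_lit 420) (XT.nd (nat_lit 59032) (nat_lit 0) (nat_lit 420) xc48 xc49) (XT.nd (nat_lit 59220) (nat_lit 0) (nat_lit 0) xc50 xc51)) (XT.nd (nat_lit 119192) (nat_lit 0) (nat_lit 504) (XT.nd (nat_lit 59502) (nat_lit 0) (nat_lit 504) xc52 xc53) (XT.nd (nat_lit 116372) (nat_lit 0) (nat_lit 588) xc54 xc55))) (XT.nd (nat_lit 298074) (nat_lit 0) (nat_lit 1764) (XT.nd (nat_lit 120038) (nat_lit 0) (nat_lit 1176) (XT.nd (nat_lit 59972) (nat_lit 0) (nat_lit 588) xc56 xc57) (XT.nd (nat_lit 117500) (nat_lit 0) (nat_lit 588) xc58 xc59)) (XT.nd (nat_lit 236880) (nat_lit 0) (nat_lit 1932) (XT.nd (nat_lit 118158) (nat_lit 0) (nat_lit 1176) xc60 xc61) (XT.nd (nat_lit 177472) (nat_lit 0) (nat_lit 0)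 xc62 xc63)))))) XT.nil))

set_option maxRecDepth 10000000 in
noncomputable def Te : XT := XT.nil

set_option maxRecDepth 10000000 in
noncomputable def Tz : ZL := (ZL.cons (nat_lit 84) (nat_lit 3) (nat_lit 92681202083883696299) (ZL.cons (nat_lit 168) (nat_lit 6) (nat_lit 182942007893172546468) (ZL.cons (nat_lit 5208) (nat_lit 6) (nat_lit 134092345886866417676) (ZL.cons (nat_lit 5460) (nat_lit 6) (nat_lit 132785274715269071810) (ZL.cons (nat_lit 5544) (nat_lit 3) (nat_lit 66366771874046244445) (ZL.cons (nat_lit 5796) (nat_lit 6) (nat_lit 131540946615677653462) (ZL.cons (nat_lit 5880) (nat_lit 6) (nat_lit 131438991408523805570) (ZL.cons (nat_lit 6132) (nat_lit 6) (nat_lit 130358274311111937120) (ZL.cons (nat_lit 6216) (nat_lit 6) (nat_lit 130207557705921909644) (ZL.cons (nat_lit 6300) (nat_lit 3) (nat_lit 65078666732972322336) (ZL.cons (nat_lit 6468) (nat_lit 6) (nat_lit 129236224398587350800) (ZL.cons (nat_lit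 6552) (nat_lit 6) (nat_lit 129038166630255401396) (ZL.cons (nat_lit 6636) (nat_lit 6) (nat_lit 128939180992241956840) (ZL.cons (nat_lit 6804) (nat_lit 6) (nat_lit 128173816446141494380) (ZL.cons (nat_lit 6888) (nat_lit 6) (nat_lit 127929796383496999414) (ZL.cons (nat_lit 6972) (nat_lit 6) (nat_lit 127783469582341632930) (ZL.cons (nat_lit 7056) (nat_lit 3) (nat_lit 63867354092152726673) (ZL.cons (nat_lit 7224) (nat_lit 6) (nat_lit 127170122136146017106) (ZL.cons (nat_lit 7308) (nat_lit 6) (nat_lit 126881478486790312862) (ZL.cons (nat_lit 7392) (nat_lit 6) (nat_lit 126689189391322400816) (ZL.cons (nat_lit 7476) (nat_lit 6) (nat_lit 126593086830144299304) (ZL.cons (nat_lit 7560) (nat_lit 6) (nat_lit 126224264454155291866) (ZL.cons (nat_lit 7644) (nat_lit 6) (nat_lit 125892296934206180550) (ZL.cons (nat_lit 7728) (nat_lit 6) (nat_lit 125655384252027059226) (ZL.cons (nat_lit 7812) (nat_lit 6) (nat_lit 125513319396536412152)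 (ZL.cons (nat_lit 7896) (nat_lit 3) (nat_lit 62732989116697245112) (ZL.cons (nat_lit 8064) (nat_lit 6) (nat_lit 124961387392349140624) (ZL.cons (nat_lit 8148) (nat_lit 6) (nat_lit 124681150839576612228) (ZL.cons (nat_lit 8232) (nat_lit 6) (nat_lit 124494462397374755876) (ZL.cons (nat_lit 8316) (nat_lit 6) (nat_lit 124401158939920288386) (ZL.cons (nat_lit 8484) (nat_lit 6) (nat_lit 124087936445114657800) (ZL.cons (nat_lit 8568) (nat_lit 6) (nat_lit 123765637882057268172) (ZL.cons (nat_lit 8652) (nat_lit 6) (nat_lit 123535625569262004748) (ZL.cons (nat_lit 8736) (nat_lit 6) (nat_lit 123397698525096327980) (ZL.cons (nat_lit 8820) (nat_lit 3) (nat_lit 61675868115391891209) (ZL.cons (nat_lit 8988) (nat_lit 6) (nat_lit 123271180882937187386) (ZL.cons (nat_lit 9072) (nat_lit 6) (nat_lit 122908045416690612096) (ZL.cons (nat_lit 9156) (nat_lit 6) (nat_lit 122635971093610487440) (ZL.cons (nat_lit 9240) (nat_lit 6) (nat_lit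 122454720178851403600) (ZL.cons (nat_lit 9324) (nat_lit 6) (nat_lit 122364134297827648760) (ZL.cons (nat_lit 9408) (nat_lit 6) (nat_lit 122510407035908030626) (ZL.cons (nat_lit 9492) (nat_lit 6) (nat_lit 122107624090837003234) (ZL.cons (nat_lit 9576) (nat_lit 6) (nat_lit 121794712864567692916) (ZL.cons (nat_lit 9660) (nat_lit 6) (nat_lit 121571399939523747844) (ZL.cons (nat_lit 9744) (nat_lit 6) (nat_lit 121437490187906585932) (ZL.cons (nat_lit 9828) (nat_lit 3) (nat_lit 60696433300597688327) (ZL.cons (nat_lit 9912) (nat_lit 6) (nat_lit 121804950150180268830) (ZL.cons (nat_lit 9996) (nat_lit 6) (nat_lit 121363674507221423868) (ZL.cons (nat_lit 10080) (nat_lit 6) (nat_lit 121011115802127661448) (ZL.cons (nat_lit 10164) (nat_lit 6) (nat_lit 120746965973894530714) (ZL.cons (nat_lit 10248) (nat_lit 6) (nat_lit 120570994211992507570) (ZL.cons (nat_lit 10332) (nat_lit 6) (nat_lit 120483046754687891220) (ZL.cons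 (nat_lit 10500) (nat_lit 6) (nat_lit 120675546612809646794) (ZL.cons (nat_lit 10584) (nat_lit 6) (nat_lit 120284495209828066804) (ZL.cons (nat_lit 10668) (nat_lit 6) (nat_lit 119980697902770483968) (ZL.cons (nat_lit 10752) (nat_lit 6) (nat_lit 119763889237679275162) (ZL.cons (nat_lit 10836) (nat_lit 6) (nat_lit 119633879770089797580) (ZL.cons (nat_lit 10920) (nat_lit 3) (nat_lit 59795277949748195254) (ZL.cons (nat_lit 11088) (nat_lit 6) (nat_lit 120042639130800729680) (ZL.cons (nat_lit 11172) (nat_lit 6) (nat_lit 119614216176471753988) (ZL.cons (nat_lit 11256) (nat_lit 6) (nat_lit 119271926171526353582) (ZL.cons (nat_lit 11340) (nat_lit 6) (nat_lit 119015470027610692674) (ZL.cons (nat_lit 11424) (nat_lit 6) (nat_lit 118844623656832029430) (ZL.cons (nat_lit 11508) (nat_lit 6) (nat_lit 118759237775953761126) (ZL.cons (nat_lit 11676) (nat_lit 6) (nat_lit 119464399035239519108) (ZL.cons (nat_lit 11760) (nat_lit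 6) (nat_lit 118999693021349965064) (ZL.cons (nat_lit 11844) (nat_lit 6) (nat_lit 118620031465057168956) (ZL.cons (nat_lit 11928) (nat_lit 6) (nat_lit 118325082623253690478) (ZL.cons (nat_lit 12012) (nat_lit 6) (nat_lit 118114588773650575132) (ZL.cons (nat_lit 12096) (nat_lit 6) (nat_lit 117988365989583121166) (ZL.cons (nat_lit 12180) (nat_lit 3) (nat_lit 58973151989649129967) (ZL.cons (nat_lit 12264) (nat_lit 6) (nat_lit 118940321067790087802) (ZL.cons (nat_lit 12348) (nat_lit 6) (nat_lit 118440388782482496524) (ZL.cons (nat_lit 12432) (nat_lit 6) (nat_lit 118024444166629122064) (ZL.cons (nat_lit 12516) (nat_lit 6) (nat_lit 117692123773478247884) (ZL.cons (nat_lit 12600) (nat_lit 6) (nat_lit 117443137225987314968) (ZL.cons (nat_lit 12684) (nat_lit 6) (nat_lit 117277266963095408900) (ZL.cons (nat_lit 12768) (nat_lit 6) (nat_lit 117194368049621362006) (ZL.cons (nat_lit 12852) (nat_lit 6) (nat_lit 118469947296247868300)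 (ZL.cons (nat_lit 12936) (nat_lit 6) (nat_lit 117935814747427619514) (ZL.cons (nat_lit 13020) (nat_lit 6) (nat_lit 117484643860156207820) (ZL.cons (nat_lit 13104) (nat_lit 6) (nat_lit 117116040407444755288) (ZL.cons (nat_lit 13188) (nat_lit 6) (nat_lit 116829682308606426670) (ZL.cons (nat_lit 13272) (nat_lit 6) (nat_lit 116625319347826703032) (ZL.cons (nat_lit 13356) (nat_lit 6) (nat_lit 116502772955528204036) (ZL.cons (nat_lit 13440) (nat_lit 3) (nat_lit 58230968026169509187) (ZL.cons (nat_lit 14028) (nat_lit 6) (nat_lit 117688714882917275552) (ZL.cons (nat_lit 14112) (nat_lit 6) (nat_lit 118052866714404716914) (ZL.cons (nat_lit 14196) (nat_lit 6) (nat_lit 117485530026251790934) (ZL.cons (nat_lit 14280) (nat_lit 6) (nat_lit 117000158875467721732) (ZL.cons (nat_lit 14364) (nat_lit 6) (nat_lit 116596329151338231966) (ZL.cons (nat_lit 14448) (nat_lit 6) (nat_lit 116273687992939324996) (ZL.cons (nat_lit 14532)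 (nat_lit 6) (nat_lit 116031953480812205656) (ZL.cons (nat_lit 14616) (nat_lit 6) (nat_lit 115870914390625889090) (ZL.cons (nat_lit 14700) (nat_lit 6) (nat_lit 115790430008612251326) (ZL.cons (nat_lit 14784) (nat_lit 3) (nat_lit 57900137579438091228) (ZL.cons (nat_lit 14868) (nat_lit 6) (nat_lit 115826486813082844396) (ZL.cons (nat_lit 14952) (nat_lit 6) (nat_lit 115905144679090001078) (ZL.cons (nat_lit 15036) (nat_lit 6) (nat_lit 116036317487071833516) (ZL.cons (nat_lit 15120) (nat_lit 6) (nat_lit 116220119854045024868) (ZL.cons (nat_lit 15204) (nat_lit 6) (nat_lit 116456712384019551702) (ZL.cons (nat_lit 15288) (nat_lit 6) (nat_lit 116746301808332284968) (ZL.cons (nat_lit 15372) (nat_lit 6) (nat_lit 117089141166286022202) (ZL.cons (nat_lit 15456) (nat_lit 6) (nat_lit 116570565876169275806) (ZL.cons (nat_lit 15540) (nat_lit 6) (nat_lit 116132535888527128532) (ZL.cons (nat_lit 15624) (nat_lit 6) (nat_lit 115774668458710184328)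 (ZL.cons (nat_lit 15708) (nat_lit 6) (nat_lit 115496650887022486636) (ZL.cons (nat_lit 15792) (nat_lit 6) (nat_lit 115298240245488774368) (ZL.cons (nat_lit 15876) (nat_lit 6) (nat_lit 115179263165587319034) (ZL.cons (nat_lit 15960) (nat_lit 3) (nat_lit 57569807843381433466) (ZL.cons (nat_lit 16044) (nat_lit 6) (nat_lit 115074828685432256164) (ZL.cons (nat_lit 16128) (nat_lit 6) (nat_lit 115128038343471779898) (ZL.cons (nat_lit 16212) (nat_lit 6) (nat_lit 115234504153426784230) (ZL.cons (nat_lit 16296) (nat_lit 6) (nat_lit 115394319143674899750) (ZL.cons (nat_lit 16380) (nat_lit 6) (nat_lit 115607622958382362672) (ZL.cons (nat_lit 16464) (nat_lit 6) (nat_lit 115874601979523189224) (ZL.cons (nat_lit 16548) (nat_lit 6) (nat_lit 116195489489737211202) (ZL.cons (nat_lit 16632) (nat_lit 6) (nat_lit 115724255362762386734) (ZL.cons (nat_lit 16716) (nat_lit 6) (nat_lit 115332187669432785022) (ZL.cons (nat_lit 16800)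 (nat_lit 6) (nat_lit 115018943826327050096) (ZL.cons (nat_lit 16884) (nat_lit 6) (nat_lit 114784250125232759476) (ZL.cons (nat_lit 16968) (nat_lit 6) (nat_lit 114627901493983908440) (ZL.cons (nat_lit 17052) (nat_lit 6) (nat_lit 114549761317271638768) (ZL.cons (nat_lit 17136) (nat_lit 3) (nat_lit 57198361687565125900) (ZL.cons (nat_lit 17220) (nat_lit 6) (nat_lit 114423721378963113594) (ZL.cons (nat_lit 17304) (nat_lit 6) (nat_lit 114504738980950484978) (ZL.cons (nat_lit 17388) (nat_lit 6) (nat_lit 114639846973171772392) (ZL.cons (nat_lit 17472) (nat_lit 6) (nat_lit 114829163411154159482) (ZL.cons (nat_lit 17556) (nat_lit 6) (nat_lit 115072853717027922122) (ZL.cons (nat_lit 17640) (nat_lit 6) (nat_lit 115371130824070037386) (ZL.cons (nat_lit 17724) (nat_lit 6) (nat_lit 114945858991407758480) (ZL.cons (nat_lit 17808) (nat_lit 6) (nat_lit 114598414884789366046) (ZL.cons (nat_lit 17892) (nat_lit 6) (nat_lit 114328494912277038192)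 (ZL.cons (nat_lit 17976) (nat_lit 6) (nat_lit 114135863221467608804) (ZL.cons (nat_lit 18060) (nat_lit 6) (nat_lit 114020351493407943430) (ZL.cons (nat_lit 18144) (nat_lit 3) (nat_lit 56990929397760062930) (ZL.cons (nat_lit 18228) (nat_lit 6) (nat_lit 113791578362973654792) (ZL.cons (nat_lit 18312) (nat_lit 6) (nat_lit 113846384310754364236) (ZL.cons (nat_lit 18396) (nat_lit 6) (nat_lit 113956044095008018702) (ZL.cons (nat_lit 18480) (nat_lit 6) (nat_lit 114120653534963577686) (ZL.cons (nat_lit 18564) (nat_lit 6) (nat_lit 114340356464112264494) (ZL.cons (nat_lit 18648) (nat_lit 6) (nat_lit 114615344855887315846) (ZL.cons (nat_lit 18732) (nat_lit 6) (nat_lit 114234696609936246218) (ZL.cons (nat_lit 18816) (nat_lit 6) (nat_lit 113930576373911260856) (ZL.cons (nat_lit 18900) (nat_lit 6) (nat_lit 113702718411683794234) (ZL.cons (nat_lit 18984) (nat_lit 6) (nat_lit 113550923624063550508) (ZL.cons (nat_lit 19068)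 (nat_lit 6) (nat_lit 113475059374828337236) (ZL.cons (nat_lit 19152) (nat_lit 3) (nat_lit 56615528468764133531) (ZL.cons (nat_lit 19236) (nat_lit 6) (nat_lit 113258864881476114712) (ZL.cons (nat_lit 19320) (nat_lit 6) (nat_lit 113342313011523107238) (ZL.cons (nat_lit 19404) (nat_lit 6) (nat_lit 113481474243511033274) (ZL.cons (nat_lit 19488) (nat_lit 6) (nat_lit 113676470174632891976) (ZL.cons (nat_lit 19572) (nat_lit 6) (nat_lit 113927471189682867496) (ZL.cons (nat_lit 19656) (nat_lit 6) (nat_lit 113590146814325204940) (ZL.cons (nat_lit 19740) (nat_lit 6) (nat_lit 113328088588585080810) (ZL.cons (nat_lit 19824) (nat_lit 6) (nat_lit 113141067529546799850) (ZL.cons (nat_lit 19908) (nat_lit 6) (nat_lit 113028920220751008226) (ZL.cons (nat_lit 19992) (nat_lit 3) (nat_lit 56495774334701806262) (ZL.cons (nat_lit 20076) (nat_lit 6) (nat_lit 112741667326624134054) (ZL.cons (nat_lit 20160) (nat_lit 6) (nat_lit 112798117452838264786)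 (ZL.cons (nat_lit 20244) (nat_lit 6) (nat_lit 112911067030619528882) (ZL.cons (nat_lit 20328) (nat_lit 6) (nat_lit 113080614753773754636) (ZL.cons (nat_lit 20412) (nat_lit 6) (nat_lit 113306908770796902050) (ZL.cons (nat_lit 20496) (nat_lit 6) (nat_lit 113011646405724100726) (ZL.cons (nat_lit 20580) (nat_lit 6) (nat_lit 112790425083173162258) (ZL.cons (nat_lit 20664) (nat_lit 6) (nat_lit 112643051502959333400) (ZL.cons (nat_lit 20748) (nat_lit 6) (nat_lit 112569396892051359346) (ZL.cons (nat_lit 20832) (nat_lit 3) (nat_lit 56147169863002431139) (ZL.cons (nat_lit 20916) (nat_lit 6) (nat_lit 112322981908271145360) (ZL.cons (nat_lit 21000) (nat_lit 6) (nat_lit 112408933482219547662) (ZL.cons (nat_lit 21084) (nat_lit 6) (nat_lit 112552269551167111476) (ZL.cons (nat_lit 21168) (nat_lit 6) (nat_lit 112753115360222625942) (ZL.cons (nat_lit 21252) (nat_lit 6) (nat_lit 112498689898339010280) (ZL.cons (nat_lit 21336)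 (nat_lit 6) (nat_lit 112317116054612523914) (ZL.cons (nat_lit 21420) (nat_lit 6) (nat_lit 112208235172286512626) (ZL.cons (nat_lit 21504) (nat_lit 3) (nat_lit 56085976056362967137) (ZL.cons (nat_lit 21588) (nat_lit 6) (nat_lit 111916491210841059246) (ZL.cons (nat_lit 21672) (nat_lit 6) (nat_lit 111974634840841613898) (ZL.cons (nat_lit 21756) (nat_lit 6) (nat_lit 112090972905956315918) (ZL.cons (nat_lit 21840) (nat_lit 6) (nat_lit 112265607060805168444) (ZL.cons (nat_lit 21924) (nat_lit 6) (nat_lit 112050829077746004884) (ZL.cons (nat_lit 22008) (nat_lit 6) (nat_lit 111907747931907336088) (ZL.cons (nat_lit 22092) (nat_lit 6) (nat_lit 111836238600928720502) (ZL.cons (nat_lit 22176) (nat_lit 3) (nat_lit 55789145087250854158) (ZL.cons (nat_lit 22260) (nat_lit 6) (nat_lit 111607791622235979886) (ZL.cons (nat_lit 22344) (nat_lit 6) (nat_lit 111696321743402834256) (ZL.cons (nat_lit 22428) (nat_lit 6) (nat_lit 111843957894418824988)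 (ZL.cons (nat_lit 22512) (nat_lit 6) (nat_lit 111667672609247478998) (ZL.cons (nat_lit 22596) (nat_lit 6) (nat_lit 111561963014756205904) (ZL.cons (nat_lit 22680) (nat_lit 3) (nat_lit 55763368371669084335) (ZL.cons (nat_lit 22764) (nat_lit 6) (nat_lit 111308083283784446526) (ZL.cons (nat_lit 22848) (nat_lit 6) (nat_lit 111367971222685017814) (ZL.cons (nat_lit 22932) (nat_lit 6) (nat_lit 111487799429753160896) (ZL.cons (nat_lit 23016) (nat_lit 6) (nat_lit 111348885695929210608) (ZL.cons (nat_lit 23100) (nat_lit 6) (nat_lit 111279459160998515866) (ZL.cons (nat_lit 23184) (nat_lit 3) (nat_lit 55537623972207290219) (ZL.cons (nat_lit 23268) (nat_lit 6) (nat_lit 111105634435580880156) (ZL.cons (nat_lit 23352) (nat_lit 6) (nat_lit 111196820460382740156) (ZL.cons (nat_lit 23436) (nat_lit 6) (nat_lit 111094189786119368220) (ZL.cons (nat_lit 23520) (nat_lit 3) (nat_lit 55529994761303355356) (ZL.cons (nat_lit 23604)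 (nat_lit 6) (nat_lit 110909082155771592420) (ZL.cons (nat_lit 23688) (nat_lit 6) (nat_lit 110970766732839180850) (ZL.cons (nat_lit 23772) (nat_lit 6) (nat_lit 110903362329993846148) (ZL.cons (nat_lit 23856) (nat_lit 3) (nat_lit 55389071319273320818) (ZL.cons (nat_lit 23940) (nat_lit 6) (nat_lit 110809440724447930348) (ZL.cons (nat_lit 24024) (nat_lit 3) (nat_lit 55388118292557626577) (ZL.cons (nat_lit 24108) (nat_lit 6) (nat_lit 110712701470735637072) (ZL.cons (nat_lit 24192) (nat_lit 1) (nat_lit 18446744073709551617) ZL.nil))))))))))))))))))))))))))))))))))))))))))))))))))))))))))))))))))))))))))))))))))))))))))))))))))))))))))))))))))))))))))))))))))))))))))))))))))))))))))))))))))))))))))))))))))))))))))))))))))))))))))))))))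

noncomputable def vl : XL := ⟨(nat_lit 0), (nat_lit 84), (nat_lit 53607395), (nat_lit 168), (nat_lit 297650193), (nat_lit 168), (nat_lit 297650193), (nat_lit 1), (nat_lit 4), (nat_lit 2), (nat_lit 5), (nat_lit 2), (nat_lit 4), (nat_lit 0), (nat_lit 0), (nat_lit 0)⟩

noncomputable def cp0 : Nat := (nat_lit 1420198518773465144238603923637892393882472276396984990588129427950698136612693384974410792148056091461320304316245709163518079975519882208007094983077401149986880658045940791771261940773322288056902841961883085259659427269355407699102219648219846044037595247616825843093472399101872487875164106951837866564013480016851201604323031120514375473292631066207266087855958293289283318039425190901742436251791754601700305182097931363371282333287047455138499877704992833566820227128742022096028864509068244016967513510510803641175835680227152628702099201342817499791181621137406055442204997340816063524891267536101020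7726617151402084441124273735311359379414705041540309017891767983036943366408871859059251585122021347150674303872673046883191504927250953694730327555908278519113329637910776554283081820997993102038613718128771553714382934362774222388892507960730389374846757421269774359706982330499565903431823105108704495455634503780643644391997780520540721354159650312849646906609959667460812108803117789782418957632245453278569159063726023619086631347970154662951309481126217100254490585152954259249525956309608796235402634864152921647888411977372115274702840734880748617795201971260827511522299711267136561053841867279260089556291357589104222725282196763730776556550827934805432445940905347131822034724959083584361139178775068936860147235356884277919134366052090468118064562847831495021325395384193915507908120321419053427517120512164551282330552297586209577151534517912351067823611640345417590780560652988426093309710029863719600588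4037620066782469162392283900310548093492543540097875199962252365517977249900917263590540619913164314876134369575172647239470954465463888645803320088772139000425524017453194518454554339994734666404767745754312082037663503351403161056759206353387562174174147154516625583774238214657087055379672797381185972297897844366307330932311746567556699756030821500853767244673241180477167430421434994855919140548059677059624129913484742118221129097553616040984381703088587385299031477353694724389470445232866905467694527451851629904307685300201621784072645491327020434282368321539360514556795310367151831233133853527021416501222022260968383592337998916350332684196725542897344411283536093631229061592672945027060480801248564321384860836076374414607569350447434679601237388871407521847838881898060511412133453662941099156976288471100727986843346791167924285970736630548877663767872417265152293459873876603379565152314611763983935917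9857124053582919802381844531958564228350211817044308577339928162092315881590636193681685720447586909904932287982096252787070481104513498586317756737773219345083590553241187993621780747708639124245063370304639385010727950984611402764369534163389612287878951391482964046429751748541094958560978201075255212727370796804818453896525835860688612398598505370057507410740674192840279990852892105882806263147244611751794050975270810707458983721351160397457147311120737392148128579344411448652413043837954951938464123073139482050848890312820273182665743249244209863138942175474026043438164558329251423390502959931404741187431251499865528230620494630943437665569638786322593242489508818673548018176148918778833456417933998497244726233977326101196284262521710725782364165342493561801729214625579421216890783350156334137671991742673270741558110531128418961306554066703005892732096402569512515636214455088142056960636322533252444350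6934203544631533556922903169770382733305031822316582491858538413816485609506500496381213581141251307312647538503341547811867199944785121119487779224733732823880171265754776354935064633468680470826719307557954951634033415169953964834776237234187424356493609872879084345996640343754370498509759582163984500036360065643398620225632976918718194417027945586661012400048674769380668200737889572690340305647368106227765758827702172771542280976073659855495315077906097659360453653998329588049356106738808769387513230766729755998721063799324493635743065045062277470271926126088583307459614842478531581828641678141408988667040671376104498225184983165660872473413647800024088938254170496077653881034348043382967889213512266384644070828247406175682774480117784414212990463883834668026562620075956642249442582638718995704524395839956033325039590432151388121709674466356036039128979539495096261551904380257160729423215720758177384955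3297896610522926964758760487718671233478654371422153237643442098532060305133197462619355809741081355166336415721033540332875064740914293707654837317883365448293706487303852389376695509763916132750942622960730180474739423780483399949450981786819804924605957843475927532130173142250143765518494885726119754541281118361159807787853829834886276290945741375958666238310009790173554630452654077694472471098077496861058644613566246665958259628150313302001068071563052354700790738203136330303409053826880276713243960810014333884404608071296953234497376530466944523308108204570512653960637439543088626241242672439477849705051234219845316295167640914429733103083019643620711530760408255527475061514855121706595891492756154774977083320189487226328723841172322286979785411874302050979825087916091569442143613073481028617913615480103629170396718818931935232049139559034480257319719492715573480474069979311241418126518182457859402910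6553815267958560747300699953604682886212056018096592463913442550274727823036303116001356787688972994158310959405164160610238497923581773069638860515628167295070744545948092367952719845224719525937922550174237816022659953057271937835330967497332446323766785727076928129007395757543642246307884449807211753461427510013333191710855613554596573477036557253194823097808106991083834051148979644482511799600607033084087897785491162252264962186235419303406448328906316325819653903174660302479738342620626967671858613991340614211189722281102166979228784169632857791945595343991350514571584941258738428027743964090978218167050637006174888316801948349964640260680773699400513926860269731839223771429045423645808104616557917812136281464091335398220183884875383234165021463693989413292624995828521903834927513522433082436528234344160478198072967351533159463400051778877627427256048646622199953424099913238984859885177025537592707454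1716371262230711887656061228286742766699621106288133308007271715440482161958537470042643034061665939574166933034157570009596936863169978288711646188289103341169136708080603585160089081243278670249619057798118745050713661067275558472472730632867447629283399715396000619245832293541538371864066487963560031374395615510658571520073737274128028836581698580926853260178973017859527273975371440941946964050342884806391009712364141044663120727227192970720141697291795916759614990671939448190527750434029755216309694958710592244923084330679563147798254140815747519667935865934953260919864885799366106699910471399505083121337353209167230485538049767477908171896847216377966812299626359085535252576546182365372057514831236965331711716021747622394560466169254838562529428700216436582821357714894460222975597724875407278964641983031886102068506589702002808711960625769774005588293886067314192632973984103607874740782397930269439216901983602486929186955212995327441238728437141631380963367148593963379239238120000759265972866320253746300718444909775047706087288180475532556337278681302793039125784364754284949763568759693105313520528163283339386160241068914006395230679228301557295984148480000)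

noncomputable def cp1 : Nat := (nat_lit 2369266373590206601395425484515960864444927468377692289667282637920818309207041876372919263613122241852073451211840615828159760273345004688255216022711625096681598857862340945729378854438360439830932253259698000154635089774480923074672198632036702188424703705148178503732204223925257643106501329585177505816839255749687487888050872937750497799812181379621900955426372597775272417592094742219848530911721450064131249921753505935744990911887109430819410159913447656032061280525163449651899022592473181828774861275332871670491427926981638593636559670033059151927332169518407598635467764414554296952688001587732408970435280589677085729692291718363260095668966680572767161410272842671509468001950258357193555220064490919557107887343236507645176988678738141124907985426165780181379824582929677895571420633358497831863259881091056394094268489163755740289901460990977200270574947720870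2335524269643156895207806799153210361153088962151307667462183638480408090377608088024325881039653081613974201583678025757529103327889315841396175435753356506774479420960311269048824445198001930224612093537092142738153983335029635501261158073303584477475417833339358077204898388981230718337797004893452994303095117696283101736639177079886636441386224600243699070287621189140377281648319721625480593226236771227402342179885631796800893416313423531285914243155995651266626407146483839949887052028090503350429924201812150559408169400793484006466964613368726595764070678858334156033581259248112053716042122275682812185057320750983165503310160586415320100084122411033402267538415521655688316227074270057586581142110912315039459513503072330727595362987076521536781412278884034124847384075314591246117997097327082653246353586325199052780662535049333523280741597648295191848223412554000237930659243585878764727322848193458845969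5244162285292884273463703978970076108020755999465594236805657446648956458323623089127902051888220175647843999899021178695618237477887615900474463764494133469793450644355585634185149372067616306043112642911511040498684607718698092606164546966279990220263814057153054822436311858027981957032539091113838865733612384206437880278746843603009466339437087960999187889560229398812603425266241938825502830085327331461091512759709865675610099152668736036437806009036465632807834838903094837219269929330845756302232952054252924817537262329706140364343467308850536321870585694600552559450822009864321834566561740963618988317230323202668065099683703674881431145510797429278534098224551754790247183757376784270727963913996160419267450577635378746693544079288808970486596560743315881203273809279307102486542449571276699404587981744712906022830972271882167437509964862329836880867165395645302370532962264331560982362903232022553270841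8026105653433537234748815970767185311794090661490351981677947813675015623426597786931109648682056652178463340632693144829431102515552089159082890894580496417089528580274813553706887878261488251636669570495582514544449654727318185336905193438413344367031112402997376602591557337559598388142116960132360354038838353935528513218176022060471905375908706501822093273647932241828036772251833564616072202713857331297963373868604664392488382323749588938072492466241602923031755942142269053947132551785826110686433737008498294622462436676084388783947579568230788427443247656485601816275527998167681078596520516606654678809903035259301980781784859068651661969984401118530051101708045392941136928287993779333458729778460470911828769661999537932901647582186184757393762255171660907758804693264044273006106129386573922007621727066302100915870608426868760633398064613215336069737863856665358025165205289374462578833710720807245107379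3386522830864763581813102703461633490106538574657055091736420336201235357773129059826818462263686682216321073427554896773123742398913592541009414207202995199400796204785008587060050981006527922303821481685125797892376649208300204348933714549894387533976136234426911407552495282671153412663958055708790590465983599087656844006521424917947170510718228384942339176801213461252640121790474185841449509975622132829514953108301664186760385386942187838658094492008664381016911724167041492234586869899289135015688743063938187614199579784869760059005918205332078299295116429962100662057208612942473289665197417178089156775634554703466033458399661869894871238310406444637930538405068109570275272004760389602554545289959635119158896743888165927041527472459880792849853093124258232477099582398510759783615387674531893610542748935003744470387791488428153673042235875604817643013127177840212188477951329387081658972271115498146064173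7381955255918595241892048071588609235187002490997626430791303025356401453201494624618011480244143060369350906077082249007375560577481120525864770617435714718714450158952295216360018339363812431408293527407468565458604933005755145569711688473686612206991011211268185730405688295103702500599664076622174165381224717495978701220628943428829697790148831447033313555040296889590216222891665700242863674365384669850379278697249769400588296291565535934673265915684114239315979182310079888437586300916263965401767557965434985048309034737061542307934359273222777055058779536076732781617141362324268881170363132501749798614568085709376717205599395550205847146011772121194898124582661092432268072652862782415232857508021460683428893865288669864030530503615130347867218342046633059189153174144729835220863874240165560165816900619502225628812038554363070218636774204358934681414160394544075593151991149916689323649255565464100124960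5693687304218358649472806684219653993927280913757203336899938880415170831938565673009319625585589456440789260648819118353880173198065210885034994478987983037194368068785663545739415978906035743634540431894589584735570941373107357726614836274510434618973071870471292323624117992914345810568370225969360368469763134884722186655312856448757711474330276940760138509777596634762200995813733394239354066961618505060719133075925918758465116762000440037115666916652026861388040890136540753883921121650561503628074627381931412901746017675911374735849139285634079173050056497672976064512651808303243160827791348104791717040338766806970140561619063988104251344066141258820222853548331938418435287963274429195203384523500874126481058816307335067924955554746289263909103647457894555159068153596090639287574073234626887742654776954015740007847967477431033725757061330941326543792637134886060806184926878686572406742077952798811059635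6690866407061943031583815174928581697968139617386889256822404353123510472120775567652143058888070027492987368276859988875881339711069627316327417314332614122169890149788033994537306350894091660841478138983131843065486090797972968946257540589756328816502005844406220740614947146315002094636180565136813778061202645602096917052836784534625023107152683651913894308593062519350844471963602394958171717681146878548942004811576004362023146919404804665641454494239325222150512202137147243820988051835381979372285163399039945443852725304313679126911574283966612891664732750150669196757296068520852055573472774328843153389684141254368343583412725416583692609295788036761767243687274623979356001430919272843757678849408922705129845041469258420327221773284518904602922145453706443662289955443745855504352587034556644948414270486234611896467039660303211774450387717321142584960037210860666510730825721342304023113114014711808)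

noncomputable def rc0 : Nat := (nat_lit 1788685047535830452622046919871634511019021753735796102552463936407725091051265966922838125804760837267602284558735462039088805861252776439035629586200747775938484455143112571239573891522603799190550238732085831041925202662527852765999142635156490096648951927291995326211485429839794605662419473149419058852832436656365739640544486584113106888644580828712841272704599726955348745718545876632924927964047208922559786288742877302351414619294333784347600326859443158017625386696777445710220285417544646451278966656294536355560290418724203715397736174420980908652853768773262417775590953420511414058177494464296916297906362022044913480397146592822898414345135835657564410964782120881332409253190759089222975499621769614367716768447557558626106395771417053951941797579082206174374448610848494288121636234965364636669313919074019315659685459778149481736137553437860820604909579483523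2795585311897580106137183663126990528855473612742741547873679449791180495940893283817719622888103390113479149310346351207939072937753916150774628313982119298835813108023335174525741272868960447938291478358566463136737481986124951122928014606885174794152660509331097095913643756695629015676052783733585840798534473246276014296102803746829547251956267076603560391924549068925763213231176942710491462740091664293718040560819339908356513432563444033631733279178131514772718496328010793782124320922389583052717462195137951078087915769015196005635447644137780376284489088757973612932483407419339103029326784600020223032071260958488348703786007751121586379889772002419224891014347525554162655594768749969619389701344375418272991433376828289462854419701100640704748110365879008844244264046197253374344247362772199431185806704566309506890961926872383087053327642689530185579325797792034261609505291628721787455911810411699706570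5398056156135822455730300929798208049930774757460204112497116318532563787771074923407194198396330975612662589787008437375330892222008913191213594234736722535991326424364076280734519123897447279734033887954171779367573883696042907400525600655629528455424642415022709794407088731950904124308600426738143033334321976564636374188902937713160382394637388286217462791764587712762342534479469767167679272395718670405240428046090439649779192726840211527655747193439398224639495709681743655279079277925679880071806922752349651051958805377601146063531872434029697709213188097909677207019907481246985409375001758069327905563274426552130544053620026179889326395778261686267723842668930797869172282589122581465709750832797233750760818812320340705541871775986846454038962509363018001854727755138260604122872898416617458312487758664568726990078874974983708369994718272315794802933739416217891401072969726332459035905492987217598946269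9546011756846078242227635826767947294974970658266400195150582282537752126377907657883674041861955593355315529621150900515042743834760153394451206366334115880175566538938283744439240666926530412249632904162299080803426045626146280449616221371151885238784286894350628298382504222091503199289089771256205183332349978284262260241338986358807757405796890624796941069586078887656796227284552994381850630954827857556200824201380479898591194525887187697768168726245732463960079959249893054255815807794011738343598355730030296160023740306158624788800738677682172330367188947613491924598075716057331508303718397056886666594807949456687779653835654304020073033785845396576263460997281629410489153694213603878351551914691440267785969048880686483476338847026204199470818915610407499295851097941243484472034382387195390967587146782652554930704048169187143817899205185892080424626950640893856090182521506189476899458380662653275554202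4433470421447997845378337259207045151300526890346770770563326093915606841432148476104185156160913069382344364627001461876152378162854963216693301415246265242366408450100036630105572010047162480353334832978932548807494806566854923332262554938170939978494568594936568777728394412870241280720887224710536242050338984131069040343325887868972422623945202037706933699050443069970075429518950837037927560620564439891480152943086984921921781535663947953202612658376278870139438425305290703632534030907031717747809900548681261226643783472503524914637766512181820287755077516421664888590091704637347023106321895909807417744038887939299556449911616740862834495852142025547945693167073350493278353144854693685318153898659893883567279960416543173022582654538842775555806013981930141238172211207653493849551758248872499875233543508160543020772219787093189344380888387573064914442210068276056587667748682217775407146642075511371388911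4644947653974873712111892059436592675694300131298495058017745825981389440201402871917615900001972133238795816016625744819564719956485068135374401358053590765725599814565136831565088291283085408785478766280369732478373439205326943342825272521736567731522217196031625102417717928476810878761116500467145016338953941295683146859129078960407579221555650726696652405197282416141558930416327023732618773218953990938554949571302388308770223925757158292850340074512587365328596176554391788154226064032330261702323888176929326516306646980187581750308884435183352087448417545986072141615874547733383098860425652661385195826009276861584612770082440694582410602142457468985322640494618633451070692759748650090525487839306649180562153188459473558501460433598001962300946684546816915188366765094003830743222635593172507625824260955973194235568017331776239173602528032953647095430218584831443335619187462593653551196844224237436855083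8999709283725392116227917157674530397548859941134349397994147526317454897113423214478511779332408830613498930211700439438664997465163455735769998513284196337250801360158313946120559238004872043930818285086042296489432638291789365310910402350977285601007348848810098269983801478482700880378511811122439485728082936777276895776429359526361972914510102952805580520398254536943561150039318625548093181869532761309589918581602586698336046669006372736893496613752296730734976401488482251045079979947145758772149026389595131176221278060493112810726914037276413754372127149339159764288219028439787033106835437470481057324043513816390460308704304651401760802998078451262650490376307463904882283001264377547156667646815395376338164279380605949636743809740471668942573611454436642196466658842846668981361247507209032285095906241125840997199607870693773888124857856356094232298671323001659013622534260471980658380240287259554849290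3236562142257281944535818595858227775243088388578755811065858412674945662863908451068317802076565873078253516380321114150052150271584473648503537950789886740747168298125216327081686968413392053073365622654987924649011586923908085677517491918657021734437608214999329525577570695773062909877129622739514905276323779448222233011097926107973998456746588164676806576412045450272116799691531687364239786121697800233604942322559688572907686203311105468061584245494759879611585418083533372324531225721211524690149326211261620150062428992690201966022743658925174846292062652218830174110963224190930912875424429828880397026449192820872144580359300873013832990300094278452567217546254998040173245895331743745313627981581055550298840656874010747738565482262426656118850123679663897484107213435168966641238115656283603365858811554903125184940510077324745086850101731103450076012918528874232760764135931994432159400552604631040)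

noncomputable def rc1 : Nat := (nat_lit 2096613381692036137200326784027275452806777955616970860445574304527620818937613686907792752202268412522374804241856359761918050119670049530367129880408492930740390161440652339536291491055960821098292890054750731786880334035350924553898442414991079298752915057589702304549008053345707691806729245499356983091500155930340907475309777187674908870896267720112390880492555694406712653612769841363504854759766557162862278530499009395705880784886758389769527026392807790941633452268942664580132304061626476851082133807241601297037212378855489100522920946655408040966708503317177191370329615094585269759356560083963286317370098153183615344533678905665659678468433008766165665293958777455327288463961969331845794620154284747207333075721323234631819277086814679497243007271166065985499712031926375112735953071900826609680247058668741368963214809401530583933334890427798287846962968925179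0245223257342051507190386281587239242762384422125200354908300845599925450417468147315104859708982170156488817951901788852836712713749714439877284533859300390520667679166340911206404453551722397682252677097255864800614834451159679071534525704795674281148755697201807987998855509319105311175631737002132949303657427100929112021361598676075794341549866460937140739829057048292351263394123863072824743580066861271971066401354182159316376416022483158707420684134841532453914377104661266900413916823228053821551783794842153598259688990074234779747714686530866235141638378180095636118441976746637609447549734449441093583014080993285515216365791386982916826240870287904698628324517445033886279095104756084104404474001068894549702836983733987506519023677814601387630326662015139394954920233349127748755653556638291397353249184829909536989111438511697280321703393518957077746566274838542372035081460660162029138075309884060971596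4851494790846195979455907264364273217881250781431554339070083600516270922446975214172142743312193089593869107236103024346006578662201341737984948488892349532224050504999724883116251998307499883406348983018674910072072992360815912909089286756856917711543980381254158480701730944787381671016558535598939185209572752383433728181549654217018606901792650332093428902380124445457319453756924913915470785580746248243153436690519468031609406175611730575242746251652611258209055354944366679196784977983117558792073434003894072581365786678006204948347378322511965762321065592511177013437309351431886417427881096845556427695479224044701389834148439107434389109213313370687802964197251413598645816747717774811934337215126298373213735264817653410341888426322836938549285964879584118547327129338130397022988601511305263957177197194425349249847343297971776189282944587649219806131073517309090077784716270969691731690195278463186804516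4717702570387656389531090027676820953676994525147246804243360000425319766616134460765038893901295399020396950114487854621220505149962823132110091607636017042400396499403554375520721539788035655706732227584011117473133123104838615644333940524456810273104261256732491888738316554158222715578705753077116225924516394982241021566115557016895669536248527510321926805622040246543209037933211610060034361901450176134422848276080571793984059826675642502419679133030769907142239624826750021507372680454815090204821740723822954768674577236682955472731511465483242510292795627313845946018509377368123297203300718532394172355312256944861867095402575940907142213655874430917287625236279329106045765576577965043519909695038911623891415177682109950860877311679172804278242640505546738104736857182391256775773171758204820153219411346669633809264735728829325755736062902729919363245760411805516652441719622031992619975944622889112536519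5061969229056397011080271691661960268472008056423002278149726660035947422113199790774988234984822428358228058089224951884134553969001303736342551582308898704682812905315779714355867414306257550492869056630034745345208012404161523454524472032346382469535049972621658786218941854122580387290083671802937794774590628445951977252271154164854061942973366593124982100869037147409350272609482536591865759605339948689467775080407256498871556690129910473876298357803620266866097461264158365118530368048483915131745755312231787564047639940203155978352928427298385370423278947092053026499209581999308010819561352005391053003920105971870653687203063123147998399355682275689578433813864110727934924283672410392867537204448011584378060279824218389513718083611030513741265882500325488566344388273988928462649459688288759093893577323894317098532905994834502892693482205118028865636397862203994073573622084728076118115144648454665576803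6370759230698499458050000093613938124506935243960390518154836684010718469700663545822390950683961354972813994655390443633920454375404282875751461714992446969283878274378559288794511403170053869732083562728085089260350206168106300098792590366332832243658821176711293674261388067685373395830038166650909550867763238158710077573758177119839318413515940341201137922862112003946671016097112204165829751422412287199479465560337176512025936311488551680426083193803022558359570965431665423188592473352330719893302419373025168197592286953404954748954324775038810564358924313218877732810385446339191009783286388389198216929563407393119213062024403203390877621093737544622538474753335558110403356637410485221947127830167936730712769409772849705180630673879532340966108179657721682646443786878027785904884606774301758905358884992708590714389363991730518669657485517250659823749169493932429213437543960087990615001583632293161667135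5062951233647373260890218000822177093846409512394129799536170833917635732410800169301447493967943994309044050419084901331331185050033551862546611625725472014512359454320820370704880804396051526159263571679278833282477678365238413757911729794524191259658498409894930867377846796390165872565514357547136579288022037245100193758399703955649527043591129590509251066609356140051359835951404337808110942820908181428552880999074692658328063397915372536083874289876995447963992717795498423769150247523901037705802903863009952944093097241214493462935922116752473391019379854197794609790232258415073336668902069935396028046920614767908838674695167964923218659331457296775848621044303118707298002546705139752764703966101268681538630251562888772285870051993134143602956479965734531668776689802233199370537598074756922679734639944142107185573556076465310679476073485633724947388025269172036097170856306882491337607650994854965656724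5059939409660646304877326541188767747372413065304728547863110472943753663773393312137555908586167712279131450800797480357892015629972208860330273739061150842293415267515192550799315052904465397263073947944032761215875606011131366827591088473175038643153973234699095933783372968848383930891772997791840799549185568187526649054201356304347790875195189816810618800579798121046344462709623044232643206866284477981739056667745023452694611474425036187739512098247510741618252499048712537083375607485366721136672429331718613105619839143554497729355228815846186878847713337476721554507476408826379886948364184928052520284456396212701920893542489293261024935861923225627157689002119661935833213128330500343660637002930745953192331522577070694321350930873664761764278897199612495941329224691571368159321121720486766957060705748980614262712903180401419354597416587772951037531444642057498174016787757048385486874457065652224)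

noncomputable def rc2 : Nat := (nat_lit 2342617206267334100620151932879022821687851894337346546809202658084266386634455933245679044695521944341793107882739527180972565811489510404561781538345475418797576272782109959746996231386496999445984095667562130662006892113943340591935141078022640176649385353881035217770108502887680982969292062159483788912707491954293044602806227456236977707255183025524224558408885265991496675704487927734647771826784224975871220291980826236058834715873603809009801624831175189354848612179174275065103985966042128027070990516978666174043130030911715634563247206445736367457765398764994070665720411956759809291188402883474420104941195518070212832696787422040942765647066220421778566322298107761303332330372240155616667482357775054336271010695725585052203320749894301407514321154025084652930074578777509522294288982077212562008421909700726681144661521642696726807740873253494400116434174462087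2777777225150706904998529784120810337454352640373102554091035952498352831303083955781290617616385602698651838041317347542741163957365456052949343525913074552692199072864854985803253774662167082912972674383575496825285539981676580804190683706898181293981948751243799998430859339189856909054390084466467609278790895916526716645858173157626656223609507810076017748311121975538739703973440143827870701069119399064516472163076540231376172511758172409892365212325926681406869401404992475861000191979821832383816268505197962724758786360638004068138140211143442448268937513202122986346213351349423442089821957435093554816567987421296229338885897081569869077447132169705206728131851918879876993031096004702971607673061305512233028253406769917187636136435418372883198075564445282507201005333530856725959111796714644910058351168294405931058392484530044589290418483796333319022047220592733324786256845644286913673438320426580889366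5944345170163630543980482171006917496039273184072246494805848092511314994396169924900380426206496875217197979634744909449667941080875973425308138251367750668475962250569324376619493884743188780925611283413191692312335435677383247345509802418570873918214322231973056850368003784907368188564627614371623816433406450389721748609175363068718365059047999789207429335566334638048592260435383071742500895356030061334541622438154040834091768708350994160909207988754748912875707600282059256218351268145604457114405448856517865144892907403417869057495717404072912083024712686686747854812254031997618685991064812466163503491063637153649180877390595224546180526021679842095858071072061006550220236081675898305889400819710721462282696272593450390959137172288778829047039085965602170006707814989611529792163180840637703120465478486440133270190995603282781033130821002994964647178762393557135987934918964202045275850548511825814487987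7000242460447293726543929686061693153827634436311554931331096758517528408016127990759015855273233323510601251762659683632475332285106077127844046954441188309273428181658149594126532996239439427913768958953769938503700042067437816651217519943227565455015903234941857122945334355153734081887753065105672421124879854552942000738401363297026411764848341468778335046422131880324509376370030506603790370537596337375409475263648936584580139761445126207112882598671694011998716960399185982976038473809062132512211323051534714602833630106462102986349014350975722187099389846511807256940143284342671725469325795666372948677130712106648303566632167460204522318851403900208942176846831739630471050661269407647047243672301882711004630175954489295716525440317231397283697574450457820607838979628298458688971183934536362357702518475063645043871300784403070661673699714402129935017004061713434249276987473705900078264846226042539745687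7836453018902258382977124127193283026926561350954853060626171729393559109045548033076343542824769616838716844700673727861638776336486012227862611048675805329257304163280090267896817022671450694547105540770031417842878512721533712265109432596238950661090809812222171271662488576390442183179408103681074180350240604841171540557766753434594033728964763238011536171647881826303277010422043454785580571651061861651210357261980771876510501071397232840998266237857247254833204252242659698062341040512930523981417904393052535329839710636203547582571358288403533768777983012855945280732284324724185002194111952459146215722180066108270757555942589752180419132208955989954374972601019703662800680383147297263498906800058805498969024599545168031622545539955359256589643084226762048934457861405747206839652905476599798767246223686488269948243780700190314404964951617238115434350232813696534233230757660414218026567496599806771542834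3761623773455646496002048987391909113650199864217123005963925642163241297950170388799285890984935938737695692153108293429199480571526187818078678487862421245775552415443418606629712583644407325190745417525259086800909284309931371946937104849292918538208582283213704147862488188835165422137143261197608708998275570114503839232541339665755081829002169849771255682076693769028811584332656272462184062920356329989380404853338049775791945629928238902557223327115884522792182130094440112778045961263417156585904204679197811748240191106603337829103250855746062206484802375580471328761974906569456608364038866835830296543852602917757017774693452125816992467600082099624504117040697128666352024854517115454732613583371365552348989673165170806043519876442566761151375556400425883582592179438001174720072337661862103573039618337067226815886058249959448084940776810806572696424974201901632020285227607859721121544470827359808736696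1836269047194567670728567004228463776431821539704701672509617983915458182775421553996417042903167093645945386878255673143924855946537946962537793495883645602094048565637133856125343363823991674541511129557615707430382391745910072196488490117149695235112024260550688322679662224735799490538540310809679908261394725663974205110799115142969735906991503249603121213691307373794199467524922308640880664264381674712390635262280306242569615197583483340421190823404455183107162690605296154028447313304382988941834842347938256623350623246041721233069304498021540728108665604397479375917538003647017121302274359942459578385259998913126999547812978627298110300415306267745330172760545861640873574405179889876657599949796325454426235128539341600554748635279708372226071861679370610777225260963784917773802089570521917584640671248946027633296875477155166128096090441718063670473854623783680022979943090676119826452994315356783084270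0852847344105931672513764822250110248165448837684656974442713192940286243023706474084240236852692967444622558748775132909454879629109380266302102215325799355751798351036593865671975692619406711477051033302592475598587460267036680301206944044299061176114093511274119650104050685606833563931804717162690530306335036973028940710335782778540018115890060449369399977911853601493055496147762295140153989411825059206540875148241700991037311900950525790962420378224629852277572178247395614573018624962569468710006041427433053670389763824851625430304888969432562182931121843024654148546281962090007814812241526946899104302951067678018108710579285915955636202099319518967365655459813609354923460459496576606131613365617146264600570089258603282487069995483999703458102332713640828720753922018817913047990995205505127624422500752229444836377259628023994338012757753030357986917825840680677670352312464968379404522778196443136)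

noncomputable def rc3 : Nat := (nat_lit 2369266373590206601395425484515960864444927468377692289667282637920818309207041876372919263613122241852073451211840615828159760273345004688255216022711625096681598857862340945729378854438360439830932253259698000154635089774480923074672198632036702188424703705148178503732204223925257643106501329585177505816839255749687487888050872937750497799812181379621900955426372597775272417592094742219848530911721450064131249921753505935744990911887109430819410159913447656032061280525163449651899022592473181828774861275332871670491427926981638593636559670033059151927332169518407598635467764414554296952688001587732408970435280589677085729692291718363260095668966680572767161410272842671509468001950258357193555220064490919557107887343236507645176988678738141124907985426165780181379824582929677895571420633358497831863259881091056394094268489163755740289901460990977200270574947720870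2335524269643156895207806799153210361153088962151307667462183638480408090377608088024325881039653081613974201583678025757529103327889315841396175435753356506774479420960311269048824445198001930224612093537092142738153983335029635501261158073303584477475417833339358077204898388981230718337797004893452994303095117696283101736639177079886636441386224600243699070287621189140377281648319721625480593226236771227402342179885631796800893416313423531285914243155995651266626407146483839949887052028090503350429924201812150559408169400793484006466964613368726595764070678858334156033581259248112053716042122275682812185057320750983165503310160586415320100084122411033402267538415521655688316227074270057586581142110912315039459513503072330727595362987076521536781412278884034124847384075314591246117997097327082653246353586325199052780662535049333523280741597648295191848223412554000237930659243585878764727322848193458845969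5244162285292884273463703978970076108020755999465594236805657446648956458323623089127902051888220175647843999899021178695618237477887615900474463764494133469793450644355585634185149372067616306043112642911511040498684607718698092606164546966279990220263814057153054822436311858027981957032539091113838865733612384206437880278746843603009466339437087960999187889560229398812603425266241938825502830085327331461091512759709865675610099152668736036437806009036465632807834838903094837219269929330845756302232952054252924817537262329706140364343467308850536321870585694600552559450822009864321834566561740963618988317230323202668065099683703674881431145510797429278534098224551754790247183757376784270727963913996160419267450577635378746693544079288808970486596560743315881203273809279307102486542449571276699404587981744712906022830972271882167437509964862329836880867165395645302370532962264331560982362903232022553270841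8026105653433537234748815970767185311794090661490351981677947813675015623426597786931109648682056652178463340632693144829431102515552089159082890894580496417089528580274813553706887878261488251636669570495582514544449654727318185336905193438413344367031112402997376602591557337559598388142116960132360354038838353935528513218176022060471905375908706501822093273647932241828036772251833564616072202713857331297963373868604664392488382323749588938072492466241602923031755942142269053947132551785826110686433737008498294622462436676084388783947579568230788427443247656485601816275527998167681078596520516606654678809903035259301980781784859068651661969984401118530051101708045392941136928287993779333458729778460470911828769661999537932901647582186184757393762255171660907758804693264044273006106129386573922007621727066302100915870608426868760633398064613215336069737863856665358025165205289374462578833710720807245107379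3386522830864763581813102703461633490106538574657055091736420336201235357773129059826818462263686682216321073427554896773123742398913592541009414207202995199400796204785008587060050981006527922303821481685125797892376649208300204348933714549894387533976136234426911407552495282671153412663958055708790590465983599087656844006521424917947170510718228384942339176801213461252640121790474185841449509975622132829514953108301664186760385386942187838658094492008664381016911724167041492234586869899289135015688743063938187614199579784869760059005918205332078299295116429962100662057208612942473289665197417178089156775634554703466033458399661869894871238310406444637930538405068109570275272004760389602554545289959635119158896743888165927041527472459880792849853093124258232477099582398510759783615387674531893610542748935003744470387791488428153673042235875604817643013127177840212188477951329387081658972271115498146064173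7381955255918595241892048071588609235187002490997626430791303025356401453201494624618011480244143060369350906077082249007375560577481120525864770617435714718714450158952295216360018339363812431408293527407468565458604933005755145569711688473686612206991011211268185730405688295103702500599664076622174165381224717495978701220628943428829697790148831447033313555040296889590216222891665700242863674365384669850379278697249769400588296291565535934673265915684114239315979182310079888437586300916263965401767557965434985048309034737061542307934359273222777055058779536076732781617141362324268881170363132501749798614568085709376717205599395550205847146011772121194898124582661092432268072652862782415232857508021460683428893865288669864030530503615130347867218342046633059189153174144729835220863874240165560165816900619502225628812038554363070218636774204358934681414160394544075593151991149916689323649255565464100124960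5693687304218358649472806684219653993927280913757203336899938880415170831938565673009319625585589456440789260648819118353880173198065210885034994478987983037194368068785663545739415978906035743634540431894589584735570941373107357726614836274510434618973071870471292323624117992914345810568370225969360368469763134884722186655312856448757711474330276940760138509777596634762200995813733394239354066961618505060719133075925918758465116762000440037115666916652026861388040890136540753883921121650561503628074627381931412901746017675911374735849139285634079173050056497672976064512651808303243160827791348104791717040338766806970140561619063988104251344066141258820222853548331938418435287963274429195203384523500874126481058816307335067924955554746289263909103647457894555159068153596090639287574073234626887742654776954015740007847967477431033725757061330941326543792637134886060806184926878686572406742077952798811059635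6690866407061943031583815174928581697968139617386889256822404353123510472120775567652143058888070027492987368276859988875881339711069627316327417314332614122169890149788033994537306350894091660841478138983131843065486090797972968946257540589756328816502005844406220740614947146315002094636180565136813778061202645602096917052836784534625023107152683651913894308593062519350844471963602394958171717681146878548942004811576004362023146919404804665641454494239325222150512202137147243820988051835381979372285163399039945443852725304313679126911574283966612891664732750150669196757296068520852055573472774328843153389684141254368343583412725416583692609295788036761767243687274623979356001430919272843757678849408922705129845041469258420327221773284518904602922145453706443662289955443745855504352587034556644948414270486234611896467039660303211774450387717321142584960037210860666510730825721342304023113114014711808)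

end Vale.Agent.Lib.P154.Chain.D5.S3
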