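import Vale.Agent.Lib.P154.Chain.D5.R3_3

set_option linter.all false

namespace Vale.Agent.Lib.P154.Chain.D5.S4

noncomputable def pc0 : PT := (PT.nd (nat_lit 2379610) (PT.nd (nat_lit 2260888) (PT.nd (nat_lit 2142542) (PT.nd (nat_lit 2083228) (PT.nd (nat_lit 245998) (PT.nd (nat_lit 245904) (PT.nd (nat_lit 186684) PT.nil (PT.lf (nat_lit 84) (nat_lit 3) (nat_lit 1) (nat_lit 1) (nat_lit 93) (nat_lit 3) (nat_lit 93))) (PT.lf (nat_lit 168) (nat_lit 6) (nat_lit 2) (nat_lit 3) (nat_lit 92) (nat_lit 4) (nat_lit 93))) (PT.nd (nat_lit 1837136) (PT.lf (nat_lit 168) (nat_lit 6) (nat_lit 2) (nat_lit 1) (nat_lit 93) (nat_lit 4) (nat_lit 92)) (PT.lf (nat_lit 6972) (nat_lit 6) (nat_lit 83) (nat_lit 3) (nat_lit 76) (nat_lit 35) (nat_lit 78)))) (PT.nd (nat_lit 59126) (PT.nd (nat_lit 94) (PT.lf (nat_lit 7056) (nat_lit 3) (nat_lit 84) (nat_lit 1) (nat_lit 77) (nat_lit 35) (nat_lit 77)) (PT.lf (nat_lit 6972) (nat_lit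 6) (nat_lit 83) (nat_lit 1) (nat_lit 78) (nat_lit 35) (nat_lit 76))) (PT.nd (nat_lit 94) (PT.lf (nat_lit 7392) (nat_lit 6) (nat_lit 88) (nat_lit 3) (nat_lit 75) (nat_lit 36) (nat_lit 78)) (PT.lf (nat_lit 7476) (nat_lit 6) (nat_lit 89) (nat_lit 3) (nat_lit 76) (nat_lit 36) (nat_lit 77))))) (PT.nd (nat_lit 59220) (PT.nd (nat_lit 59032) (PT.nd (nat_lit 94) (PT.lf (nat_lit 7476) (nat_lit 6) (nat_lit 89) (nat_lit 1) (nat_lit 77) (nat_lit 36) (nat_lit 76)) (PT.lf (nat_lit 7392) (nat_lit 6) (nat_lit 88) (nat_lit 1) (nat_lit 78) (nat_lit 36) (nat_lit 75))) (PT.nd (nat_lit 94) (PT.lf (nat_lit 7728) (nat_lit 6) (nat_lit 92) (nat_lit 3) (nat_lit 74) (nat_lit 37) (nat_lit 78)) (PT.lf (nat_lit 7812) (nat_lit 6) (nat_lit 93) (nat_lit 3) (nat_lit 75) (nat_lit 37) (nat_lit 77)))) (PT.nd (nat_lit 188) (PT.nd (nat_lit 94) (PT.lf (nat_lit 7896) (nat_lit 3) (nat_lit 94) (nat_lit 1) (nat_lit 76) (nat_lit 37) (nat_lit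 76)) (PT.lf (nat_lit 7812) (nat_lit 6) (nat_lit 93) (nat_lit 1) (nat_lit 77) (nat_lit 37) (nat_lit 75))) (PT.nd (nat_lit 58844) (PT.lf (nat_lit 7728) (nat_lit 6) (nat_lit 92) (nat_lit 1) (nat_lit 78) (nat_lit 37) (nat_lit 74)) (PT.lf (nat_lit 8148) (nat_lit 6) (nat_lit 97) (nat_lit 3) (nat_lit 73) (nat_lit 38) (nat_lit 78)))))) (PT.nd (nat_lit 59408) (PT.nd (nat_lit 376) (PT.nd (nat_lit 188) (PT.nd (nat_lit 94) (PT.lf (nat_lit 8232) (nat_lit 6) (nat_lit 98) (nat_lit 3) (nat_lit 74) (nat_lit 38) (nat_lit 77)) (PT.lf (nat_lit 8316) (nat_lit 6) (nat_lit 99) (nat_lit 3) (nat_lit 75) (nat_lit 38) (nat_lit 76))) (PT.nd (nat_lit 94) (PT.lf (nat_lit 8316) (nat_lit 6) (nat_lit 99) (nat_lit 1) (nat_lit 76) (nat_lit 38) (nat_lit 75)) (PT.lf (nat_lit 8232) (nat_lit 6) (nat_lit 98) (nat_lit 1) (nat_lit 77) (nat_lit 38) (nat_lit 74)))) (PT.nd (nat_lit 58844) (PT.nd (nat_lit 58750) (PT.lf (nat_lit 8148) (nat_lit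 6) (nat_lit 97) (nat_lit 1) (nat_lit 78) (nat_lit 38) (nat_lit 73)) (PT.lf (nat_lit 8568) (nat_lit 6) (nat_lit 102) (nat_lit 3) (nat_lit 72) (nat_lit 39) (nat_lit 78))) (PT.nd (nat_lit 94) (PT.lf (nat_lit 8652) (nat_lit 6) (nat_lit 103) (nat_lit 3) (nat_lit 73) (nat_lit 39) (nat_lit 77)) (PT.lf (nat_lit 8736) (nat_lit 6) (nat_lit 104) (nat_lit 3) (nat_lit 74) (nat_lit 39) (nat_lit 76))))) (PT.nd (nat_lit 58938) (PT.nd (nat_lit 188) (PT.nd (nat_lit 94) (PT.lf (nat_lit 8820) (nat_lit 3) (nat_lit 105) (nat_lit 1) (nat_lit 75) (nat_lit 39) (nat_lit 75)) (PT.lf (nat_lit 8736) (nat_lit 6) (nat_lit 104) (nat_lit 1) (nat_lit 76) (nat_lit 39) (nat_lit 74))) (PT.nd (nat_lit 94) (PT.lf (nat_lit 8652) (nat_lit 6) (nat_lit 103) (nat_lit 1) (nat_lit 77) (nat_lit 39) (nat_lit 73)) (PT.lf (nat_lit 8568) (nat_lit 6) (nat_lit 102) (nat_lit 1) (nat_lit 78) (nat_lit 39) (nat_lit 72)))) (PT.nd (nat_lit 188) (PT.nd (nat_lit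 94) (PT.lf (nat_lit 9072) (nat_lit 6) (nat_lit 108) (nat_lit 3) (nat_lit 71) (nat_lit 40) (nat_lit 78)) (PT.lf (nat_lit 9156) (nat_lit 6) (nat_lit 109) (nat_lit 3) (nat_lit 72) (nat_lit 40) (nat_lit 77))) (PT.nd (nat_lit 94) (PT.lf (nat_lit 9240) (nat_lit 6) (nat_lit 110) (nat_lit 3) (nat_lit 73) (nat_lit 40) (nat_lit 76)) (PT.lf (nat_lit 9324) (nat_lit 6) (nat_lit 111) (nat_lit 3) (nat_lit 74) (nat_lit 40) (nat_lit 75))))))) (PT.nd (nat_lit 118346) (PT.nd (nat_lit 59220) (PT.nd (nat_lit 58844) (PT.nd (nat_lit 188) (PT.nd (nat_lit 94) (PT.lf (nat_lit 9324) (nat_lit 6) (nat_lit 111) (nat_lit 1) (nat_lit 75) (nat_lit 40) (nat_lit 74)) (PT.lf (nat_lit 9240) (nat_lit 6) (nat_lit 110) (nat_lit 1) (nat_lit 76) (nat_lit 40) (nat_lit 73))) (PT.nd (nat_lit 94) (PT.lf (nat_lit 9156) (nat_lit 6) (nat_lit 109) (nat_lit 1) (nat_lit 77) (nat_lit 40) (nat_lit 72)) (PT.lf (nat_lit 9072) (nat_lit 6) (nat_lit 108)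 (nat_lit 1) (nat_lit 78) (nat_lit 40) (nat_lit 71)))) (PT.nd (nat_lit 188) (PT.nd (nat_lit 94) (PT.lf (nat_lit 9492) (nat_lit 6) (nat_lit 113) (nat_lit 3) (nat_lit 70) (nat_lit 41) (nat_lit 78)) (PT.lf (nat_lit 9576) (nat_lit 6) (nat_lit 114) (nat_lit 3) (nat_lit 71) (nat_lit 41) (nat_lit 77))) (PT.nd (nat_lit 94) (PT.lf (nat_lit 9660) (nat_lit 6) (nat_lit 115) (nat_lit 3) (nat_lit 72) (nat_lit 41) (nat_lit 76)) (PT.lf (nat_lit 9744) (nat_lit 6) (nat_lit 116) (nat_lit 3) (nat_lit 73) (nat_lit 41) (nat_lit 75))))) (PT.nd (nat_lit 376) (PT.nd (nat_lit 188) (PT.nd (nat_lit 94) (PT.lf (nat_lit 9828) (nat_lit 3) (nat_lit 117) (nat_lit 1) (nat_lit 74) (nat_lit 41) (nat_lit 74)) (PT.lf (nat_lit 9744) (nat_lit 6) (nat_lit 116) (nat_lit 1) (nat_lit 75) (nat_lit 41) (nat_lit 73))) (PT.nd (nat_lit 94) (PT.lf (nat_lit 9660) (nat_lit 6) (nat_lit 115) (nat_lit 1) (nat_lit 76) (nat_lit 41) (nat_lit 72)) (PT.lf (nat_lit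 9576) (nat_lit 6) (nat_lit 114) (nat_lit 1) (nat_lit 77) (nat_lit 41) (nat_lit 71)))) (PT.nd (nat_lit 58562) (PT.nd (nat_lit 58468) (PT.lf (nat_lit 9492) (nat_lit 6) (nat_lit 113) (nat_lit 1) (nat_lit 78) (nat_lit 41) (nat_lit 70)) (PT.lf (nat_lit 9996) (nat_lit 6) (nat_lit 119) (nat_lit 3) (nat_lit 69) (nat_lit 42) (nat_lit 78))) (PT.nd (nat_lit 94) (PT.lf (nat_lit 10080) (nat_lit 6) (nat_lit 120) (nat_lit 3) (nat_lit 70) (nat_lit 42) (nat_lit 77)) (PT.lf (nat_lit 10164) (nat_lit 6) (nat_lit 121) (nat_lit 3) (nat_lit 71) (nat_lit 42) (nat_lit 76)))))) (PT.nd (nat_lit 59032) (PT.nd (nat_lit 376) (PT.nd (nat_lit 188) (PT.nd (nat_lit 94) (PT.lf (nat_lit 10248) (nat_lit 6) (nat_lit 122) (nat_lit 3) (nat_lit 72) (nat_lit 42) (nat_lit 75)) (PT.lf (nat_lit 10332) (nat_lit 6) (nat_lit 123) (nat_lit 3) (nat_lit 73) (nat_lit 42) (nat_lit 74))) (PT.nd (nat_lit 94) (PT.lf (nat_lit 10332) (nat_lit 6) (nat_lit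 123) (nat_lit 1) (nat_lit 74) (nat_lit 42) (nat_lit 73)) (PT.lf (nat_lit 10248) (nat_lit 6) (nat_lit 122) (nat_lit 1) (nat_lit 75) (nat_lit 42) (nat_lit 72)))) (PT.nd (nat_lit 188) (PT.nd (nat_lit 94) (PT.lf (nat_lit 10164) (nat_lit 6) (nat_lit 121) (nat_lit 1) (nat_lit 76) (nat_lit 42) (nat_lit 71)) (PT.lf (nat_lit 10080) (nat_lit 6) (nat_lit 120) (nat_lit 1) (nat_lit 77) (nat_lit 42) (nat_lit 70))) (PT.nd (nat_lit 58374) (PT.lf (nat_lit 9996) (nat_lit 6) (nat_lit 119) (nat_lit 1) (nat_lit 78) (nat_lit 42) (nat_lit 69)) (PT.lf (nat_lit 10500) (nat_lit 6) (nat_lit 125) (nat_lit 3) (nat_lit 68) (nat_lit 43) (nat_lit 78))))) (PT.nd (nat_lit 376) (PT.nd (nat_lit 188) (PT.nd (nat_lit 94) (PT.lf (nat_lit 10584) (nat_lit 6) (nat_lit 126) (nat_lit 3) (nat_lit 69) (nat_lit 43) (nat_lit 77)) (PT.lf (nat_lit 10668) (nat_lit 6) (nat_lit 127) (nat_lit 3) (nat_lit 70) (nat_lit 43) (nat_lit 76))) (PT.nd (nat_lit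 94) (PT.lf (nat_lit 10752) (nat_lit 6) (nat_lit 128) (nat_lit 3) (nat_lit 71) (nat_lit 43) (nat_lit 75)) (PT.lf (nat_lit 10836) (nat_lit 6) (nat_lit 129) (nat_lit 3) (nat_lit 72) (nat_lit 43) (nat_lit 74)))) (PT.nd (nat_lit 188) (PT.nd (nat_lit 94) (PT.lf (nat_lit 10920) (nat_lit 3) (nat_lit 130) (nat_lit 1) (nat_lit 73) (nat_lit 43) (nat_lit 73)) (PT.lf (nat_lit 10836) (nat_lit 6) (nat_lit 129) (nat_lit 1) (nat_lit 74) (nat_lit 43) (nat_lit 72))) (PT.nd (nat_lit 94) (PT.lf (nat_lit 10752) (nat_lit 6) (nat_lit 128) (nat_lit 1) (nat_lit 75) (nat_lit 43) (nat_lit 71)) (PT.lf (nat_lit 10668) (nat_lit 6) (nat_lit 127) (nat_lit 1) (nat_lit 76) (nat_lit 43) (nat_lit 70))))))))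
noncomputable def pc1 : PT := (PT.nd (nat_lit 117782) (PT.nd (nat_lit 58938) (PT.nd (nat_lit 58562) (PT.nd (nat_lit 58374) (PT.nd (nat_lit 94) (PT.lf (nat_lit 10584) (nat_lit 6) (nat_lit 126) (nat_lit 1) (nat_lit 77) (nat_lit 43) (nat_lit 69)) (PT.lf (nat_lit 10500) (nat_lit 6) (nat_lit 125) (nat_lit 1) (nat_lit 78) (nat_lit 43) (nat_lit 68))) (PT.nd (nat_lit 94) (PT.lf (nat_lit 11088) (nat_lit 6) (nat_lit 132) (nat_lit 3) (nat_lit 67) (nat_lit 44) (nat_lit 78)) (PT.lf (nat_lit 11172) (nat_lit 6) (nat_lit 133) (nat_lit 3) (nat_lit 68) (nat_lit 44) (nat_lit 77)))) (PT.nd (nat_lit 188) (PT.nd (nat_lit 94) (PT.lf (nat_lit 11256) (nat_lit 6) (nat_lit 134) (nat_lit 3) (nat_lit 69) (nat_lit 44) (nat_lit 76)) (PT.lf (nat_lit 11340) (nat_lit 6) (nat_lit 135) (nat_lit 3) (nat_lit 70) (nat_lit 44) (nat_lit 75))) (PT.nd (nat_lit 94) (PT.lf (nat_lit 11424) (nat_lit 6) (nat_lit 136) (nat_lit 3) (nat_lit 71) (nat_lit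 44) (nat_lit 74)) (PT.lf (nat_lit 11508) (nat_lit 6) (nat_lit 137) (nat_lit 3) (nat_lit 72) (nat_lit 44) (nat_lit 73))))) (PT.nd (nat_lit 376) (PT.nd (nat_lit 188) (PT.nd (nat_lit 94) (PT.lf (nat_lit 11508) (nat_lit 6) (nat_lit 137) (nat_lit 1) (nat_lit 73) (nat_lit 44) (nat_lit 72)) (PT.lf (nat_lit 11424) (nat_lit 6) (nat_lit 136) (nat_lit 1) (nat_lit 74) (nat_lit 44) (nat_lit 71))) (PT.nd (nat_lit 94) (PT.lf (nat_lit 11340) (nat_lit 6) (nat_lit 135) (nat_lit 1) (nat_lit 75) (nat_lit 44) (nat_lit 70)) (PT.lf (nat_lit 11256) (nat_lit 6) (nat_lit 134) (nat_lit 1) (nat_lit 76) (nat_lit 44) (nat_lit 69)))) (PT.nd (nat_lit 58280) (PT.nd (nat_lit 94) (PT.lf (nat_lit 11172) (nat_lit 6) (nat_lit 133) (nat_lit 1) (nat_lit 77) (nat_lit 44) (nat_lit 68)) (PT.lf (nat_lit 11088) (nat_lit 6) (nat_lit 132) (nat_lit 1) (nat_lit 78) (nat_lit 44) (nat_lit 67))) (PT.nd (nat_lit 94) (PT.lf (nat_lit 11676) (nat_lit 6)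 (nat_lit 139) (nat_lit 3) (nat_lit 66) (nat_lit 45) (nat_lit 78)) (PT.lf (nat_lit 11760) (nat_lit 6) (nat_lit 140) (nat_lit 3) (nat_lit 67) (nat_lit 45) (nat_lit 77)))))) (PT.nd (nat_lit 752) (PT.nd (nat_lit 376) (PT.nd (nat_lit 188) (PT.nd (nat_lit 94) (PT.lf (nat_lit 11844) (nat_lit 6) (nat_lit 141) (nat_lit 3) (nat_lit 68) (nat_lit 45) (nat_lit 76)) (PT.lf (nat_lit 11928) (nat_lit 6) (nat_lit 142) (nat_lit 3) (nat_lit 69) (nat_lit 45) (nat_lit 75))) (PT.nd (nat_lit 94) (PT.lf (nat_lit 12012) (nat_lit 6) (nat_lit 143) (nat_lit 3) (nat_lit 70) (nat_lit 45) (nat_lit 74)) (PT.lf (nat_lit 12096) (nat_lit 6) (nat_lit 144) (nat_lit 3) (nat_lit 71) (nat_lit 45) (nat_lit 73)))) (PT.nd (nat_lit 188) (PT.nd (nat_lit 94) (PT.lf (nat_lit 12180) (nat_lit 3) (nat_lit 145) (nat_lit 1) (nat_lit 72) (nat_lit 45) (nat_lit 72)) (PT.lf (nat_lit 12096) (nat_lit 6) (nat_lit 144) (nat_lit 1) (nat_lit 73) (nat_lit 45)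 (nat_lit 71))) (PT.nd (nat_lit 94) (PT.lf (nat_lit 12012) (nat_lit 6) (nat_lit 143) (nat_lit 1) (nat_lit 74) (nat_lit 45) (nat_lit 70)) (PT.lf (nat_lit 11928) (nat_lit 6) (nat_lit 142) (nat_lit 1) (nat_lit 75) (nat_lit 45) (nat_lit 69))))) (PT.nd (nat_lit 58374) (PT.nd (nat_lit 188) (PT.nd (nat_lit 94) (PT.lf (nat_lit 11844) (nat_lit 6) (nat_lit 141) (nat_lit 1) (nat_lit 76) (nat_lit 45) (nat_lit 68)) (PT.lf (nat_lit 11760) (nat_lit 6) (nat_lit 140) (nat_lit 1) (nat_lit 77) (nat_lit 45) (nat_lit 67))) (PT.nd (nat_lit 58092) (PT.lf (nat_lit 11676) (nat_lit 6) (nat_lit 139) (nat_lit 1) (nat_lit 78) (nat_lit 45) (nat_lit 66)) (PT.lf (nat_lit 12264) (nat_lit 6) (nat_lit 146) (nat_lit 3) (nat_lit 65) (nat_lit 46) (nat_lit 78)))) (PT.nd (nat_lit 188) (PT.nd (nat_lit 94) (PT.lf (nat_lit 12348) (nat_lit 6) (nat_lit 147) (nat_lit 3) (nat_lit 66) (nat_lit 46) (nat_lit 77)) (PT.lf (nat_lit 12432) (nat_lit 6)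 (nat_lit 148) (nat_lit 3) (nat_lit 67) (nat_lit 46) (nat_lit 76))) (PT.nd (nat_lit 94) (PT.lf (nat_lit 12516) (nat_lit 6) (nat_lit 149) (nat_lit 3) (nat_lit 68) (nat_lit 46) (nat_lit 75)) (PT.lf (nat_lit 12600) (nat_lit 6) (nat_lit 150) (nat_lit 3) (nat_lit 69) (nat_lit 46) (nat_lit 74)))))))
noncomputable def pc2 : PT := (PT.nd (nat_lit 59408) (PT.nd (nat_lit 752) (PT.nd (nat_lit 376) (PT.nd (nat_lit 188) (PT.nd (nat_lit 94) (PT.lf (nat_lit 12684) (nat_lit 6) (nat_lit 151) (nat_lit 3) (nat_lit 70) (nat_lit 46) (nat_lit 73)) (PT.lf (nat_lit 12768) (nat_lit 6) (nat_lit 152) (nat_lit 3) (nat_lit 71) (nat_lit 46) (nat_lit 72))) (PT.nd (nat_lit 94) (PT.lf (nat_lit 12768) (nat_lit 6) (nat_lit 152) (nat_lit 1) (nat_lit 72) (nat_lit 46) (nat_lit 71)) (PT.lf (nat_lit 12684) (nat_lit 6) (nat_lit 151) (nat_lit 1) (nat_lit 73) (nat_lit 46) (nat_lit 70)))) (PT.nd (nat_lit 188) (PT.nd (nat_lit 94) (PT.lf (nat_lit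 12600) (nat_lit 6) (nat_lit 150) (nat_lit 1) (nat_lit 74) (nat_lit 46) (nat_lit 69)) (PT.lf (nat_lit 12516) (nat_lit 6) (nat_lit 149) (nat_lit 1) (nat_lit 75) (nat_lit 46) (nat_lit 68))) (PT.nd (nat_lit 94) (PT.lf (nat_lit 12432) (nat_lit 6) (nat_lit 148) (nat_lit 1) (nat_lit 76) (nat_lit 46) (nat_lit 67)) (PT.lf (nat_lit 12348) (nat_lit 6) (nat_lit 147) (nat_lit 1) (nat_lit 77) (nat_lit 46) (nat_lit 66))))) (PT.nd (nat_lit 58280) (PT.nd (nat_lit 58092) (PT.nd (nat_lit 57998) (PT.lf (nat_lit 12264) (nat_lit 6) (nat_lit 146) (nat_lit 1) (nat_lit 78) (nat_lit 46) (nat_lit 65)) (PT.lf (nat_lit 12852) (nat_lit 6) (nat_lit 153) (nat_lit 3) (nat_lit 64) (nat_lit 47) (nat_lit 78))) (PT.nd (nat_lit 94) (PT.lf (nat_lit 12936) (nat_lit 6) (nat_lit 154) (nat_lit 3) (nat_lit 65) (nat_lit 47) (nat_lit 77)) (PT.lf (nat_lit 13020) (nat_lit 6) (nat_lit 155) (nat_lit 3) (nat_lit 66) (nat_lit 47) (nat_lit 76)))) (PT.nd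 (nat_lit 188) (PT.nd (nat_lit 94) (PT.lf (nat_lit 13104) (nat_lit 6) (nat_lit 156) (nat_lit 3) (nat_lit 67) (nat_lit 47) (nat_lit 75)) (PT.lf (nat_lit 13188) (nat_lit 6) (nat_lit 157) (nat_lit 3) (nat_lit 68) (nat_lit 47) (nat_lit 74))) (PT.nd (nat_lit 94) (PT.lf (nat_lit 13272) (nat_lit 6) (nat_lit 158) (nat_lit 3) (nat_lit 69) (nat_lit 47) (nat_lit 73)) (PT.lf (nat_lit 13356) (nat_lit 6) (nat_lit 159) (nat_lit 3) (nat_lit 70) (nat_lit 47) (nat_lit 72)))))) (PT.nd (nat_lit 58562) (PT.nd (nat_lit 376) (PT.nd (nat_lit 188) (PT.nd (nat_lit 94) (PT.lf (nat_lit 13440) (nat_lit 3) (nat_lit 160) (nat_lit 1) (nat_lit 71) (nat_lit 47) (nat_lit 71)) (PT.lf (nat_lit 13356) (nat_lit 6) (nat_lit 159) (nat_lit 1) (nat_lit 72) (nat_lit 47) (nat_lit 70))) (PT.nd (nat_lit 94) (PT.lf (nat_lit 13272) (nat_lit 6) (nat_lit 158) (nat_lit 1) (nat_lit 73) (nat_lit 47) (nat_lit 69)) (PT.lf (nat_lit 13188) (nat_lit 6) (nat_lit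 157) (nat_lit 1) (nat_lit 74) (nat_lit 47) (nat_lit 68)))) (PT.nd (nat_lit 188) (PT.nd (nat_lit 94) (PT.lf (nat_lit 13104) (nat_lit 6) (nat_lit 156) (nat_lit 1) (nat_lit 75) (nat_lit 47) (nat_lit 67)) (PT.lf (nat_lit 13020) (nat_lit 6) (nat_lit 155) (nat_lit 1) (nat_lit 76) (nat_lit 47) (nat_lit 66))) (PT.nd (nat_lit 94) (PT.lf (nat_lit 12936) (nat_lit 6) (nat_lit 154) (nat_lit 1) (nat_lit 77) (nat_lit 47) (nat_lit 65)) (PT.lf (nat_lit 12852) (nat_lit 6) (nat_lit 153) (nat_lit 1) (nat_lit 78) (nat_lit 47) (nat_lit 64))))) (PT.nd (nat_lit 376) (PT.nd (nat_lit 188) (PT.nd (nat_lit 94) (PT.lf (nat_lit 14112) (nat_lit 6) (nat_lit 168) (nat_lit 3) (nat_lit 63) (nat_lit 48) (nat_lit 78)) (PT.lf (nat_lit 14196) (nat_lit 6) (nat_lit 169) (nat_lit 3) (nat_lit 64) (nat_lit 48) (nat_lit 77))) (PT.nd (nat_lit 94) (PT.lf (nat_lit 14280) (nat_lit 6) (nat_lit 170) (nat_lit 3) (nat_lit 65) (nat_lit 48) (nat_lit 76))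 (PT.lf (nat_lit 14364) (nat_lit 6) (nat_lit 171) (nat_lit 3) (nat_lit 66) (nat_lit 48) (nat_lit 75)))) (PT.nd (nat_lit 188) (PT.nd (nat_lit 94) (PT.lf (nat_lit 14448) (nat_lit 6) (nat_lit 172) (nat_lit 3) (nat_lit 67) (nat_lit 48) (nat_lit 74)) (PT.lf (nat_lit 14532) (nat_lit 6) (nat_lit 173) (nat_lit 3) (nat_lit 68) (nat_lit 48) (nat_lit 73))) (PT.nd (nat_lit 94) (PT.lf (nat_lit 14616) (nat_lit 6) (nat_lit 174) (nat_lit 3) (nat_lit 69) (nat_lit 48) (nat_lit 72)) (PT.nd (nat_lit 94) (PT.lf (nat_lit 14700) (nat_lit 6) (nat_lit 175) (nat_lit 3) (nat_lit 70) (nat_lit 48) (nat_lit 71)) (PT.lf (nat_lit 14700) (nat_lit 6) (nat_lit 175) (nat_lit 1) (nat_lit 71) (nat_lit 48) (nat_lit 70))))))))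
noncomputable def pc3 : PT := (PT.nd (nat_lit 59314) (PT.nd (nat_lit 58562) (PT.nd (nat_lit 376) (PT.nd (nat_lit 188) (PT.nd (nat_lit 94) (PT.lf (nat_lit 14616) (nat_lit 6) (nat_lit 174) (nat_lit 1) (nat_lit 72) (nat_lit 48) (nat_lit 69)) (PT.lf (nat_lit 14532) (nat_lit 6) (nat_lit 173) (nat_lit 1) (nat_lit 73) (nat_lit 48) (nat_lit 68))) (PT.nd (nat_lit 94) (PT.lf (nat_lit 14448) (nat_lit 6) (nat_lit 172) (nat_lit 1) (nat_lit 74) (nat_lit 48) (nat_lit 67)) (PT.lf (nat_lit 14364) (nat_lit 6) (nat_lit 171) (nat_lit 1) (nat_lit 75) (nat_lit 48) (nat_lit 66)))) (PT.nd (nat_lit 188) (PT.nd (nat_lit 94) (PT.lf (nat_lit 14280) (nat_lit 6) (nat_lit 170) (nat_lit 1) (nat_lit 76) (nat_lit 48) (nat_lit 65)) (PT.lf (nat_lit 14196) (nat_lit 6) (nat_lit 169) (nat_lit 1) (nat_lit 77) (nat_lit 48) (nat_lit 64))) (PT.nd (nat_lit 57904) (PT.lf (nat_lit 14112) (nat_lit 6) (nat_lit 168) (nat_lit 1) (nat_lit 78) (nat_lit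 48) (nat_lit 63)) (PT.lf (nat_lit 15372) (nat_lit 6) (nat_lit 183) (nat_lit 3) (nat_lit 63) (nat_lit 49) (nat_lit 77))))) (PT.nd (nat_lit 376) (PT.nd (nat_lit 188) (PT.nd (nat_lit 94) (PT.lf (nat_lit 15456) (nat_lit 6) (nat_lit 184) (nat_lit 3) (nat_lit 64) (nat_lit 49) (nat_lit 76)) (PT.lf (nat_lit 15540) (nat_lit 6) (nat_lit 185) (nat_lit 3) (nat_lit 65) (nat_lit 49) (nat_lit 75))) (PT.nd (nat_lit 94) (PT.lf (nat_lit 15624) (nat_lit 6) (nat_lit 186) (nat_lit 3) (nat_lit 66) (nat_lit 49) (nat_lit 74)) (PT.lf (nat_lit 15708) (nat_lit 6) (nat_lit 187) (nat_lit 3) (nat_lit 67) (nat_lit 49) (nat_lit 73)))) (PT.nd (nat_lit 188) (PT.nd (nat_lit 94) (PT.lf (nat_lit 15792) (nat_lit 6) (nat_lit 188) (nat_lit 3) (nat_lit 68) (nat_lit 49) (nat_lit 72)) (PT.lf (nat_lit 15876) (nat_lit 6) (nat_lit 189) (nat_lit 3) (nat_lit 69) (nat_lit 49) (nat_lit 71))) (PT.nd (nat_lit 94) (PT.lf (nat_lit 15960) (nat_lit 3)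 (nat_lit 190) (nat_lit 1) (nat_lit 70) (nat_lit 49) (nat_lit 70)) (PT.lf (nat_lit 15876) (nat_lit 6) (nat_lit 189) (nat_lit 1) (nat_lit 71) (nat_lit 49) (nat_lit 69)))))) (PT.nd (nat_lit 58562) (PT.nd (nat_lit 376) (PT.nd (nat_lit 188) (PT.nd (nat_lit 94) (PT.lf (nat_lit 15792) (nat_lit 6) (nat_lit 188) (nat_lit 1) (nat_lit 72) (nat_lit 49) (nat_lit 68)) (PT.lf (nat_lit 15708) (nat_lit 6) (nat_lit 187) (nat_lit 1) (nat_lit 73) (nat_lit 49) (nat_lit 67))) (PT.nd (nat_lit 94) (PT.lf (nat_lit 15624) (nat_lit 6) (nat_lit 186) (nat_lit 1) (nat_lit 74) (nat_lit 49) (nat_lit 66)) (PT.lf (nat_lit 15540) (nat_lit 6) (nat_lit 185) (nat_lit 1) (nat_lit 75) (nat_lit 49) (nat_lit 65)))) (PT.nd (nat_lit 57998) (PT.nd (nat_lit 94) (PT.lf (nat_lit 15456) (nat_lit 6) (nat_lit 184) (nat_lit 1) (nat_lit 76) (nat_lit 49) (nat_lit 64)) (PT.lf (nat_lit 15372) (nat_lit 6) (nat_lit 183) (nat_lit 1) (nat_lit 77) (nat_lit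 49) (nat_lit 63))) (PT.nd (nat_lit 94) (PT.lf (nat_lit 15288) (nat_lit 6) (nat_lit 182) (nat_lit 3) (nat_lit 62) (nat_lit 50) (nat_lit 77)) (PT.lf (nat_lit 16548) (nat_lit 6) (nat_lit 197) (nat_lit 3) (nat_lit 63) (nat_lit 50) (nat_lit 76))))) (PT.nd (nat_lit 376) (PT.nd (nat_lit 188) (PT.nd (nat_lit 94) (PT.lf (nat_lit 16632) (nat_lit 6) (nat_lit 198) (nat_lit 3) (nat_lit 64) (nat_lit 50) (nat_lit 75)) (PT.lf (nat_lit 16716) (nat_lit 6) (nat_lit 199) (nat_lit 3) (nat_lit 65) (nat_lit 50) (nat_lit 74))) (PT.nd (nat_lit 94) (PT.lf (nat_lit 16800) (nat_lit 6) (nat_lit 200) (nat_lit 3) (nat_lit 66) (nat_lit 50) (nat_lit 73)) (PT.lf (nat_lit 16884) (nat_lit 6) (nat_lit 201) (nat_lit 3) (nat_lit 67) (nat_lit 50) (nat_lit 72)))) (PT.nd (nat_lit 188) (PT.nd (nat_lit 94) (PT.lf (nat_lit 16968) (nat_lit 6) (nat_lit 202) (nat_lit 3) (nat_lit 68) (nat_lit 50) (nat_lit 71)) (PT.lf (nat_lit 17052) (nat_lit 6)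 (nat_lit 203) (nat_lit 3) (nat_lit 69) (nat_lit 50) (nat_lit 70))) (PT.nd (nat_lit 94) (PT.lf (nat_lit 17052) (nat_lit 6) (nat_lit 203) (nat_lit 1) (nat_lit 70) (nat_lit 50) (nat_lit 69)) (PT.lf (nat_lit 16968) (nat_lit 6) (nat_lit 202) (nat_lit 1) (nat_lit 71) (nat_lit 50) (nat_lit 68)))))))
noncomputable def pc4 : PT := (PT.nd (nat_lit 59220) (PT.nd (nat_lit 58468) (PT.nd (nat_lit 376) (PT.nd (nat_lit 188) (PT.nd (nat_lit 94) (PT.lf (nat_lit 16884) (nat_lit 6) (nat_lit 201) (nat_lit 1) (nat_lit 72) (nat_lit 50) (nat_lit 67)) (PT.lf (nat_lit 16800) (nat_lit 6) (nat_lit 200) (nat_lit 1) (nat_lit 73) (nat_lit 50) (nat_lit 66))) (PT.nd (nat_lit 94) (PT.lf (nat_lit 16716) (nat_lit 6) (nat_lit 199) (nat_lit 1) (nat_lit 74) (nat_lit 50) (nat_lit 65)) (PT.lf (nat_lit 16632) (nat_lit 6) (nat_lit 198) (nat_lit 1) (nat_lit 75) (nat_lit 50) (nat_lit 64)))) (PT.nd (nat_lit 57904) (PT.nd (nat_lit 94) (PT.lf (nat_lit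 16548) (nat_lit 6) (nat_lit 197) (nat_lit 1) (nat_lit 76) (nat_lit 50) (nat_lit 63)) (PT.lf (nat_lit 15288) (nat_lit 6) (nat_lit 182) (nat_lit 1) (nat_lit 77) (nat_lit 50) (nat_lit 62))) (PT.nd (nat_lit 94) (PT.lf (nat_lit 15204) (nat_lit 6) (nat_lit 181) (nat_lit 3) (nat_lit 61) (nat_lit 51) (nat_lit 77)) (PT.lf (nat_lit 16464) (nat_lit 6) (nat_lit 196) (nat_lit 3) (nat_lit 62) (nat_lit 51) (nat_lit 76))))) (PT.nd (nat_lit 376) (PT.nd (nat_lit 188) (PT.nd (nat_lit 94) (PT.lf (nat_lit 17640) (nat_lit 6) (nat_lit 210) (nat_lit 3) (nat_lit 63) (nat_lit 51) (nat_lit 75)) (PT.lf (nat_lit 17724) (nat_lit 6) (nat_lit 211) (nat_lit 3) (nat_lit 64) (nat_lit 51) (nat_lit 74))) (PT.nd (nat_lit 94) (PT.lf (nat_lit 17808) (nat_lit 6) (nat_lit 212) (nat_lit 3) (nat_lit 65) (nat_lit 51) (nat_lit 73)) (PT.lf (nat_lit 17892) (nat_lit 6) (nat_lit 213) (nat_lit 3) (nat_lit 66) (nat_lit 51) (nat_lit 72)))) (PT.nd (nat_lit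 188) (PT.nd (nat_lit 94) (PT.lf (nat_lit 17976) (nat_lit 6) (nat_lit 214) (nat_lit 3) (nat_lit 67) (nat_lit 51) (nat_lit 71)) (PT.lf (nat_lit 18060) (nat_lit 6) (nat_lit 215) (nat_lit 3) (nat_lit 68) (nat_lit 51) (nat_lit 70))) (PT.nd (nat_lit 94) (PT.lf (nat_lit 18144) (nat_lit 3) (nat_lit 216) (nat_lit 1) (nat_lit 69) (nat_lit 51) (nat_lit 69)) (PT.lf (nat_lit 18060) (nat_lit 6) (nat_lit 215) (nat_lit 1) (nat_lit 70) (nat_lit 51) (nat_lit 68)))))) (PT.nd (nat_lit 58374) (PT.nd (nat_lit 376) (PT.nd (nat_lit 188) (PT.nd (nat_lit 94) (PT.lf (nat_lit 17976) (nat_lit 6) (nat_lit 214) (nat_lit 1) (nat_lit 71) (nat_lit 51) (nat_lit 67)) (PT.lf (nat_lit 17892) (nat_lit 6) (nat_lit 213) (nat_lit 1) (nat_lit 72) (nat_lit 51) (nat_lit 66))) (PT.nd (nat_lit 94) (PT.lf (nat_lit 17808) (nat_lit 6) (nat_lit 212) (nat_lit 1) (nat_lit 73) (nat_lit 51) (nat_lit 65)) (PT.lf (nat_lit 17724) (nat_lit 6) (nat_lit 211)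 (nat_lit 1) (nat_lit 74) (nat_lit 51) (nat_lit 64)))) (PT.nd (nat_lit 188) (PT.nd (nat_lit 94) (PT.lf (nat_lit 17640) (nat_lit 6) (nat_lit 210) (nat_lit 1) (nat_lit 75) (nat_lit 51) (nat_lit 63)) (PT.lf (nat_lit 16464) (nat_lit 6) (nat_lit 196) (nat_lit 1) (nat_lit 76) (nat_lit 51) (nat_lit 62))) (PT.nd (nat_lit 57716) (PT.lf (nat_lit 15204) (nat_lit 6) (nat_lit 181) (nat_lit 1) (nat_lit 77) (nat_lit 51) (nat_lit 61)) (PT.lf (nat_lit 15120) (nat_lit 6) (nat_lit 180) (nat_lit 3) (nat_lit 60) (nat_lit 52) (nat_lit 77))))) (PT.nd (nat_lit 376) (PT.nd (nat_lit 188) (PT.nd (nat_lit 94) (PT.lf (nat_lit 16380) (nat_lit 6) (nat_lit 195) (nat_lit 3) (nat_lit 61) (nat_lit 52) (nat_lit 76)) (PT.lf (nat_lit 17556) (nat_lit 6) (nat_lit 209) (nat_lit 3) (nat_lit 62) (nat_lit 52) (nat_lit 75))) (PT.nd (nat_lit 94) (PT.lf (nat_lit 18648) (nat_lit 6) (nat_lit 222) (nat_lit 3) (nat_lit 63) (nat_lit 52) (nat_lit 74))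 (PT.lf (nat_lit 18732) (nat_lit 6) (nat_lit 223) (nat_lit 3) (nat_lit 64) (nat_lit 52) (nat_lit 73)))) (PT.nd (nat_lit 188) (PT.nd (nat_lit 94) (PT.lf (nat_lit 18816) (nat_lit 6) (nat_lit 224) (nat_lit 3) (nat_lit 65) (nat_lit 52) (nat_lit 72)) (PT.lf (nat_lit 18900) (nat_lit 6) (nat_lit 225) (nat_lit 3) (nat_lit 66) (nat_lit 52) (nat_lit 71))) (PT.nd (nat_lit 94) (PT.lf (nat_lit 18984) (nat_lit 6) (nat_lit 226) (nat_lit 3) (nat_lit 67) (nat_lit 52) (nat_lit 70)) (PT.nd (nat_lit 94) (PT.lf (nat_lit 19068) (nat_lit 6) (nat_lit 227) (nat_lit 3) (nat_lit 68) (nat_lit 52) (nat_lit 69)) (PT.lf (nat_lit 19068) (nat_lit 6) (nat_lit 227) (nat_lit 1) (nat_lit 69) (nat_lit 52) (nat_lit 68))))))))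
noncomputable def pc5 : PT := (PT.nd (nat_lit 59032) (PT.nd (nat_lit 58280) (PT.nd (nat_lit 376) (PT.nd (nat_lit 188) (PT.nd (nat_lit 94) (PT.lf (nat_lit 18984) (nat_lit 6) (nat_lit 226) (nat_lit 1) (nat_lit 70) (nat_lit 52) (nat_lit 67)) (PT.lf (nat_lit 18900) (nat_lit 6) (nat_lit 225) (nat_lit 1) (nat_lit 71) (nat_lit 52) (nat_lit 66))) (PT.nd (nat_lit 94) (PT.lf (nat_lit 18816) (nat_lit 6) (nat_lit 224) (nat_lit 1) (nat_lit 72) (nat_lit 52) (nat_lit 65)) (PT.lf (nat_lit 18732) (nat_lit 6) (nat_lit 223) (nat_lit 1) (nat_lit 73) (nat_lit 52) (nat_lit 64)))) (PT.nd (nat_lit 188) (PT.nd (nat_lit 94) (PT.lf (nat_lit 18648) (nat_lit 6) (nat_lit 222) (nat_lit 1) (nat_lit 74) (nat_lit 52) (nat_lit 63)) (PT.lf (nat_lit 17556) (nat_lit 6) (nat_lit 209) (nat_lit 1) (nat_lit 75) (nat_lit 52) (nat_lit 62))) (PT.nd (nat_lit 94) (PT.lf (nat_lit 16380) (nat_lit 6) (nat_lit 195) (nat_lit 1) (nat_lit 76) (nat_lit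 52) (nat_lit 61)) (PT.lf (nat_lit 15120) (nat_lit 6) (nat_lit 180) (nat_lit 1) (nat_lit 77) (nat_lit 52) (nat_lit 60))))) (PT.nd (nat_lit 376) (PT.nd (nat_lit 188) (PT.nd (nat_lit 94) (PT.lf (nat_lit 15036) (nat_lit 6) (nat_lit 179) (nat_lit 3) (nat_lit 59) (nat_lit 53) (nat_lit 77)) (PT.lf (nat_lit 16296) (nat_lit 6) (nat_lit 194) (nat_lit 3) (nat_lit 60) (nat_lit 53) (nat_lit 76))) (PT.nd (nat_lit 94) (PT.lf (nat_lit 17472) (nat_lit 6) (nat_lit 208) (nat_lit 3) (nat_lit 61) (nat_lit 53) (nat_lit 75)) (PT.lf (nat_lit 18564) (nat_lit 6) (nat_lit 221) (nat_lit 3) (nat_lit 62) (nat_lit 53) (nat_lit 74)))) (PT.nd (nat_lit 188) (PT.nd (nat_lit 94) (PT.lf (nat_lit 19572) (nat_lit 6) (nat_lit 233) (nat_lit 3) (nat_lit 63) (nat_lit 53) (nat_lit 73)) (PT.lf (nat_lit 19656) (nat_lit 6) (nat_lit 234) (nat_lit 3) (nat_lit 64) (nat_lit 53) (nat_lit 72))) (PT.nd (nat_lit 94) (PT.lf (nat_lit 19740) (nat_lit 6)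 (nat_lit 235) (nat_lit 3) (nat_lit 65) (nat_lit 53) (nat_lit 71)) (PT.lf (nat_lit 19824) (nat_lit 6) (nat_lit 236) (nat_lit 3) (nat_lit 66) (nat_lit 53) (nat_lit 70)))))) (PT.nd (nat_lit 752) (PT.nd (nat_lit 376) (PT.nd (nat_lit 188) (PT.nd (nat_lit 94) (PT.lf (nat_lit 19908) (nat_lit 6) (nat_lit 237) (nat_lit 3) (nat_lit 67) (nat_lit 53) (nat_lit 69)) (PT.lf (nat_lit 19992) (nat_lit 3) (nat_lit 238) (nat_lit 1) (nat_lit 68) (nat_lit 53) (nat_lit 68))) (PT.nd (nat_lit 94) (PT.lf (nat_lit 19908) (nat_lit 6) (nat_lit 237) (nat_lit 1) (nat_lit 69) (nat_lit 53) (nat_lit 67)) (PT.lf (nat_lit 19824) (nat_lit 6) (nat_lit 236) (nat_lit 1) (nat_lit 70) (nat_lit 53) (nat_lit 66)))) (PT.nd (nat_lit 188) (PT.nd (nat_lit 94) (PT.lf (nat_lit 19740) (nat_lit 6) (nat_lit 235) (nat_lit 1) (nat_lit 71) (nat_lit 53) (nat_lit 65)) (PT.lf (nat_lit 19656) (nat_lit 6) (nat_lit 234) (nat_lit 1) (nat_lit 72) (nat_lit 53)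 (nat_lit 64))) (PT.nd (nat_lit 94) (PT.lf (nat_lit 19572) (nat_lit 6) (nat_lit 233) (nat_lit 1) (nat_lit 73) (nat_lit 53) (nat_lit 63)) (PT.lf (nat_lit 18564) (nat_lit 6) (nat_lit 221) (nat_lit 1) (nat_lit 74) (nat_lit 53) (nat_lit 62))))) (PT.nd (nat_lit 57810) (PT.nd (nat_lit 188) (PT.nd (nat_lit 94) (PT.lf (nat_lit 17472) (nat_lit 6) (nat_lit 208) (nat_lit 1) (nat_lit 75) (nat_lit 53) (nat_lit 61)) (PT.lf (nat_lit 16296) (nat_lit 6) (nat_lit 194) (nat_lit 1) (nat_lit 76) (nat_lit 53) (nat_lit 60))) (PT.nd (nat_lit 57528) (PT.lf (nat_lit 15036) (nat_lit 6) (nat_lit 179) (nat_lit 1) (nat_lit 77) (nat_lit 53) (nat_lit 59)) (PT.lf (nat_lit 14952) (nat_lit 6) (nat_lit 178) (nat_lit 3) (nat_lit 58) (nat_lit 54) (nat_lit 77)))) (PT.nd (nat_lit 188) (PT.nd (nat_lit 94) (PT.lf (nat_lit 16212) (nat_lit 6) (nat_lit 193) (nat_lit 3) (nat_lit 59) (nat_lit 54) (nat_lit 76)) (PT.lf (nat_lit 17388) (nat_lit 6)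 (nat_lit 207) (nat_lit 3) (nat_lit 60) (nat_lit 54) (nat_lit 75))) (PT.nd (nat_lit 94) (PT.lf (nat_lit 18480) (nat_lit 6) (nat_lit 220) (nat_lit 3) (nat_lit 61) (nat_lit 54) (nat_lit 74)) (PT.lf (nat_lit 19488) (nat_lit 6) (nat_lit 232) (nat_lit 3) (nat_lit 62) (nat_lit 54) (nat_lit 73)))))))
noncomputable def pc6 : PT := (PT.nd (nat_lit 58844) (PT.nd (nat_lit 752) (PT.nd (nat_lit 376) (PT.nd (nat_lit 188) (PT.nd (nat_lit 94) (PT.lf (nat_lit 20412) (nat_lit 6) (nat_lit 243) (nat_lit 3) (nat_lit 63) (nat_lit 54) (nat_lit 72)) (PT.lf (nat_lit 20496) (nat_lit 6) (nat_lit 244) (nat_lit 3) (nat_lit 64) (nat_lit 54) (nat_lit 71))) (PT.nd (nat_lit 94) (PT.lf (nat_lit 20580) (nat_lit 6) (nat_lit 245) (nat_lit 3) (nat_lit 65) (nat_lit 54) (nat_lit 70)) (PT.lf (nat_lit 20664) (nat_lit 6) (nat_lit 246) (nat_lit 3) (nat_lit 66) (nat_lit 54) (nat_lit 69)))) (PT.nd (nat_lit 188) (PT.nd (nat_lit 94) (PT.lf (nat_lit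 20748) (nat_lit 6) (nat_lit 247) (nat_lit 3) (nat_lit 67) (nat_lit 54) (nat_lit 68)) (PT.lf (nat_lit 20748) (nat_lit 6) (nat_lit 247) (nat_lit 1) (nat_lit 68) (nat_lit 54) (nat_lit 67))) (PT.nd (nat_lit 94) (PT.lf (nat_lit 20664) (nat_lit 6) (nat_lit 246) (nat_lit 1) (nat_lit 69) (nat_lit 54) (nat_lit 66)) (PT.lf (nat_lit 20580) (nat_lit 6) (nat_lit 245) (nat_lit 1) (nat_lit 70) (nat_lit 54) (nat_lit 65))))) (PT.nd (nat_lit 376) (PT.nd (nat_lit 188) (PT.nd (nat_lit 94) (PT.lf (nat_lit 20496) (nat_lit 6) (nat_lit 244) (nat_lit 1) (nat_lit 71) (nat_lit 54) (nat_lit 64)) (PT.lf (nat_lit 20412) (nat_lit 6) (nat_lit 243) (nat_lit 1) (nat_lit 72) (nat_lit 54) (nat_lit 63))) (PT.nd (nat_lit 94) (PT.lf (nat_lit 19488) (nat_lit 6) (nat_lit 232) (nat_lit 1) (nat_lit 73) (nat_lit 54) (nat_lit 62)) (PT.lf (nat_lit 18480) (nat_lit 6) (nat_lit 220) (nat_lit 1) (nat_lit 74) (nat_lit 54) (nat_lit 61)))) (PT.nd (nat_lit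 188) (PT.nd (nat_lit 94) (PT.lf (nat_lit 17388) (nat_lit 6) (nat_lit 207) (nat_lit 1) (nat_lit 75) (nat_lit 54) (nat_lit 60)) (PT.lf (nat_lit 16212) (nat_lit 6) (nat_lit 193) (nat_lit 1) (nat_lit 76) (nat_lit 54) (nat_lit 59))) (PT.nd (nat_lit 57434) (PT.lf (nat_lit 14952) (nat_lit 6) (nat_lit 178) (nat_lit 1) (nat_lit 77) (nat_lit 54) (nat_lit 58)) (PT.lf (nat_lit 14868) (nat_lit 6) (nat_lit 177) (nat_lit 3) (nat_lit 57) (nat_lit 55) (nat_lit 77)))))) (PT.nd (nat_lit 752) (PT.nd (nat_lit 376) (PT.nd (nat_lit 188) (PT.nd (nat_lit 94) (PT.lf (nat_lit 16128) (nat_lit 6) (nat_lit 192) (nat_lit 3) (nat_lit 58) (nat_lit 55) (nat_lit 76)) (PT.lf (nat_lit 17304) (nat_lit 6) (nat_lit 206) (nat_lit 3) (nat_lit 59) (nat_lit 55) (nat_lit 75))) (PT.nd (nat_lit 94) (PT.lf (nat_lit 18396) (nat_lit 6) (nat_lit 219) (nat_lit 3) (nat_lit 60) (nat_lit 55) (nat_lit 74)) (PT.lf (nat_lit 19404) (nat_lit 6) (nat_lit 231)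 (nat_lit 3) (nat_lit 61) (nat_lit 55) (nat_lit 73)))) (PT.nd (nat_lit 188) (PT.nd (nat_lit 94) (PT.lf (nat_lit 20328) (nat_lit 6) (nat_lit 242) (nat_lit 3) (nat_lit 62) (nat_lit 55) (nat_lit 72)) (PT.lf (nat_lit 21168) (nat_lit 6) (nat_lit 252) (nat_lit 3) (nat_lit 63) (nat_lit 55) (nat_lit 71))) (PT.nd (nat_lit 94) (PT.lf (nat_lit 21252) (nat_lit 6) (nat_lit 253) (nat_lit 3) (nat_lit 64) (nat_lit 55) (nat_lit 70)) (PT.lf (nat_lit 21336) (nat_lit 6) (nat_lit 254) (nat_lit 3) (nat_lit 65) (nat_lit 55) (nat_lit 69))))) (PT.nd (nat_lit 376) (PT.nd (nat_lit 188) (PT.nd (nat_lit 94) (PT.lf (nat_lit 21420) (nat_lit 6) (nat_lit 255) (nat_lit 3) (nat_lit 66) (nat_lit 55) (nat_lit 68)) (PT.lf (nat_lit 21504) (nat_lit 3) (nat_lit 256) (nat_lit 1) (nat_lit 67) (nat_lit 55) (nat_lit 67))) (PT.nd (nat_lit 94) (PT.lf (nat_lit 21420) (nat_lit 6) (nat_lit 255) (nat_lit 1) (nat_lit 68) (nat_lit 55) (nat_lit 66)) (PT.lf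 (nat_lit 21336) (nat_lit 6) (nat_lit 254) (nat_lit 1) (nat_lit 69) (nat_lit 55) (nat_lit 65)))) (PT.nd (nat_lit 188) (PT.nd (nat_lit 94) (PT.lf (nat_lit 21252) (nat_lit 6) (nat_lit 253) (nat_lit 1) (nat_lit 70) (nat_lit 55) (nat_lit 64)) (PT.lf (nat_lit 21168) (nat_lit 6) (nat_lit 252) (nat_lit 1) (nat_lit 71) (nat_lit 55) (nat_lit 63))) (PT.nd (nat_lit 94) (PT.lf (nat_lit 20328) (nat_lit 6) (nat_lit 242) (nat_lit 1) (nat_lit 72) (nat_lit 55) (nat_lit 62)) (PT.nd (nat_lit 94) (PT.lf (nat_lit 19404) (nat_lit 6) (nat_lit 231) (nat_lit 1) (nat_lit 73) (nat_lit 55) (nat_lit 61)) (PT.lf (nat_lit 18396) (nat_lit 6) (nat_lit 219) (nat_lit 1) (nat_lit 74) (nat_lit 55) (nat_lit 60))))))))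
noncomputable def pc7 : PT := (PT.nd (nat_lit 58750) (PT.nd (nat_lit 57998) (PT.nd (nat_lit 57622) (PT.nd (nat_lit 188) (PT.nd (nat_lit 94) (PT.lf (nat_lit 17304) (nat_lit 6) (nat_lit 206) (nat_lit 1) (nat_lit 75) (nat_lit 55) (nat_lit 59)) (PT.lf (nat_lit 16128) (nat_lit 6) (nat_lit 192) (nat_lit 1) (nat_lit 76) (nat_lit 55) (nat_lit 58))) (PT.nd (nat_lit 57340) (PT.lf (nat_lit 14868) (nat_lit 6) (nat_lit 177) (nat_lit 1) (nat_lit 77) (nat_lit 55) (nat_lit 57)) (PT.lf (nat_lit 14784) (nat_lit 3) (nat_lit 176) (nat_lit 3) (nat_lit 56) (nat_lit 56) (nat_lit 77)))) (PT.nd (nat_lit 188) (PT.nd (nat_lit 94) (PT.lf (nat_lit 16044) (nat_lit 6) (nat_lit 191) (nat_lit 3) (nat_lit 57) (nat_lit 56) (nat_lit 76)) (PT.lf (nat_lit 17220) (nat_lit 6) (nat_lit 205) (nat_lit 3) (nat_lit 58) (nat_lit 56) (nat_lit 75))) (PT.nd (nat_lit 94) (PT.lf (nat_lit 18312) (nat_lit 6) (nat_lit 218) (nat_lit 3) (nat_lit 59) (nat_lit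 56) (nat_lit 74)) (PT.lf (nat_lit 19320) (nat_lit 6) (nat_lit 230) (nat_lit 3) (nat_lit 60) (nat_lit 56) (nat_lit 73))))) (PT.nd (nat_lit 376) (PT.nd (nat_lit 188) (PT.nd (nat_lit 94) (PT.lf (nat_lit 20244) (nat_lit 6) (nat_lit 241) (nat_lit 3) (nat_lit 61) (nat_lit 56) (nat_lit 72)) (PT.lf (nat_lit 21084) (nat_lit 6) (nat_lit 251) (nat_lit 3) (nat_lit 62) (nat_lit 56) (nat_lit 71))) (PT.nd (nat_lit 94) (PT.lf (nat_lit 21840) (nat_lit 6) (nat_lit 260) (nat_lit 3) (nat_lit 63) (nat_lit 56) (nat_lit 70)) (PT.lf (nat_lit 21924) (nat_lit 6) (nat_lit 261) (nat_lit 3) (nat_lit 64) (nat_lit 56) (nat_lit 69)))) (PT.nd (nat_lit 188) (PT.nd (nat_lit 94) (PT.lf (nat_lit 22008) (nat_lit 6) (nat_lit 262) (nat_lit 3) (nat_lit 65) (nat_lit 56) (nat_lit 68)) (PT.lf (nat_lit 22092) (nat_lit 6) (nat_lit 263) (nat_lit 3) (nat_lit 66) (nat_lit 56) (nat_lit 67))) (PT.nd (nat_lit 94) (PT.lf (nat_lit 22092) (nat_lit 6)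 (nat_lit 263) (nat_lit 1) (nat_lit 67) (nat_lit 56) (nat_lit 66)) (PT.lf (nat_lit 22008) (nat_lit 6) (nat_lit 262) (nat_lit 1) (nat_lit 68) (nat_lit 56) (nat_lit 65)))))) (PT.nd (nat_lit 752) (PT.nd (nat_lit 376) (PT.nd (nat_lit 188) (PT.nd (nat_lit 94) (PT.lf (nat_lit 21924) (nat_lit 6) (nat_lit 261) (nat_lit 1) (nat_lit 69) (nat_lit 56) (nat_lit 64)) (PT.lf (nat_lit 21840) (nat_lit 6) (nat_lit 260) (nat_lit 1) (nat_lit 70) (nat_lit 56) (nat_lit 63))) (PT.nd (nat_lit 94) (PT.lf (nat_lit 21084) (nat_lit 6) (nat_lit 251) (nat_lit 1) (nat_lit 71) (nat_lit 56) (nat_lit 62)) (PT.lf (nat_lit 20244) (nat_lit 6) (nat_lit 241) (nat_lit 1) (nat_lit 72) (nat_lit 56) (nat_lit 61)))) (PT.nd (nat_lit 188) (PT.nd (nat_lit 94) (PT.lf (nat_lit 19320) (nat_lit 6) (nat_lit 230) (nat_lit 1) (nat_lit 73) (nat_lit 56) (nat_lit 60)) (PT.lf (nat_lit 18312) (nat_lit 6) (nat_lit 218) (nat_lit 1) (nat_lit 74) (nat_lit 56)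 (nat_lit 59))) (PT.nd (nat_lit 94) (PT.lf (nat_lit 17220) (nat_lit 6) (nat_lit 205) (nat_lit 1) (nat_lit 75) (nat_lit 56) (nat_lit 58)) (PT.lf (nat_lit 16044) (nat_lit 6) (nat_lit 191) (nat_lit 1) (nat_lit 76) (nat_lit 56) (nat_lit 57))))) (PT.nd (nat_lit 57528) (PT.nd (nat_lit 57340) (PT.nd (nat_lit 57246) (PT.lf (nat_lit 14784) (nat_lit 3) (nat_lit 176) (nat_lit 0) (nat_lit 77) (nat_lit 56) (nat_lit 56)) (PT.lf (nat_lit 14868) (nat_lit 6) (nat_lit 177) (nat_lit 5) (nat_lit 55) (nat_lit 57) (nat_lit 77))) (PT.nd (nat_lit 94) (PT.lf (nat_lit 16044) (nat_lit 6) (nat_lit 191) (nat_lit 5) (nat_lit 56) (nat_lit 57) (nat_lit 76)) (PT.lf (nat_lit 17136) (nat_lit 3) (nat_lit 204) (nat_lit 3) (nat_lit 57) (nat_lit 57) (nat_lit 75)))) (PT.nd (nat_lit 188) (PT.nd (nat_lit 94) (PT.lf (nat_lit 18228) (nat_lit 6) (nat_lit 217) (nat_lit 3) (nat_lit 58) (nat_lit 57) (nat_lit 74)) (PT.lf (nat_lit 19236) (nat_lit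 6) (nat_lit 229) (nat_lit 3) (nat_lit 59) (nat_lit 57) (nat_lit 73))) (PT.nd (nat_lit 94) (PT.lf (nat_lit 20160) (nat_lit 6) (nat_lit 240) (nat_lit 3) (nat_lit 60) (nat_lit 57) (nat_lit 72)) (PT.lf (nat_lit 21000) (nat_lit 6) (nat_lit 250) (nat_lit 3) (nat_lit 61) (nat_lit 57) (nat_lit 71)))))))
noncomputable def pc8 : PT := (PT.nd (nat_lit 58562) (PT.nd (nat_lit 752) (PT.nd (nat_lit 376) (PT.nd (nat_lit 188) (PT.nd (nat_lit 94) (PT.lf (nat_lit 21756) (nat_lit 6) (nat_lit 259) (nat_lit 3) (nat_lit 62) (nat_lit 57) (nat_lit 70)) (PT.lf (nat_lit 22428) (nat_lit 6) (nat_lit 267) (nat_lit 3) (nat_lit 63) (nat_lit 57) (nat_lit 69))) (PT.nd (nat_lit 94) (PT.lf (nat_lit 22512) (nat_lit 6) (nat_lit 268) (nat_lit 3) (nat_lit 64) (nat_lit 57) (nat_lit 68)) (PT.lf (nat_lit 22596) (nat_lit 6) (nat_lit 269) (nat_lit 3) (nat_lit 65) (nat_lit 57) (nat_lit 67)))) (PT.nd (nat_lit 188) (PT.nd (nat_lit 94) (PT.lf (nat_lit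 22680) (nat_lit 3) (nat_lit 270) (nat_lit 1) (nat_lit 66) (nat_lit 57) (nat_lit 66)) (PT.lf (nat_lit 22596) (nat_lit 6) (nat_lit 269) (nat_lit 1) (nat_lit 67) (nat_lit 57) (nat_lit 65))) (PT.nd (nat_lit 94) (PT.lf (nat_lit 22512) (nat_lit 6) (nat_lit 268) (nat_lit 1) (nat_lit 68) (nat_lit 57) (nat_lit 64)) (PT.lf (nat_lit 22428) (nat_lit 6) (nat_lit 267) (nat_lit 1) (nat_lit 69) (nat_lit 57) (nat_lit 63))))) (PT.nd (nat_lit 376) (PT.nd (nat_lit 188) (PT.nd (nat_lit 94) (PT.lf (nat_lit 21756) (nat_lit 6) (nat_lit 259) (nat_lit 1) (nat_lit 70) (nat_lit 57) (nat_lit 62)) (PT.lf (nat_lit 21000) (nat_lit 6) (nat_lit 250) (nat_lit 1) (nat_lit 71) (nat_lit 57) (nat_lit 61))) (PT.nd (nat_lit 94) (PT.lf (nat_lit 20160) (nat_lit 6) (nat_lit 240) (nat_lit 1) (nat_lit 72) (nat_lit 57) (nat_lit 60)) (PT.lf (nat_lit 19236) (nat_lit 6) (nat_lit 229) (nat_lit 1) (nat_lit 73) (nat_lit 57) (nat_lit 59)))) (PT.nd (nat_lit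 188) (PT.nd (nat_lit 94) (PT.lf (nat_lit 18228) (nat_lit 6) (nat_lit 217) (nat_lit 1) (nat_lit 74) (nat_lit 57) (nat_lit 58)) (PT.lf (nat_lit 17136) (nat_lit 3) (nat_lit 204) (nat_lit 0) (nat_lit 75) (nat_lit 57) (nat_lit 57))) (PT.nd (nat_lit 94) (PT.lf (nat_lit 16044) (nat_lit 6) (nat_lit 191) (nat_lit 0) (nat_lit 76) (nat_lit 57) (nat_lit 56)) (PT.lf (nat_lit 14868) (nat_lit 6) (nat_lit 177) (nat_lit 0) (nat_lit 77) (nat_lit 57) (nat_lit 55)))))) (PT.nd (nat_lit 752) (PT.nd (nat_lit 376) (PT.nd (nat_lit 188) (PT.nd (nat_lit 94) (PT.lf (nat_lit 14952) (nat_lit 6) (nat_lit 178) (nat_lit 5) (nat_lit 54) (nat_lit 58) (nat_lit 77)) (PT.lf (nat_lit 16128) (nat_lit 6) (nat_lit 192) (nat_lit 5) (nat_lit 55) (nat_lit 58) (nat_lit 76))) (PT.nd (nat_lit 94) (PT.lf (nat_lit 17220) (nat_lit 6) (nat_lit 205) (nat_lit 5) (nat_lit 56) (nat_lit 58) (nat_lit 75)) (PT.lf (nat_lit 18228) (nat_lit 6) (nat_lit 217)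 (nat_lit 5) (nat_lit 57) (nat_lit 58) (nat_lit 74)))) (PT.nd (nat_lit 188) (PT.nd (nat_lit 94) (PT.lf (nat_lit 19152) (nat_lit 3) (nat_lit 228) (nat_lit 3) (nat_lit 58) (nat_lit 58) (nat_lit 73)) (PT.lf (nat_lit 20076) (nat_lit 6) (nat_lit 239) (nat_lit 3) (nat_lit 59) (nat_lit 58) (nat_lit 72))) (PT.nd (nat_lit 94) (PT.lf (nat_lit 20916) (nat_lit 6) (nat_lit 249) (nat_lit 3) (nat_lit 60) (nat_lit 58) (nat_lit 71)) (PT.lf (nat_lit 21672) (nat_lit 6) (nat_lit 258) (nat_lit 3) (nat_lit 61) (nat_lit 58) (nat_lit 70))))) (PT.nd (nat_lit 376) (PT.nd (nat_lit 188) (PT.nd (nat_lit 94) (PT.lf (nat_lit 22344) (nat_lit 6) (nat_lit 266) (nat_lit 3) (nat_lit 62) (nat_lit 58) (nat_lit 69)) (PT.lf (nat_lit 22932) (nat_lit 6) (nat_lit 273) (nat_lit 3) (nat_lit 63) (nat_lit 58) (nat_lit 68))) (PT.nd (nat_lit 94) (PT.lf (nat_lit 23016) (nat_lit 6) (nat_lit 274) (nat_lit 3) (nat_lit 64) (nat_lit 58) (nat_lit 67)) (PT.lf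 (nat_lit 23100) (nat_lit 6) (nat_lit 275) (nat_lit 3) (nat_lit 65) (nat_lit 58) (nat_lit 66)))) (PT.nd (nat_lit 188) (PT.nd (nat_lit 94) (PT.lf (nat_lit 23100) (nat_lit 6) (nat_lit 275) (nat_lit 1) (nat_lit 66) (nat_lit 58) (nat_lit 65)) (PT.lf (nat_lit 23016) (nat_lit 6) (nat_lit 274) (nat_lit 1) (nat_lit 67) (nat_lit 58) (nat_lit 64))) (PT.nd (nat_lit 94) (PT.lf (nat_lit 22932) (nat_lit 6) (nat_lit 273) (nat_lit 1) (nat_lit 68) (nat_lit 58) (nat_lit 63)) (PT.nd (nat_lit 94) (PT.lf (nat_lit 22344) (nat_lit 6) (nat_lit 266) (nat_lit 1) (nat_lit 69) (nat_lit 58) (nat_lit 62)) (PT.lf (nat_lit 21672) (nat_lit 6) (nat_lit 258) (nat_lit 1) (nat_lit 70) (nat_lit 58) (nat_lit 61))))))))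
noncomputable def pc9 : PT := (PT.nd (nat_lit 58468) (PT.nd (nat_lit 57716) (PT.nd (nat_lit 376) (PT.nd (nat_lit 188) (PT.nd (nat_lit 94) (PT.lf (nat_lit 20916) (nat_lit 6) (nat_lit 249) (nat_lit 1) (nat_lit 71) (nat_lit 58) (nat_lit 60)) (PT.lf (nat_lit 20076) (nat_lit 6) (nat_lit 239) (nat_lit 1) (nat_lit 72) (nat_lit 58) (nat_lit 59))) (PT.nd (nat_lit 94) (PT.lf (nat_lit 19152) (nat_lit 3) (nat_lit 228) (nat_lit 0) (nat_lit 73) (nat_lit 58) (nat_lit 58)) (PT.lf (nat_lit 18228) (nat_lit 6) (nat_lit 217) (nat_lit 0) (nat_lit 74) (nat_lit 58) (nat_lit 57)))) (PT.nd (nat_lit 188) (PT.nd (nat_lit 94) (PT.lf (nat_lit 17220) (nat_lit 6) (nat_lit 205) (nat_lit 0) (nat_lit 75) (nat_lit 58) (nat_lit 56)) (PT.lf (nat_lit 16128) (nat_lit 6) (nat_lit 192) (nat_lit 0) (nat_lit 76) (nat_lit 58) (nat_lit 55))) (PT.nd (nat_lit 57058) (PT.lf (nat_lit 14952) (nat_lit 6) (nat_lit 178) (nat_lit 0) (nat_lit 77) (nat_lit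 58) (nat_lit 54)) (PT.lf (nat_lit 15036) (nat_lit 6) (nat_lit 179) (nat_lit 5) (nat_lit 53) (nat_lit 59) (nat_lit 77))))) (PT.nd (nat_lit 376) (PT.nd (nat_lit 188) (PT.nd (nat_lit 94) (PT.lf (nat_lit 16212) (nat_lit 6) (nat_lit 193) (nat_lit 5) (nat_lit 54) (nat_lit 59) (nat_lit 76)) (PT.lf (nat_lit 17304) (nat_lit 6) (nat_lit 206) (nat_lit 5) (nat_lit 55) (nat_lit 59) (nat_lit 75))) (PT.nd (nat_lit 94) (PT.lf (nat_lit 18312) (nat_lit 6) (nat_lit 218) (nat_lit 5) (nat_lit 56) (nat_lit 59) (nat_lit 74)) (PT.lf (nat_lit 19236) (nat_lit 6) (nat_lit 229) (nat_lit 5) (nat_lit 57) (nat_lit 59) (nat_lit 73)))) (PT.nd (nat_lit 188) (PT.nd (nat_lit 94) (PT.lf (nat_lit 20076) (nat_lit 6) (nat_lit 239) (nat_lit 5) (nat_lit 58) (nat_lit 59) (nat_lit 72)) (PT.lf (nat_lit 20832) (nat_lit 3) (nat_lit 248) (nat_lit 3) (nat_lit 59) (nat_lit 59) (nat_lit 71))) (PT.nd (nat_lit 94) (PT.lf (nat_lit 21588) (nat_lit 6)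 (nat_lit 257) (nat_lit 3) (nat_lit 60) (nat_lit 59) (nat_lit 70)) (PT.lf (nat_lit 22260) (nat_lit 6) (nat_lit 265) (nat_lit 3) (nat_lit 61) (nat_lit 59) (nat_lit 69)))))) (PT.nd (nat_lit 752) (PT.nd (nat_lit 376) (PT.nd (nat_lit 188) (PT.nd (nat_lit 94) (PT.lf (nat_lit 22848) (nat_lit 6) (nat_lit 272) (nat_lit 3) (nat_lit 62) (nat_lit 59) (nat_lit 68)) (PT.lf (nat_lit 23352) (nat_lit 6) (nat_lit 278) (nat_lit 3) (nat_lit 63) (nat_lit 59) (nat_lit 67))) (PT.nd (nat_lit 94) (PT.lf (nat_lit 23436) (nat_lit 6) (nat_lit 279) (nat_lit 3) (nat_lit 64) (nat_lit 59) (nat_lit 66)) (PT.lf (nat_lit 23520) (nat_lit 3) (nat_lit 280) (nat_lit 1) (nat_lit 65) (nat_lit 59) (nat_lit 65)))) (PT.nd (nat_lit 188) (PT.nd (nat_lit 94) (PT.lf (nat_lit 23436) (nat_lit 6) (nat_lit 279) (nat_lit 1) (nat_lit 66) (nat_lit 59) (nat_lit 64)) (PT.lf (nat_lit 23352) (nat_lit 6) (nat_lit 278) (nat_lit 1) (nat_lit 67) (nat_lit 59)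 (nat_lit 63))) (PT.nd (nat_lit 94) (PT.lf (nat_lit 22848) (nat_lit 6) (nat_lit 272) (nat_lit 1) (nat_lit 68) (nat_lit 59) (nat_lit 62)) (PT.lf (nat_lit 22260) (nat_lit 6) (nat_lit 265) (nat_lit 1) (nat_lit 69) (nat_lit 59) (nat_lit 61))))) (PT.nd (nat_lit 376) (PT.nd (nat_lit 188) (PT.nd (nat_lit 94) (PT.lf (nat_lit 21588) (nat_lit 6) (nat_lit 257) (nat_lit 1) (nat_lit 70) (nat_lit 59) (nat_lit 60)) (PT.lf (nat_lit 20832) (nat_lit 3) (nat_lit 248) (nat_lit 0) (nat_lit 71) (nat_lit 59) (nat_lit 59))) (PT.nd (nat_lit 94) (PT.lf (nat_lit 20076) (nat_lit 6) (nat_lit 239) (nat_lit 0) (nat_lit 72) (nat_lit 59) (nat_lit 58)) (PT.lf (nat_lit 19236) (nat_lit 6) (nat_lit 229) (nat_lit 0) (nat_lit 73) (nat_lit 59) (nat_lit 57)))) (PT.nd (nat_lit 188) (PT.nd (nat_lit 94) (PT.lf (nat_lit 18312) (nat_lit 6) (nat_lit 218) (nat_lit 0) (nat_lit 74) (nat_lit 59) (nat_lit 56)) (PT.lf (nat_lit 17304) (nat_lit 6) (nat_lit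 206) (nat_lit 0) (nat_lit 75) (nat_lit 59) (nat_lit 55))) (PT.nd (nat_lit 94) (PT.lf (nat_lit 16212) (nat_lit 6) (nat_lit 193) (nat_lit 0) (nat_lit 76) (nat_lit 59) (nat_lit 54)) (PT.lf (nat_lit 15036) (nat_lit 6) (nat_lit 179) (nat_lit 0) (nat_lit 77) (nat_lit 59) (nat_lit 53)))))))
noncomputable def pc10 : PT := (PT.nd (nat_lit 1504) (PT.nd (nat_lit 752) (PT.nd (nat_lit 376) (PT.nd (nat_lit 188) (PT.nd (nat_lit 94) (PT.lf (nat_lit 15120) (nat_lit 6) (nat_lit 180) (nat_lit 5) (nat_lit 52) (nat_lit 60) (nat_lit 77)) (PT.lf (nat_lit 16296) (nat_lit 6) (nat_lit 194) (nat_lit 5) (nat_lit 53) (nat_lit 60) (nat_lit 76))) (PT.nd (nat_lit 94) (PT.lf (nat_lit 17388) (nat_lit 6) (nat_lit 207) (nat_lit 5) (nat_lit 54) (nat_lit 60) (nat_lit 75)) (PT.lf (nat_lit 18396) (nat_lit 6) (nat_lit 219) (nat_lit 5) (nat_lit 55) (nat_lit 60) (nat_lit 74)))) (PT.nd (nat_lit 188) (PT.nd (nat_lit 94) (PT.lf (nat_lit 19320)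 (nat_lit 6) (nat_lit 230) (nat_lit 5) (nat_lit 56) (nat_lit 60) (nat_lit 73)) (PT.lf (nat_lit 20160) (nat_lit 6) (nat_lit 240) (nat_lit 5) (nat_lit 57) (nat_lit 60) (nat_lit 72))) (PT.nd (nat_lit 94) (PT.lf (nat_lit 20916) (nat_lit 6) (nat_lit 249) (nat_lit 5) (nat_lit 58) (nat_lit 60) (nat_lit 71)) (PT.lf (nat_lit 21588) (nat_lit 6) (nat_lit 257) (nat_lit 5) (nat_lit 59) (nat_lit 60) (nat_lit 70))))) (PT.nd (nat_lit 376) (PT.nd (nat_lit 188) (PT.nd (nat_lit 94) (PT.lf (nat_lit 22176) (nat_lit 3) (nat_lit 264) (nat_lit 3) (nat_lit 60) (nat_lit 60) (nat_lit 69)) (PT.lf (nat_lit 22764) (nat_lit 6) (nat_lit 271) (nat_lit 3) (nat_lit 61) (nat_lit 60) (nat_lit 68))) (PT.nd (nat_lit 94) (PT.lf (nat_lit 23268) (nat_lit 6) (nat_lit 277) (nat_lit 3) (nat_lit 62) (nat_lit 60) (nat_lit 67)) (PT.lf (nat_lit 23688) (nat_lit 6) (nat_lit 282) (nat_lit 3) (nat_lit 63) (nat_lit 60) (nat_lit 66)))) (PT.nd (nat_lit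 188) (PT.nd (nat_lit 94) (PT.lf (nat_lit 23772) (nat_lit 6) (nat_lit 283) (nat_lit 3) (nat_lit 64) (nat_lit 60) (nat_lit 65)) (PT.lf (nat_lit 23772) (nat_lit 6) (nat_lit 283) (nat_lit 1) (nat_lit 65) (nat_lit 60) (nat_lit 64))) (PT.nd (nat_lit 94) (PT.lf (nat_lit 23688) (nat_lit 6) (nat_lit 282) (nat_lit 1) (nat_lit 66) (nat_lit 60) (nat_lit 63)) (PT.lf (nat_lit 23268) (nat_lit 6) (nat_lit 277) (nat_lit 1) (nat_lit 67) (nat_lit 60) (nat_lit 62)))))) (PT.nd (nat_lit 752) (PT.nd (nat_lit 376) (PT.nd (nat_lit 188) (PT.nd (nat_lit 94) (PT.lf (nat_lit 22764) (nat_lit 6) (nat_lit 271) (nat_lit 1) (nat_lit 68) (nat_lit 60) (nat_lit 61)) (PT.lf (nat_lit 22176) (nat_lit 3) (nat_lit 264) (nat_lit 0) (nat_lit 69) (nat_lit 60) (nat_lit 60))) (PT.nd (nat_lit 94) (PT.lf (nat_lit 21588) (nat_lit 6) (nat_lit 257) (nat_lit 0) (nat_lit 70) (nat_lit 60) (nat_lit 59)) (PT.lf (nat_lit 20916) (nat_lit 6) (nat_lit 249)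 (nat_lit 0) (nat_lit 71) (nat_lit 60) (nat_lit 58)))) (PT.nd (nat_lit 188) (PT.nd (nat_lit 94) (PT.lf (nat_lit 20160) (nat_lit 6) (nat_lit 240) (nat_lit 0) (nat_lit 72) (nat_lit 60) (nat_lit 57)) (PT.lf (nat_lit 19320) (nat_lit 6) (nat_lit 230) (nat_lit 0) (nat_lit 73) (nat_lit 60) (nat_lit 56))) (PT.nd (nat_lit 94) (PT.lf (nat_lit 18396) (nat_lit 6) (nat_lit 219) (nat_lit 0) (nat_lit 74) (nat_lit 60) (nat_lit 55)) (PT.lf (nat_lit 17388) (nat_lit 6) (nat_lit 207) (nat_lit 0) (nat_lit 75) (nat_lit 60) (nat_lit 54))))) (PT.nd (nat_lit 57152) (PT.nd (nat_lit 56964) (PT.nd (nat_lit 94) (PT.lf (nat_lit 16296) (nat_lit 6) (nat_lit 194) (nat_lit 0) (nat_lit 76) (nat_lit 60) (nat_lit 53)) (PT.lf (nat_lit 15120) (nat_lit 6) (nat_lit 180) (nat_lit 0) (nat_lit 77) (nat_lit 60) (nat_lit 52))) (PT.nd (nat_lit 94) (PT.lf (nat_lit 15204) (nat_lit 6) (nat_lit 181) (nat_lit 5) (nat_lit 51) (nat_lit 61) (nat_lit 77))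 (PT.lf (nat_lit 16380) (nat_lit 6) (nat_lit 195) (nat_lit 5) (nat_lit 52) (nat_lit 61) (nat_lit 76)))) (PT.nd (nat_lit 188) (PT.nd (nat_lit 94) (PT.lf (nat_lit 17472) (nat_lit 6) (nat_lit 208) (nat_lit 5) (nat_lit 53) (nat_lit 61) (nat_lit 75)) (PT.lf (nat_lit 18480) (nat_lit 6) (nat_lit 220) (nat_lit 5) (nat_lit 54) (nat_lit 61) (nat_lit 74))) (PT.nd (nat_lit 94) (PT.lf (nat_lit 19404) (nat_lit 6) (nat_lit 231) (nat_lit 5) (nat_lit 55) (nat_lit 61) (nat_lit 73)) (PT.nd (nat_lit 94) (PT.lf (nat_lit 20244) (nat_lit 6) (nat_lit 241) (nat_lit 5) (nat_lit 56) (nat_lit 61) (nat_lit 72)) (PT.lf (nat_lit 21000) (nat_lit 6) (nat_lit 250) (nat_lit 5) (nat_lit 57) (nat_lit 61) (nat_lit 71))))))))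
noncomputable def pc11 : PT := (PT.nd (nat_lit 1504) (PT.nd (nat_lit 752) (PT.nd (nat_lit 376) (PT.nd (nat_lit 188) (PT.nd (nat_lit 94) (PT.lf (nat_lit 21672) (nat_lit 6) (nat_lit 258) (nat_lit 5) (nat_lit 58) (nat_lit 61) (nat_lit 70)) (PT.lf (nat_lit 22260) (nat_lit 6) (nat_lit 265) (nat_lit 5) (nat_lit 59) (nat_lit 61) (nat_lit 69))) (PT.nd (nat_lit 94) (PT.lf (nat_lit 22764) (nat_lit 6) (nat_lit 271) (nat_lit 5) (nat_lit 60) (nat_lit 61) (nat_lit 68)) (PT.lf (nat_lit 23184) (nat_lit 3) (nat_lit 276) (nat_lit 3) (nat_lit 61) (nat_lit 61) (nat_lit 67)))) (PT.nd (nat_lit 188) (PT.nd (nat_lit 94) (PT.lf (nat_lit 23604) (nat_lit 6) (nat_lit 281) (nat_lit 3) (nat_lit 62) (nat_lit 61) (nat_lit 66)) (PT.lf (nat_lit 23940) (nat_lit 6) (nat_lit 285) (nat_lit 3) (nat_lit 63) (nat_lit 61) (nat_lit 65))) (PT.nd (nat_lit 94) (PT.lf (nat_lit 24024) (nat_lit 3) (nat_lit 286) (nat_lit 1) (nat_lit 64) (nat_lit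 61) (nat_lit 64)) (PT.lf (nat_lit 23940) (nat_lit 6) (nat_lit 285) (nat_lit 1) (nat_lit 65) (nat_lit 61) (nat_lit 63))))) (PT.nd (nat_lit 376) (PT.nd (nat_lit 188) (PT.nd (nat_lit 94) (PT.lf (nat_lit 23604) (nat_lit 6) (nat_lit 281) (nat_lit 1) (nat_lit 66) (nat_lit 61) (nat_lit 62)) (PT.lf (nat_lit 23184) (nat_lit 3) (nat_lit 276) (nat_lit 0) (nat_lit 67) (nat_lit 61) (nat_lit 61))) (PT.nd (nat_lit 94) (PT.lf (nat_lit 22764) (nat_lit 6) (nat_lit 271) (nat_lit 0) (nat_lit 68) (nat_lit 61) (nat_lit 60)) (PT.lf (nat_lit 22260) (nat_lit 6) (nat_lit 265) (nat_lit 0) (nat_lit 69) (nat_lit 61) (nat_lit 59)))) (PT.nd (nat_lit 188) (PT.nd (nat_lit 94) (PT.lf (nat_lit 21672) (nat_lit 6) (nat_lit 258) (nat_lit 0) (nat_lit 70) (nat_lit 61) (nat_lit 58)) (PT.lf (nat_lit 21000) (nat_lit 6) (nat_lit 250) (nat_lit 0) (nat_lit 71) (nat_lit 61) (nat_lit 57))) (PT.nd (nat_lit 94) (PT.lf (nat_lit 20244) (nat_lit 6)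 (nat_lit 241) (nat_lit 0) (nat_lit 72) (nat_lit 61) (nat_lit 56)) (PT.lf (nat_lit 19404) (nat_lit 6) (nat_lit 231) (nat_lit 0) (nat_lit 73) (nat_lit 61) (nat_lit 55)))))) (PT.nd (nat_lit 57434) (PT.nd (nat_lit 57058) (PT.nd (nat_lit 188) (PT.nd (nat_lit 94) (PT.lf (nat_lit 18480) (nat_lit 6) (nat_lit 220) (nat_lit 0) (nat_lit 74) (nat_lit 61) (nat_lit 54)) (PT.lf (nat_lit 17472) (nat_lit 6) (nat_lit 208) (nat_lit 0) (nat_lit 75) (nat_lit 61) (nat_lit 53))) (PT.nd (nat_lit 94) (PT.lf (nat_lit 16380) (nat_lit 6) (nat_lit 195) (nat_lit 0) (nat_lit 76) (nat_lit 61) (nat_lit 52)) (PT.lf (nat_lit 15204) (nat_lit 6) (nat_lit 181) (nat_lit 0) (nat_lit 77) (nat_lit 61) (nat_lit 51)))) (PT.nd (nat_lit 188) (PT.nd (nat_lit 94) (PT.lf (nat_lit 15288) (nat_lit 6) (nat_lit 182) (nat_lit 5) (nat_lit 50) (nat_lit 62) (nat_lit 77)) (PT.lf (nat_lit 16464) (nat_lit 6) (nat_lit 196) (nat_lit 5) (nat_lit 51) (nat_lit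 62) (nat_lit 76))) (PT.nd (nat_lit 94) (PT.lf (nat_lit 17556) (nat_lit 6) (nat_lit 209) (nat_lit 5) (nat_lit 52) (nat_lit 62) (nat_lit 75)) (PT.lf (nat_lit 18564) (nat_lit 6) (nat_lit 221) (nat_lit 5) (nat_lit 53) (nat_lit 62) (nat_lit 74))))) (PT.nd (nat_lit 376) (PT.nd (nat_lit 188) (PT.nd (nat_lit 94) (PT.lf (nat_lit 19488) (nat_lit 6) (nat_lit 232) (nat_lit 5) (nat_lit 54) (nat_lit 62) (nat_lit 73)) (PT.lf (nat_lit 20328) (nat_lit 6) (nat_lit 242) (nat_lit 5) (nat_lit 55) (nat_lit 62) (nat_lit 72))) (PT.nd (nat_lit 94) (PT.lf (nat_lit 21084) (nat_lit 6) (nat_lit 251) (nat_lit 5) (nat_lit 56) (nat_lit 62) (nat_lit 71)) (PT.lf (nat_lit 21756) (nat_lit 6) (nat_lit 259) (nat_lit 5) (nat_lit 57) (nat_lit 62) (nat_lit 70)))) (PT.nd (nat_lit 188) (PT.nd (nat_lit 94) (PT.lf (nat_lit 22344) (nat_lit 6) (nat_lit 266) (nat_lit 5) (nat_lit 58) (nat_lit 62) (nat_lit 69)) (PT.lf (nat_lit 22848) (nat_lit 6)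 (nat_lit 272) (nat_lit 5) (nat_lit 59) (nat_lit 62) (nat_lit 68))) (PT.nd (nat_lit 94) (PT.lf (nat_lit 23268) (nat_lit 6) (nat_lit 277) (nat_lit 5) (nat_lit 60) (nat_lit 62) (nat_lit 67)) (PT.lf (nat_lit 23604) (nat_lit 6) (nat_lit 281) (nat_lit 5) (nat_lit 61) (nat_lit 62) (nat_lit 66)))))))
noncomputable def pc12 : PT := (PT.nd (nat_lit 57998) (PT.nd (nat_lit 752) (PT.nd (nat_lit 376) (PT.nd (nat_lit 188) (PT.nd (nat_lit 94) (PT.lf (nat_lit 23856) (nat_lit 3) (nat_lit 284) (nat_lit 3) (nat_lit 62) (nat_lit 62) (nat_lit 65)) (PT.lf (nat_lit 24108) (nat_lit 6) (nat_lit 287) (nat_lit 3) (nat_lit 63) (nat_lit 62) (nat_lit 64))) (PT.nd (nat_lit 94) (PT.lf (nat_lit 24108) (nat_lit 6) (nat_lit 287) (nat_lit 1) (nat_lit 64) (nat_lit 62) (nat_lit 63)) (PT.lf (nat_lit 23856) (nat_lit 3) (nat_lit 284) (nat_lit 0) (nat_lit 65) (nat_lit 62) (nat_lit 62)))) (PT.nd (nat_lit 188) (PT.nd (nat_lit 94) (PT.lf (nat_lit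 23604) (nat_lit 6) (nat_lit 281) (nat_lit 0) (nat_lit 66) (nat_lit 62) (nat_lit 61)) (PT.lf (nat_lit 23268) (nat_lit 6) (nat_lit 277) (nat_lit 0) (nat_lit 67) (nat_lit 62) (nat_lit 60))) (PT.nd (nat_lit 94) (PT.lf (nat_lit 22848) (nat_lit 6) (nat_lit 272) (nat_lit 0) (nat_lit 68) (nat_lit 62) (nat_lit 59)) (PT.lf (nat_lit 22344) (nat_lit 6) (nat_lit 266) (nat_lit 0) (nat_lit 69) (nat_lit 62) (nat_lit 58))))) (PT.nd (nat_lit 376) (PT.nd (nat_lit 188) (PT.nd (nat_lit 94) (PT.lf (nat_lit 21756) (nat_lit 6) (nat_lit 259) (nat_lit 0) (nat_lit 70) (nat_lit 62) (nat_lit 57)) (PT.lf (nat_lit 21084) (nat_lit 6) (nat_lit 251) (nat_lit 0) (nat_lit 71) (nat_lit 62) (nat_lit 56))) (PT.nd (nat_lit 94) (PT.lf (nat_lit 20328) (nat_lit 6) (nat_lit 242) (nat_lit 0) (nat_lit 72) (nat_lit 62) (nat_lit 55)) (PT.lf (nat_lit 19488) (nat_lit 6) (nat_lit 232) (nat_lit 0) (nat_lit 73) (nat_lit 62) (nat_lit 54)))) (PT.nd (nat_lit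 188) (PT.nd (nat_lit 94) (PT.lf (nat_lit 18564) (nat_lit 6) (nat_lit 221) (nat_lit 0) (nat_lit 74) (nat_lit 62) (nat_lit 53)) (PT.lf (nat_lit 17556) (nat_lit 6) (nat_lit 209) (nat_lit 0) (nat_lit 75) (nat_lit 62) (nat_lit 52))) (PT.nd (nat_lit 94) (PT.lf (nat_lit 16464) (nat_lit 6) (nat_lit 196) (nat_lit 0) (nat_lit 76) (nat_lit 62) (nat_lit 51)) (PT.lf (nat_lit 15288) (nat_lit 6) (nat_lit 182) (nat_lit 0) (nat_lit 77) (nat_lit 62) (nat_lit 50)))))) (PT.nd (nat_lit 752) (PT.nd (nat_lit 376) (PT.nd (nat_lit 188) (PT.nd (nat_lit 94) (PT.lf (nat_lit 14112) (nat_lit 6) (nat_lit 168) (nat_lit 5) (nat_lit 48) (nat_lit 63) (nat_lit 78)) (PT.lf (nat_lit 15372) (nat_lit 6) (nat_lit 183) (nat_lit 5) (nat_lit 49) (nat_lit 63) (nat_lit 77))) (PT.nd (nat_lit 94) (PT.lf (nat_lit 16548) (nat_lit 6) (nat_lit 197) (nat_lit 5) (nat_lit 50) (nat_lit 63) (nat_lit 76)) (PT.lf (nat_lit 17640) (nat_lit 6) (nat_lit 210)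 (nat_lit 5) (nat_lit 51) (nat_lit 63) (nat_lit 75)))) (PT.nd (nat_lit 188) (PT.nd (nat_lit 94) (PT.lf (nat_lit 18648) (nat_lit 6) (nat_lit 222) (nat_lit 5) (nat_lit 52) (nat_lit 63) (nat_lit 74)) (PT.lf (nat_lit 19572) (nat_lit 6) (nat_lit 233) (nat_lit 5) (nat_lit 53) (nat_lit 63) (nat_lit 73))) (PT.nd (nat_lit 94) (PT.lf (nat_lit 20412) (nat_lit 6) (nat_lit 243) (nat_lit 5) (nat_lit 54) (nat_lit 63) (nat_lit 72)) (PT.lf (nat_lit 21168) (nat_lit 6) (nat_lit 252) (nat_lit 5) (nat_lit 55) (nat_lit 63) (nat_lit 71))))) (PT.nd (nat_lit 376) (PT.nd (nat_lit 188) (PT.nd (nat_lit 94) (PT.lf (nat_lit 21840) (nat_lit 6) (nat_lit 260) (nat_lit 5) (nat_lit 56) (nat_lit 63) (nat_lit 70)) (PT.lf (nat_lit 22428) (nat_lit 6) (nat_lit 267) (nat_lit 5) (nat_lit 57) (nat_lit 63) (nat_lit 69))) (PT.nd (nat_lit 94) (PT.lf (nat_lit 22932) (nat_lit 6) (nat_lit 273) (nat_lit 5) (nat_lit 58) (nat_lit 63) (nat_lit 68)) (PT.lf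 (nat_lit 23352) (nat_lit 6) (nat_lit 278) (nat_lit 5) (nat_lit 59) (nat_lit 63) (nat_lit 67)))) (PT.nd (nat_lit 188) (PT.nd (nat_lit 94) (PT.lf (nat_lit 23688) (nat_lit 6) (nat_lit 282) (nat_lit 5) (nat_lit 60) (nat_lit 63) (nat_lit 66)) (PT.lf (nat_lit 23940) (nat_lit 6) (nat_lit 285) (nat_lit 5) (nat_lit 61) (nat_lit 63) (nat_lit 65))) (PT.nd (nat_lit 94) (PT.lf (nat_lit 24108) (nat_lit 6) (nat_lit 287) (nat_lit 5) (nat_lit 62) (nat_lit 63) (nat_lit 64)) (PT.nd (nat_lit 94) (PT.lf (nat_lit 24192) (nat_lit 1) (nat_lit 288) (nat_lit 0) (nat_lit 63) (nat_lit 63) (nat_lit 63)) (PT.lf (nat_lit 24108) (nat_lit 6) (nat_lit 287) (nat_lit 0) (nat_lit 64) (nat_lit 63) (nat_lit 62))))))))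
noncomputable def pc13 : PT := (PT.nd (nat_lit 57810) (PT.nd (nat_lit 752) (PT.nd (nat_lit 376) (PT.nd (nat_lit 188) (PT.nd (nat_lit 94) (PT.lf (nat_lit 23940) (nat_lit 6) (nat_lit 285) (nat_lit 0) (nat_lit 65) (nat_lit 63) (nat_lit 61)) (PT.lf (nat_lit 23688) (nat_lit 6) (nat_lit 282) (nat_lit 0) (nat_lit 66) (nat_lit 63) (nat_lit 60))) (PT.nd (nat_lit 94) (PT.lf (nat_lit 23352) (nat_lit 6) (nat_lit 278) (nat_lit 0) (nat_lit 67) (nat_lit 63) (nat_lit 59)) (PT.lf (nat_lit 22932) (nat_lit 6) (nat_lit 273) (nat_lit 0) (nat_lit 68) (nat_lit 63) (nat_lit 58)))) (PT.nd (nat_lit 188) (PT.nd (nat_lit 94) (PT.lf (nat_lit 22428) (nat_lit 6) (nat_lit 267) (nat_lit 0) (nat_lit 69) (nat_lit 63) (nat_lit 57)) (PT.lf (nat_lit 21840) (nat_lit 6) (nat_lit 260) (nat_lit 0) (nat_lit 70) (nat_lit 63) (nat_lit 56))) (PT.nd (nat_lit 94) (PT.lf (nat_lit 21168) (nat_lit 6) (nat_lit 252) (nat_lit 0) (nat_lit 71) (nat_lit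 63) (nat_lit 55)) (PT.lf (nat_lit 20412) (nat_lit 6) (nat_lit 243) (nat_lit 0) (nat_lit 72) (nat_lit 63) (nat_lit 54))))) (PT.nd (nat_lit 376) (PT.nd (nat_lit 188) (PT.nd (nat_lit 94) (PT.lf (nat_lit 19572) (nat_lit 6) (nat_lit 233) (nat_lit 0) (nat_lit 73) (nat_lit 63) (nat_lit 53)) (PT.lf (nat_lit 18648) (nat_lit 6) (nat_lit 222) (nat_lit 0) (nat_lit 74) (nat_lit 63) (nat_lit 52))) (PT.nd (nat_lit 94) (PT.lf (nat_lit 17640) (nat_lit 6) (nat_lit 210) (nat_lit 0) (nat_lit 75) (nat_lit 63) (nat_lit 51)) (PT.lf (nat_lit 16548) (nat_lit 6) (nat_lit 197) (nat_lit 0) (nat_lit 76) (nat_lit 63) (nat_lit 50)))) (PT.nd (nat_lit 56494) (PT.nd (nat_lit 94) (PT.lf (nat_lit 15372) (nat_lit 6) (nat_lit 183) (nat_lit 0) (nat_lit 77) (nat_lit 63) (nat_lit 49)) (PT.lf (nat_lit 14112) (nat_lit 6) (nat_lit 168) (nat_lit 0) (nat_lit 78) (nat_lit 63) (nat_lit 48))) (PT.nd (nat_lit 94) (PT.lf (nat_lit 12852) (nat_lit 6)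 (nat_lit 153) (nat_lit 5) (nat_lit 47) (nat_lit 64) (nat_lit 78)) (PT.lf (nat_lit 14196) (nat_lit 6) (nat_lit 169) (nat_lit 5) (nat_lit 48) (nat_lit 64) (nat_lit 77)))))) (PT.nd (nat_lit 752) (PT.nd (nat_lit 376) (PT.nd (nat_lit 188) (PT.nd (nat_lit 94) (PT.lf (nat_lit 15456) (nat_lit 6) (nat_lit 184) (nat_lit 5) (nat_lit 49) (nat_lit 64) (nat_lit 76)) (PT.lf (nat_lit 16632) (nat_lit 6) (nat_lit 198) (nat_lit 5) (nat_lit 50) (nat_lit 64) (nat_lit 75))) (PT.nd (nat_lit 94) (PT.lf (nat_lit 17724) (nat_lit 6) (nat_lit 211) (nat_lit 5) (nat_lit 51) (nat_lit 64) (nat_lit 74)) (PT.lf (nat_lit 18732) (nat_lit 6) (nat_lit 223) (nat_lit 5) (nat_lit 52) (nat_lit 64) (nat_lit 73)))) (PT.nd (nat_lit 188) (PT.nd (nat_lit 94) (PT.lf (nat_lit 19656) (nat_lit 6) (nat_lit 234) (nat_lit 5) (nat_lit 53) (nat_lit 64) (nat_lit 72)) (PT.lf (nat_lit 20496) (nat_lit 6) (nat_lit 244) (nat_lit 5) (nat_lit 54) (nat_lit 64)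 (nat_lit 71))) (PT.nd (nat_lit 94) (PT.lf (nat_lit 21252) (nat_lit 6) (nat_lit 253) (nat_lit 5) (nat_lit 55) (nat_lit 64) (nat_lit 70)) (PT.lf (nat_lit 21924) (nat_lit 6) (nat_lit 261) (nat_lit 5) (nat_lit 56) (nat_lit 64) (nat_lit 69))))) (PT.nd (nat_lit 376) (PT.nd (nat_lit 188) (PT.nd (nat_lit 94) (PT.lf (nat_lit 22512) (nat_lit 6) (nat_lit 268) (nat_lit 5) (nat_lit 57) (nat_lit 64) (nat_lit 68)) (PT.lf (nat_lit 23016) (nat_lit 6) (nat_lit 274) (nat_lit 5) (nat_lit 58) (nat_lit 64) (nat_lit 67))) (PT.nd (nat_lit 94) (PT.lf (nat_lit 23436) (nat_lit 6) (nat_lit 279) (nat_lit 5) (nat_lit 59) (nat_lit 64) (nat_lit 66)) (PT.lf (nat_lit 23772) (nat_lit 6) (nat_lit 283) (nat_lit 5) (nat_lit 60) (nat_lit 64) (nat_lit 65)))) (PT.nd (nat_lit 188) (PT.nd (nat_lit 94) (PT.lf (nat_lit 24024) (nat_lit 3) (nat_lit 286) (nat_lit 4) (nat_lit 61) (nat_lit 64) (nat_lit 64)) (PT.lf (nat_lit 24108) (nat_lit 6) (nat_lit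 287) (nat_lit 4) (nat_lit 62) (nat_lit 64) (nat_lit 63))) (PT.nd (nat_lit 94) (PT.lf (nat_lit 24108) (nat_lit 6) (nat_lit 287) (nat_lit 2) (nat_lit 63) (nat_lit 64) (nat_lit 62)) (PT.lf (nat_lit 24024) (nat_lit 3) (nat_lit 286) (nat_lit 0) (nat_lit 64) (nat_lit 64) (nat_lit 61)))))))
noncomputable def pc14 : PT := (PT.nd (nat_lit 57716) (PT.nd (nat_lit 752) (PT.nd (nat_lit 376) (PT.nd (nat_lit 188) (PT.nd (nat_lit 94) (PT.lf (nat_lit 23772) (nat_lit 6) (nat_lit 283) (nat_lit 0) (nat_lit 65) (nat_lit 64) (nat_lit 60)) (PT.lf (nat_lit 23436) (nat_lit 6) (nat_lit 279) (nat_lit 0) (nat_lit 66) (nat_lit 64) (nat_lit 59))) (PT.nd (nat_lit 94) (PT.lf (nat_lit 23016) (nat_lit 6) (nat_lit 274) (nat_lit 0) (nat_lit 67) (nat_lit 64) (nat_lit 58)) (PT.lf (nat_lit 22512) (nat_lit 6) (nat_lit 268) (nat_lit 0) (nat_lit 68) (nat_lit 64) (nat_lit 57)))) (PT.nd (nat_lit 188) (PT.nd (nat_lit 94) (PT.lf (nat_lit 21924)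 (nat_lit 6) (nat_lit 261) (nat_lit 0) (nat_lit 69) (nat_lit 64) (nat_lit 56)) (PT.lf (nat_lit 21252) (nat_lit 6) (nat_lit 253) (nat_lit 0) (nat_lit 70) (nat_lit 64) (nat_lit 55))) (PT.nd (nat_lit 94) (PT.lf (nat_lit 20496) (nat_lit 6) (nat_lit 244) (nat_lit 0) (nat_lit 71) (nat_lit 64) (nat_lit 54)) (PT.lf (nat_lit 19656) (nat_lit 6) (nat_lit 234) (nat_lit 0) (nat_lit 72) (nat_lit 64) (nat_lit 53))))) (PT.nd (nat_lit 376) (PT.nd (nat_lit 188) (PT.nd (nat_lit 94) (PT.lf (nat_lit 18732) (nat_lit 6) (nat_lit 223) (nat_lit 0) (nat_lit 73) (nat_lit 64) (nat_lit 52)) (PT.lf (nat_lit 17724) (nat_lit 6) (nat_lit 211) (nat_lit 0) (nat_lit 74) (nat_lit 64) (nat_lit 51))) (PT.nd (nat_lit 94) (PT.lf (nat_lit 16632) (nat_lit 6) (nat_lit 198) (nat_lit 0) (nat_lit 75) (nat_lit 64) (nat_lit 50)) (PT.lf (nat_lit 15456) (nat_lit 6) (nat_lit 184) (nat_lit 0) (nat_lit 76) (nat_lit 64) (nat_lit 49)))) (PT.nd (nat_lit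 56400) (PT.nd (nat_lit 94) (PT.lf (nat_lit 14196) (nat_lit 6) (nat_lit 169) (nat_lit 0) (nat_lit 77) (nat_lit 64) (nat_lit 48)) (PT.lf (nat_lit 12852) (nat_lit 6) (nat_lit 153) (nat_lit 0) (nat_lit 78) (nat_lit 64) (nat_lit 47))) (PT.nd (nat_lit 94) (PT.lf (nat_lit 12264) (nat_lit 6) (nat_lit 146) (nat_lit 5) (nat_lit 46) (nat_lit 65) (nat_lit 78)) (PT.lf (nat_lit 12936) (nat_lit 6) (nat_lit 154) (nat_lit 5) (nat_lit 47) (nat_lit 65) (nat_lit 77)))))) (PT.nd (nat_lit 752) (PT.nd (nat_lit 376) (PT.nd (nat_lit 188) (PT.nd (nat_lit 94) (PT.lf (nat_lit 14280) (nat_lit 6) (nat_lit 170) (nat_lit 5) (nat_lit 48) (nat_lit 65) (nat_lit 76)) (PT.lf (nat_lit 15540) (nat_lit 6) (nat_lit 185) (nat_lit 5) (nat_lit 49) (nat_lit 65) (nat_lit 75))) (PT.nd (nat_lit 94) (PT.lf (nat_lit 16716) (nat_lit 6) (nat_lit 199) (nat_lit 5) (nat_lit 50) (nat_lit 65) (nat_lit 74)) (PT.lf (nat_lit 17808) (nat_lit 6) (nat_lit 212)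 (nat_lit 5) (nat_lit 51) (nat_lit 65) (nat_lit 73)))) (PT.nd (nat_lit 188) (PT.nd (nat_lit 94) (PT.lf (nat_lit 18816) (nat_lit 6) (nat_lit 224) (nat_lit 5) (nat_lit 52) (nat_lit 65) (nat_lit 72)) (PT.lf (nat_lit 19740) (nat_lit 6) (nat_lit 235) (nat_lit 5) (nat_lit 53) (nat_lit 65) (nat_lit 71))) (PT.nd (nat_lit 94) (PT.lf (nat_lit 20580) (nat_lit 6) (nat_lit 245) (nat_lit 5) (nat_lit 54) (nat_lit 65) (nat_lit 70)) (PT.lf (nat_lit 21336) (nat_lit 6) (nat_lit 254) (nat_lit 5) (nat_lit 55) (nat_lit 65) (nat_lit 69))))) (PT.nd (nat_lit 376) (PT.nd (nat_lit 188) (PT.nd (nat_lit 94) (PT.lf (nat_lit 22008) (nat_lit 6) (nat_lit 262) (nat_lit 5) (nat_lit 56) (nat_lit 65) (nat_lit 68)) (PT.lf (nat_lit 22596) (nat_lit 6) (nat_lit 269) (nat_lit 5) (nat_lit 57) (nat_lit 65) (nat_lit 67))) (PT.nd (nat_lit 94) (PT.lf (nat_lit 23100) (nat_lit 6) (nat_lit 275) (nat_lit 5) (nat_lit 58) (nat_lit 65) (nat_lit 66)) (PT.lf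 (nat_lit 23520) (nat_lit 3) (nat_lit 280) (nat_lit 4) (nat_lit 59) (nat_lit 65) (nat_lit 65)))) (PT.nd (nat_lit 188) (PT.nd (nat_lit 94) (PT.lf (nat_lit 23772) (nat_lit 6) (nat_lit 283) (nat_lit 4) (nat_lit 60) (nat_lit 65) (nat_lit 64)) (PT.lf (nat_lit 23940) (nat_lit 6) (nat_lit 285) (nat_lit 4) (nat_lit 61) (nat_lit 65) (nat_lit 63))) (PT.nd (nat_lit 94) (PT.lf (nat_lit 23856) (nat_lit 3) (nat_lit 284) (nat_lit 2) (nat_lit 62) (nat_lit 65) (nat_lit 62)) (PT.nd (nat_lit 94) (PT.lf (nat_lit 23940) (nat_lit 6) (nat_lit 285) (nat_lit 2) (nat_lit 63) (nat_lit 65) (nat_lit 61)) (PT.lf (nat_lit 23772) (nat_lit 6) (nat_lit 283) (nat_lit 2) (nat_lit 64) (nat_lit 65) (nat_lit 60))))))))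
noncomputable def pc15 : PT := (PT.nd (nat_lit 57622) (PT.nd (nat_lit 752) (PT.nd (nat_lit 376) (PT.nd (nat_lit 188) (PT.nd (nat_lit 94) (PT.lf (nat_lit 23520) (nat_lit 3) (nat_lit 280) (nat_lit 0) (nat_lit 65) (nat_lit 65) (nat_lit 59)) (PT.lf (nat_lit 23100) (nat_lit 6) (nat_lit 275) (nat_lit 0) (nat_lit 66) (nat_lit 65) (nat_lit 58))) (PT.nd (nat_lit 94) (PT.lf (nat_lit 22596) (nat_lit 6) (nat_lit 269) (nat_lit 0) (nat_lit 67) (nat_lit 65) (nat_lit 57)) (PT.lf (nat_lit 22008) (nat_lit 6) (nat_lit 262) (nat_lit 0) (nat_lit 68) (nat_lit 65) (nat_lit 56)))) (PT.nd (nat_lit 188) (PT.nd (nat_lit 94) (PT.lf (nat_lit 21336) (nat_lit 6) (nat_lit 254) (nat_lit 0) (nat_lit 69) (nat_lit 65) (nat_lit 55)) (PT.lf (nat_lit 20580) (nat_lit 6) (nat_lit 245) (nat_lit 0) (nat_lit 70) (nat_lit 65) (nat_lit 54))) (PT.nd (nat_lit 94) (PT.lf (nat_lit 19740) (nat_lit 6) (nat_lit 235) (nat_lit 0) (nat_lit 71) (nat_lit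 65) (nat_lit 53)) (PT.lf (nat_lit 18816) (nat_lit 6) (nat_lit 224) (nat_lit 0) (nat_lit 72) (nat_lit 65) (nat_lit 52))))) (PT.nd (nat_lit 376) (PT.nd (nat_lit 188) (PT.nd (nat_lit 94) (PT.lf (nat_lit 17808) (nat_lit 6) (nat_lit 212) (nat_lit 0) (nat_lit 73) (nat_lit 65) (nat_lit 51)) (PT.lf (nat_lit 16716) (nat_lit 6) (nat_lit 199) (nat_lit 0) (nat_lit 74) (nat_lit 65) (nat_lit 50))) (PT.nd (nat_lit 94) (PT.lf (nat_lit 15540) (nat_lit 6) (nat_lit 185) (nat_lit 0) (nat_lit 75) (nat_lit 65) (nat_lit 49)) (PT.lf (nat_lit 14280) (nat_lit 6) (nat_lit 170) (nat_lit 0) (nat_lit 76) (nat_lit 65) (nat_lit 48)))) (PT.nd (nat_lit 56306) (PT.nd (nat_lit 94) (PT.lf (nat_lit 12936) (nat_lit 6) (nat_lit 154) (nat_lit 0) (nat_lit 77) (nat_lit 65) (nat_lit 47)) (PT.lf (nat_lit 12264) (nat_lit 6) (nat_lit 146) (nat_lit 0) (nat_lit 78) (nat_lit 65) (nat_lit 46))) (PT.nd (nat_lit 94) (PT.lf (nat_lit 11676) (nat_lit 6)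 (nat_lit 139) (nat_lit 5) (nat_lit 45) (nat_lit 66) (nat_lit 78)) (PT.lf (nat_lit 12348) (nat_lit 6) (nat_lit 147) (nat_lit 5) (nat_lit 46) (nat_lit 66) (nat_lit 77)))))) (PT.nd (nat_lit 752) (PT.nd (nat_lit 376) (PT.nd (nat_lit 188) (PT.nd (nat_lit 94) (PT.lf (nat_lit 13020) (nat_lit 6) (nat_lit 155) (nat_lit 5) (nat_lit 47) (nat_lit 66) (nat_lit 76)) (PT.lf (nat_lit 14364) (nat_lit 6) (nat_lit 171) (nat_lit 5) (nat_lit 48) (nat_lit 66) (nat_lit 75))) (PT.nd (nat_lit 94) (PT.lf (nat_lit 15624) (nat_lit 6) (nat_lit 186) (nat_lit 5) (nat_lit 49) (nat_lit 66) (nat_lit 74)) (PT.lf (nat_lit 16800) (nat_lit 6) (nat_lit 200) (nat_lit 5) (nat_lit 50) (nat_lit 66) (nat_lit 73)))) (PT.nd (nat_lit 188) (PT.nd (nat_lit 94) (PT.lf (nat_lit 17892) (nat_lit 6) (nat_lit 213) (nat_lit 5) (nat_lit 51) (nat_lit 66) (nat_lit 72)) (PT.lf (nat_lit 18900) (nat_lit 6) (nat_lit 225) (nat_lit 5) (nat_lit 52) (nat_lit 66)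 (nat_lit 71))) (PT.nd (nat_lit 94) (PT.lf (nat_lit 19824) (nat_lit 6) (nat_lit 236) (nat_lit 5) (nat_lit 53) (nat_lit 66) (nat_lit 70)) (PT.lf (nat_lit 20664) (nat_lit 6) (nat_lit 246) (nat_lit 5) (nat_lit 54) (nat_lit 66) (nat_lit 69))))) (PT.nd (nat_lit 376) (PT.nd (nat_lit 188) (PT.nd (nat_lit 94) (PT.lf (nat_lit 21420) (nat_lit 6) (nat_lit 255) (nat_lit 5) (nat_lit 55) (nat_lit 66) (nat_lit 68)) (PT.lf (nat_lit 22092) (nat_lit 6) (nat_lit 263) (nat_lit 5) (nat_lit 56) (nat_lit 66) (nat_lit 67))) (PT.nd (nat_lit 94) (PT.lf (nat_lit 22680) (nat_lit 3) (nat_lit 270) (nat_lit 4) (nat_lit 57) (nat_lit 66) (nat_lit 66)) (PT.lf (nat_lit 23100) (nat_lit 6) (nat_lit 275) (nat_lit 4) (nat_lit 58) (nat_lit 66) (nat_lit 65)))) (PT.nd (nat_lit 188) (PT.nd (nat_lit 94) (PT.lf (nat_lit 23436) (nat_lit 6) (nat_lit 279) (nat_lit 4) (nat_lit 59) (nat_lit 66) (nat_lit 64)) (PT.lf (nat_lit 23688) (nat_lit 6) (nat_lit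 282) (nat_lit 4) (nat_lit 60) (nat_lit 66) (nat_lit 63))) (PT.nd (nat_lit 94) (PT.lf (nat_lit 23604) (nat_lit 6) (nat_lit 281) (nat_lit 4) (nat_lit 61) (nat_lit 66) (nat_lit 62)) (PT.lf (nat_lit 23604) (nat_lit 6) (nat_lit 281) (nat_lit 2) (nat_lit 62) (nat_lit 66) (nat_lit 61)))))))
noncomputable def pc16 : PT := (PT.nd (nat_lit 57528) (PT.nd (nat_lit 752) (PT.nd (nat_lit 376) (PT.nd (nat_lit 188) (PT.nd (nat_lit 94) (PT.lf (nat_lit 23688) (nat_lit 6) (nat_lit 282) (nat_lit 2) (nat_lit 63) (nat_lit 66) (nat_lit 60)) (PT.lf (nat_lit 23436) (nat_lit 6) (nat_lit 279) (nat_lit 2) (nat_lit 64) (nat_lit 66) (nat_lit 59))) (PT.nd (nat_lit 94) (PT.lf (nat_lit 23100) (nat_lit 6) (nat_lit 275) (nat_lit 2) (nat_lit 65) (nat_lit 66) (nat_lit 58)) (PT.lf (nat_lit 22680) (nat_lit 3) (nat_lit 270) (nat_lit 0) (nat_lit 66) (nat_lit 66) (nat_lit 57)))) (PT.nd (nat_lit 188) (PT.nd (nat_lit 94) (PT.lf (nat_lit 22092)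 (nat_lit 6) (nat_lit 263) (nat_lit 0) (nat_lit 67) (nat_lit 66) (nat_lit 56)) (PT.lf (nat_lit 21420) (nat_lit 6) (nat_lit 255) (nat_lit 0) (nat_lit 68) (nat_lit 66) (nat_lit 55))) (PT.nd (nat_lit 94) (PT.lf (nat_lit 20664) (nat_lit 6) (nat_lit 246) (nat_lit 0) (nat_lit 69) (nat_lit 66) (nat_lit 54)) (PT.lf (nat_lit 19824) (nat_lit 6) (nat_lit 236) (nat_lit 0) (nat_lit 70) (nat_lit 66) (nat_lit 53))))) (PT.nd (nat_lit 376) (PT.nd (nat_lit 188) (PT.nd (nat_lit 94) (PT.lf (nat_lit 18900) (nat_lit 6) (nat_lit 225) (nat_lit 0) (nat_lit 71) (nat_lit 66) (nat_lit 52)) (PT.lf (nat_lit 17892) (nat_lit 6) (nat_lit 213) (nat_lit 0) (nat_lit 72) (nat_lit 66) (nat_lit 51))) (PT.nd (nat_lit 94) (PT.lf (nat_lit 16800) (nat_lit 6) (nat_lit 200) (nat_lit 0) (nat_lit 73) (nat_lit 66) (nat_lit 50)) (PT.lf (nat_lit 15624) (nat_lit 6) (nat_lit 186) (nat_lit 0) (nat_lit 74) (nat_lit 66) (nat_lit 49)))) (PT.nd (nat_lit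 188) (PT.nd (nat_lit 94) (PT.lf (nat_lit 14364) (nat_lit 6) (nat_lit 171) (nat_lit 0) (nat_lit 75) (nat_lit 66) (nat_lit 48)) (PT.lf (nat_lit 13020) (nat_lit 6) (nat_lit 155) (nat_lit 0) (nat_lit 76) (nat_lit 66) (nat_lit 47))) (PT.nd (nat_lit 94) (PT.lf (nat_lit 12348) (nat_lit 6) (nat_lit 147) (nat_lit 0) (nat_lit 77) (nat_lit 66) (nat_lit 46)) (PT.lf (nat_lit 11676) (nat_lit 6) (nat_lit 139) (nat_lit 0) (nat_lit 78) (nat_lit 66) (nat_lit 45)))))) (PT.nd (nat_lit 752) (PT.nd (nat_lit 376) (PT.nd (nat_lit 188) (PT.nd (nat_lit 94) (PT.lf (nat_lit 11088) (nat_lit 6) (nat_lit 132) (nat_lit 5) (nat_lit 44) (nat_lit 67) (nat_lit 78)) (PT.lf (nat_lit 11760) (nat_lit 6) (nat_lit 140) (nat_lit 5) (nat_lit 45) (nat_lit 67) (nat_lit 77))) (PT.nd (nat_lit 94) (PT.lf (nat_lit 12432) (nat_lit 6) (nat_lit 148) (nat_lit 5) (nat_lit 46) (nat_lit 67) (nat_lit 76)) (PT.lf (nat_lit 13104) (nat_lit 6) (nat_lit 156)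 (nat_lit 5) (nat_lit 47) (nat_lit 67) (nat_lit 75)))) (PT.nd (nat_lit 188) (PT.nd (nat_lit 94) (PT.lf (nat_lit 14448) (nat_lit 6) (nat_lit 172) (nat_lit 5) (nat_lit 48) (nat_lit 67) (nat_lit 74)) (PT.lf (nat_lit 15708) (nat_lit 6) (nat_lit 187) (nat_lit 5) (nat_lit 49) (nat_lit 67) (nat_lit 73))) (PT.nd (nat_lit 94) (PT.lf (nat_lit 16884) (nat_lit 6) (nat_lit 201) (nat_lit 5) (nat_lit 50) (nat_lit 67) (nat_lit 72)) (PT.lf (nat_lit 17976) (nat_lit 6) (nat_lit 214) (nat_lit 5) (nat_lit 51) (nat_lit 67) (nat_lit 71))))) (PT.nd (nat_lit 376) (PT.nd (nat_lit 188) (PT.nd (nat_lit 94) (PT.lf (nat_lit 18984) (nat_lit 6) (nat_lit 226) (nat_lit 5) (nat_lit 52) (nat_lit 67) (nat_lit 70)) (PT.lf (nat_lit 19908) (nat_lit 6) (nat_lit 237) (nat_lit 5) (nat_lit 53) (nat_lit 67) (nat_lit 69))) (PT.nd (nat_lit 94) (PT.lf (nat_lit 20748) (nat_lit 6) (nat_lit 247) (nat_lit 5) (nat_lit 54) (nat_lit 67) (nat_lit 68)) (PT.lf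 (nat_lit 21504) (nat_lit 3) (nat_lit 256) (nat_lit 4) (nat_lit 55) (nat_lit 67) (nat_lit 67)))) (PT.nd (nat_lit 188) (PT.nd (nat_lit 94) (PT.lf (nat_lit 22092) (nat_lit 6) (nat_lit 263) (nat_lit 4) (nat_lit 56) (nat_lit 67) (nat_lit 66)) (PT.lf (nat_lit 22596) (nat_lit 6) (nat_lit 269) (nat_lit 4) (nat_lit 57) (nat_lit 67) (nat_lit 65))) (PT.nd (nat_lit 94) (PT.lf (nat_lit 23016) (nat_lit 6) (nat_lit 274) (nat_lit 4) (nat_lit 58) (nat_lit 67) (nat_lit 64)) (PT.nd (nat_lit 94) (PT.lf (nat_lit 23352) (nat_lit 6) (nat_lit 278) (nat_lit 4) (nat_lit 59) (nat_lit 67) (nat_lit 63)) (PT.lf (nat_lit 23268) (nat_lit 6) (nat_lit 277) (nat_lit 4) (nat_lit 60) (nat_lit 67) (nat_lit 62))))))))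
noncomputable def pc17 : PT := (PT.nd (nat_lit 1504) (PT.nd (nat_lit 752) (PT.nd (nat_lit 376) (PT.nd (nat_lit 188) (PT.nd (nat_lit 94) (PT.lf (nat_lit 23184) (nat_lit 3) (nat_lit 276) (nat_lit 2) (nat_lit 61) (nat_lit 67) (nat_lit 61)) (PT.lf (nat_lit 23268) (nat_lit 6) (nat_lit 277) (nat_lit 2) (nat_lit 62) (nat_lit 67) (nat_lit 60))) (PT.nd (nat_lit 94) (PT.lf (nat_lit 23352) (nat_lit 6) (nat_lit 278) (nat_lit 2) (nat_lit 63) (nat_lit 67) (nat_lit 59)) (PT.lf (nat_lit 23016) (nat_lit 6) (nat_lit 274) (nat_lit 2) (nat_lit 64) (nat_lit 67) (nat_lit 58)))) (PT.nd (nat_lit 188) (PT.nd (nat_lit 94) (PT.lf (nat_lit 22596) (nat_lit 6) (nat_lit 269) (nat_lit 2) (nat_lit 65) (nat_lit 67) (nat_lit 57)) (PT.lf (nat_lit 22092) (nat_lit 6) (nat_lit 263) (nat_lit 2) (nat_lit 66) (nat_lit 67) (nat_lit 56))) (PT.nd (nat_lit 94) (PT.lf (nat_lit 21504) (nat_lit 3) (nat_lit 256) (nat_lit 0) (nat_lit 67) (nat_lit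 67) (nat_lit 55)) (PT.lf (nat_lit 20748) (nat_lit 6) (nat_lit 247) (nat_lit 0) (nat_lit 68) (nat_lit 67) (nat_lit 54))))) (PT.nd (nat_lit 376) (PT.nd (nat_lit 188) (PT.nd (nat_lit 94) (PT.lf (nat_lit 19908) (nat_lit 6) (nat_lit 237) (nat_lit 0) (nat_lit 69) (nat_lit 67) (nat_lit 53)) (PT.lf (nat_lit 18984) (nat_lit 6) (nat_lit 226) (nat_lit 0) (nat_lit 70) (nat_lit 67) (nat_lit 52))) (PT.nd (nat_lit 94) (PT.lf (nat_lit 17976) (nat_lit 6) (nat_lit 214) (nat_lit 0) (nat_lit 71) (nat_lit 67) (nat_lit 51)) (PT.lf (nat_lit 16884) (nat_lit 6) (nat_lit 201) (nat_lit 0) (nat_lit 72) (nat_lit 67) (nat_lit 50)))) (PT.nd (nat_lit 188) (PT.nd (nat_lit 94) (PT.lf (nat_lit 15708) (nat_lit 6) (nat_lit 187) (nat_lit 0) (nat_lit 73) (nat_lit 67) (nat_lit 49)) (PT.lf (nat_lit 14448) (nat_lit 6) (nat_lit 172) (nat_lit 0) (nat_lit 74) (nat_lit 67) (nat_lit 48))) (PT.nd (nat_lit 94) (PT.lf (nat_lit 13104) (nat_lit 6)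 (nat_lit 156) (nat_lit 0) (nat_lit 75) (nat_lit 67) (nat_lit 47)) (PT.lf (nat_lit 12432) (nat_lit 6) (nat_lit 148) (nat_lit 0) (nat_lit 76) (nat_lit 67) (nat_lit 46)))))) (PT.nd (nat_lit 56682) (PT.nd (nat_lit 56306) (PT.nd (nat_lit 56118) (PT.nd (nat_lit 94) (PT.lf (nat_lit 11760) (nat_lit 6) (nat_lit 140) (nat_lit 0) (nat_lit 77) (nat_lit 67) (nat_lit 45)) (PT.lf (nat_lit 11088) (nat_lit 6) (nat_lit 132) (nat_lit 0) (nat_lit 78) (nat_lit 67) (nat_lit 44))) (PT.nd (nat_lit 94) (PT.lf (nat_lit 10500) (nat_lit 6) (nat_lit 125) (nat_lit 5) (nat_lit 43) (nat_lit 68) (nat_lit 78)) (PT.lf (nat_lit 11172) (nat_lit 6) (nat_lit 133) (nat_lit 5) (nat_lit 44) (nat_lit 68) (nat_lit 77)))) (PT.nd (nat_lit 188) (PT.nd (nat_lit 94) (PT.lf (nat_lit 11844) (nat_lit 6) (nat_lit 141) (nat_lit 5) (nat_lit 45) (nat_lit 68) (nat_lit 76)) (PT.lf (nat_lit 12516) (nat_lit 6) (nat_lit 149) (nat_lit 5) (nat_lit 46) (nat_lit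 68) (nat_lit 75))) (PT.nd (nat_lit 94) (PT.lf (nat_lit 13188) (nat_lit 6) (nat_lit 157) (nat_lit 5) (nat_lit 47) (nat_lit 68) (nat_lit 74)) (PT.lf (nat_lit 14532) (nat_lit 6) (nat_lit 173) (nat_lit 5) (nat_lit 48) (nat_lit 68) (nat_lit 73))))) (PT.nd (nat_lit 376) (PT.nd (nat_lit 188) (PT.nd (nat_lit 94) (PT.lf (nat_lit 15792) (nat_lit 6) (nat_lit 188) (nat_lit 5) (nat_lit 49) (nat_lit 68) (nat_lit 72)) (PT.lf (nat_lit 16968) (nat_lit 6) (nat_lit 202) (nat_lit 5) (nat_lit 50) (nat_lit 68) (nat_lit 71))) (PT.nd (nat_lit 94) (PT.lf (nat_lit 18060) (nat_lit 6) (nat_lit 215) (nat_lit 5) (nat_lit 51) (nat_lit 68) (nat_lit 70)) (PT.lf (nat_lit 19068) (nat_lit 6) (nat_lit 227) (nat_lit 5) (nat_lit 52) (nat_lit 68) (nat_lit 69)))) (PT.nd (nat_lit 188) (PT.nd (nat_lit 94) (PT.lf (nat_lit 19992) (nat_lit 3) (nat_lit 238) (nat_lit 4) (nat_lit 53) (nat_lit 68) (nat_lit 68)) (PT.lf (nat_lit 20748) (nat_lit 6)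 (nat_lit 247) (nat_lit 4) (nat_lit 54) (nat_lit 68) (nat_lit 67))) (PT.nd (nat_lit 94) (PT.lf (nat_lit 21420) (nat_lit 6) (nat_lit 255) (nat_lit 4) (nat_lit 55) (nat_lit 68) (nat_lit 66)) (PT.lf (nat_lit 22008) (nat_lit 6) (nat_lit 262) (nat_lit 4) (nat_lit 56) (nat_lit 68) (nat_lit 65)))))))
noncomputable def pc18 : PT := (PT.nd (nat_lit 1504) (PT.nd (nat_lit 752) (PT.nd (nat_lit 376) (PT.nd (nat_lit 188) (PT.nd (nat_lit 94) (PT.lf (nat_lit 22512) (nat_lit 6) (nat_lit 268) (nat_lit 4) (nat_lit 57) (nat_lit 68) (nat_lit 64)) (PT.lf (nat_lit 22932) (nat_lit 6) (nat_lit 273) (nat_lit 4) (nat_lit 58) (nat_lit 68) (nat_lit 63))) (PT.nd (nat_lit 94) (PT.lf (nat_lit 22848) (nat_lit 6) (nat_lit 272) (nat_lit 4) (nat_lit 59) (nat_lit 68) (nat_lit 62)) (PT.lf (nat_lit 22764) (nat_lit 6) (nat_lit 271) (nat_lit 4) (nat_lit 60) (nat_lit 68) (nat_lit 61)))) (PT.nd (nat_lit 188) (PT.nd (nat_lit 94) (PT.lf (nat_lit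 22764) (nat_lit 6) (nat_lit 271) (nat_lit 2) (nat_lit 61) (nat_lit 68) (nat_lit 60)) (PT.lf (nat_lit 22848) (nat_lit 6) (nat_lit 272) (nat_lit 2) (nat_lit 62) (nat_lit 68) (nat_lit 59))) (PT.nd (nat_lit 94) (PT.lf (nat_lit 22932) (nat_lit 6) (nat_lit 273) (nat_lit 2) (nat_lit 63) (nat_lit 68) (nat_lit 58)) (PT.lf (nat_lit 22512) (nat_lit 6) (nat_lit 268) (nat_lit 2) (nat_lit 64) (nat_lit 68) (nat_lit 57))))) (PT.nd (nat_lit 376) (PT.nd (nat_lit 188) (PT.nd (nat_lit 94) (PT.lf (nat_lit 22008) (nat_lit 6) (nat_lit 262) (nat_lit 2) (nat_lit 65) (nat_lit 68) (nat_lit 56)) (PT.lf (nat_lit 21420) (nat_lit 6) (nat_lit 255) (nat_lit 2) (nat_lit 66) (nat_lit 68) (nat_lit 55))) (PT.nd (nat_lit 94) (PT.lf (nat_lit 20748) (nat_lit 6) (nat_lit 247) (nat_lit 2) (nat_lit 67) (nat_lit 68) (nat_lit 54)) (PT.lf (nat_lit 19992) (nat_lit 3) (nat_lit 238) (nat_lit 0) (nat_lit 68) (nat_lit 68) (nat_lit 53)))) (PT.nd (nat_lit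 188) (PT.nd (nat_lit 94) (PT.lf (nat_lit 19068) (nat_lit 6) (nat_lit 227) (nat_lit 0) (nat_lit 69) (nat_lit 68) (nat_lit 52)) (PT.lf (nat_lit 18060) (nat_lit 6) (nat_lit 215) (nat_lit 0) (nat_lit 70) (nat_lit 68) (nat_lit 51))) (PT.nd (nat_lit 94) (PT.lf (nat_lit 16968) (nat_lit 6) (nat_lit 202) (nat_lit 0) (nat_lit 71) (nat_lit 68) (nat_lit 50)) (PT.lf (nat_lit 15792) (nat_lit 6) (nat_lit 188) (nat_lit 0) (nat_lit 72) (nat_lit 68) (nat_lit 49)))))) (PT.nd (nat_lit 56588) (PT.nd (nat_lit 376) (PT.nd (nat_lit 188) (PT.nd (nat_lit 94) (PT.lf (nat_lit 14532) (nat_lit 6) (nat_lit 173) (nat_lit 0) (nat_lit 73) (nat_lit 68) (nat_lit 48)) (PT.lf (nat_lit 13188) (nat_lit 6) (nat_lit 157) (nat_lit 0) (nat_lit 74) (nat_lit 68) (nat_lit 47))) (PT.nd (nat_lit 94) (PT.lf (nat_lit 12516) (nat_lit 6) (nat_lit 149) (nat_lit 0) (nat_lit 75) (nat_lit 68) (nat_lit 46)) (PT.lf (nat_lit 11844) (nat_lit 6) (nat_lit 141)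 (nat_lit 0) (nat_lit 76) (nat_lit 68) (nat_lit 45)))) (PT.nd (nat_lit 56024) (PT.nd (nat_lit 94) (PT.lf (nat_lit 11172) (nat_lit 6) (nat_lit 133) (nat_lit 0) (nat_lit 77) (nat_lit 68) (nat_lit 44)) (PT.lf (nat_lit 10500) (nat_lit 6) (nat_lit 125) (nat_lit 0) (nat_lit 78) (nat_lit 68) (nat_lit 43))) (PT.nd (nat_lit 94) (PT.lf (nat_lit 9996) (nat_lit 6) (nat_lit 119) (nat_lit 5) (nat_lit 42) (nat_lit 69) (nat_lit 78)) (PT.lf (nat_lit 10584) (nat_lit 6) (nat_lit 126) (nat_lit 5) (nat_lit 43) (nat_lit 69) (nat_lit 77))))) (PT.nd (nat_lit 376) (PT.nd (nat_lit 188) (PT.nd (nat_lit 94) (PT.lf (nat_lit 11256) (nat_lit 6) (nat_lit 134) (nat_lit 5) (nat_lit 44) (nat_lit 69) (nat_lit 76)) (PT.lf (nat_lit 11928) (nat_lit 6) (nat_lit 142) (nat_lit 5) (nat_lit 45) (nat_lit 69) (nat_lit 75))) (PT.nd (nat_lit 94) (PT.lf (nat_lit 12600) (nat_lit 6) (nat_lit 150) (nat_lit 5) (nat_lit 46) (nat_lit 69) (nat_lit 74))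 (PT.lf (nat_lit 13272) (nat_lit 6) (nat_lit 158) (nat_lit 5) (nat_lit 47) (nat_lit 69) (nat_lit 73)))) (PT.nd (nat_lit 188) (PT.nd (nat_lit 94) (PT.lf (nat_lit 14616) (nat_lit 6) (nat_lit 174) (nat_lit 5) (nat_lit 48) (nat_lit 69) (nat_lit 72)) (PT.lf (nat_lit 15876) (nat_lit 6) (nat_lit 189) (nat_lit 5) (nat_lit 49) (nat_lit 69) (nat_lit 71))) (PT.nd (nat_lit 94) (PT.lf (nat_lit 17052) (nat_lit 6) (nat_lit 203) (nat_lit 5) (nat_lit 50) (nat_lit 69) (nat_lit 70)) (PT.nd (nat_lit 94) (PT.lf (nat_lit 18144) (nat_lit 3) (nat_lit 216) (nat_lit 4) (nat_lit 51) (nat_lit 69) (nat_lit 69)) (PT.lf (nat_lit 19068) (nat_lit 6) (nat_lit 227) (nat_lit 4) (nat_lit 52) (nat_lit 69) (nat_lit 68))))))))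
noncomputable def pc19 : PT := (PT.nd (nat_lit 1504) (PT.nd (nat_lit 752) (PT.nd (nat_lit 376) (PT.nd (nat_lit 188) (PT.nd (nat_lit 94) (PT.lf (nat_lit 19908) (nat_lit 6) (nat_lit 237) (nat_lit 4) (nat_lit 53) (nat_lit 69) (nat_lit 67)) (PT.lf (nat_lit 20664) (nat_lit 6) (nat_lit 246) (nat_lit 4) (nat_lit 54) (nat_lit 69) (nat_lit 66))) (PT.nd (nat_lit 94) (PT.lf (nat_lit 21336) (nat_lit 6) (nat_lit 254) (nat_lit 4) (nat_lit 55) (nat_lit 69) (nat_lit 65)) (PT.lf (nat_lit 21924) (nat_lit 6) (nat_lit 261) (nat_lit 4) (nat_lit 56) (nat_lit 69) (nat_lit 64)))) (PT.nd (nat_lit 188) (PT.nd (nat_lit 94) (PT.lf (nat_lit 22428) (nat_lit 6) (nat_lit 267) (nat_lit 4) (nat_lit 57) (nat_lit 69) (nat_lit 63)) (PT.lf (nat_lit 22344) (nat_lit 6) (nat_lit 266) (nat_lit 4) (nat_lit 58) (nat_lit 69) (nat_lit 62))) (PT.nd (nat_lit 94) (PT.lf (nat_lit 22260) (nat_lit 6) (nat_lit 265) (nat_lit 4) (nat_lit 59) (nat_lit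 69) (nat_lit 61)) (PT.lf (nat_lit 22176) (nat_lit 3) (nat_lit 264) (nat_lit 2) (nat_lit 60) (nat_lit 69) (nat_lit 60))))) (PT.nd (nat_lit 376) (PT.nd (nat_lit 188) (PT.nd (nat_lit 94) (PT.lf (nat_lit 22260) (nat_lit 6) (nat_lit 265) (nat_lit 2) (nat_lit 61) (nat_lit 69) (nat_lit 59)) (PT.lf (nat_lit 22344) (nat_lit 6) (nat_lit 266) (nat_lit 2) (nat_lit 62) (nat_lit 69) (nat_lit 58))) (PT.nd (nat_lit 94) (PT.lf (nat_lit 22428) (nat_lit 6) (nat_lit 267) (nat_lit 2) (nat_lit 63) (nat_lit 69) (nat_lit 57)) (PT.lf (nat_lit 21924) (nat_lit 6) (nat_lit 261) (nat_lit 2) (nat_lit 64) (nat_lit 69) (nat_lit 56)))) (PT.nd (nat_lit 188) (PT.nd (nat_lit 94) (PT.lf (nat_lit 21336) (nat_lit 6) (nat_lit 254) (nat_lit 2) (nat_lit 65) (nat_lit 69) (nat_lit 55)) (PT.lf (nat_lit 20664) (nat_lit 6) (nat_lit 246) (nat_lit 2) (nat_lit 66) (nat_lit 69) (nat_lit 54))) (PT.nd (nat_lit 94) (PT.lf (nat_lit 19908) (nat_lit 6)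 (nat_lit 237) (nat_lit 2) (nat_lit 67) (nat_lit 69) (nat_lit 53)) (PT.lf (nat_lit 19068) (nat_lit 6) (nat_lit 227) (nat_lit 2) (nat_lit 68) (nat_lit 69) (nat_lit 52)))))) (PT.nd (nat_lit 752) (PT.nd (nat_lit 376) (PT.nd (nat_lit 188) (PT.nd (nat_lit 94) (PT.lf (nat_lit 18144) (nat_lit 3) (nat_lit 216) (nat_lit 0) (nat_lit 69) (nat_lit 69) (nat_lit 51)) (PT.lf (nat_lit 17052) (nat_lit 6) (nat_lit 203) (nat_lit 0) (nat_lit 70) (nat_lit 69) (nat_lit 50))) (PT.nd (nat_lit 94) (PT.lf (nat_lit 15876) (nat_lit 6) (nat_lit 189) (nat_lit 0) (nat_lit 71) (nat_lit 69) (nat_lit 49)) (PT.lf (nat_lit 14616) (nat_lit 6) (nat_lit 174) (nat_lit 0) (nat_lit 72) (nat_lit 69) (nat_lit 48)))) (PT.nd (nat_lit 188) (PT.nd (nat_lit 94) (PT.lf (nat_lit 13272) (nat_lit 6) (nat_lit 158) (nat_lit 0) (nat_lit 73) (nat_lit 69) (nat_lit 47)) (PT.lf (nat_lit 12600) (nat_lit 6) (nat_lit 150) (nat_lit 0) (nat_lit 74) (nat_lit 69)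 (nat_lit 46))) (PT.nd (nat_lit 94) (PT.lf (nat_lit 11928) (nat_lit 6) (nat_lit 142) (nat_lit 0) (nat_lit 75) (nat_lit 69) (nat_lit 45)) (PT.lf (nat_lit 11256) (nat_lit 6) (nat_lit 134) (nat_lit 0) (nat_lit 76) (nat_lit 69) (nat_lit 44))))) (PT.nd (nat_lit 56118) (PT.nd (nat_lit 55930) (PT.nd (nat_lit 94) (PT.lf (nat_lit 10584) (nat_lit 6) (nat_lit 126) (nat_lit 0) (nat_lit 77) (nat_lit 69) (nat_lit 43)) (PT.lf (nat_lit 9996) (nat_lit 6) (nat_lit 119) (nat_lit 0) (nat_lit 78) (nat_lit 69) (nat_lit 42))) (PT.nd (nat_lit 94) (PT.lf (nat_lit 9492) (nat_lit 6) (nat_lit 113) (nat_lit 5) (nat_lit 41) (nat_lit 70) (nat_lit 78)) (PT.lf (nat_lit 10080) (nat_lit 6) (nat_lit 120) (nat_lit 5) (nat_lit 42) (nat_lit 70) (nat_lit 77)))) (PT.nd (nat_lit 188) (PT.nd (nat_lit 94) (PT.lf (nat_lit 10668) (nat_lit 6) (nat_lit 127) (nat_lit 5) (nat_lit 43) (nat_lit 70) (nat_lit 76)) (PT.lf (nat_lit 11340) (nat_lit 6) (nat_lit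 135) (nat_lit 5) (nat_lit 44) (nat_lit 70) (nat_lit 75))) (PT.nd (nat_lit 94) (PT.lf (nat_lit 12012) (nat_lit 6) (nat_lit 143) (nat_lit 5) (nat_lit 45) (nat_lit 70) (nat_lit 74)) (PT.lf (nat_lit 12684) (nat_lit 6) (nat_lit 151) (nat_lit 5) (nat_lit 46) (nat_lit 70) (nat_lit 73)))))))
noncomputable def pc20 : PT := (PT.nd (nat_lit 1504) (PT.nd (nat_lit 752) (PT.nd (nat_lit 376) (PT.nd (nat_lit 188) (PT.nd (nat_lit 94) (PT.lf (nat_lit 13356) (nat_lit 6) (nat_lit 159) (nat_lit 5) (nat_lit 47) (nat_lit 70) (nat_lit 72)) (PT.lf (nat_lit 14700) (nat_lit 6) (nat_lit 175) (nat_lit 5) (nat_lit 48) (nat_lit 70) (nat_lit 71))) (PT.nd (nat_lit 94) (PT.lf (nat_lit 15960) (nat_lit 3) (nat_lit 190) (nat_lit 4) (nat_lit 49) (nat_lit 70) (nat_lit 70)) (PT.lf (nat_lit 17052) (nat_lit 6) (nat_lit 203) (nat_lit 4) (nat_lit 50) (nat_lit 70) (nat_lit 69)))) (PT.nd (nat_lit 188) (PT.nd (nat_lit 94) (PT.lf (nat_lit 18060)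 (nat_lit 6) (nat_lit 215) (nat_lit 4) (nat_lit 51) (nat_lit 70) (nat_lit 68)) (PT.lf (nat_lit 18984) (nat_lit 6) (nat_lit 226) (nat_lit 4) (nat_lit 52) (nat_lit 70) (nat_lit 67))) (PT.nd (nat_lit 94) (PT.lf (nat_lit 19824) (nat_lit 6) (nat_lit 236) (nat_lit 4) (nat_lit 53) (nat_lit 70) (nat_lit 66)) (PT.lf (nat_lit 20580) (nat_lit 6) (nat_lit 245) (nat_lit 4) (nat_lit 54) (nat_lit 70) (nat_lit 65))))) (PT.nd (nat_lit 376) (PT.nd (nat_lit 188) (PT.nd (nat_lit 94) (PT.lf (nat_lit 21252) (nat_lit 6) (nat_lit 253) (nat_lit 4) (nat_lit 55) (nat_lit 70) (nat_lit 64)) (PT.lf (nat_lit 21840) (nat_lit 6) (nat_lit 260) (nat_lit 4) (nat_lit 56) (nat_lit 70) (nat_lit 63))) (PT.nd (nat_lit 94) (PT.lf (nat_lit 21756) (nat_lit 6) (nat_lit 259) (nat_lit 4) (nat_lit 57) (nat_lit 70) (nat_lit 62)) (PT.lf (nat_lit 21672) (nat_lit 6) (nat_lit 258) (nat_lit 4) (nat_lit 58) (nat_lit 70) (nat_lit 61)))) (PT.nd (nat_lit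 188) (PT.nd (nat_lit 94) (PT.lf (nat_lit 21588) (nat_lit 6) (nat_lit 257) (nat_lit 4) (nat_lit 59) (nat_lit 70) (nat_lit 60)) (PT.lf (nat_lit 21588) (nat_lit 6) (nat_lit 257) (nat_lit 2) (nat_lit 60) (nat_lit 70) (nat_lit 59))) (PT.nd (nat_lit 94) (PT.lf (nat_lit 21672) (nat_lit 6) (nat_lit 258) (nat_lit 2) (nat_lit 61) (nat_lit 70) (nat_lit 58)) (PT.lf (nat_lit 21756) (nat_lit 6) (nat_lit 259) (nat_lit 2) (nat_lit 62) (nat_lit 70) (nat_lit 57)))))) (PT.nd (nat_lit 752) (PT.nd (nat_lit 376) (PT.nd (nat_lit 188) (PT.nd (nat_lit 94) (PT.lf (nat_lit 21840) (nat_lit 6) (nat_lit 260) (nat_lit 2) (nat_lit 63) (nat_lit 70) (nat_lit 56)) (PT.lf (nat_lit 21252) (nat_lit 6) (nat_lit 253) (nat_lit 2) (nat_lit 64) (nat_lit 70) (nat_lit 55))) (PT.nd (nat_lit 94) (PT.lf (nat_lit 20580) (nat_lit 6) (nat_lit 245) (nat_lit 2) (nat_lit 65) (nat_lit 70) (nat_lit 54)) (PT.lf (nat_lit 19824) (nat_lit 6) (nat_lit 236)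 (nat_lit 2) (nat_lit 66) (nat_lit 70) (nat_lit 53)))) (PT.nd (nat_lit 188) (PT.nd (nat_lit 94) (PT.lf (nat_lit 18984) (nat_lit 6) (nat_lit 226) (nat_lit 2) (nat_lit 67) (nat_lit 70) (nat_lit 52)) (PT.lf (nat_lit 18060) (nat_lit 6) (nat_lit 215) (nat_lit 2) (nat_lit 68) (nat_lit 70) (nat_lit 51))) (PT.nd (nat_lit 94) (PT.lf (nat_lit 17052) (nat_lit 6) (nat_lit 203) (nat_lit 2) (nat_lit 69) (nat_lit 70) (nat_lit 50)) (PT.lf (nat_lit 15960) (nat_lit 3) (nat_lit 190) (nat_lit 0) (nat_lit 70) (nat_lit 70) (nat_lit 49))))) (PT.nd (nat_lit 376) (PT.nd (nat_lit 188) (PT.nd (nat_lit 94) (PT.lf (nat_lit 14700) (nat_lit 6) (nat_lit 175) (nat_lit 0) (nat_lit 71) (nat_lit 70) (nat_lit 48)) (PT.lf (nat_lit 13356) (nat_lit 6) (nat_lit 159) (nat_lit 0) (nat_lit 72) (nat_lit 70) (nat_lit 47))) (PT.nd (nat_lit 94) (PT.lf (nat_lit 12684) (nat_lit 6) (nat_lit 151) (nat_lit 0) (nat_lit 73) (nat_lit 70) (nat_lit 46)) (PT.lf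 (nat_lit 12012) (nat_lit 6) (nat_lit 143) (nat_lit 0) (nat_lit 74) (nat_lit 70) (nat_lit 45)))) (PT.nd (nat_lit 188) (PT.nd (nat_lit 94) (PT.lf (nat_lit 11340) (nat_lit 6) (nat_lit 135) (nat_lit 0) (nat_lit 75) (nat_lit 70) (nat_lit 44)) (PT.lf (nat_lit 10668) (nat_lit 6) (nat_lit 127) (nat_lit 0) (nat_lit 76) (nat_lit 70) (nat_lit 43))) (PT.nd (nat_lit 94) (PT.lf (nat_lit 10080) (nat_lit 6) (nat_lit 120) (nat_lit 0) (nat_lit 77) (nat_lit 70) (nat_lit 42)) (PT.nd (nat_lit 55742) (PT.lf (nat_lit 9492) (nat_lit 6) (nat_lit 113) (nat_lit 0) (nat_lit 78) (nat_lit 70) (nat_lit 41)) (PT.lf (nat_lit 9072) (nat_lit 6) (nat_lit 108) (nat_lit 5) (nat_lit 40) (nat_lit 71) (nat_lit 78))))))))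
noncomputable def pc21 : PT := (PT.nd (nat_lit 1504) (PT.nd (nat_lit 752) (PT.nd (nat_lit 376) (PT.nd (nat_lit 188) (PT.nd (nat_lit 94) (PT.lf (nat_lit 9576) (nat_lit 6) (nat_lit 114) (nat_lit 5) (nat_lit 41) (nat_lit 71) (nat_lit 77)) (PT.lf (nat_lit 10164) (nat_lit 6) (nat_lit 121) (nat_lit 5) (nat_lit 42) (nat_lit 71) (nat_lit 76))) (PT.nd (nat_lit 94) (PT.lf (nat_lit 10752) (nat_lit 6) (nat_lit 128) (nat_lit 5) (nat_lit 43) (nat_lit 71) (nat_lit 75)) (PT.lf (nat_lit 11424) (nat_lit 6) (nat_lit 136) (nat_lit 5) (nat_lit 44) (nat_lit 71) (nat_lit 74)))) (PT.nd (nat_lit 188) (PT.nd (nat_lit 94) (PT.lf (nat_lit 12096) (nat_lit 6) (nat_lit 144) (nat_lit 5) (nat_lit 45) (nat_lit 71) (nat_lit 73)) (PT.lf (nat_lit 12768) (nat_lit 6) (nat_lit 152) (nat_lit 5) (nat_lit 46) (nat_lit 71) (nat_lit 72))) (PT.nd (nat_lit 94) (PT.lf (nat_lit 13440) (nat_lit 3) (nat_lit 160) (nat_lit 4) (nat_lit 47) (nat_lit 71)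 (nat_lit 71)) (PT.lf (nat_lit 14700) (nat_lit 6) (nat_lit 175) (nat_lit 4) (nat_lit 48) (nat_lit 71) (nat_lit 70))))) (PT.nd (nat_lit 376) (PT.nd (nat_lit 188) (PT.nd (nat_lit 94) (PT.lf (nat_lit 15876) (nat_lit 6) (nat_lit 189) (nat_lit 4) (nat_lit 49) (nat_lit 71) (nat_lit 69)) (PT.lf (nat_lit 16968) (nat_lit 6) (nat_lit 202) (nat_lit 4) (nat_lit 50) (nat_lit 71) (nat_lit 68))) (PT.nd (nat_lit 94) (PT.lf (nat_lit 17976) (nat_lit 6) (nat_lit 214) (nat_lit 4) (nat_lit 51) (nat_lit 71) (nat_lit 67)) (PT.lf (nat_lit 18900) (nat_lit 6) (nat_lit 225) (nat_lit 4) (nat_lit 52) (nat_lit 71) (nat_lit 66)))) (PT.nd (nat_lit 188) (PT.nd (nat_lit 94) (PT.lf (nat_lit 19740) (nat_lit 6) (nat_lit 235) (nat_lit 4) (nat_lit 53) (nat_lit 71) (nat_lit 65)) (PT.lf (nat_lit 20496) (nat_lit 6) (nat_lit 244) (nat_lit 4) (nat_lit 54) (nat_lit 71) (nat_lit 64))) (PT.nd (nat_lit 94) (PT.lf (nat_lit 21168) (nat_lit 6) (nat_lit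 252) (nat_lit 4) (nat_lit 55) (nat_lit 71) (nat_lit 63)) (PT.lf (nat_lit 21084) (nat_lit 6) (nat_lit 251) (nat_lit 4) (nat_lit 56) (nat_lit 71) (nat_lit 62)))))) (PT.nd (nat_lit 752) (PT.nd (nat_lit 376) (PT.nd (nat_lit 188) (PT.nd (nat_lit 94) (PT.lf (nat_lit 21000) (nat_lit 6) (nat_lit 250) (nat_lit 4) (nat_lit 57) (nat_lit 71) (nat_lit 61)) (PT.lf (nat_lit 20916) (nat_lit 6) (nat_lit 249) (nat_lit 4) (nat_lit 58) (nat_lit 71) (nat_lit 60))) (PT.nd (nat_lit 94) (PT.lf (nat_lit 20832) (nat_lit 3) (nat_lit 248) (nat_lit 2) (nat_lit 59) (nat_lit 71) (nat_lit 59)) (PT.lf (nat_lit 20916) (nat_lit 6) (nat_lit 249) (nat_lit 2) (nat_lit 60) (nat_lit 71) (nat_lit 58)))) (PT.nd (nat_lit 188) (PT.nd (nat_lit 94) (PT.lf (nat_lit 21000) (nat_lit 6) (nat_lit 250) (nat_lit 2) (nat_lit 61) (nat_lit 71) (nat_lit 57)) (PT.lf (nat_lit 21084) (nat_lit 6) (nat_lit 251) (nat_lit 2) (nat_lit 62) (nat_lit 71) (nat_lit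 56))) (PT.nd (nat_lit 94) (PT.lf (nat_lit 21168) (nat_lit 6) (nat_lit 252) (nat_lit 2) (nat_lit 63) (nat_lit 71) (nat_lit 55)) (PT.lf (nat_lit 20496) (nat_lit 6) (nat_lit 244) (nat_lit 2) (nat_lit 64) (nat_lit 71) (nat_lit 54))))) (PT.nd (nat_lit 376) (PT.nd (nat_lit 188) (PT.nd (nat_lit 94) (PT.lf (nat_lit 19740) (nat_lit 6) (nat_lit 235) (nat_lit 2) (nat_lit 65) (nat_lit 71) (nat_lit 53)) (PT.lf (nat_lit 18900) (nat_lit 6) (nat_lit 225) (nat_lit 2) (nat_lit 66) (nat_lit 71) (nat_lit 52))) (PT.nd (nat_lit 94) (PT.lf (nat_lit 17976) (nat_lit 6) (nat_lit 214) (nat_lit 2) (nat_lit 67) (nat_lit 71) (nat_lit 51)) (PT.lf (nat_lit 16968) (nat_lit 6) (nat_lit 202) (nat_lit 2) (nat_lit 68) (nat_lit 71) (nat_lit 50)))) (PT.nd (nat_lit 188) (PT.nd (nat_lit 94) (PT.lf (nat_lit 15876) (nat_lit 6) (nat_lit 189) (nat_lit 2) (nat_lit 69) (nat_lit 71) (nat_lit 49)) (PT.lf (nat_lit 14700) (nat_lit 6) (nat_lit 175)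 (nat_lit 2) (nat_lit 70) (nat_lit 71) (nat_lit 48))) (PT.nd (nat_lit 94) (PT.lf (nat_lit 13440) (nat_lit 3) (nat_lit 160) (nat_lit 0) (nat_lit 71) (nat_lit 71) (nat_lit 47)) (PT.lf (nat_lit 12768) (nat_lit 6) (nat_lit 152) (nat_lit 0) (nat_lit 72) (nat_lit 71) (nat_lit 46)))))))
noncomputable def pc22 : PT := (PT.nd (nat_lit 57058) (PT.nd (nat_lit 56306) (PT.nd (nat_lit 376) (PT.nd (nat_lit 188) (PT.nd (nat_lit 94) (PT.lf (nat_lit 12096) (nat_lit 6) (nat_lit 144) (nat_lit 0) (nat_lit 73) (nat_lit 71) (nat_lit 45)) (PT.lf (nat_lit 11424) (nat_lit 6) (nat_lit 136) (nat_lit 0) (nat_lit 74) (nat_lit 71) (nat_lit 44))) (PT.nd (nat_lit 94) (PT.lf (nat_lit 10752) (nat_lit 6) (nat_lit 128) (nat_lit 0) (nat_lit 75) (nat_lit 71) (nat_lit 43)) (PT.lf (nat_lit 10164) (nat_lit 6) (nat_lit 121) (nat_lit 0) (nat_lit 76) (nat_lit 71) (nat_lit 42)))) (PT.nd (nat_lit 55742) (PT.nd (nat_lit 94) (PT.lf (nat_lit 9576)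 (nat_lit 6) (nat_lit 114) (nat_lit 0) (nat_lit 77) (nat_lit 71) (nat_lit 41)) (PT.lf (nat_lit 9072) (nat_lit 6) (nat_lit 108) (nat_lit 0) (nat_lit 78) (nat_lit 71) (nat_lit 40))) (PT.nd (nat_lit 94) (PT.lf (nat_lit 8568) (nat_lit 6) (nat_lit 102) (nat_lit 5) (nat_lit 39) (nat_lit 72) (nat_lit 78)) (PT.lf (nat_lit 9156) (nat_lit 6) (nat_lit 109) (nat_lit 5) (nat_lit 40) (nat_lit 72) (nat_lit 77))))) (PT.nd (nat_lit 376) (PT.nd (nat_lit 188) (PT.nd (nat_lit 94) (PT.lf (nat_lit 9660) (nat_lit 6) (nat_lit 115) (nat_lit 5) (nat_lit 41) (nat_lit 72) (nat_lit 76)) (PT.lf (nat_lit 10248) (nat_lit 6) (nat_lit 122) (nat_lit 5) (nat_lit 42) (nat_lit 72) (nat_lit 75))) (PT.nd (nat_lit 94) (PT.lf (nat_lit 10836) (nat_lit 6) (nat_lit 129) (nat_lit 5) (nat_lit 43) (nat_lit 72) (nat_lit 74)) (PT.lf (nat_lit 11508) (nat_lit 6) (nat_lit 137) (nat_lit 5) (nat_lit 44) (nat_lit 72) (nat_lit 73)))) (PT.nd (nat_lit 188)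 (PT.nd (nat_lit 94) (PT.lf (nat_lit 12180) (nat_lit 3) (nat_lit 145) (nat_lit 4) (nat_lit 45) (nat_lit 72) (nat_lit 72)) (PT.lf (nat_lit 12768) (nat_lit 6) (nat_lit 152) (nat_lit 4) (nat_lit 46) (nat_lit 72) (nat_lit 71))) (PT.nd (nat_lit 94) (PT.lf (nat_lit 13356) (nat_lit 6) (nat_lit 159) (nat_lit 4) (nat_lit 47) (nat_lit 72) (nat_lit 70)) (PT.lf (nat_lit 14616) (nat_lit 6) (nat_lit 174) (nat_lit 4) (nat_lit 48) (nat_lit 72) (nat_lit 69)))))) (PT.nd (nat_lit 752) (PT.nd (nat_lit 376) (PT.nd (nat_lit 188) (PT.nd (nat_lit 94) (PT.lf (nat_lit 15792) (nat_lit 6) (nat_lit 188) (nat_lit 4) (nat_lit 49) (nat_lit 72) (nat_lit 68)) (PT.lf (nat_lit 16884) (nat_lit 6) (nat_lit 201) (nat_lit 4) (nat_lit 50) (nat_lit 72) (nat_lit 67))) (PT.nd (nat_lit 94) (PT.lf (nat_lit 17892) (nat_lit 6) (nat_lit 213) (nat_lit 4) (nat_lit 51) (nat_lit 72) (nat_lit 66)) (PT.lf (nat_lit 18816) (nat_lit 6) (nat_lit 224) (nat_lit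 4) (nat_lit 52) (nat_lit 72) (nat_lit 65)))) (PT.nd (nat_lit 188) (PT.nd (nat_lit 94) (PT.lf (nat_lit 19656) (nat_lit 6) (nat_lit 234) (nat_lit 4) (nat_lit 53) (nat_lit 72) (nat_lit 64)) (PT.lf (nat_lit 20412) (nat_lit 6) (nat_lit 243) (nat_lit 4) (nat_lit 54) (nat_lit 72) (nat_lit 63))) (PT.nd (nat_lit 94) (PT.lf (nat_lit 20328) (nat_lit 6) (nat_lit 242) (nat_lit 4) (nat_lit 55) (nat_lit 72) (nat_lit 62)) (PT.lf (nat_lit 20244) (nat_lit 6) (nat_lit 241) (nat_lit 4) (nat_lit 56) (nat_lit 72) (nat_lit 61))))) (PT.nd (nat_lit 376) (PT.nd (nat_lit 188) (PT.nd (nat_lit 94) (PT.lf (nat_lit 20160) (nat_lit 6) (nat_lit 240) (nat_lit 4) (nat_lit 57) (nat_lit 72) (nat_lit 60)) (PT.lf (nat_lit 20076) (nat_lit 6) (nat_lit 239) (nat_lit 4) (nat_lit 58) (nat_lit 72) (nat_lit 59))) (PT.nd (nat_lit 94) (PT.lf (nat_lit 20076) (nat_lit 6) (nat_lit 239) (nat_lit 2) (nat_lit 59) (nat_lit 72) (nat_lit 58)) (PT.lf (nat_lit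 20160) (nat_lit 6) (nat_lit 240) (nat_lit 2) (nat_lit 60) (nat_lit 72) (nat_lit 57)))) (PT.nd (nat_lit 188) (PT.nd (nat_lit 94) (PT.lf (nat_lit 20244) (nat_lit 6) (nat_lit 241) (nat_lit 2) (nat_lit 61) (nat_lit 72) (nat_lit 56)) (PT.lf (nat_lit 20328) (nat_lit 6) (nat_lit 242) (nat_lit 2) (nat_lit 62) (nat_lit 72) (nat_lit 55))) (PT.nd (nat_lit 94) (PT.lf (nat_lit 20412) (nat_lit 6) (nat_lit 243) (nat_lit 2) (nat_lit 63) (nat_lit 72) (nat_lit 54)) (PT.nd (nat_lit 94) (PT.lf (nat_lit 19656) (nat_lit 6) (nat_lit 234) (nat_lit 2) (nat_lit 64) (nat_lit 72) (nat_lit 53)) (PT.lf (nat_lit 18816) (nat_lit 6) (nat_lit 224) (nat_lit 2) (nat_lit 65) (nat_lit 72) (nat_lit 52))))))))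
noncomputable def pc23 : PT := (PT.nd (nat_lit 56964) (PT.nd (nat_lit 752) (PT.nd (nat_lit 376) (PT.nd (nat_lit 188) (PT.nd (nat_lit 94) (PT.lf (nat_lit 17892) (nat_lit 6) (nat_lit 213) (nat_lit 2) (nat_lit 66) (nat_lit 72) (nat_lit 51)) (PT.lf (nat_lit 16884) (nat_lit 6) (nat_lit 201) (nat_lit 2) (nat_lit 67) (nat_lit 72) (nat_lit 50))) (PT.nd (nat_lit 94) (PT.lf (nat_lit 15792) (nat_lit 6) (nat_lit 188) (nat_lit 2) (nat_lit 68) (nat_lit 72) (nat_lit 49)) (PT.lf (nat_lit 14616) (nat_lit 6) (nat_lit 174) (nat_lit 2) (nat_lit 69) (nat_lit 72) (nat_lit 48)))) (PT.nd (nat_lit 188) (PT.nd (nat_lit 94) (PT.lf (nat_lit 13356) (nat_lit 6) (nat_lit 159) (nat_lit 2) (nat_lit 70) (nat_lit 72) (nat_lit 47)) (PT.lf (nat_lit 12768) (nat_lit 6) (nat_lit 152) (nat_lit 2) (nat_lit 71) (nat_lit 72) (nat_lit 46))) (PT.nd (nat_lit 94) (PT.lf (nat_lit 12180) (nat_lit 3) (nat_lit 145) (nat_lit 0) (nat_lit 72) (nat_lit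 72) (nat_lit 45)) (PT.lf (nat_lit 11508) (nat_lit 6) (nat_lit 137) (nat_lit 0) (nat_lit 73) (nat_lit 72) (nat_lit 44))))) (PT.nd (nat_lit 376) (PT.nd (nat_lit 188) (PT.nd (nat_lit 94) (PT.lf (nat_lit 10836) (nat_lit 6) (nat_lit 129) (nat_lit 0) (nat_lit 74) (nat_lit 72) (nat_lit 43)) (PT.lf (nat_lit 10248) (nat_lit 6) (nat_lit 122) (nat_lit 0) (nat_lit 75) (nat_lit 72) (nat_lit 42))) (PT.nd (nat_lit 94) (PT.lf (nat_lit 9660) (nat_lit 6) (nat_lit 115) (nat_lit 0) (nat_lit 76) (nat_lit 72) (nat_lit 41)) (PT.lf (nat_lit 9156) (nat_lit 6) (nat_lit 109) (nat_lit 0) (nat_lit 77) (nat_lit 72) (nat_lit 40)))) (PT.nd (nat_lit 55648) (PT.nd (nat_lit 55554) (PT.lf (nat_lit 8568) (nat_lit 6) (nat_lit 102) (nat_lit 0) (nat_lit 78) (nat_lit 72) (nat_lit 39)) (PT.lf (nat_lit 8148) (nat_lit 6) (nat_lit 97) (nat_lit 5) (nat_lit 38) (nat_lit 73) (nat_lit 78))) (PT.nd (nat_lit 94) (PT.lf (nat_lit 8652) (nat_lit 6) (nat_lit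 103) (nat_lit 5) (nat_lit 39) (nat_lit 73) (nat_lit 77)) (PT.lf (nat_lit 9240) (nat_lit 6) (nat_lit 110) (nat_lit 5) (nat_lit 40) (nat_lit 73) (nat_lit 76)))))) (PT.nd (nat_lit 752) (PT.nd (nat_lit 376) (PT.nd (nat_lit 188) (PT.nd (nat_lit 94) (PT.lf (nat_lit 9744) (nat_lit 6) (nat_lit 116) (nat_lit 5) (nat_lit 41) (nat_lit 73) (nat_lit 75)) (PT.lf (nat_lit 10332) (nat_lit 6) (nat_lit 123) (nat_lit 5) (nat_lit 42) (nat_lit 73) (nat_lit 74))) (PT.nd (nat_lit 94) (PT.lf (nat_lit 10920) (nat_lit 3) (nat_lit 130) (nat_lit 4) (nat_lit 43) (nat_lit 73) (nat_lit 73)) (PT.lf (nat_lit 11508) (nat_lit 6) (nat_lit 137) (nat_lit 4) (nat_lit 44) (nat_lit 73) (nat_lit 72)))) (PT.nd (nat_lit 188) (PT.nd (nat_lit 94) (PT.lf (nat_lit 12096) (nat_lit 6) (nat_lit 144) (nat_lit 4) (nat_lit 45) (nat_lit 73) (nat_lit 71)) (PT.lf (nat_lit 12684) (nat_lit 6) (nat_lit 151) (nat_lit 4) (nat_lit 46) (nat_lit 73) (nat_lit 70)))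 (PT.nd (nat_lit 94) (PT.lf (nat_lit 13272) (nat_lit 6) (nat_lit 158) (nat_lit 4) (nat_lit 47) (nat_lit 73) (nat_lit 69)) (PT.lf (nat_lit 14532) (nat_lit 6) (nat_lit 173) (nat_lit 4) (nat_lit 48) (nat_lit 73) (nat_lit 68))))) (PT.nd (nat_lit 376) (PT.nd (nat_lit 188) (PT.nd (nat_lit 94) (PT.lf (nat_lit 15708) (nat_lit 6) (nat_lit 187) (nat_lit 4) (nat_lit 49) (nat_lit 73) (nat_lit 67)) (PT.lf (nat_lit 16800) (nat_lit 6) (nat_lit 200) (nat_lit 4) (nat_lit 50) (nat_lit 73) (nat_lit 66))) (PT.nd (nat_lit 94) (PT.lf (nat_lit 17808) (nat_lit 6) (nat_lit 212) (nat_lit 4) (nat_lit 51) (nat_lit 73) (nat_lit 65)) (PT.lf (nat_lit 18732) (nat_lit 6) (nat_lit 223) (nat_lit 4) (nat_lit 52) (nat_lit 73) (nat_lit 64)))) (PT.nd (nat_lit 188) (PT.nd (nat_lit 94) (PT.lf (nat_lit 19572) (nat_lit 6) (nat_lit 233) (nat_lit 4) (nat_lit 53) (nat_lit 73) (nat_lit 63)) (PT.lf (nat_lit 19488) (nat_lit 6) (nat_lit 232) (nat_lit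 4) (nat_lit 54) (nat_lit 73) (nat_lit 62))) (PT.nd (nat_lit 94) (PT.lf (nat_lit 19404) (nat_lit 6) (nat_lit 231) (nat_lit 4) (nat_lit 55) (nat_lit 73) (nat_lit 61)) (PT.lf (nat_lit 19320) (nat_lit 6) (nat_lit 230) (nat_lit 4) (nat_lit 56) (nat_lit 73) (nat_lit 60)))))))
noncomputable def pc24 : PT := (PT.nd (nat_lit 1504) (PT.nd (nat_lit 752) (PT.nd (nat_lit 376) (PT.nd (nat_lit 188) (PT.nd (nat_lit 94) (PT.lf (nat_lit 19236) (nat_lit 6) (nat_lit 229) (nat_lit 4) (nat_lit 57) (nat_lit 73) (nat_lit 59)) (PT.lf (nat_lit 19152) (nat_lit 3) (nat_lit 228) (nat_lit 2) (nat_lit 58) (nat_lit 73) (nat_lit 58))) (PT.nd (nat_lit 94) (PT.lf (nat_lit 19236) (nat_lit 6) (nat_lit 229) (nat_lit 2) (nat_lit 59) (nat_lit 73) (nat_lit 57)) (PT.lf (nat_lit 19320) (nat_lit 6) (nat_lit 230) (nat_lit 2) (nat_lit 60) (nat_lit 73) (nat_lit 56)))) (PT.nd (nat_lit 188) (PT.nd (nat_lit 94) (PT.lf (nat_lit 19404) (nat_lit 6)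 (nat_lit 231) (nat_lit 2) (nat_lit 61) (nat_lit 73) (nat_lit 55)) (PT.lf (nat_lit 19488) (nat_lit 6) (nat_lit 232) (nat_lit 2) (nat_lit 62) (nat_lit 73) (nat_lit 54))) (PT.nd (nat_lit 94) (PT.lf (nat_lit 19572) (nat_lit 6) (nat_lit 233) (nat_lit 2) (nat_lit 63) (nat_lit 73) (nat_lit 53)) (PT.lf (nat_lit 18732) (nat_lit 6) (nat_lit 223) (nat_lit 2) (nat_lit 64) (nat_lit 73) (nat_lit 52))))) (PT.nd (nat_lit 376) (PT.nd (nat_lit 188) (PT.nd (nat_lit 94) (PT.lf (nat_lit 17808) (nat_lit 6) (nat_lit 212) (nat_lit 2) (nat_lit 65) (nat_lit 73) (nat_lit 51)) (PT.lf (nat_lit 16800) (nat_lit 6) (nat_lit 200) (nat_lit 2) (nat_lit 66) (nat_lit 73) (nat_lit 50))) (PT.nd (nat_lit 94) (PT.lf (nat_lit 15708) (nat_lit 6) (nat_lit 187) (nat_lit 2) (nat_lit 67) (nat_lit 73) (nat_lit 49)) (PT.lf (nat_lit 14532) (nat_lit 6) (nat_lit 173) (nat_lit 2) (nat_lit 68) (nat_lit 73) (nat_lit 48)))) (PT.nd (nat_lit 188) (PT.nd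 (nat_lit 94) (PT.lf (nat_lit 13272) (nat_lit 6) (nat_lit 158) (nat_lit 2) (nat_lit 69) (nat_lit 73) (nat_lit 47)) (PT.lf (nat_lit 12684) (nat_lit 6) (nat_lit 151) (nat_lit 2) (nat_lit 70) (nat_lit 73) (nat_lit 46))) (PT.nd (nat_lit 94) (PT.lf (nat_lit 12096) (nat_lit 6) (nat_lit 144) (nat_lit 2) (nat_lit 71) (nat_lit 73) (nat_lit 45)) (PT.lf (nat_lit 11508) (nat_lit 6) (nat_lit 137) (nat_lit 2) (nat_lit 72) (nat_lit 73) (nat_lit 44)))))) (PT.nd (nat_lit 56118) (PT.nd (nat_lit 376) (PT.nd (nat_lit 188) (PT.nd (nat_lit 94) (PT.lf (nat_lit 10920) (nat_lit 3) (nat_lit 130) (nat_lit 0) (nat_lit 73) (nat_lit 73) (nat_lit 43)) (PT.lf (nat_lit 10332) (nat_lit 6) (nat_lit 123) (nat_lit 0) (nat_lit 74) (nat_lit 73) (nat_lit 42))) (PT.nd (nat_lit 94) (PT.lf (nat_lit 9744) (nat_lit 6) (nat_lit 116) (nat_lit 0) (nat_lit 75) (nat_lit 73) (nat_lit 41)) (PT.lf (nat_lit 9240) (nat_lit 6) (nat_lit 110) (nat_lit 0)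 (nat_lit 76) (nat_lit 73) (nat_lit 40)))) (PT.nd (nat_lit 55554) (PT.nd (nat_lit 94) (PT.lf (nat_lit 8652) (nat_lit 6) (nat_lit 103) (nat_lit 0) (nat_lit 77) (nat_lit 73) (nat_lit 39)) (PT.lf (nat_lit 8148) (nat_lit 6) (nat_lit 97) (nat_lit 0) (nat_lit 78) (nat_lit 73) (nat_lit 38))) (PT.nd (nat_lit 94) (PT.lf (nat_lit 7728) (nat_lit 6) (nat_lit 92) (nat_lit 5) (nat_lit 37) (nat_lit 74) (nat_lit 78)) (PT.lf (nat_lit 8232) (nat_lit 6) (nat_lit 98) (nat_lit 5) (nat_lit 38) (nat_lit 74) (nat_lit 77))))) (PT.nd (nat_lit 376) (PT.nd (nat_lit 188) (PT.nd (nat_lit 94) (PT.lf (nat_lit 8736) (nat_lit 6) (nat_lit 104) (nat_lit 5) (nat_lit 39) (nat_lit 74) (nat_lit 76)) (PT.lf (nat_lit 9324) (nat_lit 6) (nat_lit 111) (nat_lit 5) (nat_lit 40) (nat_lit 74) (nat_lit 75))) (PT.nd (nat_lit 94) (PT.lf (nat_lit 9828) (nat_lit 3) (nat_lit 117) (nat_lit 4) (nat_lit 41) (nat_lit 74) (nat_lit 74)) (PT.lf (nat_lit 10332)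 (nat_lit 6) (nat_lit 123) (nat_lit 4) (nat_lit 42) (nat_lit 74) (nat_lit 73)))) (PT.nd (nat_lit 188) (PT.nd (nat_lit 94) (PT.lf (nat_lit 10836) (nat_lit 6) (nat_lit 129) (nat_lit 4) (nat_lit 43) (nat_lit 74) (nat_lit 72)) (PT.lf (nat_lit 11424) (nat_lit 6) (nat_lit 136) (nat_lit 4) (nat_lit 44) (nat_lit 74) (nat_lit 71))) (PT.nd (nat_lit 94) (PT.lf (nat_lit 12012) (nat_lit 6) (nat_lit 143) (nat_lit 4) (nat_lit 45) (nat_lit 74) (nat_lit 70)) (PT.nd (nat_lit 94) (PT.lf (nat_lit 12600) (nat_lit 6) (nat_lit 150) (nat_lit 4) (nat_lit 46) (nat_lit 74) (nat_lit 69)) (PT.lf (nat_lit 13188) (nat_lit 6) (nat_lit 157) (nat_lit 4) (nat_lit 47) (nat_lit 74) (nat_lit 68))))))))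
noncomputable def pc25 : PT := (PT.nd (nat_lit 1504) (PT.nd (nat_lit 752) (PT.nd (nat_lit 376) (PT.nd (nat_lit 188) (PT.nd (nat_lit 94) (PT.lf (nat_lit 14448) (nat_lit 6) (nat_lit 172) (nat_lit 4) (nat_lit 48) (nat_lit 74) (nat_lit 67)) (PT.lf (nat_lit 15624) (nat_lit 6) (nat_lit 186) (nat_lit 4) (nat_lit 49) (nat_lit 74) (nat_lit 66))) (PT.nd (nat_lit 94) (PT.lf (nat_lit 16716) (nat_lit 6) (nat_lit 199) (nat_lit 4) (nat_lit 50) (nat_lit 74) (nat_lit 65)) (PT.lf (nat_lit 17724) (nat_lit 6) (nat_lit 211) (nat_lit 4) (nat_lit 51) (nat_lit 74) (nat_lit 64)))) (PT.nd (nat_lit 188) (PT.nd (nat_lit 94) (PT.lf (nat_lit 18648) (nat_lit 6) (nat_lit 222) (nat_lit 4) (nat_lit 52) (nat_lit 74) (nat_lit 63)) (PT.lf (nat_lit 18564) (nat_lit 6) (nat_lit 221) (nat_lit 4) (nat_lit 53) (nat_lit 74) (nat_lit 62))) (PT.nd (nat_lit 94) (PT.lf (nat_lit 18480) (nat_lit 6) (nat_lit 220) (nat_lit 4) (nat_lit 54) (nat_lit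 74) (nat_lit 61)) (PT.lf (nat_lit 18396) (nat_lit 6) (nat_lit 219) (nat_lit 4) (nat_lit 55) (nat_lit 74) (nat_lit 60))))) (PT.nd (nat_lit 376) (PT.nd (nat_lit 188) (PT.nd (nat_lit 94) (PT.lf (nat_lit 18312) (nat_lit 6) (nat_lit 218) (nat_lit 4) (nat_lit 56) (nat_lit 74) (nat_lit 59)) (PT.lf (nat_lit 18228) (nat_lit 6) (nat_lit 217) (nat_lit 4) (nat_lit 57) (nat_lit 74) (nat_lit 58))) (PT.nd (nat_lit 94) (PT.lf (nat_lit 18228) (nat_lit 6) (nat_lit 217) (nat_lit 2) (nat_lit 58) (nat_lit 74) (nat_lit 57)) (PT.lf (nat_lit 18312) (nat_lit 6) (nat_lit 218) (nat_lit 2) (nat_lit 59) (nat_lit 74) (nat_lit 56)))) (PT.nd (nat_lit 188) (PT.nd (nat_lit 94) (PT.lf (nat_lit 18396) (nat_lit 6) (nat_lit 219) (nat_lit 2) (nat_lit 60) (nat_lit 74) (nat_lit 55)) (PT.lf (nat_lit 18480) (nat_lit 6) (nat_lit 220) (nat_lit 2) (nat_lit 61) (nat_lit 74) (nat_lit 54))) (PT.nd (nat_lit 94) (PT.lf (nat_lit 18564) (nat_lit 6)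 (nat_lit 221) (nat_lit 2) (nat_lit 62) (nat_lit 74) (nat_lit 53)) (PT.lf (nat_lit 18648) (nat_lit 6) (nat_lit 222) (nat_lit 2) (nat_lit 63) (nat_lit 74) (nat_lit 52)))))) (PT.nd (nat_lit 752) (PT.nd (nat_lit 376) (PT.nd (nat_lit 188) (PT.nd (nat_lit 94) (PT.lf (nat_lit 17724) (nat_lit 6) (nat_lit 211) (nat_lit 2) (nat_lit 64) (nat_lit 74) (nat_lit 51)) (PT.lf (nat_lit 16716) (nat_lit 6) (nat_lit 199) (nat_lit 2) (nat_lit 65) (nat_lit 74) (nat_lit 50))) (PT.nd (nat_lit 94) (PT.lf (nat_lit 15624) (nat_lit 6) (nat_lit 186) (nat_lit 2) (nat_lit 66) (nat_lit 74) (nat_lit 49)) (PT.lf (nat_lit 14448) (nat_lit 6) (nat_lit 172) (nat_lit 2) (nat_lit 67) (nat_lit 74) (nat_lit 48)))) (PT.nd (nat_lit 188) (PT.nd (nat_lit 94) (PT.lf (nat_lit 13188) (nat_lit 6) (nat_lit 157) (nat_lit 2) (nat_lit 68) (nat_lit 74) (nat_lit 47)) (PT.lf (nat_lit 12600) (nat_lit 6) (nat_lit 150) (nat_lit 2) (nat_lit 69) (nat_lit 74)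 (nat_lit 46))) (PT.nd (nat_lit 94) (PT.lf (nat_lit 12012) (nat_lit 6) (nat_lit 143) (nat_lit 2) (nat_lit 70) (nat_lit 74) (nat_lit 45)) (PT.lf (nat_lit 11424) (nat_lit 6) (nat_lit 136) (nat_lit 2) (nat_lit 71) (nat_lit 74) (nat_lit 44))))) (PT.nd (nat_lit 376) (PT.nd (nat_lit 188) (PT.nd (nat_lit 94) (PT.lf (nat_lit 10836) (nat_lit 6) (nat_lit 129) (nat_lit 2) (nat_lit 72) (nat_lit 74) (nat_lit 43)) (PT.lf (nat_lit 10332) (nat_lit 6) (nat_lit 123) (nat_lit 2) (nat_lit 73) (nat_lit 74) (nat_lit 42))) (PT.nd (nat_lit 94) (PT.lf (nat_lit 9828) (nat_lit 3) (nat_lit 117) (nat_lit 0) (nat_lit 74) (nat_lit 74) (nat_lit 41)) (PT.lf (nat_lit 9324) (nat_lit 6) (nat_lit 111) (nat_lit 0) (nat_lit 75) (nat_lit 74) (nat_lit 40)))) (PT.nd (nat_lit 188) (PT.nd (nat_lit 94) (PT.lf (nat_lit 8736) (nat_lit 6) (nat_lit 104) (nat_lit 0) (nat_lit 76) (nat_lit 74) (nat_lit 39)) (PT.lf (nat_lit 8232) (nat_lit 6) (nat_lit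 98) (nat_lit 0) (nat_lit 77) (nat_lit 74) (nat_lit 38))) (PT.nd (nat_lit 55366) (PT.lf (nat_lit 7728) (nat_lit 6) (nat_lit 92) (nat_lit 0) (nat_lit 78) (nat_lit 74) (nat_lit 37)) (PT.lf (nat_lit 7392) (nat_lit 6) (nat_lit 88) (nat_lit 5) (nat_lit 36) (nat_lit 75) (nat_lit 78)))))))
noncomputable def pc26 : PT := (PT.nd (nat_lit 1504) (PT.nd (nat_lit 752) (PT.nd (nat_lit 376) (PT.nd (nat_lit 188) (PT.nd (nat_lit 94) (PT.lf (nat_lit 7812) (nat_lit 6) (nat_lit 93) (nat_lit 5) (nat_lit 37) (nat_lit 75) (nat_lit 77)) (PT.lf (nat_lit 8316) (nat_lit 6) (nat_lit 99) (nat_lit 5) (nat_lit 38) (nat_lit 75) (nat_lit 76))) (PT.nd (nat_lit 94) (PT.lf (nat_lit 8820) (nat_lit 3) (nat_lit 105) (nat_lit 4) (nat_lit 39) (nat_lit 75) (nat_lit 75)) (PT.lf (nat_lit 9324) (nat_lit 6) (nat_lit 111) (nat_lit 4) (nat_lit 40) (nat_lit 75) (nat_lit 74)))) (PT.nd (nat_lit 188) (PT.nd (nat_lit 94) (PT.lf (nat_lit 9744) (nat_lit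 6) (nat_lit 116) (nat_lit 4) (nat_lit 41) (nat_lit 75) (nat_lit 73)) (PT.lf (nat_lit 10248) (nat_lit 6) (nat_lit 122) (nat_lit 4) (nat_lit 42) (nat_lit 75) (nat_lit 72))) (PT.nd (nat_lit 94) (PT.lf (nat_lit 10752) (nat_lit 6) (nat_lit 128) (nat_lit 4) (nat_lit 43) (nat_lit 75) (nat_lit 71)) (PT.lf (nat_lit 11340) (nat_lit 6) (nat_lit 135) (nat_lit 4) (nat_lit 44) (nat_lit 75) (nat_lit 70))))) (PT.nd (nat_lit 376) (PT.nd (nat_lit 188) (PT.nd (nat_lit 94) (PT.lf (nat_lit 11928) (nat_lit 6) (nat_lit 142) (nat_lit 4) (nat_lit 45) (nat_lit 75) (nat_lit 69)) (PT.lf (nat_lit 12516) (nat_lit 6) (nat_lit 149) (nat_lit 4) (nat_lit 46) (nat_lit 75) (nat_lit 68))) (PT.nd (nat_lit 94) (PT.lf (nat_lit 13104) (nat_lit 6) (nat_lit 156) (nat_lit 4) (nat_lit 47) (nat_lit 75) (nat_lit 67)) (PT.lf (nat_lit 14364) (nat_lit 6) (nat_lit 171) (nat_lit 4) (nat_lit 48) (nat_lit 75) (nat_lit 66)))) (PT.nd (nat_lit 188) (PT.nd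 (nat_lit 94) (PT.lf (nat_lit 15540) (nat_lit 6) (nat_lit 185) (nat_lit 4) (nat_lit 49) (nat_lit 75) (nat_lit 65)) (PT.lf (nat_lit 16632) (nat_lit 6) (nat_lit 198) (nat_lit 4) (nat_lit 50) (nat_lit 75) (nat_lit 64))) (PT.nd (nat_lit 94) (PT.lf (nat_lit 17640) (nat_lit 6) (nat_lit 210) (nat_lit 4) (nat_lit 51) (nat_lit 75) (nat_lit 63)) (PT.lf (nat_lit 17556) (nat_lit 6) (nat_lit 209) (nat_lit 4) (nat_lit 52) (nat_lit 75) (nat_lit 62)))))) (PT.nd (nat_lit 752) (PT.nd (nat_lit 376) (PT.nd (nat_lit 188) (PT.nd (nat_lit 94) (PT.lf (nat_lit 17472) (nat_lit 6) (nat_lit 208) (nat_lit 4) (nat_lit 53) (nat_lit 75) (nat_lit 61)) (PT.lf (nat_lit 17388) (nat_lit 6) (nat_lit 207) (nat_lit 4) (nat_lit 54) (nat_lit 75) (nat_lit 60))) (PT.nd (nat_lit 94) (PT.lf (nat_lit 17304) (nat_lit 6) (nat_lit 206) (nat_lit 4) (nat_lit 55) (nat_lit 75) (nat_lit 59)) (PT.lf (nat_lit 17220) (nat_lit 6) (nat_lit 205) (nat_lit 4)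 (nat_lit 56) (nat_lit 75) (nat_lit 58)))) (PT.nd (nat_lit 188) (PT.nd (nat_lit 94) (PT.lf (nat_lit 17136) (nat_lit 3) (nat_lit 204) (nat_lit 2) (nat_lit 57) (nat_lit 75) (nat_lit 57)) (PT.lf (nat_lit 17220) (nat_lit 6) (nat_lit 205) (nat_lit 2) (nat_lit 58) (nat_lit 75) (nat_lit 56))) (PT.nd (nat_lit 94) (PT.lf (nat_lit 17304) (nat_lit 6) (nat_lit 206) (nat_lit 2) (nat_lit 59) (nat_lit 75) (nat_lit 55)) (PT.lf (nat_lit 17388) (nat_lit 6) (nat_lit 207) (nat_lit 2) (nat_lit 60) (nat_lit 75) (nat_lit 54))))) (PT.nd (nat_lit 376) (PT.nd (nat_lit 188) (PT.nd (nat_lit 94) (PT.lf (nat_lit 17472) (nat_lit 6) (nat_lit 208) (nat_lit 2) (nat_lit 61) (nat_lit 75) (nat_lit 53)) (PT.lf (nat_lit 17556) (nat_lit 6) (nat_lit 209) (nat_lit 2) (nat_lit 62) (nat_lit 75) (nat_lit 52))) (PT.nd (nat_lit 94) (PT.lf (nat_lit 17640) (nat_lit 6) (nat_lit 210) (nat_lit 2) (nat_lit 63) (nat_lit 75) (nat_lit 51)) (PT.lf (nat_lit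 16632) (nat_lit 6) (nat_lit 198) (nat_lit 2) (nat_lit 64) (nat_lit 75) (nat_lit 50)))) (PT.nd (nat_lit 188) (PT.nd (nat_lit 94) (PT.lf (nat_lit 15540) (nat_lit 6) (nat_lit 185) (nat_lit 2) (nat_lit 65) (nat_lit 75) (nat_lit 49)) (PT.lf (nat_lit 14364) (nat_lit 6) (nat_lit 171) (nat_lit 2) (nat_lit 66) (nat_lit 75) (nat_lit 48))) (PT.nd (nat_lit 94) (PT.lf (nat_lit 13104) (nat_lit 6) (nat_lit 156) (nat_lit 2) (nat_lit 67) (nat_lit 75) (nat_lit 47)) (PT.nd (nat_lit 94) (PT.lf (nat_lit 12516) (nat_lit 6) (nat_lit 149) (nat_lit 2) (nat_lit 68) (nat_lit 75) (nat_lit 46)) (PT.lf (nat_lit 11928) (nat_lit 6) (nat_lit 142) (nat_lit 2) (nat_lit 69) (nat_lit 75) (nat_lit 45))))))))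
noncomputable def pc27 : PT := (PT.nd (nat_lit 56682) (PT.nd (nat_lit 752) (PT.nd (nat_lit 376) (PT.nd (nat_lit 188) (PT.nd (nat_lit 94) (PT.lf (nat_lit 11340) (nat_lit 6) (nat_lit 135) (nat_lit 2) (nat_lit 70) (nat_lit 75) (nat_lit 44)) (PT.lf (nat_lit 10752) (nat_lit 6) (nat_lit 128) (nat_lit 2) (nat_lit 71) (nat_lit 75) (nat_lit 43))) (PT.nd (nat_lit 94) (PT.lf (nat_lit 10248) (nat_lit 6) (nat_lit 122) (nat_lit 2) (nat_lit 72) (nat_lit 75) (nat_lit 42)) (PT.lf (nat_lit 9744) (nat_lit 6) (nat_lit 116) (nat_lit 2) (nat_lit 73) (nat_lit 75) (nat_lit 41)))) (PT.nd (nat_lit 188) (PT.nd (nat_lit 94) (PT.lf (nat_lit 9324) (nat_lit 6) (nat_lit 111) (nat_lit 2) (nat_lit 74) (nat_lit 75) (nat_lit 40)) (PT.lf (nat_lit 8820) (nat_lit 3) (nat_lit 105) (nat_lit 0) (nat_lit 75) (nat_lit 75) (nat_lit 39))) (PT.nd (nat_lit 94) (PT.lf (nat_lit 8316) (nat_lit 6) (nat_lit 99) (nat_lit 0) (nat_lit 76) (nat_lit 75)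 (nat_lit 38)) (PT.lf (nat_lit 7812) (nat_lit 6) (nat_lit 93) (nat_lit 0) (nat_lit 77) (nat_lit 75) (nat_lit 37))))) (PT.nd (nat_lit 55554) (PT.nd (nat_lit 55366) (PT.nd (nat_lit 55272) (PT.lf (nat_lit 7392) (nat_lit 6) (nat_lit 88) (nat_lit 0) (nat_lit 78) (nat_lit 75) (nat_lit 36)) (PT.lf (nat_lit 6972) (nat_lit 6) (nat_lit 83) (nat_lit 5) (nat_lit 35) (nat_lit 76) (nat_lit 78))) (PT.nd (nat_lit 94) (PT.lf (nat_lit 7476) (nat_lit 6) (nat_lit 89) (nat_lit 5) (nat_lit 36) (nat_lit 76) (nat_lit 77)) (PT.lf (nat_lit 7896) (nat_lit 3) (nat_lit 94) (nat_lit 4) (nat_lit 37) (nat_lit 76) (nat_lit 76)))) (PT.nd (nat_lit 188) (PT.nd (nat_lit 94) (PT.lf (nat_lit 8316) (nat_lit 6) (nat_lit 99) (nat_lit 4) (nat_lit 38) (nat_lit 76) (nat_lit 75)) (PT.lf (nat_lit 8736) (nat_lit 6) (nat_lit 104) (nat_lit 4) (nat_lit 39) (nat_lit 76) (nat_lit 74))) (PT.nd (nat_lit 94) (PT.lf (nat_lit 9240) (nat_lit 6) (nat_lit 110)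 (nat_lit 4) (nat_lit 40) (nat_lit 76) (nat_lit 73)) (PT.lf (nat_lit 9660) (nat_lit 6) (nat_lit 115) (nat_lit 4) (nat_lit 41) (nat_lit 76) (nat_lit 72)))))) (PT.nd (nat_lit 752) (PT.nd (nat_lit 376) (PT.nd (nat_lit 188) (PT.nd (nat_lit 94) (PT.lf (nat_lit 10164) (nat_lit 6) (nat_lit 121) (nat_lit 4) (nat_lit 42) (nat_lit 76) (nat_lit 71)) (PT.lf (nat_lit 10668) (nat_lit 6) (nat_lit 127) (nat_lit 4) (nat_lit 43) (nat_lit 76) (nat_lit 70))) (PT.nd (nat_lit 94) (PT.lf (nat_lit 11256) (nat_lit 6) (nat_lit 134) (nat_lit 4) (nat_lit 44) (nat_lit 76) (nat_lit 69)) (PT.lf (nat_lit 11844) (nat_lit 6) (nat_lit 141) (nat_lit 4) (nat_lit 45) (nat_lit 76) (nat_lit 68)))) (PT.nd (nat_lit 188) (PT.nd (nat_lit 94) (PT.lf (nat_lit 12432) (nat_lit 6) (nat_lit 148) (nat_lit 4) (nat_lit 46) (nat_lit 76) (nat_lit 67)) (PT.lf (nat_lit 13020) (nat_lit 6) (nat_lit 155) (nat_lit 4) (nat_lit 47) (nat_lit 76) (nat_lit 66)))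 (PT.nd (nat_lit 94) (PT.lf (nat_lit 14280) (nat_lit 6) (nat_lit 170) (nat_lit 4) (nat_lit 48) (nat_lit 76) (nat_lit 65)) (PT.lf (nat_lit 15456) (nat_lit 6) (nat_lit 184) (nat_lit 4) (nat_lit 49) (nat_lit 76) (nat_lit 64))))) (PT.nd (nat_lit 376) (PT.nd (nat_lit 188) (PT.nd (nat_lit 94) (PT.lf (nat_lit 16548) (nat_lit 6) (nat_lit 197) (nat_lit 4) (nat_lit 50) (nat_lit 76) (nat_lit 63)) (PT.lf (nat_lit 16464) (nat_lit 6) (nat_lit 196) (nat_lit 4) (nat_lit 51) (nat_lit 76) (nat_lit 62))) (PT.nd (nat_lit 94) (PT.lf (nat_lit 16380) (nat_lit 6) (nat_lit 195) (nat_lit 4) (nat_lit 52) (nat_lit 76) (nat_lit 61)) (PT.lf (nat_lit 16296) (nat_lit 6) (nat_lit 194) (nat_lit 4) (nat_lit 53) (nat_lit 76) (nat_lit 60)))) (PT.nd (nat_lit 188) (PT.nd (nat_lit 94) (PT.lf (nat_lit 16212) (nat_lit 6) (nat_lit 193) (nat_lit 4) (nat_lit 54) (nat_lit 76) (nat_lit 59)) (PT.lf (nat_lit 16128) (nat_lit 6) (nat_lit 192) (nat_lit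 4) (nat_lit 55) (nat_lit 76) (nat_lit 58))) (PT.nd (nat_lit 94) (PT.lf (nat_lit 16044) (nat_lit 6) (nat_lit 191) (nat_lit 4) (nat_lit 56) (nat_lit 76) (nat_lit 57)) (PT.lf (nat_lit 16044) (nat_lit 6) (nat_lit 191) (nat_lit 2) (nat_lit 57) (nat_lit 76) (nat_lit 56)))))))
noncomputable def pc28 : PT := (PT.nd (nat_lit 1504) (PT.nd (nat_lit 752) (PT.nd (nat_lit 376) (PT.nd (nat_lit 188) (PT.nd (nat_lit 94) (PT.lf (nat_lit 16128) (nat_lit 6) (nat_lit 192) (nat_lit 2) (nat_lit 58) (nat_lit 76) (nat_lit 55)) (PT.lf (nat_lit 16212) (nat_lit 6) (nat_lit 193) (nat_lit 2) (nat_lit 59) (nat_lit 76) (nat_lit 54))) (PT.nd (nat_lit 94) (PT.lf (nat_lit 16296) (nat_lit 6) (nat_lit 194) (nat_lit 2) (nat_lit 60) (nat_lit 76) (nat_lit 53)) (PT.lf (nat_lit 16380) (nat_lit 6) (nat_lit 195) (nat_lit 2) (nat_lit 61) (nat_lit 76) (nat_lit 52)))) (PT.nd (nat_lit 188) (PT.nd (nat_lit 94) (PT.lf (nat_lit 16464) (nat_lit 6)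 (nat_lit 196) (nat_lit 2) (nat_lit 62) (nat_lit 76) (nat_lit 51)) (PT.lf (nat_lit 16548) (nat_lit 6) (nat_lit 197) (nat_lit 2) (nat_lit 63) (nat_lit 76) (nat_lit 50))) (PT.nd (nat_lit 94) (PT.lf (nat_lit 15456) (nat_lit 6) (nat_lit 184) (nat_lit 2) (nat_lit 64) (nat_lit 76) (nat_lit 49)) (PT.lf (nat_lit 14280) (nat_lit 6) (nat_lit 170) (nat_lit 2) (nat_lit 65) (nat_lit 76) (nat_lit 48))))) (PT.nd (nat_lit 376) (PT.nd (nat_lit 188) (PT.nd (nat_lit 94) (PT.lf (nat_lit 13020) (nat_lit 6) (nat_lit 155) (nat_lit 2) (nat_lit 66) (nat_lit 76) (nat_lit 47)) (PT.lf (nat_lit 12432) (nat_lit 6) (nat_lit 148) (nat_lit 2) (nat_lit 67) (nat_lit 76) (nat_lit 46))) (PT.nd (nat_lit 94) (PT.lf (nat_lit 11844) (nat_lit 6) (nat_lit 141) (nat_lit 2) (nat_lit 68) (nat_lit 76) (nat_lit 45)) (PT.lf (nat_lit 11256) (nat_lit 6) (nat_lit 134) (nat_lit 2) (nat_lit 69) (nat_lit 76) (nat_lit 44)))) (PT.nd (nat_lit 188) (PT.nd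 (nat_lit 94) (PT.lf (nat_lit 10668) (nat_lit 6) (nat_lit 127) (nat_lit 2) (nat_lit 70) (nat_lit 76) (nat_lit 43)) (PT.lf (nat_lit 10164) (nat_lit 6) (nat_lit 121) (nat_lit 2) (nat_lit 71) (nat_lit 76) (nat_lit 42))) (PT.nd (nat_lit 94) (PT.lf (nat_lit 9660) (nat_lit 6) (nat_lit 115) (nat_lit 2) (nat_lit 72) (nat_lit 76) (nat_lit 41)) (PT.lf (nat_lit 9240) (nat_lit 6) (nat_lit 110) (nat_lit 2) (nat_lit 73) (nat_lit 76) (nat_lit 40)))))) (PT.nd (nat_lit 55930) (PT.nd (nat_lit 376) (PT.nd (nat_lit 188) (PT.nd (nat_lit 94) (PT.lf (nat_lit 8736) (nat_lit 6) (nat_lit 104) (nat_lit 2) (nat_lit 74) (nat_lit 76) (nat_lit 39)) (PT.lf (nat_lit 8316) (nat_lit 6) (nat_lit 99) (nat_lit 2) (nat_lit 75) (nat_lit 76) (nat_lit 38))) (PT.nd (nat_lit 94) (PT.lf (nat_lit 7896) (nat_lit 3) (nat_lit 94) (nat_lit 0) (nat_lit 76) (nat_lit 76) (nat_lit 37)) (PT.lf (nat_lit 7476) (nat_lit 6) (nat_lit 89) (nat_lit 0) (nat_lit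 77) (nat_lit 76) (nat_lit 36)))) (PT.nd (nat_lit 55366) (PT.nd (nat_lit 55272) (PT.lf (nat_lit 6972) (nat_lit 6) (nat_lit 83) (nat_lit 0) (nat_lit 78) (nat_lit 76) (nat_lit 35)) (PT.lf (nat_lit 7056) (nat_lit 3) (nat_lit 84) (nat_lit 4) (nat_lit 35) (nat_lit 77) (nat_lit 77))) (PT.nd (nat_lit 94) (PT.lf (nat_lit 7476) (nat_lit 6) (nat_lit 89) (nat_lit 4) (nat_lit 36) (nat_lit 77) (nat_lit 76)) (PT.lf (nat_lit 7812) (nat_lit 6) (nat_lit 93) (nat_lit 4) (nat_lit 37) (nat_lit 77) (nat_lit 75))))) (PT.nd (nat_lit 376) (PT.nd (nat_lit 188) (PT.nd (nat_lit 94) (PT.lf (nat_lit 8232) (nat_lit 6) (nat_lit 98) (nat_lit 4) (nat_lit 38) (nat_lit 77) (nat_lit 74)) (PT.lf (nat_lit 8652) (nat_lit 6) (nat_lit 103) (nat_lit 4) (nat_lit 39) (nat_lit 77) (nat_lit 73))) (PT.nd (nat_lit 94) (PT.lf (nat_lit 9156) (nat_lit 6) (nat_lit 109) (nat_lit 4) (nat_lit 40) (nat_lit 77) (nat_lit 72)) (PT.lf (nat_lit 9576) (nat_lit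 6) (nat_lit 114) (nat_lit 4) (nat_lit 41) (nat_lit 77) (nat_lit 71)))) (PT.nd (nat_lit 188) (PT.nd (nat_lit 94) (PT.lf (nat_lit 10080) (nat_lit 6) (nat_lit 120) (nat_lit 4) (nat_lit 42) (nat_lit 77) (nat_lit 70)) (PT.lf (nat_lit 10584) (nat_lit 6) (nat_lit 126) (nat_lit 4) (nat_lit 43) (nat_lit 77) (nat_lit 69))) (PT.nd (nat_lit 94) (PT.lf (nat_lit 11172) (nat_lit 6) (nat_lit 133) (nat_lit 4) (nat_lit 44) (nat_lit 77) (nat_lit 68)) (PT.nd (nat_lit 94) (PT.lf (nat_lit 11760) (nat_lit 6) (nat_lit 140) (nat_lit 4) (nat_lit 45) (nat_lit 77) (nat_lit 67)) (PT.lf (nat_lit 12348) (nat_lit 6) (nat_lit 147) (nat_lit 4) (nat_lit 46) (nat_lit 77) (nat_lit 66))))))))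
noncomputable def pc29 : PT := (PT.nd (nat_lit 1504) (PT.nd (nat_lit 752) (PT.nd (nat_lit 376) (PT.nd (nat_lit 188) (PT.nd (nat_lit 94) (PT.lf (nat_lit 12936) (nat_lit 6) (nat_lit 154) (nat_lit 4) (nat_lit 47) (nat_lit 77) (nat_lit 65)) (PT.lf (nat_lit 14196) (nat_lit 6) (nat_lit 169) (nat_lit 4) (nat_lit 48) (nat_lit 77) (nat_lit 64))) (PT.nd (nat_lit 94) (PT.lf (nat_lit 15372) (nat_lit 6) (nat_lit 183) (nat_lit 4) (nat_lit 49) (nat_lit 77) (nat_lit 63)) (PT.lf (nat_lit 15288) (nat_lit 6) (nat_lit 182) (nat_lit 4) (nat_lit 50) (nat_lit 77) (nat_lit 62)))) (PT.nd (nat_lit 188) (PT.nd (nat_lit 94) (PT.lf (nat_lit 15204) (nat_lit 6) (nat_lit 181) (nat_lit 4) (nat_lit 51) (nat_lit 77) (nat_lit 61)) (PT.lf (nat_lit 15120) (nat_lit 6) (nat_lit 180) (nat_lit 4) (nat_lit 52) (nat_lit 77) (nat_lit 60))) (PT.nd (nat_lit 94) (PT.lf (nat_lit 15036) (nat_lit 6) (nat_lit 179) (nat_lit 4) (nat_lit 53) (nat_lit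 77) (nat_lit 59)) (PT.lf (nat_lit 14952) (nat_lit 6) (nat_lit 178) (nat_lit 4) (nat_lit 54) (nat_lit 77) (nat_lit 58))))) (PT.nd (nat_lit 376) (PT.nd (nat_lit 188) (PT.nd (nat_lit 94) (PT.lf (nat_lit 14868) (nat_lit 6) (nat_lit 177) (nat_lit 4) (nat_lit 55) (nat_lit 77) (nat_lit 57)) (PT.lf (nat_lit 14784) (nat_lit 3) (nat_lit 176) (nat_lit 2) (nat_lit 56) (nat_lit 77) (nat_lit 56))) (PT.nd (nat_lit 94) (PT.lf (nat_lit 14868) (nat_lit 6) (nat_lit 177) (nat_lit 2) (nat_lit 57) (nat_lit 77) (nat_lit 55)) (PT.lf (nat_lit 14952) (nat_lit 6) (nat_lit 178) (nat_lit 2) (nat_lit 58) (nat_lit 77) (nat_lit 54)))) (PT.nd (nat_lit 188) (PT.nd (nat_lit 94) (PT.lf (nat_lit 15036) (nat_lit 6) (nat_lit 179) (nat_lit 2) (nat_lit 59) (nat_lit 77) (nat_lit 53)) (PT.lf (nat_lit 15120) (nat_lit 6) (nat_lit 180) (nat_lit 2) (nat_lit 60) (nat_lit 77) (nat_lit 52))) (PT.nd (nat_lit 94) (PT.lf (nat_lit 15204) (nat_lit 6)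 (nat_lit 181) (nat_lit 2) (nat_lit 61) (nat_lit 77) (nat_lit 51)) (PT.lf (nat_lit 15288) (nat_lit 6) (nat_lit 182) (nat_lit 2) (nat_lit 62) (nat_lit 77) (nat_lit 50)))))) (PT.nd (nat_lit 752) (PT.nd (nat_lit 376) (PT.nd (nat_lit 188) (PT.nd (nat_lit 94) (PT.lf (nat_lit 15372) (nat_lit 6) (nat_lit 183) (nat_lit 2) (nat_lit 63) (nat_lit 77) (nat_lit 49)) (PT.lf (nat_lit 14196) (nat_lit 6) (nat_lit 169) (nat_lit 2) (nat_lit 64) (nat_lit 77) (nat_lit 48))) (PT.nd (nat_lit 94) (PT.lf (nat_lit 12936) (nat_lit 6) (nat_lit 154) (nat_lit 2) (nat_lit 65) (nat_lit 77) (nat_lit 47)) (PT.lf (nat_lit 12348) (nat_lit 6) (nat_lit 147) (nat_lit 2) (nat_lit 66) (nat_lit 77) (nat_lit 46)))) (PT.nd (nat_lit 188) (PT.nd (nat_lit 94) (PT.lf (nat_lit 11760) (nat_lit 6) (nat_lit 140) (nat_lit 2) (nat_lit 67) (nat_lit 77) (nat_lit 45)) (PT.lf (nat_lit 11172) (nat_lit 6) (nat_lit 133) (nat_lit 2) (nat_lit 68) (nat_lit 77)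 (nat_lit 44))) (PT.nd (nat_lit 94) (PT.lf (nat_lit 10584) (nat_lit 6) (nat_lit 126) (nat_lit 2) (nat_lit 69) (nat_lit 77) (nat_lit 43)) (PT.lf (nat_lit 10080) (nat_lit 6) (nat_lit 120) (nat_lit 2) (nat_lit 70) (nat_lit 77) (nat_lit 42))))) (PT.nd (nat_lit 376) (PT.nd (nat_lit 188) (PT.nd (nat_lit 94) (PT.lf (nat_lit 9576) (nat_lit 6) (nat_lit 114) (nat_lit 2) (nat_lit 71) (nat_lit 77) (nat_lit 41)) (PT.lf (nat_lit 9156) (nat_lit 6) (nat_lit 109) (nat_lit 2) (nat_lit 72) (nat_lit 77) (nat_lit 40))) (PT.nd (nat_lit 94) (PT.lf (nat_lit 8652) (nat_lit 6) (nat_lit 103) (nat_lit 2) (nat_lit 73) (nat_lit 77) (nat_lit 39)) (PT.lf (nat_lit 8232) (nat_lit 6) (nat_lit 98) (nat_lit 2) (nat_lit 74) (nat_lit 77) (nat_lit 38)))) (PT.nd (nat_lit 188) (PT.nd (nat_lit 94) (PT.lf (nat_lit 7812) (nat_lit 6) (nat_lit 93) (nat_lit 2) (nat_lit 75) (nat_lit 77) (nat_lit 37)) (PT.lf (nat_lit 7476) (nat_lit 6) (nat_lit 89)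 (nat_lit 2) (nat_lit 76) (nat_lit 77) (nat_lit 36))) (PT.nd (nat_lit 55366) (PT.lf (nat_lit 7056) (nat_lit 3) (nat_lit 84) (nat_lit 0) (nat_lit 77) (nat_lit 77) (nat_lit 35)) (PT.lf (nat_lit 6972) (nat_lit 6) (nat_lit 83) (nat_lit 4) (nat_lit 35) (nat_lit 78) (nat_lit 76)))))))
noncomputable def pc30 : PT := (PT.nd (nat_lit 2820) (PT.nd (nat_lit 752) (PT.nd (nat_lit 376) (PT.nd (nat_lit 188) (PT.nd (nat_lit 94) (PT.lf (nat_lit 7392) (nat_lit 6) (nat_lit 88) (nat_lit 4) (nat_lit 36) (nat_lit 78) (nat_lit 75)) (PT.lf (nat_lit 7728) (nat_lit 6) (nat_lit 92) (nat_lit 4) (nat_lit 37) (nat_lit 78) (nat_lit 74))) (PT.nd (nat_lit 94) (PT.lf (nat_lit 8148) (nat_lit 6) (nat_lit 97) (nat_lit 4) (nat_lit 38) (nat_lit 78) (nat_lit 73)) (PT.lf (nat_lit 8568) (nat_lit 6) (nat_lit 102) (nat_lit 4) (nat_lit 39) (nat_lit 78) (nat_lit 72)))) (PT.nd (nat_lit 188) (PT.nd (nat_lit 94) (PT.lf (nat_lit 9072) (nat_lit 6)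 (nat_lit 108) (nat_lit 4) (nat_lit 40) (nat_lit 78) (nat_lit 71)) (PT.lf (nat_lit 9492) (nat_lit 6) (nat_lit 113) (nat_lit 4) (nat_lit 41) (nat_lit 78) (nat_lit 70))) (PT.nd (nat_lit 94) (PT.lf (nat_lit 9996) (nat_lit 6) (nat_lit 119) (nat_lit 4) (nat_lit 42) (nat_lit 78) (nat_lit 69)) (PT.lf (nat_lit 10500) (nat_lit 6) (nat_lit 125) (nat_lit 4) (nat_lit 43) (nat_lit 78) (nat_lit 68))))) (PT.nd (nat_lit 376) (PT.nd (nat_lit 188) (PT.nd (nat_lit 94) (PT.lf (nat_lit 11088) (nat_lit 6) (nat_lit 132) (nat_lit 4) (nat_lit 44) (nat_lit 78) (nat_lit 67)) (PT.lf (nat_lit 11676) (nat_lit 6) (nat_lit 139) (nat_lit 4) (nat_lit 45) (nat_lit 78) (nat_lit 66))) (PT.nd (nat_lit 94) (PT.lf (nat_lit 12264) (nat_lit 6) (nat_lit 146) (nat_lit 4) (nat_lit 46) (nat_lit 78) (nat_lit 65)) (PT.lf (nat_lit 12852) (nat_lit 6) (nat_lit 153) (nat_lit 4) (nat_lit 47) (nat_lit 78) (nat_lit 64)))) (PT.nd (nat_lit 1504) (PT.nd (nat_lit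 1410) (PT.lf (nat_lit 14112) (nat_lit 6) (nat_lit 168) (nat_lit 4) (nat_lit 48) (nat_lit 78) (nat_lit 63)) (PT.lf (nat_lit 14112) (nat_lit 6) (nat_lit 168) (nat_lit 2) (nat_lit 63) (nat_lit 78) (nat_lit 48))) (PT.nd (nat_lit 94) (PT.lf (nat_lit 12852) (nat_lit 6) (nat_lit 153) (nat_lit 2) (nat_lit 64) (nat_lit 78) (nat_lit 47)) (PT.lf (nat_lit 12264) (nat_lit 6) (nat_lit 146) (nat_lit 2) (nat_lit 65) (nat_lit 78) (nat_lit 46)))))) (PT.nd (nat_lit 752) (PT.nd (nat_lit 376) (PT.nd (nat_lit 188) (PT.nd (nat_lit 94) (PT.lf (nat_lit 11676) (nat_lit 6) (nat_lit 139) (nat_lit 2) (nat_lit 66) (nat_lit 78) (nat_lit 45)) (PT.lf (nat_lit 11088) (nat_lit 6) (nat_lit 132) (nat_lit 2) (nat_lit 67) (nat_lit 78) (nat_lit 44))) (PT.nd (nat_lit 94) (PT.lf (nat_lit 10500) (nat_lit 6) (nat_lit 125) (nat_lit 2) (nat_lit 68) (nat_lit 78) (nat_lit 43)) (PT.lf (nat_lit 9996) (nat_lit 6) (nat_lit 119) (nat_lit 2) (nat_lit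 69) (nat_lit 78) (nat_lit 42)))) (PT.nd (nat_lit 188) (PT.nd (nat_lit 94) (PT.lf (nat_lit 9492) (nat_lit 6) (nat_lit 113) (nat_lit 2) (nat_lit 70) (nat_lit 78) (nat_lit 41)) (PT.lf (nat_lit 9072) (nat_lit 6) (nat_lit 108) (nat_lit 2) (nat_lit 71) (nat_lit 78) (nat_lit 40))) (PT.nd (nat_lit 94) (PT.lf (nat_lit 8568) (nat_lit 6) (nat_lit 102) (nat_lit 2) (nat_lit 72) (nat_lit 78) (nat_lit 39)) (PT.lf (nat_lit 8148) (nat_lit 6) (nat_lit 97) (nat_lit 2) (nat_lit 73) (nat_lit 78) (nat_lit 38))))) (PT.nd (nat_lit 832182) (PT.nd (nat_lit 188) (PT.nd (nat_lit 94) (PT.lf (nat_lit 7728) (nat_lit 6) (nat_lit 92) (nat_lit 2) (nat_lit 74) (nat_lit 78) (nat_lit 37)) (PT.lf (nat_lit 7392) (nat_lit 6) (nat_lit 88) (nat_lit 2) (nat_lit 75) (nat_lit 78) (nat_lit 36))) (PT.nd (nat_lit 823628) (PT.lf (nat_lit 6972) (nat_lit 6) (nat_lit 83) (nat_lit 2) (nat_lit 76) (nat_lit 78) (nat_lit 35)) (PT.lf (nat_lit 168) (nat_lit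 6) (nat_lit 2) (nat_lit 5) (nat_lit 4) (nat_lit 92) (nat_lit 93)))) (PT.nd (nat_lit 50948) (PT.nd (nat_lit 50854) (PT.lf (nat_lit 168) (nat_lit 6) (nat_lit 2) (nat_lit 0) (nat_lit 93) (nat_lit 92) (nat_lit 4)) (PT.lf (nat_lit 84) (nat_lit 3) (nat_lit 1) (nat_lit 4) (nat_lit 3) (nat_lit 93) (nat_lit 93))) (PT.nd (nat_lit 8272) (PT.lf (nat_lit 168) (nat_lit 6) (nat_lit 2) (nat_lit 4) (nat_lit 4) (nat_lit 93) (nat_lit 92)) (PT.nd (nat_lit 94) (PT.lf (nat_lit 168) (nat_lit 6) (nat_lit 2) (nat_lit 2) (nat_lit 92) (nat_lit 93) (nat_lit 4)) (PT.lf (nat_lit 84) (nat_lit 3) (nat_lit 1) (nat_lit 0) (nat_lit 93) (nat_lit 93) (nat_lit 3))))))))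
noncomputable def xc0 : XT := (XT.nd (nat_lit 236692) (nat_lit 0) (nat_lit 0) (XT.nd (nat_lit 118722) (nat_lit 0) (nat_lit 0) (XT.nd (nat_lit 59408) (nat_lit 84) (nat_lit 0) (XT.nd (nat_lit 59126) (nat_lit 0) (nat_lit 420) (XT.nd (nat_lit 94) (nat_lit 420) (nat_lit 0) (XT.lf (nat_lit 0) (nat_lit 945765385) (nat_lit 420) (nat_lit 2557782301) (nat_lit 0) (nat_lit 945765385) (nat_lit 89) (nat_lit 5) (nat_lit 94) (nat_lit 4) (nat_lit 89) (nat_lit 4) (nat_lit 359) (nat_lit 293) (nat_lit 293)) (XT.nd (nat_lit 94) (nat_lit 0) (nat_lit 0) (XT.lf (nat_lit 0) (nat_lit 755378043) (nat_lit 420) (nat_lit 4631716292) (nat_lit 420) (nat_lit 3637433486) (nat_lit 84) (nat_lit 4) (nat_lit 89) (nat_lit 5) (nat_lit 89) (nat_lit 4) (nat_lit 360) (nat_lit 293) (nat_lit 292)) (XT.lf (nat_lit 0) (nat_lit 6788881411) (nat_lit 420) (nat_lit 2163068415) (nat_lit 420) (nat_lit 203462497) (nat_lit 84) (nat_lit 4) (nat_lit 89)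 (nat_lit 5) (nat_lit 89) (nat_lit 4) (nat_lit 361) (nat_lit 293) (nat_lit 291)))) (XT.nd (nat_lit 94) (nat_lit 420) (nat_lit 0) (XT.lf (nat_lit 0) (nat_lit 396183663) (nat_lit 420) (nat_lit 1966767924) (nat_lit 420) (nat_lit 1966767924) (nat_lit 94) (nat_lit 4) (nat_lit 99) (nat_lit 5) (nat_lit 99) (nat_lit 4) (nat_lit 357) (nat_lit 294) (nat_lit 294)) (XT.nd (nat_lit 94) (nat_lit 420) (nat_lit 0) (XT.lf (nat_lit 0) (nat_lit 6660209326) (nat_lit 420) (nat_lit 1586143541) (nat_lit 420) (nat_lit 531308913) (nat_lit 94) (nat_lit 4) (nat_lit 99) (nat_lit 5) (nat_lit 99) (nat_lit 4) (nat_lit 358) (nat_lit 294) (nat_lit 293)) (XT.lf (nat_lit 0) (nat_lit 2871959043) (nat_lit 420) (nat_lit 5174482930) (nat_lit 0) (nat_lit 853564948) (nat_lit 89) (nat_lit 5) (nat_lit 94) (nat_lit 4) (nat_lit 89) (nat_lit 4) (nat_lit 359) (nat_lit 294) (nat_lit 292))))) (XT.nd (nat_lit 58938) (nat_lit 0) (nat_lit 504) (XT.nd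 (nat_lit 94) (nat_lit 84) (nat_lit 0) (XT.lf (nat_lit 0) (nat_lit 636946427) (nat_lit 420) (nat_lit 5687027046) (nat_lit 420) (nat_lit 2703309838) (nat_lit 84) (nat_lit 4) (nat_lit 89) (nat_lit 5) (nat_lit 89) (nat_lit 4) (nat_lit 360) (nat_lit 294) (nat_lit 291)) (XT.nd (nat_lit 58750) (nat_lit 0) (nat_lit 1848) (XT.lf (nat_lit 0) (nat_lit 674205386) (nat_lit 504) (nat_lit 2552287178) (nat_lit 84) (nat_lit 5932794804) (nat_lit 83) (nat_lit 5) (nat_lit 89) (nat_lit 5) (nat_lit 84) (nat_lit 4) (nat_lit 361) (nat_lit 294) (nat_lit 290)) (XT.lf (nat_lit 0) (nat_lit 3193295536) (nat_lit 504) (nat_lit 512280335) (nat_lit 504) (nat_lit 512280335) (nat_lit 105) (nat_lit 4) (nat_lit 111) (nat_lit 5) (nat_lit 111) (nat_lit 4) (nat_lit 355) (nat_lit 295) (nat_lit 295)))) (XT.nd (nat_lit 188) (nat_lit 420) (nat_lit 0) (XT.nd (nat_lit 94) (nat_lit 420) (nat_lit 0) (XT.lf (nat_lit 0) (nat_lit 2356424703) (nat_lit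 504) (nat_lit 4919578244) (nat_lit 0) (nat_lit 1269945036) (nat_lit 99) (nat_lit 5) (nat_lit 105) (nat_lit 4) (nat_lit 99) (nat_lit 4) (nat_lit 356) (nat_lit 295) (nat_lit 294)) (XT.lf (nat_lit 0) (nat_lit 735072514) (nat_lit 420) (nat_lit 5033534326) (nat_lit 420) (nat_lit 2892220030) (nat_lit 94) (nat_lit 4) (nat_lit 99) (nat_lit 5) (nat_lit 99) (nat_lit 4) (nat_lit 357) (nat_lit 295) (nat_lit 293))) (XT.nd (nat_lit 94) (nat_lit 336) (nat_lit 0) (XT.lf (nat_lit 0) (nat_lit 457062075) (nat_lit 504) (nat_lit 2237589572) (nat_lit 84) (nat_lit 6085610974) (nat_lit 93) (nat_lit 5) (nat_lit 99) (nat_lit 5) (nat_lit 94) (nat_lit 4) (nat_lit 358) (nat_lit 295) (nat_lit 292)) (XT.lf (nat_lit 0) (nat_lit 3550408802) (nat_lit 336) (nat_lit 247678485) (nat_lit 420) (nat_lit 5105991747) (nat_lit 89) (nat_lit 5) (nat_lit 93) (nat_lit 5) (nat_lit 94) (nat_lit 4) (nat_lit 359) (nat_lit 295) (nat_lit 291)))))) (XT.nd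 (nat_lit 59032) (nat_lit 0) (nat_lit 0) (XT.nd (nat_lit 58750) (nat_lit 0) (nat_lit 1344) (XT.nd (nat_lit 94) (nat_lit 84) (nat_lit 0) (XT.lf (nat_lit 0) (nat_lit 399979713) (nat_lit 420) (nat_lit 6804287864) (nat_lit 420) (nat_lit 1828529123) (nat_lit 84) (nat_lit 4) (nat_lit 89) (nat_lit 5) (nat_lit 89) (nat_lit 4) (nat_lit 360) (nat_lit 295) (nat_lit 290)) (XT.nd (nat_lit 58562) (nat_lit 0) (nat_lit 2352) (XT.lf (nat_lit 0) (nat_lit 1490947111) (nat_lit 504) (nat_lit 2859045721) (nat_lit 84) (nat_lit 4815847172) (nat_lit 83) (nat_lit 5) (nat_lit 89) (nat_lit 5) (nat_lit 84) (nat_lit 4) (nat_lit 361) (nat_lit 295) (nat_lit 289)) (XT.lf (nat_lit 0) (nat_lit 858737181) (nat_lit 504) (nat_lit 2395569478) (nat_lit 0) (nat_lit 858737181) (nat_lit 111) (nat_lit 5) (nat_lit 117) (nat_lit 4) (nat_lit 111) (nat_lit 4) (nat_lit 353) (nat_lit 296) (nat_lit 296)))) (XT.nd (nat_lit 94) (nat_lit 504) (nat_lit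 0) (XT.lf (nat_lit 0) (nat_lit 694411943) (nat_lit 504) (nat_lit 4393800179) (nat_lit 504) (nat_lit 3241153900) (nat_lit 105) (nat_lit 4) (nat_lit 111) (nat_lit 5) (nat_lit 111) (nat_lit 4) (nat_lit 354) (nat_lit 296) (nat_lit 295)) (XT.nd (nat_lit 94) (nat_lit 420) (nat_lit 0) (XT.lf (nat_lit 0) (nat_lit 81724911) (nat_lit 588) (nat_lit 2105818765) (nat_lit 84) (nat_lit 6249524445) (nat_lit 104) (nat_lit 5) (nat_lit 111) (nat_lit 5) (nat_lit 105) (nat_lit 4) (nat_lit 355) (nat_lit 296) (nat_lit 294)) (XT.lf (nat_lit 0) (nat_lit 3387751504) (nat_lit 504) (nat_lit 5033617118) (nat_lit 0) (nat_lit 127363151) (nat_lit 99) (nat_lit 5) (nat_lit 105) (nat_lit 4) (nat_lit 99) (nat_lit 4) (nat_lit 356) (nat_lit 296) (nat_lit 293))))) (XT.nd (nat_lit 282) (nat_lit 504) (nat_lit 0) (XT.nd (nat_lit 94) (nat_lit 420) (nat_lit 0) (XT.lf (nat_lit 0) (nat_lit 563138010) (nat_lit 420) (nat_lit 6193176628) (nat_lit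 420) (nat_lit 1908676986) (nat_lit 94) (nat_lit 4) (nat_lit 99) (nat_lit 5) (nat_lit 99) (nat_lit 4) (nat_lit 357) (nat_lit 296) (nat_lit 292)) (XT.nd (nat_lit 94) (nat_lit 336) (nat_lit 0) (XT.lf (nat_lit 0) (nat_lit 1379672110) (nat_lit 504) (nat_lit 2478048063) (nat_lit 84) (nat_lit 4927744025) (nat_lit 93) (nat_lit 5) (nat_lit 99) (nat_lit 5) (nat_lit 94) (nat_lit 4) (nat_lit 358) (nat_lit 296) (nat_lit 291)) (XT.lf (nat_lit 0) (nat_lit 3250798183) (nat_lit 336) (nat_lit 1426494301) (nat_lit 420) (nat_lit 4233356524) (nat_lit 89) (nat_lit 5) (nat_lit 93) (nat_lit 5) (nat_lit 94) (nat_lit 4) (nat_lit 359) (nat_lit 296) (nat_lit 290)))) (XT.nd (nat_lit 58468) (nat_lit 0) (nat_lit 2856) (XT.nd (nat_lit 94) (nat_lit 84) (nat_lit 0) (XT.lf (nat_lit 0) (nat_lit 44270841) (nat_lit 420) (nat_lit 7984474994) (nat_lit 420) (nat_lit 1012326970) (nat_lit 84) (nat_lit 4) (nat_lit 89) (nat_lit 5) (nat_lit 89)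 (nat_lit 4) (nat_lit 360) (nat_lit 296) (nat_lit 289)) (XT.lf (nat_lit 0) (nat_lit 2251446621) (nat_lit 504) (nat_lit 3285118777) (nat_lit 84) (nat_lit 3638569234) (nat_lit 83) (nat_lit 5) (nat_lit 89) (nat_lit 5) (nat_lit 84) (nat_lit 4) (nat_lit 361) (nat_lit 296) (nat_lit 288))) (XT.nd (nat_lit 94) (nat_lit 0) (nat_lit 0) (XT.lf (nat_lit 0) (nat_lit 304237740) (nat_lit 504) (nat_lit 1855531572) (nat_lit 504) (nat_lit 1855531572) (nat_lit 117) (nat_lit 4) (nat_lit 123) (nat_lit 5) (nat_lit 123) (nat_lit 4) (nat_lit 351) (nat_lit 297) (nat_lit 297)) (XT.lf (nat_lit 0) (nat_lit 6063736603) (nat_lit 504) (nat_lit 1643144932) (nat_lit 504) (nat_lit 420302494) (nat_lit 117) (nat_lit 4) (nat_lit 123) (nat_lit 5) (nat_lit 123) (nat_lit 4) (nat_lit 352) (nat_lit 297) (nat_lit 296))))))) (XT.nd (nat_lit 59314) (nat_lit 0) (nat_lit 420) (XT.nd (nat_lit 564) (nat_lit 840) (nat_lit 0) (XT.nd (nat_lit 282) (nat_lit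 924) (nat_lit 0) (XT.nd (nat_lit 94) (nat_lit 588) (nat_lit 0) (XT.lf (nat_lit 0) (nat_lit 2860584695) (nat_lit 504) (nat_lit 4846195178) (nat_lit 0) (nat_lit 520712749) (nat_lit 111) (nat_lit 5) (nat_lit 117) (nat_lit 4) (nat_lit 111) (nat_lit 4) (nat_lit 353) (nat_lit 297) (nat_lit 295)) (XT.nd (nat_lit 94) (nat_lit 84) (nat_lit 0) (XT.lf (nat_lit 0) (nat_lit 583743540) (nat_lit 504) (nat_lit 5603684681) (nat_lit 504) (nat_lit 2144738678) (nat_lit 105) (nat_lit 4) (nat_lit 111) (nat_lit 5) (nat_lit 111) (nat_lit 4) (nat_lit 354) (nat_lit 297) (nat_lit 294)) (XT.lf (nat_lit 0) (nat_lit 1114161353) (nat_lit 588) (nat_lit 2283678122) (nat_lit 84) (nat_lit 5043065420) (nat_lit 104) (nat_lit 5) (nat_lit 111) (nat_lit 5) (nat_lit 105) (nat_lit 4) (nat_lit 355) (nat_lit 297) (nat_lit 293)))) (XT.nd (nat_lit 94) (nat_lit 504) (nat_lit 0) (XT.lf (nat_lit 0) (nat_lit 3281678948) (nat_lit 420) (nat_lit 1093660582)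 (nat_lit 504) (nat_lit 4178646865) (nat_lit 99) (nat_lit 5) (nat_lit 104) (nat_lit 5) (nat_lit 105) (nat_lit 4) (nat_lit 356) (nat_lit 297) (nat_lit 292)) (XT.nd (nat_lit 94) (nat_lit 84) (nat_lit 0) (XT.lf (nat_lit 0) (nat_lit 276413581) (nat_lit 420) (nat_lit 7413476035) (nat_lit 420) (nat_lit 982047308) (nat_lit 94) (nat_lit 4) (nat_lit 99) (nat_lit 5) (nat_lit 99) (nat_lit 4) (nat_lit 357) (nat_lit 297) (nat_lit 291)) (XT.lf (nat_lit 0) (nat_lit 2247695108) (nat_lit 504) (nat_lit 2833930769) (nat_lit 84) (nat_lit 3711798398) (nat_lit 93) (nat_lit 5) (nat_lit 99) (nat_lit 5) (nat_lit 94) (nat_lit 4) (nat_lit 358) (nat_lit 297) (nat_lit 290))))) (XT.nd (nat_lit 58374) (nat_lit 0) (nat_lit 2772) (XT.nd (nat_lit 94) (nat_lit 504) (nat_lit 0) (XT.lf (nat_lit 0) (nat_lit 2835049673) (nat_lit 336) (nat_lit 2666924916) (nat_lit 420) (nat_lit 3417999045) (nat_lit 89) (nat_lit 5) (nat_lit 93) (nat_lit 5)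 (nat_lit 94) (nat_lit 4) (nat_lit 359) (nat_lit 297) (nat_lit 289)) (XT.nd (nat_lit 94) (nat_lit 504) (nat_lit 0) (XT.lf (nat_lit 0) (nat_lit 8628163618) (nat_lit 336) (nat_lit 175793021) (nat_lit 420) (nat_lit 247987379) (nat_lit 89) (nat_lit 5) (nat_lit 93) (nat_lit 5) (nat_lit 94) (nat_lit 4) (nat_lit 360) (nat_lit 297) (nat_lit 288)) (XT.lf (nat_lit 0) (nat_lit 2956368431) (nat_lit 504) (nat_lit 3830878643) (nat_lit 84) (nat_lit 2399932299) (nat_lit 83) (nat_lit 5) (nat_lit 89) (nat_lit 5) (nat_lit 84) (nat_lit 4) (nat_lit 361) (nat_lit 297) (nat_lit 287)))) (XT.nd (nat_lit 188) (nat_lit 588) (nat_lit 0) (XT.nd (nat_lit 94) (nat_lit 588) (nat_lit 0) (XT.lf (nat_lit 0) (nat_lit 2912493372) (nat_lit 588) (nat_lit 505906234) (nat_lit 588) (nat_lit 505906234) (nat_lit 130) (nat_lit 4) (nat_lit 137) (nat_lit 5) (nat_lit 137) (nat_lit 4) (nat_lit 349) (nat_lit 298) (nat_lit 298)) (XT.lf (nat_lit 0)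 (nat_lit 2249172376) (nat_lit 588) (nat_lit 4699422259) (nat_lit 0) (nat_lit 989644666) (nat_lit 123) (nat_lit 5) (nat_lit 130) (nat_lit 4) (nat_lit 123) (nat_lit 4) (nat_lit 350) (nat_lit 298) (nat_lit 297))) (XT.nd (nat_lit 94) (nat_lit 84) (nat_lit 0) (XT.lf (nat_lit 0) (nat_lit 555171491) (nat_lit 504) (nat_lit 4979607742) (nat_lit 504) (nat_lit 2497237594) (nat_lit 117) (nat_lit 4) (nat_lit 123) (nat_lit 5) (nat_lit 123) (nat_lit 4) (nat_lit 351) (nat_lit 298) (nat_lit 296)) (XT.lf (nat_lit 0) (nat_lit 734533373) (nat_lit 588) (nat_lit 2178493067) (nat_lit 84) (nat_lit 5216730449) (nat_lit 116) (nat_lit 5) (nat_lit 123) (nat_lit 5) (nat_lit 117) (nat_lit 4) (nat_lit 352) (nat_lit 298) (nat_lit 295)))))) (XT.nd (nat_lit 564) (nat_lit 420) (nat_lit 0) (XT.nd (nat_lit 282) (nat_lit 924) (nat_lit 0) (XT.nd (nat_lit 94) (nat_lit 588) (nat_lit 0) (XT.lf (nat_lit 0) (nat_lit 3212917625) (nat_lit 420)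 (nat_lit 745289132) (nat_lit 504) (nat_lit 4273286991) (nat_lit 111) (nat_lit 5) (nat_lit 116) (nat_lit 5) (nat_lit 117) (nat_lit 4) (nat_lit 353) (nat_lit 298) (nat_lit 294)) (XT.nd (nat_lit 94) (nat_lit 84) (nat_lit 0) (XT.lf (nat_lit 0) (nat_lit 362310034) (nat_lit 504) (nat_lit 6871864587) (nat_lit 504) (nat_lit 1103596479) (nat_lit 105) (nat_lit 4) (nat_lit 111) (nat_lit 5) (nat_lit 111) (nat_lit 4) (nat_lit 354) (nat_lit 298) (nat_lit 293)) (XT.lf (nat_lit 0) (nat_lit 2093643651) (nat_lit 588) (nat_lit 2573006124) (nat_lit 84) (nat_lit 3780871778) (nat_lit 104) (nat_lit 5) (nat_lit 111) (nat_lit 5) (nat_lit 105) (nat_lit 4) (nat_lit 355) (nat_lit 298) (nat_lit 292)))) (XT.nd (nat_lit 94) (nat_lit 504) (nat_lit 0) (XT.lf (nat_lit 0) (nat_lit 2934823125) (nat_lit 420) (nat_lit 2376525225) (nat_lit 504) (nat_lit 3250629193) (nat_lit 99) (nat_lit 5) (nat_lit 104) (nat_lit 5) (nat_lit 105) (nat_lit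 4) (nat_lit 356) (nat_lit 298) (nat_lit 291)) (XT.nd (nat_lit 94) (nat_lit 504) (nat_lit 0) (XT.lf (nat_lit 0) (nat_lit 8558599952) (nat_lit 420) (nat_lit 12876296) (nat_lit 504) (nat_lit 110152730) (nat_lit 99) (nat_lit 5) (nat_lit 104) (nat_lit 5) (nat_lit 105) (nat_lit 4) (nat_lit 357) (nat_lit 298) (nat_lit 290)) (XT.lf (nat_lit 0) (nat_lit 3061889534) (nat_lit 504) (nat_lit 3305548655) (nat_lit 84) (nat_lit 2436711615) (nat_lit 93) (nat_lit 5) (nat_lit 99) (nat_lit 5) (nat_lit 94) (nat_lit 4) (nat_lit 358) (nat_lit 298) (nat_lit 289))))) (XT.nd (nat_lit 58280) (nat_lit 0) (nat_lit 2436) (XT.nd (nat_lit 94) (nat_lit 84) (nat_lit 0) (XT.lf (nat_lit 0) (nat_lit 2302799994) (nat_lit 336) (nat_lit 3970054203) (nat_lit 420) (nat_lit 2659206860) (nat_lit 89) (nat_lit 5) (nat_lit 93) (nat_lit 5) (nat_lit 94) (nat_lit 4) (nat_lit 359) (nat_lit 298) (nat_lit 288)) (XT.nd (nat_lit 58092) (nat_lit 0) (nat_lit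 4116) (XT.lf (nat_lit 0) (nat_lit 462841606) (nat_lit 420) (nat_lit 1023595800) (nat_lit 84) (nat_lit 7578645462) (nat_lit 88) (nat_lit 5) (nat_lit 93) (nat_lit 5) (nat_lit 89) (nat_lit 5) (nat_lit 360) (nat_lit 298) (nat_lit 287)) (XT.lf (nat_lit 0) (nat_lit 790898185) (nat_lit 672) (nat_lit 2257745998) (nat_lit 0) (nat_lit 790898185) (nat_lit 137) (nat_lit 5) (nat_lit 145) (nat_lit 4) (nat_lit 137) (nat_lit 4) (nat_lit 347) (nat_lit 299) (nat_lit 299)))) (XT.nd (nat_lit 188) (nat_lit 1008) (nat_lit 0) (XT.nd (nat_lit 94) (nat_lit 84) (nat_lit 0) (XT.lf (nat_lit 0) (nat_lit 558347745) (nat_lit 588) (nat_lit 4270219262) (nat_lit 588) (nat_lit 2933986314) (nat_lit 130) (nat_lit 4) (nat_lit 137) (nat_lit 5) (nat_lit 137) (nat_lit 4) (nat_lit 348) (nat_lit 299) (nat_lit 298)) (XT.lf (nat_lit 0) (nat_lit 273577817) (nat_lit 672) (nat_lit 2078183519) (nat_lit 84) (nat_lit 5498181186) (nat_lit 129) (nat_lit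 5) (nat_lit 137) (nat_lit 5) (nat_lit 130) (nat_lit 4) (nat_lit 349) (nat_lit 299) (nat_lit 297))) (XT.nd (nat_lit 94) (nat_lit 504) (nat_lit 0) (XT.lf (nat_lit 0) (nat_lit 3132310637) (nat_lit 504) (nat_lit 328470070) (nat_lit 588) (nat_lit 4480205231) (nat_lit 123) (nat_lit 5) (nat_lit 129) (nat_lit 5) (nat_lit 130) (nat_lit 4) (nat_lit 350) (nat_lit 299) (nat_lit 296)) (XT.lf (nat_lit 0) (nat_lit 395212948) (nat_lit 504) (nat_lit 6303979821) (nat_lit 504) (nat_lit 1337070464) (nat_lit 117) (nat_lit 4) (nat_lit 123) (nat_lit 5) (nat_lit 123) (nat_lit 4) (nat_lit 351) (nat_lit 299) (nat_lit 295))))))))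
noncomputable def xc1 : XT := (XT.nd (nat_lit 117876) (nat_lit 0) (nat_lit 0) (XT.nd (nat_lit 59032) (nat_lit 0) (nat_lit 0) (XT.nd (nat_lit 564) (nat_lit 840) (nat_lit 0) (XT.nd (nat_lit 282) (nat_lit 588) (nat_lit 0) (XT.nd (nat_lit 94) (nat_lit 924) (nat_lit 0) (XT.lf (nat_lit 0) (nat_lit 1829823415) (nat_lit 588) (nat_lit 2405014102) (nat_lit 84) (nat_lit 3900177460) (nat_lit 116) (nat_lit 5) (nat_lit 123) (nat_lit 5) (nat_lit 117) (nat_lit 4) (nat_lit 352) (nat_lit 299) (nat_lit 294)) (XT.nd (nat_lit 94) (nat_lit 504) (nat_lit 0) (XT.lf (nat_lit 0) (nat_lit 2931226133) (nat_lit 420) (nat_lit 2078555062) (nat_lit 504) (nat_lit 3228358916) (nat_lit 111) (nat_lit 5) (nat_lit 116) (nat_lit 5) (nat_lit 117) (nat_lit 4) (nat_lit 353) (nat_lit 299) (nat_lit 293)) (XT.lf (nat_lit 0) (nat_lit 29917938) (nat_lit 504) (nat_lit 8199448015) (nat_lit 504) (nat_lit 116817568) (nat_lit 105) (nat_lit 4) (nat_lit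 111) (nat_lit 5) (nat_lit 111) (nat_lit 4) (nat_lit 354) (nat_lit 299) (nat_lit 292)))) (XT.nd (nat_lit 94) (nat_lit 504) (nat_lit 0) (XT.lf (nat_lit 0) (nat_lit 3021027663) (nat_lit 588) (nat_lit 2974055579) (nat_lit 84) (nat_lit 2461840632) (nat_lit 104) (nat_lit 5) (nat_lit 111) (nat_lit 5) (nat_lit 105) (nat_lit 4) (nat_lit 355) (nat_lit 299) (nat_lit 291)) (XT.nd (nat_lit 94) (nat_lit 84) (nat_lit 0) (XT.lf (nat_lit 0) (nat_lit 2475530224) (nat_lit 420) (nat_lit 3719816951) (nat_lit 504) (nat_lit 2377402485) (nat_lit 99) (nat_lit 5) (nat_lit 104) (nat_lit 5) (nat_lit 105) (nat_lit 4) (nat_lit 356) (nat_lit 299) (nat_lit 290)) (XT.lf (nat_lit 0) (nat_lit 709435244) (nat_lit 504) (nat_lit 650062509) (nat_lit 84) (nat_lit 7333910063) (nat_lit 98) (nat_lit 5) (nat_lit 104) (nat_lit 5) (nat_lit 99) (nat_lit 5) (nat_lit 357) (nat_lit 299) (nat_lit 289))))) (XT.nd (nat_lit 58092) (nat_lit 0) (nat_lit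 3528) (XT.nd (nat_lit 94) (nat_lit 420) (nat_lit 0) (XT.lf (nat_lit 0) (nat_lit 3822966822) (nat_lit 504) (nat_lit 3893313816) (nat_lit 84) (nat_lit 1101369524) (nat_lit 93) (nat_lit 5) (nat_lit 99) (nat_lit 5) (nat_lit 94) (nat_lit 4) (nat_lit 358) (nat_lit 299) (nat_lit 288)) (XT.nd (nat_lit 94) (nat_lit 84) (nat_lit 0) (XT.lf (nat_lit 0) (nat_lit 1653584076) (nat_lit 336) (nat_lit 5337020818) (nat_lit 420) (nat_lit 1956316948) (nat_lit 89) (nat_lit 5) (nat_lit 93) (nat_lit 5) (nat_lit 94) (nat_lit 4) (nat_lit 359) (nat_lit 299) (nat_lit 287)) (XT.lf (nat_lit 0) (nat_lit 1115126714) (nat_lit 420) (nat_lit 1743524381) (nat_lit 84) (nat_lit 6222253675) (nat_lit 88) (nat_lit 5) (nat_lit 93) (nat_lit 5) (nat_lit 89) (nat_lit 5) (nat_lit 360) (nat_lit 299) (nat_lit 286)))) (XT.nd (nat_lit 188) (nat_lit 1260) (nat_lit 0) (XT.nd (nat_lit 94) (nat_lit 0) (nat_lit 0) (XT.lf (nat_lit 0) (nat_lit 331926992)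 (nat_lit 588) (nat_lit 1714555020) (nat_lit 588) (nat_lit 1714555020) (nat_lit 145) (nat_lit 4) (nat_lit 152) (nat_lit 5) (nat_lit 152) (nat_lit 4) (nat_lit 345) (nat_lit 300) (nat_lit 300)) (XT.lf (nat_lit 0) (nat_lit 5687844762) (nat_lit 588) (nat_lit 1664685987) (nat_lit 588) (nat_lit 247076452) (nat_lit 145) (nat_lit 4) (nat_lit 152) (nat_lit 5) (nat_lit 152) (nat_lit 4) (nat_lit 346) (nat_lit 300) (nat_lit 299))) (XT.nd (nat_lit 94) (nat_lit 588) (nat_lit 0) (XT.lf (nat_lit 0) (nat_lit 2913309743) (nat_lit 672) (nat_lit 4566456792) (nat_lit 0) (nat_lit 200756859) (nat_lit 137) (nat_lit 5) (nat_lit 145) (nat_lit 4) (nat_lit 137) (nat_lit 4) (nat_lit 347) (nat_lit 300) (nat_lit 298)) (XT.lf (nat_lit 0) (nat_lit 455903510) (nat_lit 588) (nat_lit 5659690595) (nat_lit 588) (nat_lit 1649824169) (nat_lit 130) (nat_lit 4) (nat_lit 137) (nat_lit 5) (nat_lit 137) (nat_lit 4) (nat_lit 348) (nat_lit 300)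 (nat_lit 297)))))) (XT.nd (nat_lit 564) (nat_lit 1848) (nat_lit 0) (XT.nd (nat_lit 282) (nat_lit 588) (nat_lit 0) (XT.nd (nat_lit 94) (nat_lit 1008) (nat_lit 0) (XT.lf (nat_lit 0) (nat_lit 1489465752) (nat_lit 672) (nat_lit 2245778660) (nat_lit 84) (nat_lit 4118575651) (nat_lit 129) (nat_lit 5) (nat_lit 137) (nat_lit 5) (nat_lit 130) (nat_lit 4) (nat_lit 349) (nat_lit 300) (nat_lit 296)) (XT.nd (nat_lit 94) (nat_lit 504) (nat_lit 0) (XT.lf (nat_lit 0) (nat_lit 2911927850) (nat_lit 504) (nat_lit 1720665462) (nat_lit 588) (nat_lit 3313676352) (nat_lit 123) (nat_lit 5) (nat_lit 129) (nat_lit 5) (nat_lit 130) (nat_lit 4) (nat_lit 350) (nat_lit 300) (nat_lit 295)) (XT.lf (nat_lit 0) (nat_lit 128460082) (nat_lit 504) (nat_lit 7685336602) (nat_lit 504) (nat_lit 229548017) (nat_lit 117) (nat_lit 4) (nat_lit 123) (nat_lit 5) (nat_lit 123) (nat_lit 4) (nat_lit 351) (nat_lit 300) (nat_lit 294)))) (XT.nd (nat_lit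 94) (nat_lit 504) (nat_lit 0) (XT.lf (nat_lit 0) (nat_lit 2874726295) (nat_lit 588) (nat_lit 2739168260) (nat_lit 84) (nat_lit 2529189543) (nat_lit 116) (nat_lit 5) (nat_lit 123) (nat_lit 5) (nat_lit 117) (nat_lit 4) (nat_lit 352) (nat_lit 300) (nat_lit 293)) (XT.nd (nat_lit 94) (nat_lit 84) (nat_lit 0) (XT.lf (nat_lit 0) (nat_lit 2541235008) (nat_lit 420) (nat_lit 3469886822) (nat_lit 504) (nat_lit 2236468836) (nat_lit 111) (nat_lit 5) (nat_lit 116) (nat_lit 5) (nat_lit 117) (nat_lit 4) (nat_lit 353) (nat_lit 300) (nat_lit 292)) (XT.lf (nat_lit 0) (nat_lit 816685202) (nat_lit 504) (nat_lit 425678305) (nat_lit 84) (nat_lit 7114327850) (nat_lit 110) (nat_lit 5) (nat_lit 116) (nat_lit 5) (nat_lit 111) (nat_lit 5) (nat_lit 354) (nat_lit 300) (nat_lit 291))))) (XT.nd (nat_lit 282) (nat_lit 840) (nat_lit 0) (XT.nd (nat_lit 94) (nat_lit 504) (nat_lit 0) (XT.lf (nat_lit 0) (nat_lit 3897123725) (nat_lit 588)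 (nat_lit 3487176921) (nat_lit 84) (nat_lit 1084819430) (nat_lit 104) (nat_lit 5) (nat_lit 111) (nat_lit 5) (nat_lit 105) (nat_lit 4) (nat_lit 355) (nat_lit 300) (nat_lit 290)) (XT.nd (nat_lit 94) (nat_lit 84) (nat_lit 0) (XT.lf (nat_lit 0) (nat_lit 1903398922) (nat_lit 420) (nat_lit 5124709510) (nat_lit 504) (nat_lit 1558203725) (nat_lit 99) (nat_lit 5) (nat_lit 104) (nat_lit 5) (nat_lit 105) (nat_lit 4) (nat_lit 356) (nat_lit 300) (nat_lit 289)) (XT.lf (nat_lit 0) (nat_lit 1475028668) (nat_lit 504) (nat_lit 1291818647) (nat_lit 84) (nat_lit 5941077802) (nat_lit 98) (nat_lit 5) (nat_lit 104) (nat_lit 5) (nat_lit 99) (nat_lit 5) (nat_lit 357) (nat_lit 300) (nat_lit 288)))) (XT.nd (nat_lit 188) (nat_lit 84) (nat_lit 0) (XT.nd (nat_lit 94) (nat_lit 336) (nat_lit 0) (XT.lf (nat_lit 0) (nat_lit 4233214403) (nat_lit 420) (nat_lit 301273612) (nat_lit 504) (nat_lit 4299362246) (nat_lit 93) (nat_lit 5) (nat_lit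 98) (nat_lit 5) (nat_lit 99) (nat_lit 5) (nat_lit 358) (nat_lit 300) (nat_lit 287)) (XT.lf (nat_lit 0) (nat_lit 886834641) (nat_lit 336) (nat_lit 6769019197) (nat_lit 420) (nat_lit 1308715133) (nat_lit 89) (nat_lit 5) (nat_lit 93) (nat_lit 5) (nat_lit 94) (nat_lit 4) (nat_lit 359) (nat_lit 300) (nat_lit 286))) (XT.nd (nat_lit 57716) (nat_lit 0) (nat_lit 6048) (XT.lf (nat_lit 0) (nat_lit 1714277029) (nat_lit 420) (nat_lit 2581811402) (nat_lit 84) (nat_lit 4803406634) (nat_lit 88) (nat_lit 5) (nat_lit 93) (nat_lit 5) (nat_lit 89) (nat_lit 5) (nat_lit 360) (nat_lit 300) (nat_lit 285)) (XT.lf (nat_lit 0) (nat_lit 2880828596) (nat_lit 1260) (nat_lit 403889292) (nat_lit 1260) (nat_lit 403889292) (nat_lit 160) (nat_lit 4) (nat_lit 175) (nat_lit 5) (nat_lit 175) (nat_lit 4) (nat_lit 343) (nat_lit 301) (nat_lit 301))))))) (XT.nd (nat_lit 1222) (nat_lit 924) (nat_lit 0) (XT.nd (nat_lit 564) (nat_lit 2520) (nat_lit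 0) (XT.nd (nat_lit 282) (nat_lit 1260) (nat_lit 0) (XT.nd (nat_lit 94) (nat_lit 672) (nat_lit 0) (XT.lf (nat_lit 0) (nat_lit 2341086152) (nat_lit 672) (nat_lit 4226383838) (nat_lit 0) (nat_lit 880948332) (nat_lit 152) (nat_lit 5) (nat_lit 160) (nat_lit 4) (nat_lit 152) (nat_lit 4) (nat_lit 344) (nat_lit 301) (nat_lit 300)) (XT.nd (nat_lit 94) (nat_lit 84) (nat_lit 0) (XT.lf (nat_lit 0) (nat_lit 614794425) (nat_lit 588) (nat_lit 4893239622) (nat_lit 588) (nat_lit 2015492267) (nat_lit 145) (nat_lit 4) (nat_lit 152) (nat_lit 5) (nat_lit 152) (nat_lit 4) (nat_lit 345) (nat_lit 301) (nat_lit 299)) (XT.lf (nat_lit 0) (nat_lit 1099494139) (nat_lit 672) (nat_lit 2022094189) (nat_lit 84) (nat_lit 4480557686) (nat_lit 144) (nat_lit 5) (nat_lit 152) (nat_lit 5) (nat_lit 145) (nat_lit 4) (nat_lit 346) (nat_lit 301) (nat_lit 298)))) (XT.nd (nat_lit 94) (nat_lit 672) (nat_lit 0) (XT.lf (nat_lit 0) (nat_lit 2953014067)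 (nat_lit 588) (nat_lit 1255515148) (nat_lit 672) (nat_lit 3475949342) (nat_lit 137) (nat_lit 5) (nat_lit 144) (nat_lit 5) (nat_lit 145) (nat_lit 4) (nat_lit 347) (nat_lit 301) (nat_lit 297)) (XT.nd (nat_lit 94) (nat_lit 84) (nat_lit 0) (XT.lf (nat_lit 0) (nat_lit 250925525) (nat_lit 588) (nat_lit 7103614415) (nat_lit 588) (nat_lit 416610743) (nat_lit 130) (nat_lit 4) (nat_lit 137) (nat_lit 5) (nat_lit 137) (nat_lit 4) (nat_lit 348) (nat_lit 301) (nat_lit 296)) (XT.lf (nat_lit 0) (nat_lit 2656657866) (nat_lit 672) (nat_lit 2516830640) (nat_lit 84) (nat_lit 2687050965) (nat_lit 129) (nat_lit 5) (nat_lit 137) (nat_lit 5) (nat_lit 130) (nat_lit 4) (nat_lit 349) (nat_lit 301) (nat_lit 295))))) (XT.nd (nat_lit 282) (nat_lit 1428) (nat_lit 0) (XT.nd (nat_lit 94) (nat_lit 588) (nat_lit 0) (XT.lf (nat_lit 0) (nat_lit 2587469583) (nat_lit 504) (nat_lit 3168462120) (nat_lit 588) (nat_lit 2198454462) (nat_lit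 123) (nat_lit 5) (nat_lit 129) (nat_lit 5) (nat_lit 130) (nat_lit 4) (nat_lit 350) (nat_lit 301) (nat_lit 294)) (XT.nd (nat_lit 94) (nat_lit 504) (nat_lit 0) (XT.lf (nat_lit 0) (nat_lit 823141687) (nat_lit 588) (nat_lit 259086064) (nat_lit 84) (nat_lit 6970412331) (nat_lit 122) (nat_lit 5) (nat_lit 129) (nat_lit 5) (nat_lit 123) (nat_lit 5) (nat_lit 351) (nat_lit 301) (nat_lit 293)) (XT.lf (nat_lit 0) (nat_lit 3870155037) (nat_lit 588) (nat_lit 3181247519) (nat_lit 84) (nat_lit 1102568744) (nat_lit 116) (nat_lit 5) (nat_lit 123) (nat_lit 5) (nat_lit 117) (nat_lit 4) (nat_lit 352) (nat_lit 301) (nat_lit 292)))) (XT.nd (nat_lit 188) (nat_lit 924) (nat_lit 0) (XT.nd (nat_lit 94) (nat_lit 84) (nat_lit 0) (XT.lf (nat_lit 0) (nat_lit 2042603481) (nat_lit 420) (nat_lit 4920500141) (nat_lit 504) (nat_lit 1296750049) (nat_lit 111) (nat_lit 5) (nat_lit 116) (nat_lit 5) (nat_lit 117) (nat_lit 4) (nat_lit 353)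 (nat_lit 301) (nat_lit 291)) (XT.lf (nat_lit 0) (nat_lit 1699648168) (nat_lit 504) (nat_lit 992801962) (nat_lit 84) (nat_lit 5677454032) (nat_lit 110) (nat_lit 5) (nat_lit 116) (nat_lit 5) (nat_lit 111) (nat_lit 5) (nat_lit 354) (nat_lit 301) (nat_lit 290))) (XT.nd (nat_lit 94) (nat_lit 420) (nat_lit 0) (XT.lf (nat_lit 0) (nat_lit 4367753907) (nat_lit 504) (nat_lit 358388500) (nat_lit 588) (nat_lit 3757875056) (nat_lit 104) (nat_lit 5) (nat_lit 110) (nat_lit 5) (nat_lit 111) (nat_lit 5) (nat_lit 355) (nat_lit 301) (nat_lit 289)) (XT.lf (nat_lit 0) (nat_lit 1217929299) (nat_lit 420) (nat_lit 6592430478) (nat_lit 504) (nat_lit 792317110) (nat_lit 99) (nat_lit 5) (nat_lit 104) (nat_lit 5) (nat_lit 105) (nat_lit 4) (nat_lit 356) (nat_lit 301) (nat_lit 288)))))) (XT.nd (nat_lit 57998) (nat_lit 0) (nat_lit 3444) (XT.nd (nat_lit 282) (nat_lit 84) (nat_lit 0) (XT.nd (nat_lit 94) (nat_lit 756) (nat_lit 0)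 (XT.lf (nat_lit 0) (nat_lit 2189445982) (nat_lit 504) (nat_lit 2047799345) (nat_lit 84) (nat_lit 4487980006) (nat_lit 98) (nat_lit 5) (nat_lit 104) (nat_lit 5) (nat_lit 99) (nat_lit 5) (nat_lit 357) (nat_lit 301) (nat_lit 287)) (XT.nd (nat_lit 94) (nat_lit 336) (nat_lit 0) (XT.lf (nat_lit 0) (nat_lit 3415862701) (nat_lit 420) (nat_lit 1789725458) (nat_lit 504) (nat_lit 3646920698) (nat_lit 93) (nat_lit 5) (nat_lit 98) (nat_lit 5) (nat_lit 99) (nat_lit 5) (nat_lit 358) (nat_lit 301) (nat_lit 286)) (XT.lf (nat_lit 0) (nat_lit 1881716) (nat_lit 336) (nat_lit 8267300602) (nat_lit 420) (nat_lit 715835549) (nat_lit 89) (nat_lit 5) (nat_lit 93) (nat_lit 5) (nat_lit 94) (nat_lit 4) (nat_lit 359) (nat_lit 301) (nat_lit 285)))) (XT.nd (nat_lit 57528) (nat_lit 0) (nat_lit 6048) (XT.lf (nat_lit 0) (nat_lit 2260816079) (nat_lit 420) (nat_lit 3539189345) (nat_lit 84) (nat_lit 3320864570) (nat_lit 88) (nat_lit 5)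 (nat_lit 93) (nat_lit 5) (nat_lit 89) (nat_lit 5) (nat_lit 360) (nat_lit 301) (nat_lit 284)) (XT.nd (nat_lit 94) (nat_lit 1260) (nat_lit 0) (XT.lf (nat_lit 0) (nat_lit 879469172) (nat_lit 1260) (nat_lit 1862760152) (nat_lit 0) (nat_lit 879469172) (nat_lit 175) (nat_lit 5) (nat_lit 190) (nat_lit 4) (nat_lit 175) (nat_lit 4) (nat_lit 341) (nat_lit 302) (nat_lit 302)) (XT.lf (nat_lit 0) (nat_lit 933756359) (nat_lit 1260) (nat_lit 3962219636) (nat_lit 1260) (nat_lit 2413159422) (nat_lit 160) (nat_lit 4) (nat_lit 175) (nat_lit 5) (nat_lit 175) (nat_lit 4) (nat_lit 342) (nat_lit 302) (nat_lit 301))))) (XT.nd (nat_lit 282) (nat_lit 1344) (nat_lit 0) (XT.nd (nat_lit 94) (nat_lit 1176) (nat_lit 0) (XT.lf (nat_lit 0) (nat_lit 681365569) (nat_lit 1344) (nat_lit 1669830064) (nat_lit 84) (nat_lit 5027271707) (nat_lit 159) (nat_lit 5) (nat_lit 175) (nat_lit 5) (nat_lit 160) (nat_lit 4) (nat_lit 343) (nat_lit 302)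 (nat_lit 300)) (XT.nd (nat_lit 94) (nat_lit 588) (nat_lit 0) (XT.lf (nat_lit 0) (nat_lit 3120972889) (nat_lit 588) (nat_lit 639673849) (nat_lit 672) (nat_lit 3690506455) (nat_lit 152) (nat_lit 5) (nat_lit 159) (nat_lit 5) (nat_lit 160) (nat_lit 4) (nat_lit 344) (nat_lit 302) (nat_lit 299)) (XT.lf (nat_lit 0) (nat_lit 467572876) (nat_lit 588) (nat_lit 6409160346) (nat_lit 588) (nat_lit 651151099) (nat_lit 145) (nat_lit 4) (nat_lit 152) (nat_lit 5) (nat_lit 152) (nat_lit 4) (nat_lit 345) (nat_lit 302) (nat_lit 298)))) (XT.nd (nat_lit 188) (nat_lit 672) (nat_lit 0) (XT.nd (nat_lit 94) (nat_lit 588) (nat_lit 0) (XT.lf (nat_lit 0) (nat_lit 2394218155) (nat_lit 672) (nat_lit 2233979339) (nat_lit 84) (nat_lit 2979294606) (nat_lit 144) (nat_lit 5) (nat_lit 152) (nat_lit 5) (nat_lit 145) (nat_lit 4) (nat_lit 346) (nat_lit 302) (nat_lit 297)) (XT.lf (nat_lit 0) (nat_lit 2690183928) (nat_lit 588) (nat_lit 2768801128)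 (nat_lit 672) (nat_lit 2232256670) (nat_lit 137) (nat_lit 5) (nat_lit 144) (nat_lit 5) (nat_lit 145) (nat_lit 4) (nat_lit 347) (nat_lit 302) (nat_lit 296))) (XT.nd (nat_lit 94) (nat_lit 588) (nat_lit 0) (XT.lf (nat_lit 0) (nat_lit 760468931) (nat_lit 672) (nat_lit 71181346) (nat_lit 84) (nat_lit 6947623198) (nat_lit 136) (nat_lit 5) (nat_lit 144) (nat_lit 5) (nat_lit 137) (nat_lit 5) (nat_lit 348) (nat_lit 302) (nat_lit 295)) (XT.lf (nat_lit 0) (nat_lit 3776174036) (nat_lit 672) (nat_lit 2891576302) (nat_lit 84) (nat_lit 1202356283) (nat_lit 129) (nat_lit 5) (nat_lit 137) (nat_lit 5) (nat_lit 130) (nat_lit 4) (nat_lit 349) (nat_lit 302) (nat_lit 294))))))))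
noncomputable def xc2 : XT := (XT.nd (nat_lit 59690) (nat_lit 0) (nat_lit 0) (XT.nd (nat_lit 58468) (nat_lit 0) (nat_lit 1848) (XT.nd (nat_lit 564) (nat_lit 1344) (nat_lit 0) (XT.nd (nat_lit 282) (nat_lit 1008) (nat_lit 0) (XT.nd (nat_lit 94) (nat_lit 588) (nat_lit 0) (XT.lf (nat_lit 0) (nat_lit 2158652330) (nat_lit 504) (nat_lit 4673125111) (nat_lit 588) (nat_lit 1133565096) (nat_lit 123) (nat_lit 5) (nat_lit 129) (nat_lit 5) (nat_lit 130) (nat_lit 4) (nat_lit 350) (nat_lit 302) (nat_lit 293)) (XT.nd (nat_lit 94) (nat_lit 504) (nat_lit 0) (XT.lf (nat_lit 0) (nat_lit 1827959939) (nat_lit 588) (nat_lit 755208343) (nat_lit 84) (nat_lit 5481374386) (nat_lit 122) (nat_lit 5) (nat_lit 129) (nat_lit 5) (nat_lit 123) (nat_lit 5) (nat_lit 351) (nat_lit 302) (nat_lit 292)) (XT.lf (nat_lit 0) (nat_lit 4432201274) (nat_lit 504) (nat_lit 388512779) (nat_lit 588) (nat_lit 3346860006) (nat_lit 116) (nat_lit 5)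 (nat_lit 122) (nat_lit 5) (nat_lit 123) (nat_lit 5) (nat_lit 352) (nat_lit 302) (nat_lit 291)))) (XT.nd (nat_lit 94) (nat_lit 588) (nat_lit 0) (XT.lf (nat_lit 0) (nat_lit 1434895855) (nat_lit 420) (nat_lit 6431662545) (nat_lit 504) (nat_lit 408381444) (nat_lit 111) (nat_lit 5) (nat_lit 116) (nat_lit 5) (nat_lit 117) (nat_lit 4) (nat_lit 353) (nat_lit 302) (nat_lit 290)) (XT.nd (nat_lit 94) (nat_lit 504) (nat_lit 0) (XT.lf (nat_lit 0) (nat_lit 2533381967) (nat_lit 504) (nat_lit 1669956636) (nat_lit 84) (nat_lit 4182580783) (nat_lit 110) (nat_lit 5) (nat_lit 116) (nat_lit 5) (nat_lit 111) (nat_lit 5) (nat_lit 354) (nat_lit 302) (nat_lit 289)) (XT.lf (nat_lit 0) (nat_lit 3631750423) (nat_lit 504) (nat_lit 1884837726) (nat_lit 588) (nat_lit 2984807501) (nat_lit 104) (nat_lit 5) (nat_lit 110) (nat_lit 5) (nat_lit 111) (nat_lit 5) (nat_lit 355) (nat_lit 302) (nat_lit 288))))) (XT.nd (nat_lit 282) (nat_lit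 420) (nat_lit 0) (XT.nd (nat_lit 94) (nat_lit 504) (nat_lit 0) (XT.lf (nat_lit 0) (nat_lit 418522400) (nat_lit 420) (nat_lit 8124262330) (nat_lit 504) (nat_lit 79073417) (nat_lit 99) (nat_lit 5) (nat_lit 104) (nat_lit 5) (nat_lit 105) (nat_lit 4) (nat_lit 356) (nat_lit 302) (nat_lit 287)) (XT.nd (nat_lit 94) (nat_lit 420) (nat_lit 0) (XT.lf (nat_lit 0) (nat_lit 2853311435) (nat_lit 504) (nat_lit 2918665168) (nat_lit 84) (nat_lit 2973346979) (nat_lit 98) (nat_lit 5) (nat_lit 104) (nat_lit 5) (nat_lit 99) (nat_lit 5) (nat_lit 357) (nat_lit 302) (nat_lit 286)) (XT.lf (nat_lit 0) (nat_lit 2482688721) (nat_lit 420) (nat_lit 3343367190) (nat_lit 504) (nat_lit 3047910275) (nat_lit 93) (nat_lit 5) (nat_lit 98) (nat_lit 5) (nat_lit 99) (nat_lit 5) (nat_lit 358) (nat_lit 302) (nat_lit 285)))) (XT.nd (nat_lit 57434) (nat_lit 0) (nat_lit 8484) (XT.nd (nat_lit 94) (nat_lit 420) (nat_lit 0) (XT.lf (nat_lit 0) (nat_lit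 8017270549) (nat_lit 420) (nat_lit 831480699) (nat_lit 504) (nat_lit 159006398) (nat_lit 93) (nat_lit 5) (nat_lit 98) (nat_lit 5) (nat_lit 99) (nat_lit 5) (nat_lit 359) (nat_lit 302) (nat_lit 284)) (XT.lf (nat_lit 0) (nat_lit 2755221424) (nat_lit 420) (nat_lit 4616494756) (nat_lit 84) (nat_lit 1773332058) (nat_lit 88) (nat_lit 5) (nat_lit 93) (nat_lit 5) (nat_lit 89) (nat_lit 5) (nat_lit 360) (nat_lit 302) (nat_lit 283))) (XT.nd (nat_lit 94) (nat_lit 84) (nat_lit 0) (XT.lf (nat_lit 0) (nat_lit 733854059) (nat_lit 1092) (nat_lit 1413330119) (nat_lit 1092) (nat_lit 1413330119) (nat_lit 190) (nat_lit 4) (nat_lit 203) (nat_lit 5) (nat_lit 203) (nat_lit 4) (nat_lit 339) (nat_lit 303) (nat_lit 303)) (XT.lf (nat_lit 0) (nat_lit 251781265) (nat_lit 1176) (nat_lit 1132282011) (nat_lit 84) (nat_lit 5797436469) (nat_lit 189) (nat_lit 5) (nat_lit 203) (nat_lit 5) (nat_lit 190) (nat_lit 4) (nat_lit 340) (nat_lit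 303) (nat_lit 302)))))) (XT.nd (nat_lit 564) (nat_lit 2856) (nat_lit 0) (XT.nd (nat_lit 282) (nat_lit 1260) (nat_lit 0) (XT.nd (nat_lit 94) (nat_lit 1344) (nat_lit 0) (XT.lf (nat_lit 0) (nat_lit 3308677956) (nat_lit 1260) (nat_lit 3772116593) (nat_lit 0) (nat_lit 164085722) (nat_lit 175) (nat_lit 5) (nat_lit 190) (nat_lit 4) (nat_lit 175) (nat_lit 4) (nat_lit 341) (nat_lit 303) (nat_lit 301)) (XT.nd (nat_lit 94) (nat_lit 84) (nat_lit 0) (XT.lf (nat_lit 0) (nat_lit 840093253) (nat_lit 1260) (nat_lit 5560263357) (nat_lit 1260) (nat_lit 911729168) (nat_lit 160) (nat_lit 4) (nat_lit 175) (nat_lit 5) (nat_lit 175) (nat_lit 4) (nat_lit 342) (nat_lit 303) (nat_lit 300)) (XT.lf (nat_lit 0) (nat_lit 2109370339) (nat_lit 1344) (nat_lit 1826650220) (nat_lit 84) (nat_lit 3446388188) (nat_lit 159) (nat_lit 5) (nat_lit 175) (nat_lit 5) (nat_lit 160) (nat_lit 4) (nat_lit 343) (nat_lit 303) (nat_lit 299)))) (XT.nd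 (nat_lit 94) (nat_lit 672) (nat_lit 0) (XT.lf (nat_lit 0) (nat_lit 2915706447) (nat_lit 588) (nat_lit 2228130002) (nat_lit 672) (nat_lit 2312699898) (nat_lit 152) (nat_lit 5) (nat_lit 159) (nat_lit 5) (nat_lit 160) (nat_lit 4) (nat_lit 344) (nat_lit 303) (nat_lit 298)) (XT.nd (nat_lit 94) (nat_lit 0) (nat_lit 0) (XT.lf (nat_lit 0) (nat_lit 211066171) (nat_lit 588) (nat_lit 445341724) (nat_lit 672) (nat_lit 6878423772) (nat_lit 144) (nat_lit 5) (nat_lit 151) (nat_lit 5) (nat_lit 152) (nat_lit 5) (nat_lit 345) (nat_lit 303) (nat_lit 297)) (XT.lf (nat_lit 0) (nat_lit 3643048259) (nat_lit 672) (nat_lit 2545227983) (nat_lit 84) (nat_lit 1427445142) (nat_lit 144) (nat_lit 5) (nat_lit 152) (nat_lit 5) (nat_lit 145) (nat_lit 4) (nat_lit 346) (nat_lit 303) (nat_lit 296))))) (XT.nd (nat_lit 282) (nat_lit 1596) (nat_lit 0) (XT.nd (nat_lit 94) (nat_lit 672) (nat_lit 0) (XT.lf (nat_lit 0) (nat_lit 2327373779)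 (nat_lit 588) (nat_lit 4336427915) (nat_lit 672) (nat_lit 1037076163) (nat_lit 137) (nat_lit 5) (nat_lit 144) (nat_lit 5) (nat_lit 145) (nat_lit 4) (nat_lit 347) (nat_lit 303) (nat_lit 295)) (XT.nd (nat_lit 94) (nat_lit 588) (nat_lit 0) (XT.lf (nat_lit 0) (nat_lit 1892082180) (nat_lit 672) (nat_lit 500044545) (nat_lit 84) (nat_lit 5397727047) (nat_lit 136) (nat_lit 5) (nat_lit 144) (nat_lit 5) (nat_lit 137) (nat_lit 5) (nat_lit 348) (nat_lit 303) (nat_lit 294)) (XT.lf (nat_lit 0) (nat_lit 4508785701) (nat_lit 588) (nat_lit 343508796) (nat_lit 672) (nat_lit 3030136313) (nat_lit 129) (nat_lit 5) (nat_lit 136) (nat_lit 5) (nat_lit 137) (nat_lit 5) (nat_lit 349) (nat_lit 303) (nat_lit 293)))) (XT.nd (nat_lit 188) (nat_lit 1008) (nat_lit 0) (XT.nd (nat_lit 94) (nat_lit 84) (nat_lit 0) (XT.lf (nat_lit 0) (nat_lit 1625101395) (nat_lit 504) (nat_lit 6235969187) (nat_lit 588) (nat_lit 118077768) (nat_lit 123)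 (nat_lit 5) (nat_lit 129) (nat_lit 5) (nat_lit 130) (nat_lit 4) (nat_lit 350) (nat_lit 303) (nat_lit 292)) (XT.lf (nat_lit 0) (nat_lit 2785484572) (nat_lit 588) (nat_lit 1357095787) (nat_lit 84) (nat_lit 3936692081) (nat_lit 122) (nat_lit 5) (nat_lit 129) (nat_lit 5) (nat_lit 123) (nat_lit 5) (nat_lit 351) (nat_lit 303) (nat_lit 291))) (XT.nd (nat_lit 94) (nat_lit 504) (nat_lit 0) (XT.lf (nat_lit 0) (nat_lit 3774004794) (nat_lit 504) (nat_lit 1960871098) (nat_lit 588) (nat_lit 2448799108) (nat_lit 116) (nat_lit 5) (nat_lit 122) (nat_lit 5) (nat_lit 123) (nat_lit 5) (nat_lit 352) (nat_lit 303) (nat_lit 290)) (XT.lf (nat_lit 0) (nat_lit 421033826) (nat_lit 504) (nat_lit 7579409023) (nat_lit 84) (nat_lit 292295681) (nat_lit 110) (nat_lit 5) (nat_lit 116) (nat_lit 5) (nat_lit 111) (nat_lit 5) (nat_lit 353) (nat_lit 303) (nat_lit 289))))))) (XT.nd (nat_lit 58280) (nat_lit 0) (nat_lit 1344) (XT.nd (nat_lit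 564) (nat_lit 336) (nat_lit 0) (XT.nd (nat_lit 282) (nat_lit 924) (nat_lit 0) (XT.nd (nat_lit 94) (nat_lit 588) (nat_lit 0) (XT.lf (nat_lit 0) (nat_lit 3318615104) (nat_lit 504) (nat_lit 2457734014) (nat_lit 84) (nat_lit 2628401903) (nat_lit 110) (nat_lit 5) (nat_lit 116) (nat_lit 5) (nat_lit 111) (nat_lit 5) (nat_lit 354) (nat_lit 303) (nat_lit 288)) (XT.nd (nat_lit 94) (nat_lit 84) (nat_lit 0) (XT.lf (nat_lit 0) (nat_lit 2784244144) (nat_lit 504) (nat_lit 3474272003) (nat_lit 588) (nat_lit 2263072741) (nat_lit 104) (nat_lit 5) (nat_lit 110) (nat_lit 5) (nat_lit 111) (nat_lit 5) (nat_lit 355) (nat_lit 303) (nat_lit 287)) (XT.lf (nat_lit 0) (nat_lit 586223973) (nat_lit 588) (nat_lit 502116895) (nat_lit 84) (nat_lit 7554900953) (nat_lit 103) (nat_lit 5) (nat_lit 110) (nat_lit 5) (nat_lit 104) (nat_lit 5) (nat_lit 356) (nat_lit 303) (nat_lit 286)))) (XT.nd (nat_lit 94) (nat_lit 504) (nat_lit 0) (XT.lf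 (nat_lit 0) (nat_lit 3467205104) (nat_lit 504) (nat_lit 3905177066) (nat_lit 84) (nat_lit 1395855254) (nat_lit 98) (nat_lit 5) (nat_lit 104) (nat_lit 5) (nat_lit 99) (nat_lit 5) (nat_lit 357) (nat_lit 303) (nat_lit 285)) (XT.nd (nat_lit 94) (nat_lit 84) (nat_lit 0) (XT.lf (nat_lit 0) (nat_lit 1432877069) (nat_lit 420) (nat_lit 4963556358) (nat_lit 504) (nat_lit 2501807570) (nat_lit 93) (nat_lit 5) (nat_lit 98) (nat_lit 5) (nat_lit 99) (nat_lit 5) (nat_lit 358) (nat_lit 303) (nat_lit 284)) (XT.lf (nat_lit 0) (nat_lit 346305806) (nat_lit 504) (nat_lit 2111402746) (nat_lit 84) (nat_lit 6575261681) (nat_lit 92) (nat_lit 5) (nat_lit 98) (nat_lit 5) (nat_lit 93) (nat_lit 5) (nat_lit 359) (nat_lit 303) (nat_lit 283))))) (XT.nd (nat_lit 57340) (nat_lit 0) (nat_lit 5964) (XT.nd (nat_lit 57152) (nat_lit 0) (nat_lit 9660) (XT.lf (nat_lit 0) (nat_lit 3197925068) (nat_lit 420) (nat_lit 5814668969) (nat_lit 84)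 (nat_lit 159456884) (nat_lit 88) (nat_lit 5) (nat_lit 93) (nat_lit 5) (nat_lit 89) (nat_lit 5) (nat_lit 360) (nat_lit 303) (nat_lit 282)) (XT.nd (nat_lit 94) (nat_lit 1092) (nat_lit 0) (XT.lf (nat_lit 0) (nat_lit 3324830676) (nat_lit 924) (nat_lit 90116624) (nat_lit 924) (nat_lit 90116624) (nat_lit 216) (nat_lit 4) (nat_lit 227) (nat_lit 5) (nat_lit 227) (nat_lit 4) (nat_lit 337) (nat_lit 304) (nat_lit 304)) (XT.lf (nat_lit 0) (nat_lit 2873192625) (nat_lit 1092) (nat_lit 3010634003) (nat_lit 0) (nat_lit 1180492704) (nat_lit 203) (nat_lit 5) (nat_lit 216) (nat_lit 4) (nat_lit 203) (nat_lit 4) (nat_lit 338) (nat_lit 304) (nat_lit 303)))) (XT.nd (nat_lit 188) (nat_lit 2520) (nat_lit 0) (XT.nd (nat_lit 94) (nat_lit 84) (nat_lit 0) (XT.lf (nat_lit 0) (nat_lit 1423198110) (nat_lit 1092) (nat_lit 4517714614) (nat_lit 1092) (nat_lit 1181616713) (nat_lit 190) (nat_lit 4) (nat_lit 203) (nat_lit 5) (nat_lit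 203) (nat_lit 4) (nat_lit 339) (nat_lit 304) (nat_lit 302)) (XT.lf (nat_lit 0) (nat_lit 1819358586) (nat_lit 1176) (nat_lit 1238331991) (nat_lit 84) (nat_lit 4126306082) (nat_lit 189) (nat_lit 5) (nat_lit 203) (nat_lit 5) (nat_lit 190) (nat_lit 4) (nat_lit 340) (nat_lit 304) (nat_lit 301))) (XT.nd (nat_lit 94) (nat_lit 1344) (nat_lit 0) (XT.lf (nat_lit 0) (nat_lit 3322467661) (nat_lit 1176) (nat_lit 1506674110) (nat_lit 1260) (nat_lit 2419755133) (nat_lit 175) (nat_lit 5) (nat_lit 189) (nat_lit 5) (nat_lit 190) (nat_lit 4) (nat_lit 341) (nat_lit 304) (nat_lit 300)) (XT.lf (nat_lit 0) (nat_lit 532779694) (nat_lit 1344) (nat_lit 6670527211) (nat_lit 84) (nat_lit 114525474) (nat_lit 159) (nat_lit 5) (nat_lit 175) (nat_lit 5) (nat_lit 160) (nat_lit 4) (nat_lit 342) (nat_lit 304) (nat_lit 299)))))) (XT.nd (nat_lit 564) (nat_lit 2688) (nat_lit 0) (XT.nd (nat_lit 282) (nat_lit 1260) (nat_lit 0) (XT.nd (nat_lit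 94) (nat_lit 672) (nat_lit 0) (XT.lf (nat_lit 0) (nat_lit 3493246169) (nat_lit 1344) (nat_lit 2078389802) (nat_lit 84) (nat_lit 1817639006) (nat_lit 159) (nat_lit 5) (nat_lit 175) (nat_lit 5) (nat_lit 160) (nat_lit 4) (nat_lit 343) (nat_lit 304) (nat_lit 298)) (XT.nd (nat_lit 94) (nat_lit 84) (nat_lit 0) (XT.lf (nat_lit 0) (nat_lit 2614951649) (nat_lit 588) (nat_lit 3868275499) (nat_lit 672) (nat_lit 981604440) (nat_lit 152) (nat_lit 5) (nat_lit 159) (nat_lit 5) (nat_lit 160) (nat_lit 4) (nat_lit 344) (nat_lit 304) (nat_lit 297)) (XT.lf (nat_lit 0) (nat_lit 1918212881) (nat_lit 672) (nat_lit 158531966) (nat_lit 84) (nat_lit 5467386720) (nat_lit 151) (nat_lit 5) (nat_lit 159) (nat_lit 5) (nat_lit 152) (nat_lit 5) (nat_lit 345) (nat_lit 304) (nat_lit 296)))) (XT.nd (nat_lit 94) (nat_lit 672) (nat_lit 0) (XT.lf (nat_lit 0) (nat_lit 4668948215) (nat_lit 588) (nat_lit 179856336) (nat_lit 672) (nat_lit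 2777984637) (nat_lit 144) (nat_lit 5) (nat_lit 151) (nat_lit 5) (nat_lit 152) (nat_lit 5) (nat_lit 346) (nat_lit 304) (nat_lit 295)) (XT.nd (nat_lit 94) (nat_lit 0) (nat_lit 0) (XT.lf (nat_lit 0) (nat_lit 108477593) (nat_lit 672) (nat_lit 5850192276) (nat_lit 84) (nat_lit 1754693596) (nat_lit 136) (nat_lit 5) (nat_lit 144) (nat_lit 5) (nat_lit 137) (nat_lit 5) (nat_lit 347) (nat_lit 304) (nat_lit 294)) (XT.lf (nat_lit 0) (nat_lit 2978326048) (nat_lit 672) (nat_lit 1030321280) (nat_lit 84) (nat_lit 3794644275) (nat_lit 136) (nat_lit 5) (nat_lit 144) (nat_lit 5) (nat_lit 137) (nat_lit 5) (nat_lit 348) (nat_lit 304) (nat_lit 293))))) (XT.nd (nat_lit 282) (nat_lit 1512) (nat_lit 0) (XT.nd (nat_lit 94) (nat_lit 588) (nat_lit 0) (XT.lf (nat_lit 0) (nat_lit 3924763536) (nat_lit 588) (nat_lit 1970226097) (nat_lit 672) (nat_lit 2002262274) (nat_lit 129) (nat_lit 5) (nat_lit 136) (nat_lit 5) (nat_lit 137) (nat_lit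 5) (nat_lit 349) (nat_lit 304) (nat_lit 292)) (XT.nd (nat_lit 94) (nat_lit 0) (nat_lit 0) (XT.lf (nat_lit 0) (nat_lit 832329845) (nat_lit 588) (nat_lit 7017625197) (nat_lit 84) (nat_lit 145615825) (nat_lit 122) (nat_lit 5) (nat_lit 129) (nat_lit 5) (nat_lit 123) (nat_lit 5) (nat_lit 350) (nat_lit 304) (nat_lit 291)) (XT.lf (nat_lit 0) (nat_lit 3696552257) (nat_lit 588) (nat_lit 2065274316) (nat_lit 84) (nat_lit 2335015693) (nat_lit 122) (nat_lit 5) (nat_lit 129) (nat_lit 5) (nat_lit 123) (nat_lit 5) (nat_lit 351) (nat_lit 304) (nat_lit 290)))) (XT.nd (nat_lit 188) (nat_lit 924) (nat_lit 0) (XT.nd (nat_lit 94) (nat_lit 84) (nat_lit 0) (XT.lf (nat_lit 0) (nat_lit 3008693001) (nat_lit 504) (nat_lit 3593936837) (nat_lit 588) (nat_lit 1599982639) (nat_lit 116) (nat_lit 5) (nat_lit 122) (nat_lit 5) (nat_lit 123) (nat_lit 5) (nat_lit 352) (nat_lit 304) (nat_lit 289)) (XT.lf (nat_lit 0) (nat_lit 1207809806)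 (nat_lit 588) (nat_lit 132665614) (nat_lit 84) (nat_lit 6972384441) (nat_lit 115) (nat_lit 5) (nat_lit 122) (nat_lit 5) (nat_lit 116) (nat_lit 5) (nat_lit 353) (nat_lit 304) (nat_lit 288))) (XT.nd (nat_lit 94) (nat_lit 504) (nat_lit 0) (XT.lf (nat_lit 0) (nat_lit 4056033704) (nat_lit 504) (nat_lit 3356822445) (nat_lit 84) (nat_lit 1013559372) (nat_lit 110) (nat_lit 5) (nat_lit 116) (nat_lit 5) (nat_lit 111) (nat_lit 5) (nat_lit 354) (nat_lit 304) (nat_lit 287)) (XT.lf (nat_lit 0) (nat_lit 1824494530) (nat_lit 504) (nat_lit 5128080158) (nat_lit 588) (nat_lit 1592040132) (nat_lit 104) (nat_lit 5) (nat_lit 110) (nat_lit 5) (nat_lit 111) (nat_lit 5) (nat_lit 355) (nat_lit 304) (nat_lit 286))))))))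
noncomputable def xc3 : XT := (XT.nd (nat_lit 59314) (nat_lit 0) (nat_lit 0) (XT.nd (nat_lit 58092) (nat_lit 0) (nat_lit 1344) (XT.nd (nat_lit 57434) (nat_lit 0) (nat_lit 5964) (XT.nd (nat_lit 282) (nat_lit 420) (nat_lit 0) (XT.nd (nat_lit 94) (nat_lit 840) (nat_lit 0) (XT.lf (nat_lit 0) (nat_lit 1210233243) (nat_lit 588) (nat_lit 1533597125) (nat_lit 84) (nat_lit 5923318896) (nat_lit 103) (nat_lit 5) (nat_lit 110) (nat_lit 5) (nat_lit 104) (nat_lit 5) (nat_lit 356) (nat_lit 304) (nat_lit 285)) (XT.nd (nat_lit 94) (nat_lit 420) (nat_lit 0) (XT.lf (nat_lit 0) (nat_lit 3783307001) (nat_lit 420) (nat_lit 250766924) (nat_lit 504) (nat_lit 4759840641) (nat_lit 98) (nat_lit 5) (nat_lit 103) (nat_lit 5) (nat_lit 104) (nat_lit 5) (nat_lit 357) (nat_lit 304) (nat_lit 284)) (XT.lf (nat_lit 0) (nat_lit 265510434) (nat_lit 420) (nat_lit 6651708662) (nat_lit 504) (nat_lit 2008135406) (nat_lit 93) (nat_lit 5) (nat_lit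 98) (nat_lit 5) (nat_lit 99) (nat_lit 5) (nat_lit 358) (nat_lit 304) (nat_lit 283)))) (XT.nd (nat_lit 94) (nat_lit 336) (nat_lit 0) (XT.lf (nat_lit 0) (nat_lit 798075854) (nat_lit 504) (nat_lit 3352480966) (nat_lit 84) (nat_lit 4910403393) (nat_lit 92) (nat_lit 5) (nat_lit 98) (nat_lit 5) (nat_lit 93) (nat_lit 5) (nat_lit 359) (nat_lit 304) (nat_lit 282)) (XT.nd (nat_lit 56964) (nat_lit 0) (nat_lit 11676) (XT.lf (nat_lit 0) (nat_lit 2051771762) (nat_lit 336) (nat_lit 1552465323) (nat_lit 420) (nat_lit 5597216854) (nat_lit 88) (nat_lit 5) (nat_lit 92) (nat_lit 5) (nat_lit 93) (nat_lit 5) (nat_lit 360) (nat_lit 304) (nat_lit 281)) (XT.lf (nat_lit 0) (nat_lit 1229225050) (nat_lit 924) (nat_lit 995907416) (nat_lit 0) (nat_lit 1229225050) (nat_lit 227) (nat_lit 5) (nat_lit 238) (nat_lit 4) (nat_lit 227) (nat_lit 4) (nat_lit 335) (nat_lit 305) (nat_lit 305))))) (XT.nd (nat_lit 282) (nat_lit 3696) (nat_lit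 0) (XT.nd (nat_lit 94) (nat_lit 1092) (nat_lit 0) (XT.lf (nat_lit 0) (nat_lit 2266005558) (nat_lit 924) (nat_lit 3243992119) (nat_lit 924) (nat_lit 1448206774) (nat_lit 216) (nat_lit 4) (nat_lit 227) (nat_lit 5) (nat_lit 227) (nat_lit 4) (nat_lit 336) (nat_lit 305) (nat_lit 304)) (XT.nd (nat_lit 94) (nat_lit 1008) (nat_lit 0) (XT.lf (nat_lit 0) (nat_lit 1537308239) (nat_lit 1008) (nat_lit 418530537) (nat_lit 84) (nat_lit 5055344400) (nat_lit 215) (nat_lit 5) (nat_lit 227) (nat_lit 5) (nat_lit 216) (nat_lit 4) (nat_lit 337) (nat_lit 305) (nat_lit 303)) (XT.lf (nat_lit 0) (nat_lit 3962502009) (nat_lit 1008) (nat_lit 566792666) (nat_lit 1092) (nat_lit 2537881853) (nat_lit 203) (nat_lit 5) (nat_lit 215) (nat_lit 5) (nat_lit 216) (nat_lit 4) (nat_lit 338) (nat_lit 305) (nat_lit 302)))) (XT.nd (nat_lit 188) (nat_lit 2520) (nat_lit 0) (XT.nd (nat_lit 94) (nat_lit 0) (nat_lit 0) (XT.lf (nat_lit 0) (nat_lit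 410680043) (nat_lit 1176) (nat_lit 5841430350) (nat_lit 84) (nat_lit 874802085) (nat_lit 189) (nat_lit 5) (nat_lit 203) (nat_lit 5) (nat_lit 190) (nat_lit 4) (nat_lit 339) (nat_lit 305) (nat_lit 301)) (XT.lf (nat_lit 0) (nat_lit 3344553588) (nat_lit 1176) (nat_lit 1434727269) (nat_lit 84) (nat_lit 2410185731) (nat_lit 189) (nat_lit 5) (nat_lit 203) (nat_lit 5) (nat_lit 190) (nat_lit 4) (nat_lit 340) (nat_lit 305) (nat_lit 300))) (XT.nd (nat_lit 94) (nat_lit 1344) (nat_lit 0) (XT.lf (nat_lit 0) (nat_lit 3079646859) (nat_lit 1176) (nat_lit 3229594455) (nat_lit 1260) (nat_lit 946581602) (nat_lit 175) (nat_lit 5) (nat_lit 189) (nat_lit 5) (nat_lit 190) (nat_lit 4) (nat_lit 341) (nat_lit 305) (nat_lit 299)) (XT.lf (nat_lit 0) (nat_lit 336241077) (nat_lit 1260) (nat_lit 1594415303) (nat_lit 1344) (nat_lit 5395170971) (nat_lit 159) (nat_lit 5) (nat_lit 174) (nat_lit 5) (nat_lit 175) (nat_lit 5) (nat_lit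 342) (nat_lit 305) (nat_lit 298)))))) (XT.nd (nat_lit 564) (nat_lit 2688) (nat_lit 0) (XT.nd (nat_lit 282) (nat_lit 1260) (nat_lit 0) (XT.nd (nat_lit 94) (nat_lit 672) (nat_lit 0) (XT.lf (nat_lit 0) (nat_lit 4834202269) (nat_lit 1344) (nat_lit 2425268776) (nat_lit 84) (nat_lit 139600979) (nat_lit 159) (nat_lit 5) (nat_lit 175) (nat_lit 5) (nat_lit 160) (nat_lit 4) (nat_lit 343) (nat_lit 305) (nat_lit 297)) (XT.nd (nat_lit 94) (nat_lit 0) (nat_lit 0) (XT.lf (nat_lit 0) (nat_lit 298011987) (nat_lit 672) (nat_lit 5260522152) (nat_lit 84) (nat_lit 1917424376) (nat_lit 151) (nat_lit 5) (nat_lit 159) (nat_lit 5) (nat_lit 152) (nat_lit 5) (nat_lit 344) (nat_lit 305) (nat_lit 296)) (XT.lf (nat_lit 0) (nat_lit 3138590100) (nat_lit 672) (nat_lit 620973198) (nat_lit 84) (nat_lit 3796701104) (nat_lit 151) (nat_lit 5) (nat_lit 159) (nat_lit 5) (nat_lit 152) (nat_lit 5) (nat_lit 345) (nat_lit 305) (nat_lit 295))))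 (XT.nd (nat_lit 94) (nat_lit 672) (nat_lit 0) (XT.lf (nat_lit 0) (nat_lit 4155355585) (nat_lit 588) (nat_lit 1869972159) (nat_lit 672) (nat_lit 1614993826) (nat_lit 144) (nat_lit 5) (nat_lit 151) (nat_lit 5) (nat_lit 152) (nat_lit 5) (nat_lit 346) (nat_lit 305) (nat_lit 294)) (XT.nd (nat_lit 94) (nat_lit 0) (nat_lit 0) (XT.lf (nat_lit 0) (nat_lit 1188235980) (nat_lit 672) (nat_lit 6439996839) (nat_lit 84) (nat_lit 100222903) (nat_lit 136) (nat_lit 5) (nat_lit 144) (nat_lit 5) (nat_lit 137) (nat_lit 5) (nat_lit 347) (nat_lit 305) (nat_lit 293)) (XT.lf (nat_lit 0) (nat_lit 4020149681) (nat_lit 672) (nat_lit 1662474898) (nat_lit 84) (nat_lit 2136974128) (nat_lit 136) (nat_lit 5) (nat_lit 144) (nat_lit 5) (nat_lit 137) (nat_lit 5) (nat_lit 348) (nat_lit 305) (nat_lit 292))))) (XT.nd (nat_lit 282) (nat_lit 1512) (nat_lit 0) (XT.nd (nat_lit 94) (nat_lit 588) (nat_lit 0) (XT.lf (nat_lit 0) (nat_lit 3238094953)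 (nat_lit 588) (nat_lit 3655287775) (nat_lit 672) (nat_lit 1021553766) (nat_lit 129) (nat_lit 5) (nat_lit 136) (nat_lit 5) (nat_lit 137) (nat_lit 5) (nat_lit 349) (nat_lit 305) (nat_lit 291)) (XT.nd (nat_lit 94) (nat_lit 0) (nat_lit 0) (XT.lf (nat_lit 0) (nat_lit 209093249) (nat_lit 504) (nat_lit 1539398141) (nat_lit 588) (nat_lit 6265913829) (nat_lit 122) (nat_lit 5) (nat_lit 128) (nat_lit 5) (nat_lit 129) (nat_lit 5) (nat_lit 350) (nat_lit 305) (nat_lit 290)) (XT.lf (nat_lit 0) (nat_lit 4561959072) (nat_lit 588) (nat_lit 2880362728) (nat_lit 84) (nat_lit 674945700) (nat_lit 122) (nat_lit 5) (nat_lit 129) (nat_lit 5) (nat_lit 123) (nat_lit 5) (nat_lit 351) (nat_lit 305) (nat_lit 289)))) (XT.nd (nat_lit 188) (nat_lit 924) (nat_lit 0) (XT.nd (nat_lit 94) (nat_lit 84) (nat_lit 0) (XT.lf (nat_lit 0) (nat_lit 2135597175) (nat_lit 504) (nat_lit 5289136948) (nat_lit 588) (nat_lit 799668916) (nat_lit 116)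 (nat_lit 5) (nat_lit 122) (nat_lit 5) (nat_lit 123) (nat_lit 5) (nat_lit 352) (nat_lit 305) (nat_lit 288)) (XT.lf (nat_lit 0) (nat_lit 1957821045) (nat_lit 588) (nat_lit 1076566365) (nat_lit 84) (nat_lit 5301135233) (nat_lit 115) (nat_lit 5) (nat_lit 122) (nat_lit 5) (nat_lit 116) (nat_lit 5) (nat_lit 353) (nat_lit 305) (nat_lit 287))) (XT.nd (nat_lit 94) (nat_lit 504) (nat_lit 0) (XT.lf (nat_lit 0) (nat_lit 4076225664) (nat_lit 420) (nat_lit 676559958) (nat_lit 504) (nat_lit 3697951092) (nat_lit 110) (nat_lit 5) (nat_lit 115) (nat_lit 5) (nat_lit 116) (nat_lit 5) (nat_lit 354) (nat_lit 305) (nat_lit 286)) (XT.lf (nat_lit 0) (nat_lit 751662964) (nat_lit 504) (nat_lit 6847707267) (nat_lit 588) (nat_lit 971123336) (nat_lit 104) (nat_lit 5) (nat_lit 110) (nat_lit 5) (nat_lit 111) (nat_lit 5) (nat_lit 355) (nat_lit 305) (nat_lit 285))))))) (XT.nd (nat_lit 57904) (nat_lit 0) (nat_lit 2268) (XT.nd (nat_lit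 57246) (nat_lit 0) (nat_lit 8484) (XT.nd (nat_lit 282) (nat_lit 840) (nat_lit 0) (XT.nd (nat_lit 94) (nat_lit 420) (nat_lit 0) (XT.lf (nat_lit 0) (nat_lit 1786092865) (nat_lit 588) (nat_lit 2679299669) (nat_lit 84) (nat_lit 4228500128) (nat_lit 103) (nat_lit 5) (nat_lit 110) (nat_lit 5) (nat_lit 104) (nat_lit 5) (nat_lit 356) (nat_lit 305) (nat_lit 284)) (XT.nd (nat_lit 94) (nat_lit 0) (nat_lit 0) (XT.lf (nat_lit 0) (nat_lit 2574181322) (nat_lit 420) (nat_lit 1992147962) (nat_lit 504) (nat_lit 4255690677) (nat_lit 98) (nat_lit 5) (nat_lit 103) (nat_lit 5) (nat_lit 104) (nat_lit 5) (nat_lit 357) (nat_lit 305) (nat_lit 283)) (XT.lf (nat_lit 0) (nat_lit 7398676982) (nat_lit 504) (nat_lit 1000518924) (nat_lit 84) (nat_lit 555840215) (nat_lit 98) (nat_lit 5) (nat_lit 104) (nat_lit 5) (nat_lit 99) (nat_lit 5) (nat_lit 358) (nat_lit 305) (nat_lit 282)))) (XT.nd (nat_lit 94) (nat_lit 336) (nat_lit 0) (XT.lf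 (nat_lit 0) (nat_lit 1199801285) (nat_lit 504) (nat_lit 4713277727) (nat_lit 84) (nat_lit 3178718887) (nat_lit 92) (nat_lit 5) (nat_lit 98) (nat_lit 5) (nat_lit 93) (nat_lit 5) (nat_lit 359) (nat_lit 305) (nat_lit 281)) (XT.nd (nat_lit 56776) (nat_lit 0) (nat_lit 12600) (XT.lf (nat_lit 0) (nat_lit 623657252) (nat_lit 336) (nat_lit 3338160920) (nat_lit 420) (nat_lit 5271845645) (nat_lit 88) (nat_lit 5) (nat_lit 92) (nat_lit 5) (nat_lit 93) (nat_lit 5) (nat_lit 360) (nat_lit 305) (nat_lit 280)) (XT.lf (nat_lit 0) (nat_lit 1706627743) (nat_lit 756) (nat_lit 851260762) (nat_lit 756) (nat_lit 851260762) (nat_lit 238) (nat_lit 4) (nat_lit 247) (nat_lit 5) (nat_lit 247) (nat_lit 4) (nat_lit 333) (nat_lit 306) (nat_lit 306))))) (XT.nd (nat_lit 282) (nat_lit 2184) (nat_lit 0) (XT.nd (nat_lit 94) (nat_lit 1008) (nat_lit 0) (XT.lf (nat_lit 0) (nat_lit 691990726) (nat_lit 840) (nat_lit 587388288) (nat_lit 924)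 (nat_lit 5583520107) (nat_lit 227) (nat_lit 5) (nat_lit 237) (nat_lit 5) (nat_lit 238) (nat_lit 4) (nat_lit 334) (nat_lit 306) (nat_lit 305)) (XT.nd (nat_lit 94) (nat_lit 1008) (nat_lit 0) (XT.lf (nat_lit 0) (nat_lit 4260994587) (nat_lit 924) (nat_lit 2033710489) (nat_lit 0) (nat_lit 615550335) (nat_lit 227) (nat_lit 5) (nat_lit 238) (nat_lit 4) (nat_lit 227) (nat_lit 4) (nat_lit 335) (nat_lit 306) (nat_lit 304)) (XT.lf (nat_lit 0) (nat_lit 298779562) (nat_lit 1008) (nat_lit 4782402657) (nat_lit 84) (nat_lit 1879994532) (nat_lit 215) (nat_lit 5) (nat_lit 227) (nat_lit 5) (nat_lit 216) (nat_lit 4) (nat_lit 336) (nat_lit 306) (nat_lit 303)))) (XT.nd (nat_lit 188) (nat_lit 1176) (nat_lit 0) (XT.nd (nat_lit 94) (nat_lit 1008) (nat_lit 0) (XT.lf (nat_lit 0) (nat_lit 3210676965) (nat_lit 1008) (nat_lit 563950850) (nat_lit 84) (nat_lit 3240586939) (nat_lit 215) (nat_lit 5) (nat_lit 227) (nat_lit 5) (nat_lit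 216) (nat_lit 4) (nat_lit 337) (nat_lit 306) (nat_lit 302)) (XT.lf (nat_lit 0) (nat_lit 3773296905) (nat_lit 1008) (nat_lit 2383510964) (nat_lit 1092) (nat_lit 915888693) (nat_lit 203) (nat_lit 5) (nat_lit 215) (nat_lit 5) (nat_lit 216) (nat_lit 4) (nat_lit 338) (nat_lit 306) (nat_lit 301))) (XT.nd (nat_lit 94) (nat_lit 0) (nat_lit 0) (XT.lf (nat_lit 0) (nat_lit 1038328867) (nat_lit 1092) (nat_lit 907985988) (nat_lit 1176) (nat_lit 5187397447) (nat_lit 189) (nat_lit 5) (nat_lit 202) (nat_lit 5) (nat_lit 203) (nat_lit 5) (nat_lit 339) (nat_lit 306) (nat_lit 300)) (XT.lf (nat_lit 0) (nat_lit 4828698965) (nat_lit 1176) (nat_lit 1721639453) (nat_lit 84) (nat_lit 647575894) (nat_lit 189) (nat_lit 5) (nat_lit 203) (nat_lit 5) (nat_lit 190) (nat_lit 4) (nat_lit 340) (nat_lit 306) (nat_lit 299)))))) (XT.nd (nat_lit 564) (nat_lit 2436) (nat_lit 0) (XT.nd (nat_lit 282) (nat_lit 1260) (nat_lit 0) (XT.nd (nat_lit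 94) (nat_lit 1260) (nat_lit 0) (XT.lf (nat_lit 0) (nat_lit 473524506) (nat_lit 1260) (nat_lit 4524608972) (nat_lit 84) (nat_lit 2267439867) (nat_lit 174) (nat_lit 5) (nat_lit 189) (nat_lit 5) (nat_lit 175) (nat_lit 5) (nat_lit 341) (nat_lit 306) (nat_lit 298)) (XT.nd (nat_lit 94) (nat_lit 1260) (nat_lit 0) (XT.lf (nat_lit 0) (nat_lit 3287868953) (nat_lit 1260) (nat_lit 68842688) (nat_lit 84) (nat_lit 3980020294) (nat_lit 174) (nat_lit 5) (nat_lit 189) (nat_lit 5) (nat_lit 175) (nat_lit 5) (nat_lit 342) (nat_lit 306) (nat_lit 297)) (XT.lf (nat_lit 0) (nat_lit 4528170487) (nat_lit 1260) (nat_lit 1620820176) (nat_lit 1344) (nat_lit 1262350380) (nat_lit 159) (nat_lit 5) (nat_lit 174) (nat_lit 5) (nat_lit 175) (nat_lit 5) (nat_lit 343) (nat_lit 306) (nat_lit 296)))) (XT.nd (nat_lit 94) (nat_lit 588) (nat_lit 0) (XT.lf (nat_lit 0) (nat_lit 1514915951) (nat_lit 672) (nat_lit 5779199858) (nat_lit 84) (nat_lit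 195628507) (nat_lit 151) (nat_lit 5) (nat_lit 159) (nat_lit 5) (nat_lit 152) (nat_lit 5) (nat_lit 344) (nat_lit 306) (nat_lit 295)) (XT.nd (nat_lit 94) (nat_lit 588) (nat_lit 0) (XT.lf (nat_lit 0) (nat_lit 4316577004) (nat_lit 672) (nat_lit 1180780260) (nat_lit 84) (nat_lit 2073944377) (nat_lit 151) (nat_lit 5) (nat_lit 159) (nat_lit 5) (nat_lit 152) (nat_lit 5) (nat_lit 345) (nat_lit 306) (nat_lit 294)) (XT.lf (nat_lit 0) (nat_lit 3543681138) (nat_lit 588) (nat_lit 3615970168) (nat_lit 672) (nat_lit 497098884) (nat_lit 144) (nat_lit 5) (nat_lit 151) (nat_lit 5) (nat_lit 152) (nat_lit 5) (nat_lit 346) (nat_lit 306) (nat_lit 293))))) (XT.nd (nat_lit 282) (nat_lit 1176) (nat_lit 0) (XT.nd (nat_lit 94) (nat_lit 588) (nat_lit 0) (XT.lf (nat_lit 0) (nat_lit 596741117) (nat_lit 588) (nat_lit 1642426457) (nat_lit 672) (nat_lit 5506825671) (nat_lit 136) (nat_lit 5) (nat_lit 143) (nat_lit 5) (nat_lit 144)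 (nat_lit 5) (nat_lit 347) (nat_lit 306) (nat_lit 292)) (XT.nd (nat_lit 94) (nat_lit 588) (nat_lit 0) (XT.lf (nat_lit 0) (nat_lit 5018463409) (nat_lit 672) (nat_lit 2397057768) (nat_lit 84) (nat_lit 423268157) (nat_lit 136) (nat_lit 5) (nat_lit 144) (nat_lit 5) (nat_lit 137) (nat_lit 5) (nat_lit 348) (nat_lit 306) (nat_lit 291)) (XT.lf (nat_lit 0) (nat_lit 2448179951) (nat_lit 588) (nat_lit 5400166215) (nat_lit 672) (nat_lit 87153859) (nat_lit 129) (nat_lit 5) (nat_lit 136) (nat_lit 5) (nat_lit 137) (nat_lit 5) (nat_lit 349) (nat_lit 306) (nat_lit 290)))) (XT.nd (nat_lit 188) (nat_lit 588) (nat_lit 0) (XT.nd (nat_lit 94) (nat_lit 504) (nat_lit 0) (XT.lf (nat_lit 0) (nat_lit 2627135832) (nat_lit 672) (nat_lit 654749160) (nat_lit 84) (nat_lit 4754008196) (nat_lit 128) (nat_lit 5) (nat_lit 136) (nat_lit 5) (nat_lit 129) (nat_lit 5) (nat_lit 350) (nat_lit 306) (nat_lit 289)) (XT.lf (nat_lit 0) (nat_lit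 4326940622) (nat_lit 504) (nat_lit 1065765366) (nat_lit 588) (nat_lit 2747552657) (nat_lit 122) (nat_lit 5) (nat_lit 128) (nat_lit 5) (nat_lit 129) (nat_lit 5) (nat_lit 351) (nat_lit 306) (nat_lit 288))) (XT.nd (nat_lit 94) (nat_lit 84) (nat_lit 0) (XT.lf (nat_lit 0) (nat_lit 1153954419) (nat_lit 504) (nat_lit 7047952673) (nat_lit 588) (nat_lit 47158635) (nat_lit 116) (nat_lit 5) (nat_lit 122) (nat_lit 5) (nat_lit 123) (nat_lit 5) (nat_lit 352) (nat_lit 306) (nat_lit 287)) (XT.lf (nat_lit 0) (nat_lit 2661971916) (nat_lit 588) (nat_lit 2130223124) (nat_lit 84) (nat_lit 3568844168) (nat_lit 115) (nat_lit 5) (nat_lit 122) (nat_lit 5) (nat_lit 116) (nat_lit 5) (nat_lit 353) (nat_lit 306) (nat_lit 286))))))))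
noncomputable def xc4 : XT := (XT.nd (nat_lit 58938) (nat_lit 0) (nat_lit 0) (XT.nd (nat_lit 57716) (nat_lit 0) (nat_lit 3024) (XT.nd (nat_lit 564) (nat_lit 0) (nat_lit 0) (XT.nd (nat_lit 282) (nat_lit 924) (nat_lit 0) (XT.nd (nat_lit 94) (nat_lit 588) (nat_lit 0) (XT.lf (nat_lit 0) (nat_lit 2961874653) (nat_lit 420) (nat_lit 2451655624) (nat_lit 504) (nat_lit 3064084053) (nat_lit 110) (nat_lit 5) (nat_lit 115) (nat_lit 5) (nat_lit 116) (nat_lit 5) (nat_lit 354) (nat_lit 306) (nat_lit 285)) (XT.nd (nat_lit 94) (nat_lit 588) (nat_lit 0) (XT.lf (nat_lit 0) (nat_lit 8172111040) (nat_lit 420) (nat_lit 31846315) (nat_lit 504) (nat_lit 395155703) (nat_lit 110) (nat_lit 5) (nat_lit 115) (nat_lit 5) (nat_lit 116) (nat_lit 5) (nat_lit 355) (nat_lit 306) (nat_lit 284)) (XT.lf (nat_lit 0) (nat_lit 2314306019) (nat_lit 588) (nat_lit 3940225626) (nat_lit 84) (nat_lit 2468963739) (nat_lit 103) (nat_lit 5) (nat_lit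 110) (nat_lit 5) (nat_lit 104) (nat_lit 5) (nat_lit 356) (nat_lit 306) (nat_lit 283)))) (XT.nd (nat_lit 94) (nat_lit 504) (nat_lit 0) (XT.lf (nat_lit 0) (nat_lit 1248722206) (nat_lit 420) (nat_lit 3802029197) (nat_lit 504) (nat_lit 3802237310) (nat_lit 98) (nat_lit 5) (nat_lit 103) (nat_lit 5) (nat_lit 104) (nat_lit 5) (nat_lit 357) (nat_lit 306) (nat_lit 282)) (XT.nd (nat_lit 94) (nat_lit 504) (nat_lit 0) (XT.lf (nat_lit 0) (nat_lit 6596381406) (nat_lit 420) (nat_lit 1250754674) (nat_lit 504) (nat_lit 1139998461) (nat_lit 98) (nat_lit 5) (nat_lit 103) (nat_lit 5) (nat_lit 104) (nat_lit 5) (nat_lit 358) (nat_lit 306) (nat_lit 281)) (XT.lf (nat_lit 0) (nat_lit 1551833120) (nat_lit 504) (nat_lit 6194982075) (nat_lit 84) (nat_lit 1378695041) (nat_lit 92) (nat_lit 5) (nat_lit 98) (nat_lit 5) (nat_lit 93) (nat_lit 5) (nat_lit 359) (nat_lit 306) (nat_lit 280))))) (XT.nd (nat_lit 56776) (nat_lit 0) (nat_lit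 10332) (XT.nd (nat_lit 56588) (nat_lit 0) (nat_lit 13020) (XT.lf (nat_lit 0) (nat_lit 4278324516) (nat_lit 504) (nat_lit 908517953) (nat_lit 84) (nat_lit 4081645918) (nat_lit 92) (nat_lit 5) (nat_lit 98) (nat_lit 5) (nat_lit 93) (nat_lit 5) (nat_lit 360) (nat_lit 306) (nat_lit 279)) (XT.nd (nat_lit 94) (nat_lit 0) (nat_lit 0) (XT.lf (nat_lit 0) (nat_lit 531439194) (nat_lit 756) (nat_lit 2306188481) (nat_lit 0) (nat_lit 531439194) (nat_lit 247) (nat_lit 5) (nat_lit 256) (nat_lit 4) (nat_lit 247) (nat_lit 4) (nat_lit 331) (nat_lit 307) (nat_lit 307)) (XT.lf (nat_lit 0) (nat_lit 4033824785) (nat_lit 756) (nat_lit 671975232) (nat_lit 0) (nat_lit 2071521652) (nat_lit 247) (nat_lit 5) (nat_lit 256) (nat_lit 4) (nat_lit 247) (nat_lit 4) (nat_lit 332) (nat_lit 307) (nat_lit 306)))) (XT.nd (nat_lit 188) (nat_lit 1008) (nat_lit 0) (XT.nd (nat_lit 94) (nat_lit 840) (nat_lit 0) (XT.lf (nat_lit 0) (nat_lit 206515108)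 (nat_lit 840) (nat_lit 3448226136) (nat_lit 84) (nat_lit 3165059049) (nat_lit 237) (nat_lit 5) (nat_lit 247) (nat_lit 5) (nat_lit 238) (nat_lit 4) (nat_lit 333) (nat_lit 307) (nat_lit 305)) (XT.lf (nat_lit 0) (nat_lit 590969801) (nat_lit 840) (nat_lit 2516459022) (nat_lit 924) (nat_lit 3758040962) (nat_lit 227) (nat_lit 5) (nat_lit 237) (nat_lit 5) (nat_lit 238) (nat_lit 4) (nat_lit 334) (nat_lit 307) (nat_lit 304))) (XT.nd (nat_lit 94) (nat_lit 1008) (nat_lit 0) (XT.lf (nat_lit 0) (nat_lit 4742626234) (nat_lit 840) (nat_lit 1294576864) (nat_lit 924) (nat_lit 877301465) (nat_lit 227) (nat_lit 5) (nat_lit 237) (nat_lit 5) (nat_lit 238) (nat_lit 4) (nat_lit 335) (nat_lit 307) (nat_lit 303)) (XT.lf (nat_lit 0) (nat_lit 1976991469) (nat_lit 1008) (nat_lit 4973481079) (nat_lit 84) (nat_lit 16333638) (nat_lit 215) (nat_lit 5) (nat_lit 227) (nat_lit 5) (nat_lit 216) (nat_lit 4) (nat_lit 336) (nat_lit 307)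 (nat_lit 302)))))) (XT.nd (nat_lit 564) (nat_lit 3864) (nat_lit 0) (XT.nd (nat_lit 282) (nat_lit 1260) (nat_lit 0) (XT.nd (nat_lit 94) (nat_lit 2184) (nat_lit 0) (XT.lf (nat_lit 0) (nat_lit 4844852095) (nat_lit 1008) (nat_lit 795121990) (nat_lit 84) (nat_lit 1382303997) (nat_lit 215) (nat_lit 5) (nat_lit 227) (nat_lit 5) (nat_lit 216) (nat_lit 4) (nat_lit 337) (nat_lit 307) (nat_lit 301)) (XT.nd (nat_lit 94) (nat_lit 1092) (nat_lit 0) (XT.lf (nat_lit 0) (nat_lit 651385536) (nat_lit 1092) (nat_lit 3589792238) (nat_lit 84) (nat_lit 2839862101) (nat_lit 202) (nat_lit 5) (nat_lit 215) (nat_lit 5) (nat_lit 203) (nat_lit 5) (nat_lit 338) (nat_lit 307) (nat_lit 300)) (XT.lf (nat_lit 0) (nat_lit 692901289) (nat_lit 1092) (nat_lit 2757096772) (nat_lit 1176) (nat_lit 3693268212) (nat_lit 189) (nat_lit 5) (nat_lit 202) (nat_lit 5) (nat_lit 203) (nat_lit 5) (nat_lit 339) (nat_lit 307) (nat_lit 299)))) (XT.nd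 (nat_lit 94) (nat_lit 1260) (nat_lit 0) (XT.lf (nat_lit 0) (nat_lit 5098283311) (nat_lit 1092) (nat_lit 1186210818) (nat_lit 1176) (nat_lit 924511008) (nat_lit 189) (nat_lit 5) (nat_lit 202) (nat_lit 5) (nat_lit 203) (nat_lit 5) (nat_lit 340) (nat_lit 307) (nat_lit 298)) (XT.nd (nat_lit 94) (nat_lit 0) (nat_lit 0) (XT.lf (nat_lit 0) (nat_lit 1833592411) (nat_lit 1260) (nat_lit 4976077593) (nat_lit 84) (nat_lit 468365354) (nat_lit 174) (nat_lit 5) (nat_lit 189) (nat_lit 5) (nat_lit 175) (nat_lit 5) (nat_lit 341) (nat_lit 307) (nat_lit 297)) (XT.lf (nat_lit 0) (nat_lit 4607946407) (nat_lit 1260) (nat_lit 560107867) (nat_lit 84) (nat_lit 2182431096) (nat_lit 174) (nat_lit 5) (nat_lit 189) (nat_lit 5) (nat_lit 175) (nat_lit 5) (nat_lit 342) (nat_lit 307) (nat_lit 296))))) (XT.nd (nat_lit 282) (nat_lit 1932) (nat_lit 0) (XT.nd (nat_lit 94) (nat_lit 672) (nat_lit 0) (XT.lf (nat_lit 0) (nat_lit 3987721772)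 (nat_lit 1260) (nat_lit 3437325540) (nat_lit 1344) (nat_lit 1456826) (nat_lit 159) (nat_lit 5) (nat_lit 174) (nat_lit 5) (nat_lit 175) (nat_lit 5) (nat_lit 343) (nat_lit 307) (nat_lit 295)) (XT.nd (nat_lit 94) (nat_lit 0) (nat_lit 0) (XT.lf (nat_lit 0) (nat_lit 1093601025) (nat_lit 588) (nat_lit 1611212335) (nat_lit 672) (nat_lit 4801206111) (nat_lit 151) (nat_lit 5) (nat_lit 158) (nat_lit 5) (nat_lit 159) (nat_lit 5) (nat_lit 344) (nat_lit 307) (nat_lit 294)) (XT.lf (nat_lit 0) (nat_lit 5453202903) (nat_lit 672) (nat_lit 1838442303) (nat_lit 84) (nat_lit 297611217) (nat_lit 151) (nat_lit 5) (nat_lit 159) (nat_lit 5) (nat_lit 152) (nat_lit 5) (nat_lit 345) (nat_lit 307) (nat_lit 293)))) (XT.nd (nat_lit 188) (nat_lit 1260) (nat_lit 0) (XT.nd (nat_lit 94) (nat_lit 0) (nat_lit 0) (XT.lf (nat_lit 0) (nat_lit 565423944) (nat_lit 672) (nat_lit 4848242376) (nat_lit 84) (nat_lit 2262256784) (nat_lit 143)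 (nat_lit 5) (nat_lit 151) (nat_lit 5) (nat_lit 144) (nat_lit 5) (nat_lit 346) (nat_lit 307) (nat_lit 292)) (XT.lf (nat_lit 0) (nat_lit 3249838760) (nat_lit 672) (nat_lit 194042774) (nat_lit 84) (nat_lit 4322480382) (nat_lit 143) (nat_lit 5) (nat_lit 151) (nat_lit 5) (nat_lit 144) (nat_lit 5) (nat_lit 347) (nat_lit 307) (nat_lit 291))) (XT.nd (nat_lit 94) (nat_lit 672) (nat_lit 0) (XT.lf (nat_lit 0) (nat_lit 4612556631) (nat_lit 588) (nat_lit 1374798318) (nat_lit 672) (nat_lit 1873128841) (nat_lit 136) (nat_lit 5) (nat_lit 143) (nat_lit 5) (nat_lit 144) (nat_lit 5) (nat_lit 348) (nat_lit 307) (nat_lit 290)) (XT.lf (nat_lit 0) (nat_lit 786108805) (nat_lit 672) (nat_lit 6412339105) (nat_lit 84) (nat_lit 760281348) (nat_lit 128) (nat_lit 5) (nat_lit 136) (nat_lit 5) (nat_lit 129) (nat_lit 5) (nat_lit 349) (nat_lit 307) (nat_lit 289))))))) (XT.nd (nat_lit 57528) (nat_lit 0) (nat_lit 5544) (XT.nd (nat_lit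 564) (nat_lit 1428) (nat_lit 0) (XT.nd (nat_lit 282) (nat_lit 504) (nat_lit 0) (XT.nd (nat_lit 94) (nat_lit 1092) (nat_lit 0) (XT.lf (nat_lit 0) (nat_lit 3464220117) (nat_lit 672) (nat_lit 1619733821) (nat_lit 84) (nat_lit 2976243933) (nat_lit 128) (nat_lit 5) (nat_lit 136) (nat_lit 5) (nat_lit 129) (nat_lit 5) (nat_lit 350) (nat_lit 307) (nat_lit 288)) (XT.nd (nat_lit 94) (nat_lit 588) (nat_lit 0) (XT.lf (nat_lit 0) (nat_lit 3304006625) (nat_lit 504) (nat_lit 2882477091) (nat_lit 588) (nat_lit 1979443132) (nat_lit 122) (nat_lit 5) (nat_lit 128) (nat_lit 5) (nat_lit 129) (nat_lit 5) (nat_lit 351) (nat_lit 307) (nat_lit 287)) (XT.lf (nat_lit 0) (nat_lit 50442637) (nat_lit 504) (nat_lit 600693367) (nat_lit 588) (nat_lit 7625123044) (nat_lit 115) (nat_lit 5) (nat_lit 121) (nat_lit 5) (nat_lit 122) (nat_lit 5) (nat_lit 352) (nat_lit 307) (nat_lit 286)))) (XT.nd (nat_lit 94) (nat_lit 504) (nat_lit 0) (XT.lf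 (nat_lit 0) (nat_lit 3320877697) (nat_lit 588) (nat_lit 3294556563) (nat_lit 84) (nat_lit 1773997594) (nat_lit 115) (nat_lit 5) (nat_lit 122) (nat_lit 5) (nat_lit 116) (nat_lit 5) (nat_lit 353) (nat_lit 307) (nat_lit 285)) (XT.nd (nat_lit 94) (nat_lit 84) (nat_lit 0) (XT.lf (nat_lit 0) (nat_lit 1735801302) (nat_lit 420) (nat_lit 4293106860) (nat_lit 504) (nat_lit 2478461799) (nat_lit 110) (nat_lit 5) (nat_lit 115) (nat_lit 5) (nat_lit 116) (nat_lit 5) (nat_lit 354) (nat_lit 307) (nat_lit 284)) (XT.lf (nat_lit 0) (nat_lit 155209235) (nat_lit 504) (nat_lit 1722787543) (nat_lit 84) (nat_lit 6751817073) (nat_lit 109) (nat_lit 5) (nat_lit 115) (nat_lit 5) (nat_lit 110) (nat_lit 5) (nat_lit 355) (nat_lit 307) (nat_lit 283))))) (XT.nd (nat_lit 282) (nat_lit 504) (nat_lit 0) (XT.nd (nat_lit 94) (nat_lit 420) (nat_lit 0) (XT.lf (nat_lit 0) (nat_lit 2795334249) (nat_lit 588) (nat_lit 5317476777) (nat_lit 84)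 (nat_lit 643172270) (nat_lit 103) (nat_lit 5) (nat_lit 110) (nat_lit 5) (nat_lit 104) (nat_lit 5) (nat_lit 356) (nat_lit 307) (nat_lit 282)) (XT.nd (nat_lit 94) (nat_lit 420) (nat_lit 0) (XT.lf (nat_lit 0) (nat_lit 5489630608) (nat_lit 588) (nat_lit 190438416) (nat_lit 84) (nat_lit 3206722849) (nat_lit 103) (nat_lit 5) (nat_lit 110) (nat_lit 5) (nat_lit 104) (nat_lit 5) (nat_lit 357) (nat_lit 307) (nat_lit 281)) (XT.lf (nat_lit 0) (nat_lit 5116256342) (nat_lit 420) (nat_lit 3138267038) (nat_lit 504) (nat_lit 767408375) (nat_lit 98) (nat_lit 5) (nat_lit 103) (nat_lit 5) (nat_lit 104) (nat_lit 5) (nat_lit 358) (nat_lit 307) (nat_lit 280)))) (XT.nd (nat_lit 56494) (nat_lit 0) (nat_lit 13692) (XT.nd (nat_lit 94) (nat_lit 0) (nat_lit 0) (XT.lf (nat_lit 0) (nat_lit 1358277407) (nat_lit 420) (nat_lit 501017640) (nat_lit 504) (nat_lit 7302687151) (nat_lit 92) (nat_lit 5) (nat_lit 97) (nat_lit 5) (nat_lit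 98) (nat_lit 5) (nat_lit 359) (nat_lit 307) (nat_lit 279)) (XT.lf (nat_lit 0) (nat_lit 4552299951) (nat_lit 504) (nat_lit 2549610076) (nat_lit 84) (nat_lit 2204100032) (nat_lit 92) (nat_lit 5) (nat_lit 98) (nat_lit 5) (nat_lit 93) (nat_lit 5) (nat_lit 360) (nat_lit 307) (nat_lit 278))) (XT.nd (nat_lit 94) (nat_lit 84) (nat_lit 0) (XT.lf (nat_lit 0) (nat_lit 523367568) (nat_lit 588) (nat_lit 1405231604) (nat_lit 588) (nat_lit 1405231604) (nat_lit 256) (nat_lit 4) (nat_lit 263) (nat_lit 5) (nat_lit 263) (nat_lit 4) (nat_lit 329) (nat_lit 308) (nat_lit 308)) (XT.lf (nat_lit 0) (nat_lit 140210817) (nat_lit 672) (nat_lit 1797179434) (nat_lit 84) (nat_lit 4764753122) (nat_lit 255) (nat_lit 5) (nat_lit 263) (nat_lit 5) (nat_lit 256) (nat_lit 4) (nat_lit 330) (nat_lit 308) (nat_lit 307)))))) (XT.nd (nat_lit 564) (nat_lit 4788) (nat_lit 0) (XT.nd (nat_lit 282) (nat_lit 1848) (nat_lit 0) (XT.nd (nat_lit 94)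 (nat_lit 840) (nat_lit 0) (XT.lf (nat_lit 0) (nat_lit 2077792923) (nat_lit 672) (nat_lit 966922615) (nat_lit 756) (nat_lit 3694736970) (nat_lit 247) (nat_lit 5) (nat_lit 255) (nat_lit 5) (nat_lit 256) (nat_lit 4) (nat_lit 331) (nat_lit 308) (nat_lit 306)) (XT.nd (nat_lit 94) (nat_lit 840) (nat_lit 0) (XT.lf (nat_lit 0) (nat_lit 5959153956) (nat_lit 756) (nat_lit 750786476) (nat_lit 0) (nat_lit 70529923) (nat_lit 247) (nat_lit 5) (nat_lit 256) (nat_lit 4) (nat_lit 247) (nat_lit 4) (nat_lit 332) (nat_lit 308) (nat_lit 305)) (XT.lf (nat_lit 0) (nat_lit 2043613198) (nat_lit 840) (nat_lit 3589748146) (nat_lit 84) (nat_lit 1190587476) (nat_lit 237) (nat_lit 5) (nat_lit 247) (nat_lit 5) (nat_lit 238) (nat_lit 4) (nat_lit 333) (nat_lit 308) (nat_lit 304)))) (XT.nd (nat_lit 94) (nat_lit 1008) (nat_lit 0) (XT.lf (nat_lit 0) (nat_lit 407517610) (nat_lit 840) (nat_lit 4489815342) (nat_lit 924) (nat_lit 1973824428)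 (nat_lit 227) (nat_lit 5) (nat_lit 237) (nat_lit 5) (nat_lit 238) (nat_lit 4) (nat_lit 334) (nat_lit 308) (nat_lit 303)) (XT.nd (nat_lit 94) (nat_lit 924) (nat_lit 0) (XT.lf (nat_lit 0) (nat_lit 844187925) (nat_lit 924) (nat_lit 2408722679) (nat_lit 84) (nat_lit 3668487091) (nat_lit 226) (nat_lit 5) (nat_lit 237) (nat_lit 5) (nat_lit 227) (nat_lit 5) (nat_lit 335) (nat_lit 308) (nat_lit 302)) (XT.lf (nat_lit 0) (nat_lit 1704726516) (nat_lit 924) (nat_lit 1929980715) (nat_lit 1008) (nat_lit 3340251511) (nat_lit 215) (nat_lit 5) (nat_lit 226) (nat_lit 5) (nat_lit 227) (nat_lit 5) (nat_lit 336) (nat_lit 308) (nat_lit 301))))) (XT.nd (nat_lit 282) (nat_lit 2604) (nat_lit 0) (XT.nd (nat_lit 94) (nat_lit 2184) (nat_lit 0) (XT.lf (nat_lit 0) (nat_lit 5914871008) (nat_lit 924) (nat_lit 531499640) (nat_lit 1008) (nat_lit 585855410) (nat_lit 215) (nat_lit 5) (nat_lit 226) (nat_lit 5) (nat_lit 227) (nat_lit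 5) (nat_lit 337) (nat_lit 308) (nat_lit 300)) (XT.nd (nat_lit 94) (nat_lit 1092) (nat_lit 0) (XT.lf (nat_lit 0) (nat_lit 2161201037) (nat_lit 1092) (nat_lit 3978130270) (nat_lit 84) (nat_lit 952821722) (nat_lit 202) (nat_lit 5) (nat_lit 215) (nat_lit 5) (nat_lit 203) (nat_lit 5) (nat_lit 338) (nat_lit 308) (nat_lit 299)) (XT.lf (nat_lit 0) (nat_lit 257731350) (nat_lit 1092) (nat_lit 4656735717) (nat_lit 1176) (nat_lit 2241372966) (nat_lit 189) (nat_lit 5) (nat_lit 202) (nat_lit 5) (nat_lit 203) (nat_lit 5) (nat_lit 339) (nat_lit 308) (nat_lit 298)))) (XT.nd (nat_lit 188) (nat_lit 1344) (nat_lit 0) (XT.nd (nat_lit 94) (nat_lit 1176) (nat_lit 0) (XT.lf (nat_lit 0) (nat_lit 476268998) (nat_lit 1176) (nat_lit 2602406294) (nat_lit 84) (nat_lit 4144070701) (nat_lit 188) (nat_lit 5) (nat_lit 202) (nat_lit 5) (nat_lit 189) (nat_lit 5) (nat_lit 340) (nat_lit 308) (nat_lit 297)) (XT.lf (nat_lit 0) (nat_lit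 1757663415) (nat_lit 1176) (nat_lit 1409164070) (nat_lit 1260) (nat_lit 4126258961) (nat_lit 174) (nat_lit 5) (nat_lit 188) (nat_lit 5) (nat_lit 189) (nat_lit 5) (nat_lit 341) (nat_lit 308) (nat_lit 296))) (XT.nd (nat_lit 94) (nat_lit 1344) (nat_lit 0) (XT.lf (nat_lit 0) (nat_lit 5888810054) (nat_lit 1260) (nat_lit 1144544994) (nat_lit 84) (nat_lit 333841590) (nat_lit 174) (nat_lit 5) (nat_lit 189) (nat_lit 5) (nat_lit 175) (nat_lit 5) (nat_lit 342) (nat_lit 308) (nat_lit 295)) (XT.lf (nat_lit 0) (nat_lit 1193745092) (nat_lit 1344) (nat_lit 4102924441) (nat_lit 84) (nat_lit 2147594986) (nat_lit 158) (nat_lit 5) (nat_lit 174) (nat_lit 5) (nat_lit 159) (nat_lit 5) (nat_lit 343) (nat_lit 308) (nat_lit 294))))))))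
noncomputable def xc5 : XT := (XT.nd (nat_lit 58562) (nat_lit 0) (nat_lit 0) (XT.nd (nat_lit 1222) (nat_lit 924) (nat_lit 0) (XT.nd (nat_lit 564) (nat_lit 2100) (nat_lit 0) (XT.nd (nat_lit 282) (nat_lit 1260) (nat_lit 0) (XT.nd (nat_lit 94) (nat_lit 672) (nat_lit 0) (XT.lf (nat_lit 0) (nat_lit 377501094) (nat_lit 588) (nat_lit 3478200017) (nat_lit 672) (nat_lit 3669488375) (nat_lit 151) (nat_lit 5) (nat_lit 158) (nat_lit 5) (nat_lit 159) (nat_lit 5) (nat_lit 344) (nat_lit 308) (nat_lit 293)) (XT.nd (nat_lit 94) (nat_lit 672) (nat_lit 0) (XT.lf (nat_lit 0) (nat_lit 5000121569) (nat_lit 588) (nat_lit 1564377144) (nat_lit 672) (nat_lit 1045194590) (nat_lit 151) (nat_lit 5) (nat_lit 158) (nat_lit 5) (nat_lit 159) (nat_lit 5) (nat_lit 345) (nat_lit 308) (nat_lit 292)) (XT.lf (nat_lit 0) (nat_lit 1575908379) (nat_lit 672) (nat_lit 5689943462) (nat_lit 84) (nat_lit 432040768) (nat_lit 143) (nat_lit 5) (nat_lit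 151) (nat_lit 5) (nat_lit 144) (nat_lit 5) (nat_lit 346) (nat_lit 308) (nat_lit 291)))) (XT.nd (nat_lit 94) (nat_lit 1260) (nat_lit 0) (XT.lf (nat_lit 0) (nat_lit 4224968620) (nat_lit 672) (nat_lit 1073790056) (nat_lit 84) (nat_lit 2490705779) (nat_lit 143) (nat_lit 5) (nat_lit 151) (nat_lit 5) (nat_lit 144) (nat_lit 5) (nat_lit 347) (nat_lit 308) (nat_lit 290)) (XT.nd (nat_lit 94) (nat_lit 672) (nat_lit 0) (XT.lf (nat_lit 0) (nat_lit 3677627459) (nat_lit 588) (nat_lit 3241545407) (nat_lit 672) (nat_lit 965783106) (nat_lit 136) (nat_lit 5) (nat_lit 143) (nat_lit 5) (nat_lit 144) (nat_lit 5) (nat_lit 348) (nat_lit 308) (nat_lit 289)) (XT.lf (nat_lit 0) (nat_lit 528613520) (nat_lit 588) (nat_lit 1095747398) (nat_lit 672) (nat_lit 6360186757) (nat_lit 128) (nat_lit 5) (nat_lit 135) (nat_lit 5) (nat_lit 136) (nat_lit 5) (nat_lit 349) (nat_lit 308) (nat_lit 288))))) (XT.nd (nat_lit 282) (nat_lit 1512)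 (nat_lit 0) (XT.nd (nat_lit 94) (nat_lit 588) (nat_lit 0) (XT.lf (nat_lit 0) (nat_lit 4258465745) (nat_lit 672) (nat_lit 2690784087) (nat_lit 84) (nat_lit 1138150972) (nat_lit 128) (nat_lit 5) (nat_lit 136) (nat_lit 5) (nat_lit 129) (nat_lit 5) (nat_lit 350) (nat_lit 308) (nat_lit 287)) (XT.nd (nat_lit 94) (nat_lit 84) (nat_lit 0) (XT.lf (nat_lit 0) (nat_lit 2174024582) (nat_lit 504) (nat_lit 4763344149) (nat_lit 588) (nat_lit 1257124317) (nat_lit 122) (nat_lit 5) (nat_lit 128) (nat_lit 5) (nat_lit 129) (nat_lit 5) (nat_lit 351) (nat_lit 308) (nat_lit 286)) (XT.lf (nat_lit 0) (nat_lit 1326596545) (nat_lit 588) (nat_lit 1153254730) (nat_lit 84) (nat_lit 5825807434) (nat_lit 121) (nat_lit 5) (nat_lit 128) (nat_lit 5) (nat_lit 122) (nat_lit 5) (nat_lit 352) (nat_lit 308) (nat_lit 285)))) (XT.nd (nat_lit 188) (nat_lit 588) (nat_lit 0) (XT.nd (nat_lit 94) (nat_lit 420) (nat_lit 0) (XT.lf (nat_lit 0) (nat_lit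 3849283269) (nat_lit 504) (nat_lit 86663927) (nat_lit 588) (nat_lit 4484753199) (nat_lit 115) (nat_lit 5) (nat_lit 121) (nat_lit 5) (nat_lit 122) (nat_lit 5) (nat_lit 353) (nat_lit 308) (nat_lit 284)) (XT.lf (nat_lit 0) (nat_lit 396934285) (nat_lit 420) (nat_lit 6202522701) (nat_lit 504) (nat_lit 1940572622) (nat_lit 110) (nat_lit 5) (nat_lit 115) (nat_lit 5) (nat_lit 116) (nat_lit 5) (nat_lit 354) (nat_lit 308) (nat_lit 283))) (XT.nd (nat_lit 94) (nat_lit 504) (nat_lit 0) (XT.lf (nat_lit 0) (nat_lit 651980289) (nat_lit 504) (nat_lit 3136499931) (nat_lit 84) (nat_lit 4874809120) (nat_lit 109) (nat_lit 5) (nat_lit 115) (nat_lit 5) (nat_lit 110) (nat_lit 5) (nat_lit 355) (nat_lit 308) (nat_lit 282)) (XT.lf (nat_lit 0) (nat_lit 1966500950) (nat_lit 504) (nat_lit 1275356427) (nat_lit 588) (nat_lit 5549159623) (nat_lit 103) (nat_lit 5) (nat_lit 109) (nat_lit 5) (nat_lit 110) (nat_lit 5) (nat_lit 356) (nat_lit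 308) (nat_lit 281)))))) (XT.nd (nat_lit 56682) (nat_lit 0) (nat_lit 11256) (XT.nd (nat_lit 282) (nat_lit 420) (nat_lit 0) (XT.nd (nat_lit 94) (nat_lit 504) (nat_lit 0) (XT.lf (nat_lit 0) (nat_lit 5894626711) (nat_lit 588) (nat_lit 1721667120) (nat_lit 84) (nat_lit 1306826854) (nat_lit 103) (nat_lit 5) (nat_lit 110) (nat_lit 5) (nat_lit 104) (nat_lit 5) (nat_lit 357) (nat_lit 308) (nat_lit 280)) (XT.nd (nat_lit 94) (nat_lit 84) (nat_lit 0) (XT.lf (nat_lit 0) (nat_lit 3518461591) (nat_lit 420) (nat_lit 5097283846) (nat_lit 504) (nat_lit 443876214) (nat_lit 98) (nat_lit 5) (nat_lit 103) (nat_lit 5) (nat_lit 104) (nat_lit 5) (nat_lit 358) (nat_lit 308) (nat_lit 279)) (XT.lf (nat_lit 0) (nat_lit 2135211026) (nat_lit 504) (nat_lit 342469767) (nat_lit 84) (nat_lit 6723182203) (nat_lit 97) (nat_lit 5) (nat_lit 103) (nat_lit 5) (nat_lit 98) (nat_lit 5) (nat_lit 359) (nat_lit 308) (nat_lit 278)))) (XT.nd (nat_lit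 56212) (nat_lit 0) (nat_lit 14364) (XT.lf (nat_lit 0) (nat_lit 4777988899) (nat_lit 504) (nat_lit 4313222878) (nat_lit 84) (nat_lit 255229691) (nat_lit 92) (nat_lit 5) (nat_lit 98) (nat_lit 5) (nat_lit 93) (nat_lit 5) (nat_lit 360) (nat_lit 308) (nat_lit 277)) (XT.nd (nat_lit 94) (nat_lit 0) (nat_lit 0) (XT.lf (nat_lit 0) (nat_lit 53254239) (nat_lit 588) (nat_lit 3197315209) (nat_lit 0) (nat_lit 53254239) (nat_lit 263) (nat_lit 5) (nat_lit 270) (nat_lit 4) (nat_lit 263) (nat_lit 4) (nat_lit 327) (nat_lit 309) (nat_lit 309)) (XT.lf (nat_lit 0) (nat_lit 3030240091) (nat_lit 588) (nat_lit 2720323337) (nat_lit 0) (nat_lit 885978475) (nat_lit 263) (nat_lit 5) (nat_lit 270) (nat_lit 4) (nat_lit 263) (nat_lit 4) (nat_lit 328) (nat_lit 309) (nat_lit 308))))) (XT.nd (nat_lit 282) (nat_lit 1764) (nat_lit 0) (XT.nd (nat_lit 94) (nat_lit 756) (nat_lit 0) (XT.lf (nat_lit 0) (nat_lit 1009203347) (nat_lit 588) (nat_lit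 4943074917) (nat_lit 588) (nat_lit 717005907) (nat_lit 256) (nat_lit 4) (nat_lit 263) (nat_lit 5) (nat_lit 263) (nat_lit 4) (nat_lit 329) (nat_lit 309) (nat_lit 307)) (XT.nd (nat_lit 94) (nat_lit 672) (nat_lit 0) (XT.lf (nat_lit 0) (nat_lit 2144455150) (nat_lit 672) (nat_lit 1893997280) (nat_lit 84) (nat_lit 2666299429) (nat_lit 255) (nat_lit 5) (nat_lit 263) (nat_lit 5) (nat_lit 256) (nat_lit 4) (nat_lit 330) (nat_lit 309) (nat_lit 306)) (XT.lf (nat_lit 0) (nat_lit 1941876401) (nat_lit 672) (nat_lit 3058823486) (nat_lit 756) (nat_lit 1742943585) (nat_lit 247) (nat_lit 5) (nat_lit 255) (nat_lit 5) (nat_lit 256) (nat_lit 4) (nat_lit 331) (nat_lit 309) (nat_lit 305)))) (XT.nd (nat_lit 188) (nat_lit 924) (nat_lit 0) (XT.nd (nat_lit 94) (nat_lit 756) (nat_lit 0) (XT.lf (nat_lit 0) (nat_lit 1061203203) (nat_lit 756) (nat_lit 938204319) (nat_lit 84) (nat_lit 4786471160) (nat_lit 246) (nat_lit 5) (nat_lit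 255) (nat_lit 5) (nat_lit 247) (nat_lit 5) (nat_lit 332) (nat_lit 309) (nat_lit 304)) (XT.lf (nat_lit 0) (nat_lit 3009533411) (nat_lit 756) (nat_lit 842162270) (nat_lit 840) (nat_lit 2979300172) (nat_lit 237) (nat_lit 5) (nat_lit 246) (nat_lit 5) (nat_lit 247) (nat_lit 5) (nat_lit 333) (nat_lit 309) (nat_lit 303))) (XT.nd (nat_lit 94) (nat_lit 84) (nat_lit 0) (XT.lf (nat_lit 0) (nat_lit 141473854) (nat_lit 840) (nat_lit 6509181540) (nat_lit 924) (nat_lit 229311479) (nat_lit 227) (nat_lit 5) (nat_lit 237) (nat_lit 5) (nat_lit 238) (nat_lit 4) (nat_lit 334) (nat_lit 309) (nat_lit 302)) (XT.lf (nat_lit 0) (nat_lit 2510940731) (nat_lit 924) (nat_lit 2738196458) (nat_lit 84) (nat_lit 1681991260) (nat_lit 226) (nat_lit 5) (nat_lit 237) (nat_lit 5) (nat_lit 227) (nat_lit 5) (nat_lit 335) (nat_lit 309) (nat_lit 301))))))) (XT.nd (nat_lit 1222) (nat_lit 3696) (nat_lit 0) (XT.nd (nat_lit 564) (nat_lit 3192)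 (nat_lit 0) (XT.nd (nat_lit 282) (nat_lit 2352) (nat_lit 0) (XT.nd (nat_lit 94) (nat_lit 1092) (nat_lit 0) (XT.lf (nat_lit 0) (nat_lit 1331215447) (nat_lit 924) (nat_lit 3924209113) (nat_lit 1008) (nat_lit 1730755506) (nat_lit 215) (nat_lit 5) (nat_lit 226) (nat_lit 5) (nat_lit 227) (nat_lit 5) (nat_lit 336) (nat_lit 309) (nat_lit 300)) (XT.nd (nat_lit 94) (nat_lit 1008) (nat_lit 0) (XT.lf (nat_lit 0) (nat_lit 961591383) (nat_lit 1008) (nat_lit 1549256344) (nat_lit 84) (nat_lit 4533669906) (nat_lit 214) (nat_lit 5) (nat_lit 226) (nat_lit 5) (nat_lit 215) (nat_lit 5) (nat_lit 337) (nat_lit 309) (nat_lit 299)) (XT.lf (nat_lit 0) (nat_lit 2640440666) (nat_lit 1008) (nat_lit 1001939947) (nat_lit 1092) (nat_lit 3463640308) (nat_lit 202) (nat_lit 5) (nat_lit 214) (nat_lit 5) (nat_lit 215) (nat_lit 5) (nat_lit 338) (nat_lit 309) (nat_lit 298)))) (XT.nd (nat_lit 94) (nat_lit 2352) (nat_lit 0) (XT.lf (nat_lit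 0) (nat_lit 6343573471) (nat_lit 1092) (nat_lit 262340111) (nat_lit 84) (nat_lit 565453831) (nat_lit 202) (nat_lit 5) (nat_lit 215) (nat_lit 5) (nat_lit 203) (nat_lit 5) (nat_lit 339) (nat_lit 309) (nat_lit 297)) (XT.nd (nat_lit 94) (nat_lit 1176) (nat_lit 0) (XT.lf (nat_lit 0) (nat_lit 1820031554) (nat_lit 1176) (nat_lit 3194605154) (nat_lit 84) (nat_lit 2224587700) (nat_lit 188) (nat_lit 5) (nat_lit 202) (nat_lit 5) (nat_lit 189) (nat_lit 5) (nat_lit 340) (nat_lit 309) (nat_lit 296)) (XT.lf (nat_lit 0) (nat_lit 1116309570) (nat_lit 1176) (nat_lit 3349634782) (nat_lit 1260) (nat_lit 2845048917) (nat_lit 174) (nat_lit 5) (nat_lit 188) (nat_lit 5) (nat_lit 189) (nat_lit 5) (nat_lit 341) (nat_lit 309) (nat_lit 295))))) (XT.nd (nat_lit 282) (nat_lit 1848) (nat_lit 0) (XT.nd (nat_lit 94) (nat_lit 1344) (nat_lit 0) (XT.lf (nat_lit 0) (nat_lit 5548388299) (nat_lit 1176) (nat_lit 1598557103) (nat_lit 1260)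 (nat_lit 239473948) (nat_lit 174) (nat_lit 5) (nat_lit 188) (nat_lit 5) (nat_lit 189) (nat_lit 5) (nat_lit 342) (nat_lit 309) (nat_lit 294)) (XT.nd (nat_lit 94) (nat_lit 0) (nat_lit 0) (XT.lf (nat_lit 0) (nat_lit 2348847423) (nat_lit 1344) (nat_lit 4864084636) (nat_lit 84) (nat_lit 252068419) (nat_lit 158) (nat_lit 5) (nat_lit 174) (nat_lit 5) (nat_lit 159) (nat_lit 5) (nat_lit 343) (nat_lit 309) (nat_lit 293)) (XT.lf (nat_lit 0) (nat_lit 4970861903) (nat_lit 1344) (nat_lit 427889744) (nat_lit 84) (nat_lit 2148451151) (nat_lit 158) (nat_lit 5) (nat_lit 174) (nat_lit 5) (nat_lit 159) (nat_lit 5) (nat_lit 344) (nat_lit 309) (nat_lit 292)))) (XT.nd (nat_lit 188) (nat_lit 588) (nat_lit 0) (XT.nd (nat_lit 94) (nat_lit 588) (nat_lit 0) (XT.lf (nat_lit 0) (nat_lit 6746780) (nat_lit 672) (nat_lit 3483331534) (nat_lit 84) (nat_lit 4142897152) (nat_lit 150) (nat_lit 5) (nat_lit 158) (nat_lit 5) (nat_lit 151)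 (nat_lit 5) (nat_lit 345) (nat_lit 309) (nat_lit 291)) (XT.lf (nat_lit 0) (nat_lit 1073986672) (nat_lit 588) (nat_lit 1485227805) (nat_lit 672) (nat_lit 5163178471) (nat_lit 143) (nat_lit 5) (nat_lit 150) (nat_lit 5) (nat_lit 151) (nat_lit 5) (nat_lit 346) (nat_lit 309) (nat_lit 290))) (XT.nd (nat_lit 94) (nat_lit 588) (nat_lit 0) (XT.lf (nat_lit 0) (nat_lit 5159672969) (nat_lit 672) (nat_lit 2054914006) (nat_lit 84) (nat_lit 600906157) (nat_lit 143) (nat_lit 5) (nat_lit 151) (nat_lit 5) (nat_lit 144) (nat_lit 5) (nat_lit 347) (nat_lit 309) (nat_lit 289)) (XT.lf (nat_lit 0) (nat_lit 2640401301) (nat_lit 588) (nat_lit 5170180382) (nat_lit 672) (nat_lit 101770072) (nat_lit 136) (nat_lit 5) (nat_lit 143) (nat_lit 5) (nat_lit 144) (nat_lit 5) (nat_lit 348) (nat_lit 309) (nat_lit 288)))))) (XT.nd (nat_lit 564) (nat_lit 1932) (nat_lit 0) (XT.nd (nat_lit 282) (nat_lit 588) (nat_lit 0) (XT.nd (nat_lit 94)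 (nat_lit 1092) (nat_lit 0) (XT.lf (nat_lit 0) (nat_lit 2433348115) (nat_lit 672) (nat_lit 590862363) (nat_lit 84) (nat_lit 4988693115) (nat_lit 135) (nat_lit 5) (nat_lit 143) (nat_lit 5) (nat_lit 136) (nat_lit 5) (nat_lit 349) (nat_lit 309) (nat_lit 287)) (XT.nd (nat_lit 94) (nat_lit 504) (nat_lit 0) (XT.lf (nat_lit 0) (nat_lit 4240996470) (nat_lit 588) (nat_lit 777039629) (nat_lit 672) (nat_lit 3099265578) (nat_lit 128) (nat_lit 5) (nat_lit 135) (nat_lit 5) (nat_lit 136) (nat_lit 5) (nat_lit 350) (nat_lit 309) (nat_lit 286)) (XT.lf (nat_lit 0) (nat_lit 936007133) (nat_lit 504) (nat_lit 6710010016) (nat_lit 588) (nat_lit 579965060) (nat_lit 122) (nat_lit 5) (nat_lit 128) (nat_lit 5) (nat_lit 129) (nat_lit 5) (nat_lit 351) (nat_lit 309) (nat_lit 285)))) (XT.nd (nat_lit 94) (nat_lit 504) (nat_lit 0) (XT.lf (nat_lit 0) (nat_lit 1959203785) (nat_lit 588) (nat_lit 2465407926) (nat_lit 84) (nat_lit 3913338174)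 (nat_lit 121) (nat_lit 5) (nat_lit 128) (nat_lit 5) (nat_lit 122) (nat_lit 5) (nat_lit 352) (nat_lit 309) (nat_lit 284)) (XT.nd (nat_lit 94) (nat_lit 0) (nat_lit 0) (XT.lf (nat_lit 0) (nat_lit 2475232621) (nat_lit 504) (nat_lit 2049688161) (nat_lit 588) (nat_lit 3929435284) (nat_lit 115) (nat_lit 5) (nat_lit 121) (nat_lit 5) (nat_lit 122) (nat_lit 5) (nat_lit 353) (nat_lit 309) (nat_lit 283)) (XT.lf (nat_lit 0) (nat_lit 7135825207) (nat_lit 588) (nat_lit 1035291942) (nat_lit 84) (nat_lit 404200159) (nat_lit 115) (nat_lit 5) (nat_lit 122) (nat_lit 5) (nat_lit 116) (nat_lit 5) (nat_lit 354) (nat_lit 309) (nat_lit 282))))) (XT.nd (nat_lit 282) (nat_lit 924) (nat_lit 0) (XT.nd (nat_lit 94) (nat_lit 504) (nat_lit 0) (XT.lf (nat_lit 0) (nat_lit 1103302442) (nat_lit 504) (nat_lit 4665575989) (nat_lit 84) (nat_lit 2930804302) (nat_lit 109) (nat_lit 5) (nat_lit 115) (nat_lit 5) (nat_lit 110) (nat_lit 5) (nat_lit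 355) (nat_lit 309) (nat_lit 281)) (XT.nd (nat_lit 94) (nat_lit 0) (nat_lit 0) (XT.lf (nat_lit 0) (nat_lit 371408514) (nat_lit 504) (nat_lit 3277573871) (nat_lit 588) (nat_lit 5179803219) (nat_lit 103) (nat_lit 5) (nat_lit 109) (nat_lit 5) (nat_lit 110) (nat_lit 5) (nat_lit 356) (nat_lit 309) (nat_lit 280)) (XT.lf (nat_lit 0) (nat_lit 5585009199) (nat_lit 504) (nat_lit 675574953) (nat_lit 588) (nat_lit 2701588025) (nat_lit 103) (nat_lit 5) (nat_lit 109) (nat_lit 5) (nat_lit 110) (nat_lit 5) (nat_lit 357) (nat_lit 309) (nat_lit 279)))) (XT.nd (nat_lit 188) (nat_lit 420) (nat_lit 0) (XT.nd (nat_lit 94) (nat_lit 84) (nat_lit 0) (XT.lf (nat_lit 0) (nat_lit 1801601019) (nat_lit 420) (nat_lit 7129516862) (nat_lit 504) (nat_lit 169119280) (nat_lit 98) (nat_lit 5) (nat_lit 103) (nat_lit 5) (nat_lit 104) (nat_lit 5) (nat_lit 358) (nat_lit 309) (nat_lit 278)) (XT.lf (nat_lit 0) (nat_lit 2377182859) (nat_lit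 504) (nat_lit 2137196353) (nat_lit 84) (nat_lit 4727886568) (nat_lit 97) (nat_lit 5) (nat_lit 103) (nat_lit 5) (nat_lit 98) (nat_lit 5) (nat_lit 359) (nat_lit 309) (nat_lit 277))) (XT.nd (nat_lit 56024) (nat_lit 0) (nat_lit 15372) (XT.lf (nat_lit 0) (nat_lit 3171080680) (nat_lit 420) (nat_lit 1801828159) (nat_lit 504) (nat_lit 4416389495) (nat_lit 92) (nat_lit 5) (nat_lit 97) (nat_lit 5) (nat_lit 98) (nat_lit 5) (nat_lit 360) (nat_lit 309) (nat_lit 276)) (XT.lf (nat_lit 0) (nat_lit 1535016924) (nat_lit 420) (nat_lit 208095270) (nat_lit 0) (nat_lit 1535016924) (nat_lit 275) (nat_lit 5) (nat_lit 280) (nat_lit 4) (nat_lit 275) (nat_lit 4) (nat_lit 325) (nat_lit 310) (nat_lit 310))))))))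
noncomputable def xc6 : XT := (XT.nd (nat_lit 2444) (nat_lit 2940) (nat_lit 0) (XT.nd (nat_lit 1222) (nat_lit 6300) (nat_lit 0) (XT.nd (nat_lit 564) (nat_lit 3696) (nat_lit 0) (XT.nd (nat_lit 282) (nat_lit 1428) (nat_lit 0) (XT.nd (nat_lit 94) (nat_lit 588) (nat_lit 0) (XT.lf (nat_lit 0) (nat_lit 3160969410) (nat_lit 420) (nat_lit 2847371039) (nat_lit 420) (nat_lit 572523890) (nat_lit 270) (nat_lit 4) (nat_lit 275) (nat_lit 5) (nat_lit 275) (nat_lit 4) (nat_lit 326) (nat_lit 310) (nat_lit 309)) (XT.nd (nat_lit 94) (nat_lit 0) (nat_lit 0) (XT.lf (nat_lit 0) (nat_lit 155688614) (nat_lit 504) (nat_lit 2129594748) (nat_lit 588) (nat_lit 4323410029) (nat_lit 263) (nat_lit 5) (nat_lit 269) (nat_lit 5) (nat_lit 270) (nat_lit 4) (nat_lit 327) (nat_lit 310) (nat_lit 308)) (XT.lf (nat_lit 0) (nat_lit 3831711394) (nat_lit 504) (nat_lit 1320707139) (nat_lit 588) (nat_lit 1487014444) (nat_lit 263) (nat_lit 5)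 (nat_lit 269) (nat_lit 5) (nat_lit 270) (nat_lit 4) (nat_lit 328) (nat_lit 310) (nat_lit 307)))) (XT.nd (nat_lit 94) (nat_lit 756) (nat_lit 0) (XT.lf (nat_lit 0) (nat_lit 878977596) (nat_lit 588) (nat_lit 438229985) (nat_lit 672) (nat_lit 5356433305) (nat_lit 255) (nat_lit 5) (nat_lit 262) (nat_lit 5) (nat_lit 263) (nat_lit 5) (nat_lit 329) (nat_lit 310) (nat_lit 306)) (XT.nd (nat_lit 94) (nat_lit 756) (nat_lit 0) (XT.lf (nat_lit 0) (nat_lit 4113511265) (nat_lit 672) (nat_lit 2067705965) (nat_lit 84) (nat_lit 529354231) (nat_lit 255) (nat_lit 5) (nat_lit 263) (nat_lit 5) (nat_lit 256) (nat_lit 4) (nat_lit 330) (nat_lit 310) (nat_lit 305)) (XT.lf (nat_lit 0) (nat_lit 167758542) (nat_lit 756) (nat_lit 5024046157) (nat_lit 84) (nat_lit 1559168862) (nat_lit 246) (nat_lit 5) (nat_lit 255) (nat_lit 5) (nat_lit 247) (nat_lit 5) (nat_lit 331) (nat_lit 310) (nat_lit 304))))) (XT.nd (nat_lit 282) (nat_lit 2856)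 (nat_lit 0) (XT.nd (nat_lit 94) (nat_lit 840) (nat_lit 0) (XT.lf (nat_lit 0) (nat_lit 2892733264) (nat_lit 756) (nat_lit 1213297681) (nat_lit 84) (nat_lit 2688153276) (nat_lit 246) (nat_lit 5) (nat_lit 255) (nat_lit 5) (nat_lit 247) (nat_lit 5) (nat_lit 332) (nat_lit 310) (nat_lit 303)) (XT.nd (nat_lit 94) (nat_lit 84) (nat_lit 0) (XT.lf (nat_lit 0) (nat_lit 2693258645) (nat_lit 756) (nat_lit 2943081278) (nat_lit 840) (nat_lit 1204487702) (nat_lit 237) (nat_lit 5) (nat_lit 246) (nat_lit 5) (nat_lit 247) (nat_lit 5) (nat_lit 333) (nat_lit 310) (nat_lit 302)) (XT.lf (nat_lit 0) (nat_lit 1466871176) (nat_lit 840) (nat_lit 234222357) (nat_lit 84) (nat_lit 5189826358) (nat_lit 236) (nat_lit 5) (nat_lit 246) (nat_lit 5) (nat_lit 237) (nat_lit 5) (nat_lit 334) (nat_lit 310) (nat_lit 301)))) (XT.nd (nat_lit 188) (nat_lit 1092) (nat_lit 0) (XT.nd (nat_lit 94) (nat_lit 924) (nat_lit 0) (XT.lf (nat_lit 0) (nat_lit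 3788272351) (nat_lit 840) (nat_lit 356689011) (nat_lit 924) (nat_lit 2798894102) (nat_lit 226) (nat_lit 5) (nat_lit 236) (nat_lit 5) (nat_lit 237) (nat_lit 5) (nat_lit 335) (nat_lit 310) (nat_lit 300)) (XT.lf (nat_lit 0) (nat_lit 872630470) (nat_lit 924) (nat_lit 5967769013) (nat_lit 1008) (nat_lit 160085283) (nat_lit 215) (nat_lit 5) (nat_lit 226) (nat_lit 5) (nat_lit 227) (nat_lit 5) (nat_lit 336) (nat_lit 310) (nat_lit 299))) (XT.nd (nat_lit 94) (nat_lit 1008) (nat_lit 0) (XT.lf (nat_lit 0) (nat_lit 2460763342) (nat_lit 1008) (nat_lit 2073486051) (nat_lit 84) (nat_lit 2525445670) (nat_lit 214) (nat_lit 5) (nat_lit 226) (nat_lit 5) (nat_lit 215) (nat_lit 5) (nat_lit 337) (nat_lit 310) (nat_lit 298)) (XT.lf (nat_lit 0) (nat_lit 2069891284) (nat_lit 1008) (nat_lit 3026517758) (nat_lit 1092) (nat_lit 2026240908) (nat_lit 202) (nat_lit 5) (nat_lit 214) (nat_lit 5) (nat_lit 215) (nat_lit 5) (nat_lit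 338) (nat_lit 310) (nat_lit 297)))))) (XT.nd (nat_lit 564) (nat_lit 2604) (nat_lit 0) (XT.nd (nat_lit 282) (nat_lit 1344) (nat_lit 0) (XT.nd (nat_lit 94) (nat_lit 2268) (nat_lit 0) (XT.lf (nat_lit 0) (nat_lit 552795291) (nat_lit 1092) (nat_lit 885495281) (nat_lit 84) (nat_lit 5750969217) (nat_lit 201) (nat_lit 5) (nat_lit 214) (nat_lit 5) (nat_lit 202) (nat_lit 5) (nat_lit 339) (nat_lit 310) (nat_lit 296)) (XT.nd (nat_lit 94) (nat_lit 1176) (nat_lit 0) (XT.lf (nat_lit 0) (nat_lit 3125991361) (nat_lit 1176) (nat_lit 3878948897) (nat_lit 84) (nat_lit 253781132) (nat_lit 188) (nat_lit 5) (nat_lit 202) (nat_lit 5) (nat_lit 189) (nat_lit 5) (nat_lit 340) (nat_lit 310) (nat_lit 295)) (XT.lf (nat_lit 0) (nat_lit 382065399) (nat_lit 1176) (nat_lit 5345420946) (nat_lit 1260) (nat_lit 1604422884) (nat_lit 174) (nat_lit 5) (nat_lit 188) (nat_lit 5) (nat_lit 189) (nat_lit 5) (nat_lit 341) (nat_lit 310) (nat_lit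 294)))) (XT.nd (nat_lit 94) (nat_lit 1260) (nat_lit 0) (XT.lf (nat_lit 0) (nat_lit 944560981) (nat_lit 1260) (nat_lit 2638857746) (nat_lit 84) (nat_lit 3824821003) (nat_lit 173) (nat_lit 5) (nat_lit 188) (nat_lit 5) (nat_lit 174) (nat_lit 5) (nat_lit 342) (nat_lit 310) (nat_lit 293)) (XT.nd (nat_lit 94) (nat_lit 0) (nat_lit 0) (XT.lf (nat_lit 0) (nat_lit 1748659222) (nat_lit 1260) (nat_lit 1732886244) (nat_lit 1344) (nat_lit 4006685358) (nat_lit 158) (nat_lit 5) (nat_lit 173) (nat_lit 5) (nat_lit 174) (nat_lit 5) (nat_lit 343) (nat_lit 310) (nat_lit 292)) (XT.lf (nat_lit 0) (nat_lit 6051647270) (nat_lit 1344) (nat_lit 1322509671) (nat_lit 84) (nat_lit 197910389) (nat_lit 158) (nat_lit 5) (nat_lit 174) (nat_lit 5) (nat_lit 159) (nat_lit 5) (nat_lit 344) (nat_lit 310) (nat_lit 291))))) (XT.nd (nat_lit 282) (nat_lit 1344) (nat_lit 0) (XT.nd (nat_lit 94) (nat_lit 588) (nat_lit 0) (XT.lf (nat_lit 0) (nat_lit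 998220862) (nat_lit 672) (nat_lit 4467155410) (nat_lit 84) (nat_lit 2193546874) (nat_lit 150) (nat_lit 5) (nat_lit 158) (nat_lit 5) (nat_lit 151) (nat_lit 5) (nat_lit 345) (nat_lit 310) (nat_lit 290)) (XT.nd (nat_lit 94) (nat_lit 0) (nat_lit 0) (XT.lf (nat_lit 0) (nat_lit 34729468) (nat_lit 588) (nat_lit 3472003762) (nat_lit 672) (nat_lit 4242996344) (nat_lit 143) (nat_lit 5) (nat_lit 150) (nat_lit 5) (nat_lit 151) (nat_lit 5) (nat_lit 346) (nat_lit 310) (nat_lit 289)) (XT.lf (nat_lit 0) (nat_lit 4692580865) (nat_lit 588) (nat_lit 1375408945) (nat_lit 672) (nat_lit 1776084246) (nat_lit 143) (nat_lit 5) (nat_lit 150) (nat_lit 5) (nat_lit 151) (nat_lit 5) (nat_lit 347) (nat_lit 310) (nat_lit 288)))) (XT.nd (nat_lit 188) (nat_lit 672) (nat_lit 0) (XT.nd (nat_lit 94) (nat_lit 0) (nat_lit 0) (XT.lf (nat_lit 0) (nat_lit 705621963) (nat_lit 672) (nat_lit 6449641097) (nat_lit 84) (nat_lit 787224481) (nat_lit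 135) (nat_lit 5) (nat_lit 143) (nat_lit 5) (nat_lit 136) (nat_lit 5) (nat_lit 348) (nat_lit 310) (nat_lit 287)) (XT.lf (nat_lit 0) (nat_lit 3206633401) (nat_lit 672) (nat_lit 1804709308) (nat_lit 84) (nat_lit 3032693397) (nat_lit 135) (nat_lit 5) (nat_lit 143) (nat_lit 5) (nat_lit 136) (nat_lit 5) (nat_lit 349) (nat_lit 310) (nat_lit 286))) (XT.nd (nat_lit 94) (nat_lit 84) (nat_lit 0) (XT.lf (nat_lit 0) (nat_lit 2968158447) (nat_lit 588) (nat_lit 2779742349) (nat_lit 672) (nat_lit 2401896640) (nat_lit 128) (nat_lit 5) (nat_lit 135) (nat_lit 5) (nat_lit 136) (nat_lit 5) (nat_lit 350) (nat_lit 310) (nat_lit 285)) (XT.lf (nat_lit 0) (nat_lit 60143034) (nat_lit 672) (nat_lit 408202407) (nat_lit 84) (nat_lit 7791804916) (nat_lit 127) (nat_lit 5) (nat_lit 135) (nat_lit 5) (nat_lit 128) (nat_lit 5) (nat_lit 351) (nat_lit 310) (nat_lit 284))))))) (XT.nd (nat_lit 56964) (nat_lit 0) (nat_lit 9156) (XT.nd (nat_lit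 564) (nat_lit 924) (nat_lit 0) (XT.nd (nat_lit 282) (nat_lit 1008) (nat_lit 0) (XT.nd (nat_lit 94) (nat_lit 504) (nat_lit 0) (XT.lf (nat_lit 0) (nat_lit 2549025603) (nat_lit 588) (nat_lit 3888147810) (nat_lit 84) (nat_lit 1936001929) (nat_lit 121) (nat_lit 5) (nat_lit 128) (nat_lit 5) (nat_lit 122) (nat_lit 5) (nat_lit 352) (nat_lit 310) (nat_lit 283)) (XT.nd (nat_lit 94) (nat_lit 0) (nat_lit 0) (XT.lf (nat_lit 0) (nat_lit 989436618) (nat_lit 504) (nat_lit 4081484342) (nat_lit 588) (nat_lit 3420029080) (nat_lit 115) (nat_lit 5) (nat_lit 121) (nat_lit 5) (nat_lit 122) (nat_lit 5) (nat_lit 353) (nat_lit 310) (nat_lit 282)) (XT.lf (nat_lit 0) (nat_lit 6024582055) (nat_lit 504) (nat_lit 1624277466) (nat_lit 588) (nat_lit 964093038) (nat_lit 115) (nat_lit 5) (nat_lit 121) (nat_lit 5) (nat_lit 122) (nat_lit 5) (nat_lit 354) (nat_lit 310) (nat_lit 281)))) (XT.nd (nat_lit 94) (nat_lit 504) (nat_lit 0) (XT.lf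 (nat_lit 0) (nat_lit 1509570053) (nat_lit 504) (nat_lit 6311351800) (nat_lit 84) (nat_lit 918103973) (nat_lit 109) (nat_lit 5) (nat_lit 115) (nat_lit 5) (nat_lit 110) (nat_lit 5) (nat_lit 355) (nat_lit 310) (nat_lit 280)) (XT.nd (nat_lit 94) (nat_lit 504) (nat_lit 0) (XT.lf (nat_lit 0) (nat_lit 4023656351) (nat_lit 504) (nat_lit 1315488971) (nat_lit 84) (nat_lit 3529979046) (nat_lit 109) (nat_lit 5) (nat_lit 115) (nat_lit 5) (nat_lit 110) (nat_lit 5) (nat_lit 356) (nat_lit 310) (nat_lit 279)) (XT.lf (nat_lit 0) (nat_lit 3838388847) (nat_lit 504) (nat_lit 2756442673) (nat_lit 588) (nat_lit 2408938688) (nat_lit 103) (nat_lit 5) (nat_lit 109) (nat_lit 5) (nat_lit 110) (nat_lit 5) (nat_lit 357) (nat_lit 310) (nat_lit 278))))) (XT.nd (nat_lit 56024) (nat_lit 0) (nat_lit 14868) (XT.nd (nat_lit 94) (nat_lit 840) (nat_lit 0) (XT.lf (nat_lit 0) (nat_lit 57252687) (nat_lit 588) (nat_lit 36595439) (nat_lit 84)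 (nat_lit 9049911249) (nat_lit 102) (nat_lit 5) (nat_lit 109) (nat_lit 5) (nat_lit 103) (nat_lit 5) (nat_lit 358) (nat_lit 310) (nat_lit 277)) (XT.nd (nat_lit 94) (nat_lit 420) (nat_lit 0) (XT.lf (nat_lit 0) (nat_lit 2572365385) (nat_lit 504) (nat_lit 4053975443) (nat_lit 84) (nat_lit 2660277599) (nat_lit 97) (nat_lit 5) (nat_lit 103) (nat_lit 5) (nat_lit 98) (nat_lit 5) (nat_lit 359) (nat_lit 310) (nat_lit 276)) (XT.lf (nat_lit 0) (nat_lit 1182882019) (nat_lit 420) (nat_lit 3940248187) (nat_lit 504) (nat_lit 4311910895) (nat_lit 92) (nat_lit 5) (nat_lit 97) (nat_lit 5) (nat_lit 98) (nat_lit 5) (nat_lit 360) (nat_lit 310) (nat_lit 275)))) (XT.nd (nat_lit 188) (nat_lit 504) (nat_lit 0) (XT.nd (nat_lit 94) (nat_lit 420) (nat_lit 0) (XT.lf (nat_lit 0) (nat_lit 2863354869) (nat_lit 252) (nat_lit 197114067) (nat_lit 252) (nat_lit 197114067) (nat_lit 280) (nat_lit 4) (nat_lit 283) (nat_lit 5) (nat_lit 283)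 (nat_lit 4) (nat_lit 323) (nat_lit 311) (nat_lit 311)) (XT.lf (nat_lit 0) (nat_lit 2490219700) (nat_lit 420) (nat_lit 3897444373) (nat_lit 0) (nat_lit 147127137) (nat_lit 275) (nat_lit 5) (nat_lit 280) (nat_lit 4) (nat_lit 275) (nat_lit 4) (nat_lit 324) (nat_lit 311) (nat_lit 310))) (XT.nd (nat_lit 94) (nat_lit 504) (nat_lit 0) (XT.lf (nat_lit 0) (nat_lit 5362548833) (nat_lit 420) (nat_lit 450778420) (nat_lit 0) (nat_lit 744609122) (nat_lit 275) (nat_lit 5) (nat_lit 280) (nat_lit 4) (nat_lit 275) (nat_lit 4) (nat_lit 325) (nat_lit 311) (nat_lit 309)) (XT.lf (nat_lit 0) (nat_lit 1634363838) (nat_lit 504) (nat_lit 3508770582) (nat_lit 84) (nat_lit 1440576671) (nat_lit 269) (nat_lit 5) (nat_lit 275) (nat_lit 5) (nat_lit 270) (nat_lit 4) (nat_lit 326) (nat_lit 311) (nat_lit 308)))))) (XT.nd (nat_lit 564) (nat_lit 3780) (nat_lit 0) (XT.nd (nat_lit 282) (nat_lit 756) (nat_lit 0) (XT.nd (nat_lit 94) (nat_lit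 672) (nat_lit 0) (XT.lf (nat_lit 0) (nat_lit 24381234) (nat_lit 504) (nat_lit 4406737990) (nat_lit 588) (nat_lit 2181899377) (nat_lit 263) (nat_lit 5) (nat_lit 269) (nat_lit 5) (nat_lit 270) (nat_lit 4) (nat_lit 327) (nat_lit 311) (nat_lit 307)) (XT.nd (nat_lit 94) (nat_lit 588) (nat_lit 0) (XT.lf (nat_lit 0) (nat_lit 593585238) (nat_lit 588) (nat_lit 2984771452) (nat_lit 84) (nat_lit 3066795653) (nat_lit 262) (nat_lit 5) (nat_lit 269) (nat_lit 5) (nat_lit 263) (nat_lit 5) (nat_lit 328) (nat_lit 311) (nat_lit 306)) (XT.lf (nat_lit 0) (nat_lit 649044025) (nat_lit 588) (nat_lit 2670798698) (nat_lit 672) (nat_lit 3360691808) (nat_lit 255) (nat_lit 5) (nat_lit 262) (nat_lit 5) (nat_lit 263) (nat_lit 5) (nat_lit 329) (nat_lit 311) (nat_lit 305)))) (XT.nd (nat_lit 94) (nat_lit 756) (nat_lit 0) (XT.lf (nat_lit 0) (nat_lit 4384508930) (nat_lit 588) (nat_lit 1680747135) (nat_lit 672) (nat_lit 653866506) (nat_lit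 255) (nat_lit 5) (nat_lit 262) (nat_lit 5) (nat_lit 263) (nat_lit 5) (nat_lit 330) (nat_lit 311) (nat_lit 304)) (XT.nd (nat_lit 94) (nat_lit 0) (nat_lit 0) (XT.lf (nat_lit 0) (nat_lit 1411580800) (nat_lit 672) (nat_lit 603291956) (nat_lit 756) (nat_lit 4745959611) (nat_lit 246) (nat_lit 5) (nat_lit 254) (nat_lit 5) (nat_lit 255) (nat_lit 5) (nat_lit 331) (nat_lit 311) (nat_lit 303)) (XT.lf (nat_lit 0) (nat_lit 4690202674) (nat_lit 756) (nat_lit 1567713624) (nat_lit 84) (nat_lit 547735731) (nat_lit 246) (nat_lit 5) (nat_lit 255) (nat_lit 5) (nat_lit 247) (nat_lit 5) (nat_lit 332) (nat_lit 311) (nat_lit 302))))) (XT.nd (nat_lit 282) (nat_lit 2100) (nat_lit 0) (XT.nd (nat_lit 94) (nat_lit 840) (nat_lit 0) (XT.lf (nat_lit 0) (nat_lit 523216951) (nat_lit 840) (nat_lit 4561809860) (nat_lit 84) (nat_lit 1768622201) (nat_lit 236) (nat_lit 5) (nat_lit 246) (nat_lit 5) (nat_lit 237) (nat_lit 5) (nat_lit 333)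 (nat_lit 311) (nat_lit 301)) (XT.nd (nat_lit 94) (nat_lit 840) (nat_lit 0) (XT.lf (nat_lit 0) (nat_lit 3128896745) (nat_lit 840) (nat_lit 694647189) (nat_lit 84) (nat_lit 3081224756) (nat_lit 236) (nat_lit 5) (nat_lit 246) (nat_lit 5) (nat_lit 237) (nat_lit 5) (nat_lit 334) (nat_lit 311) (nat_lit 300)) (XT.lf (nat_lit 0) (nat_lit 3284417753) (nat_lit 840) (nat_lit 2476779030) (nat_lit 924) (nat_lit 1197987499) (nat_lit 226) (nat_lit 5) (nat_lit 236) (nat_lit 5) (nat_lit 237) (nat_lit 5) (nat_lit 335) (nat_lit 311) (nat_lit 299)))) (XT.nd (nat_lit 188) (nat_lit 1092) (nat_lit 0) (XT.nd (nat_lit 94) (nat_lit 0) (nat_lit 0) (XT.lf (nat_lit 0) (nat_lit 304560789) (nat_lit 924) (nat_lit 1051887438) (nat_lit 1008) (nat_lit 5660737791) (nat_lit 214) (nat_lit 5) (nat_lit 225) (nat_lit 5) (nat_lit 226) (nat_lit 5) (nat_lit 336) (nat_lit 311) (nat_lit 298)) (XT.lf (nat_lit 0) (nat_lit 3924402569) (nat_lit 1008)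 (nat_lit 2684870638) (nat_lit 84) (nat_lit 468667350) (nat_lit 214) (nat_lit 5) (nat_lit 226) (nat_lit 5) (nat_lit 215) (nat_lit 5) (nat_lit 337) (nat_lit 311) (nat_lit 297))) (XT.nd (nat_lit 94) (nat_lit 84) (nat_lit 0) (XT.lf (nat_lit 0) (nat_lit 1411497706) (nat_lit 1008) (nat_lit 5103717739) (nat_lit 1092) (nat_lit 627119442) (nat_lit 202) (nat_lit 5) (nat_lit 214) (nat_lit 5) (nat_lit 215) (nat_lit 5) (nat_lit 338) (nat_lit 311) (nat_lit 296)) (XT.lf (nat_lit 0) (nat_lit 1886443969) (nat_lit 1092) (nat_lit 1611698166) (nat_lit 84) (nat_lit 3711633281) (nat_lit 201) (nat_lit 5) (nat_lit 214) (nat_lit 5) (nat_lit 202) (nat_lit 5) (nat_lit 339) (nat_lit 311) (nat_lit 295))))))))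
noncomputable def xc7 : XT := (XT.nd (nat_lit 57998) (nat_lit 0) (nat_lit 2520) (XT.nd (nat_lit 1222) (nat_lit 2016) (nat_lit 0) (XT.nd (nat_lit 564) (nat_lit 2436) (nat_lit 0) (XT.nd (nat_lit 282) (nat_lit 1932) (nat_lit 0) (XT.nd (nat_lit 94) (nat_lit 1260) (nat_lit 0) (XT.lf (nat_lit 0) (nat_lit 2607344235) (nat_lit 1092) (nat_lit 1805298951) (nat_lit 1176) (nat_lit 2868090180) (nat_lit 188) (nat_lit 5) (nat_lit 201) (nat_lit 5) (nat_lit 202) (nat_lit 5) (nat_lit 340) (nat_lit 311) (nat_lit 294)) (XT.nd (nat_lit 94) (nat_lit 1260) (nat_lit 0) (XT.lf (nat_lit 0) (nat_lit 6918325785) (nat_lit 1092) (nat_lit 38888258) (nat_lit 1176) (nat_lit 398498810) (nat_lit 188) (nat_lit 5) (nat_lit 201) (nat_lit 5) (nat_lit 202) (nat_lit 5) (nat_lit 341) (nat_lit 311) (nat_lit 293)) (XT.lf (nat_lit 0) (nat_lit 2086273003) (nat_lit 1260) (nat_lit 3537116234) (nat_lit 84) (nat_lit 1809605869) (nat_lit 173) (nat_lit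 5) (nat_lit 188) (nat_lit 5) (nat_lit 174) (nat_lit 5) (nat_lit 342) (nat_lit 311) (nat_lit 292)))) (XT.nd (nat_lit 94) (nat_lit 672) (nat_lit 0) (XT.lf (nat_lit 0) (nat_lit 797873614) (nat_lit 1260) (nat_lit 3781316431) (nat_lit 1344) (nat_lit 2935194982) (nat_lit 158) (nat_lit 5) (nat_lit 173) (nat_lit 5) (nat_lit 174) (nat_lit 5) (nat_lit 343) (nat_lit 311) (nat_lit 291)) (XT.nd (nat_lit 94) (nat_lit 672) (nat_lit 0) (XT.lf (nat_lit 0) (nat_lit 5267129766) (nat_lit 1260) (nat_lit 1845987815) (nat_lit 1344) (nat_lit 486263745) (nat_lit 158) (nat_lit 5) (nat_lit 173) (nat_lit 5) (nat_lit 174) (nat_lit 5) (nat_lit 344) (nat_lit 311) (nat_lit 290)) (XT.lf (nat_lit 0) (nat_lit 1950489502) (nat_lit 672) (nat_lit 5551855964) (nat_lit 84) (nat_lit 185514962) (nat_lit 150) (nat_lit 5) (nat_lit 158) (nat_lit 5) (nat_lit 151) (nat_lit 5) (nat_lit 345) (nat_lit 311) (nat_lit 289))))) (XT.nd (nat_lit 282) (nat_lit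 1176) (nat_lit 0) (XT.nd (nat_lit 94) (nat_lit 1260) (nat_lit 0) (XT.lf (nat_lit 0) (nat_lit 4425691960) (nat_lit 672) (nat_lit 1084778565) (nat_lit 84) (nat_lit 2269263868) (nat_lit 150) (nat_lit 5) (nat_lit 158) (nat_lit 5) (nat_lit 151) (nat_lit 5) (nat_lit 346) (nat_lit 311) (nat_lit 288)) (XT.nd (nat_lit 94) (nat_lit 672) (nat_lit 0) (XT.lf (nat_lit 0) (nat_lit 3517688433) (nat_lit 588) (nat_lit 3426284560) (nat_lit 672) (nat_lit 931461400) (nat_lit 143) (nat_lit 5) (nat_lit 150) (nat_lit 5) (nat_lit 151) (nat_lit 5) (nat_lit 347) (nat_lit 311) (nat_lit 287)) (XT.lf (nat_lit 0) (nat_lit 228083225) (nat_lit 588) (nat_lit 1253955520) (nat_lit 672) (nat_lit 6493179744) (nat_lit 135) (nat_lit 5) (nat_lit 142) (nat_lit 5) (nat_lit 143) (nat_lit 5) (nat_lit 348) (nat_lit 311) (nat_lit 286)))) (XT.nd (nat_lit 188) (nat_lit 588) (nat_lit 0) (XT.nd (nat_lit 94) (nat_lit 588) (nat_lit 0) (XT.lf (nat_lit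 0) (nat_lit 3939811105) (nat_lit 672) (nat_lit 3124303111) (nat_lit 84) (nat_lit 1014010639) (nat_lit 135) (nat_lit 5) (nat_lit 143) (nat_lit 5) (nat_lit 136) (nat_lit 5) (nat_lit 349) (nat_lit 311) (nat_lit 285)) (XT.lf (nat_lit 0) (nat_lit 1588483554) (nat_lit 588) (nat_lit 4849055687) (nat_lit 672) (nat_lit 1747711988) (nat_lit 128) (nat_lit 5) (nat_lit 135) (nat_lit 5) (nat_lit 136) (nat_lit 5) (nat_lit 350) (nat_lit 311) (nat_lit 284))) (XT.nd (nat_lit 94) (nat_lit 504) (nat_lit 0) (XT.lf (nat_lit 0) (nat_lit 671501243) (nat_lit 672) (nat_lit 1863106851) (nat_lit 84) (nat_lit 5761764716) (nat_lit 127) (nat_lit 5) (nat_lit 135) (nat_lit 5) (nat_lit 128) (nat_lit 5) (nat_lit 351) (nat_lit 311) (nat_lit 283)) (XT.lf (nat_lit 0) (nat_lit 2987558433) (nat_lit 504) (nat_lit 110077072) (nat_lit 588) (nat_lit 5313698608) (nat_lit 121) (nat_lit 5) (nat_lit 127) (nat_lit 5) (nat_lit 128) (nat_lit 5) (nat_lit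 352) (nat_lit 311) (nat_lit 282)))))) (XT.nd (nat_lit 564) (nat_lit 420) (nat_lit 0) (XT.nd (nat_lit 282) (nat_lit 588) (nat_lit 0) (XT.nd (nat_lit 94) (nat_lit 1008) (nat_lit 0) (XT.lf (nat_lit 0) (nat_lit 5580282771) (nat_lit 588) (nat_lit 597511360) (nat_lit 84) (nat_lit 2352544423) (nat_lit 121) (nat_lit 5) (nat_lit 128) (nat_lit 5) (nat_lit 122) (nat_lit 5) (nat_lit 353) (nat_lit 311) (nat_lit 281)) (XT.nd (nat_lit 94) (nat_lit 504) (nat_lit 0) (XT.lf (nat_lit 0) (nat_lit 4392995887) (nat_lit 504) (nat_lit 3731209124) (nat_lit 588) (nat_lit 529207327) (nat_lit 115) (nat_lit 5) (nat_lit 121) (nat_lit 5) (nat_lit 122) (nat_lit 5) (nat_lit 354) (nat_lit 311) (nat_lit 280)) (XT.lf (nat_lit 0) (nat_lit 694322851) (nat_lit 420) (nat_lit 1188237325) (nat_lit 504) (nat_lit 6898450162) (nat_lit 109) (nat_lit 5) (nat_lit 114) (nat_lit 5) (nat_lit 115) (nat_lit 5) (nat_lit 355) (nat_lit 311) (nat_lit 279))))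 (XT.nd (nat_lit 94) (nat_lit 588) (nat_lit 0) (XT.lf (nat_lit 0) (nat_lit 4358017189) (nat_lit 504) (nat_lit 3112290124) (nat_lit 84) (nat_lit 1442006913) (nat_lit 109) (nat_lit 5) (nat_lit 115) (nat_lit 5) (nat_lit 110) (nat_lit 5) (nat_lit 356) (nat_lit 311) (nat_lit 278)) (XT.nd (nat_lit 94) (nat_lit 84) (nat_lit 0) (XT.lf (nat_lit 0) (nat_lit 1973262725) (nat_lit 504) (nat_lit 4911586122) (nat_lit 588) (nat_lit 2163486639) (nat_lit 103) (nat_lit 5) (nat_lit 109) (nat_lit 5) (nat_lit 110) (nat_lit 5) (nat_lit 357) (nat_lit 311) (nat_lit 277)) (XT.lf (nat_lit 0) (nat_lit 271665878) (nat_lit 588) (nat_lit 1980827815) (nat_lit 84) (nat_lit 6936590177) (nat_lit 102) (nat_lit 5) (nat_lit 109) (nat_lit 5) (nat_lit 103) (nat_lit 5) (nat_lit 358) (nat_lit 311) (nat_lit 276))))) (XT.nd (nat_lit 55836) (nat_lit 0) (nat_lit 14868) (XT.nd (nat_lit 94) (nat_lit 0) (nat_lit 0) (XT.lf (nat_lit 0) (nat_lit 2720929153)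 (nat_lit 504) (nat_lit 6094481892) (nat_lit 84) (nat_lit 518548647) (nat_lit 97) (nat_lit 5) (nat_lit 103) (nat_lit 5) (nat_lit 98) (nat_lit 5) (nat_lit 359) (nat_lit 311) (nat_lit 275)) (XT.nd (nat_lit 55648) (nat_lit 0) (nat_lit 15624) (XT.lf (nat_lit 0) (nat_lit 5235226907) (nat_lit 504) (nat_lit 912379196) (nat_lit 84) (nat_lit 3335910358) (nat_lit 97) (nat_lit 5) (nat_lit 103) (nat_lit 5) (nat_lit 98) (nat_lit 5) (nat_lit 360) (nat_lit 311) (nat_lit 274)) (XT.lf (nat_lit 0) (nat_lit 1381680698) (nat_lit 252) (nat_lit 478015518) (nat_lit 0) (nat_lit 1381680698) (nat_lit 283) (nat_lit 5) (nat_lit 286) (nat_lit 4) (nat_lit 283) (nat_lit 4) (nat_lit 321) (nat_lit 312) (nat_lit 312)))) (XT.nd (nat_lit 188) (nat_lit 420) (nat_lit 0) (XT.nd (nat_lit 94) (nat_lit 84) (nat_lit 0) (XT.lf (nat_lit 0) (nat_lit 2342468781) (nat_lit 252) (nat_lit 3320657083) (nat_lit 252) (nat_lit 834870183) (nat_lit 280)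 (nat_lit 4) (nat_lit 283) (nat_lit 5) (nat_lit 283) (nat_lit 4) (nat_lit 322) (nat_lit 312) (nat_lit 311)) (XT.lf (nat_lit 0) (nat_lit 1998795677) (nat_lit 336) (nat_lit 841617015) (nat_lit 84) (nat_lit 3675874268) (nat_lit 279) (nat_lit 5) (nat_lit 283) (nat_lit 5) (nat_lit 280) (nat_lit 4) (nat_lit 323) (nat_lit 312) (nat_lit 310))) (XT.nd (nat_lit 94) (nat_lit 84) (nat_lit 0) (XT.lf (nat_lit 0) (nat_lit 2548017471) (nat_lit 336) (nat_lit 2274781678) (nat_lit 420) (nat_lit 1714742684) (nat_lit 275) (nat_lit 5) (nat_lit 279) (nat_lit 5) (nat_lit 280) (nat_lit 4) (nat_lit 324) (nat_lit 312) (nat_lit 309)) (XT.lf (nat_lit 0) (nat_lit 1056475043) (nat_lit 420) (nat_lit 580770638) (nat_lit 84) (nat_lit 4924940624) (nat_lit 274) (nat_lit 5) (nat_lit 279) (nat_lit 5) (nat_lit 275) (nat_lit 5) (nat_lit 325) (nat_lit 312) (nat_lit 308))))))) (XT.nd (nat_lit 1222) (nat_lit 6216) (nat_lit 0) (XT.nd (nat_lit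 564) (nat_lit 3780) (nat_lit 0) (XT.nd (nat_lit 282) (nat_lit 1344) (nat_lit 0) (XT.nd (nat_lit 94) (nat_lit 588) (nat_lit 0) (XT.lf (nat_lit 0) (nat_lit 2905069438) (nat_lit 420) (nat_lit 900847247) (nat_lit 504) (nat_lit 2783556280) (nat_lit 269) (nat_lit 5) (nat_lit 274) (nat_lit 5) (nat_lit 275) (nat_lit 5) (nat_lit 326) (nat_lit 312) (nat_lit 307)) (XT.nd (nat_lit 94) (nat_lit 588) (nat_lit 0) (XT.lf (nat_lit 0) (nat_lit 6443139117) (nat_lit 420) (nat_lit 104441437) (nat_lit 504) (nat_lit 72995544) (nat_lit 269) (nat_lit 5) (nat_lit 274) (nat_lit 5) (nat_lit 275) (nat_lit 5) (nat_lit 327) (nat_lit 312) (nat_lit 306)) (XT.lf (nat_lit 0) (nat_lit 2611838733) (nat_lit 588) (nat_lit 3251084369) (nat_lit 84) (nat_lit 790798192) (nat_lit 262) (nat_lit 5) (nat_lit 269) (nat_lit 5) (nat_lit 263) (nat_lit 5) (nat_lit 328) (nat_lit 312) (nat_lit 305)))) (XT.nd (nat_lit 94) (nat_lit 756) (nat_lit 0) (XT.lf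 (nat_lit 0) (nat_lit 343662522) (nat_lit 588) (nat_lit 4946122191) (nat_lit 672) (nat_lit 1400898870) (nat_lit 255) (nat_lit 5) (nat_lit 262) (nat_lit 5) (nat_lit 263) (nat_lit 5) (nat_lit 329) (nat_lit 312) (nat_lit 304)) (XT.nd (nat_lit 94) (nat_lit 672) (nat_lit 0) (XT.lf (nat_lit 0) (nat_lit 1235509823) (nat_lit 672) (nat_lit 2696499959) (nat_lit 84) (nat_lit 2798356486) (nat_lit 254) (nat_lit 5) (nat_lit 262) (nat_lit 5) (nat_lit 255) (nat_lit 5) (nat_lit 330) (nat_lit 312) (nat_lit 303)) (XT.lf (nat_lit 0) (nat_lit 1002610777) (nat_lit 672) (nat_lit 2841323205) (nat_lit 756) (nat_lit 2929499854) (nat_lit 246) (nat_lit 5) (nat_lit 254) (nat_lit 5) (nat_lit 255) (nat_lit 5) (nat_lit 331) (nat_lit 312) (nat_lit 302))))) (XT.nd (nat_lit 282) (nat_lit 2940) (nat_lit 0) (XT.nd (nat_lit 94) (nat_lit 840) (nat_lit 0) (XT.lf (nat_lit 0) (nat_lit 4802003321) (nat_lit 672) (nat_lit 1669224322) (nat_lit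 756) (nat_lit 348583116) (nat_lit 246) (nat_lit 5) (nat_lit 254) (nat_lit 5) (nat_lit 255) (nat_lit 5) (nat_lit 332) (nat_lit 312) (nat_lit 301)) (XT.nd (nat_lit 94) (nat_lit 0) (nat_lit 0) (XT.lf (nat_lit 0) (nat_lit 1794653331) (nat_lit 756) (nat_lit 402140383) (nat_lit 840) (nat_lit 4672378354) (nat_lit 236) (nat_lit 5) (nat_lit 245) (nat_lit 5) (nat_lit 246) (nat_lit 5) (nat_lit 333) (nat_lit 312) (nat_lit 300)) (XT.lf (nat_lit 0) (nat_lit 4757661099) (nat_lit 840) (nat_lit 1237088194) (nat_lit 84) (nat_lit 926993138) (nat_lit 236) (nat_lit 5) (nat_lit 246) (nat_lit 5) (nat_lit 237) (nat_lit 5) (nat_lit 334) (nat_lit 312) (nat_lit 299)))) (XT.nd (nat_lit 188) (nat_lit 2016) (nat_lit 0) (XT.nd (nat_lit 94) (nat_lit 0) (nat_lit 0) (XT.lf (nat_lit 0) (nat_lit 359785685) (nat_lit 924) (nat_lit 4283237563) (nat_lit 84) (nat_lit 2334493934) (nat_lit 225) (nat_lit 5) (nat_lit 236) (nat_lit 5) (nat_lit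 226) (nat_lit 5) (nat_lit 335) (nat_lit 312) (nat_lit 298)) (XT.lf (nat_lit 0) (nat_lit 2848526509) (nat_lit 924) (nat_lit 354549724) (nat_lit 84) (nat_lit 3833464042) (nat_lit 225) (nat_lit 5) (nat_lit 236) (nat_lit 5) (nat_lit 226) (nat_lit 5) (nat_lit 336) (nat_lit 312) (nat_lit 297))) (XT.nd (nat_lit 94) (nat_lit 1092) (nat_lit 0) (XT.lf (nat_lit 0) (nat_lit 3698780480) (nat_lit 924) (nat_lit 1671070847) (nat_lit 1008) (nat_lit 1728936831) (nat_lit 214) (nat_lit 5) (nat_lit 225) (nat_lit 5) (nat_lit 226) (nat_lit 5) (nat_lit 337) (nat_lit 312) (nat_lit 296)) (XT.lf (nat_lit 0) (nat_lit 656769772) (nat_lit 1008) (nat_lit 64454974) (nat_lit 1092) (nat_lit 6443637660) (nat_lit 201) (nat_lit 5) (nat_lit 213) (nat_lit 5) (nat_lit 214) (nat_lit 5) (nat_lit 338) (nat_lit 312) (nat_lit 295)))))) (XT.nd (nat_lit 564) (nat_lit 2520) (nat_lit 0) (XT.nd (nat_lit 282) (nat_lit 2520) (nat_lit 0) (XT.nd (nat_lit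 94) (nat_lit 1176) (nat_lit 0) (XT.lf (nat_lit 0) (nat_lit 3184872103) (nat_lit 1092) (nat_lit 2428027496) (nat_lit 84) (nat_lit 1620439293) (nat_lit 201) (nat_lit 5) (nat_lit 214) (nat_lit 5) (nat_lit 202) (nat_lit 5) (nat_lit 339) (nat_lit 312) (nat_lit 294)) (XT.nd (nat_lit 94) (nat_lit 84) (nat_lit 0) (XT.lf (nat_lit 0) (nat_lit 1741433200) (nat_lit 1092) (nat_lit 3925334730) (nat_lit 1176) (nat_lit 1638941939) (nat_lit 188) (nat_lit 5) (nat_lit 201) (nat_lit 5) (nat_lit 202) (nat_lit 5) (nat_lit 340) (nat_lit 312) (nat_lit 293)) (XT.lf (nat_lit 0) (nat_lit 778768761) (nat_lit 1176) (nat_lit 1369412586) (nat_lit 84) (nat_lit 5233417727) (nat_lit 187) (nat_lit 5) (nat_lit 201) (nat_lit 5) (nat_lit 188) (nat_lit 5) (nat_lit 341) (nat_lit 312) (nat_lit 292)))) (XT.nd (nat_lit 94) (nat_lit 1344) (nat_lit 0) (XT.lf (nat_lit 0) (nat_lit 2926842603) (nat_lit 1176) (nat_lit 267057241) (nat_lit 1260) (nat_lit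 4266799306) (nat_lit 173) (nat_lit 5) (nat_lit 187) (nat_lit 5) (nat_lit 188) (nat_lit 5) (nat_lit 342) (nat_lit 312) (nat_lit 291)) (XT.nd (nat_lit 94) (nat_lit 1344) (nat_lit 0) (XT.lf (nat_lit 0) (nat_lit 5642669528) (nat_lit 1260) (nat_lit 244853307) (nat_lit 84) (nat_lit 1655965223) (nat_lit 173) (nat_lit 5) (nat_lit 188) (nat_lit 5) (nat_lit 174) (nat_lit 5) (nat_lit 343) (nat_lit 312) (nat_lit 290)) (XT.lf (nat_lit 0) (nat_lit 501355838) (nat_lit 1344) (nat_lit 3447672310) (nat_lit 84) (nat_lit 3680450271) (nat_lit 157) (nat_lit 5) (nat_lit 173) (nat_lit 5) (nat_lit 158) (nat_lit 5) (nat_lit 344) (nat_lit 312) (nat_lit 289))))) (XT.nd (nat_lit 282) (nat_lit 1344) (nat_lit 0) (XT.nd (nat_lit 94) (nat_lit 588) (nat_lit 0) (XT.lf (nat_lit 0) (nat_lit 962417469) (nat_lit 588) (nat_lit 1920427635) (nat_lit 672) (nat_lit 4836413684) (nat_lit 150) (nat_lit 5) (nat_lit 157) (nat_lit 5) (nat_lit 158)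 (nat_lit 5) (nat_lit 345) (nat_lit 312) (nat_lit 288)) (XT.nd (nat_lit 94) (nat_lit 588) (nat_lit 0) (XT.lf (nat_lit 0) (nat_lit 5307571635) (nat_lit 672) (nat_lit 2304439306) (nat_lit 84) (nat_lit 200702341) (nat_lit 150) (nat_lit 5) (nat_lit 158) (nat_lit 5) (nat_lit 151) (nat_lit 5) (nat_lit 346) (nat_lit 312) (nat_lit 287)) (XT.lf (nat_lit 0) (nat_lit 2240943200) (nat_lit 588) (nat_lit 5541553504) (nat_lit 672) (nat_lit 127281580) (nat_lit 143) (nat_lit 5) (nat_lit 150) (nat_lit 5) (nat_lit 151) (nat_lit 5) (nat_lit 347) (nat_lit 312) (nat_lit 286)))) (XT.nd (nat_lit 188) (nat_lit 672) (nat_lit 0) (XT.nd (nat_lit 94) (nat_lit 588) (nat_lit 0) (XT.lf (nat_lit 0) (nat_lit 2237486606) (nat_lit 672) (nat_lit 1127716633) (nat_lit 84) (nat_lit 4645179048) (nat_lit 142) (nat_lit 5) (nat_lit 150) (nat_lit 5) (nat_lit 143) (nat_lit 5) (nat_lit 348) (nat_lit 312) (nat_lit 285)) (XT.lf (nat_lit 0) (nat_lit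 3553606810) (nat_lit 588) (nat_lit 1090396618) (nat_lit 672) (nat_lit 3470881755) (nat_lit 135) (nat_lit 5) (nat_lit 142) (nat_lit 5) (nat_lit 143) (nat_lit 5) (nat_lit 349) (nat_lit 312) (nat_lit 284))) (XT.nd (nat_lit 94) (nat_lit 84) (nat_lit 0) (XT.lf (nat_lit 0) (nat_lit 100766249) (nat_lit 588) (nat_lit 6986787779) (nat_lit 672) (nat_lit 1136140004) (nat_lit 128) (nat_lit 5) (nat_lit 135) (nat_lit 5) (nat_lit 136) (nat_lit 5) (nat_lit 350) (nat_lit 312) (nat_lit 283)) (XT.lf (nat_lit 0) (nat_lit 1241953873) (nat_lit 672) (nat_lit 3427657739) (nat_lit 84) (nat_lit 3665957067) (nat_lit 127) (nat_lit 5) (nat_lit 135) (nat_lit 5) (nat_lit 128) (nat_lit 5) (nat_lit 351) (nat_lit 312) (nat_lit 282))))))))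
noncomputable def xc8 : XT := (XT.nd (nat_lit 57810) (nat_lit 0) (nat_lit 0) (XT.nd (nat_lit 56588) (nat_lit 0) (nat_lit 10752) (XT.nd (nat_lit 564) (nat_lit 1008) (nat_lit 0) (XT.nd (nat_lit 282) (nat_lit 504) (nat_lit 0) (XT.nd (nat_lit 94) (nat_lit 504) (nat_lit 0) (XT.lf (nat_lit 0) (nat_lit 1359676683) (nat_lit 504) (nat_lit 2264427934) (nat_lit 588) (nat_lit 4827797171) (nat_lit 121) (nat_lit 5) (nat_lit 127) (nat_lit 5) (nat_lit 128) (nat_lit 5) (nat_lit 352) (nat_lit 312) (nat_lit 281)) (XT.nd (nat_lit 94) (nat_lit 504) (nat_lit 0) (XT.lf (nat_lit 0) (nat_lit 6058199359) (nat_lit 588) (nat_lit 2277359385) (nat_lit 84) (nat_lit 236854838) (nat_lit 121) (nat_lit 5) (nat_lit 128) (nat_lit 5) (nat_lit 122) (nat_lit 5) (nat_lit 353) (nat_lit 312) (nat_lit 280)) (XT.lf (nat_lit 0) (nat_lit 2647922834) (nat_lit 504) (nat_lit 5910391448) (nat_lit 588) (nat_lit 138536602) (nat_lit 115) (nat_lit 5)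 (nat_lit 121) (nat_lit 5) (nat_lit 122) (nat_lit 5) (nat_lit 354) (nat_lit 312) (nat_lit 279)))) (XT.nd (nat_lit 94) (nat_lit 420) (nat_lit 0) (XT.lf (nat_lit 0) (nat_lit 2232081573) (nat_lit 588) (nat_lit 1142940476) (nat_lit 84) (nat_lit 5450366419) (nat_lit 114) (nat_lit 5) (nat_lit 121) (nat_lit 5) (nat_lit 115) (nat_lit 5) (nat_lit 355) (nat_lit 312) (nat_lit 278)) (XT.nd (nat_lit 94) (nat_lit 0) (nat_lit 0) (XT.lf (nat_lit 0) (nat_lit 3923436145) (nat_lit 420) (nat_lit 732390896) (nat_lit 504) (nat_lit 4302461776) (nat_lit 109) (nat_lit 5) (nat_lit 114) (nat_lit 5) (nat_lit 115) (nat_lit 5) (nat_lit 356) (nat_lit 312) (nat_lit 277)) (XT.lf (nat_lit 0) (nat_lit 7131004886) (nat_lit 504) (nat_lit 11764748) (nat_lit 84) (nat_lit 1953133857) (nat_lit 109) (nat_lit 5) (nat_lit 115) (nat_lit 5) (nat_lit 110) (nat_lit 5) (nat_lit 357) (nat_lit 312) (nat_lit 276))))) (XT.nd (nat_lit 55648) (nat_lit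 0) (nat_lit 15288) (XT.nd (nat_lit 94) (nat_lit 420) (nat_lit 0) (XT.lf (nat_lit 0) (nat_lit 440777598) (nat_lit 588) (nat_lit 4046812917) (nat_lit 84) (nat_lit 4749813412) (nat_lit 102) (nat_lit 5) (nat_lit 109) (nat_lit 5) (nat_lit 103) (nat_lit 5) (nat_lit 358) (nat_lit 312) (nat_lit 275)) (XT.nd (nat_lit 94) (nat_lit 0) (nat_lit 0) (XT.lf (nat_lit 0) (nat_lit 1106673971) (nat_lit 420) (nat_lit 1732988550) (nat_lit 504) (nat_lit 6544168662) (nat_lit 97) (nat_lit 5) (nat_lit 102) (nat_lit 5) (nat_lit 103) (nat_lit 5) (nat_lit 359) (nat_lit 312) (nat_lit 274)) (XT.lf (nat_lit 0) (nat_lit 5312936212) (nat_lit 504) (nat_lit 3109145951) (nat_lit 84) (nat_lit 1112575428) (nat_lit 97) (nat_lit 5) (nat_lit 103) (nat_lit 5) (nat_lit 98) (nat_lit 5) (nat_lit 360) (nat_lit 312) (nat_lit 273)))) (XT.nd (nat_lit 188) (nat_lit 336) (nat_lit 0) (XT.nd (nat_lit 94) (nat_lit 252) (nat_lit 0) (XT.lf (nat_lit 0)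 (nat_lit 2796247982) (nat_lit 84) (nat_lit 216960607) (nat_lit 84) (nat_lit 216960607) (nat_lit 286) (nat_lit 4) (nat_lit 287) (nat_lit 5) (nat_lit 287) (nat_lit 4) (nat_lit 319) (nat_lit 313) (nat_lit 313)) (XT.lf (nat_lit 0) (nat_lit 2291916495) (nat_lit 168) (nat_lit 136205582) (nat_lit 252) (nat_lit 4042588646) (nat_lit 283) (nat_lit 5) (nat_lit 285) (nat_lit 5) (nat_lit 286) (nat_lit 4) (nat_lit 320) (nat_lit 313) (nat_lit 312))) (XT.nd (nat_lit 94) (nat_lit 336) (nat_lit 0) (XT.lf (nat_lit 0) (nat_lit 5271224777) (nat_lit 252) (nat_lit 988202318) (nat_lit 0) (nat_lit 225077370) (nat_lit 283) (nat_lit 5) (nat_lit 286) (nat_lit 4) (nat_lit 283) (nat_lit 4) (nat_lit 321) (nat_lit 313) (nat_lit 311)) (XT.lf (nat_lit 0) (nat_lit 1586362828) (nat_lit 336) (nat_lit 4239216205) (nat_lit 84) (nat_lit 675419368) (nat_lit 279) (nat_lit 5) (nat_lit 283) (nat_lit 5) (nat_lit 280) (nat_lit 4) (nat_lit 322)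 (nat_lit 313) (nat_lit 310)))))) (XT.nd (nat_lit 564) (nat_lit 3108) (nat_lit 0) (XT.nd (nat_lit 282) (nat_lit 1008) (nat_lit 0) (XT.nd (nat_lit 94) (nat_lit 420) (nat_lit 0) (XT.lf (nat_lit 0) (nat_lit 4353301205) (nat_lit 336) (nat_lit 965423862) (nat_lit 84) (nat_lit 1201997384) (nat_lit 279) (nat_lit 5) (nat_lit 283) (nat_lit 5) (nat_lit 280) (nat_lit 4) (nat_lit 323) (nat_lit 313) (nat_lit 309)) (XT.nd (nat_lit 94) (nat_lit 0) (nat_lit 0) (XT.lf (nat_lit 0) (nat_lit 571790475) (nat_lit 420) (nat_lit 4159285199) (nat_lit 84) (nat_lit 1812404196) (nat_lit 274) (nat_lit 5) (nat_lit 279) (nat_lit 5) (nat_lit 275) (nat_lit 5) (nat_lit 324) (nat_lit 313) (nat_lit 308)) (XT.lf (nat_lit 0) (nat_lit 3261087647) (nat_lit 420) (nat_lit 798978659) (nat_lit 84) (nat_lit 2509164498) (nat_lit 274) (nat_lit 5) (nat_lit 279) (nat_lit 5) (nat_lit 275) (nat_lit 5) (nat_lit 325) (nat_lit 313) (nat_lit 307)))) (XT.nd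 (nat_lit 94) (nat_lit 588) (nat_lit 0) (XT.lf (nat_lit 0) (nat_lit 2650867995) (nat_lit 420) (nat_lit 3310169454) (nat_lit 504) (nat_lit 637107648) (nat_lit 269) (nat_lit 5) (nat_lit 274) (nat_lit 5) (nat_lit 275) (nat_lit 5) (nat_lit 326) (nat_lit 313) (nat_lit 306)) (XT.nd (nat_lit 94) (nat_lit 504) (nat_lit 0) (XT.lf (nat_lit 0) (nat_lit 1986428011) (nat_lit 504) (nat_lit 492032050) (nat_lit 84) (nat_lit 4151721843) (nat_lit 268) (nat_lit 5) (nat_lit 274) (nat_lit 5) (nat_lit 269) (nat_lit 5) (nat_lit 327) (nat_lit 313) (nat_lit 305)) (XT.lf (nat_lit 0) (nat_lit 3057572143) (nat_lit 504) (nat_lit 1555910793) (nat_lit 588) (nat_lit 2051644517) (nat_lit 262) (nat_lit 5) (nat_lit 268) (nat_lit 5) (nat_lit 269) (nat_lit 5) (nat_lit 328) (nat_lit 313) (nat_lit 304))))) (XT.nd (nat_lit 282) (nat_lit 1764) (nat_lit 0) (XT.nd (nat_lit 94) (nat_lit 1260) (nat_lit 0) (XT.lf (nat_lit 0) (nat_lit 520345083)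 (nat_lit 588) (nat_lit 47311882) (nat_lit 84) (nat_lit 6136110889) (nat_lit 261) (nat_lit 5) (nat_lit 268) (nat_lit 5) (nat_lit 262) (nat_lit 5) (nat_lit 329) (nat_lit 313) (nat_lit 303)) (XT.nd (nat_lit 94) (nat_lit 672) (nat_lit 0) (XT.lf (nat_lit 0) (nat_lit 3079867551) (nat_lit 672) (nat_lit 3142337051) (nat_lit 84) (nat_lit 522448098) (nat_lit 254) (nat_lit 5) (nat_lit 262) (nat_lit 5) (nat_lit 255) (nat_lit 5) (nat_lit 330) (nat_lit 313) (nat_lit 302)) (XT.lf (nat_lit 0) (nat_lit 515404534) (nat_lit 672) (nat_lit 5125849926) (nat_lit 756) (nat_lit 1147993098) (nat_lit 246) (nat_lit 5) (nat_lit 254) (nat_lit 5) (nat_lit 255) (nat_lit 5) (nat_lit 331) (nat_lit 313) (nat_lit 301)))) (XT.nd (nat_lit 188) (nat_lit 924) (nat_lit 0) (XT.nd (nat_lit 94) (nat_lit 756) (nat_lit 0) (XT.lf (nat_lit 0) (nat_lit 1363017824) (nat_lit 756) (nat_lit 2567095450) (nat_lit 84) (nat_lit 2906465816) (nat_lit 245)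 (nat_lit 5) (nat_lit 254) (nat_lit 5) (nat_lit 246) (nat_lit 5) (nat_lit 332) (nat_lit 313) (nat_lit 300)) (XT.lf (nat_lit 0) (nat_lit 1198840588) (nat_lit 756) (nat_lit 2656302003) (nat_lit 840) (nat_lit 3032197097) (nat_lit 236) (nat_lit 5) (nat_lit 245) (nat_lit 5) (nat_lit 246) (nat_lit 5) (nat_lit 333) (nat_lit 313) (nat_lit 299))) (XT.nd (nat_lit 94) (nat_lit 924) (nat_lit 0) (XT.lf (nat_lit 0) (nat_lit 5066964114) (nat_lit 756) (nat_lit 1300120875) (nat_lit 840) (nat_lit 574396032) (nat_lit 236) (nat_lit 5) (nat_lit 245) (nat_lit 5) (nat_lit 246) (nat_lit 5) (nat_lit 334) (nat_lit 313) (nat_lit 298)) (XT.lf (nat_lit 0) (nat_lit 1860251539) (nat_lit 924) (nat_lit 4989180635) (nat_lit 84) (nat_lit 149208429) (nat_lit 225) (nat_lit 5) (nat_lit 236) (nat_lit 5) (nat_lit 226) (nat_lit 5) (nat_lit 335) (nat_lit 313) (nat_lit 297))))))) (XT.nd (nat_lit 1222) (nat_lit 3780) (nat_lit 0) (XT.nd (nat_lit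 564) (nat_lit 3780) (nat_lit 0) (XT.nd (nat_lit 282) (nat_lit 2184) (nat_lit 0) (XT.nd (nat_lit 94) (nat_lit 1008) (nat_lit 0) (XT.lf (nat_lit 0) (nat_lit 4310749422) (nat_lit 924) (nat_lit 1092706982) (nat_lit 84) (nat_lit 1655449038) (nat_lit 225) (nat_lit 5) (nat_lit 236) (nat_lit 5) (nat_lit 226) (nat_lit 5) (nat_lit 336) (nat_lit 313) (nat_lit 296)) (XT.nd (nat_lit 94) (nat_lit 84) (nat_lit 0) (XT.lf (nat_lit 0) (nat_lit 2914034083) (nat_lit 924) (nat_lit 3873367627) (nat_lit 1008) (nat_lit 335183501) (nat_lit 214) (nat_lit 5) (nat_lit 225) (nat_lit 5) (nat_lit 226) (nat_lit 5) (nat_lit 337) (nat_lit 313) (nat_lit 295)) (XT.lf (nat_lit 0) (nat_lit 2044675167) (nat_lit 1008) (nat_lit 209775200) (nat_lit 84) (nat_lit 4935186779) (nat_lit 213) (nat_lit 5) (nat_lit 225) (nat_lit 5) (nat_lit 214) (nat_lit 5) (nat_lit 338) (nat_lit 313) (nat_lit 294)))) (XT.nd (nat_lit 94) (nat_lit 1176) (nat_lit 0)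 (XT.lf (nat_lit 0) (nat_lit 3919478422) (nat_lit 1008) (nat_lit 534877388) (nat_lit 1092) (nat_lit 2805460748) (nat_lit 201) (nat_lit 5) (nat_lit 213) (nat_lit 5) (nat_lit 214) (nat_lit 5) (nat_lit 339) (nat_lit 313) (nat_lit 293)) (XT.nd (nat_lit 94) (nat_lit 84) (nat_lit 0) (XT.lf (nat_lit 0) (nat_lit 783845461) (nat_lit 1092) (nat_lit 6103127919) (nat_lit 1176) (nat_lit 446773986) (nat_lit 188) (nat_lit 5) (nat_lit 201) (nat_lit 5) (nat_lit 202) (nat_lit 5) (nat_lit 340) (nat_lit 313) (nat_lit 292)) (XT.lf (nat_lit 0) (nat_lit 1913040499) (nat_lit 1176) (nat_lit 2398685309) (nat_lit 84) (nat_lit 3098682753) (nat_lit 187) (nat_lit 5) (nat_lit 201) (nat_lit 5) (nat_lit 188) (nat_lit 5) (nat_lit 341) (nat_lit 313) (nat_lit 291))))) (XT.nd (nat_lit 282) (nat_lit 1260) (nat_lit 0) (XT.nd (nat_lit 94) (nat_lit 1344) (nat_lit 0) (XT.lf (nat_lit 0) (nat_lit 1845213260) (nat_lit 1176) (nat_lit 2438937035)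 (nat_lit 1260) (nat_lit 3206753548) (nat_lit 173) (nat_lit 5) (nat_lit 187) (nat_lit 5) (nat_lit 188) (nat_lit 5) (nat_lit 342) (nat_lit 313) (nat_lit 290)) (XT.nd (nat_lit 94) (nat_lit 1344) (nat_lit 0) (XT.lf (nat_lit 0) (nat_lit 6202783648) (nat_lit 1176) (nat_lit 480959262) (nat_lit 1260) (nat_lit 891497549) (nat_lit 173) (nat_lit 5) (nat_lit 187) (nat_lit 5) (nat_lit 188) (nat_lit 5) (nat_lit 343) (nat_lit 313) (nat_lit 289)) (XT.lf (nat_lit 0) (nat_lit 1442536461) (nat_lit 1344) (nat_lit 4667198718) (nat_lit 84) (nat_lit 1552726159) (nat_lit 157) (nat_lit 5) (nat_lit 173) (nat_lit 5) (nat_lit 158) (nat_lit 5) (nat_lit 344) (nat_lit 313) (nat_lit 288)))) (XT.nd (nat_lit 188) (nat_lit 672) (nat_lit 0) (XT.nd (nat_lit 94) (nat_lit 588) (nat_lit 0) (XT.lf (nat_lit 0) (nat_lit 3783068355) (nat_lit 1344) (nat_lit 307372524) (nat_lit 84) (nat_lit 3663095801) (nat_lit 157) (nat_lit 5) (nat_lit 173)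 (nat_lit 5) (nat_lit 158) (nat_lit 5) (nat_lit 345) (nat_lit 313) (nat_lit 287)) (XT.lf (nat_lit 0) (nat_lit 4203218674) (nat_lit 588) (nat_lit 1968512867) (nat_lit 672) (nat_lit 1676405857) (nat_lit 150) (nat_lit 5) (nat_lit 157) (nat_lit 5) (nat_lit 158) (nat_lit 5) (nat_lit 346) (nat_lit 313) (nat_lit 286))) (XT.nd (nat_lit 94) (nat_lit 0) (nat_lit 0) (XT.lf (nat_lit 0) (nat_lit 624724649) (nat_lit 672) (nat_lit 7092030926) (nat_lit 84) (nat_lit 230196420) (nat_lit 142) (nat_lit 5) (nat_lit 150) (nat_lit 5) (nat_lit 143) (nat_lit 5) (nat_lit 347) (nat_lit 313) (nat_lit 285)) (XT.lf (nat_lit 0) (nat_lit 2957060533) (nat_lit 672) (nat_lit 2583718257) (nat_lit 84) (nat_lit 2507697824) (nat_lit 142) (nat_lit 5) (nat_lit 150) (nat_lit 5) (nat_lit 143) (nat_lit 5) (nat_lit 348) (nat_lit 313) (nat_lit 284)))))) (XT.nd (nat_lit 564) (nat_lit 1428) (nat_lit 0) (XT.nd (nat_lit 282) (nat_lit 1092) (nat_lit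 0) (XT.nd (nat_lit 94) (nat_lit 672) (nat_lit 0) (XT.lf (nat_lit 0) (nat_lit 2037355255) (nat_lit 588) (nat_lit 3282570670) (nat_lit 672) (nat_lit 2834420278) (nat_lit 135) (nat_lit 5) (nat_lit 142) (nat_lit 5) (nat_lit 143) (nat_lit 5) (nat_lit 349) (nat_lit 313) (nat_lit 283)) (XT.nd (nat_lit 94) (nat_lit 672) (nat_lit 0) (XT.lf (nat_lit 0) (nat_lit 6788390231) (nat_lit 588) (nat_lit 933479365) (nat_lit 672) (nat_lit 542589148) (nat_lit 135) (nat_lit 5) (nat_lit 142) (nat_lit 5) (nat_lit 143) (nat_lit 5) (nat_lit 350) (nat_lit 313) (nat_lit 282)) (XT.lf (nat_lit 0) (nat_lit 1771999377) (nat_lit 672) (nat_lit 5103222155) (nat_lit 84) (nat_lit 1502550684) (nat_lit 127) (nat_lit 5) (nat_lit 135) (nat_lit 5) (nat_lit 128) (nat_lit 5) (nat_lit 351) (nat_lit 313) (nat_lit 281)))) (XT.nd (nat_lit 94) (nat_lit 1092) (nat_lit 0) (XT.lf (nat_lit 0) (nat_lit 4113570055) (nat_lit 672) (nat_lit 373065577) (nat_lit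 84) (nat_lit 4008737870) (nat_lit 127) (nat_lit 5) (nat_lit 135) (nat_lit 5) (nat_lit 128) (nat_lit 5) (nat_lit 352) (nat_lit 313) (nat_lit 280)) (XT.nd (nat_lit 94) (nat_lit 588) (nat_lit 0) (XT.lf (nat_lit 0) (nat_lit 4526933761) (nat_lit 504) (nat_lit 1987750967) (nat_lit 588) (nat_lit 2102239268) (nat_lit 121) (nat_lit 5) (nat_lit 127) (nat_lit 5) (nat_lit 128) (nat_lit 5) (nat_lit 353) (nat_lit 313) (nat_lit 279)) (XT.lf (nat_lit 0) (nat_lit 204196587) (nat_lit 588) (nat_lit 7957470003) (nat_lit 84) (nat_lit 581579501) (nat_lit 114) (nat_lit 5) (nat_lit 121) (nat_lit 5) (nat_lit 115) (nat_lit 5) (nat_lit 354) (nat_lit 313) (nat_lit 278))))) (XT.nd (nat_lit 282) (nat_lit 1008) (nat_lit 0) (XT.nd (nat_lit 94) (nat_lit 420) (nat_lit 0) (XT.lf (nat_lit 0) (nat_lit 2546041823) (nat_lit 588) (nat_lit 3083345803) (nat_lit 84) (nat_lit 3243183302) (nat_lit 114) (nat_lit 5) (nat_lit 121) (nat_lit 5) (nat_lit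 115) (nat_lit 5) (nat_lit 355) (nat_lit 313) (nat_lit 277)) (XT.nd (nat_lit 94) (nat_lit 0) (nat_lit 0) (XT.lf (nat_lit 0) (nat_lit 1914180604) (nat_lit 420) (nat_lit 3010982211) (nat_lit 504) (nat_lit 4081690997) (nat_lit 109) (nat_lit 5) (nat_lit 114) (nat_lit 5) (nat_lit 115) (nat_lit 5) (nat_lit 356) (nat_lit 313) (nat_lit 276)) (XT.lf (nat_lit 0) (nat_lit 7065254234) (nat_lit 420) (nat_lit 291082815) (nat_lit 504) (nat_lit 1789494068) (nat_lit 109) (nat_lit 5) (nat_lit 114) (nat_lit 5) (nat_lit 115) (nat_lit 5) (nat_lit 357) (nat_lit 313) (nat_lit 275)))) (XT.nd (nat_lit 188) (nat_lit 420) (nat_lit 0) (XT.nd (nat_lit 94) (nat_lit 0) (nat_lit 0) (XT.lf (nat_lit 0) (nat_lit 564735614) (nat_lit 588) (nat_lit 6236355974) (nat_lit 84) (nat_lit 2487670178) (nat_lit 102) (nat_lit 5) (nat_lit 109) (nat_lit 5) (nat_lit 103) (nat_lit 5) (nat_lit 358) (nat_lit 313) (nat_lit 274)) (XT.lf (nat_lit 0) (nat_lit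 2928960770) (nat_lit 588) (nat_lit 1133914949) (nat_lit 84) (nat_lit 5373392012) (nat_lit 102) (nat_lit 5) (nat_lit 109) (nat_lit 5) (nat_lit 103) (nat_lit 5) (nat_lit 359) (nat_lit 313) (nat_lit 273))) (XT.nd (nat_lit 55272) (nat_lit 0) (nat_lit 15960) (XT.lf (nat_lit 0) (nat_lit 4144428482) (nat_lit 420) (nat_lit 1212179163) (nat_lit 504) (nat_lit 4231893081) (nat_lit 97) (nat_lit 5) (nat_lit 102) (nat_lit 5) (nat_lit 103) (nat_lit 5) (nat_lit 360) (nat_lit 313) (nat_lit 272)) (XT.lf (nat_lit 0) (nat_lit 1469813895) (nat_lit 84) (nat_lit 283584288) (nat_lit 0) (nat_lit 1469813895) (nat_lit 287) (nat_lit 5) (nat_lit 288) (nat_lit 0) (nat_lit 287) (nat_lit 4) (nat_lit 317) (nat_lit 314) (nat_lit 314))))))))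
noncomputable def xc9 : XT := (XT.nd (nat_lit 2444) (nat_lit 6300) (nat_lit 0) (XT.nd (nat_lit 1222) (nat_lit 6888) (nat_lit 0) (XT.nd (nat_lit 564) (nat_lit 2016) (nat_lit 0) (XT.nd (nat_lit 282) (nat_lit 420) (nat_lit 0) (XT.nd (nat_lit 94) (nat_lit 252) (nat_lit 0) (XT.lf (nat_lit 0) (nat_lit 2476258250) (nat_lit 84) (nat_lit 3346242813) (nat_lit 84) (nat_lit 629956352) (nat_lit 286) (nat_lit 4) (nat_lit 287) (nat_lit 5) (nat_lit 287) (nat_lit 4) (nat_lit 318) (nat_lit 314) (nat_lit 313)) (XT.nd (nat_lit 94) (nat_lit 168) (nat_lit 0) (XT.lf (nat_lit 0) (nat_lit 2183832098) (nat_lit 168) (nat_lit 920278624) (nat_lit 84) (nat_lit 3357370360) (nat_lit 285) (nat_lit 5) (nat_lit 287) (nat_lit 5) (nat_lit 286) (nat_lit 4) (nat_lit 319) (nat_lit 314) (nat_lit 312)) (XT.lf (nat_lit 0) (nat_lit 2203984870) (nat_lit 168) (nat_lit 2780154617) (nat_lit 252) (nat_lit 1489362569) (nat_lit 283) (nat_lit 5) (nat_lit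 285) (nat_lit 5) (nat_lit 286) (nat_lit 4) (nat_lit 320) (nat_lit 314) (nat_lit 311)))) (XT.nd (nat_lit 94) (nat_lit 336) (nat_lit 0) (XT.lf (nat_lit 0) (nat_lit 1259718512) (nat_lit 252) (nat_lit 1120092939) (nat_lit 84) (nat_lit 4108885993) (nat_lit 282) (nat_lit 5) (nat_lit 285) (nat_lit 5) (nat_lit 283) (nat_lit 5) (nat_lit 321) (nat_lit 314) (nat_lit 310)) (XT.nd (nat_lit 94) (nat_lit 84) (nat_lit 0) (XT.lf (nat_lit 0) (nat_lit 2089702773) (nat_lit 252) (nat_lit 1889527887) (nat_lit 336) (nat_lit 2527465293) (nat_lit 279) (nat_lit 5) (nat_lit 282) (nat_lit 5) (nat_lit 283) (nat_lit 5) (nat_lit 322) (nat_lit 314) (nat_lit 309)) (XT.lf (nat_lit 0) (nat_lit 160449827) (nat_lit 336) (nat_lit 1170578700) (nat_lit 84) (nat_lit 5197130017) (nat_lit 278) (nat_lit 5) (nat_lit 282) (nat_lit 5) (nat_lit 279) (nat_lit 5) (nat_lit 323) (nat_lit 314) (nat_lit 308))))) (XT.nd (nat_lit 282) (nat_lit 1176) (nat_lit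 0) (XT.nd (nat_lit 94) (nat_lit 504) (nat_lit 0) (XT.lf (nat_lit 0) (nat_lit 2129691203) (nat_lit 336) (nat_lit 670839019) (nat_lit 420) (nat_lit 3751612983) (nat_lit 274) (nat_lit 5) (nat_lit 278) (nat_lit 5) (nat_lit 279) (nat_lit 5) (nat_lit 324) (nat_lit 314) (nat_lit 307)) (XT.nd (nat_lit 94) (nat_lit 504) (nat_lit 0) (XT.lf (nat_lit 0) (nat_lit 5436330580) (nat_lit 420) (nat_lit 1086729984) (nat_lit 84) (nat_lit 56581358) (nat_lit 274) (nat_lit 5) (nat_lit 279) (nat_lit 5) (nat_lit 275) (nat_lit 5) (nat_lit 325) (nat_lit 314) (nat_lit 306)) (XT.lf (nat_lit 0) (nat_lit 1448499204) (nat_lit 504) (nat_lit 4297698676) (nat_lit 84) (nat_lit 863534856) (nat_lit 268) (nat_lit 5) (nat_lit 274) (nat_lit 5) (nat_lit 269) (nat_lit 5) (nat_lit 326) (nat_lit 314) (nat_lit 305)))) (XT.nd (nat_lit 188) (nat_lit 672) (nat_lit 0) (XT.nd (nat_lit 94) (nat_lit 504) (nat_lit 0) (XT.lf (nat_lit 0) (nat_lit 4014394311)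 (nat_lit 504) (nat_lit 879442158) (nat_lit 84) (nat_lit 1749236350) (nat_lit 268) (nat_lit 5) (nat_lit 274) (nat_lit 5) (nat_lit 269) (nat_lit 5) (nat_lit 327) (nat_lit 314) (nat_lit 304)) (XT.lf (nat_lit 0) (nat_lit 2631890140) (nat_lit 504) (nat_lit 3961575638) (nat_lit 588) (nat_lit 86119039) (nat_lit 262) (nat_lit 5) (nat_lit 268) (nat_lit 5) (nat_lit 269) (nat_lit 5) (nat_lit 328) (nat_lit 314) (nat_lit 303))) (XT.nd (nat_lit 94) (nat_lit 588) (nat_lit 0) (XT.lf (nat_lit 0) (nat_lit 2404072132) (nat_lit 588) (nat_lit 537000888) (nat_lit 84) (nat_lit 3778008359) (nat_lit 261) (nat_lit 5) (nat_lit 268) (nat_lit 5) (nat_lit 262) (nat_lit 5) (nat_lit 329) (nat_lit 314) (nat_lit 302)) (XT.lf (nat_lit 0) (nat_lit 3077801313) (nat_lit 588) (nat_lit 1833399989) (nat_lit 672) (nat_lit 1850452894) (nat_lit 254) (nat_lit 5) (nat_lit 261) (nat_lit 5) (nat_lit 262) (nat_lit 5) (nat_lit 330) (nat_lit 314)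 (nat_lit 301)))))) (XT.nd (nat_lit 564) (nat_lit 4452) (nat_lit 0) (XT.nd (nat_lit 282) (nat_lit 924) (nat_lit 0) (XT.nd (nat_lit 94) (nat_lit 1428) (nat_lit 0) (XT.lf (nat_lit 0) (nat_lit 595333343) (nat_lit 672) (nat_lit 61689007) (nat_lit 84) (nat_lit 6150884144) (nat_lit 253) (nat_lit 5) (nat_lit 261) (nat_lit 5) (nat_lit 254) (nat_lit 5) (nat_lit 331) (nat_lit 314) (nat_lit 300)) (XT.nd (nat_lit 94) (nat_lit 756) (nat_lit 0) (XT.lf (nat_lit 0) (nat_lit 3036293669) (nat_lit 756) (nat_lit 3200354813) (nat_lit 84) (nat_lit 619794278) (nat_lit 245) (nat_lit 5) (nat_lit 254) (nat_lit 5) (nat_lit 246) (nat_lit 5) (nat_lit 332) (nat_lit 314) (nat_lit 299)) (XT.lf (nat_lit 0) (nat_lit 521739928) (nat_lit 756) (nat_lit 4960633263) (nat_lit 840) (nat_lit 1426314742) (nat_lit 236) (nat_lit 5) (nat_lit 245) (nat_lit 5) (nat_lit 246) (nat_lit 5) (nat_lit 333) (nat_lit 314) (nat_lit 298)))) (XT.nd (nat_lit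 94) (nat_lit 840) (nat_lit 0) (XT.lf (nat_lit 0) (nat_lit 972200594) (nat_lit 840) (nat_lit 2614086043) (nat_lit 84) (nat_lit 3377517196) (nat_lit 235) (nat_lit 5) (nat_lit 245) (nat_lit 5) (nat_lit 236) (nat_lit 5) (nat_lit 334) (nat_lit 314) (nat_lit 297)) (XT.nd (nat_lit 94) (nat_lit 0) (nat_lit 0) (XT.lf (nat_lit 0) (nat_lit 1220148315) (nat_lit 840) (nat_lit 2128409458) (nat_lit 924) (nat_lit 3673746914) (nat_lit 225) (nat_lit 5) (nat_lit 235) (nat_lit 5) (nat_lit 236) (nat_lit 5) (nat_lit 335) (nat_lit 314) (nat_lit 296)) (XT.lf (nat_lit 0) (nat_lit 5162097833) (nat_lit 840) (nat_lit 584992485) (nat_lit 924) (nat_lit 1337129876) (nat_lit 225) (nat_lit 5) (nat_lit 235) (nat_lit 5) (nat_lit 236) (nat_lit 5) (nat_lit 336) (nat_lit 314) (nat_lit 295))))) (XT.nd (nat_lit 282) (nat_lit 2436) (nat_lit 0) (XT.nd (nat_lit 94) (nat_lit 1008) (nat_lit 0) (XT.lf (nat_lit 0) (nat_lit 1004221250) (nat_lit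 1008) (nat_lit 5116458009) (nat_lit 84) (nat_lit 1028515732) (nat_lit 213) (nat_lit 5) (nat_lit 225) (nat_lit 5) (nat_lit 214) (nat_lit 5) (nat_lit 337) (nat_lit 314) (nat_lit 294)) (XT.nd (nat_lit 94) (nat_lit 1008) (nat_lit 0) (XT.lf (nat_lit 0) (nat_lit 3341818418) (nat_lit 1008) (nat_lit 1151766175) (nat_lit 84) (nat_lit 2723721225) (nat_lit 213) (nat_lit 5) (nat_lit 225) (nat_lit 5) (nat_lit 214) (nat_lit 5) (nat_lit 338) (nat_lit 314) (nat_lit 293)) (XT.lf (nat_lit 0) (nat_lit 2928180442) (nat_lit 1008) (nat_lit 2779109207) (nat_lit 1092) (nat_lit 1581603346) (nat_lit 201) (nat_lit 5) (nat_lit 213) (nat_lit 5) (nat_lit 214) (nat_lit 5) (nat_lit 339) (nat_lit 314) (nat_lit 292)))) (XT.nd (nat_lit 188) (nat_lit 1260) (nat_lit 0) (XT.nd (nat_lit 94) (nat_lit 1092) (nat_lit 0) (XT.lf (nat_lit 0) (nat_lit 707831267) (nat_lit 1092) (nat_lit 277540327) (nat_lit 84) (nat_lit 6378927571) (nat_lit 200)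 (nat_lit 5) (nat_lit 213) (nat_lit 5) (nat_lit 201) (nat_lit 5) (nat_lit 340) (nat_lit 314) (nat_lit 291)) (XT.lf (nat_lit 0) (nat_lit 3013083661) (nat_lit 1176) (nat_lit 3522273990) (nat_lit 84) (nat_lit 906923756) (nat_lit 187) (nat_lit 5) (nat_lit 201) (nat_lit 5) (nat_lit 188) (nat_lit 5) (nat_lit 341) (nat_lit 314) (nat_lit 290))) (XT.nd (nat_lit 94) (nat_lit 84) (nat_lit 0) (XT.lf (nat_lit 0) (nat_lit 668319200) (nat_lit 1176) (nat_lit 4671916566) (nat_lit 1260) (nat_lit 2183932048) (nat_lit 173) (nat_lit 5) (nat_lit 187) (nat_lit 5) (nat_lit 188) (nat_lit 5) (nat_lit 342) (nat_lit 314) (nat_lit 289)) (XT.lf (nat_lit 0) (nat_lit 96393137) (nat_lit 1260) (nat_lit 2614632126) (nat_lit 84) (nat_lit 4898480582) (nat_lit 172) (nat_lit 5) (nat_lit 187) (nat_lit 5) (nat_lit 173) (nat_lit 5) (nat_lit 343) (nat_lit 314) (nat_lit 288))))))) (XT.nd (nat_lit 1222) (nat_lit 1428) (nat_lit 0) (XT.nd (nat_lit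 564) (nat_lit 1764) (nat_lit 0) (XT.nd (nat_lit 282) (nat_lit 1260) (nat_lit 0) (XT.nd (nat_lit 94) (nat_lit 588) (nat_lit 0) (XT.lf (nat_lit 0) (nat_lit 1704851500) (nat_lit 1260) (nat_lit 648976124) (nat_lit 1344) (nat_lit 5344484358) (nat_lit 157) (nat_lit 5) (nat_lit 172) (nat_lit 5) (nat_lit 173) (nat_lit 5) (nat_lit 344) (nat_lit 314) (nat_lit 287)) (XT.nd (nat_lit 94) (nat_lit 588) (nat_lit 0) (XT.lf (nat_lit 0) (nat_lit 4657338615) (nat_lit 1344) (nat_lit 1657962296) (nat_lit 84) (nat_lit 1475261364) (nat_lit 157) (nat_lit 5) (nat_lit 173) (nat_lit 5) (nat_lit 158) (nat_lit 5) (nat_lit 345) (nat_lit 314) (nat_lit 286)) (XT.lf (nat_lit 0) (nat_lit 2795482824) (nat_lit 588) (nat_lit 4207100987) (nat_lit 672) (nat_lit 883944169) (nat_lit 150) (nat_lit 5) (nat_lit 157) (nat_lit 5) (nat_lit 158) (nat_lit 5) (nat_lit 346) (nat_lit 314) (nat_lit 285)))) (XT.nd (nat_lit 94) (nat_lit 1176) (nat_lit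 0) (XT.lf (nat_lit 0) (nat_lit 1361577860) (nat_lit 672) (nat_lit 643260452) (nat_lit 84) (nat_lit 5981538942) (nat_lit 149) (nat_lit 5) (nat_lit 157) (nat_lit 5) (nat_lit 150) (nat_lit 5) (nat_lit 347) (nat_lit 314) (nat_lit 284)) (XT.nd (nat_lit 94) (nat_lit 588) (nat_lit 0) (XT.lf (nat_lit 0) (nat_lit 3639196804) (nat_lit 672) (nat_lit 4145644605) (nat_lit 84) (nat_lit 304759122) (nat_lit 142) (nat_lit 5) (nat_lit 150) (nat_lit 5) (nat_lit 143) (nat_lit 5) (nat_lit 348) (nat_lit 314) (nat_lit 283)) (XT.lf (nat_lit 0) (nat_lit 413981720) (nat_lit 588) (nat_lit 5544246206) (nat_lit 672) (nat_lit 2238612707) (nat_lit 135) (nat_lit 5) (nat_lit 142) (nat_lit 5) (nat_lit 143) (nat_lit 5) (nat_lit 349) (nat_lit 314) (nat_lit 282))))) (XT.nd (nat_lit 282) (nat_lit 1092) (nat_lit 0) (XT.nd (nat_lit 94) (nat_lit 588) (nat_lit 0) (XT.lf (nat_lit 0) (nat_lit 24162408) (nat_lit 672) (nat_lit 3172535416) (nat_lit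 84) (nat_lit 5111132828) (nat_lit 134) (nat_lit 5) (nat_lit 142) (nat_lit 5) (nat_lit 135) (nat_lit 5) (nat_lit 350) (nat_lit 314) (nat_lit 281)) (XT.nd (nat_lit 94) (nat_lit 0) (nat_lit 0) (XT.lf (nat_lit 0) (nat_lit 1524381060) (nat_lit 588) (nat_lit 744880084) (nat_lit 672) (nat_lit 6153544343) (nat_lit 127) (nat_lit 5) (nat_lit 134) (nat_lit 5) (nat_lit 135) (nat_lit 5) (nat_lit 351) (nat_lit 314) (nat_lit 280)) (XT.lf (nat_lit 0) (nat_lit 4576962820) (nat_lit 672) (nat_lit 2190860670) (nat_lit 84) (nat_lit 1773648652) (nat_lit 127) (nat_lit 5) (nat_lit 135) (nat_lit 5) (nat_lit 128) (nat_lit 5) (nat_lit 352) (nat_lit 314) (nat_lit 279)))) (XT.nd (nat_lit 188) (nat_lit 504) (nat_lit 0) (XT.nd (nat_lit 94) (nat_lit 84) (nat_lit 0) (XT.lf (nat_lit 0) (nat_lit 2643499614) (nat_lit 504) (nat_lit 4290542323) (nat_lit 588) (nat_lit 1730349626) (nat_lit 121) (nat_lit 5) (nat_lit 127) (nat_lit 5) (nat_lit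 128) (nat_lit 5) (nat_lit 353) (nat_lit 314) (nat_lit 278)) (XT.lf (nat_lit 0) (nat_lit 529769684) (nat_lit 588) (nat_lit 1187436385) (nat_lit 84) (nat_lit 7074617249) (nat_lit 120) (nat_lit 5) (nat_lit 127) (nat_lit 5) (nat_lit 121) (nat_lit 5) (nat_lit 354) (nat_lit 314) (nat_lit 277))) (XT.nd (nat_lit 94) (nat_lit 0) (nat_lit 0) (XT.lf (nat_lit 0) (nat_lit 2818041005) (nat_lit 588) (nat_lit 5142137366) (nat_lit 84) (nat_lit 962620800) (nat_lit 114) (nat_lit 5) (nat_lit 121) (nat_lit 5) (nat_lit 115) (nat_lit 5) (nat_lit 355) (nat_lit 314) (nat_lit 276)) (XT.lf (nat_lit 0) (nat_lit 5154188631) (nat_lit 588) (nat_lit 210742548) (nat_lit 84) (nat_lit 3693482601) (nat_lit 114) (nat_lit 5) (nat_lit 121) (nat_lit 5) (nat_lit 115) (nat_lit 5) (nat_lit 356) (nat_lit 314) (nat_lit 275)))))) (XT.nd (nat_lit 55554) (nat_lit 0) (nat_lit 15204) (XT.nd (nat_lit 282) (nat_lit 420) (nat_lit 0) (XT.nd (nat_lit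 94) (nat_lit 588) (nat_lit 0) (XT.lf (nat_lit 0) (nat_lit 4907640007) (nat_lit 420) (nat_lit 2651525456) (nat_lit 504) (nat_lit 1639052833) (nat_lit 109) (nat_lit 5) (nat_lit 114) (nat_lit 5) (nat_lit 115) (nat_lit 5) (nat_lit 357) (nat_lit 314) (nat_lit 274)) (XT.nd (nat_lit 94) (nat_lit 0) (nat_lit 0) (XT.lf (nat_lit 0) (nat_lit 643648239) (nat_lit 588) (nat_lit 8551370179) (nat_lit 84) (nat_lit 148183846) (nat_lit 102) (nat_lit 5) (nat_lit 109) (nat_lit 5) (nat_lit 103) (nat_lit 5) (nat_lit 358) (nat_lit 314) (nat_lit 273)) (XT.lf (nat_lit 0) (nat_lit 2984551318) (nat_lit 588) (nat_lit 3477522037) (nat_lit 84) (nat_lit 3029372321) (nat_lit 102) (nat_lit 5) (nat_lit 109) (nat_lit 5) (nat_lit 103) (nat_lit 5) (nat_lit 359) (nat_lit 314) (nat_lit 272)))) (XT.nd (nat_lit 55084) (nat_lit 0) (nat_lit 15960) (XT.lf (nat_lit 0) (nat_lit 1725866459) (nat_lit 420) (nat_lit 3640440242) (nat_lit 504) (nat_lit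 4278785395) (nat_lit 97) (nat_lit 5) (nat_lit 102) (nat_lit 5) (nat_lit 103) (nat_lit 5) (nat_lit 360) (nat_lit 314) (nat_lit 271)) (XT.nd (nat_lit 94) (nat_lit 84) (nat_lit 0) (XT.lf (nat_lit 0) (nat_lit 1073741823) (nat_lit 0) (nat_lit 0) (nat_lit 0) (nat_lit 0) (nat_lit 288) (nat_lit 0) (nat_lit 1) (nat_lit 0) (nat_lit 1) (nat_lit 0) (nat_lit 315) (nat_lit 315) (nat_lit 315)) (XT.lf (nat_lit 0) (nat_lit 2854007564) (nat_lit 84) (nat_lit 3533239670) (nat_lit 0) (nat_lit 56232508) (nat_lit 287) (nat_lit 5) (nat_lit 288) (nat_lit 0) (nat_lit 287) (nat_lit 4) (nat_lit 316) (nat_lit 315) (nat_lit 314))))) (XT.nd (nat_lit 282) (nat_lit 588) (nat_lit 0) (XT.nd (nat_lit 94) (nat_lit 168) (nat_lit 0) (XT.lf (nat_lit 0) (nat_lit 5682808178) (nat_lit 84) (nat_lit 596699176) (nat_lit 0) (nat_lit 168746660) (nat_lit 287) (nat_lit 5) (nat_lit 288) (nat_lit 0) (nat_lit 287) (nat_lit 4) (nat_lit 317) (nat_lit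 315) (nat_lit 313)) (XT.nd (nat_lit 94) (nat_lit 0) (nat_lit 0) (XT.lf (nat_lit 0) (nat_lit 2015904908) (nat_lit 168) (nat_lit 4058945874) (nat_lit 84) (nat_lit 380637254) (nat_lit 285) (nat_lit 5) (nat_lit 287) (nat_lit 5) (nat_lit 286) (nat_lit 4) (nat_lit 318) (nat_lit 315) (nat_lit 312)) (XT.lf (nat_lit 0) (nat_lit 4764977358) (nat_lit 168) (nat_lit 1038689308) (nat_lit 84) (nat_lit 662411792) (nat_lit 285) (nat_lit 5) (nat_lit 287) (nat_lit 5) (nat_lit 286) (nat_lit 4) (nat_lit 319) (nat_lit 315) (nat_lit 311)))) (XT.nd (nat_lit 188) (nat_lit 336) (nat_lit 0) (XT.nd (nat_lit 94) (nat_lit 0) (nat_lit 0) (XT.lf (nat_lit 0) (nat_lit 1012945824) (nat_lit 252) (nat_lit 4435871642) (nat_lit 84) (nat_lit 1030724819) (nat_lit 282) (nat_lit 5) (nat_lit 285) (nat_lit 5) (nat_lit 283) (nat_lit 5) (nat_lit 320) (nat_lit 315) (nat_lit 310)) (XT.lf (nat_lit 0) (nat_lit 3682622130) (nat_lit 252) (nat_lit 1330391017)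 (nat_lit 84) (nat_lit 1482966094) (nat_lit 282) (nat_lit 5) (nat_lit 285) (nat_lit 5) (nat_lit 283) (nat_lit 5) (nat_lit 321) (nat_lit 315) (nat_lit 309))) (XT.nd (nat_lit 94) (nat_lit 84) (nat_lit 0) (XT.lf (nat_lit 0) (nat_lit 1845882853) (nat_lit 252) (nat_lit 4505032002) (nat_lit 336) (nat_lit 164755606) (nat_lit 279) (nat_lit 5) (nat_lit 282) (nat_lit 5) (nat_lit 283) (nat_lit 5) (nat_lit 322) (nat_lit 315) (nat_lit 308)) (XT.lf (nat_lit 0) (nat_lit 2428707482) (nat_lit 336) (nat_lit 1475676341) (nat_lit 84) (nat_lit 2633665451) (nat_lit 278) (nat_lit 5) (nat_lit 282) (nat_lit 5) (nat_lit 279) (nat_lit 5) (nat_lit 323) (nat_lit 315) (nat_lit 307))))))))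
noncomputable def xc10 : XT := (XT.nd (nat_lit 2444) (nat_lit 3360) (nat_lit 0) (XT.nd (nat_lit 1222) (nat_lit 6888) (nat_lit 0) (XT.nd (nat_lit 564) (nat_lit 3108) (nat_lit 0) (XT.nd (nat_lit 282) (nat_lit 588) (nat_lit 0) (XT.nd (nat_lit 94) (nat_lit 504) (nat_lit 0) (XT.lf (nat_lit 0) (nat_lit 1789220230) (nat_lit 336) (nat_lit 3229355943) (nat_lit 420) (nat_lit 1545106992) (nat_lit 274) (nat_lit 5) (nat_lit 278) (nat_lit 5) (nat_lit 279) (nat_lit 5) (nat_lit 324) (nat_lit 315) (nat_lit 306)) (XT.nd (nat_lit 94) (nat_lit 420) (nat_lit 0) (XT.lf (nat_lit 0) (nat_lit 995452561) (nat_lit 420) (nat_lit 1477907464) (nat_lit 84) (nat_lit 4119059790) (nat_lit 273) (nat_lit 5) (nat_lit 278) (nat_lit 5) (nat_lit 274) (nat_lit 5) (nat_lit 325) (nat_lit 315) (nat_lit 305)) (XT.lf (nat_lit 0) (nat_lit 1880793695) (nat_lit 420) (nat_lit 1626941667) (nat_lit 504) (nat_lit 3116292844) (nat_lit 268) (nat_lit 5)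 (nat_lit 273) (nat_lit 5) (nat_lit 274) (nat_lit 5) (nat_lit 326) (nat_lit 315) (nat_lit 304)))) (XT.nd (nat_lit 94) (nat_lit 588) (nat_lit 0) (XT.lf (nat_lit 0) (nat_lit 5312967736) (nat_lit 420) (nat_lit 707937158) (nat_lit 504) (nat_lit 638172107) (nat_lit 268) (nat_lit 5) (nat_lit 273) (nat_lit 5) (nat_lit 274) (nat_lit 5) (nat_lit 327) (nat_lit 315) (nat_lit 303)) (XT.nd (nat_lit 94) (nat_lit 0) (nat_lit 0) (XT.lf (nat_lit 0) (nat_lit 1812356365) (nat_lit 588) (nat_lit 4581902331) (nat_lit 84) (nat_lit 302546863) (nat_lit 261) (nat_lit 5) (nat_lit 268) (nat_lit 5) (nat_lit 262) (nat_lit 5) (nat_lit 328) (nat_lit 315) (nat_lit 302)) (XT.lf (nat_lit 0) (nat_lit 4258688454) (nat_lit 588) (nat_lit 1101799290) (nat_lit 84) (nat_lit 1377171074) (nat_lit 261) (nat_lit 5) (nat_lit 268) (nat_lit 5) (nat_lit 262) (nat_lit 5) (nat_lit 329) (nat_lit 315) (nat_lit 301))))) (XT.nd (nat_lit 282) (nat_lit 1764)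 (nat_lit 0) (XT.nd (nat_lit 94) (nat_lit 756) (nat_lit 0) (XT.lf (nat_lit 0) (nat_lit 2472291190) (nat_lit 588) (nat_lit 4246755813) (nat_lit 672) (nat_lit 62700539) (nat_lit 254) (nat_lit 5) (nat_lit 261) (nat_lit 5) (nat_lit 262) (nat_lit 5) (nat_lit 330) (nat_lit 315) (nat_lit 300)) (XT.nd (nat_lit 94) (nat_lit 672) (nat_lit 0) (XT.lf (nat_lit 0) (nat_lit 2307664072) (nat_lit 672) (nat_lit 734003254) (nat_lit 84) (nat_lit 3787139366) (nat_lit 253) (nat_lit 5) (nat_lit 261) (nat_lit 5) (nat_lit 254) (nat_lit 5) (nat_lit 331) (nat_lit 315) (nat_lit 299)) (XT.lf (nat_lit 0) (nat_lit 2947415698) (nat_lit 672) (nat_lit 1748904457) (nat_lit 756) (nat_lit 2182695146) (nat_lit 245) (nat_lit 5) (nat_lit 253) (nat_lit 5) (nat_lit 254) (nat_lit 5) (nat_lit 332) (nat_lit 315) (nat_lit 298)))) (XT.nd (nat_lit 188) (nat_lit 924) (nat_lit 0) (XT.nd (nat_lit 94) (nat_lit 756) (nat_lit 0) (XT.lf (nat_lit 0) (nat_lit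 149891423) (nat_lit 756) (nat_lit 237821887) (nat_lit 84) (nat_lit 6545297401) (nat_lit 244) (nat_lit 5) (nat_lit 253) (nat_lit 5) (nat_lit 245) (nat_lit 5) (nat_lit 333) (nat_lit 315) (nat_lit 297)) (XT.lf (nat_lit 0) (nat_lit 2476475412) (nat_lit 840) (nat_lit 3443030365) (nat_lit 84) (nat_lit 1069626939) (nat_lit 235) (nat_lit 5) (nat_lit 245) (nat_lit 5) (nat_lit 236) (nat_lit 5) (nat_lit 334) (nat_lit 315) (nat_lit 296))) (XT.nd (nat_lit 94) (nat_lit 84) (nat_lit 0) (XT.lf (nat_lit 0) (nat_lit 344707325) (nat_lit 840) (nat_lit 4462800089) (nat_lit 924) (nat_lit 2241577619) (nat_lit 225) (nat_lit 5) (nat_lit 235) (nat_lit 5) (nat_lit 236) (nat_lit 5) (nat_lit 335) (nat_lit 315) (nat_lit 295)) (XT.lf (nat_lit 0) (nat_lit 56625158) (nat_lit 924) (nat_lit 2855196620) (nat_lit 84) (nat_lit 4200334590) (nat_lit 224) (nat_lit 5) (nat_lit 235) (nat_lit 5) (nat_lit 225) (nat_lit 5) (nat_lit 336) (nat_lit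 315) (nat_lit 294)))))) (XT.nd (nat_lit 564) (nat_lit 3780) (nat_lit 0) (XT.nd (nat_lit 282) (nat_lit 1176) (nat_lit 0) (XT.nd (nat_lit 94) (nat_lit 1008) (nat_lit 0) (XT.lf (nat_lit 0) (nat_lit 1048723771) (nat_lit 924) (nat_lit 1268023179) (nat_lit 1008) (nat_lit 4861736655) (nat_lit 213) (nat_lit 5) (nat_lit 224) (nat_lit 5) (nat_lit 225) (nat_lit 5) (nat_lit 337) (nat_lit 315) (nat_lit 293)) (XT.nd (nat_lit 94) (nat_lit 1008) (nat_lit 0) (XT.lf (nat_lit 0) (nat_lit 4607474653) (nat_lit 1008) (nat_lit 2182842197) (nat_lit 84) (nat_lit 457765148) (nat_lit 213) (nat_lit 5) (nat_lit 225) (nat_lit 5) (nat_lit 214) (nat_lit 5) (nat_lit 338) (nat_lit 315) (nat_lit 292)) (XT.lf (nat_lit 0) (nat_lit 1846914532) (nat_lit 1008) (nat_lit 5081967222) (nat_lit 1092) (nat_lit 392188452) (nat_lit 201) (nat_lit 5) (nat_lit 213) (nat_lit 5) (nat_lit 214) (nat_lit 5) (nat_lit 339) (nat_lit 315) (nat_lit 291))))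 (XT.nd (nat_lit 94) (nat_lit 1092) (nat_lit 0) (XT.lf (nat_lit 0) (nat_lit 1840668141) (nat_lit 1092) (nat_lit 1431960787) (nat_lit 84) (nat_lit 4124580061) (nat_lit 200) (nat_lit 5) (nat_lit 213) (nat_lit 5) (nat_lit 201) (nat_lit 5) (nat_lit 340) (nat_lit 315) (nat_lit 290)) (XT.nd (nat_lit 94) (nat_lit 0) (nat_lit 0) (XT.lf (nat_lit 0) (nat_lit 2722515570) (nat_lit 1092) (nat_lit 1370518137) (nat_lit 1176) (nat_lit 3383816525) (nat_lit 187) (nat_lit 5) (nat_lit 200) (nat_lit 5) (nat_lit 201) (nat_lit 5) (nat_lit 341) (nat_lit 315) (nat_lit 289)) (XT.lf (nat_lit 0) (nat_lit 6368893413) (nat_lit 1176) (nat_lit 593064778) (nat_lit 84) (nat_lit 598387507) (nat_lit 187) (nat_lit 5) (nat_lit 201) (nat_lit 5) (nat_lit 188) (nat_lit 5) (nat_lit 342) (nat_lit 315) (nat_lit 288))))) (XT.nd (nat_lit 282) (nat_lit 1260) (nat_lit 0) (XT.nd (nat_lit 94) (nat_lit 1260) (nat_lit 0) (XT.lf (nat_lit 0) (nat_lit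 1032208669) (nat_lit 1260) (nat_lit 3963513468) (nat_lit 84) (nat_lit 2650860554) (nat_lit 172) (nat_lit 5) (nat_lit 187) (nat_lit 5) (nat_lit 173) (nat_lit 5) (nat_lit 343) (nat_lit 315) (nat_lit 287)) (XT.nd (nat_lit 94) (nat_lit 0) (nat_lit 0) (XT.lf (nat_lit 0) (nat_lit 299558367) (nat_lit 1260) (nat_lit 2946066109) (nat_lit 1344) (nat_lit 4491149236) (nat_lit 157) (nat_lit 5) (nat_lit 172) (nat_lit 5) (nat_lit 173) (nat_lit 5) (nat_lit 344) (nat_lit 315) (nat_lit 286)) (XT.lf (nat_lit 0) (nat_lit 4713498844) (nat_lit 1260) (nat_lit 791275845) (nat_lit 1344) (nat_lit 2325642588) (nat_lit 157) (nat_lit 5) (nat_lit 172) (nat_lit 5) (nat_lit 173) (nat_lit 5) (nat_lit 345) (nat_lit 315) (nat_lit 285)))) (XT.nd (nat_lit 188) (nat_lit 588) (nat_lit 0) (XT.nd (nat_lit 94) (nat_lit 84) (nat_lit 0) (XT.lf (nat_lit 0) (nat_lit 1285863067) (nat_lit 588) (nat_lit 6513023698) (nat_lit 672) (nat_lit 129090841)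 (nat_lit 150) (nat_lit 5) (nat_lit 157) (nat_lit 5) (nat_lit 158) (nat_lit 5) (nat_lit 346) (nat_lit 315) (nat_lit 284)) (XT.lf (nat_lit 0) (nat_lit 2072917301) (nat_lit 672) (nat_lit 2230745214) (nat_lit 84) (nat_lit 3724867349) (nat_lit 149) (nat_lit 5) (nat_lit 157) (nat_lit 5) (nat_lit 150) (nat_lit 5) (nat_lit 347) (nat_lit 315) (nat_lit 283))) (XT.nd (nat_lit 94) (nat_lit 0) (nat_lit 0) (XT.lf (nat_lit 0) (nat_lit 2299081181) (nat_lit 588) (nat_lit 2004680493) (nat_lit 672) (nat_lit 3829450189) (nat_lit 142) (nat_lit 5) (nat_lit 149) (nat_lit 5) (nat_lit 150) (nat_lit 5) (nat_lit 348) (nat_lit 315) (nat_lit 282)) (XT.lf (nat_lit 0) (nat_lit 6572135942) (nat_lit 672) (nat_lit 1292214670) (nat_lit 84) (nat_lit 377674927) (nat_lit 142) (nat_lit 5) (nat_lit 150) (nat_lit 5) (nat_lit 143) (nat_lit 5) (nat_lit 349) (nat_lit 315) (nat_lit 281))))))) (XT.nd (nat_lit 56306) (nat_lit 0) (nat_lit 12684)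 (XT.nd (nat_lit 564) (nat_lit 1008) (nat_lit 0) (XT.nd (nat_lit 282) (nat_lit 1092) (nat_lit 0) (XT.nd (nat_lit 94) (nat_lit 588) (nat_lit 0) (XT.lf (nat_lit 0) (nat_lit 541791989) (nat_lit 672) (nat_lit 4984566903) (nat_lit 84) (nat_lit 2827743307) (nat_lit 134) (nat_lit 5) (nat_lit 142) (nat_lit 5) (nat_lit 135) (nat_lit 5) (nat_lit 350) (nat_lit 315) (nat_lit 280)) (XT.nd (nat_lit 94) (nat_lit 588) (nat_lit 0) (XT.lf (nat_lit 0) (nat_lit 2745828231) (nat_lit 672) (nat_lit 345756823) (nat_lit 84) (nat_lit 5378773153) (nat_lit 134) (nat_lit 5) (nat_lit 142) (nat_lit 5) (nat_lit 135) (nat_lit 5) (nat_lit 351) (nat_lit 315) (nat_lit 279)) (XT.lf (nat_lit 0) (nat_lit 4463420533) (nat_lit 588) (nat_lit 543420935) (nat_lit 672) (nat_lit 3583631908) (nat_lit 127) (nat_lit 5) (nat_lit 134) (nat_lit 5) (nat_lit 135) (nat_lit 5) (nat_lit 352) (nat_lit 315) (nat_lit 278)))) (XT.nd (nat_lit 94) (nat_lit 588)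 (nat_lit 0) (XT.lf (nat_lit 0) (nat_lit 645497807) (nat_lit 504) (nat_lit 6668817502) (nat_lit 588) (nat_lit 1400612115) (nat_lit 121) (nat_lit 5) (nat_lit 127) (nat_lit 5) (nat_lit 128) (nat_lit 5) (nat_lit 353) (nat_lit 315) (nat_lit 277)) (XT.nd (nat_lit 94) (nat_lit 504) (nat_lit 0) (XT.lf (nat_lit 0) (nat_lit 828074706) (nat_lit 588) (nat_lit 3267455167) (nat_lit 84) (nat_lit 4747527960) (nat_lit 120) (nat_lit 5) (nat_lit 127) (nat_lit 5) (nat_lit 121) (nat_lit 5) (nat_lit 354) (nat_lit 315) (nat_lit 276)) (XT.lf (nat_lit 0) (nat_lit 1640933241) (nat_lit 504) (nat_lit 1421043485) (nat_lit 588) (nat_lit 5913730564) (nat_lit 114) (nat_lit 5) (nat_lit 120) (nat_lit 5) (nat_lit 121) (nat_lit 5) (nat_lit 355) (nat_lit 315) (nat_lit 275))))) (XT.nd (nat_lit 282) (nat_lit 504) (nat_lit 0) (XT.nd (nat_lit 94) (nat_lit 504) (nat_lit 0) (XT.lf (nat_lit 0) (nat_lit 5360607044) (nat_lit 588) (nat_lit 2417660100)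 (nat_lit 84) (nat_lit 1334221561) (nat_lit 114) (nat_lit 5) (nat_lit 121) (nat_lit 5) (nat_lit 115) (nat_lit 5) (nat_lit 356) (nat_lit 315) (nat_lit 274)) (XT.nd (nat_lit 94) (nat_lit 84) (nat_lit 0) (XT.lf (nat_lit 0) (nat_lit 2629133590) (nat_lit 420) (nat_lit 5091385393) (nat_lit 504) (nat_lit 1533166267) (nat_lit 109) (nat_lit 5) (nat_lit 114) (nat_lit 5) (nat_lit 115) (nat_lit 5) (nat_lit 357) (nat_lit 315) (nat_lit 273)) (XT.lf (nat_lit 0) (nat_lit 715380406) (nat_lit 504) (nat_lit 1584500222) (nat_lit 84) (nat_lit 7099758484) (nat_lit 108) (nat_lit 5) (nat_lit 114) (nat_lit 5) (nat_lit 109) (nat_lit 5) (nat_lit 358) (nat_lit 315) (nat_lit 272)))) (XT.nd (nat_lit 55272) (nat_lit 0) (nat_lit 15288) (XT.nd (nat_lit 94) (nat_lit 0) (nat_lit 0) (XT.lf (nat_lit 0) (nat_lit 2995844711) (nat_lit 588) (nat_lit 5947790298) (nat_lit 84) (nat_lit 606097359) (nat_lit 102) (nat_lit 5) (nat_lit 109) (nat_lit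 5) (nat_lit 103) (nat_lit 5) (nat_lit 359) (nat_lit 315) (nat_lit 271)) (XT.lf (nat_lit 0) (nat_lit 5339026716) (nat_lit 588) (nat_lit 805031206) (nat_lit 84) (nat_lit 3560513682) (nat_lit 102) (nat_lit 5) (nat_lit 109) (nat_lit 5) (nat_lit 103) (nat_lit 5) (nat_lit 360) (nat_lit 315) (nat_lit 270))) (XT.nd (nat_lit 94) (nat_lit 252) (nat_lit 0) (XT.lf (nat_lit 0) (nat_lit 1413013548) (nat_lit 0) (nat_lit 1413013548) (nat_lit 84) (nat_lit 397162595) (nat_lit 287) (nat_lit 5) (nat_lit 287) (nat_lit 3) (nat_lit 288) (nat_lit 0) (nat_lit 316) (nat_lit 316) (nat_lit 313)) (XT.lf (nat_lit 0) (nat_lit 1935009732) (nat_lit 252) (nat_lit 730093897) (nat_lit 252) (nat_lit 3787298240) (nat_lit 284) (nat_lit 3) (nat_lit 287) (nat_lit 3) (nat_lit 287) (nat_lit 5) (nat_lit 317) (nat_lit 316) (nat_lit 312)))))) (XT.nd (nat_lit 564) (nat_lit 2016) (nat_lit 0) (XT.nd (nat_lit 282) (nat_lit 336) (nat_lit 0) (XT.nd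 (nat_lit 94) (nat_lit 252) (nat_lit 0) (XT.lf (nat_lit 84) (nat_lit 2227515945) (nat_lit 0) (nat_lit 2417786541) (nat_lit 252) (nat_lit 1815972031) (nat_lit 285) (nat_lit 5) (nat_lit 284) (nat_lit 3) (nat_lit 287) (nat_lit 5) (nat_lit 318) (nat_lit 316) (nat_lit 311)) (XT.nd (nat_lit 94) (nat_lit 0) (nat_lit 0) (XT.lf (nat_lit 0) (nat_lit 849914947) (nat_lit 252) (nat_lit 1247584277) (nat_lit 336) (nat_lit 4375903125) (nat_lit 281) (nat_lit 5) (nat_lit 284) (nat_lit 3) (nat_lit 285) (nat_lit 5) (nat_lit 319) (nat_lit 316) (nat_lit 310)) (XT.lf (nat_lit 84) (nat_lit 1789930198) (nat_lit 0) (nat_lit 1684456429) (nat_lit 336) (nat_lit 3013841217) (nat_lit 282) (nat_lit 5) (nat_lit 281) (nat_lit 5) (nat_lit 285) (nat_lit 5) (nat_lit 320) (nat_lit 316) (nat_lit 309)))) (XT.nd (nat_lit 94) (nat_lit 336) (nat_lit 0) (XT.lf (nat_lit 84) (nat_lit 4889492361) (nat_lit 0) (nat_lit 1201048078) (nat_lit 336) (nat_lit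 415886163) (nat_lit 282) (nat_lit 5) (nat_lit 281) (nat_lit 5) (nat_lit 285) (nat_lit 5) (nat_lit 321) (nat_lit 316) (nat_lit 308)) (XT.nd (nat_lit 94) (nat_lit 0) (nat_lit 84) (XT.lf (nat_lit 84) (nat_lit 1509287647) (nat_lit 0) (nat_lit 623119858) (nat_lit 420) (nat_lit 4394915800) (nat_lit 278) (nat_lit 5) (nat_lit 277) (nat_lit 5) (nat_lit 282) (nat_lit 5) (nat_lit 322) (nat_lit 316) (nat_lit 307)) (XT.lf (nat_lit 0) (nat_lit 4669726921) (nat_lit 336) (nat_lit 1848247832) (nat_lit 84) (nat_lit 33410594) (nat_lit 278) (nat_lit 5) (nat_lit 282) (nat_lit 5) (nat_lit 279) (nat_lit 5) (nat_lit 323) (nat_lit 316) (nat_lit 306))))) (XT.nd (nat_lit 282) (nat_lit 1260) (nat_lit 0) (XT.nd (nat_lit 94) (nat_lit 420) (nat_lit 0) (XT.lf (nat_lit 0) (nat_lit 619132906) (nat_lit 420) (nat_lit 5203926839) (nat_lit 84) (nat_lit 755401046) (nat_lit 273) (nat_lit 5) (nat_lit 278) (nat_lit 5) (nat_lit 274) (nat_lit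 5) (nat_lit 324) (nat_lit 316) (nat_lit 305)) (XT.nd (nat_lit 94) (nat_lit 420) (nat_lit 0) (XT.lf (nat_lit 0) (nat_lit 3084459217) (nat_lit 420) (nat_lit 1950871145) (nat_lit 84) (nat_lit 1572904737) (nat_lit 273) (nat_lit 5) (nat_lit 278) (nat_lit 5) (nat_lit 274) (nat_lit 5) (nat_lit 325) (nat_lit 316) (nat_lit 304)) (XT.lf (nat_lit 0) (nat_lit 1370050701) (nat_lit 420) (nat_lit 4178012191) (nat_lit 504) (nat_lit 1093367917) (nat_lit 268) (nat_lit 5) (nat_lit 273) (nat_lit 5) (nat_lit 274) (nat_lit 5) (nat_lit 326) (nat_lit 316) (nat_lit 303)))) (XT.nd (nat_lit 188) (nat_lit 672) (nat_lit 0) (XT.nd (nat_lit 94) (nat_lit 504) (nat_lit 0) (XT.lf (nat_lit 0) (nat_lit 1314427655) (nat_lit 504) (nat_lit 1916087642) (nat_lit 84) (nat_lit 3446983742) (nat_lit 267) (nat_lit 5) (nat_lit 273) (nat_lit 5) (nat_lit 268) (nat_lit 5) (nat_lit 327) (nat_lit 316) (nat_lit 302)) (XT.lf (nat_lit 0) (nat_lit 1502137641)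 (nat_lit 504) (nat_lit 2199437282) (nat_lit 588) (nat_lit 3015112658) (nat_lit 261) (nat_lit 5) (nat_lit 267) (nat_lit 5) (nat_lit 268) (nat_lit 5) (nat_lit 328) (nat_lit 316) (nat_lit 301))) (XT.nd (nat_lit 94) (nat_lit 672) (nat_lit 0) (XT.lf (nat_lit 0) (nat_lit 5006526059) (nat_lit 504) (nat_lit 1089764007) (nat_lit 588) (nat_lit 662912072) (nat_lit 261) (nat_lit 5) (nat_lit 267) (nat_lit 5) (nat_lit 268) (nat_lit 5) (nat_lit 329) (nat_lit 316) (nat_lit 300)) (XT.lf (nat_lit 0) (nat_lit 1661687486) (nat_lit 672) (nat_lit 5030863118) (nat_lit 84) (nat_lit 112064622) (nat_lit 253) (nat_lit 5) (nat_lit 261) (nat_lit 5) (nat_lit 254) (nat_lit 5) (nat_lit 330) (nat_lit 316) (nat_lit 299))))))))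
noncomputable def xc11 : XT := (XT.nd (nat_lit 2444) (nat_lit 1008) (nat_lit 0) (XT.nd (nat_lit 1222) (nat_lit 4872) (nat_lit 0) (XT.nd (nat_lit 564) (nat_lit 4368) (nat_lit 0) (XT.nd (nat_lit 282) (nat_lit 1680) (nat_lit 0) (XT.nd (nat_lit 94) (nat_lit 756) (nat_lit 0) (XT.lf (nat_lit 0) (nat_lit 3991473112) (nat_lit 672) (nat_lit 1484678566) (nat_lit 84) (nat_lit 1376788497) (nat_lit 253) (nat_lit 5) (nat_lit 261) (nat_lit 5) (nat_lit 254) (nat_lit 5) (nat_lit 331) (nat_lit 316) (nat_lit 298)) (XT.nd (nat_lit 94) (nat_lit 84) (nat_lit 0) (XT.lf (nat_lit 0) (nat_lit 2153415680) (nat_lit 672) (nat_lit 4180871903) (nat_lit 756) (nat_lit 570336662) (nat_lit 245) (nat_lit 5) (nat_lit 253) (nat_lit 5) (nat_lit 254) (nat_lit 5) (nat_lit 332) (nat_lit 316) (nat_lit 297)) (XT.lf (nat_lit 0) (nat_lit 1692960464) (nat_lit 756) (nat_lit 1101335160) (nat_lit 84) (nat_lit 4165088317) (nat_lit 244) (nat_lit 5)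 (nat_lit 253) (nat_lit 5) (nat_lit 245) (nat_lit 5) (nat_lit 333) (nat_lit 316) (nat_lit 296)))) (XT.nd (nat_lit 94) (nat_lit 924) (nat_lit 0) (XT.lf (nat_lit 0) (nat_lit 2648077756) (nat_lit 756) (nat_lit 1315519192) (nat_lit 840) (nat_lit 3053679131) (nat_lit 235) (nat_lit 5) (nat_lit 244) (nat_lit 5) (nat_lit 245) (nat_lit 5) (nat_lit 334) (nat_lit 316) (nat_lit 295)) (XT.nd (nat_lit 94) (nat_lit 924) (nat_lit 0) (XT.lf (nat_lit 0) (nat_lit 6242834981) (nat_lit 840) (nat_lit 604098491) (nat_lit 84) (nat_lit 231937781) (nat_lit 235) (nat_lit 5) (nat_lit 245) (nat_lit 5) (nat_lit 236) (nat_lit 5) (nat_lit 335) (nat_lit 316) (nat_lit 294)) (XT.lf (nat_lit 0) (nat_lit 1393263304) (nat_lit 924) (nat_lit 3888508686) (nat_lit 84) (nat_lit 1861093476) (nat_lit 224) (nat_lit 5) (nat_lit 235) (nat_lit 5) (nat_lit 225) (nat_lit 5) (nat_lit 336) (nat_lit 316) (nat_lit 293))))) (XT.nd (nat_lit 282) (nat_lit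 2352) (nat_lit 0) (XT.nd (nat_lit 94) (nat_lit 2016) (nat_lit 0) (XT.lf (nat_lit 0) (nat_lit 3608843099) (nat_lit 924) (nat_lit 33273377) (nat_lit 84) (nat_lit 3568493969) (nat_lit 224) (nat_lit 5) (nat_lit 235) (nat_lit 5) (nat_lit 225) (nat_lit 5) (nat_lit 337) (nat_lit 316) (nat_lit 292)) (XT.nd (nat_lit 94) (nat_lit 1092) (nat_lit 0) (XT.lf (nat_lit 0) (nat_lit 3959258948) (nat_lit 924) (nat_lit 1901771832) (nat_lit 1008) (nat_lit 1420413367) (nat_lit 213) (nat_lit 5) (nat_lit 224) (nat_lit 5) (nat_lit 225) (nat_lit 5) (nat_lit 338) (nat_lit 316) (nat_lit 291)) (XT.lf (nat_lit 0) (nat_lit 666347827) (nat_lit 1008) (nat_lit 83371880) (nat_lit 1092) (nat_lit 6606412290) (nat_lit 200) (nat_lit 5) (nat_lit 212) (nat_lit 5) (nat_lit 213) (nat_lit 5) (nat_lit 339) (nat_lit 316) (nat_lit 290)))) (XT.nd (nat_lit 188) (nat_lit 1260) (nat_lit 0) (XT.nd (nat_lit 94) (nat_lit 1092) (nat_lit 0) (XT.lf (nat_lit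 0) (nat_lit 2941725510) (nat_lit 1092) (nat_lit 2679241268) (nat_lit 84) (nat_lit 1812259232) (nat_lit 200) (nat_lit 5) (nat_lit 213) (nat_lit 5) (nat_lit 201) (nat_lit 5) (nat_lit 340) (nat_lit 316) (nat_lit 289)) (XT.lf (nat_lit 0) (nat_lit 1422009520) (nat_lit 1092) (nat_lit 3728127518) (nat_lit 1176) (nat_lit 2364119121) (nat_lit 187) (nat_lit 5) (nat_lit 200) (nat_lit 5) (nat_lit 201) (nat_lit 5) (nat_lit 341) (nat_lit 316) (nat_lit 288))) (XT.nd (nat_lit 94) (nat_lit 1260) (nat_lit 0) (XT.lf (nat_lit 0) (nat_lit 5645242420) (nat_lit 1092) (nat_lit 1744086036) (nat_lit 1176) (nat_lit 209591458) (nat_lit 187) (nat_lit 5) (nat_lit 200) (nat_lit 5) (nat_lit 201) (nat_lit 5) (nat_lit 342) (nat_lit 316) (nat_lit 287)) (XT.lf (nat_lit 0) (nat_lit 1934163077) (nat_lit 1260) (nat_lit 5411709854) (nat_lit 84) (nat_lit 340887555) (nat_lit 172) (nat_lit 5) (nat_lit 187) (nat_lit 5) (nat_lit 173) (nat_lit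 5) (nat_lit 343) (nat_lit 316) (nat_lit 286)))))) (XT.nd (nat_lit 564) (nat_lit 2352) (nat_lit 0) (XT.nd (nat_lit 282) (nat_lit 1176) (nat_lit 0) (XT.nd (nat_lit 94) (nat_lit 1344) (nat_lit 0) (XT.lf (nat_lit 0) (nat_lit 4115077849) (nat_lit 1260) (nat_lit 1182628586) (nat_lit 84) (nat_lit 2480282552) (nat_lit 172) (nat_lit 5) (nat_lit 187) (nat_lit 5) (nat_lit 173) (nat_lit 5) (nat_lit 344) (nat_lit 316) (nat_lit 285)) (XT.nd (nat_lit 94) (nat_lit 84) (nat_lit 0) (XT.lf (nat_lit 0) (nat_lit 3179906088) (nat_lit 1260) (nat_lit 3153700944) (nat_lit 1344) (nat_lit 1539304780) (nat_lit 157) (nat_lit 5) (nat_lit 172) (nat_lit 5) (nat_lit 173) (nat_lit 5) (nat_lit 345) (nat_lit 316) (nat_lit 284)) (XT.lf (nat_lit 0) (nat_lit 589533831) (nat_lit 1344) (nat_lit 335306620) (nat_lit 84) (nat_lit 7047145940) (nat_lit 156) (nat_lit 5) (nat_lit 172) (nat_lit 5) (nat_lit 157) (nat_lit 5) (nat_lit 346) (nat_lit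 316) (nat_lit 283)))) (XT.nd (nat_lit 94) (nat_lit 588) (nat_lit 0) (XT.lf (nat_lit 0) (nat_lit 2748867336) (nat_lit 672) (nat_lit 3923323755) (nat_lit 84) (nat_lit 1401570484) (nat_lit 149) (nat_lit 5) (nat_lit 157) (nat_lit 5) (nat_lit 150) (nat_lit 5) (nat_lit 347) (nat_lit 316) (nat_lit 282)) (XT.nd (nat_lit 94) (nat_lit 0) (nat_lit 0) (XT.lf (nat_lit 0) (nat_lit 544784588) (nat_lit 588) (nat_lit 4390932088) (nat_lit 672) (nat_lit 3244100619) (nat_lit 142) (nat_lit 5) (nat_lit 149) (nat_lit 5) (nat_lit 150) (nat_lit 5) (nat_lit 348) (nat_lit 316) (nat_lit 281)) (XT.lf (nat_lit 0) (nat_lit 5172112111) (nat_lit 588) (nat_lit 2001673102) (nat_lit 672) (nat_lit 1115807230) (nat_lit 142) (nat_lit 5) (nat_lit 149) (nat_lit 5) (nat_lit 150) (nat_lit 5) (nat_lit 349) (nat_lit 316) (nat_lit 280))))) (XT.nd (nat_lit 282) (nat_lit 1092) (nat_lit 0) (XT.nd (nat_lit 94) (nat_lit 588) (nat_lit 0) (XT.lf (nat_lit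 0) (nat_lit 1021339761) (nat_lit 672) (nat_lit 6908530605) (nat_lit 84) (nat_lit 473599923) (nat_lit 134) (nat_lit 5) (nat_lit 142) (nat_lit 5) (nat_lit 135) (nat_lit 5) (nat_lit 350) (nat_lit 316) (nat_lit 279)) (XT.nd (nat_lit 94) (nat_lit 588) (nat_lit 0) (XT.lf (nat_lit 0) (nat_lit 3199735993) (nat_lit 672) (nat_lit 2297254730) (nat_lit 84) (nat_lit 3023552635) (nat_lit 134) (nat_lit 5) (nat_lit 142) (nat_lit 5) (nat_lit 135) (nat_lit 5) (nat_lit 351) (nat_lit 316) (nat_lit 278)) (XT.lf (nat_lit 0) (nat_lit 2445819729) (nat_lit 588) (nat_lit 2970641874) (nat_lit 672) (nat_lit 3225572021) (nat_lit 127) (nat_lit 5) (nat_lit 134) (nat_lit 5) (nat_lit 135) (nat_lit 5) (nat_lit 352) (nat_lit 316) (nat_lit 277)))) (XT.nd (nat_lit 188) (nat_lit 504) (nat_lit 0) (XT.nd (nat_lit 94) (nat_lit 588) (nat_lit 0) (XT.lf (nat_lit 0) (nat_lit 7324543473) (nat_lit 588) (nat_lit 348765366) (nat_lit 672) (nat_lit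 1094742745) (nat_lit 127) (nat_lit 5) (nat_lit 134) (nat_lit 5) (nat_lit 135) (nat_lit 5) (nat_lit 353) (nat_lit 316) (nat_lit 276)) (XT.lf (nat_lit 0) (nat_lit 1086060736) (nat_lit 588) (nat_lit 5465672859) (nat_lit 84) (nat_lit 2345660159) (nat_lit 120) (nat_lit 5) (nat_lit 127) (nat_lit 5) (nat_lit 121) (nat_lit 5) (nat_lit 354) (nat_lit 316) (nat_lit 275))) (XT.nd (nat_lit 94) (nat_lit 504) (nat_lit 0) (XT.lf (nat_lit 0) (nat_lit 3280625975) (nat_lit 588) (nat_lit 615991249) (nat_lit 84) (nat_lit 5134647377) (nat_lit 120) (nat_lit 5) (nat_lit 127) (nat_lit 5) (nat_lit 121) (nat_lit 5) (nat_lit 355) (nat_lit 316) (nat_lit 274)) (XT.lf (nat_lit 0) (nat_lit 4412693051) (nat_lit 504) (nat_lit 1124312674) (nat_lit 588) (nat_lit 3632347890) (nat_lit 114) (nat_lit 5) (nat_lit 120) (nat_lit 5) (nat_lit 121) (nat_lit 5) (nat_lit 356) (nat_lit 316) (nat_lit 273))))))) (XT.nd (nat_lit 56400) (nat_lit 0)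 (nat_lit 9324) (XT.nd (nat_lit 55742) (nat_lit 0) (nat_lit 14280) (XT.nd (nat_lit 282) (nat_lit 0) (nat_lit 0) (XT.nd (nat_lit 94) (nat_lit 588) (nat_lit 0) (XT.lf (nat_lit 0) (nat_lit 227744057) (nat_lit 420) (nat_lit 7612794542) (nat_lit 504) (nat_lit 1471741849) (nat_lit 109) (nat_lit 5) (nat_lit 114) (nat_lit 5) (nat_lit 115) (nat_lit 5) (nat_lit 357) (nat_lit 316) (nat_lit 272)) (XT.nd (nat_lit 94) (nat_lit 504) (nat_lit 0) (XT.lf (nat_lit 0) (nat_lit 753266961) (nat_lit 504) (nat_lit 4071635365) (nat_lit 84) (nat_lit 4634021130) (nat_lit 108) (nat_lit 5) (nat_lit 114) (nat_lit 5) (nat_lit 109) (nat_lit 5) (nat_lit 358) (nat_lit 316) (nat_lit 271)) (XT.lf (nat_lit 0) (nat_lit 1045128884) (nat_lit 504) (nat_lit 1936335170) (nat_lit 588) (nat_lit 6629156287) (nat_lit 102) (nat_lit 5) (nat_lit 108) (nat_lit 5) (nat_lit 109) (nat_lit 5) (nat_lit 359) (nat_lit 316) (nat_lit 270)))) (XT.nd (nat_lit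 55272) (nat_lit 0) (nat_lit 15036) (XT.lf (nat_lit 0) (nat_lit 5284689817) (nat_lit 588) (nat_lit 3430285665) (nat_lit 84) (nat_lit 1051717359) (nat_lit 102) (nat_lit 5) (nat_lit 109) (nat_lit 5) (nat_lit 103) (nat_lit 5) (nat_lit 360) (nat_lit 316) (nat_lit 269)) (XT.nd (nat_lit 94) (nat_lit 252) (nat_lit 0) (XT.lf (nat_lit 0) (nat_lit 2298222916) (nat_lit 252) (nat_lit 465874284) (nat_lit 252) (nat_lit 465874284) (nat_lit 284) (nat_lit 3) (nat_lit 287) (nat_lit 3) (nat_lit 287) (nat_lit 5) (nat_lit 317) (nat_lit 317) (nat_lit 311)) (XT.lf (nat_lit 0) (nat_lit 767771785) (nat_lit 252) (nat_lit 4483066417) (nat_lit 336) (nat_lit 1219515419) (nat_lit 281) (nat_lit 5) (nat_lit 284) (nat_lit 3) (nat_lit 285) (nat_lit 5) (nat_lit 318) (nat_lit 317) (nat_lit 310))))) (XT.nd (nat_lit 282) (nat_lit 420) (nat_lit 0) (XT.nd (nat_lit 94) (nat_lit 336) (nat_lit 0) (XT.lf (nat_lit 0) (nat_lit 3347927746) (nat_lit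 252) (nat_lit 1541537081) (nat_lit 336) (nat_lit 1594162596) (nat_lit 281) (nat_lit 5) (nat_lit 284) (nat_lit 3) (nat_lit 285) (nat_lit 5) (nat_lit 319) (nat_lit 317) (nat_lit 309)) (XT.nd (nat_lit 94) (nat_lit 336) (nat_lit 0) (XT.lf (nat_lit 84) (nat_lit 1463204989) (nat_lit 0) (nat_lit 4457223792) (nat_lit 336) (nat_lit 579739384) (nat_lit 282) (nat_lit 5) (nat_lit 281) (nat_lit 5) (nat_lit 285) (nat_lit 5) (nat_lit 320) (nat_lit 317) (nat_lit 308)) (XT.lf (nat_lit 0) (nat_lit 1930553532) (nat_lit 336) (nat_lit 2002246144) (nat_lit 420) (nat_lit 2586580786) (nat_lit 277) (nat_lit 5) (nat_lit 281) (nat_lit 5) (nat_lit 282) (nat_lit 5) (nat_lit 321) (nat_lit 317) (nat_lit 307)))) (XT.nd (nat_lit 188) (nat_lit 0) (nat_lit 0) (XT.nd (nat_lit 94) (nat_lit 420) (nat_lit 0) (XT.lf (nat_lit 84) (nat_lit 1085251036) (nat_lit 0) (nat_lit 3334531348) (nat_lit 420) (nat_lit 2122046208) (nat_lit 278) (nat_lit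 5) (nat_lit 277) (nat_lit 5) (nat_lit 282) (nat_lit 5) (nat_lit 322) (nat_lit 317) (nat_lit 306)) (XT.lf (nat_lit 0) (nat_lit 336897526) (nat_lit 420) (nat_lit 2317469740) (nat_lit 504) (nat_lit 3912945618) (nat_lit 272) (nat_lit 5) (nat_lit 277) (nat_lit 5) (nat_lit 278) (nat_lit 5) (nat_lit 323) (nat_lit 317) (nat_lit 305))) (XT.nd (nat_lit 94) (nat_lit 0) (nat_lit 0) (XT.lf (nat_lit 84) (nat_lit 857833576) (nat_lit 0) (nat_lit 1886023154) (nat_lit 504) (nat_lit 3851833148) (nat_lit 273) (nat_lit 5) (nat_lit 272) (nat_lit 5) (nat_lit 278) (nat_lit 5) (nat_lit 324) (nat_lit 317) (nat_lit 304)) (XT.lf (nat_lit 84) (nat_lit 4122721590) (nat_lit 0) (nat_lit 1034506602) (nat_lit 504) (nat_lit 1469921587) (nat_lit 273) (nat_lit 5) (nat_lit 272) (nat_lit 5) (nat_lit 278) (nat_lit 5) (nat_lit 325) (nat_lit 317) (nat_lit 303)))))) (XT.nd (nat_lit 564) (nat_lit 3360) (nat_lit 0) (XT.nd (nat_lit 282) (nat_lit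 672) (nat_lit 0) (XT.nd (nat_lit 94) (nat_lit 420) (nat_lit 0) (XT.lf (nat_lit 84) (nat_lit 778113373) (nat_lit 0) (nat_lit 105919901) (nat_lit 588) (nat_lit 5777886206) (nat_lit 267) (nat_lit 5) (nat_lit 266) (nat_lit 5) (nat_lit 273) (nat_lit 5) (nat_lit 326) (nat_lit 317) (nat_lit 302)) (XT.nd (nat_lit 94) (nat_lit 504) (nat_lit 0) (XT.lf (nat_lit 0) (nat_lit 3227432758) (nat_lit 504) (nat_lit 2565696554) (nat_lit 84) (nat_lit 905951084) (nat_lit 267) (nat_lit 5) (nat_lit 273) (nat_lit 5) (nat_lit 268) (nat_lit 5) (nat_lit 327) (nat_lit 317) (nat_lit 301)) (XT.lf (nat_lit 0) (nat_lit 812180759) (nat_lit 504) (nat_lit 4754949138) (nat_lit 588) (nat_lit 1172675334) (nat_lit 261) (nat_lit 5) (nat_lit 267) (nat_lit 5) (nat_lit 268) (nat_lit 5) (nat_lit 328) (nat_lit 317) (nat_lit 300)))) (XT.nd (nat_lit 94) (nat_lit 588) (nat_lit 0) (XT.lf (nat_lit 0) (nat_lit 1116121329) (nat_lit 588) (nat_lit 2504619881)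 (nat_lit 84) (nat_lit 3162556357) (nat_lit 260) (nat_lit 5) (nat_lit 267) (nat_lit 5) (nat_lit 261) (nat_lit 5) (nat_lit 329) (nat_lit 317) (nat_lit 299)) (XT.nd (nat_lit 94) (nat_lit 0) (nat_lit 0) (XT.lf (nat_lit 0) (nat_lit 974214604) (nat_lit 588) (nat_lit 2405564475) (nat_lit 672) (nat_lit 3450283804) (nat_lit 253) (nat_lit 5) (nat_lit 260) (nat_lit 5) (nat_lit 261) (nat_lit 5) (nat_lit 330) (nat_lit 317) (nat_lit 298)) (XT.lf (nat_lit 0) (nat_lit 4555028308) (nat_lit 588) (nat_lit 1103813977) (nat_lit 672) (nat_lit 1221167432) (nat_lit 253) (nat_lit 5) (nat_lit 260) (nat_lit 5) (nat_lit 261) (nat_lit 5) (nat_lit 331) (nat_lit 317) (nat_lit 297))))) (XT.nd (nat_lit 282) (nat_lit 1848) (nat_lit 0) (XT.nd (nat_lit 94) (nat_lit 756) (nat_lit 0) (XT.lf (nat_lit 0) (nat_lit 992327251) (nat_lit 756) (nat_lit 5663550145) (nat_lit 84) (nat_lit 277305004) (nat_lit 244) (nat_lit 5) (nat_lit 253) (nat_lit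 5) (nat_lit 245) (nat_lit 5) (nat_lit 332) (nat_lit 317) (nat_lit 296)) (XT.nd (nat_lit 94) (nat_lit 756) (nat_lit 0) (XT.lf (nat_lit 0) (nat_lit 3207770278) (nat_lit 756) (nat_lit 2046737159) (nat_lit 84) (nat_lit 1734463637) (nat_lit 244) (nat_lit 5) (nat_lit 253) (nat_lit 5) (nat_lit 245) (nat_lit 5) (nat_lit 333) (nat_lit 317) (nat_lit 295)) (XT.lf (nat_lit 0) (nat_lit 1656552781) (nat_lit 756) (nat_lit 3776667712) (nat_lit 840) (nat_lit 1615087344) (nat_lit 235) (nat_lit 5) (nat_lit 244) (nat_lit 5) (nat_lit 245) (nat_lit 5) (nat_lit 334) (nat_lit 317) (nat_lit 294)))) (XT.nd (nat_lit 188) (nat_lit 924) (nat_lit 0) (XT.nd (nat_lit 94) (nat_lit 840) (nat_lit 0) (XT.lf (nat_lit 0) (nat_lit 553199576) (nat_lit 840) (nat_lit 1657449691) (nat_lit 84) (nat_lit 4900291843) (nat_lit 234) (nat_lit 5) (nat_lit 244) (nat_lit 5) (nat_lit 235) (nat_lit 5) (nat_lit 335) (nat_lit 317) (nat_lit 293)) (XT.lf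 (nat_lit 0) (nat_lit 2161265555) (nat_lit 840) (nat_lit 544008504) (nat_lit 924) (nat_lit 4471328981) (nat_lit 224) (nat_lit 5) (nat_lit 234) (nat_lit 5) (nat_lit 235) (nat_lit 5) (nat_lit 336) (nat_lit 317) (nat_lit 292))) (XT.nd (nat_lit 94) (nat_lit 924) (nat_lit 0) (XT.lf (nat_lit 0) (nat_lit 4882167209) (nat_lit 924) (nat_lit 1182271576) (nat_lit 84) (nat_lit 1181148942) (nat_lit 224) (nat_lit 5) (nat_lit 235) (nat_lit 5) (nat_lit 225) (nat_lit 5) (nat_lit 337) (nat_lit 317) (nat_lit 291)) (XT.lf (nat_lit 0) (nat_lit 2760263305) (nat_lit 924) (nat_lit 4330083286) (nat_lit 1008) (nat_lit 227471891) (nat_lit 213) (nat_lit 5) (nat_lit 224) (nat_lit 5) (nat_lit 225) (nat_lit 5) (nat_lit 338) (nat_lit 317) (nat_lit 290))))))))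
noncomputable def xc12 : XT := (XT.nd (nat_lit 57716) (nat_lit 0) (nat_lit 3948) (XT.nd (nat_lit 1222) (nat_lit 2688) (nat_lit 0) (XT.nd (nat_lit 564) (nat_lit 3192) (nat_lit 0) (XT.nd (nat_lit 282) (nat_lit 1260) (nat_lit 0) (XT.nd (nat_lit 94) (nat_lit 2100) (nat_lit 0) (XT.lf (nat_lit 0) (nat_lit 1880799479) (nat_lit 1008) (nat_lit 620545004) (nat_lit 84) (nat_lit 4892047719) (nat_lit 212) (nat_lit 5) (nat_lit 224) (nat_lit 5) (nat_lit 213) (nat_lit 5) (nat_lit 339) (nat_lit 317) (nat_lit 289)) (XT.nd (nat_lit 94) (nat_lit 1092) (nat_lit 0) (XT.lf (nat_lit 0) (nat_lit 3446254610) (nat_lit 1008) (nat_lit 571201591) (nat_lit 1092) (nat_lit 3454760774) (nat_lit 200) (nat_lit 5) (nat_lit 212) (nat_lit 5) (nat_lit 213) (nat_lit 5) (nat_lit 340) (nat_lit 317) (nat_lit 288)) (XT.lf (nat_lit 0) (nat_lit 26511057) (nat_lit 1092) (nat_lit 6149914873) (nat_lit 1176) (nat_lit 1378372689) (nat_lit 187) (nat_lit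 5) (nat_lit 200) (nat_lit 5) (nat_lit 201) (nat_lit 5) (nat_lit 341) (nat_lit 317) (nat_lit 287)))) (XT.nd (nat_lit 94) (nat_lit 1176) (nat_lit 0) (XT.lf (nat_lit 0) (nat_lit 730743744) (nat_lit 1176) (nat_lit 3424617797) (nat_lit 84) (nat_lit 3484849297) (nat_lit 186) (nat_lit 5) (nat_lit 200) (nat_lit 5) (nat_lit 187) (nat_lit 5) (nat_lit 342) (nat_lit 317) (nat_lit 286)) (XT.nd (nat_lit 94) (nat_lit 0) (nat_lit 0) (XT.lf (nat_lit 0) (nat_lit 749053712) (nat_lit 1176) (nat_lit 2073926616) (nat_lit 1260) (nat_lit 4906495931) (nat_lit 172) (nat_lit 5) (nat_lit 186) (nat_lit 5) (nat_lit 187) (nat_lit 5) (nat_lit 343) (nat_lit 317) (nat_lit 285)) (XT.lf (nat_lit 0) (nat_lit 4955200513) (nat_lit 1260) (nat_lit 2758730774) (nat_lit 84) (nat_lit 108294940) (nat_lit 172) (nat_lit 5) (nat_lit 187) (nat_lit 5) (nat_lit 173) (nat_lit 5) (nat_lit 344) (nat_lit 317) (nat_lit 284))))) (XT.nd (nat_lit 282) (nat_lit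 1260) (nat_lit 0) (XT.nd (nat_lit 94) (nat_lit 672) (nat_lit 0) (XT.lf (nat_lit 0) (nat_lit 1545378926) (nat_lit 1260) (nat_lit 5584717593) (nat_lit 1344) (nat_lit 788420393) (nat_lit 157) (nat_lit 5) (nat_lit 172) (nat_lit 5) (nat_lit 173) (nat_lit 5) (nat_lit 345) (nat_lit 317) (nat_lit 283)) (XT.nd (nat_lit 94) (nat_lit 588) (nat_lit 0) (XT.lf (nat_lit 0) (nat_lit 1298078446) (nat_lit 1344) (nat_lit 2049532729) (nat_lit 84) (nat_lit 4670649882) (nat_lit 156) (nat_lit 5) (nat_lit 172) (nat_lit 5) (nat_lit 157) (nat_lit 5) (nat_lit 346) (nat_lit 317) (nat_lit 282)) (XT.lf (nat_lit 0) (nat_lit 2389635969) (nat_lit 588) (nat_lit 1010092255) (nat_lit 672) (nat_lit 4722092398) (nat_lit 149) (nat_lit 5) (nat_lit 156) (nat_lit 5) (nat_lit 157) (nat_lit 5) (nat_lit 347) (nat_lit 317) (nat_lit 281)))) (XT.nd (nat_lit 188) (nat_lit 672) (nat_lit 0) (XT.nd (nat_lit 94) (nat_lit 588) (nat_lit 0) (XT.lf (nat_lit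 0) (nat_lit 5545289719) (nat_lit 672) (nat_lit 1291682255) (nat_lit 84) (nat_lit 1392195302) (nat_lit 149) (nat_lit 5) (nat_lit 157) (nat_lit 5) (nat_lit 150) (nat_lit 5) (nat_lit 348) (nat_lit 317) (nat_lit 280)) (XT.lf (nat_lit 0) (nat_lit 3283515013) (nat_lit 588) (nat_lit 4461351502) (nat_lit 672) (nat_lit 595281438) (nat_lit 142) (nat_lit 5) (nat_lit 149) (nat_lit 5) (nat_lit 150) (nat_lit 5) (nat_lit 349) (nat_lit 317) (nat_lit 279))) (XT.nd (nat_lit 94) (nat_lit 588) (nat_lit 0) (XT.lf (nat_lit 0) (nat_lit 1487276312) (nat_lit 672) (nat_lit 499905545) (nat_lit 84) (nat_lit 6468074652) (nat_lit 141) (nat_lit 5) (nat_lit 149) (nat_lit 5) (nat_lit 142) (nat_lit 5) (nat_lit 350) (nat_lit 317) (nat_lit 278)) (XT.lf (nat_lit 0) (nat_lit 3616727763) (nat_lit 672) (nat_lit 4361564018) (nat_lit 84) (nat_lit 595552609) (nat_lit 134) (nat_lit 5) (nat_lit 142) (nat_lit 5) (nat_lit 135) (nat_lit 5) (nat_lit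 351) (nat_lit 317) (nat_lit 277)))))) (XT.nd (nat_lit 564) (nat_lit 1008) (nat_lit 0) (XT.nd (nat_lit 282) (nat_lit 504) (nat_lit 0) (XT.nd (nat_lit 94) (nat_lit 588) (nat_lit 0) (XT.lf (nat_lit 0) (nat_lit 313956481) (nat_lit 588) (nat_lit 5474835949) (nat_lit 672) (nat_lit 2907927168) (nat_lit 127) (nat_lit 5) (nat_lit 134) (nat_lit 5) (nat_lit 135) (nat_lit 5) (nat_lit 352) (nat_lit 317) (nat_lit 276)) (XT.nd (nat_lit 94) (nat_lit 588) (nat_lit 0) (XT.lf (nat_lit 0) (nat_lit 5166981043) (nat_lit 588) (nat_lit 2854947346) (nat_lit 672) (nat_lit 801564308) (nat_lit 127) (nat_lit 5) (nat_lit 134) (nat_lit 5) (nat_lit 135) (nat_lit 5) (nat_lit 353) (nat_lit 317) (nat_lit 275)) (XT.lf (nat_lit 0) (nat_lit 1169524428) (nat_lit 504) (nat_lit 135733522) (nat_lit 588) (nat_lit 7649581463) (nat_lit 120) (nat_lit 5) (nat_lit 126) (nat_lit 5) (nat_lit 127) (nat_lit 5) (nat_lit 354) (nat_lit 317) (nat_lit 274))))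 (XT.nd (nat_lit 94) (nat_lit 504) (nat_lit 0) (XT.lf (nat_lit 0) (nat_lit 3475641614) (nat_lit 588) (nat_lit 2960237634) (nat_lit 84) (nat_lit 2653596544) (nat_lit 120) (nat_lit 5) (nat_lit 127) (nat_lit 5) (nat_lit 121) (nat_lit 5) (nat_lit 355) (nat_lit 317) (nat_lit 273)) (XT.nd (nat_lit 94) (nat_lit 0) (nat_lit 0) (XT.lf (nat_lit 0) (nat_lit 1996136566) (nat_lit 504) (nat_lit 3690444872) (nat_lit 588) (nat_lit 3542385483) (nat_lit 114) (nat_lit 5) (nat_lit 120) (nat_lit 5) (nat_lit 121) (nat_lit 5) (nat_lit 356) (nat_lit 317) (nat_lit 272)) (XT.lf (nat_lit 0) (nat_lit 7111321192) (nat_lit 504) (nat_lit 838160713) (nat_lit 588) (nat_lit 1423668604) (nat_lit 114) (nat_lit 5) (nat_lit 120) (nat_lit 5) (nat_lit 121) (nat_lit 5) (nat_lit 357) (nat_lit 317) (nat_lit 271))))) (XT.nd (nat_lit 55554) (nat_lit 0) (nat_lit 14616) (XT.nd (nat_lit 94) (nat_lit 504) (nat_lit 0) (XT.lf (nat_lit 0) (nat_lit 748262267)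 (nat_lit 504) (nat_lit 6685730898) (nat_lit 84) (nat_lit 2087386298) (nat_lit 108) (nat_lit 5) (nat_lit 114) (nat_lit 5) (nat_lit 109) (nat_lit 5) (nat_lit 358) (nat_lit 317) (nat_lit 270)) (XT.nd (nat_lit 94) (nat_lit 504) (nat_lit 0) (XT.lf (nat_lit 0) (nat_lit 2945356056) (nat_lit 504) (nat_lit 1614396189) (nat_lit 84) (nat_lit 5114291779) (nat_lit 108) (nat_lit 5) (nat_lit 114) (nat_lit 5) (nat_lit 109) (nat_lit 5) (nat_lit 359) (nat_lit 317) (nat_lit 269)) (XT.lf (nat_lit 0) (nat_lit 3630582868) (nat_lit 504) (nat_lit 1571178706) (nat_lit 588) (nat_lit 4629793125) (nat_lit 102) (nat_lit 5) (nat_lit 108) (nat_lit 5) (nat_lit 109) (nat_lit 5) (nat_lit 360) (nat_lit 317) (nat_lit 268)))) (XT.nd (nat_lit 188) (nat_lit 420) (nat_lit 0) (XT.nd (nat_lit 94) (nat_lit 0) (nat_lit 0) (XT.lf (nat_lit 0) (nat_lit 826580324) (nat_lit 0) (nat_lit 826580324) (nat_lit 252) (nat_lit 1587878536) (nat_lit 281)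 (nat_lit 5) (nat_lit 281) (nat_lit 3) (nat_lit 284) (nat_lit 3) (nat_lit 318) (nat_lit 318) (nat_lit 309)) (XT.lf (nat_lit 0) (nat_lit 4587214094) (nat_lit 0) (nat_lit 1246524364) (nat_lit 252) (nat_lit 663352004) (nat_lit 281) (nat_lit 5) (nat_lit 281) (nat_lit 3) (nat_lit 284) (nat_lit 3) (nat_lit 319) (nat_lit 318) (nat_lit 308))) (XT.nd (nat_lit 94) (nat_lit 0) (nat_lit 0) (XT.lf (nat_lit 84) (nat_lit 1048089869) (nat_lit 0) (nat_lit 750896130) (nat_lit 420) (nat_lit 4715947303) (nat_lit 277) (nat_lit 5) (nat_lit 276) (nat_lit 3) (nat_lit 281) (nat_lit 5) (nat_lit 320) (nat_lit 318) (nat_lit 307)) (XT.lf (nat_lit 84) (nat_lit 4077143596) (nat_lit 0) (nat_lit 168349440) (nat_lit 420) (nat_lit 2290202450) (nat_lit 277) (nat_lit 5) (nat_lit 276) (nat_lit 3) (nat_lit 281) (nat_lit 5) (nat_lit 321) (nat_lit 318) (nat_lit 306))))))) (XT.nd (nat_lit 1222) (nat_lit 7224) (nat_lit 0) (XT.nd (nat_lit 564)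 (nat_lit 2604) (nat_lit 0) (XT.nd (nat_lit 282) (nat_lit 504) (nat_lit 0) (XT.nd (nat_lit 94) (nat_lit 0) (nat_lit 0) (XT.lf (nat_lit 0) (nat_lit 120647536) (nat_lit 420) (nat_lit 5965698967) (nat_lit 504) (nat_lit 473455419) (nat_lit 272) (nat_lit 5) (nat_lit 277) (nat_lit 5) (nat_lit 278) (nat_lit 5) (nat_lit 322) (nat_lit 318) (nat_lit 305)) (XT.nd (nat_lit 94) (nat_lit 0) (nat_lit 0) (XT.lf (nat_lit 0) (nat_lit 2493183573) (nat_lit 420) (nat_lit 2873446107) (nat_lit 504) (nat_lit 1219525304) (nat_lit 272) (nat_lit 5) (nat_lit 277) (nat_lit 5) (nat_lit 278) (nat_lit 5) (nat_lit 323) (nat_lit 318) (nat_lit 304)) (XT.lf (nat_lit 84) (nat_lit 264595017) (nat_lit 0) (nat_lit 4586156903) (nat_lit 504) (nat_lit 1765388729) (nat_lit 273) (nat_lit 5) (nat_lit 272) (nat_lit 5) (nat_lit 278) (nat_lit 5) (nat_lit 324) (nat_lit 318) (nat_lit 303)))) (XT.nd (nat_lit 94) (nat_lit 0) (nat_lit 0) (XT.lf (nat_lit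 0) (nat_lit 561288729) (nat_lit 504) (nat_lit 3150457555) (nat_lit 588) (nat_lit 2937092238) (nat_lit 266) (nat_lit 5) (nat_lit 272) (nat_lit 5) (nat_lit 273) (nat_lit 5) (nat_lit 325) (nat_lit 318) (nat_lit 302)) (XT.nd (nat_lit 94) (nat_lit 0) (nat_lit 0) (XT.lf (nat_lit 84) (nat_lit 78661076) (nat_lit 0) (nat_lit 2759230320) (nat_lit 588) (nat_lit 3846869169) (nat_lit 267) (nat_lit 5) (nat_lit 266) (nat_lit 5) (nat_lit 273) (nat_lit 5) (nat_lit 326) (nat_lit 318) (nat_lit 301)) (XT.lf (nat_lit 84) (nat_lit 3417686977) (nat_lit 0) (nat_lit 1713754474) (nat_lit 588) (nat_lit 1592088301) (nat_lit 267) (nat_lit 5) (nat_lit 266) (nat_lit 5) (nat_lit 273) (nat_lit 5) (nat_lit 327) (nat_lit 318) (nat_lit 300))))) (XT.nd (nat_lit 282) (nat_lit 1512) (nat_lit 0) (XT.nd (nat_lit 94) (nat_lit 504) (nat_lit 0) (XT.lf (nat_lit 84) (nat_lit 35198874) (nat_lit 0) (nat_lit 599464723) (nat_lit 672) (nat_lit 6131246251)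 (nat_lit 260) (nat_lit 5) (nat_lit 259) (nat_lit 5) (nat_lit 267) (nat_lit 5) (nat_lit 328) (nat_lit 318) (nat_lit 299)) (XT.nd (nat_lit 94) (nat_lit 588) (nat_lit 0) (XT.lf (nat_lit 0) (nat_lit 2855603910) (nat_lit 588) (nat_lit 3339945514) (nat_lit 84) (nat_lit 614967002) (nat_lit 260) (nat_lit 5) (nat_lit 267) (nat_lit 5) (nat_lit 261) (nat_lit 5) (nat_lit 329) (nat_lit 318) (nat_lit 298)) (XT.lf (nat_lit 0) (nat_lit 95797324) (nat_lit 588) (nat_lit 4976951703) (nat_lit 672) (nat_lit 1786028306) (nat_lit 253) (nat_lit 5) (nat_lit 260) (nat_lit 5) (nat_lit 261) (nat_lit 5) (nat_lit 330) (nat_lit 318) (nat_lit 297)))) (XT.nd (nat_lit 188) (nat_lit 756) (nat_lit 0) (XT.nd (nat_lit 94) (nat_lit 672) (nat_lit 0) (XT.lf (nat_lit 0) (nat_lit 396771082) (nat_lit 672) (nat_lit 3262912700) (nat_lit 84) (nat_lit 3250137189) (nat_lit 252) (nat_lit 5) (nat_lit 260) (nat_lit 5) (nat_lit 253) (nat_lit 5) (nat_lit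 331) (nat_lit 318) (nat_lit 296)) (XT.lf (nat_lit 0) (nat_lit 277582174) (nat_lit 672) (nat_lit 2259998899) (nat_lit 756) (nat_lit 4426617791) (nat_lit 244) (nat_lit 5) (nat_lit 252) (nat_lit 5) (nat_lit 253) (nat_lit 5) (nat_lit 332) (nat_lit 318) (nat_lit 295))) (XT.nd (nat_lit 94) (nat_lit 756) (nat_lit 0) (XT.lf (nat_lit 0) (nat_lit 3939383593) (nat_lit 672) (nat_lit 763601092) (nat_lit 756) (nat_lit 2318593073) (nat_lit 244) (nat_lit 5) (nat_lit 252) (nat_lit 5) (nat_lit 253) (nat_lit 5) (nat_lit 333) (nat_lit 318) (nat_lit 294)) (XT.lf (nat_lit 0) (nat_lit 581462181) (nat_lit 756) (nat_lit 6294681464) (nat_lit 840) (nat_lit 206426056) (nat_lit 235) (nat_lit 5) (nat_lit 244) (nat_lit 5) (nat_lit 245) (nat_lit 5) (nat_lit 334) (nat_lit 318) (nat_lit 293)))))) (XT.nd (nat_lit 564) (nat_lit 4284) (nat_lit 0) (XT.nd (nat_lit 282) (nat_lit 2016) (nat_lit 0) (XT.nd (nat_lit 94) (nat_lit 840) (nat_lit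 0) (XT.lf (nat_lit 0) (nat_lit 1900099511) (nat_lit 840) (nat_lit 2806846710) (nat_lit 84) (nat_lit 2438960206) (nat_lit 234) (nat_lit 5) (nat_lit 244) (nat_lit 5) (nat_lit 235) (nat_lit 5) (nat_lit 335) (nat_lit 318) (nat_lit 292)) (XT.nd (nat_lit 94) (nat_lit 0) (nat_lit 0) (XT.lf (nat_lit 0) (nat_lit 962749482) (nat_lit 840) (nat_lit 3044628598) (nat_lit 924) (nat_lit 3205613265) (nat_lit 224) (nat_lit 5) (nat_lit 234) (nat_lit 5) (nat_lit 235) (nat_lit 5) (nat_lit 336) (nat_lit 318) (nat_lit 291)) (XT.lf (nat_lit 0) (nat_lit 4851247948) (nat_lit 840) (nat_lit 1288892595) (nat_lit 924) (nat_lit 1143236212) (nat_lit 224) (nat_lit 5) (nat_lit 234) (nat_lit 5) (nat_lit 235) (nat_lit 5) (nat_lit 337) (nat_lit 318) (nat_lit 290)))) (XT.nd (nat_lit 94) (nat_lit 1008) (nat_lit 0) (XT.lf (nat_lit 0) (nat_lit 916398795) (nat_lit 1008) (nat_lit 5894527990) (nat_lit 84) (nat_lit 546175111) (nat_lit 212) (nat_lit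 5) (nat_lit 224) (nat_lit 5) (nat_lit 213) (nat_lit 5) (nat_lit 338) (nat_lit 318) (nat_lit 289)) (XT.nd (nat_lit 94) (nat_lit 1008) (nat_lit 0) (XT.lf (nat_lit 0) (nat_lit 2988990810) (nat_lit 1008) (nat_lit 1985969197) (nat_lit 84) (nat_lit 2458657515) (nat_lit 212) (nat_lit 5) (nat_lit 224) (nat_lit 5) (nat_lit 213) (nat_lit 5) (nat_lit 339) (nat_lit 318) (nat_lit 288)) (XT.lf (nat_lit 0) (nat_lit 2027648515) (nat_lit 1008) (nat_lit 3054031866) (nat_lit 1092) (nat_lit 2432149166) (nat_lit 200) (nat_lit 5) (nat_lit 212) (nat_lit 5) (nat_lit 213) (nat_lit 5) (nat_lit 340) (nat_lit 318) (nat_lit 287))))) (XT.nd (nat_lit 282) (nat_lit 3108) (nat_lit 0) (XT.nd (nat_lit 94) (nat_lit 1176) (nat_lit 0) (XT.lf (nat_lit 0) (nat_lit 6151128108) (nat_lit 1008) (nat_lit 1045806349) (nat_lit 1092) (nat_lit 400854455) (nat_lit 200) (nat_lit 5) (nat_lit 212) (nat_lit 5) (nat_lit 213) (nat_lit 5) (nat_lit 341)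 (nat_lit 318) (nat_lit 286)) (XT.nd (nat_lit 94) (nat_lit 0) (nat_lit 0) (XT.lf (nat_lit 0) (nat_lit 1635426644) (nat_lit 1176) (nat_lit 4995839302) (nat_lit 84) (nat_lit 1053328553) (nat_lit 186) (nat_lit 5) (nat_lit 200) (nat_lit 5) (nat_lit 187) (nat_lit 5) (nat_lit 342) (nat_lit 318) (nat_lit 285)) (XT.lf (nat_lit 0) (nat_lit 3691934588) (nat_lit 1176) (nat_lit 862647950) (nat_lit 84) (nat_lit 3220409872) (nat_lit 186) (nat_lit 5) (nat_lit 200) (nat_lit 5) (nat_lit 187) (nat_lit 5) (nat_lit 343) (nat_lit 318) (nat_lit 284)))) (XT.nd (nat_lit 188) (nat_lit 1932) (nat_lit 0) (XT.nd (nat_lit 94) (nat_lit 0) (nat_lit 0) (XT.lf (nat_lit 0) (nat_lit 3410109112) (nat_lit 1176) (nat_lit 2376583076) (nat_lit 1260) (nat_lit 2082232930) (nat_lit 172) (nat_lit 5) (nat_lit 186) (nat_lit 5) (nat_lit 187) (nat_lit 5) (nat_lit 344) (nat_lit 318) (nat_lit 283)) (XT.lf (nat_lit 0) (nat_lit 7778258525) (nat_lit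 1176) (nat_lit 119671864) (nat_lit 1260) (nat_lit 69252298) (nat_lit 172) (nat_lit 5) (nat_lit 186) (nat_lit 5) (nat_lit 187) (nat_lit 5) (nat_lit 345) (nat_lit 318) (nat_lit 282))) (XT.nd (nat_lit 94) (nat_lit 588) (nat_lit 0) (XT.lf (nat_lit 0) (nat_lit 1973311199) (nat_lit 1344) (nat_lit 3868154599) (nat_lit 84) (nat_lit 2226204563) (nat_lit 156) (nat_lit 5) (nat_lit 172) (nat_lit 5) (nat_lit 157) (nat_lit 5) (nat_lit 346) (nat_lit 318) (nat_lit 281)) (XT.lf (nat_lit 0) (nat_lit 508982678) (nat_lit 588) (nat_lit 3521802361) (nat_lit 672) (nat_lit 4141822465) (nat_lit 149) (nat_lit 5) (nat_lit 156) (nat_lit 5) (nat_lit 157) (nat_lit 5) (nat_lit 347) (nat_lit 318) (nat_lit 280))))))))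
noncomputable def xc13 : XT := (XT.nd (nat_lit 57810) (nat_lit 0) (nat_lit 1008) (XT.nd (nat_lit 56588) (nat_lit 0) (nat_lit 12600) (XT.nd (nat_lit 564) (nat_lit 2100) (nat_lit 0) (XT.nd (nat_lit 282) (nat_lit 1176) (nat_lit 0) (XT.nd (nat_lit 94) (nat_lit 672) (nat_lit 0) (XT.lf (nat_lit 0) (nat_lit 5045805438) (nat_lit 588) (nat_lit 1091313179) (nat_lit 672) (nat_lit 2144063156) (nat_lit 149) (nat_lit 5) (nat_lit 156) (nat_lit 5) (nat_lit 157) (nat_lit 5) (nat_lit 348) (nat_lit 318) (nat_lit 279)) (XT.nd (nat_lit 94) (nat_lit 84) (nat_lit 0) (XT.lf (nat_lit 0) (nat_lit 1286183122) (nat_lit 588) (nat_lit 6995993032) (nat_lit 672) (nat_lit 111671172) (nat_lit 142) (nat_lit 5) (nat_lit 149) (nat_lit 5) (nat_lit 150) (nat_lit 5) (nat_lit 349) (nat_lit 318) (nat_lit 278)) (XT.lf (nat_lit 0) (nat_lit 1936816082) (nat_lit 672) (nat_lit 2581028731) (nat_lit 84) (nat_lit 3991757079) (nat_lit 141) (nat_lit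 5) (nat_lit 149) (nat_lit 5) (nat_lit 142) (nat_lit 5) (nat_lit 350) (nat_lit 318) (nat_lit 277)))) (XT.nd (nat_lit 94) (nat_lit 588) (nat_lit 0) (XT.lf (nat_lit 0) (nat_lit 2070558945) (nat_lit 588) (nat_lit 1945308453) (nat_lit 672) (nat_lit 4613879493) (nat_lit 134) (nat_lit 5) (nat_lit 141) (nat_lit 5) (nat_lit 142) (nat_lit 5) (nat_lit 351) (nat_lit 318) (nat_lit 276)) (XT.nd (nat_lit 94) (nat_lit 588) (nat_lit 0) (XT.lf (nat_lit 0) (nat_lit 6142750388) (nat_lit 672) (nat_lit 1896292072) (nat_lit 84) (nat_lit 714978890) (nat_lit 134) (nat_lit 5) (nat_lit 142) (nat_lit 5) (nat_lit 135) (nat_lit 5) (nat_lit 352) (nat_lit 318) (nat_lit 275)) (XT.lf (nat_lit 0) (nat_lit 2894041896) (nat_lit 588) (nat_lit 5440232694) (nat_lit 672) (nat_lit 547810736) (nat_lit 127) (nat_lit 5) (nat_lit 134) (nat_lit 5) (nat_lit 135) (nat_lit 5) (nat_lit 353) (nat_lit 318) (nat_lit 274))))) (XT.nd (nat_lit 282) (nat_lit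 1512) (nat_lit 0) (XT.nd (nat_lit 94) (nat_lit 504) (nat_lit 0) (XT.lf (nat_lit 0) (nat_lit 1520205770) (nat_lit 672) (nat_lit 1211982265) (nat_lit 84) (nat_lit 6282226538) (nat_lit 126) (nat_lit 5) (nat_lit 134) (nat_lit 5) (nat_lit 127) (nat_lit 5) (nat_lit 354) (nat_lit 318) (nat_lit 273)) (XT.nd (nat_lit 94) (nat_lit 0) (nat_lit 0) (XT.lf (nat_lit 0) (nat_lit 3631420392) (nat_lit 588) (nat_lit 5425874801) (nat_lit 84) (nat_lit 93569746) (nat_lit 120) (nat_lit 5) (nat_lit 127) (nat_lit 5) (nat_lit 121) (nat_lit 5) (nat_lit 355) (nat_lit 318) (nat_lit 272)) (XT.lf (nat_lit 0) (nat_lit 5801608530) (nat_lit 588) (nat_lit 532874142) (nat_lit 84) (nat_lit 2957133727) (nat_lit 120) (nat_lit 5) (nat_lit 127) (nat_lit 5) (nat_lit 121) (nat_lit 5) (nat_lit 356) (nat_lit 318) (nat_lit 271)))) (XT.nd (nat_lit 188) (nat_lit 504) (nat_lit 0) (XT.nd (nat_lit 94) (nat_lit 504) (nat_lit 0) (XT.lf (nat_lit 0) (nat_lit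 4547522943) (nat_lit 504) (nat_lit 3490593809) (nat_lit 588) (nat_lit 1398511685) (nat_lit 114) (nat_lit 5) (nat_lit 120) (nat_lit 5) (nat_lit 121) (nat_lit 5) (nat_lit 357) (nat_lit 318) (nat_lit 270)) (XT.lf (nat_lit 0) (nat_lit 152513837) (nat_lit 420) (nat_lit 553165479) (nat_lit 504) (nat_lit 8881222866) (nat_lit 108) (nat_lit 5) (nat_lit 113) (nat_lit 5) (nat_lit 114) (nat_lit 5) (nat_lit 358) (nat_lit 318) (nat_lit 269))) (XT.nd (nat_lit 94) (nat_lit 504) (nat_lit 0) (XT.lf (nat_lit 0) (nat_lit 2877012160) (nat_lit 504) (nat_lit 4382042400) (nat_lit 84) (nat_lit 2481318580) (nat_lit 108) (nat_lit 5) (nat_lit 114) (nat_lit 5) (nat_lit 109) (nat_lit 5) (nat_lit 359) (nat_lit 318) (nat_lit 268)) (XT.lf (nat_lit 0) (nat_lit 783787237) (nat_lit 504) (nat_lit 4302417164) (nat_lit 588) (nat_lit 4813128404) (nat_lit 102) (nat_lit 5) (nat_lit 108) (nat_lit 5) (nat_lit 109) (nat_lit 5) (nat_lit 360)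 (nat_lit 318) (nat_lit 267)))))) (XT.nd (nat_lit 564) (nat_lit 1092) (nat_lit 0) (XT.nd (nat_lit 282) (nat_lit 504) (nat_lit 0) (XT.nd (nat_lit 94) (nat_lit 420) (nat_lit 0) (XT.lf (nat_lit 0) (nat_lit 882357208) (nat_lit 420) (nat_lit 1187112446) (nat_lit 420) (nat_lit 1187112446) (nat_lit 276) (nat_lit 3) (nat_lit 281) (nat_lit 3) (nat_lit 281) (nat_lit 5) (nat_lit 319) (nat_lit 319) (nat_lit 307)) (XT.nd (nat_lit 94) (nat_lit 420) (nat_lit 0) (XT.lf (nat_lit 84) (nat_lit 543314903) (nat_lit 0) (nat_lit 3619089507) (nat_lit 420) (nat_lit 2370105321) (nat_lit 277) (nat_lit 5) (nat_lit 276) (nat_lit 3) (nat_lit 281) (nat_lit 5) (nat_lit 320) (nat_lit 319) (nat_lit 306)) (XT.lf (nat_lit 0) (nat_lit 8247991) (nat_lit 420) (nat_lit 3006457046) (nat_lit 504) (nat_lit 3540074684) (nat_lit 271) (nat_lit 5) (nat_lit 276) (nat_lit 3) (nat_lit 277) (nat_lit 5) (nat_lit 321) (nat_lit 319) (nat_lit 305)))) (XT.nd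 (nat_lit 94) (nat_lit 504) (nat_lit 0) (XT.lf (nat_lit 0) (nat_lit 2319052222) (nat_lit 420) (nat_lit 7012648) (nat_lit 504) (nat_lit 4253952267) (nat_lit 271) (nat_lit 5) (nat_lit 276) (nat_lit 3) (nat_lit 277) (nat_lit 5) (nat_lit 322) (nat_lit 319) (nat_lit 304)) (XT.nd (nat_lit 94) (nat_lit 504) (nat_lit 0) (XT.lf (nat_lit 84) (nat_lit 3094935477) (nat_lit 0) (nat_lit 1545390746) (nat_lit 504) (nat_lit 1967708782) (nat_lit 272) (nat_lit 5) (nat_lit 271) (nat_lit 5) (nat_lit 277) (nat_lit 5) (nat_lit 323) (nat_lit 319) (nat_lit 303)) (XT.lf (nat_lit 0) (nat_lit 299140192) (nat_lit 504) (nat_lit 399986417) (nat_lit 588) (nat_lit 5940521278) (nat_lit 265) (nat_lit 5) (nat_lit 271) (nat_lit 5) (nat_lit 272) (nat_lit 5) (nat_lit 324) (nat_lit 319) (nat_lit 302))))) (XT.nd (nat_lit 282) (nat_lit 588) (nat_lit 0) (XT.nd (nat_lit 94) (nat_lit 588) (nat_lit 0) (XT.lf (nat_lit 0) (nat_lit 2538742698) (nat_lit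 504) (nat_lit 3882479434) (nat_lit 588) (nat_lit 252309476) (nat_lit 266) (nat_lit 5) (nat_lit 272) (nat_lit 5) (nat_lit 273) (nat_lit 5) (nat_lit 325) (nat_lit 319) (nat_lit 301)) (XT.nd (nat_lit 94) (nat_lit 588) (nat_lit 0) (XT.lf (nat_lit 0) (nat_lit 4773865764) (nat_lit 504) (nat_lit 679793154) (nat_lit 588) (nat_lit 1257151911) (nat_lit 266) (nat_lit 5) (nat_lit 272) (nat_lit 5) (nat_lit 273) (nat_lit 5) (nat_lit 326) (nat_lit 319) (nat_lit 300)) (XT.lf (nat_lit 0) (nat_lit 264627557) (nat_lit 588) (nat_lit 4132626847) (nat_lit 672) (nat_lit 2353750454) (nat_lit 259) (nat_lit 5) (nat_lit 266) (nat_lit 5) (nat_lit 267) (nat_lit 5) (nat_lit 327) (nat_lit 319) (nat_lit 299)))) (XT.nd (nat_lit 188) (nat_lit 588) (nat_lit 0) (XT.nd (nat_lit 94) (nat_lit 0) (nat_lit 0) (XT.lf (nat_lit 0) (nat_lit 2420871302) (nat_lit 588) (nat_lit 832392854) (nat_lit 672) (nat_lit 3540948116) (nat_lit 259) (nat_lit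 5) (nat_lit 266) (nat_lit 5) (nat_lit 267) (nat_lit 5) (nat_lit 328) (nat_lit 319) (nat_lit 298)) (XT.lf (nat_lit 84) (nat_lit 2568049521) (nat_lit 0) (nat_lit 2021372556) (nat_lit 672) (nat_lit 2251068671) (nat_lit 260) (nat_lit 5) (nat_lit 259) (nat_lit 5) (nat_lit 267) (nat_lit 5) (nat_lit 329) (nat_lit 319) (nat_lit 297))) (XT.nd (nat_lit 94) (nat_lit 588) (nat_lit 0) (XT.lf (nat_lit 84) (nat_lit 6039137387) (nat_lit 0) (nat_lit 717010670) (nat_lit 672) (nat_lit 134213465) (nat_lit 260) (nat_lit 5) (nat_lit 259) (nat_lit 5) (nat_lit 267) (nat_lit 5) (nat_lit 330) (nat_lit 319) (nat_lit 296)) (XT.lf (nat_lit 0) (nat_lit 1964459228) (nat_lit 672) (nat_lit 4293380329) (nat_lit 84) (nat_lit 684737780) (nat_lit 252) (nat_lit 5) (nat_lit 260) (nat_lit 5) (nat_lit 253) (nat_lit 5) (nat_lit 331) (nat_lit 319) (nat_lit 295))))))) (XT.nd (nat_lit 1222) (nat_lit 4872) (nat_lit 0) (XT.nd (nat_lit 564) (nat_lit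 4284) (nat_lit 0) (XT.nd (nat_lit 282) (nat_lit 1680) (nat_lit 0) (XT.nd (nat_lit 94) (nat_lit 756) (nat_lit 0) (XT.lf (nat_lit 0) (nat_lit 4067092646) (nat_lit 672) (nat_lit 783318885) (nat_lit 84) (nat_lit 2147778032) (nat_lit 252) (nat_lit 5) (nat_lit 260) (nat_lit 5) (nat_lit 253) (nat_lit 5) (nat_lit 332) (nat_lit 319) (nat_lit 294)) (XT.nd (nat_lit 94) (nat_lit 84) (nat_lit 0) (XT.lf (nat_lit 0) (nat_lit 2838121412) (nat_lit 672) (nat_lit 3351983068) (nat_lit 756) (nat_lit 866822174) (nat_lit 244) (nat_lit 5) (nat_lit 252) (nat_lit 5) (nat_lit 253) (nat_lit 5) (nat_lit 333) (nat_lit 319) (nat_lit 293)) (XT.lf (nat_lit 0) (nat_lit 1173536326) (nat_lit 756) (nat_lit 595475977) (nat_lit 84) (nat_lit 5350053867) (nat_lit 243) (nat_lit 5) (nat_lit 252) (nat_lit 5) (nat_lit 244) (nat_lit 5) (nat_lit 334) (nat_lit 319) (nat_lit 292)))) (XT.nd (nat_lit 94) (nat_lit 924) (nat_lit 0) (XT.lf (nat_lit 0)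 (nat_lit 3140351946) (nat_lit 756) (nat_lit 80277834) (nat_lit 840) (nat_lit 3963454814) (nat_lit 234) (nat_lit 5) (nat_lit 243) (nat_lit 5) (nat_lit 244) (nat_lit 5) (nat_lit 335) (nat_lit 319) (nat_lit 291)) (XT.nd (nat_lit 94) (nat_lit 924) (nat_lit 0) (XT.lf (nat_lit 0) (nat_lit 5285576264) (nat_lit 840) (nat_lit 317133709) (nat_lit 84) (nat_lit 1649806306) (nat_lit 234) (nat_lit 5) (nat_lit 244) (nat_lit 5) (nat_lit 235) (nat_lit 5) (nat_lit 336) (nat_lit 319) (nat_lit 290)) (XT.lf (nat_lit 0) (nat_lit 58446057) (nat_lit 924) (nat_lit 3784274737) (nat_lit 84) (nat_lit 3481279627) (nat_lit 223) (nat_lit 5) (nat_lit 234) (nat_lit 5) (nat_lit 224) (nat_lit 5) (nat_lit 337) (nat_lit 319) (nat_lit 289))))) (XT.nd (nat_lit 282) (nat_lit 2352) (nat_lit 0) (XT.nd (nat_lit 94) (nat_lit 1008) (nat_lit 0) (XT.lf (nat_lit 0) (nat_lit 52627861) (nat_lit 924) (nat_lit 1993126596) (nat_lit 1008) (nat_lit 5353212246)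 (nat_lit 212) (nat_lit 5) (nat_lit 223) (nat_lit 5) (nat_lit 224) (nat_lit 5) (nat_lit 338) (nat_lit 319) (nat_lit 288)) (XT.nd (nat_lit 94) (nat_lit 1008) (nat_lit 0) (XT.lf (nat_lit 0) (nat_lit 4032551633) (nat_lit 924) (nat_lit 36657420) (nat_lit 1008) (nat_lit 3407815638) (nat_lit 212) (nat_lit 5) (nat_lit 223) (nat_lit 5) (nat_lit 224) (nat_lit 5) (nat_lit 339) (nat_lit 319) (nat_lit 287)) (XT.lf (nat_lit 0) (nat_lit 515227164) (nat_lit 1008) (nat_lit 5602333544) (nat_lit 1092) (nat_lit 1441072398) (nat_lit 200) (nat_lit 5) (nat_lit 212) (nat_lit 5) (nat_lit 213) (nat_lit 5) (nat_lit 340) (nat_lit 319) (nat_lit 286)))) (XT.nd (nat_lit 188) (nat_lit 1176) (nat_lit 0) (XT.nd (nat_lit 94) (nat_lit 1092) (nat_lit 0) (XT.lf (nat_lit 0) (nat_lit 549531298) (nat_lit 1092) (nat_lit 3034716714) (nat_lit 84) (nat_lit 4059111910) (nat_lit 199) (nat_lit 5) (nat_lit 212) (nat_lit 5) (nat_lit 200) (nat_lit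 5) (nat_lit 341) (nat_lit 319) (nat_lit 285)) (XT.lf (nat_lit 0) (nat_lit 1050889690) (nat_lit 1092) (nat_lit 1472603501) (nat_lit 1176) (nat_lit 5208252262) (nat_lit 186) (nat_lit 5) (nat_lit 199) (nat_lit 5) (nat_lit 200) (nat_lit 5) (nat_lit 342) (nat_lit 319) (nat_lit 284))) (XT.nd (nat_lit 94) (nat_lit 1176) (nat_lit 0) (XT.lf (nat_lit 0) (nat_lit 4538148212) (nat_lit 1176) (nat_lit 2558618965) (nat_lit 84) (nat_lit 726690639) (nat_lit 186) (nat_lit 5) (nat_lit 200) (nat_lit 5) (nat_lit 187) (nat_lit 5) (nat_lit 343) (nat_lit 319) (nat_lit 283)) (XT.lf (nat_lit 0) (nat_lit 1655521008) (nat_lit 1176) (nat_lit 4933627992) (nat_lit 1260) (nat_lit 1329611379) (nat_lit 172) (nat_lit 5) (nat_lit 186) (nat_lit 5) (nat_lit 187) (nat_lit 5) (nat_lit 344) (nat_lit 319) (nat_lit 282)))))) (XT.nd (nat_lit 564) (nat_lit 2268) (nat_lit 0) (XT.nd (nat_lit 282) (nat_lit 1260) (nat_lit 0) (XT.nd (nat_lit 94)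 (nat_lit 1260) (nat_lit 0) (XT.lf (nat_lit 0) (nat_lit 643379606) (nat_lit 1260) (nat_lit 2024640587) (nat_lit 84) (nat_lit 5349654193) (nat_lit 171) (nat_lit 5) (nat_lit 186) (nat_lit 5) (nat_lit 172) (nat_lit 5) (nat_lit 345) (nat_lit 319) (nat_lit 281)) (XT.nd (nat_lit 94) (nat_lit 0) (nat_lit 0) (XT.lf (nat_lit 0) (nat_lit 2324584634) (nat_lit 1260) (nat_lit 294064191) (nat_lit 1344) (nat_lit 5501523852) (nat_lit 156) (nat_lit 5) (nat_lit 171) (nat_lit 5) (nat_lit 172) (nat_lit 5) (nat_lit 346) (nat_lit 319) (nat_lit 280)) (XT.lf (nat_lit 0) (nat_lit 4643065475) (nat_lit 1344) (nat_lit 1450151369) (nat_lit 84) (nat_lit 2132935470) (nat_lit 156) (nat_lit 5) (nat_lit 172) (nat_lit 5) (nat_lit 157) (nat_lit 5) (nat_lit 347) (nat_lit 319) (nat_lit 279)))) (XT.nd (nat_lit 94) (nat_lit 672) (nat_lit 0) (XT.lf (nat_lit 0) (nat_lit 3033456421) (nat_lit 588) (nat_lit 3676891535) (nat_lit 672) (nat_lit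 1625599456) (nat_lit 149) (nat_lit 5) (nat_lit 156) (nat_lit 5) (nat_lit 157) (nat_lit 5) (nat_lit 348) (nat_lit 319) (nat_lit 278)) (XT.nd (nat_lit 94) (nat_lit 588) (nat_lit 0) (XT.lf (nat_lit 0) (nat_lit 348254565) (nat_lit 672) (nat_lit 820276566) (nat_lit 84) (nat_lit 7281528990) (nat_lit 148) (nat_lit 5) (nat_lit 156) (nat_lit 5) (nat_lit 149) (nat_lit 5) (nat_lit 349) (nat_lit 319) (nat_lit 277)) (XT.lf (nat_lit 0) (nat_lit 2351292490) (nat_lit 672) (nat_lit 4774730881) (nat_lit 84) (nat_lit 1441102335) (nat_lit 141) (nat_lit 5) (nat_lit 149) (nat_lit 5) (nat_lit 142) (nat_lit 5) (nat_lit 350) (nat_lit 319) (nat_lit 276))))) (XT.nd (nat_lit 282) (nat_lit 1092) (nat_lit 0) (XT.nd (nat_lit 94) (nat_lit 1176) (nat_lit 0) (XT.lf (nat_lit 0) (nat_lit 4387220873) (nat_lit 672) (nat_lit 187529890) (nat_lit 84) (nat_lit 4113857429) (nat_lit 141) (nat_lit 5) (nat_lit 149) (nat_lit 5) (nat_lit 142) (nat_lit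 5) (nat_lit 351) (nat_lit 319) (nat_lit 275)) (XT.nd (nat_lit 94) (nat_lit 588) (nat_lit 0) (XT.lf (nat_lit 0) (nat_lit 4579380615) (nat_lit 588) (nat_lit 1903103688) (nat_lit 672) (nat_lit 2331389460) (nat_lit 134) (nat_lit 5) (nat_lit 141) (nat_lit 5) (nat_lit 142) (nat_lit 5) (nat_lit 352) (nat_lit 319) (nat_lit 274)) (XT.lf (nat_lit 0) (nat_lit 503739968) (nat_lit 588) (nat_lit 8106880398) (nat_lit 672) (nat_lit 333260304) (nat_lit 127) (nat_lit 5) (nat_lit 134) (nat_lit 5) (nat_lit 135) (nat_lit 5) (nat_lit 353) (nat_lit 319) (nat_lit 273)))) (XT.nd (nat_lit 188) (nat_lit 504) (nat_lit 0) (XT.nd (nat_lit 94) (nat_lit 504) (nat_lit 0) (XT.lf (nat_lit 0) (nat_lit 1708616228) (nat_lit 672) (nat_lit 3690136147) (nat_lit 84) (nat_lit 3678093184) (nat_lit 126) (nat_lit 5) (nat_lit 134) (nat_lit 5) (nat_lit 127) (nat_lit 5) (nat_lit 354) (nat_lit 319) (nat_lit 272)) (XT.lf (nat_lit 0) (nat_lit 1174702020)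 (nat_lit 504) (nat_lit 2598373561) (nat_lit 588) (nat_lit 5441660785) (nat_lit 120) (nat_lit 5) (nat_lit 126) (nat_lit 5) (nat_lit 127) (nat_lit 5) (nat_lit 355) (nat_lit 319) (nat_lit 271))) (XT.nd (nat_lit 94) (nat_lit 504) (nat_lit 0) (XT.lf (nat_lit 0) (nat_lit 5897351030) (nat_lit 588) (nat_lit 3145766947) (nat_lit 84) (nat_lit 313783913) (nat_lit 120) (nat_lit 5) (nat_lit 127) (nat_lit 5) (nat_lit 121) (nat_lit 5) (nat_lit 356) (nat_lit 319) (nat_lit 270)) (XT.lf (nat_lit 0) (nat_lit 1859150488) (nat_lit 504) (nat_lit 6228540723) (nat_lit 588) (nat_lit 1415643372) (nat_lit 114) (nat_lit 5) (nat_lit 120) (nat_lit 5) (nat_lit 121) (nat_lit 5) (nat_lit 357) (nat_lit 319) (nat_lit 269))))))))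
noncomputable def xc14 : XT := (XT.nd (nat_lit 57904) (nat_lit 0) (nat_lit 0) (XT.nd (nat_lit 56682) (nat_lit 0) (nat_lit 7644) (XT.nd (nat_lit 56024) (nat_lit 0) (nat_lit 12600) (XT.nd (nat_lit 55742) (nat_lit 0) (nat_lit 13692) (XT.nd (nat_lit 94) (nat_lit 420) (nat_lit 0) (XT.lf (nat_lit 0) (nat_lit 667231560) (nat_lit 588) (nat_lit 2628605590) (nat_lit 84) (nat_lit 6358459198) (nat_lit 113) (nat_lit 5) (nat_lit 120) (nat_lit 5) (nat_lit 114) (nat_lit 5) (nat_lit 358) (nat_lit 319) (nat_lit 268)) (XT.nd (nat_lit 94) (nat_lit 0) (nat_lit 0) (XT.lf (nat_lit 0) (nat_lit 2526951686) (nat_lit 420) (nat_lit 241697893) (nat_lit 504) (nat_lit 7041247763) (nat_lit 108) (nat_lit 5) (nat_lit 113) (nat_lit 5) (nat_lit 114) (nat_lit 5) (nat_lit 359) (nat_lit 319) (nat_lit 267)) (XT.lf (nat_lit 0) (nat_lit 4948714197) (nat_lit 504) (nat_lit 2152998040) (nat_lit 84) (nat_lit 2868050242) (nat_lit 108) (nat_lit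 5) (nat_lit 114) (nat_lit 5) (nat_lit 109) (nat_lit 5) (nat_lit 360) (nat_lit 319) (nat_lit 266)))) (XT.nd (nat_lit 94) (nat_lit 420) (nat_lit 0) (XT.lf (nat_lit 0) (nat_lit 3252081120) (nat_lit 420) (nat_lit 12377426) (nat_lit 420) (nat_lit 12377426) (nat_lit 276) (nat_lit 3) (nat_lit 281) (nat_lit 3) (nat_lit 281) (nat_lit 5) (nat_lit 320) (nat_lit 320) (nat_lit 305)) (XT.nd (nat_lit 94) (nat_lit 0) (nat_lit 0) (XT.lf (nat_lit 0) (nat_lit 2238358233) (nat_lit 420) (nat_lit 3642783758) (nat_lit 504) (nat_lit 695617553) (nat_lit 271) (nat_lit 5) (nat_lit 276) (nat_lit 3) (nat_lit 277) (nat_lit 5) (nat_lit 321) (nat_lit 320) (nat_lit 304)) (XT.lf (nat_lit 0) (nat_lit 4505514794) (nat_lit 420) (nat_lit 666922090) (nat_lit 504) (nat_lit 1430996450) (nat_lit 271) (nat_lit 5) (nat_lit 276) (nat_lit 3) (nat_lit 277) (nat_lit 5) (nat_lit 322) (nat_lit 320) (nat_lit 303))))) (XT.nd (nat_lit 282) (nat_lit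 588) (nat_lit 0) (XT.nd (nat_lit 94) (nat_lit 0) (nat_lit 0) (XT.lf (nat_lit 0) (nat_lit 141848614) (nat_lit 504) (nat_lit 4235896224) (nat_lit 588) (nat_lit 2255260009) (nat_lit 265) (nat_lit 5) (nat_lit 271) (nat_lit 5) (nat_lit 272) (nat_lit 5) (nat_lit 323) (nat_lit 320) (nat_lit 302)) (XT.nd (nat_lit 94) (nat_lit 0) (nat_lit 0) (XT.lf (nat_lit 0) (nat_lit 2328413629) (nat_lit 504) (nat_lit 1165319123) (nat_lit 588) (nat_lit 3171690313) (nat_lit 265) (nat_lit 5) (nat_lit 271) (nat_lit 5) (nat_lit 272) (nat_lit 5) (nat_lit 324) (nat_lit 320) (nat_lit 301)) (XT.lf (nat_lit 84) (nat_lit 1989646069) (nat_lit 0) (nat_lit 2527501477) (nat_lit 588) (nat_lit 2183798086) (nat_lit 266) (nat_lit 5) (nat_lit 265) (nat_lit 5) (nat_lit 272) (nat_lit 5) (nat_lit 325) (nat_lit 320) (nat_lit 300)))) (XT.nd (nat_lit 188) (nat_lit 0) (nat_lit 84) (XT.nd (nat_lit 94) (nat_lit 588) (nat_lit 0) (XT.lf (nat_lit 84)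 (nat_lit 5217050150) (nat_lit 0) (nat_lit 1485668382) (nat_lit 588) (nat_lit 37102386) (nat_lit 266) (nat_lit 5) (nat_lit 265) (nat_lit 5) (nat_lit 272) (nat_lit 5) (nat_lit 326) (nat_lit 320) (nat_lit 299)) (XT.lf (nat_lit 84) (nat_lit 1727687838) (nat_lit 0) (nat_lit 341260133) (nat_lit 672) (nat_lit 4712375807) (nat_lit 259) (nat_lit 5) (nat_lit 258) (nat_lit 5) (nat_lit 266) (nat_lit 5) (nat_lit 327) (nat_lit 320) (nat_lit 298))) (XT.nd (nat_lit 94) (nat_lit 0) (nat_lit 0) (XT.lf (nat_lit 0) (nat_lit 4183947796) (nat_lit 588) (nat_lit 1774215405) (nat_lit 672) (nat_lit 867705521) (nat_lit 259) (nat_lit 5) (nat_lit 266) (nat_lit 5) (nat_lit 267) (nat_lit 5) (nat_lit 328) (nat_lit 320) (nat_lit 297)) (XT.lf (nat_lit 84) (nat_lit 1583625210) (nat_lit 0) (nat_lit 4722552687) (nat_lit 672) (nat_lit 567456215) (nat_lit 260) (nat_lit 5) (nat_lit 259) (nat_lit 5) (nat_lit 267) (nat_lit 5) (nat_lit 329)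 (nat_lit 320) (nat_lit 296)))))) (XT.nd (nat_lit 564) (nat_lit 2940) (nat_lit 0) (XT.nd (nat_lit 282) (nat_lit 1428) (nat_lit 0) (XT.nd (nat_lit 94) (nat_lit 0) (nat_lit 0) (XT.lf (nat_lit 0) (nat_lit 1482708602) (nat_lit 672) (nat_lit 1907665597) (nat_lit 756) (nat_lit 3533869262) (nat_lit 251) (nat_lit 5) (nat_lit 259) (nat_lit 5) (nat_lit 260) (nat_lit 5) (nat_lit 330) (nat_lit 320) (nat_lit 295)) (XT.nd (nat_lit 94) (nat_lit 0) (nat_lit 0) (XT.lf (nat_lit 84) (nat_lit 1553584063) (nat_lit 0) (nat_lit 1972472753) (nat_lit 756) (nat_lit 3452033957) (nat_lit 252) (nat_lit 5) (nat_lit 251) (nat_lit 5) (nat_lit 260) (nat_lit 5) (nat_lit 331) (nat_lit 320) (nat_lit 294)) (XT.lf (nat_lit 84) (nat_lit 5110978253) (nat_lit 0) (nat_lit 468783539) (nat_lit 756) (nat_lit 1455495504) (nat_lit 252) (nat_lit 5) (nat_lit 251) (nat_lit 5) (nat_lit 260) (nat_lit 5) (nat_lit 332) (nat_lit 320) (nat_lit 293)))) (XT.nd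 (nat_lit 94) (nat_lit 756) (nat_lit 0) (XT.lf (nat_lit 0) (nat_lit 546979784) (nat_lit 756) (nat_lit 5445921547) (nat_lit 84) (nat_lit 1102496578) (nat_lit 243) (nat_lit 5) (nat_lit 252) (nat_lit 5) (nat_lit 244) (nat_lit 5) (nat_lit 333) (nat_lit 320) (nat_lit 292)) (XT.nd (nat_lit 94) (nat_lit 756) (nat_lit 0) (XT.lf (nat_lit 0) (nat_lit 2537300055) (nat_lit 756) (nat_lit 1855012588) (nat_lit 84) (nat_lit 2766047620) (nat_lit 243) (nat_lit 5) (nat_lit 252) (nat_lit 5) (nat_lit 244) (nat_lit 5) (nat_lit 334) (nat_lit 320) (nat_lit 291)) (XT.lf (nat_lit 0) (nat_lit 1831896361) (nat_lit 756) (nat_lit 2707760825) (nat_lit 840) (nat_lit 2685140395) (nat_lit 234) (nat_lit 5) (nat_lit 243) (nat_lit 5) (nat_lit 244) (nat_lit 5) (nat_lit 335) (nat_lit 320) (nat_lit 290))))) (XT.nd (nat_lit 282) (nat_lit 2016) (nat_lit 0) (XT.nd (nat_lit 94) (nat_lit 924) (nat_lit 0) (XT.lf (nat_lit 0) (nat_lit 5620429778)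 (nat_lit 756) (nat_lit 936554732) (nat_lit 840) (nat_lit 737747897) (nat_lit 234) (nat_lit 5) (nat_lit 243) (nat_lit 5) (nat_lit 244) (nat_lit 5) (nat_lit 336) (nat_lit 320) (nat_lit 289)) (XT.nd (nat_lit 94) (nat_lit 0) (nat_lit 0) (XT.lf (nat_lit 0) (nat_lit 1210155144) (nat_lit 924) (nat_lit 5238455726) (nat_lit 84) (nat_lit 918926407) (nat_lit 223) (nat_lit 5) (nat_lit 234) (nat_lit 5) (nat_lit 224) (nat_lit 5) (nat_lit 337) (nat_lit 320) (nat_lit 288)) (XT.lf (nat_lit 0) (nat_lit 3166805215) (nat_lit 924) (nat_lit 1426565694) (nat_lit 84) (nat_lit 2850120639) (nat_lit 223) (nat_lit 5) (nat_lit 234) (nat_lit 5) (nat_lit 224) (nat_lit 5) (nat_lit 338) (nat_lit 320) (nat_lit 287)))) (XT.nd (nat_lit 188) (nat_lit 1092) (nat_lit 0) (XT.nd (nat_lit 94) (nat_lit 0) (nat_lit 0) (XT.lf (nat_lit 0) (nat_lit 2501216166) (nat_lit 924) (nat_lit 2645555189) (nat_lit 1008) (nat_lit 2376149086) (nat_lit 212)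 (nat_lit 5) (nat_lit 223) (nat_lit 5) (nat_lit 224) (nat_lit 5) (nat_lit 339) (nat_lit 320) (nat_lit 286)) (XT.lf (nat_lit 0) (nat_lit 6529265530) (nat_lit 924) (nat_lit 613130730) (nat_lit 1008) (nat_lit 463778721) (nat_lit 212) (nat_lit 5) (nat_lit 223) (nat_lit 5) (nat_lit 224) (nat_lit 5) (nat_lit 340) (nat_lit 320) (nat_lit 285))) (XT.nd (nat_lit 94) (nat_lit 0) (nat_lit 0) (XT.lf (nat_lit 0) (nat_lit 1462874266) (nat_lit 1092) (nat_lit 4723965257) (nat_lit 84) (nat_lit 1505187479) (nat_lit 199) (nat_lit 5) (nat_lit 212) (nat_lit 5) (nat_lit 200) (nat_lit 5) (nat_lit 341) (nat_lit 320) (nat_lit 284)) (XT.lf (nat_lit 0) (nat_lit 3399235402) (nat_lit 1092) (nat_lit 682578778) (nat_lit 84) (nat_lit 3699785241) (nat_lit 199) (nat_lit 5) (nat_lit 212) (nat_lit 5) (nat_lit 200) (nat_lit 5) (nat_lit 342) (nat_lit 320) (nat_lit 283))))))) (XT.nd (nat_lit 1222) (nat_lit 1512) (nat_lit 0) (XT.nd (nat_lit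 564) (nat_lit 1932) (nat_lit 0) (XT.nd (nat_lit 282) (nat_lit 1848) (nat_lit 0) (XT.nd (nat_lit 94) (nat_lit 1260) (nat_lit 0) (XT.lf (nat_lit 0) (nat_lit 3501643079) (nat_lit 1092) (nat_lit 1871507242) (nat_lit 1176) (nat_lit 2501440814) (nat_lit 186) (nat_lit 5) (nat_lit 199) (nat_lit 5) (nat_lit 200) (nat_lit 5) (nat_lit 343) (nat_lit 320) (nat_lit 282)) (XT.nd (nat_lit 94) (nat_lit 1260) (nat_lit 0) (XT.lf (nat_lit 0) (nat_lit 7364139740) (nat_lit 1176) (nat_lit 196791884) (nat_lit 84) (nat_lit 410817901) (nat_lit 186) (nat_lit 5) (nat_lit 200) (nat_lit 5) (nat_lit 187) (nat_lit 5) (nat_lit 344) (nat_lit 320) (nat_lit 281)) (XT.lf (nat_lit 0) (nat_lit 1323465612) (nat_lit 1260) (nat_lit 3964842247) (nat_lit 84) (nat_lit 2783034566) (nat_lit 171) (nat_lit 5) (nat_lit 186) (nat_lit 5) (nat_lit 172) (nat_lit 5) (nat_lit 345) (nat_lit 320) (nat_lit 280)))) (XT.nd (nat_lit 94) (nat_lit 588) (nat_lit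 0) (XT.lf (nat_lit 0) (nat_lit 322000512) (nat_lit 1260) (nat_lit 2932359690) (nat_lit 1344) (nat_lit 4920862529) (nat_lit 156) (nat_lit 5) (nat_lit 171) (nat_lit 5) (nat_lit 172) (nat_lit 5) (nat_lit 346) (nat_lit 320) (nat_lit 279)) (XT.nd (nat_lit 94) (nat_lit 588) (nat_lit 0) (XT.lf (nat_lit 0) (nat_lit 4771878935) (nat_lit 1260) (nat_lit 461372178) (nat_lit 1344) (nat_lit 3049366323) (nat_lit 156) (nat_lit 5) (nat_lit 171) (nat_lit 5) (nat_lit 172) (nat_lit 5) (nat_lit 347) (nat_lit 320) (nat_lit 278)) (XT.lf (nat_lit 0) (nat_lit 912738051) (nat_lit 588) (nat_lit 6339091591) (nat_lit 672) (nat_lit 1142091874) (nat_lit 149) (nat_lit 5) (nat_lit 156) (nat_lit 5) (nat_lit 157) (nat_lit 5) (nat_lit 348) (nat_lit 320) (nat_lit 277))))) (XT.nd (nat_lit 282) (nat_lit 1260) (nat_lit 0) (XT.nd (nat_lit 94) (nat_lit 588) (nat_lit 0) (XT.lf (nat_lit 0) (nat_lit 798641489) (nat_lit 672) (nat_lit 3027089404)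 (nat_lit 84) (nat_lit 4682919583) (nat_lit 148) (nat_lit 5) (nat_lit 156) (nat_lit 5) (nat_lit 149) (nat_lit 5) (nat_lit 349) (nat_lit 320) (nat_lit 276)) (XT.nd (nat_lit 94) (nat_lit 0) (nat_lit 0) (XT.lf (nat_lit 0) (nat_lit 1532971923) (nat_lit 588) (nat_lit 1209724386) (nat_lit 672) (nat_lit 5884833045) (nat_lit 141) (nat_lit 5) (nat_lit 148) (nat_lit 5) (nat_lit 149) (nat_lit 5) (nat_lit 350) (nat_lit 320) (nat_lit 275)) (XT.lf (nat_lit 0) (nat_lit 4744452923) (nat_lit 672) (nat_lit 2519011931) (nat_lit 84) (nat_lit 1486614665) (nat_lit 141) (nat_lit 5) (nat_lit 149) (nat_lit 5) (nat_lit 142) (nat_lit 5) (nat_lit 351) (nat_lit 320) (nat_lit 274)))) (XT.nd (nat_lit 188) (nat_lit 672) (nat_lit 0) (XT.nd (nat_lit 94) (nat_lit 0) (nat_lit 0) (XT.lf (nat_lit 0) (nat_lit 2178441685) (nat_lit 588) (nat_lit 4616308812) (nat_lit 672) (nat_lit 2081984854) (nat_lit 134) (nat_lit 5) (nat_lit 141) (nat_lit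 5) (nat_lit 142) (nat_lit 5) (nat_lit 352) (nat_lit 320) (nat_lit 273)) (XT.lf (nat_lit 0) (nat_lit 7023016065) (nat_lit 588) (nat_lit 1865405566) (nat_lit 672) (nat_lit 119394659) (nat_lit 134) (nat_lit 5) (nat_lit 141) (nat_lit 5) (nat_lit 142) (nat_lit 5) (nat_lit 353) (nat_lit 320) (nat_lit 272))) (XT.nd (nat_lit 94) (nat_lit 0) (nat_lit 0) (XT.lf (nat_lit 0) (nat_lit 1859411772) (nat_lit 672) (nat_lit 6289924230) (nat_lit 84) (nat_lit 993188190) (nat_lit 126) (nat_lit 5) (nat_lit 134) (nat_lit 5) (nat_lit 127) (nat_lit 5) (nat_lit 354) (nat_lit 320) (nat_lit 271)) (XT.lf (nat_lit 0) (nat_lit 3891886059) (nat_lit 672) (nat_lit 1470625585) (nat_lit 84) (nat_lit 3918899588) (nat_lit 126) (nat_lit 5) (nat_lit 134) (nat_lit 5) (nat_lit 127) (nat_lit 5) (nat_lit 355) (nat_lit 320) (nat_lit 270)))))) (XT.nd (nat_lit 56118) (nat_lit 0) (nat_lit 12600) (XT.nd (nat_lit 282) (nat_lit 420) (nat_lit 0) (XT.nd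 (nat_lit 94) (nat_lit 588) (nat_lit 0) (XT.lf (nat_lit 0) (nat_lit 3517312485) (nat_lit 504) (nat_lit 2461049136) (nat_lit 588) (nat_lit 3446384747) (nat_lit 120) (nat_lit 5) (nat_lit 126) (nat_lit 5) (nat_lit 127) (nat_lit 5) (nat_lit 356) (nat_lit 320) (nat_lit 269)) (XT.nd (nat_lit 94) (nat_lit 588) (nat_lit 0) (XT.lf (nat_lit 0) (nat_lit 8107439652) (nat_lit 588) (nat_lit 937487399) (nat_lit 84) (nat_lit 528124449) (nat_lit 120) (nat_lit 5) (nat_lit 127) (nat_lit 5) (nat_lit 121) (nat_lit 5) (nat_lit 357) (nat_lit 320) (nat_lit 268)) (XT.lf (nat_lit 0) (nat_lit 589359673) (nat_lit 588) (nat_lit 5535875465) (nat_lit 84) (nat_lit 3599691483) (nat_lit 113) (nat_lit 5) (nat_lit 120) (nat_lit 5) (nat_lit 114) (nat_lit 5) (nat_lit 358) (nat_lit 320) (nat_lit 267)))) (XT.nd (nat_lit 94) (nat_lit 420) (nat_lit 0) (XT.lf (nat_lit 0) (nat_lit 2647461436) (nat_lit 588) (nat_lit 451524066) (nat_lit 84) (nat_lit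 6782873244) (nat_lit 113) (nat_lit 5) (nat_lit 120) (nat_lit 5) (nat_lit 114) (nat_lit 5) (nat_lit 359) (nat_lit 320) (nat_lit 266)) (XT.nd (nat_lit 55648) (nat_lit 0) (nat_lit 13692) (XT.lf (nat_lit 0) (nat_lit 4776880750) (nat_lit 504) (nat_lit 5207287938) (nat_lit 84) (nat_lit 59105275) (nat_lit 108) (nat_lit 5) (nat_lit 114) (nat_lit 5) (nat_lit 109) (nat_lit 5) (nat_lit 360) (nat_lit 320) (nat_lit 265)) (XT.lf (nat_lit 0) (nat_lit 1117060688) (nat_lit 0) (nat_lit 1117060688) (nat_lit 420) (nat_lit 1066713788) (nat_lit 271) (nat_lit 5) (nat_lit 271) (nat_lit 3) (nat_lit 276) (nat_lit 3) (nat_lit 321) (nat_lit 321) (nat_lit 303))))) (XT.nd (nat_lit 282) (nat_lit 504) (nat_lit 0) (XT.nd (nat_lit 94) (nat_lit 0) (nat_lit 0) (XT.lf (nat_lit 0) (nat_lit 54561708) (nat_lit 588) (nat_lit 1407703805) (nat_lit 588) (nat_lit 5167679528) (nat_lit 264) (nat_lit 3) (nat_lit 271) (nat_lit 3) (nat_lit 271) (nat_lit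 5) (nat_lit 322) (nat_lit 321) (nat_lit 302)) (XT.nd (nat_lit 94) (nat_lit 0) (nat_lit 84) (XT.lf (nat_lit 84) (nat_lit 1607289417) (nat_lit 0) (nat_lit 588480800) (nat_lit 588) (nat_lit 4464986137) (nat_lit 265) (nat_lit 5) (nat_lit 264) (nat_lit 3) (nat_lit 271) (nat_lit 5) (nat_lit 323) (nat_lit 321) (nat_lit 301)) (XT.lf (nat_lit 0) (nat_lit 4336011526) (nat_lit 504) (nat_lit 2000166192) (nat_lit 588) (nat_lit 358499354) (nat_lit 265) (nat_lit 5) (nat_lit 271) (nat_lit 5) (nat_lit 272) (nat_lit 5) (nat_lit 324) (nat_lit 321) (nat_lit 300)))) (XT.nd (nat_lit 188) (nat_lit 0) (nat_lit 0) (XT.nd (nat_lit 94) (nat_lit 588) (nat_lit 0) (XT.lf (nat_lit 84) (nat_lit 1115475548) (nat_lit 0) (nat_lit 5361384436) (nat_lit 588) (nat_lit 254885723) (nat_lit 266) (nat_lit 5) (nat_lit 265) (nat_lit 5) (nat_lit 272) (nat_lit 5) (nat_lit 325) (nat_lit 321) (nat_lit 299)) (XT.lf (nat_lit 0) (nat_lit 1815863729)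 (nat_lit 588) (nat_lit 2468853546) (nat_lit 672) (nat_lit 2486632287) (nat_lit 258) (nat_lit 5) (nat_lit 265) (nat_lit 5) (nat_lit 266) (nat_lit 5) (nat_lit 326) (nat_lit 321) (nat_lit 298))) (XT.nd (nat_lit 94) (nat_lit 0) (nat_lit 0) (XT.lf (nat_lit 84) (nat_lit 739710238) (nat_lit 0) (nat_lit 3134089386) (nat_lit 672) (nat_lit 2940564024) (nat_lit 259) (nat_lit 5) (nat_lit 258) (nat_lit 5) (nat_lit 266) (nat_lit 5) (nat_lit 327) (nat_lit 321) (nat_lit 297)) (XT.lf (nat_lit 84) (nat_lit 4050396898) (nat_lit 0) (nat_lit 1892894036) (nat_lit 672) (nat_lit 917080206) (nat_lit 259) (nat_lit 5) (nat_lit 258) (nat_lit 5) (nat_lit 266) (nat_lit 5) (nat_lit 328) (nat_lit 321) (nat_lit 296))))))))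
noncomputable def xc15 : XT := (XT.nd (nat_lit 2444) (nat_lit 1512) (nat_lit 0) (XT.nd (nat_lit 1222) (nat_lit 6132) (nat_lit 0) (XT.nd (nat_lit 564) (nat_lit 3612) (nat_lit 0) (XT.nd (nat_lit 282) (nat_lit 672) (nat_lit 0) (XT.nd (nat_lit 94) (nat_lit 0) (nat_lit 84) (XT.lf (nat_lit 84) (nat_lit 506208740) (nat_lit 0) (nat_lit 569155367) (nat_lit 756) (nat_lit 5834313435) (nat_lit 251) (nat_lit 5) (nat_lit 250) (nat_lit 5) (nat_lit 259) (nat_lit 5) (nat_lit 329) (nat_lit 321) (nat_lit 295)) (XT.nd (nat_lit 94) (nat_lit 0) (nat_lit 0) (XT.lf (nat_lit 0) (nat_lit 3073590535) (nat_lit 672) (nat_lit 3044390733) (nat_lit 756) (nat_lit 843456978) (nat_lit 251) (nat_lit 5) (nat_lit 259) (nat_lit 5) (nat_lit 260) (nat_lit 5) (nat_lit 330) (nat_lit 321) (nat_lit 294)) (XT.lf (nat_lit 84) (nat_lit 371182549) (nat_lit 0) (nat_lit 4700026925) (nat_lit 756) (nat_lit 1945534405) (nat_lit 252) (nat_lit 5) (nat_lit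 251) (nat_lit 5) (nat_lit 260) (nat_lit 5) (nat_lit 331) (nat_lit 321) (nat_lit 293)))) (XT.nd (nat_lit 94) (nat_lit 0) (nat_lit 0) (XT.lf (nat_lit 0) (nat_lit 16016452) (nat_lit 756) (nat_lit 3168963804) (nat_lit 840) (nat_lit 3890016689) (nat_lit 242) (nat_lit 5) (nat_lit 251) (nat_lit 5) (nat_lit 252) (nat_lit 5) (nat_lit 332) (nat_lit 321) (nat_lit 292)) (XT.nd (nat_lit 94) (nat_lit 0) (nat_lit 84) (XT.lf (nat_lit 84) (nat_lit 353970429) (nat_lit 0) (nat_lit 1579748094) (nat_lit 840) (nat_lit 5202769548) (nat_lit 243) (nat_lit 5) (nat_lit 242) (nat_lit 5) (nat_lit 252) (nat_lit 5) (nat_lit 333) (nat_lit 321) (nat_lit 291)) (XT.lf (nat_lit 0) (nat_lit 3876694641) (nat_lit 756) (nat_lit 3199809471) (nat_lit 84) (nat_lit 124443441) (nat_lit 243) (nat_lit 5) (nat_lit 252) (nat_lit 5) (nat_lit 244) (nat_lit 5) (nat_lit 334) (nat_lit 321) (nat_lit 290))))) (XT.nd (nat_lit 282) (nat_lit 2016) (nat_lit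 0) (XT.nd (nat_lit 94) (nat_lit 924) (nat_lit 0) (XT.lf (nat_lit 0) (nat_lit 437178368) (nat_lit 756) (nat_lit 5397244535) (nat_lit 840) (nat_lit 1434375403) (nat_lit 234) (nat_lit 5) (nat_lit 243) (nat_lit 5) (nat_lit 244) (nat_lit 5) (nat_lit 335) (nat_lit 321) (nat_lit 289)) (XT.nd (nat_lit 94) (nat_lit 840) (nat_lit 0) (XT.lf (nat_lit 0) (nat_lit 472104310) (nat_lit 840) (nat_lit 3141120616) (nat_lit 84) (nat_lit 3726357607) (nat_lit 233) (nat_lit 5) (nat_lit 243) (nat_lit 5) (nat_lit 234) (nat_lit 5) (nat_lit 336) (nat_lit 321) (nat_lit 288)) (XT.lf (nat_lit 0) (nat_lit 612176844) (nat_lit 840) (nat_lit 1739752777) (nat_lit 924) (nat_lit 5061923720) (nat_lit 223) (nat_lit 5) (nat_lit 233) (nat_lit 5) (nat_lit 234) (nat_lit 5) (nat_lit 337) (nat_lit 321) (nat_lit 287)))) (XT.nd (nat_lit 188) (nat_lit 1092) (nat_lit 0) (XT.nd (nat_lit 94) (nat_lit 924) (nat_lit 0) (XT.lf (nat_lit 0) (nat_lit 4262581911)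 (nat_lit 924) (nat_lit 2996349897) (nat_lit 84) (nat_lit 232321989) (nat_lit 223) (nat_lit 5) (nat_lit 234) (nat_lit 5) (nat_lit 224) (nat_lit 5) (nat_lit 338) (nat_lit 321) (nat_lit 286)) (XT.lf (nat_lit 0) (nat_lit 877131484) (nat_lit 924) (nat_lit 5321383306) (nat_lit 1008) (nat_lit 1373553220) (nat_lit 212) (nat_lit 5) (nat_lit 223) (nat_lit 5) (nat_lit 224) (nat_lit 5) (nat_lit 339) (nat_lit 321) (nat_lit 285))) (XT.nd (nat_lit 94) (nat_lit 1008) (nat_lit 0) (XT.lf (nat_lit 0) (nat_lit 500157363) (nat_lit 1008) (nat_lit 2778329006) (nat_lit 84) (nat_lit 4377585794) (nat_lit 211) (nat_lit 5) (nat_lit 223) (nat_lit 5) (nat_lit 212) (nat_lit 5) (nat_lit 340) (nat_lit 321) (nat_lit 284)) (XT.lf (nat_lit 0) (nat_lit 1220650902) (nat_lit 1008) (nat_lit 1138083682) (nat_lit 1092) (nat_lit 5384885493) (nat_lit 199) (nat_lit 5) (nat_lit 211) (nat_lit 5) (nat_lit 212) (nat_lit 5) (nat_lit 341) (nat_lit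 321) (nat_lit 283)))))) (XT.nd (nat_lit 564) (nat_lit 2520) (nat_lit 0) (XT.nd (nat_lit 282) (nat_lit 2436) (nat_lit 0) (XT.nd (nat_lit 94) (nat_lit 1176) (nat_lit 0) (XT.lf (nat_lit 0) (nat_lit 4257457741) (nat_lit 1092) (nat_lit 2493665343) (nat_lit 84) (nat_lit 1083255699) (nat_lit 199) (nat_lit 5) (nat_lit 212) (nat_lit 5) (nat_lit 200) (nat_lit 5) (nat_lit 342) (nat_lit 321) (nat_lit 282)) (XT.nd (nat_lit 94) (nat_lit 84) (nat_lit 0) (XT.lf (nat_lit 0) (nat_lit 1631715447) (nat_lit 1092) (nat_lit 4555761915) (nat_lit 1176) (nat_lit 1741265481) (nat_lit 186) (nat_lit 5) (nat_lit 199) (nat_lit 5) (nat_lit 200) (nat_lit 5) (nat_lit 343) (nat_lit 321) (nat_lit 281)) (XT.lf (nat_lit 0) (nat_lit 119838652) (nat_lit 1176) (nat_lit 2140966605) (nat_lit 84) (nat_lit 5765996772) (nat_lit 185) (nat_lit 5) (nat_lit 199) (nat_lit 5) (nat_lit 186) (nat_lit 5) (nat_lit 344) (nat_lit 321) (nat_lit 280)))) (XT.nd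 (nat_lit 94) (nat_lit 1260) (nat_lit 0) (XT.lf (nat_lit 0) (nat_lit 1972951331) (nat_lit 1260) (nat_lit 6010558766) (nat_lit 84) (nat_lit 144743569) (nat_lit 171) (nat_lit 5) (nat_lit 186) (nat_lit 5) (nat_lit 172) (nat_lit 5) (nat_lit 345) (nat_lit 321) (nat_lit 279)) (XT.nd (nat_lit 94) (nat_lit 1260) (nat_lit 0) (XT.lf (nat_lit 0) (nat_lit 3876357874) (nat_lit 1260) (nat_lit 1752625447) (nat_lit 84) (nat_lit 2604024590) (nat_lit 171) (nat_lit 5) (nat_lit 186) (nat_lit 5) (nat_lit 172) (nat_lit 5) (nat_lit 346) (nat_lit 321) (nat_lit 278)) (XT.lf (nat_lit 0) (nat_lit 2639968064) (nat_lit 1260) (nat_lit 3174200443) (nat_lit 1344) (nat_lit 2527514380) (nat_lit 156) (nat_lit 5) (nat_lit 171) (nat_lit 5) (nat_lit 172) (nat_lit 5) (nat_lit 347) (nat_lit 321) (nat_lit 277))))) (XT.nd (nat_lit 282) (nat_lit 1848) (nat_lit 0) (XT.nd (nat_lit 94) (nat_lit 672) (nat_lit 0) (XT.lf (nat_lit 0) (nat_lit 7156110582)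 (nat_lit 1260) (nat_lit 624601656) (nat_lit 1344) (nat_lit 673882240) (nat_lit 156) (nat_lit 5) (nat_lit 171) (nat_lit 5) (nat_lit 172) (nat_lit 5) (nat_lit 348) (nat_lit 321) (nat_lit 276)) (XT.nd (nat_lit 94) (nat_lit 0) (nat_lit 0) (XT.lf (nat_lit 0) (nat_lit 1215858528) (nat_lit 672) (nat_lit 5346368145) (nat_lit 84) (nat_lit 2008261228) (nat_lit 148) (nat_lit 5) (nat_lit 156) (nat_lit 5) (nat_lit 149) (nat_lit 5) (nat_lit 349) (nat_lit 321) (nat_lit 275)) (XT.lf (nat_lit 0) (nat_lit 3122851456) (nat_lit 672) (nat_lit 838345791) (nat_lit 84) (nat_lit 4729323914) (nat_lit 148) (nat_lit 5) (nat_lit 156) (nat_lit 5) (nat_lit 149) (nat_lit 5) (nat_lit 350) (nat_lit 321) (nat_lit 274)))) (XT.nd (nat_lit 188) (nat_lit 1260) (nat_lit 0) (XT.nd (nat_lit 94) (nat_lit 0) (nat_lit 0) (XT.lf (nat_lit 0) (nat_lit 3836168785) (nat_lit 588) (nat_lit 1243759203) (nat_lit 672) (nat_lit 3734525027) (nat_lit 141)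 (nat_lit 5) (nat_lit 148) (nat_lit 5) (nat_lit 149) (nat_lit 5) (nat_lit 351) (nat_lit 321) (nat_lit 273)) (XT.lf (nat_lit 0) (nat_lit 7076080185) (nat_lit 672) (nat_lit 333331580) (nat_lit 84) (nat_lit 1533361526) (nat_lit 141) (nat_lit 5) (nat_lit 149) (nat_lit 5) (nat_lit 142) (nat_lit 5) (nat_lit 352) (nat_lit 321) (nat_lit 272))) (XT.nd (nat_lit 94) (nat_lit 588) (nat_lit 0) (XT.lf (nat_lit 0) (nat_lit 69641905) (nat_lit 672) (nat_lit 4592422601) (nat_lit 84) (nat_lit 4412531368) (nat_lit 133) (nat_lit 5) (nat_lit 141) (nat_lit 5) (nat_lit 134) (nat_lit 5) (nat_lit 353) (nat_lit 321) (nat_lit 271)) (XT.lf (nat_lit 0) (nat_lit 179967338) (nat_lit 588) (nat_lit 1810157164) (nat_lit 672) (nat_lit 7220861347) (nat_lit 126) (nat_lit 5) (nat_lit 133) (nat_lit 5) (nat_lit 134) (nat_lit 5) (nat_lit 354) (nat_lit 321) (nat_lit 270))))))) (XT.nd (nat_lit 56870) (nat_lit 0) (nat_lit 7644) (XT.nd (nat_lit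 56212) (nat_lit 0) (nat_lit 11928) (XT.nd (nat_lit 282) (nat_lit 1008) (nat_lit 0) (XT.nd (nat_lit 94) (nat_lit 504) (nat_lit 0) (XT.lf (nat_lit 0) (nat_lit 3985108051) (nat_lit 672) (nat_lit 4216277640) (nat_lit 84) (nat_lit 1149647533) (nat_lit 126) (nat_lit 5) (nat_lit 134) (nat_lit 5) (nat_lit 127) (nat_lit 5) (nat_lit 355) (nat_lit 321) (nat_lit 269)) (XT.nd (nat_lit 94) (nat_lit 0) (nat_lit 0) (XT.lf (nat_lit 0) (nat_lit 695273734) (nat_lit 504) (nat_lit 5329677473) (nat_lit 588) (nat_lit 3470850701) (nat_lit 120) (nat_lit 5) (nat_lit 126) (nat_lit 5) (nat_lit 127) (nat_lit 5) (nat_lit 356) (nat_lit 321) (nat_lit 268)) (XT.lf (nat_lit 0) (nat_lit 5797748821) (nat_lit 504) (nat_lit 2331962679) (nat_lit 588) (nat_lit 1515158642) (nat_lit 120) (nat_lit 5) (nat_lit 126) (nat_lit 5) (nat_lit 127) (nat_lit 5) (nat_lit 357) (nat_lit 321) (nat_lit 267)))) (XT.nd (nat_lit 94) (nat_lit 420) (nat_lit 0)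 (XT.lf (nat_lit 0) (nat_lit 470529556) (nat_lit 588) (nat_lit 8574812214) (nat_lit 84) (nat_lit 753556929) (nat_lit 113) (nat_lit 5) (nat_lit 120) (nat_lit 5) (nat_lit 114) (nat_lit 5) (nat_lit 358) (nat_lit 321) (nat_lit 266)) (XT.nd (nat_lit 94) (nat_lit 420) (nat_lit 0) (XT.lf (nat_lit 0) (nat_lit 2510159812) (nat_lit 588) (nat_lit 3511719019) (nat_lit 84) (nat_lit 3934536859) (nat_lit 113) (nat_lit 5) (nat_lit 120) (nat_lit 5) (nat_lit 114) (nat_lit 5) (nat_lit 359) (nat_lit 321) (nat_lit 265)) (XT.lf (nat_lit 0) (nat_lit 1694434251) (nat_lit 420) (nat_lit 2896427654) (nat_lit 504) (nat_lit 5528460343) (nat_lit 108) (nat_lit 5) (nat_lit 113) (nat_lit 5) (nat_lit 114) (nat_lit 5) (nat_lit 360) (nat_lit 321) (nat_lit 264))))) (XT.nd (nat_lit 282) (nat_lit 1176) (nat_lit 0) (XT.nd (nat_lit 94) (nat_lit 0) (nat_lit 0) (XT.lf (nat_lit 0) (nat_lit 1079526344) (nat_lit 588) (nat_lit 1124981006) (nat_lit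 588) (nat_lit 1124981006) (nat_lit 264) (nat_lit 3) (nat_lit 271) (nat_lit 3) (nat_lit 271) (nat_lit 5) (nat_lit 322) (nat_lit 322) (nat_lit 301)) (XT.nd (nat_lit 94) (nat_lit 0) (nat_lit 0) (XT.lf (nat_lit 84) (nat_lit 726860755) (nat_lit 0) (nat_lit 3524289213) (nat_lit 588) (nat_lit 2440224184) (nat_lit 265) (nat_lit 5) (nat_lit 264) (nat_lit 3) (nat_lit 271) (nat_lit 5) (nat_lit 323) (nat_lit 322) (nat_lit 300)) (XT.lf (nat_lit 84) (nat_lit 3796918025) (nat_lit 0) (nat_lit 2551294675) (nat_lit 588) (nat_lit 378487033) (nat_lit 265) (nat_lit 5) (nat_lit 264) (nat_lit 3) (nat_lit 271) (nat_lit 5) (nat_lit 324) (nat_lit 322) (nat_lit 299)))) (XT.nd (nat_lit 188) (nat_lit 588) (nat_lit 0) (XT.nd (nat_lit 94) (nat_lit 0) (nat_lit 0) (XT.lf (nat_lit 84) (nat_lit 139184703) (nat_lit 0) (nat_lit 1494044136) (nat_lit 672) (nat_lit 5131897128) (nat_lit 258) (nat_lit 5) (nat_lit 257) (nat_lit 5) (nat_lit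 265) (nat_lit 5) (nat_lit 325) (nat_lit 322) (nat_lit 298)) (XT.lf (nat_lit 84) (nat_lit 3314126651) (nat_lit 0) (nat_lit 335851226) (nat_lit 672) (nat_lit 3156249454) (nat_lit 258) (nat_lit 5) (nat_lit 257) (nat_lit 5) (nat_lit 265) (nat_lit 5) (nat_lit 326) (nat_lit 322) (nat_lit 297))) (XT.nd (nat_lit 94) (nat_lit 672) (nat_lit 0) (XT.lf (nat_lit 0) (nat_lit 5660785092) (nat_lit 588) (nat_lit 316353745) (nat_lit 672) (nat_lit 873613733) (nat_lit 258) (nat_lit 5) (nat_lit 265) (nat_lit 5) (nat_lit 266) (nat_lit 5) (nat_lit 327) (nat_lit 322) (nat_lit 296)) (XT.lf (nat_lit 0) (nat_lit 777747039) (nat_lit 672) (nat_lit 3939012376) (nat_lit 756) (nat_lit 2181037121) (nat_lit 250) (nat_lit 5) (nat_lit 258) (nat_lit 5) (nat_lit 259) (nat_lit 5) (nat_lit 328) (nat_lit 322) (nat_lit 295)))))) (XT.nd (nat_lit 658) (nat_lit 3612) (nat_lit 0) (XT.nd (nat_lit 282) (nat_lit 672) (nat_lit 0) (XT.nd (nat_lit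 94) (nat_lit 0) (nat_lit 0) (XT.lf (nat_lit 0) (nat_lit 2712117032) (nat_lit 672) (nat_lit 663090418) (nat_lit 756) (nat_lit 3572925421) (nat_lit 250) (nat_lit 5) (nat_lit 258) (nat_lit 5) (nat_lit 259) (nat_lit 5) (nat_lit 329) (nat_lit 322) (nat_lit 294)) (XT.nd (nat_lit 94) (nat_lit 0) (nat_lit 0) (XT.lf (nat_lit 84) (nat_lit 2721712729) (nat_lit 0) (nat_lit 1939371103) (nat_lit 756) (nat_lit 2340373976) (nat_lit 251) (nat_lit 5) (nat_lit 250) (nat_lit 5) (nat_lit 259) (nat_lit 5) (nat_lit 330) (nat_lit 322) (nat_lit 293)) (XT.lf (nat_lit 84) (nat_lit 6179562520) (nat_lit 0) (nat_lit 427678470) (nat_lit 756) (nat_lit 451150231) (nat_lit 251) (nat_lit 5) (nat_lit 250) (nat_lit 5) (nat_lit 259) (nat_lit 5) (nat_lit 331) (nat_lit 322) (nat_lit 292)))) (XT.nd (nat_lit 188) (nat_lit 0) (nat_lit 0) (XT.nd (nat_lit 94) (nat_lit 0) (nat_lit 0) (XT.lf (nat_lit 0) (nat_lit 1435425172) (nat_lit 756) (nat_lit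 4511005693) (nat_lit 840) (nat_lit 1171236021) (nat_lit 242) (nat_lit 5) (nat_lit 251) (nat_lit 5) (nat_lit 252) (nat_lit 5) (nat_lit 332) (nat_lit 322) (nat_lit 291)) (XT.lf (nat_lit 0) (nat_lit 3317683640) (nat_lit 756) (nat_lit 1016790232) (nat_lit 840) (nat_lit 2845824252) (nat_lit 242) (nat_lit 5) (nat_lit 251) (nat_lit 5) (nat_lit 252) (nat_lit 5) (nat_lit 333) (nat_lit 322) (nat_lit 290))) (XT.nd (nat_lit 94) (nat_lit 0) (nat_lit 0) (XT.lf (nat_lit 84) (nat_lit 2589800239) (nat_lit 0) (nat_lit 2628355552) (nat_lit 840) (nat_lit 2027951501) (nat_lit 243) (nat_lit 5) (nat_lit 242) (nat_lit 5) (nat_lit 252) (nat_lit 5) (nat_lit 334) (nat_lit 322) (nat_lit 289)) (XT.lf (nat_lit 84) (nat_lit 6282865294) (nat_lit 0) (nat_lit 841325699) (nat_lit 840) (nat_lit 191390238) (nat_lit 243) (nat_lit 5) (nat_lit 242) (nat_lit 5) (nat_lit 252) (nat_lit 5) (nat_lit 335) (nat_lit 322) (nat_lit 288))))) (XT.nd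 (nat_lit 282) (nat_lit 2016) (nat_lit 0) (XT.nd (nat_lit 94) (nat_lit 840) (nat_lit 0) (XT.lf (nat_lit 0) (nat_lit 1642520195) (nat_lit 840) (nat_lit 4704908457) (nat_lit 84) (nat_lit 1040096023) (nat_lit 233) (nat_lit 5) (nat_lit 243) (nat_lit 5) (nat_lit 234) (nat_lit 5) (nat_lit 336) (nat_lit 322) (nat_lit 287)) (XT.nd (nat_lit 94) (nat_lit 840) (nat_lit 0) (XT.lf (nat_lit 0) (nat_lit 3487332814) (nat_lit 840) (nat_lit 985394678) (nat_lit 84) (nat_lit 2990184622) (nat_lit 233) (nat_lit 5) (nat_lit 243) (nat_lit 5) (nat_lit 234) (nat_lit 5) (nat_lit 337) (nat_lit 322) (nat_lit 286)) (XT.lf (nat_lit 0) (nat_lit 2858443278) (nat_lit 840) (nat_lit 2499115882) (nat_lit 924) (nat_lit 2184030510) (nat_lit 223) (nat_lit 5) (nat_lit 233) (nat_lit 5) (nat_lit 234) (nat_lit 5) (nat_lit 338) (nat_lit 322) (nat_lit 285)))) (XT.nd (nat_lit 188) (nat_lit 1008) (nat_lit 0) (XT.nd (nat_lit 94) (nat_lit 1008) (nat_lit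 0) (XT.lf (nat_lit 0) (nat_lit 6795178199) (nat_lit 840) (nat_lit 442519300) (nat_lit 924) (nat_lit 386442670) (nat_lit 223) (nat_lit 5) (nat_lit 233) (nat_lit 5) (nat_lit 234) (nat_lit 5) (nat_lit 339) (nat_lit 322) (nat_lit 284)) (XT.lf (nat_lit 0) (nat_lit 1428218775) (nat_lit 1008) (nat_lit 4580728611) (nat_lit 84) (nat_lit 1700164750) (nat_lit 211) (nat_lit 5) (nat_lit 223) (nat_lit 5) (nat_lit 212) (nat_lit 5) (nat_lit 340) (nat_lit 322) (nat_lit 283))) (XT.nd (nat_lit 94) (nat_lit 1008) (nat_lit 0) (XT.lf (nat_lit 0) (nat_lit 3248532504) (nat_lit 1008) (nat_lit 627255115) (nat_lit 84) (nat_lit 3922077486) (nat_lit 211) (nat_lit 5) (nat_lit 223) (nat_lit 5) (nat_lit 212) (nat_lit 5) (nat_lit 341) (nat_lit 322) (nat_lit 282)) (XT.lf (nat_lit 0) (nat_lit 3469788076) (nat_lit 1008) (nat_lit 1634734309) (nat_lit 1092) (nat_lit 2785438910) (nat_lit 199) (nat_lit 5) (nat_lit 211) (nat_lit 5) (nat_lit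 212) (nat_lit 5) (nat_lit 342) (nat_lit 322) (nat_lit 281))))))))
noncomputable def xc16 : XT := (XT.nd (nat_lit 58186) (nat_lit 0) (nat_lit 1092) (XT.nd (nat_lit 1222) (nat_lit 1092) (nat_lit 0) (XT.nd (nat_lit 564) (nat_lit 2520) (nat_lit 0) (XT.nd (nat_lit 282) (nat_lit 2436) (nat_lit 0) (XT.nd (nat_lit 94) (nat_lit 1176) (nat_lit 0) (XT.lf (nat_lit 0) (nat_lit 6977977446) (nat_lit 1092) (nat_lit 332620019) (nat_lit 84) (nat_lit 675478694) (nat_lit 199) (nat_lit 5) (nat_lit 212) (nat_lit 5) (nat_lit 200) (nat_lit 5) (nat_lit 343) (nat_lit 322) (nat_lit 280)) (XT.nd (nat_lit 94) (nat_lit 0) (nat_lit 0) (XT.lf (nat_lit 0) (nat_lit 810471167) (nat_lit 1176) (nat_lit 4198403643) (nat_lit 84) (nat_lit 3075946709) (nat_lit 185) (nat_lit 5) (nat_lit 199) (nat_lit 5) (nat_lit 186) (nat_lit 5) (nat_lit 344) (nat_lit 322) (nat_lit 279)) (XT.lf (nat_lit 0) (nat_lit 2617586142) (nat_lit 1176) (nat_lit 1026357)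 (nat_lit 84) (nat_lit 5569089884) (nat_lit 185) (nat_lit 5) (nat_lit 199) (nat_lit 5) (nat_lit 186) (nat_lit 5) (nat_lit 345) (nat_lit 322) (nat_lit 278)))) (XT.nd (nat_lit 94) (nat_lit 1260) (nat_lit 0) (XT.lf (nat_lit 0) (nat_lit 4365290965) (nat_lit 1176) (nat_lit 107874495) (nat_lit 1260) (nat_lit 3820773847) (nat_lit 171) (nat_lit 5) (nat_lit 185) (nat_lit 5) (nat_lit 186) (nat_lit 5) (nat_lit 346) (nat_lit 322) (nat_lit 277)) (XT.nd (nat_lit 94) (nat_lit 0) (nat_lit 0) (XT.lf (nat_lit 0) (nat_lit 399943963) (nat_lit 1260) (nat_lit 5965470158) (nat_lit 1344) (nat_lit 2038613490) (nat_lit 156) (nat_lit 5) (nat_lit 171) (nat_lit 5) (nat_lit 172) (nat_lit 5) (nat_lit 347) (nat_lit 322) (nat_lit 276)) (XT.lf (nat_lit 0) (nat_lit 4894968347) (nat_lit 1260) (nat_lit 3414463653) (nat_lit 1344) (nat_lit 208228091) (nat_lit 156) (nat_lit 5) (nat_lit 171) (nat_lit 5) (nat_lit 172) (nat_lit 5) (nat_lit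 348) (nat_lit 322) (nat_lit 275))))) (XT.nd (nat_lit 282) (nat_lit 1260) (nat_lit 0) (XT.nd (nat_lit 94) (nat_lit 588) (nat_lit 0) (XT.lf (nat_lit 0) (nat_lit 847966237) (nat_lit 588) (nat_lit 759605799) (nat_lit 672) (nat_lit 7027835341) (nat_lit 148) (nat_lit 5) (nat_lit 155) (nat_lit 5) (nat_lit 156) (nat_lit 5) (nat_lit 349) (nat_lit 322) (nat_lit 274)) (XT.nd (nat_lit 94) (nat_lit 588) (nat_lit 0) (XT.lf (nat_lit 0) (nat_lit 3485587412) (nat_lit 672) (nat_lit 3293597738) (nat_lit 84) (nat_lit 1977166098) (nat_lit 148) (nat_lit 5) (nat_lit 156) (nat_lit 5) (nat_lit 149) (nat_lit 5) (nat_lit 350) (nat_lit 322) (nat_lit 273)) (XT.lf (nat_lit 0) (nat_lit 1310782357) (nat_lit 588) (nat_lit 4086561604) (nat_lit 672) (nat_lit 3484338823) (nat_lit 141) (nat_lit 5) (nat_lit 148) (nat_lit 5) (nat_lit 149) (nat_lit 5) (nat_lit 351) (nat_lit 322) (nat_lit 272)))) (XT.nd (nat_lit 188) (nat_lit 588) (nat_lit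 0) (XT.nd (nat_lit 94) (nat_lit 672) (nat_lit 0) (XT.lf (nat_lit 0) (nat_lit 6078888596) (nat_lit 588) (nat_lit 1278944621) (nat_lit 672) (nat_lit 1653278649) (nat_lit 141) (nat_lit 5) (nat_lit 148) (nat_lit 5) (nat_lit 149) (nat_lit 5) (nat_lit 352) (nat_lit 322) (nat_lit 271)) (XT.lf (nat_lit 0) (nat_lit 220396791) (nat_lit 672) (nat_lit 7323188899) (nat_lit 84) (nat_lit 1601078749) (nat_lit 133) (nat_lit 5) (nat_lit 141) (nat_lit 5) (nat_lit 134) (nat_lit 5) (nat_lit 353) (nat_lit 322) (nat_lit 270))) (XT.nd (nat_lit 94) (nat_lit 588) (nat_lit 0) (XT.lf (nat_lit 0) (nat_lit 2119276144) (nat_lit 672) (nat_lit 2575226702) (nat_lit 84) (nat_lit 4587235279) (nat_lit 133) (nat_lit 5) (nat_lit 141) (nat_lit 5) (nat_lit 134) (nat_lit 5) (nat_lit 354) (nat_lit 322) (nat_lit 269)) (XT.lf (nat_lit 0) (nat_lit 2319207793) (nat_lit 588) (nat_lit 1739039983) (nat_lit 672) (nat_lit 5365252658) (nat_lit 126)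 (nat_lit 5) (nat_lit 133) (nat_lit 5) (nat_lit 134) (nat_lit 5) (nat_lit 355) (nat_lit 322) (nat_lit 268)))))) (XT.nd (nat_lit 56306) (nat_lit 0) (nat_lit 11424) (XT.nd (nat_lit 282) (nat_lit 504) (nat_lit 0) (XT.nd (nat_lit 94) (nat_lit 588) (nat_lit 0) (XT.lf (nat_lit 0) (nat_lit 6055753691) (nat_lit 672) (nat_lit 2210289471) (nat_lit 84) (nat_lit 1303529641) (nat_lit 126) (nat_lit 5) (nat_lit 134) (nat_lit 5) (nat_lit 127) (nat_lit 5) (nat_lit 356) (nat_lit 322) (nat_lit 267)) (XT.nd (nat_lit 94) (nat_lit 84) (nat_lit 0) (XT.lf (nat_lit 0) (nat_lit 2827701812) (nat_lit 504) (nat_lit 5292560098) (nat_lit 588) (nat_lit 1599619283) (nat_lit 120) (nat_lit 5) (nat_lit 126) (nat_lit 5) (nat_lit 127) (nat_lit 5) (nat_lit 357) (nat_lit 322) (nat_lit 266)) (XT.lf (nat_lit 0) (nat_lit 350238437) (nat_lit 588) (nat_lit 1856876789) (nat_lit 84) (nat_lit 7667973958) (nat_lit 119) (nat_lit 5) (nat_lit 126) (nat_lit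 5) (nat_lit 120) (nat_lit 5) (nat_lit 358) (nat_lit 322) (nat_lit 265)))) (XT.nd (nat_lit 94) (nat_lit 0) (nat_lit 0) (XT.lf (nat_lit 0) (nat_lit 2332334131) (nat_lit 588) (nat_lit 6705617056) (nat_lit 84) (nat_lit 996410852) (nat_lit 113) (nat_lit 5) (nat_lit 120) (nat_lit 5) (nat_lit 114) (nat_lit 5) (nat_lit 359) (nat_lit 322) (nat_lit 264)) (XT.nd (nat_lit 55836) (nat_lit 0) (nat_lit 12684) (XT.lf (nat_lit 0) (nat_lit 4379337119) (nat_lit 588) (nat_lit 1552566196) (nat_lit 84) (nat_lit 4266405212) (nat_lit 113) (nat_lit 5) (nat_lit 120) (nat_lit 5) (nat_lit 114) (nat_lit 5) (nat_lit 360) (nat_lit 322) (nat_lit 263)) (XT.lf (nat_lit 0) (nat_lit 3144904551) (nat_lit 588) (nat_lit 108918784) (nat_lit 588) (nat_lit 108918784) (nat_lit 264) (nat_lit 3) (nat_lit 271) (nat_lit 3) (nat_lit 271) (nat_lit 5) (nat_lit 323) (nat_lit 323) (nat_lit 299))))) (XT.nd (nat_lit 282) (nat_lit 672) (nat_lit 0) (XT.nd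 (nat_lit 94) (nat_lit 0) (nat_lit 0) (XT.lf (nat_lit 0) (nat_lit 1553180745) (nat_lit 588) (nat_lit 3949657385) (nat_lit 672) (nat_lit 1258840515) (nat_lit 257) (nat_lit 5) (nat_lit 264) (nat_lit 3) (nat_lit 265) (nat_lit 5) (nat_lit 324) (nat_lit 323) (nat_lit 298)) (XT.nd (nat_lit 94) (nat_lit 0) (nat_lit 0) (XT.lf (nat_lit 0) (nat_lit 3518314663) (nat_lit 588) (nat_lit 907490113) (nat_lit 672) (nat_lit 2375467058) (nat_lit 257) (nat_lit 5) (nat_lit 264) (nat_lit 3) (nat_lit 265) (nat_lit 5) (nat_lit 325) (nat_lit 323) (nat_lit 297)) (XT.lf (nat_lit 84) (nat_lit 2229146545) (nat_lit 0) (nat_lit 3260069881) (nat_lit 672) (nat_lit 1354629484) (nat_lit 258) (nat_lit 5) (nat_lit 257) (nat_lit 5) (nat_lit 265) (nat_lit 5) (nat_lit 326) (nat_lit 323) (nat_lit 296)))) (XT.nd (nat_lit 188) (nat_lit 0) (nat_lit 84) (XT.nd (nat_lit 94) (nat_lit 0) (nat_lit 0) (XT.lf (nat_lit 0) (nat_lit 554745412) (nat_lit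 672) (nat_lit 1456651763) (nat_lit 756) (nat_lit 4878238440) (nat_lit 249) (nat_lit 5) (nat_lit 257) (nat_lit 5) (nat_lit 258) (nat_lit 5) (nat_lit 327) (nat_lit 323) (nat_lit 295)) (XT.lf (nat_lit 84) (nat_lit 1777059324) (nat_lit 0) (nat_lit 662611830) (nat_lit 756) (nat_lit 4498541349) (nat_lit 250) (nat_lit 5) (nat_lit 249) (nat_lit 5) (nat_lit 258) (nat_lit 5) (nat_lit 328) (nat_lit 323) (nat_lit 294))) (XT.nd (nat_lit 94) (nat_lit 0) (nat_lit 0) (XT.lf (nat_lit 0) (nat_lit 4333387451) (nat_lit 672) (nat_lit 1899801145) (nat_lit 756) (nat_lit 756666298) (nat_lit 250) (nat_lit 5) (nat_lit 258) (nat_lit 5) (nat_lit 259) (nat_lit 5) (nat_lit 329) (nat_lit 323) (nat_lit 293)) (XT.lf (nat_lit 84) (nat_lit 1439654967) (nat_lit 0) (nat_lit 4797089664) (nat_lit 756) (nat_lit 807887414) (nat_lit 251) (nat_lit 5) (nat_lit 250) (nat_lit 5) (nat_lit 259) (nat_lit 5) (nat_lit 330) (nat_lit 323) (nat_lit 292)))))))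 (XT.nd (nat_lit 1222) (nat_lit 6132) (nat_lit 0) (XT.nd (nat_lit 564) (nat_lit 2772) (nat_lit 0) (XT.nd (nat_lit 282) (nat_lit 756) (nat_lit 0) (XT.nd (nat_lit 94) (nat_lit 0) (nat_lit 0) (XT.lf (nat_lit 0) (nat_lit 1027324081) (nat_lit 756) (nat_lit 2235319438) (nat_lit 840) (nat_lit 3839676558) (nat_lit 241) (nat_lit 5) (nat_lit 250) (nat_lit 5) (nat_lit 251) (nat_lit 5) (nat_lit 331) (nat_lit 323) (nat_lit 291)) (XT.nd (nat_lit 94) (nat_lit 0) (nat_lit 84) (XT.lf (nat_lit 84) (nat_lit 1209918056) (nat_lit 0) (nat_lit 1638202221) (nat_lit 840) (nat_lit 4315131436) (nat_lit 242) (nat_lit 5) (nat_lit 241) (nat_lit 5) (nat_lit 251) (nat_lit 5) (nat_lit 332) (nat_lit 323) (nat_lit 290)) (XT.lf (nat_lit 0) (nat_lit 4683523553) (nat_lit 756) (nat_lit 2464547042) (nat_lit 840) (nat_lit 79292579) (nat_lit 242) (nat_lit 5) (nat_lit 251) (nat_lit 5) (nat_lit 252) (nat_lit 5) (nat_lit 333) (nat_lit 323) (nat_lit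 289)))) (XT.nd (nat_lit 94) (nat_lit 840) (nat_lit 0) (XT.lf (nat_lit 84) (nat_lit 1092261592) (nat_lit 0) (nat_lit 5447137116) (nat_lit 840) (nat_lit 755183939) (nat_lit 243) (nat_lit 5) (nat_lit 242) (nat_lit 5) (nat_lit 252) (nat_lit 5) (nat_lit 334) (nat_lit 323) (nat_lit 288)) (XT.nd (nat_lit 94) (nat_lit 0) (nat_lit 0) (XT.lf (nat_lit 0) (nat_lit 1030396818) (nat_lit 840) (nat_lit 2610145590) (nat_lit 924) (nat_lit 3724166941) (nat_lit 232) (nat_lit 5) (nat_lit 242) (nat_lit 5) (nat_lit 243) (nat_lit 5) (nat_lit 335) (nat_lit 323) (nat_lit 287)) (XT.lf (nat_lit 84) (nat_lit 1061604475) (nat_lit 0) (nat_lit 1744079248) (nat_lit 924) (nat_lit 4632626791) (nat_lit 233) (nat_lit 5) (nat_lit 232) (nat_lit 5) (nat_lit 243) (nat_lit 5) (nat_lit 336) (nat_lit 323) (nat_lit 286))))) (XT.nd (nat_lit 282) (nat_lit 1932) (nat_lit 0) (XT.nd (nat_lit 94) (nat_lit 924) (nat_lit 0) (XT.lf (nat_lit 0) (nat_lit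 4605451503) (nat_lit 840) (nat_lit 2661628957) (nat_lit 84) (nat_lit 248033162) (nat_lit 233) (nat_lit 5) (nat_lit 243) (nat_lit 5) (nat_lit 234) (nat_lit 5) (nat_lit 337) (nat_lit 323) (nat_lit 285)) (XT.nd (nat_lit 94) (nat_lit 84) (nat_lit 0) (XT.lf (nat_lit 0) (nat_lit 1127854661) (nat_lit 840) (nat_lit 5303731710) (nat_lit 924) (nat_lit 1163590001) (nat_lit 223) (nat_lit 5) (nat_lit 233) (nat_lit 5) (nat_lit 234) (nat_lit 5) (nat_lit 338) (nat_lit 323) (nat_lit 284)) (XT.lf (nat_lit 0) (nat_lit 594448704) (nat_lit 924) (nat_lit 2640213929) (nat_lit 84) (nat_lit 4443755596) (nat_lit 222) (nat_lit 5) (nat_lit 233) (nat_lit 5) (nat_lit 223) (nat_lit 5) (nat_lit 339) (nat_lit 323) (nat_lit 283)))) (XT.nd (nat_lit 188) (nat_lit 1008) (nat_lit 0) (XT.nd (nat_lit 94) (nat_lit 0) (nat_lit 0) (XT.lf (nat_lit 0) (nat_lit 1273687221) (nat_lit 924) (nat_lit 1066834276) (nat_lit 1008) (nat_lit 5424645840)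 (nat_lit 211) (nat_lit 5) (nat_lit 222) (nat_lit 5) (nat_lit 223) (nat_lit 5) (nat_lit 340) (nat_lit 323) (nat_lit 282)) (XT.lf (nat_lit 0) (nat_lit 4124823027) (nat_lit 1008) (nat_lit 2548807011) (nat_lit 84) (nat_lit 1181426118) (nat_lit 211) (nat_lit 5) (nat_lit 223) (nat_lit 5) (nat_lit 212) (nat_lit 5) (nat_lit 341) (nat_lit 323) (nat_lit 281))) (XT.nd (nat_lit 94) (nat_lit 0) (nat_lit 0) (XT.lf (nat_lit 0) (nat_lit 1489144500) (nat_lit 1008) (nat_lit 4447622322) (nat_lit 1092) (nat_lit 2011760775) (nat_lit 199) (nat_lit 5) (nat_lit 211) (nat_lit 5) (nat_lit 212) (nat_lit 5) (nat_lit 342) (nat_lit 323) (nat_lit 280)) (XT.lf (nat_lit 0) (nat_lit 5659391800) (nat_lit 1008) (nat_lit 2119734596) (nat_lit 1092) (nat_lit 266501230) (nat_lit 199) (nat_lit 5) (nat_lit 211) (nat_lit 5) (nat_lit 212) (nat_lit 5) (nat_lit 343) (nat_lit 323) (nat_lit 279)))))) (XT.nd (nat_lit 564) (nat_lit 2436) (nat_lit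 0) (XT.nd (nat_lit 282) (nat_lit 1344) (nat_lit 0) (XT.nd (nat_lit 94) (nat_lit 1176) (nat_lit 0) (XT.lf (nat_lit 0) (nat_lit 1472680376) (nat_lit 1176) (nat_lit 6360992536) (nat_lit 84) (nat_lit 312483022) (nat_lit 185) (nat_lit 5) (nat_lit 199) (nat_lit 5) (nat_lit 186) (nat_lit 5) (nat_lit 344) (nat_lit 323) (nat_lit 278)) (XT.nd (nat_lit 94) (nat_lit 1176) (nat_lit 0) (XT.lf (nat_lit 0) (nat_lit 3256292419) (nat_lit 1176) (nat_lit 2184385611) (nat_lit 84) (nat_lit 2809111720) (nat_lit 185) (nat_lit 5) (nat_lit 199) (nat_lit 5) (nat_lit 186) (nat_lit 5) (nat_lit 345) (nat_lit 323) (nat_lit 277)) (XT.lf (nat_lit 0) (nat_lit 2117911854) (nat_lit 1176) (nat_lit 2949538320) (nat_lit 1260) (nat_lit 3289955614) (nat_lit 171) (nat_lit 5) (nat_lit 185) (nat_lit 5) (nat_lit 186) (nat_lit 5) (nat_lit 346) (nat_lit 323) (nat_lit 276)))) (XT.nd (nat_lit 94) (nat_lit 1344) (nat_lit 0) (XT.lf (nat_lit 0) (nat_lit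 6553521580) (nat_lit 1176) (nat_lit 356117303) (nat_lit 1260) (nat_lit 1559402120) (nat_lit 171) (nat_lit 5) (nat_lit 185) (nat_lit 5) (nat_lit 186) (nat_lit 5) (nat_lit 347) (nat_lit 323) (nat_lit 275)) (XT.nd (nat_lit 94) (nat_lit 0) (nat_lit 0) (XT.lf (nat_lit 0) (nat_lit 221177425) (nat_lit 1344) (nat_lit 6061836191) (nat_lit 84) (nat_lit 2300959787) (nat_lit 155) (nat_lit 5) (nat_lit 171) (nat_lit 5) (nat_lit 156) (nat_lit 5) (nat_lit 348) (nat_lit 323) (nat_lit 274)) (XT.lf (nat_lit 0) (nat_lit 2003278407) (nat_lit 1344) (nat_lit 1630101440) (nat_lit 84) (nat_lit 5069211155) (nat_lit 155) (nat_lit 5) (nat_lit 171) (nat_lit 5) (nat_lit 156) (nat_lit 5) (nat_lit 349) (nat_lit 323) (nat_lit 273))))) (XT.nd (nat_lit 282) (nat_lit 1260) (nat_lit 0) (XT.nd (nat_lit 94) (nat_lit 588) (nat_lit 0) (XT.lf (nat_lit 0) (nat_lit 2952034132) (nat_lit 588) (nat_lit 872841421) (nat_lit 672) (nat_lit 5000391951)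 (nat_lit 148) (nat_lit 5) (nat_lit 155) (nat_lit 5) (nat_lit 156) (nat_lit 5) (nat_lit 350) (nat_lit 323) (nat_lit 272)) (XT.nd (nat_lit 94) (nat_lit 588) (nat_lit 0) (XT.lf (nat_lit 0) (nat_lit 5695210297) (nat_lit 672) (nat_lit 1306288740) (nat_lit 84) (nat_lit 1950381573) (nat_lit 148) (nat_lit 5) (nat_lit 156) (nat_lit 5) (nat_lit 149) (nat_lit 5) (nat_lit 351) (nat_lit 323) (nat_lit 271)) (XT.lf (nat_lit 0) (nat_lit 3415770632) (nat_lit 588) (nat_lit 4207093056) (nat_lit 672) (nat_lit 1459468863) (nat_lit 141) (nat_lit 5) (nat_lit 148) (nat_lit 5) (nat_lit 149) (nat_lit 5) (nat_lit 352) (nat_lit 323) (nat_lit 270)))) (XT.nd (nat_lit 188) (nat_lit 588) (nat_lit 0) (XT.nd (nat_lit 94) (nat_lit 588) (nat_lit 0) (XT.lf (nat_lit 0) (nat_lit 357389010) (nat_lit 672) (nat_lit 954309781) (nat_lit 84) (nat_lit 7905757124) (nat_lit 140) (nat_lit 5) (nat_lit 148) (nat_lit 5) (nat_lit 141) (nat_lit 5) (nat_lit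 353) (nat_lit 323) (nat_lit 269)) (XT.lf (nat_lit 0) (nat_lit 2214916444) (nat_lit 672) (nat_lit 5450682063) (nat_lit 84) (nat_lit 1690206228) (nat_lit 133) (nat_lit 5) (nat_lit 141) (nat_lit 5) (nat_lit 134) (nat_lit 5) (nat_lit 354) (nat_lit 323) (nat_lit 268))) (XT.nd (nat_lit 94) (nat_lit 588) (nat_lit 0) (XT.lf (nat_lit 0) (nat_lit 4112861952) (nat_lit 672) (nat_lit 621218938) (nat_lit 84) (nat_lit 4764750508) (nat_lit 133) (nat_lit 5) (nat_lit 141) (nat_lit 5) (nat_lit 134) (nat_lit 5) (nat_lit 355) (nat_lit 323) (nat_lit 267)) (XT.lf (nat_lit 0) (nat_lit 4400134234) (nat_lit 588) (nat_lit 1672989016) (nat_lit 672) (nat_lit 3572930448) (nat_lit 126) (nat_lit 5) (nat_lit 133) (nat_lit 5) (nat_lit 134) (nat_lit 5) (nat_lit 356) (nat_lit 323) (nat_lit 266))))))))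
noncomputable def xc17 : XT := (XT.nd (nat_lit 58186) (nat_lit 0) (nat_lit 0) (XT.nd (nat_lit 56964) (nat_lit 0) (nat_lit 7560) (XT.nd (nat_lit 56306) (nat_lit 0) (nat_lit 11088) (XT.nd (nat_lit 282) (nat_lit 420) (nat_lit 0) (XT.nd (nat_lit 94) (nat_lit 1092) (nat_lit 0) (XT.lf (nat_lit 0) (nat_lit 8076518015) (nat_lit 672) (nat_lit 266534532) (nat_lit 84) (nat_lit 1455174584) (nat_lit 126) (nat_lit 5) (nat_lit 134) (nat_lit 5) (nat_lit 127) (nat_lit 5) (nat_lit 357) (nat_lit 323) (nat_lit 265)) (XT.nd (nat_lit 94) (nat_lit 504) (nat_lit 0) (XT.lf (nat_lit 0) (nat_lit 210172659) (nat_lit 588) (nat_lit 5053343258) (nat_lit 84) (nat_lit 4690594992) (nat_lit 119) (nat_lit 5) (nat_lit 126) (nat_lit 5) (nat_lit 120) (nat_lit 5) (nat_lit 358) (nat_lit 323) (nat_lit 264)) (XT.lf (nat_lit 0) (nat_lit 59216799) (nat_lit 504) (nat_lit 2074554094) (nat_lit 588) (nat_lit 7981396750) (nat_lit 113) (nat_lit 5)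 (nat_lit 119) (nat_lit 5) (nat_lit 120) (nat_lit 5) (nat_lit 359) (nat_lit 323) (nat_lit 263)))) (XT.nd (nat_lit 94) (nat_lit 420) (nat_lit 0) (XT.lf (nat_lit 0) (nat_lit 4143927953) (nat_lit 588) (nat_lit 4902412370) (nat_lit 84) (nat_lit 1233907301) (nat_lit 113) (nat_lit 5) (nat_lit 120) (nat_lit 5) (nat_lit 114) (nat_lit 5) (nat_lit 360) (nat_lit 323) (nat_lit 262)) (XT.nd (nat_lit 55836) (nat_lit 0) (nat_lit 12516) (XT.lf (nat_lit 0) (nat_lit 353753211) (nat_lit 420) (nat_lit 5851261405) (nat_lit 504) (nat_lit 4245602050) (nat_lit 108) (nat_lit 5) (nat_lit 113) (nat_lit 5) (nat_lit 114) (nat_lit 5) (nat_lit 361) (nat_lit 323) (nat_lit 261)) (XT.lf (nat_lit 0) (nat_lit 868760234) (nat_lit 0) (nat_lit 868760234) (nat_lit 588) (nat_lit 1662280754) (nat_lit 257) (nat_lit 5) (nat_lit 257) (nat_lit 3) (nat_lit 264) (nat_lit 3) (nat_lit 324) (nat_lit 324) (nat_lit 297))))) (XT.nd (nat_lit 282) (nat_lit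 756) (nat_lit 0) (XT.nd (nat_lit 94) (nat_lit 672) (nat_lit 0) (XT.lf (nat_lit 0) (nat_lit 4812090057) (nat_lit 0) (nat_lit 580204255) (nat_lit 588) (nat_lit 1448435032) (nat_lit 257) (nat_lit 5) (nat_lit 257) (nat_lit 3) (nat_lit 264) (nat_lit 3) (nat_lit 325) (nat_lit 324) (nat_lit 296)) (XT.nd (nat_lit 94) (nat_lit 0) (nat_lit 0) (XT.lf (nat_lit 0) (nat_lit 417528560) (nat_lit 672) (nat_lit 5817345179) (nat_lit 756) (nat_lit 649972988) (nat_lit 249) (nat_lit 5) (nat_lit 257) (nat_lit 5) (nat_lit 258) (nat_lit 5) (nat_lit 326) (nat_lit 324) (nat_lit 295)) (XT.lf (nat_lit 0) (nat_lit 2265205781) (nat_lit 672) (nat_lit 2692192305) (nat_lit 756) (nat_lit 1973994657) (nat_lit 249) (nat_lit 5) (nat_lit 257) (nat_lit 5) (nat_lit 258) (nat_lit 5) (nat_lit 327) (nat_lit 324) (nat_lit 294)))) (XT.nd (nat_lit 188) (nat_lit 756) (nat_lit 0) (XT.nd (nat_lit 94) (nat_lit 0) (nat_lit 0) (XT.lf (nat_lit 84) (nat_lit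 497250737) (nat_lit 0) (nat_lit 3606341613) (nat_lit 756) (nat_lit 2877859900) (nat_lit 250) (nat_lit 5) (nat_lit 249) (nat_lit 5) (nat_lit 258) (nat_lit 5) (nat_lit 328) (nat_lit 324) (nat_lit 293)) (XT.lf (nat_lit 84) (nat_lit 3798780800) (nat_lit 0) (nat_lit 2157686219) (nat_lit 756) (nat_lit 1077936796) (nat_lit 250) (nat_lit 5) (nat_lit 249) (nat_lit 5) (nat_lit 258) (nat_lit 5) (nat_lit 329) (nat_lit 324) (nat_lit 292))) (XT.nd (nat_lit 94) (nat_lit 0) (nat_lit 84) (XT.lf (nat_lit 84) (nat_lit 65081823) (nat_lit 0) (nat_lit 629697984) (nat_lit 840) (nat_lit 6396082793) (nat_lit 241) (nat_lit 5) (nat_lit 240) (nat_lit 5) (nat_lit 250) (nat_lit 5) (nat_lit 330) (nat_lit 324) (nat_lit 291)) (XT.lf (nat_lit 0) (nat_lit 2476220571) (nat_lit 756) (nat_lit 3678092578) (nat_lit 840) (nat_lit 995221488) (nat_lit 241) (nat_lit 5) (nat_lit 250) (nat_lit 5) (nat_lit 251) (nat_lit 5) (nat_lit 331) (nat_lit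 324) (nat_lit 290)))))) (XT.nd (nat_lit 564) (nat_lit 2772) (nat_lit 0) (XT.nd (nat_lit 282) (nat_lit 0) (nat_lit 84) (XT.nd (nat_lit 94) (nat_lit 840) (nat_lit 0) (XT.lf (nat_lit 0) (nat_lit 4254364066) (nat_lit 756) (nat_lit 276131520) (nat_lit 840) (nat_lit 2681324835) (nat_lit 241) (nat_lit 5) (nat_lit 250) (nat_lit 5) (nat_lit 251) (nat_lit 5) (nat_lit 332) (nat_lit 324) (nat_lit 289)) (XT.nd (nat_lit 94) (nat_lit 840) (nat_lit 0) (XT.lf (nat_lit 84) (nat_lit 3252597927) (nat_lit 0) (nat_lit 2803379001) (nat_lit 840) (nat_lit 1221041062) (nat_lit 242) (nat_lit 5) (nat_lit 241) (nat_lit 5) (nat_lit 251) (nat_lit 5) (nat_lit 333) (nat_lit 324) (nat_lit 288)) (XT.lf (nat_lit 0) (nat_lit 498749062) (nat_lit 840) (nat_lit 496442738) (nat_lit 924) (nat_lit 6350683896) (nat_lit 231) (nat_lit 5) (nat_lit 241) (nat_lit 5) (nat_lit 242) (nat_lit 5) (nat_lit 334) (nat_lit 324) (nat_lit 287)))) (XT.nd (nat_lit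 94) (nat_lit 0) (nat_lit 0) (XT.lf (nat_lit 0) (nat_lit 2226103115) (nat_lit 840) (nat_lit 4278222407) (nat_lit 924) (nat_lit 912830058) (nat_lit 232) (nat_lit 5) (nat_lit 242) (nat_lit 5) (nat_lit 243) (nat_lit 5) (nat_lit 335) (nat_lit 324) (nat_lit 286)) (XT.nd (nat_lit 94) (nat_lit 0) (nat_lit 0) (XT.lf (nat_lit 0) (nat_lit 3963021464) (nat_lit 840) (nat_lit 647002179) (nat_lit 924) (nat_lit 2881948482) (nat_lit 232) (nat_lit 5) (nat_lit 242) (nat_lit 5) (nat_lit 243) (nat_lit 5) (nat_lit 336) (nat_lit 324) (nat_lit 285)) (XT.lf (nat_lit 84) (nat_lit 3114886193) (nat_lit 0) (nat_lit 2611596134) (nat_lit 924) (nat_lit 1843444561) (nat_lit 233) (nat_lit 5) (nat_lit 232) (nat_lit 5) (nat_lit 243) (nat_lit 5) (nat_lit 337) (nat_lit 324) (nat_lit 284))))) (XT.nd (nat_lit 282) (nat_lit 2016) (nat_lit 0) (XT.nd (nat_lit 94) (nat_lit 840) (nat_lit 0) (XT.lf (nat_lit 84) (nat_lit 6964225871) (nat_lit 0)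 (nat_lit 530892385) (nat_lit 924) (nat_lit 156656980) (nat_lit 233) (nat_lit 5) (nat_lit 232) (nat_lit 5) (nat_lit 243) (nat_lit 5) (nat_lit 338) (nat_lit 324) (nat_lit 283)) (XT.nd (nat_lit 94) (nat_lit 0) (nat_lit 0) (XT.lf (nat_lit 0) (nat_lit 1543436178) (nat_lit 924) (nat_lit 4550983008) (nat_lit 84) (nat_lit 1641513579) (nat_lit 222) (nat_lit 5) (nat_lit 233) (nat_lit 5) (nat_lit 223) (nat_lit 5) (nat_lit 339) (nat_lit 324) (nat_lit 282)) (XT.lf (nat_lit 0) (nat_lit 3251648061) (nat_lit 924) (nat_lit 681713880) (nat_lit 84) (nat_lit 3890511245) (nat_lit 222) (nat_lit 5) (nat_lit 233) (nat_lit 5) (nat_lit 223) (nat_lit 5) (nat_lit 340) (nat_lit 324) (nat_lit 281)))) (XT.nd (nat_lit 188) (nat_lit 1092) (nat_lit 0) (XT.nd (nat_lit 94) (nat_lit 0) (nat_lit 0) (XT.lf (nat_lit 0) (nat_lit 3329626791) (nat_lit 924) (nat_lit 1662997158) (nat_lit 1008) (nat_lit 2922491695) (nat_lit 211) (nat_lit 5) (nat_lit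 222) (nat_lit 5) (nat_lit 223) (nat_lit 5) (nat_lit 341) (nat_lit 324) (nat_lit 280)) (XT.lf (nat_lit 0) (nat_lit 6749988860) (nat_lit 1008) (nat_lit 580456953) (nat_lit 84) (nat_lit 679830938) (nat_lit 211) (nat_lit 5) (nat_lit 223) (nat_lit 5) (nat_lit 212) (nat_lit 5) (nat_lit 342) (nat_lit 324) (nat_lit 279))) (XT.nd (nat_lit 94) (nat_lit 0) (nat_lit 0) (XT.lf (nat_lit 0) (nat_lit 445715637) (nat_lit 1092) (nat_lit 4554094945) (nat_lit 84) (nat_lit 3108369415) (nat_lit 198) (nat_lit 5) (nat_lit 211) (nat_lit 5) (nat_lit 199) (nat_lit 5) (nat_lit 343) (nat_lit 324) (nat_lit 278)) (XT.lf (nat_lit 0) (nat_lit 2136097848) (nat_lit 1092) (nat_lit 436590856) (nat_lit 84) (nat_lit 5637298578) (nat_lit 198) (nat_lit 5) (nat_lit 211) (nat_lit 5) (nat_lit 199) (nat_lit 5) (nat_lit 344) (nat_lit 324) (nat_lit 277))))))) (XT.nd (nat_lit 1222) (nat_lit 1512) (nat_lit 0) (XT.nd (nat_lit 564) (nat_lit 1848)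 (nat_lit 0) (XT.nd (nat_lit 282) (nat_lit 1932) (nat_lit 0) (XT.nd (nat_lit 94) (nat_lit 1176) (nat_lit 0) (XT.lf (nat_lit 0) (nat_lit 3840771718) (nat_lit 1092) (nat_lit 27329561) (nat_lit 1176) (nat_lit 4447114545) (nat_lit 185) (nat_lit 5) (nat_lit 198) (nat_lit 5) (nat_lit 199) (nat_lit 5) (nat_lit 345) (nat_lit 324) (nat_lit 276)) (XT.nd (nat_lit 94) (nat_lit 1176) (nat_lit 0) (XT.lf (nat_lit 0) (nat_lit 5636483894) (nat_lit 1176) (nat_lit 232790078) (nat_lit 84) (nat_lit 2554886259) (nat_lit 185) (nat_lit 5) (nat_lit 199) (nat_lit 5) (nat_lit 186) (nat_lit 5) (nat_lit 346) (nat_lit 324) (nat_lit 275)) (XT.lf (nat_lit 0) (nat_lit 4178800554) (nat_lit 1176) (nat_lit 3275894929) (nat_lit 1260) (nat_lit 1081863077) (nat_lit 171) (nat_lit 5) (nat_lit 185) (nat_lit 5) (nat_lit 186) (nat_lit 5) (nat_lit 347) (nat_lit 324) (nat_lit 274)))) (XT.nd (nat_lit 94) (nat_lit 588) (nat_lit 0) (XT.lf (nat_lit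 0) (nat_lit 30175942) (nat_lit 1260) (nat_lit 591172769) (nat_lit 1344) (nat_lit 8032087300) (nat_lit 155) (nat_lit 5) (nat_lit 170) (nat_lit 5) (nat_lit 171) (nat_lit 5) (nat_lit 348) (nat_lit 324) (nat_lit 273)) (XT.nd (nat_lit 94) (nat_lit 588) (nat_lit 0) (XT.lf (nat_lit 0) (nat_lit 2376908052) (nat_lit 1344) (nat_lit 4205623905) (nat_lit 84) (nat_lit 2190357986) (nat_lit 155) (nat_lit 5) (nat_lit 171) (nat_lit 5) (nat_lit 156) (nat_lit 5) (nat_lit 349) (nat_lit 324) (nat_lit 272)) (XT.lf (nat_lit 0) (nat_lit 305666354) (nat_lit 588) (nat_lit 3847148952) (nat_lit 672) (nat_lit 4744160752) (nat_lit 148) (nat_lit 5) (nat_lit 155) (nat_lit 5) (nat_lit 156) (nat_lit 5) (nat_lit 350) (nat_lit 324) (nat_lit 271))))) (XT.nd (nat_lit 282) (nat_lit 1176) (nat_lit 0) (XT.nd (nat_lit 94) (nat_lit 672) (nat_lit 0) (XT.lf (nat_lit 0) (nat_lit 4999902262) (nat_lit 588) (nat_lit 984282058) (nat_lit 672) (nat_lit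 3040611599) (nat_lit 148) (nat_lit 5) (nat_lit 155) (nat_lit 5) (nat_lit 156) (nat_lit 5) (nat_lit 351) (nat_lit 324) (nat_lit 270)) (XT.nd (nat_lit 94) (nat_lit 84) (nat_lit 0) (XT.lf (nat_lit 0) (nat_lit 633244767) (nat_lit 588) (nat_lit 7223125453) (nat_lit 672) (nat_lit 1300578345) (nat_lit 141) (nat_lit 5) (nat_lit 148) (nat_lit 5) (nat_lit 149) (nat_lit 5) (nat_lit 352) (nat_lit 324) (nat_lit 269)) (XT.lf (nat_lit 0) (nat_lit 494077800) (nat_lit 672) (nat_lit 3832291996) (nat_lit 84) (nat_lit 4966263927) (nat_lit 140) (nat_lit 5) (nat_lit 148) (nat_lit 5) (nat_lit 141) (nat_lit 5) (nat_lit 353) (nat_lit 324) (nat_lit 268)))) (XT.nd (nat_lit 188) (nat_lit 588) (nat_lit 0) (XT.nd (nat_lit 94) (nat_lit 0) (nat_lit 0) (XT.lf (nat_lit 0) (nat_lit 967807097) (nat_lit 588) (nat_lit 1320283290) (nat_lit 672) (nat_lit 7144831169) (nat_lit 133) (nat_lit 5) (nat_lit 140) (nat_lit 5) (nat_lit 141) (nat_lit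 5) (nat_lit 354) (nat_lit 324) (nat_lit 267)) (XT.lf (nat_lit 0) (nat_lit 4155157650) (nat_lit 672) (nat_lit 3642101005) (nat_lit 84) (nat_lit 1779648503) (nat_lit 133) (nat_lit 5) (nat_lit 141) (nat_lit 5) (nat_lit 134) (nat_lit 5) (nat_lit 355) (nat_lit 324) (nat_lit 266))) (XT.nd (nat_lit 94) (nat_lit 0) (nat_lit 0) (XT.lf (nat_lit 0) (nat_lit 1300177305) (nat_lit 588) (nat_lit 4767785801) (nat_lit 672) (nat_lit 3657621670) (nat_lit 126) (nat_lit 5) (nat_lit 133) (nat_lit 5) (nat_lit 134) (nat_lit 5) (nat_lit 356) (nat_lit 324) (nat_lit 265)) (XT.lf (nat_lit 0) (nat_lit 6428028738) (nat_lit 588) (nat_lit 1611742957) (nat_lit 672) (nat_lit 1838964822) (nat_lit 126) (nat_lit 5) (nat_lit 133) (nat_lit 5) (nat_lit 134) (nat_lit 5) (nat_lit 357) (nat_lit 324) (nat_lit 264)))))) (XT.nd (nat_lit 56306) (nat_lit 0) (nat_lit 11088) (XT.nd (nat_lit 282) (nat_lit 420) (nat_lit 0) (XT.nd (nat_lit 94) (nat_lit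 504) (nat_lit 0) (XT.lf (nat_lit 0) (nat_lit 30982208) (nat_lit 588) (nat_lit 8384531324) (nat_lit 84) (nat_lit 1621096217) (nat_lit 119) (nat_lit 5) (nat_lit 126) (nat_lit 5) (nat_lit 120) (nat_lit 5) (nat_lit 358) (nat_lit 324) (nat_lit 263)) (XT.nd (nat_lit 94) (nat_lit 504) (nat_lit 0) (XT.lf (nat_lit 0) (nat_lit 1937308980) (nat_lit 588) (nat_lit 3291696604) (nat_lit 84) (nat_lit 4969207157) (nat_lit 119) (nat_lit 5) (nat_lit 126) (nat_lit 5) (nat_lit 120) (nat_lit 5) (nat_lit 359) (nat_lit 324) (nat_lit 262)) (XT.lf (nat_lit 0) (nat_lit 1955482931) (nat_lit 504) (nat_lit 1931221928) (nat_lit 588) (nat_lit 6478437994) (nat_lit 113) (nat_lit 5) (nat_lit 119) (nat_lit 5) (nat_lit 120) (nat_lit 5) (nat_lit 360) (nat_lit 324) (nat_lit 261)))) (XT.nd (nat_lit 94) (nat_lit 420) (nat_lit 0) (XT.lf (nat_lit 0) (nat_lit 5909893260) (nat_lit 588) (nat_lit 3160170766) (nat_lit 84) (nat_lit 1466611317) (nat_lit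 113) (nat_lit 5) (nat_lit 120) (nat_lit 5) (nat_lit 114) (nat_lit 5) (nat_lit 361) (nat_lit 324) (nat_lit 260)) (XT.nd (nat_lit 55836) (nat_lit 0) (nat_lit 11760) (XT.lf (nat_lit 0) (nat_lit 2235157097) (nat_lit 420) (nat_lit 5767823641) (nat_lit 504) (nat_lit 2710149195) (nat_lit 108) (nat_lit 5) (nat_lit 113) (nat_lit 5) (nat_lit 114) (nat_lit 5) (nat_lit 362) (nat_lit 324) (nat_lit 259)) (XT.lf (nat_lit 0) (nat_lit 191520252) (nat_lit 756) (nat_lit 1624968316) (nat_lit 756) (nat_lit 1624968316) (nat_lit 248) (nat_lit 3) (nat_lit 257) (nat_lit 3) (nat_lit 257) (nat_lit 5) (nat_lit 325) (nat_lit 325) (nat_lit 295))))) (XT.nd (nat_lit 282) (nat_lit 672) (nat_lit 0) (XT.nd (nat_lit 94) (nat_lit 0) (nat_lit 0) (XT.lf (nat_lit 0) (nat_lit 2168795352) (nat_lit 756) (nat_lit 200311550) (nat_lit 756) (nat_lit 4559153926) (nat_lit 248) (nat_lit 3) (nat_lit 257) (nat_lit 3) (nat_lit 257) (nat_lit 5) (nat_lit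 326) (nat_lit 325) (nat_lit 294)) (XT.nd (nat_lit 94) (nat_lit 0) (nat_lit 84) (XT.lf (nat_lit 84) (nat_lit 2962752084) (nat_lit 0) (nat_lit 1004381762) (nat_lit 756) (nat_lit 3009239603) (nat_lit 249) (nat_lit 5) (nat_lit 248) (nat_lit 3) (nat_lit 257) (nat_lit 5) (nat_lit 327) (nat_lit 325) (nat_lit 293)) (XT.lf (nat_lit 0) (nat_lit 5757846127) (nat_lit 672) (nat_lit 842959141) (nat_lit 756) (nat_lit 427141842) (nat_lit 249) (nat_lit 5) (nat_lit 257) (nat_lit 5) (nat_lit 258) (nat_lit 5) (nat_lit 328) (nat_lit 325) (nat_lit 292)))) (XT.nd (nat_lit 188) (nat_lit 0) (nat_lit 0) (XT.nd (nat_lit 94) (nat_lit 0) (nat_lit 0) (XT.lf (nat_lit 0) (nat_lit 478286238) (nat_lit 756) (nat_lit 4663645029) (nat_lit 840) (nat_lit 1940129642) (nat_lit 240) (nat_lit 5) (nat_lit 249) (nat_lit 5) (nat_lit 250) (nat_lit 5) (nat_lit 329) (nat_lit 325) (nat_lit 291)) (XT.lf (nat_lit 0) (nat_lit 2197448620) (nat_lit 756)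 (nat_lit 1393292010) (nat_lit 840) (nat_lit 3548520607) (nat_lit 240) (nat_lit 5) (nat_lit 249) (nat_lit 5) (nat_lit 250) (nat_lit 5) (nat_lit 330) (nat_lit 325) (nat_lit 290))) (XT.nd (nat_lit 94) (nat_lit 0) (nat_lit 0) (XT.lf (nat_lit 84) (nat_lit 1976852244) (nat_lit 0) (nat_lit 1947476926) (nat_lit 840) (nat_lit 3275315479) (nat_lit 241) (nat_lit 5) (nat_lit 240) (nat_lit 5) (nat_lit 250) (nat_lit 5) (nat_lit 331) (nat_lit 325) (nat_lit 289)) (XT.lf (nat_lit 84) (nat_lit 5440128800) (nat_lit 0) (nat_lit 215577115) (nat_lit 840) (nat_lit 1607699915) (nat_lit 241) (nat_lit 5) (nat_lit 240) (nat_lit 5) (nat_lit 250) (nat_lit 5) (nat_lit 332) (nat_lit 325) (nat_lit 288))))))))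
noncomputable def xc18 : XT := (XT.nd (nat_lit 2444) (nat_lit 1092) (nat_lit 0) (XT.nd (nat_lit 1222) (nat_lit 4956) (nat_lit 0) (XT.nd (nat_lit 564) (nat_lit 3024) (nat_lit 0) (XT.nd (nat_lit 282) (nat_lit 840) (nat_lit 0) (XT.nd (nat_lit 94) (nat_lit 0) (nat_lit 0) (XT.lf (nat_lit 0) (nat_lit 79029745) (nat_lit 840) (nat_lit 5672979667) (nat_lit 924) (nat_lit 1578040327) (nat_lit 231) (nat_lit 5) (nat_lit 241) (nat_lit 5) (nat_lit 242) (nat_lit 5) (nat_lit 333) (nat_lit 325) (nat_lit 287)) (XT.nd (nat_lit 94) (nat_lit 0) (nat_lit 0) (XT.lf (nat_lit 0) (nat_lit 1746077036) (nat_lit 840) (nat_lit 2175737365) (nat_lit 924) (nat_lit 3477674651) (nat_lit 231) (nat_lit 5) (nat_lit 241) (nat_lit 5) (nat_lit 242) (nat_lit 5) (nat_lit 334) (nat_lit 325) (nat_lit 286)) (XT.lf (nat_lit 84) (nat_lit 1416623705) (nat_lit 0) (nat_lit 2003139858) (nat_lit 924) (nat_lit 4052679721) (nat_lit 232) (nat_lit 5) (nat_lit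 231) (nat_lit 5) (nat_lit 242) (nat_lit 5) (nat_lit 335) (nat_lit 325) (nat_lit 285)))) (XT.nd (nat_lit 94) (nat_lit 924) (nat_lit 0) (XT.lf (nat_lit 0) (nat_lit 5110083045) (nat_lit 840) (nat_lit 2424580946) (nat_lit 924) (nat_lit 14056253) (nat_lit 232) (nat_lit 5) (nat_lit 242) (nat_lit 5) (nat_lit 243) (nat_lit 5) (nat_lit 336) (nat_lit 325) (nat_lit 284)) (XT.nd (nat_lit 94) (nat_lit 924) (nat_lit 0) (XT.lf (nat_lit 84) (nat_lit 1282881721) (nat_lit 0) (nat_lit 5546504789) (nat_lit 924) (nat_lit 798673848) (nat_lit 233) (nat_lit 5) (nat_lit 232) (nat_lit 5) (nat_lit 243) (nat_lit 5) (nat_lit 337) (nat_lit 325) (nat_lit 283)) (XT.lf (nat_lit 0) (nat_lit 844517165) (nat_lit 924) (nat_lit 2605297895) (nat_lit 1008) (nat_lit 4260682672) (nat_lit 221) (nat_lit 5) (nat_lit 232) (nat_lit 5) (nat_lit 233) (nat_lit 5) (nat_lit 338) (nat_lit 325) (nat_lit 282))))) (XT.nd (nat_lit 282) (nat_lit 2184) (nat_lit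 0) (XT.nd (nat_lit 94) (nat_lit 840) (nat_lit 0) (XT.lf (nat_lit 84) (nat_lit 1225187990) (nat_lit 0) (nat_lit 1255773122) (nat_lit 1008) (nat_lit 5315522226) (nat_lit 222) (nat_lit 5) (nat_lit 221) (nat_lit 5) (nat_lit 233) (nat_lit 5) (nat_lit 339) (nat_lit 325) (nat_lit 281)) (XT.nd (nat_lit 94) (nat_lit 924) (nat_lit 0) (XT.lf (nat_lit 0) (nat_lit 4152230425) (nat_lit 924) (nat_lit 2709156705) (nat_lit 84) (nat_lit 1024198773) (nat_lit 222) (nat_lit 5) (nat_lit 233) (nat_lit 5) (nat_lit 223) (nat_lit 5) (nat_lit 340) (nat_lit 325) (nat_lit 280)) (XT.lf (nat_lit 0) (nat_lit 1242820385) (nat_lit 924) (nat_lit 4606179364) (nat_lit 1008) (nat_lit 2129207109) (nat_lit 211) (nat_lit 5) (nat_lit 222) (nat_lit 5) (nat_lit 223) (nat_lit 5) (nat_lit 341) (nat_lit 325) (nat_lit 279)))) (XT.nd (nat_lit 188) (nat_lit 1092) (nat_lit 0) (XT.nd (nat_lit 94) (nat_lit 1092) (nat_lit 0) (XT.lf (nat_lit 0) (nat_lit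 5331418651) (nat_lit 924) (nat_lit 2244659958) (nat_lit 1008) (nat_lit 498248715) (nat_lit 211) (nat_lit 5) (nat_lit 222) (nat_lit 5) (nat_lit 223) (nat_lit 5) (nat_lit 342) (nat_lit 325) (nat_lit 278)) (XT.lf (nat_lit 0) (nat_lit 1126552203) (nat_lit 1092) (nat_lit 6829400807) (nat_lit 84) (nat_lit 218095639) (nat_lit 198) (nat_lit 5) (nat_lit 211) (nat_lit 5) (nat_lit 199) (nat_lit 5) (nat_lit 343) (nat_lit 325) (nat_lit 277))) (XT.nd (nat_lit 94) (nat_lit 1092) (nat_lit 0) (XT.lf (nat_lit 0) (nat_lit 2794269344) (nat_lit 1092) (nat_lit 2730918357) (nat_lit 84) (nat_lit 2751394655) (nat_lit 198) (nat_lit 5) (nat_lit 211) (nat_lit 5) (nat_lit 199) (nat_lit 5) (nat_lit 344) (nat_lit 325) (nat_lit 276)) (XT.lf (nat_lit 0) (nat_lit 1481947449) (nat_lit 1092) (nat_lit 2999645941) (nat_lit 1176) (nat_lit 3901603003) (nat_lit 185) (nat_lit 5) (nat_lit 198) (nat_lit 5) (nat_lit 199) (nat_lit 5) (nat_lit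 345) (nat_lit 325) (nat_lit 275)))))) (XT.nd (nat_lit 564) (nat_lit 1848) (nat_lit 0) (XT.nd (nat_lit 282) (nat_lit 1848) (nat_lit 0) (XT.nd (nat_lit 94) (nat_lit 1260) (nat_lit 0) (XT.lf (nat_lit 0) (nat_lit 5840058671) (nat_lit 1092) (nat_lit 363329644) (nat_lit 1176) (nat_lit 2290193916) (nat_lit 185) (nat_lit 5) (nat_lit 198) (nat_lit 5) (nat_lit 199) (nat_lit 5) (nat_lit 346) (nat_lit 325) (nat_lit 274)) (XT.nd (nat_lit 94) (nat_lit 84) (nat_lit 0) (XT.lf (nat_lit 0) (nat_lit 1694630314) (nat_lit 1176) (nat_lit 6278715630) (nat_lit 1260) (nat_lit 634124760) (nat_lit 171) (nat_lit 5) (nat_lit 185) (nat_lit 5) (nat_lit 186) (nat_lit 5) (nat_lit 347) (nat_lit 325) (nat_lit 273)) (XT.lf (nat_lit 0) (nat_lit 1039367532) (nat_lit 1260) (nat_lit 2548524393) (nat_lit 84) (nat_lit 5136996672) (nat_lit 170) (nat_lit 5) (nat_lit 185) (nat_lit 5) (nat_lit 171) (nat_lit 5) (nat_lit 348) (nat_lit 325) (nat_lit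 272)))) (XT.nd (nat_lit 94) (nat_lit 588) (nat_lit 0) (XT.lf (nat_lit 0) (nat_lit 1941421796) (nat_lit 1260) (nat_lit 786777463) (nat_lit 1344) (nat_lit 6118184013) (nat_lit 155) (nat_lit 5) (nat_lit 170) (nat_lit 5) (nat_lit 171) (nat_lit 5) (nat_lit 349) (nat_lit 325) (nat_lit 271)) (XT.nd (nat_lit 94) (nat_lit 588) (nat_lit 0) (XT.lf (nat_lit 0) (nat_lit 4473943736) (nat_lit 1344) (nat_lit 2410718655) (nat_lit 84) (nat_lit 2086749662) (nat_lit 155) (nat_lit 5) (nat_lit 171) (nat_lit 5) (nat_lit 156) (nat_lit 5) (nat_lit 350) (nat_lit 325) (nat_lit 270)) (XT.lf (nat_lit 0) (nat_lit 2217076253) (nat_lit 588) (nat_lit 4045335649) (nat_lit 672) (nat_lit 2838143720) (nat_lit 148) (nat_lit 5) (nat_lit 155) (nat_lit 5) (nat_lit 156) (nat_lit 5) (nat_lit 351) (nat_lit 325) (nat_lit 269))))) (XT.nd (nat_lit 282) (nat_lit 1176) (nat_lit 0) (XT.nd (nat_lit 94) (nat_lit 672) (nat_lit 0) (XT.lf (nat_lit 0)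 (nat_lit 6996734192) (nat_lit 588) (nat_lit 1094171906) (nat_lit 672) (nat_lit 1143148534) (nat_lit 148) (nat_lit 5) (nat_lit 155) (nat_lit 5) (nat_lit 156) (nat_lit 5) (nat_lit 352) (nat_lit 325) (nat_lit 268)) (XT.nd (nat_lit 94) (nat_lit 0) (nat_lit 0) (XT.lf (nat_lit 0) (nat_lit 597221194) (nat_lit 672) (nat_lit 6834677129) (nat_lit 84) (nat_lit 1939366069) (nat_lit 140) (nat_lit 5) (nat_lit 148) (nat_lit 5) (nat_lit 141) (nat_lit 5) (nat_lit 353) (nat_lit 325) (nat_lit 267)) (XT.lf (nat_lit 0) (nat_lit 2363925914) (nat_lit 672) (nat_lit 2071667775) (nat_lit 84) (nat_lit 5076810365) (nat_lit 140) (nat_lit 5) (nat_lit 148) (nat_lit 5) (nat_lit 141) (nat_lit 5) (nat_lit 354) (nat_lit 325) (nat_lit 266)))) (XT.nd (nat_lit 188) (nat_lit 588) (nat_lit 0) (XT.nd (nat_lit 94) (nat_lit 0) (nat_lit 0) (XT.lf (nat_lit 0) (nat_lit 2854046125) (nat_lit 588) (nat_lit 1321535466) (nat_lit 672) (nat_lit 5482502053)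 (nat_lit 133) (nat_lit 5) (nat_lit 140) (nat_lit 5) (nat_lit 141) (nat_lit 5) (nat_lit 355) (nat_lit 325) (nat_lit 265)) (XT.lf (nat_lit 0) (nat_lit 6046042667) (nat_lit 672) (nat_lit 1892469211) (nat_lit 84) (nat_lit 1869550437) (nat_lit 133) (nat_lit 5) (nat_lit 141) (nat_lit 5) (nat_lit 134) (nat_lit 5) (nat_lit 356) (nat_lit 325) (nat_lit 264))) (XT.nd (nat_lit 94) (nat_lit 0) (nat_lit 0) (XT.lf (nat_lit 0) (nat_lit 3179852990) (nat_lit 588) (nat_lit 4802629345) (nat_lit 672) (nat_lit 1979822612) (nat_lit 126) (nat_lit 5) (nat_lit 133) (nat_lit 5) (nat_lit 134) (nat_lit 5) (nat_lit 357) (nat_lit 325) (nat_lit 263)) (XT.lf (nat_lit 0) (nat_lit 8407928208) (nat_lit 588) (nat_lit 1555056382) (nat_lit 672) (nat_lit 158669972) (nat_lit 126) (nat_lit 5) (nat_lit 133) (nat_lit 5) (nat_lit 134) (nat_lit 5) (nat_lit 358) (nat_lit 325) (nat_lit 262))))))) (XT.nd (nat_lit 57058) (nat_lit 0) (nat_lit 6048)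 (XT.nd (nat_lit 56400) (nat_lit 0) (nat_lit 9828) (XT.nd (nat_lit 282) (nat_lit 0) (nat_lit 0) (XT.nd (nat_lit 94) (nat_lit 504) (nat_lit 0) (XT.lf (nat_lit 0) (nat_lit 1702621520) (nat_lit 588) (nat_lit 6778545952) (nat_lit 84) (nat_lit 1803607079) (nat_lit 119) (nat_lit 5) (nat_lit 126) (nat_lit 5) (nat_lit 120) (nat_lit 5) (nat_lit 359) (nat_lit 325) (nat_lit 261)) (XT.nd (nat_lit 94) (nat_lit 504) (nat_lit 0) (XT.lf (nat_lit 0) (nat_lit 3617476644) (nat_lit 588) (nat_lit 1587028753) (nat_lit 84) (nat_lit 5248261988) (nat_lit 119) (nat_lit 5) (nat_lit 126) (nat_lit 5) (nat_lit 120) (nat_lit 5) (nat_lit 360) (nat_lit 325) (nat_lit 260)) (XT.lf (nat_lit 0) (nat_lit 3799885592) (nat_lit 504) (nat_lit 1795390286) (nat_lit 588) (nat_lit 5030411400) (nat_lit 113) (nat_lit 5) (nat_lit 119) (nat_lit 5) (nat_lit 120) (nat_lit 5) (nat_lit 361) (nat_lit 325) (nat_lit 259)))) (XT.nd (nat_lit 55930) (nat_lit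 0) (nat_lit 11340) (XT.lf (nat_lit 0) (nat_lit 7634600245) (nat_lit 588) (nat_lit 1474116264) (nat_lit 84) (nat_lit 1695063232) (nat_lit 113) (nat_lit 5) (nat_lit 120) (nat_lit 5) (nat_lit 114) (nat_lit 5) (nat_lit 362) (nat_lit 325) (nat_lit 258)) (XT.nd (nat_lit 94) (nat_lit 0) (nat_lit 0) (XT.lf (nat_lit 0) (nat_lit 1960164562) (nat_lit 756) (nat_lit 763597960) (nat_lit 756) (nat_lit 763597960) (nat_lit 248) (nat_lit 3) (nat_lit 257) (nat_lit 3) (nat_lit 257) (nat_lit 5) (nat_lit 326) (nat_lit 326) (nat_lit 293)) (XT.lf (nat_lit 84) (nat_lit 1591966245) (nat_lit 0) (nat_lit 4080300196) (nat_lit 756) (nat_lit 1352043105) (nat_lit 249) (nat_lit 5) (nat_lit 248) (nat_lit 3) (nat_lit 257) (nat_lit 5) (nat_lit 327) (nat_lit 326) (nat_lit 292))))) (XT.nd (nat_lit 282) (nat_lit 756) (nat_lit 0) (XT.nd (nat_lit 94) (nat_lit 0) (nat_lit 0) (XT.lf (nat_lit 0) (nat_lit 342491968) (nat_lit 756) (nat_lit 2278889594)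 (nat_lit 840) (nat_lit 4455580620) (nat_lit 239) (nat_lit 5) (nat_lit 248) (nat_lit 3) (nat_lit 249) (nat_lit 5) (nat_lit 328) (nat_lit 326) (nat_lit 291)) (XT.nd (nat_lit 94) (nat_lit 0) (nat_lit 84) (XT.lf (nat_lit 84) (nat_lit 939190884) (nat_lit 0) (nat_lit 1065839924) (nat_lit 840) (nat_lit 5127587632) (nat_lit 240) (nat_lit 5) (nat_lit 239) (nat_lit 5) (nat_lit 249) (nat_lit 5) (nat_lit 329) (nat_lit 326) (nat_lit 290)) (XT.lf (nat_lit 0) (nat_lit 3682982455) (nat_lit 756) (nat_lit 2931003841) (nat_lit 840) (nat_lit 577143361) (nat_lit 240) (nat_lit 5) (nat_lit 249) (nat_lit 5) (nat_lit 250) (nat_lit 5) (nat_lit 330) (nat_lit 326) (nat_lit 289)))) (XT.nd (nat_lit 188) (nat_lit 840) (nat_lit 0) (XT.nd (nat_lit 94) (nat_lit 0) (nat_lit 0) (XT.lf (nat_lit 84) (nat_lit 390540308) (nat_lit 0) (nat_lit 4974010766) (nat_lit 840) (nat_lit 1888393747) (nat_lit 241) (nat_lit 5) (nat_lit 240) (nat_lit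 5) (nat_lit 250) (nat_lit 5) (nat_lit 331) (nat_lit 326) (nat_lit 288)) (XT.lf (nat_lit 84) (nat_lit 3836344414) (nat_lit 0) (nat_lit 3230227752) (nat_lit 840) (nat_lit 251084795) (nat_lit 241) (nat_lit 5) (nat_lit 240) (nat_lit 5) (nat_lit 250) (nat_lit 5) (nat_lit 332) (nat_lit 326) (nat_lit 287))) (XT.nd (nat_lit 94) (nat_lit 0) (nat_lit 84) (XT.lf (nat_lit 0) (nat_lit 1348769756) (nat_lit 840) (nat_lit 48321264) (nat_lit 924) (nat_lit 5988696960) (nat_lit 230) (nat_lit 5) (nat_lit 240) (nat_lit 5) (nat_lit 241) (nat_lit 5) (nat_lit 333) (nat_lit 326) (nat_lit 286)) (XT.lf (nat_lit 0) (nat_lit 2973835214) (nat_lit 840) (nat_lit 3942852761) (nat_lit 924) (nat_lit 539863097) (nat_lit 231) (nat_lit 5) (nat_lit 241) (nat_lit 5) (nat_lit 242) (nat_lit 5) (nat_lit 334) (nat_lit 326) (nat_lit 285)))))) (XT.nd (nat_lit 564) (nat_lit 2940) (nat_lit 0) (XT.nd (nat_lit 282) (nat_lit 0) (nat_lit 84) (XT.nd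 (nat_lit 94) (nat_lit 924) (nat_lit 0) (XT.lf (nat_lit 0) (nat_lit 4606648256) (nat_lit 840) (nat_lit 396042209) (nat_lit 924) (nat_lit 2528103492) (nat_lit 231) (nat_lit 5) (nat_lit 241) (nat_lit 5) (nat_lit 242) (nat_lit 5) (nat_lit 335) (nat_lit 326) (nat_lit 284)) (XT.nd (nat_lit 94) (nat_lit 924) (nat_lit 0) (XT.lf (nat_lit 84) (nat_lit 3286001779) (nat_lit 0) (nat_lit 2980312772) (nat_lit 924) (nat_lit 1341736591) (nat_lit 232) (nat_lit 5) (nat_lit 231) (nat_lit 5) (nat_lit 242) (nat_lit 5) (nat_lit 336) (nat_lit 326) (nat_lit 283)) (XT.lf (nat_lit 0) (nat_lit 233434516) (nat_lit 924) (nat_lit 639809859) (nat_lit 1008) (nat_lit 6815887213) (nat_lit 220) (nat_lit 5) (nat_lit 231) (nat_lit 5) (nat_lit 232) (nat_lit 5) (nat_lit 337) (nat_lit 326) (nat_lit 282)))) (XT.nd (nat_lit 94) (nat_lit 0) (nat_lit 0) (XT.lf (nat_lit 0) (nat_lit 1820810386) (nat_lit 924) (nat_lit 4619721388) (nat_lit 1008)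 (nat_lit 1332069257) (nat_lit 221) (nat_lit 5) (nat_lit 232) (nat_lit 5) (nat_lit 233) (nat_lit 5) (nat_lit 338) (nat_lit 326) (nat_lit 281)) (XT.nd (nat_lit 94) (nat_lit 0) (nat_lit 0) (XT.lf (nat_lit 0) (nat_lit 3420718599) (nat_lit 924) (nat_lit 831121931) (nat_lit 1008) (nat_lit 3607896047) (nat_lit 221) (nat_lit 5) (nat_lit 232) (nat_lit 5) (nat_lit 233) (nat_lit 5) (nat_lit 339) (nat_lit 326) (nat_lit 280)) (XT.lf (nat_lit 84) (nat_lit 3096118384) (nat_lit 0) (nat_lit 1953471625) (nat_lit 1008) (nat_lit 2900573371) (nat_lit 222) (nat_lit 5) (nat_lit 221) (nat_lit 5) (nat_lit 233) (nat_lit 5) (nat_lit 340) (nat_lit 326) (nat_lit 279))))) (XT.nd (nat_lit 282) (nat_lit 2100) (nat_lit 0) (XT.nd (nat_lit 94) (nat_lit 1008) (nat_lit 0) (XT.lf (nat_lit 0) (nat_lit 6692191024) (nat_lit 924) (nat_lit 925641329) (nat_lit 84) (nat_lit 426627807) (nat_lit 222) (nat_lit 5) (nat_lit 233) (nat_lit 5) (nat_lit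 223) (nat_lit 5) (nat_lit 341) (nat_lit 326) (nat_lit 278)) (XT.nd (nat_lit 94) (nat_lit 0) (nat_lit 0) (XT.lf (nat_lit 0) (nat_lit 240877814) (nat_lit 1008) (nat_lit 5017338892) (nat_lit 84) (nat_lit 2883302610) (nat_lit 210) (nat_lit 5) (nat_lit 222) (nat_lit 5) (nat_lit 211) (nat_lit 5) (nat_lit 342) (nat_lit 326) (nat_lit 277)) (XT.lf (nat_lit 0) (nat_lit 1818338694) (nat_lit 1008) (nat_lit 976546353) (nat_lit 84) (nat_lit 5447386901) (nat_lit 210) (nat_lit 5) (nat_lit 222) (nat_lit 5) (nat_lit 211) (nat_lit 5) (nat_lit 343) (nat_lit 326) (nat_lit 276)))) (XT.nd (nat_lit 188) (nat_lit 1092) (nat_lit 0) (XT.nd (nat_lit 94) (nat_lit 0) (nat_lit 0) (XT.lf (nat_lit 0) (nat_lit 3212896461) (nat_lit 1008) (nat_lit 216702607) (nat_lit 1092) (nat_lit 4916945403) (nat_lit 198) (nat_lit 5) (nat_lit 210) (nat_lit 5) (nat_lit 211) (nat_lit 5) (nat_lit 344) (nat_lit 326) (nat_lit 275)) (XT.lf (nat_lit 0) (nat_lit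 5079230649) (nat_lit 1092) (nat_lit 965546977) (nat_lit 84) (nat_lit 2409555457) (nat_lit 198) (nat_lit 5) (nat_lit 211) (nat_lit 5) (nat_lit 199) (nat_lit 5) (nat_lit 345) (nat_lit 326) (nat_lit 274))) (XT.nd (nat_lit 94) (nat_lit 0) (nat_lit 0) (XT.lf (nat_lit 0) (nat_lit 3355594029) (nat_lit 1092) (nat_lit 3415052986) (nat_lit 1176) (nat_lit 1795025787) (nat_lit 185) (nat_lit 5) (nat_lit 198) (nat_lit 5) (nat_lit 199) (nat_lit 5) (nat_lit 346) (nat_lit 326) (nat_lit 273)) (XT.lf (nat_lit 0) (nat_lit 7791171264) (nat_lit 1092) (nat_lit 690169016) (nat_lit 1176) (nat_lit 200040213) (nat_lit 185) (nat_lit 5) (nat_lit 198) (nat_lit 5) (nat_lit 199) (nat_lit 5) (nat_lit 347) (nat_lit 326) (nat_lit 272))))))))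
noncomputable def xc19 : XT := (XT.nd (nat_lit 58280) (nat_lit 0) (nat_lit 420) (XT.nd (nat_lit 1222) (nat_lit 924) (nat_lit 0) (XT.nd (nat_lit 564) (nat_lit 2352) (nat_lit 0) (XT.nd (nat_lit 282) (nat_lit 672) (nat_lit 0) (XT.nd (nat_lit 94) (nat_lit 1260) (nat_lit 0) (XT.lf (nat_lit 0) (nat_lit 1429443499) (nat_lit 1260) (nat_lit 5240884189) (nat_lit 84) (nat_lit 2129450572) (nat_lit 170) (nat_lit 5) (nat_lit 185) (nat_lit 5) (nat_lit 171) (nat_lit 5) (nat_lit 348) (nat_lit 326) (nat_lit 271)) (XT.nd (nat_lit 94) (nat_lit 1260) (nat_lit 0) (XT.lf (nat_lit 0) (nat_lit 3080108483) (nat_lit 1260) (nat_lit 806472406) (nat_lit 84) (nat_lit 5035874832) (nat_lit 170) (nat_lit 5) (nat_lit 185) (nat_lit 5) (nat_lit 171) (nat_lit 5) (nat_lit 349) (nat_lit 326) (nat_lit 270)) (XT.lf (nat_lit 0) (nat_lit 3800343661) (nat_lit 1260) (nat_lit 978039859) (nat_lit 1344) (nat_lit 4270561746) (nat_lit 155) (nat_lit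 5) (nat_lit 170) (nat_lit 5) (nat_lit 171) (nat_lit 5) (nat_lit 350) (nat_lit 326) (nat_lit 269)))) (XT.nd (nat_lit 94) (nat_lit 672) (nat_lit 0) (XT.lf (nat_lit 0) (nat_lit 6517605390) (nat_lit 1344) (nat_lit 672243752) (nat_lit 84) (nat_lit 1989752696) (nat_lit 155) (nat_lit 5) (nat_lit 171) (nat_lit 5) (nat_lit 156) (nat_lit 5) (nat_lit 351) (nat_lit 326) (nat_lit 268)) (XT.nd (nat_lit 94) (nat_lit 84) (nat_lit 0) (XT.lf (nat_lit 0) (nat_lit 4076632096) (nat_lit 588) (nat_lit 4244716482) (nat_lit 672) (nat_lit 992529378) (nat_lit 148) (nat_lit 5) (nat_lit 155) (nat_lit 5) (nat_lit 156) (nat_lit 5) (nat_lit 352) (nat_lit 326) (nat_lit 267)) (XT.lf (nat_lit 0) (nat_lit 683477432) (nat_lit 672) (nat_lit 512366163) (nat_lit 84) (nat_lit 8257075990) (nat_lit 147) (nat_lit 5) (nat_lit 155) (nat_lit 5) (nat_lit 148) (nat_lit 5) (nat_lit 353) (nat_lit 326) (nat_lit 266))))) (XT.nd (nat_lit 282) (nat_lit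 1176) (nat_lit 0) (XT.nd (nat_lit 94) (nat_lit 588) (nat_lit 0) (XT.lf (nat_lit 0) (nat_lit 2416133733) (nat_lit 672) (nat_lit 5218753383) (nat_lit 84) (nat_lit 1960225225) (nat_lit 140) (nat_lit 5) (nat_lit 148) (nat_lit 5) (nat_lit 141) (nat_lit 5) (nat_lit 354) (nat_lit 326) (nat_lit 265)) (XT.nd (nat_lit 94) (nat_lit 588) (nat_lit 0) (XT.lf (nat_lit 0) (nat_lit 4183383403) (nat_lit 672) (nat_lit 365891537) (nat_lit 84) (nat_lit 5192879894) (nat_lit 140) (nat_lit 5) (nat_lit 148) (nat_lit 5) (nat_lit 141) (nat_lit 5) (nat_lit 355) (nat_lit 326) (nat_lit 264)) (XT.lf (nat_lit 0) (nat_lit 4690261170) (nat_lit 588) (nat_lit 1325027017) (nat_lit 672) (nat_lit 3878031831) (nat_lit 133) (nat_lit 5) (nat_lit 140) (nat_lit 5) (nat_lit 141) (nat_lit 5) (nat_lit 356) (nat_lit 326) (nat_lit 263)))) (XT.nd (nat_lit 188) (nat_lit 588) (nat_lit 0) (XT.nd (nat_lit 94) (nat_lit 588) (nat_lit 0) (XT.lf (nat_lit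 0) (nat_lit 7892265391) (nat_lit 672) (nat_lit 197056629) (nat_lit 84) (nat_lit 1960053463) (nat_lit 133) (nat_lit 5) (nat_lit 141) (nat_lit 5) (nat_lit 134) (nat_lit 5) (nat_lit 357) (nat_lit 326) (nat_lit 262)) (XT.lf (nat_lit 0) (nat_lit 5010256937) (nat_lit 588) (nat_lit 4844728747) (nat_lit 672) (nat_lit 354300985) (nat_lit 126) (nat_lit 5) (nat_lit 133) (nat_lit 5) (nat_lit 134) (nat_lit 5) (nat_lit 358) (nat_lit 326) (nat_lit 261))) (XT.nd (nat_lit 94) (nat_lit 504) (nat_lit 0) (XT.lf (nat_lit 0) (nat_lit 1443678958) (nat_lit 672) (nat_lit 44441585) (nat_lit 84) (nat_lit 8886382901) (nat_lit 125) (nat_lit 5) (nat_lit 133) (nat_lit 5) (nat_lit 126) (nat_lit 5) (nat_lit 359) (nat_lit 326) (nat_lit 260)) (XT.lf (nat_lit 0) (nat_lit 3328504432) (nat_lit 588) (nat_lit 5231010341) (nat_lit 84) (nat_lit 1983908124) (nat_lit 119) (nat_lit 5) (nat_lit 126) (nat_lit 5) (nat_lit 120) (nat_lit 5) (nat_lit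 360) (nat_lit 326) (nat_lit 259)))))) (XT.nd (nat_lit 56400) (nat_lit 0) (nat_lit 10248) (XT.nd (nat_lit 56118) (nat_lit 0) (nat_lit 11004) (XT.nd (nat_lit 94) (nat_lit 420) (nat_lit 0) (XT.lf (nat_lit 0) (nat_lit 66554232) (nat_lit 504) (nat_lit 5189022651) (nat_lit 588) (nat_lit 5462312689) (nat_lit 113) (nat_lit 5) (nat_lit 119) (nat_lit 5) (nat_lit 120) (nat_lit 5) (nat_lit 361) (nat_lit 326) (nat_lit 258)) (XT.nd (nat_lit 94) (nat_lit 420) (nat_lit 0) (XT.lf (nat_lit 0) (nat_lit 5597111656) (nat_lit 504) (nat_lit 1666606789) (nat_lit 588) (nat_lit 3633223324) (nat_lit 113) (nat_lit 5) (nat_lit 119) (nat_lit 5) (nat_lit 120) (nat_lit 5) (nat_lit 362) (nat_lit 326) (nat_lit 257)) (XT.lf (nat_lit 0) (nat_lit 163481354) (nat_lit 420) (nat_lit 9160310893) (nat_lit 504) (nat_lit 1757870442) (nat_lit 108) (nat_lit 5) (nat_lit 113) (nat_lit 5) (nat_lit 114) (nat_lit 5) (nat_lit 363) (nat_lit 326) (nat_lit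 256)))) (XT.nd (nat_lit 94) (nat_lit 0) (nat_lit 0) (XT.lf (nat_lit 0) (nat_lit 70669234) (nat_lit 0) (nat_lit 70669234) (nat_lit 756) (nat_lit 3396511534) (nat_lit 239) (nat_lit 5) (nat_lit 239) (nat_lit 3) (nat_lit 248) (nat_lit 3) (nat_lit 327) (nat_lit 327) (nat_lit 291)) (XT.nd (nat_lit 94) (nat_lit 0) (nat_lit 0) (XT.lf (nat_lit 0) (nat_lit 1917605303) (nat_lit 756) (nat_lit 3809746490) (nat_lit 840) (nat_lit 1401684457) (nat_lit 239) (nat_lit 5) (nat_lit 248) (nat_lit 3) (nat_lit 249) (nat_lit 5) (nat_lit 328) (nat_lit 327) (nat_lit 290)) (XT.lf (nat_lit 0) (nat_lit 3540179324) (nat_lit 756) (nat_lit 626692646) (nat_lit 840) (nat_lit 3019094050) (nat_lit 239) (nat_lit 5) (nat_lit 248) (nat_lit 3) (nat_lit 249) (nat_lit 5) (nat_lit 329) (nat_lit 327) (nat_lit 289))))) (XT.nd (nat_lit 282) (nat_lit 0) (nat_lit 0) (XT.nd (nat_lit 94) (nat_lit 756) (nat_lit 0) (XT.lf (nat_lit 84) (nat_lit 2671061975)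 (nat_lit 0) (nat_lit 2505072056) (nat_lit 840) (nat_lit 2069675510) (nat_lit 240) (nat_lit 5) (nat_lit 239) (nat_lit 5) (nat_lit 249) (nat_lit 5) (nat_lit 330) (nat_lit 327) (nat_lit 288)) (XT.nd (nat_lit 94) (nat_lit 756) (nat_lit 0) (XT.lf (nat_lit 84) (nat_lit 6048005618) (nat_lit 0) (nat_lit 759980332) (nat_lit 840) (nat_lit 501200543) (nat_lit 240) (nat_lit 5) (nat_lit 239) (nat_lit 5) (nat_lit 249) (nat_lit 5) (nat_lit 331) (nat_lit 327) (nat_lit 287)) (XT.lf (nat_lit 0) (nat_lit 1065296778) (nat_lit 840) (nat_lit 5235843425) (nat_lit 924) (nat_lit 1073956313) (nat_lit 230) (nat_lit 5) (nat_lit 240) (nat_lit 5) (nat_lit 241) (nat_lit 5) (nat_lit 332) (nat_lit 327) (nat_lit 286)))) (XT.nd (nat_lit 188) (nat_lit 0) (nat_lit 0) (XT.nd (nat_lit 94) (nat_lit 0) (nat_lit 0) (XT.lf (nat_lit 0) (nat_lit 2632242317) (nat_lit 840) (nat_lit 1822356948) (nat_lit 924) (nat_lit 2989460470) (nat_lit 230) (nat_lit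 5) (nat_lit 240) (nat_lit 5) (nat_lit 241) (nat_lit 5) (nat_lit 333) (nat_lit 327) (nat_lit 285)) (XT.lf (nat_lit 84) (nat_lit 1692883732) (nat_lit 0) (nat_lit 2514382442) (nat_lit 924) (nat_lit 3309120347) (nat_lit 231) (nat_lit 5) (nat_lit 230) (nat_lit 5) (nat_lit 241) (nat_lit 5) (nat_lit 334) (nat_lit 327) (nat_lit 284))) (XT.nd (nat_lit 94) (nat_lit 0) (nat_lit 84) (XT.lf (nat_lit 84) (nat_lit 5317583758) (nat_lit 0) (nat_lit 476443376) (nat_lit 924) (nat_lit 1798044466) (nat_lit 231) (nat_lit 5) (nat_lit 230) (nat_lit 5) (nat_lit 241) (nat_lit 5) (nat_lit 335) (nat_lit 327) (nat_lit 283)) (XT.lf (nat_lit 84) (nat_lit 1357627331) (nat_lit 0) (nat_lit 6047258095) (nat_lit 924) (nat_lit 265966464) (nat_lit 232) (nat_lit 5) (nat_lit 231) (nat_lit 5) (nat_lit 242) (nat_lit 5) (nat_lit 336) (nat_lit 327) (nat_lit 282))))))) (XT.nd (nat_lit 1222) (nat_lit 4788) (nat_lit 0) (XT.nd (nat_lit 564) (nat_lit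 3276) (nat_lit 0) (XT.nd (nat_lit 282) (nat_lit 924) (nat_lit 0) (XT.nd (nat_lit 94) (nat_lit 0) (nat_lit 0) (XT.lf (nat_lit 0) (nat_lit 1262804116) (nat_lit 924) (nat_lit 2658600842) (nat_lit 1008) (nat_lit 3831034885) (nat_lit 220) (nat_lit 5) (nat_lit 231) (nat_lit 5) (nat_lit 232) (nat_lit 5) (nat_lit 337) (nat_lit 327) (nat_lit 281)) (XT.nd (nat_lit 94) (nat_lit 0) (nat_lit 84) (XT.lf (nat_lit 84) (nat_lit 1090256582) (nat_lit 0) (nat_lit 1702239075) (nat_lit 1008) (nat_lit 5045198027) (nat_lit 221) (nat_lit 5) (nat_lit 220) (nat_lit 5) (nat_lit 232) (nat_lit 5) (nat_lit 338) (nat_lit 327) (nat_lit 280)) (XT.lf (nat_lit 0) (nat_lit 4352003551) (nat_lit 924) (nat_lit 2959929631) (nat_lit 1008) (nat_lit 614160358) (nat_lit 221) (nat_lit 5) (nat_lit 232) (nat_lit 5) (nat_lit 233) (nat_lit 5) (nat_lit 339) (nat_lit 327) (nat_lit 279)))) (XT.nd (nat_lit 94) (nat_lit 1008) (nat_lit 0) (XT.lf (nat_lit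 84) (nat_lit 907659415) (nat_lit 0) (nat_lit 5028841500) (nat_lit 1008) (nat_lit 2081401426) (nat_lit 222) (nat_lit 5) (nat_lit 221) (nat_lit 5) (nat_lit 233) (nat_lit 5) (nat_lit 340) (nat_lit 327) (nat_lit 278)) (XT.nd (nat_lit 94) (nat_lit 1008) (nat_lit 0) (XT.lf (nat_lit 84) (nat_lit 4917887556) (nat_lit 0) (nat_lit 2634212929) (nat_lit 1008) (nat_lit 560957976) (nat_lit 222) (nat_lit 5) (nat_lit 221) (nat_lit 5) (nat_lit 233) (nat_lit 5) (nat_lit 341) (nat_lit 327) (nat_lit 277)) (XT.lf (nat_lit 84) (nat_lit 809414025) (nat_lit 0) (nat_lit 138338687) (nat_lit 1092) (nat_lit 7264253024) (nat_lit 210) (nat_lit 5) (nat_lit 209) (nat_lit 5) (nat_lit 222) (nat_lit 5) (nat_lit 342) (nat_lit 327) (nat_lit 276))))) (XT.nd (nat_lit 282) (nat_lit 2352) (nat_lit 0) (XT.nd (nat_lit 94) (nat_lit 1008) (nat_lit 0) (XT.lf (nat_lit 0) (nat_lit 2502007610) (nat_lit 1008) (nat_lit 3377843112) (nat_lit 84) (nat_lit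 2433648940) (nat_lit 210) (nat_lit 5) (nat_lit 222) (nat_lit 5) (nat_lit 211) (nat_lit 5) (nat_lit 343) (nat_lit 327) (nat_lit 275)) (XT.nd (nat_lit 94) (nat_lit 0) (nat_lit 0) (XT.lf (nat_lit 0) (nat_lit 746605784) (nat_lit 1008) (nat_lit 3321715690) (nat_lit 1092) (nat_lit 4350842906) (nat_lit 198) (nat_lit 5) (nat_lit 210) (nat_lit 5) (nat_lit 211) (nat_lit 5) (nat_lit 344) (nat_lit 327) (nat_lit 274)) (XT.lf (nat_lit 0) (nat_lit 5030124880) (nat_lit 1008) (nat_lit 643424125) (nat_lit 1092) (nat_lit 2854778634) (nat_lit 198) (nat_lit 5) (nat_lit 210) (nat_lit 5) (nat_lit 211) (nat_lit 5) (nat_lit 345) (nat_lit 327) (nat_lit 273)))) (XT.nd (nat_lit 188) (nat_lit 1176) (nat_lit 0) (XT.nd (nat_lit 94) (nat_lit 84) (nat_lit 0) (XT.lf (nat_lit 0) (nat_lit 761604679) (nat_lit 1092) (nat_lit 6552103072) (nat_lit 1176) (nat_lit 1327538622) (nat_lit 185) (nat_lit 5) (nat_lit 198) (nat_lit 5) (nat_lit 199)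 (nat_lit 5) (nat_lit 346) (nat_lit 327) (nat_lit 272)) (XT.lf (nat_lit 0) (nat_lit 242281675) (nat_lit 1176) (nat_lit 3579513691) (nat_lit 84) (nat_lit 4935718879) (nat_lit 184) (nat_lit 5) (nat_lit 198) (nat_lit 5) (nat_lit 185) (nat_lit 5) (nat_lit 347) (nat_lit 327) (nat_lit 271))) (XT.nd (nat_lit 94) (nat_lit 0) (nat_lit 0) (XT.lf (nat_lit 0) (nat_lit 818606936) (nat_lit 1176) (nat_lit 982464501) (nat_lit 1260) (nat_lit 7076824385) (nat_lit 170) (nat_lit 5) (nat_lit 184) (nat_lit 5) (nat_lit 185) (nat_lit 5) (nat_lit 348) (nat_lit 327) (nat_lit 270)) (XT.lf (nat_lit 0) (nat_lit 3423355858) (nat_lit 1260) (nat_lit 3632569241) (nat_lit 84) (nat_lit 1945536283) (nat_lit 170) (nat_lit 5) (nat_lit 185) (nat_lit 5) (nat_lit 171) (nat_lit 5) (nat_lit 349) (nat_lit 327) (nat_lit 269)))))) (XT.nd (nat_lit 564) (nat_lit 2268) (nat_lit 0) (XT.nd (nat_lit 282) (nat_lit 672) (nat_lit 0) (XT.nd (nat_lit 94)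 (nat_lit 588) (nat_lit 0) (XT.lf (nat_lit 0) (nat_lit 901033772) (nat_lit 1260) (nat_lit 4174342219) (nat_lit 1344) (nat_lit 4053998198) (nat_lit 155) (nat_lit 5) (nat_lit 170) (nat_lit 5) (nat_lit 171) (nat_lit 5) (nat_lit 350) (nat_lit 327) (nat_lit 268)) (XT.nd (nat_lit 94) (nat_lit 588) (nat_lit 0) (XT.lf (nat_lit 0) (nat_lit 5611666830) (nat_lit 1260) (nat_lit 1165415811) (nat_lit 1344) (nat_lit 2484108151) (nat_lit 155) (nat_lit 5) (nat_lit 170) (nat_lit 5) (nat_lit 171) (nat_lit 5) (nat_lit 351) (nat_lit 327) (nat_lit 267)) (XT.lf (nat_lit 0) (nat_lit 1034627583) (nat_lit 588) (nat_lit 7488284925) (nat_lit 672) (nat_lit 874325372) (nat_lit 148) (nat_lit 5) (nat_lit 155) (nat_lit 5) (nat_lit 156) (nat_lit 5) (nat_lit 352) (nat_lit 327) (nat_lit 266)))) (XT.nd (nat_lit 94) (nat_lit 588) (nat_lit 0) (XT.lf (nat_lit 0) (nat_lit 782055509) (nat_lit 672) (nat_lit 3655647291) (nat_lit 84) (nat_lit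 5099093843) (nat_lit 147) (nat_lit 5) (nat_lit 155) (nat_lit 5) (nat_lit 148) (nat_lit 5) (nat_lit 353) (nat_lit 327) (nat_lit 265)) (XT.nd (nat_lit 94) (nat_lit 0) (nat_lit 0) (XT.lf (nat_lit 0) (nat_lit 1173698877) (nat_lit 588) (nat_lit 1274003939) (nat_lit 672) (nat_lit 7233327575) (nat_lit 140) (nat_lit 5) (nat_lit 147) (nat_lit 5) (nat_lit 148) (nat_lit 5) (nat_lit 354) (nat_lit 327) (nat_lit 264)) (XT.lf (nat_lit 0) (nat_lit 4186229116) (nat_lit 672) (nat_lit 3658882711) (nat_lit 84) (nat_lit 1983852582) (nat_lit 140) (nat_lit 5) (nat_lit 148) (nat_lit 5) (nat_lit 141) (nat_lit 5) (nat_lit 355) (nat_lit 327) (nat_lit 263))))) (XT.nd (nat_lit 282) (nat_lit 1092) (nat_lit 0) (XT.nd (nat_lit 94) (nat_lit 588) (nat_lit 0) (XT.lf (nat_lit 0) (nat_lit 1315236795) (nat_lit 588) (nat_lit 4654457350) (nat_lit 672) (nat_lit 4011917599) (nat_lit 133) (nat_lit 5) (nat_lit 140) (nat_lit 5) (nat_lit 141)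 (nat_lit 5) (nat_lit 356) (nat_lit 327) (nat_lit 262)) (XT.nd (nat_lit 94) (nat_lit 588) (nat_lit 0) (XT.lf (nat_lit 0) (nat_lit 6481071429) (nat_lit 588) (nat_lit 1330698731) (nat_lit 672) (nat_lit 2326972198) (nat_lit 133) (nat_lit 5) (nat_lit 140) (nat_lit 5) (nat_lit 141) (nat_lit 5) (nat_lit 357) (nat_lit 327) (nat_lit 261)) (XT.lf (nat_lit 0) (nat_lit 1477466336) (nat_lit 588) (nat_lit 8235042061) (nat_lit 672) (nat_lit 588031904) (nat_lit 126) (nat_lit 5) (nat_lit 133) (nat_lit 5) (nat_lit 134) (nat_lit 5) (nat_lit 358) (nat_lit 327) (nat_lit 260)))) (XT.nd (nat_lit 188) (nat_lit 504) (nat_lit 0) (XT.nd (nat_lit 94) (nat_lit 504) (nat_lit 0) (XT.lf (nat_lit 0) (nat_lit 1199394890) (nat_lit 672) (nat_lit 3682438742) (nat_lit 84) (nat_lit 5584469997) (nat_lit 125) (nat_lit 5) (nat_lit 133) (nat_lit 5) (nat_lit 126) (nat_lit 5) (nat_lit 359) (nat_lit 327) (nat_lit 259)) (XT.lf (nat_lit 0) (nat_lit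 1606004835) (nat_lit 504) (nat_lit 1408270749) (nat_lit 588) (nat_lit 7623070819) (nat_lit 119) (nat_lit 5) (nat_lit 125) (nat_lit 5) (nat_lit 126) (nat_lit 5) (nat_lit 360) (nat_lit 327) (nat_lit 258))) (XT.nd (nat_lit 94) (nat_lit 504) (nat_lit 0) (XT.lf (nat_lit 0) (nat_lit 4912763623) (nat_lit 588) (nat_lit 3737557025) (nat_lit 84) (nat_lit 2162374215) (nat_lit 119) (nat_lit 5) (nat_lit 126) (nat_lit 5) (nat_lit 120) (nat_lit 5) (nat_lit 361) (nat_lit 327) (nat_lit 257)) (XT.lf (nat_lit 0) (nat_lit 1702754254) (nat_lit 504) (nat_lit 5167367888) (nat_lit 588) (nat_lit 4123171955) (nat_lit 113) (nat_lit 5) (nat_lit 119) (nat_lit 5) (nat_lit 120) (nat_lit 5) (nat_lit 362) (nat_lit 327) (nat_lit 256))))))))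
noncomputable def xc20 : XT := (XT.nd (nat_lit 58374) (nat_lit 0) (nat_lit 0) (XT.nd (nat_lit 57152) (nat_lit 0) (nat_lit 3528) (XT.nd (nat_lit 56494) (nat_lit 0) (nat_lit 8904) (XT.nd (nat_lit 56212) (nat_lit 0) (nat_lit 9744) (XT.nd (nat_lit 56024) (nat_lit 0) (nat_lit 10584) (XT.lf (nat_lit 0) (nat_lit 7351630244) (nat_lit 504) (nat_lit 1544444368) (nat_lit 588) (nat_lit 2282986903) (nat_lit 113) (nat_lit 5) (nat_lit 119) (nat_lit 5) (nat_lit 120) (nat_lit 5) (nat_lit 363) (nat_lit 327) (nat_lit 255)) (XT.nd (nat_lit 94) (nat_lit 0) (nat_lit 0) (XT.lf (nat_lit 0) (nat_lit 873490877) (nat_lit 0) (nat_lit 873490877) (nat_lit 756) (nat_lit 1845120330) (nat_lit 239) (nat_lit 5) (nat_lit 239) (nat_lit 3) (nat_lit 248) (nat_lit 3) (nat_lit 328) (nat_lit 328) (nat_lit 289)) (XT.lf (nat_lit 0) (nat_lit 4988207668) (nat_lit 0) (nat_lit 82292173) (nat_lit 756) (nat_lit 2172087622) (nat_lit 239) (nat_lit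 5) (nat_lit 239) (nat_lit 3) (nat_lit 248) (nat_lit 3) (nat_lit 329) (nat_lit 328) (nat_lit 288)))) (XT.nd (nat_lit 94) (nat_lit 840) (nat_lit 0) (XT.lf (nat_lit 84) (nat_lit 995733159) (nat_lit 0) (nat_lit 5664665214) (nat_lit 840) (nat_lit 643484583) (nat_lit 240) (nat_lit 5) (nat_lit 239) (nat_lit 5) (nat_lit 249) (nat_lit 5) (nat_lit 330) (nat_lit 328) (nat_lit 287)) (XT.nd (nat_lit 94) (nat_lit 0) (nat_lit 0) (XT.lf (nat_lit 0) (nat_lit 878130456) (nat_lit 840) (nat_lit 3019700994) (nat_lit 924) (nat_lit 3470092264) (nat_lit 229) (nat_lit 5) (nat_lit 239) (nat_lit 5) (nat_lit 240) (nat_lit 5) (nat_lit 331) (nat_lit 328) (nat_lit 286)) (XT.lf (nat_lit 84) (nat_lit 335598864) (nat_lit 0) (nat_lit 2043306720) (nat_lit 924) (nat_lit 5056526199) (nat_lit 230) (nat_lit 5) (nat_lit 229) (nat_lit 5) (nat_lit 240) (nat_lit 5) (nat_lit 332) (nat_lit 328) (nat_lit 285))))) (XT.nd (nat_lit 282) (nat_lit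 840) (nat_lit 0) (XT.nd (nat_lit 94) (nat_lit 0) (nat_lit 84) (XT.lf (nat_lit 84) (nat_lit 3821792140) (nat_lit 0) (nat_lit 77973360) (nat_lit 924) (nat_lit 3606074518) (nat_lit 230) (nat_lit 5) (nat_lit 229) (nat_lit 5) (nat_lit 240) (nat_lit 5) (nat_lit 333) (nat_lit 328) (nat_lit 284)) (XT.nd (nat_lit 94) (nat_lit 0) (nat_lit 0) (XT.lf (nat_lit 0) (nat_lit 5431365209) (nat_lit 840) (nat_lit 217202049) (nat_lit 924) (nat_lit 1930962902) (nat_lit 230) (nat_lit 5) (nat_lit 240) (nat_lit 5) (nat_lit 241) (nat_lit 5) (nat_lit 334) (nat_lit 328) (nat_lit 283)) (XT.lf (nat_lit 84) (nat_lit 3387223052) (nat_lit 0) (nat_lit 3602987733) (nat_lit 924) (nat_lit 665900780) (nat_lit 231) (nat_lit 5) (nat_lit 230) (nat_lit 5) (nat_lit 241) (nat_lit 5) (nat_lit 335) (nat_lit 328) (nat_lit 282)))) (XT.nd (nat_lit 188) (nat_lit 0) (nat_lit 84) (XT.nd (nat_lit 94) (nat_lit 0) (nat_lit 84) (XT.lf (nat_lit 0) (nat_lit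 794810645) (nat_lit 924) (nat_lit 671563903) (nat_lit 1008) (nat_lit 6269956934) (nat_lit 219) (nat_lit 5) (nat_lit 230) (nat_lit 5) (nat_lit 231) (nat_lit 5) (nat_lit 336) (nat_lit 328) (nat_lit 281)) (XT.lf (nat_lit 0) (nat_lit 2272978096) (nat_lit 924) (nat_lit 4772002060) (nat_lit 1008) (nat_lit 774278844) (nat_lit 220) (nat_lit 5) (nat_lit 231) (nat_lit 5) (nat_lit 232) (nat_lit 5) (nat_lit 337) (nat_lit 328) (nat_lit 280))) (XT.nd (nat_lit 94) (nat_lit 0) (nat_lit 0) (XT.lf (nat_lit 0) (nat_lit 3768239590) (nat_lit 924) (nat_lit 1060702650) (nat_lit 1008) (nat_lit 3076655801) (nat_lit 220) (nat_lit 5) (nat_lit 231) (nat_lit 5) (nat_lit 232) (nat_lit 5) (nat_lit 338) (nat_lit 328) (nat_lit 279)) (XT.lf (nat_lit 84) (nat_lit 2784172887) (nat_lit 0) (nat_lit 2503747116) (nat_lit 1008) (nat_lit 2707323495) (nat_lit 221) (nat_lit 5) (nat_lit 220) (nat_lit 5) (nat_lit 232) (nat_lit 5) (nat_lit 339)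 (nat_lit 328) (nat_lit 278)))))) (XT.nd (nat_lit 564) (nat_lit 3612) (nat_lit 0) (XT.nd (nat_lit 282) (nat_lit 924) (nat_lit 0) (XT.nd (nat_lit 94) (nat_lit 924) (nat_lit 0) (XT.lf (nat_lit 84) (nat_lit 6734360588) (nat_lit 0) (nat_lit 83408513) (nat_lit 1008) (nat_lit 1270971945) (nat_lit 221) (nat_lit 5) (nat_lit 220) (nat_lit 5) (nat_lit 232) (nat_lit 5) (nat_lit 340) (nat_lit 328) (nat_lit 277)) (XT.nd (nat_lit 94) (nat_lit 0) (nat_lit 0) (XT.lf (nat_lit 0) (nat_lit 207971468) (nat_lit 1008) (nat_lit 5573651829) (nat_lit 1092) (nat_lit 2403347354) (nat_lit 209) (nat_lit 5) (nat_lit 221) (nat_lit 5) (nat_lit 222) (nat_lit 5) (nat_lit 341) (nat_lit 328) (nat_lit 276)) (XT.lf (nat_lit 0) (nat_lit 1676187818) (nat_lit 1008) (nat_lit 1606549226) (nat_lit 1092) (nat_lit 5001950667) (nat_lit 209) (nat_lit 5) (nat_lit 221) (nat_lit 5) (nat_lit 222) (nat_lit 5) (nat_lit 342) (nat_lit 328) (nat_lit 275))))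 (XT.nd (nat_lit 94) (nat_lit 924) (nat_lit 0) (XT.lf (nat_lit 84) (nat_lit 2496159186) (nat_lit 0) (nat_lit 673385196) (nat_lit 1092) (nat_lit 5218508006) (nat_lit 210) (nat_lit 5) (nat_lit 209) (nat_lit 5) (nat_lit 222) (nat_lit 5) (nat_lit 343) (nat_lit 328) (nat_lit 274)) (XT.nd (nat_lit 94) (nat_lit 1008) (nat_lit 0) (XT.lf (nat_lit 0) (nat_lit 4701588021) (nat_lit 1008) (nat_lit 1791916696) (nat_lit 84) (nat_lit 2001283021) (nat_lit 210) (nat_lit 5) (nat_lit 222) (nat_lit 5) (nat_lit 211) (nat_lit 5) (nat_lit 344) (nat_lit 328) (nat_lit 273)) (XT.lf (nat_lit 0) (nat_lit 2439723885) (nat_lit 1008) (nat_lit 3829348170) (nat_lit 1092) (nat_lit 2336052533) (nat_lit 198) (nat_lit 5) (nat_lit 210) (nat_lit 5) (nat_lit 211) (nat_lit 5) (nat_lit 345) (nat_lit 328) (nat_lit 272))))) (XT.nd (nat_lit 282) (nat_lit 2436) (nat_lit 0) (XT.nd (nat_lit 94) (nat_lit 1176) (nat_lit 0) (XT.lf (nat_lit 0) (nat_lit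 6803086808) (nat_lit 1008) (nat_lit 1058824915) (nat_lit 1092) (nat_lit 857591254) (nat_lit 198) (nat_lit 5) (nat_lit 210) (nat_lit 5) (nat_lit 211) (nat_lit 5) (nat_lit 346) (nat_lit 328) (nat_lit 271)) (XT.nd (nat_lit 94) (nat_lit 0) (nat_lit 0) (XT.lf (nat_lit 0) (nat_lit 654540727) (nat_lit 1176) (nat_lit 6385319122) (nat_lit 84) (nat_lit 1797268799) (nat_lit 184) (nat_lit 5) (nat_lit 198) (nat_lit 5) (nat_lit 185) (nat_lit 5) (nat_lit 347) (nat_lit 328) (nat_lit 270)) (XT.lf (nat_lit 0) (nat_lit 2186660122) (nat_lit 1176) (nat_lit 2019357474) (nat_lit 84) (nat_lit 4752329422) (nat_lit 184) (nat_lit 5) (nat_lit 198) (nat_lit 5) (nat_lit 185) (nat_lit 5) (nat_lit 348) (nat_lit 328) (nat_lit 269)))) (XT.nd (nat_lit 188) (nat_lit 1260) (nat_lit 0) (XT.nd (nat_lit 94) (nat_lit 0) (nat_lit 0) (XT.lf (nat_lit 0) (nat_lit 2494358325) (nat_lit 1176) (nat_lit 1257306852) (nat_lit 1260) (nat_lit 5332001395)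 (nat_lit 170) (nat_lit 5) (nat_lit 184) (nat_lit 5) (nat_lit 185) (nat_lit 5) (nat_lit 349) (nat_lit 328) (nat_lit 268)) (XT.lf (nat_lit 0) (nat_lit 5365088539) (nat_lit 1260) (nat_lit 2077354147) (nat_lit 84) (nat_lit 1770329173) (nat_lit 170) (nat_lit 5) (nat_lit 185) (nat_lit 5) (nat_lit 171) (nat_lit 5) (nat_lit 350) (nat_lit 328) (nat_lit 267))) (XT.nd (nat_lit 94) (nat_lit 0) (nat_lit 0) (XT.lf (nat_lit 0) (nat_lit 2575941346) (nat_lit 1260) (nat_lit 4453004287) (nat_lit 1344) (nat_lit 2316811885) (nat_lit 155) (nat_lit 5) (nat_lit 170) (nat_lit 5) (nat_lit 171) (nat_lit 5) (nat_lit 351) (nat_lit 328) (nat_lit 266)) (XT.lf (nat_lit 0) (nat_lit 7379896991) (nat_lit 1260) (nat_lit 1349341200) (nat_lit 1344) (nat_lit 753965125) (nat_lit 155) (nat_lit 5) (nat_lit 170) (nat_lit 5) (nat_lit 171) (nat_lit 5) (nat_lit 352) (nat_lit 328) (nat_lit 265))))))) (XT.nd (nat_lit 57152) (nat_lit 0) (nat_lit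 7980) (XT.nd (nat_lit 564) (nat_lit 1680) (nat_lit 0) (XT.nd (nat_lit 282) (nat_lit 588) (nat_lit 0) (XT.nd (nat_lit 94) (nat_lit 588) (nat_lit 0) (XT.lf (nat_lit 0) (nat_lit 849456690) (nat_lit 672) (nat_lit 6926298986) (nat_lit 84) (nat_lit 1848520728) (nat_lit 147) (nat_lit 5) (nat_lit 155) (nat_lit 5) (nat_lit 148) (nat_lit 5) (nat_lit 353) (nat_lit 328) (nat_lit 264)) (XT.nd (nat_lit 94) (nat_lit 588) (nat_lit 0) (XT.lf (nat_lit 0) (nat_lit 2487496543) (nat_lit 672) (nat_lit 2135673086) (nat_lit 84) (nat_lit 5146198572) (nat_lit 147) (nat_lit 5) (nat_lit 155) (nat_lit 5) (nat_lit 148) (nat_lit 5) (nat_lit 354) (nat_lit 328) (nat_lit 263)) (XT.lf (nat_lit 0) (nat_lit 2822576569) (nat_lit 588) (nat_lit 1347058561) (nat_lit 672) (nat_lit 5749387678) (nat_lit 140) (nat_lit 5) (nat_lit 147) (nat_lit 5) (nat_lit 148) (nat_lit 5) (nat_lit 355) (nat_lit 328) (nat_lit 262)))) (XT.nd (nat_lit 94) (nat_lit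 588) (nat_lit 0) (XT.lf (nat_lit 0) (nat_lit 5911977523) (nat_lit 672) (nat_lit 2150746211) (nat_lit 84) (nat_lit 2010208202) (nat_lit 140) (nat_lit 5) (nat_lit 148) (nat_lit 5) (nat_lit 141) (nat_lit 5) (nat_lit 356) (nat_lit 328) (nat_lit 261)) (XT.nd (nat_lit 94) (nat_lit 0) (nat_lit 0) (XT.lf (nat_lit 0) (nat_lit 2956735086) (nat_lit 588) (nat_lit 4761004570) (nat_lit 672) (nat_lit 2513439605) (nat_lit 133) (nat_lit 5) (nat_lit 140) (nat_lit 5) (nat_lit 141) (nat_lit 5) (nat_lit 357) (nat_lit 328) (nat_lit 260)) (XT.lf (nat_lit 0) (nat_lit 8230883365) (nat_lit 588) (nat_lit 1338496877) (nat_lit 672) (nat_lit 825096392) (nat_lit 133) (nat_lit 5) (nat_lit 140) (nat_lit 5) (nat_lit 141) (nat_lit 5) (nat_lit 358) (nat_lit 328) (nat_lit 259))))) (XT.nd (nat_lit 282) (nat_lit 504) (nat_lit 0) (XT.nd (nat_lit 94) (nat_lit 504) (nat_lit 0) (XT.lf (nat_lit 0) (nat_lit 917994353) (nat_lit 672) (nat_lit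 7461503356) (nat_lit 84) (nat_lit 2182304456) (nat_lit 125) (nat_lit 5) (nat_lit 133) (nat_lit 5) (nat_lit 126) (nat_lit 5) (nat_lit 359) (nat_lit 328) (nat_lit 258)) (XT.nd (nat_lit 94) (nat_lit 504) (nat_lit 0) (XT.lf (nat_lit 0) (nat_lit 2703190676) (nat_lit 672) (nat_lit 2219668477) (nat_lit 84) (nat_lit 5810900569) (nat_lit 125) (nat_lit 5) (nat_lit 133) (nat_lit 5) (nat_lit 126) (nat_lit 5) (nat_lit 360) (nat_lit 328) (nat_lit 257)) (XT.lf (nat_lit 0) (nat_lit 3212004453) (nat_lit 504) (nat_lit 1332736189) (nat_lit 588) (nat_lit 6366099226) (nat_lit 119) (nat_lit 5) (nat_lit 125) (nat_lit 5) (nat_lit 126) (nat_lit 5) (nat_lit 361) (nat_lit 328) (nat_lit 256)))) (XT.nd (nat_lit 188) (nat_lit 0) (nat_lit 0) (XT.nd (nat_lit 94) (nat_lit 504) (nat_lit 0) (XT.lf (nat_lit 0) (nat_lit 6459339725) (nat_lit 588) (nat_lit 2294038880) (nat_lit 84) (nat_lit 2339366138) (nat_lit 119) (nat_lit 5) (nat_lit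 126) (nat_lit 5) (nat_lit 120) (nat_lit 5) (nat_lit 362) (nat_lit 328) (nat_lit 255)) (XT.lf (nat_lit 0) (nat_lit 3294230316) (nat_lit 504) (nat_lit 5155242687) (nat_lit 588) (nat_lit 2830135929) (nat_lit 113) (nat_lit 5) (nat_lit 119) (nat_lit 5) (nat_lit 120) (nat_lit 5) (nat_lit 363) (nat_lit 328) (nat_lit 254))) (XT.nd (nat_lit 56024) (nat_lit 0) (nat_lit 10584) (XT.lf (nat_lit 0) (nat_lit 9067706758) (nat_lit 504) (nat_lit 1428499799) (nat_lit 588) (nat_lit 976009340) (nat_lit 113) (nat_lit 5) (nat_lit 119) (nat_lit 5) (nat_lit 120) (nat_lit 5) (nat_lit 364) (nat_lit 328) (nat_lit 253)) (XT.lf (nat_lit 0) (nat_lit 1654433623) (nat_lit 0) (nat_lit 1654433623) (nat_lit 756) (nat_lit 342092800) (nat_lit 239) (nat_lit 5) (nat_lit 239) (nat_lit 3) (nat_lit 248) (nat_lit 3) (nat_lit 329) (nat_lit 329) (nat_lit 287)))))) (XT.nd (nat_lit 564) (nat_lit 924) (nat_lit 0) (XT.nd (nat_lit 282) (nat_lit 756)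 (nat_lit 0) (XT.nd (nat_lit 94) (nat_lit 0) (nat_lit 84) (XT.lf (nat_lit 0) (nat_lit 773341530) (nat_lit 924) (nat_lit 769120894) (nat_lit 924) (nat_lit 5822213854) (nat_lit 228) (nat_lit 3) (nat_lit 239) (nat_lit 3) (nat_lit 239) (nat_lit 5) (nat_lit 330) (nat_lit 329) (nat_lit 286)) (XT.nd (nat_lit 94) (nat_lit 0) (nat_lit 0) (XT.lf (nat_lit 0) (nat_lit 2231986810) (nat_lit 840) (nat_lit 4867919115) (nat_lit 924) (nat_lit 330202256) (nat_lit 229) (nat_lit 5) (nat_lit 239) (nat_lit 5) (nat_lit 240) (nat_lit 5) (nat_lit 331) (nat_lit 329) (nat_lit 285)) (XT.lf (nat_lit 0) (nat_lit 3702379736) (nat_lit 840) (nat_lit 1534462857) (nat_lit 924) (nat_lit 2261747572) (nat_lit 229) (nat_lit 5) (nat_lit 239) (nat_lit 5) (nat_lit 240) (nat_lit 5) (nat_lit 332) (nat_lit 329) (nat_lit 284)))) (XT.nd (nat_lit 94) (nat_lit 840) (nat_lit 0) (XT.lf (nat_lit 84) (nat_lit 1906046691) (nat_lit 0) (nat_lit 3275638364)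 (nat_lit 924) (nat_lit 2388620615) (nat_lit 230) (nat_lit 5) (nat_lit 229) (nat_lit 5) (nat_lit 240) (nat_lit 5) (nat_lit 333) (nat_lit 329) (nat_lit 283)) (XT.nd (nat_lit 94) (nat_lit 840) (nat_lit 0) (XT.lf (nat_lit 84) (nat_lit 5451377808) (nat_lit 0) (nat_lit 1217237262) (nat_lit 924) (nat_lit 976779696) (nat_lit 230) (nat_lit 5) (nat_lit 229) (nat_lit 5) (nat_lit 240) (nat_lit 5) (nat_lit 334) (nat_lit 329) (nat_lit 282)) (XT.lf (nat_lit 0) (nat_lit 439008589) (nat_lit 924) (nat_lit 6360505575) (nat_lit 1008) (nat_lit 924070082) (nat_lit 219) (nat_lit 5) (nat_lit 230) (nat_lit 5) (nat_lit 231) (nat_lit 5) (nat_lit 335) (nat_lit 329) (nat_lit 281))))) (XT.nd (nat_lit 282) (nat_lit 924) (nat_lit 0) (XT.nd (nat_lit 94) (nat_lit 0) (nat_lit 0) (XT.lf (nat_lit 0) (nat_lit 1862125106) (nat_lit 924) (nat_lit 2785161941) (nat_lit 1008) (nat_lit 3157116978) (nat_lit 219) (nat_lit 5) (nat_lit 230) (nat_lit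 5) (nat_lit 231) (nat_lit 5) (nat_lit 336) (nat_lit 329) (nat_lit 280)) (XT.nd (nat_lit 94) (nat_lit 0) (nat_lit 0) (XT.lf (nat_lit 84) (nat_lit 883985670) (nat_lit 0) (nat_lit 2403961814) (nat_lit 1008) (nat_lit 4601006710) (nat_lit 220) (nat_lit 5) (nat_lit 219) (nat_lit 5) (nat_lit 231) (nat_lit 5) (nat_lit 337) (nat_lit 329) (nat_lit 279)) (XT.lf (nat_lit 84) (nat_lit 4689895766) (nat_lit 0) (nat_lit 47408314) (nat_lit 1008) (nat_lit 3239417080) (nat_lit 220) (nat_lit 5) (nat_lit 219) (nat_lit 5) (nat_lit 231) (nat_lit 5) (nat_lit 338) (nat_lit 329) (nat_lit 278)))) (XT.nd (nat_lit 188) (nat_lit 1008) (nat_lit 0) (XT.nd (nat_lit 94) (nat_lit 0) (nat_lit 0) (XT.lf (nat_lit 84) (nat_lit 498556797) (nat_lit 0) (nat_lit 5713426223) (nat_lit 1008) (nat_lit 1855782939) (nat_lit 221) (nat_lit 5) (nat_lit 220) (nat_lit 5) (nat_lit 232) (nat_lit 5) (nat_lit 339) (nat_lit 329) (nat_lit 277)) (XT.lf (nat_lit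 84) (nat_lit 4433546512) (nat_lit 0) (nat_lit 3286222023) (nat_lit 1008) (nat_lit 442204740) (nat_lit 221) (nat_lit 5) (nat_lit 220) (nat_lit 5) (nat_lit 232) (nat_lit 5) (nat_lit 340) (nat_lit 329) (nat_lit 276))) (XT.nd (nat_lit 94) (nat_lit 0) (nat_lit 84) (XT.lf (nat_lit 84) (nat_lit 190633236) (nat_lit 0) (nat_lit 761189969) (nat_lit 1092) (nat_lit 7308248087) (nat_lit 209) (nat_lit 5) (nat_lit 208) (nat_lit 5) (nat_lit 221) (nat_lit 5) (nat_lit 341) (nat_lit 329) (nat_lit 275)) (XT.lf (nat_lit 0) (nat_lit 2391589091) (nat_lit 1008) (nat_lit 4110839280) (nat_lit 1092) (nat_lit 1858257297) (nat_lit 209) (nat_lit 5) (nat_lit 221) (nat_lit 5) (nat_lit 222) (nat_lit 5) (nat_lit 342) (nat_lit 329) (nat_lit 274))))))))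
noncomputable def xc21 : XT := (XT.nd (nat_lit 58468) (nat_lit 0) (nat_lit 1596) (XT.nd (nat_lit 1222) (nat_lit 2856) (nat_lit 0) (XT.nd (nat_lit 564) (nat_lit 3108) (nat_lit 0) (XT.nd (nat_lit 282) (nat_lit 2100) (nat_lit 0) (XT.nd (nat_lit 94) (nat_lit 0) (nat_lit 0) (XT.lf (nat_lit 0) (nat_lit 3840433142) (nat_lit 1008) (nat_lit 72199971) (nat_lit 1092) (nat_lit 4552795131) (nat_lit 209) (nat_lit 5) (nat_lit 221) (nat_lit 5) (nat_lit 222) (nat_lit 5) (nat_lit 343) (nat_lit 329) (nat_lit 273)) (XT.nd (nat_lit 94) (nat_lit 0) (nat_lit 84) (XT.lf (nat_lit 84) (nat_lit 4138074539) (nat_lit 0) (nat_lit 1194007479) (nat_lit 1092) (nat_lit 3241334706) (nat_lit 210) (nat_lit 5) (nat_lit 209) (nat_lit 5) (nat_lit 222) (nat_lit 5) (nat_lit 344) (nat_lit 329) (nat_lit 272)) (XT.lf (nat_lit 0) (nat_lit 6845199695) (nat_lit 1008) (nat_lit 255268213) (nat_lit 84) (nat_lit 1584956739) (nat_lit 210) (nat_lit 5)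 (nat_lit 222) (nat_lit 5) (nat_lit 211) (nat_lit 5) (nat_lit 345) (nat_lit 329) (nat_lit 271)))) (XT.nd (nat_lit 94) (nat_lit 1176) (nat_lit 0) (XT.lf (nat_lit 0) (nat_lit 4087729370) (nat_lit 1008) (nat_lit 4328789845) (nat_lit 1092) (nat_lit 383968343) (nat_lit 198) (nat_lit 5) (nat_lit 210) (nat_lit 5) (nat_lit 211) (nat_lit 5) (nat_lit 346) (nat_lit 329) (nat_lit 270)) (XT.nd (nat_lit 94) (nat_lit 1092) (nat_lit 0) (XT.lf (nat_lit 0) (nat_lit 1058875052) (nat_lit 1092) (nat_lit 394382466) (nat_lit 84) (nat_lit 7466557205) (nat_lit 197) (nat_lit 5) (nat_lit 210) (nat_lit 5) (nat_lit 198) (nat_lit 5) (nat_lit 347) (nat_lit 329) (nat_lit 269)) (XT.lf (nat_lit 0) (nat_lit 2554866267) (nat_lit 1176) (nat_lit 4957906241) (nat_lit 84) (nat_lit 1529380044) (nat_lit 184) (nat_lit 5) (nat_lit 198) (nat_lit 5) (nat_lit 185) (nat_lit 5) (nat_lit 348) (nat_lit 329) (nat_lit 268))))) (XT.nd (nat_lit 282) (nat_lit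 1932) (nat_lit 0) (XT.nd (nat_lit 94) (nat_lit 1176) (nat_lit 0) (XT.lf (nat_lit 0) (nat_lit 4078171885) (nat_lit 1176) (nat_lit 508120281) (nat_lit 84) (nat_lit 4582465500) (nat_lit 184) (nat_lit 5) (nat_lit 198) (nat_lit 5) (nat_lit 185) (nat_lit 5) (nat_lit 349) (nat_lit 329) (nat_lit 267)) (XT.nd (nat_lit 94) (nat_lit 0) (nat_lit 0) (XT.lf (nat_lit 0) (nat_lit 4125597012) (nat_lit 1176) (nat_lit 1526309322) (nat_lit 1260) (nat_lit 3647180854) (nat_lit 170) (nat_lit 5) (nat_lit 184) (nat_lit 5) (nat_lit 185) (nat_lit 5) (nat_lit 350) (nat_lit 329) (nat_lit 266)) (XT.lf (nat_lit 0) (nat_lit 7259505240) (nat_lit 1260) (nat_lit 571014039) (nat_lit 84) (nat_lit 1603273907) (nat_lit 170) (nat_lit 5) (nat_lit 185) (nat_lit 5) (nat_lit 171) (nat_lit 5) (nat_lit 351) (nat_lit 329) (nat_lit 265)))) (XT.nd (nat_lit 188) (nat_lit 588) (nat_lit 0) (XT.nd (nat_lit 94) (nat_lit 84) (nat_lit 0) (XT.lf (nat_lit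 0) (nat_lit 4206501292) (nat_lit 1260) (nat_lit 4731218605) (nat_lit 1344) (nat_lit 634213066) (nat_lit 155) (nat_lit 5) (nat_lit 170) (nat_lit 5) (nat_lit 171) (nat_lit 5) (nat_lit 352) (nat_lit 329) (nat_lit 264)) (XT.lf (nat_lit 0) (nat_lit 906446895) (nat_lit 1344) (nat_lit 614633039) (nat_lit 84) (nat_lit 8193734161) (nat_lit 154) (nat_lit 5) (nat_lit 170) (nat_lit 5) (nat_lit 155) (nat_lit 5) (nat_lit 353) (nat_lit 329) (nat_lit 263))) (XT.nd (nat_lit 94) (nat_lit 0) (nat_lit 0) (XT.lf (nat_lit 0) (nat_lit 2507930069) (nat_lit 672) (nat_lit 5551909680) (nat_lit 84) (nat_lit 1801191800) (nat_lit 147) (nat_lit 5) (nat_lit 155) (nat_lit 5) (nat_lit 148) (nat_lit 5) (nat_lit 354) (nat_lit 329) (nat_lit 262)) (XT.lf (nat_lit 0) (nat_lit 4147548312) (nat_lit 672) (nat_lit 663647864) (nat_lit 84) (nat_lit 5200793704) (nat_lit 147) (nat_lit 5) (nat_lit 155) (nat_lit 5) (nat_lit 148) (nat_lit 5) (nat_lit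 355) (nat_lit 329) (nat_lit 261)))))) (XT.nd (nat_lit 564) (nat_lit 1008) (nat_lit 0) (XT.nd (nat_lit 282) (nat_lit 672) (nat_lit 0) (XT.nd (nat_lit 94) (nat_lit 588) (nat_lit 0) (XT.lf (nat_lit 0) (nat_lit 4428289521) (nat_lit 588) (nat_lit 1420305178) (nat_lit 672) (nat_lit 4318570483) (nat_lit 140) (nat_lit 5) (nat_lit 147) (nat_lit 5) (nat_lit 148) (nat_lit 5) (nat_lit 356) (nat_lit 329) (nat_lit 260)) (XT.nd (nat_lit 94) (nat_lit 588) (nat_lit 0) (XT.lf (nat_lit 0) (nat_lit 7597642564) (nat_lit 672) (nat_lit 690239865) (nat_lit 84) (nat_lit 2039258006) (nat_lit 140) (nat_lit 5) (nat_lit 148) (nat_lit 5) (nat_lit 141) (nat_lit 5) (nat_lit 357) (nat_lit 329) (nat_lit 259)) (XT.lf (nat_lit 0) (nat_lit 4555514609) (nat_lit 588) (nat_lit 4872647506) (nat_lit 672) (nat_lit 1062935053) (nat_lit 133) (nat_lit 5) (nat_lit 140) (nat_lit 5) (nat_lit 141) (nat_lit 5) (nat_lit 358) (nat_lit 329) (nat_lit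 258)))) (XT.nd (nat_lit 94) (nat_lit 588) (nat_lit 0) (XT.lf (nat_lit 0) (nat_lit 619289467) (nat_lit 672) (nat_lit 722829871) (nat_lit 84) (nat_lit 9318361420) (nat_lit 132) (nat_lit 5) (nat_lit 140) (nat_lit 5) (nat_lit 133) (nat_lit 5) (nat_lit 359) (nat_lit 329) (nat_lit 257)) (XT.nd (nat_lit 94) (nat_lit 0) (nat_lit 0) (XT.lf (nat_lit 0) (nat_lit 2370596260) (nat_lit 672) (nat_lit 6157927654) (nat_lit 84) (nat_lit 2304954631) (nat_lit 125) (nat_lit 5) (nat_lit 133) (nat_lit 5) (nat_lit 126) (nat_lit 5) (nat_lit 360) (nat_lit 329) (nat_lit 256)) (XT.lf (nat_lit 0) (nat_lit 4167841810) (nat_lit 672) (nat_lit 803325713) (nat_lit 84) (nat_lit 6040743160) (nat_lit 125) (nat_lit 5) (nat_lit 133) (nat_lit 5) (nat_lit 126) (nat_lit 5) (nat_lit 361) (nat_lit 329) (nat_lit 255))))) (XT.nd (nat_lit 56306) (nat_lit 0) (nat_lit 9660) (XT.nd (nat_lit 94) (nat_lit 504) (nat_lit 0) (XT.lf (nat_lit 0) (nat_lit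 4776758848) (nat_lit 504) (nat_lit 1261696800) (nat_lit 588) (nat_lit 5156701661) (nat_lit 119) (nat_lit 5) (nat_lit 125) (nat_lit 5) (nat_lit 126) (nat_lit 5) (nat_lit 362) (nat_lit 329) (nat_lit 254)) (XT.nd (nat_lit 94) (nat_lit 504) (nat_lit 0) (XT.lf (nat_lit 0) (nat_lit 7971993697) (nat_lit 588) (nat_lit 896515570) (nat_lit 84) (nat_lit 2515231633) (nat_lit 119) (nat_lit 5) (nat_lit 126) (nat_lit 5) (nat_lit 120) (nat_lit 5) (nat_lit 363) (nat_lit 329) (nat_lit 253)) (XT.lf (nat_lit 0) (nat_lit 4845025776) (nat_lit 504) (nat_lit 5152348608) (nat_lit 588) (nat_lit 1579634987) (nat_lit 113) (nat_lit 5) (nat_lit 119) (nat_lit 5) (nat_lit 120) (nat_lit 5) (nat_lit 364) (nat_lit 329) (nat_lit 252)))) (XT.nd (nat_lit 188) (nat_lit 0) (nat_lit 0) (XT.nd (nat_lit 94) (nat_lit 0) (nat_lit 0) (XT.lf (nat_lit 0) (nat_lit 1094779836) (nat_lit 924) (nat_lit 1309644636) (nat_lit 924) (nat_lit 1309644636)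 (nat_lit 228) (nat_lit 3) (nat_lit 239) (nat_lit 3) (nat_lit 239) (nat_lit 5) (nat_lit 330) (nat_lit 330) (nat_lit 285)) (XT.lf (nat_lit 84) (nat_lit 664244015) (nat_lit 0) (nat_lit 2935303646) (nat_lit 924) (nat_lit 3895544629) (nat_lit 229) (nat_lit 5) (nat_lit 228) (nat_lit 3) (nat_lit 239) (nat_lit 5) (nat_lit 331) (nat_lit 330) (nat_lit 284))) (XT.nd (nat_lit 94) (nat_lit 0) (nat_lit 84) (XT.lf (nat_lit 84) (nat_lit 4071814177) (nat_lit 0) (nat_lit 952703180) (nat_lit 924) (nat_lit 2540480244) (nat_lit 229) (nat_lit 5) (nat_lit 228) (nat_lit 3) (nat_lit 239) (nat_lit 5) (nat_lit 332) (nat_lit 330) (nat_lit 283)) (XT.lf (nat_lit 0) (nat_lit 6450745281) (nat_lit 840) (nat_lit 95126617) (nat_lit 924) (nat_lit 1092492393) (nat_lit 229) (nat_lit 5) (nat_lit 239) (nat_lit 5) (nat_lit 240) (nat_lit 5) (nat_lit 333) (nat_lit 330) (nat_lit 282))))))) (XT.nd (nat_lit 1222) (nat_lit 5460) (nat_lit 0) (XT.nd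 (nat_lit 564) (nat_lit 1764) (nat_lit 0) (XT.nd (nat_lit 282) (nat_lit 0) (nat_lit 84) (XT.nd (nat_lit 94) (nat_lit 0) (nat_lit 0) (XT.lf (nat_lit 0) (nat_lit 193612220) (nat_lit 924) (nat_lit 4282150580) (nat_lit 1008) (nat_lit 3238468441) (nat_lit 218) (nat_lit 5) (nat_lit 229) (nat_lit 5) (nat_lit 230) (nat_lit 5) (nat_lit 334) (nat_lit 330) (nat_lit 281)) (XT.nd (nat_lit 94) (nat_lit 0) (nat_lit 0) (XT.lf (nat_lit 0) (nat_lit 1543532270) (nat_lit 924) (nat_lit 766296033) (nat_lit 1008) (nat_lit 5483768837) (nat_lit 218) (nat_lit 5) (nat_lit 229) (nat_lit 5) (nat_lit 230) (nat_lit 5) (nat_lit 335) (nat_lit 330) (nat_lit 280)) (XT.lf (nat_lit 84) (nat_lit 2882904866) (nat_lit 0) (nat_lit 30360938) (nat_lit 1008) (nat_lit 4962804904) (nat_lit 219) (nat_lit 5) (nat_lit 218) (nat_lit 5) (nat_lit 230) (nat_lit 5) (nat_lit 336) (nat_lit 330) (nat_lit 279)))) (XT.nd (nat_lit 94) (nat_lit 0) (nat_lit 0)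 (XT.lf (nat_lit 0) (nat_lit 4307110325) (nat_lit 924) (nat_lit 1355661704) (nat_lit 1008) (nat_lit 2298858961) (nat_lit 219) (nat_lit 5) (nat_lit 230) (nat_lit 5) (nat_lit 231) (nat_lit 5) (nat_lit 337) (nat_lit 330) (nat_lit 278)) (XT.nd (nat_lit 94) (nat_lit 0) (nat_lit 0) (XT.lf (nat_lit 84) (nat_lit 2408726462) (nat_lit 0) (nat_lit 3311796670) (nat_lit 1008) (nat_lit 2330002435) (nat_lit 220) (nat_lit 5) (nat_lit 219) (nat_lit 5) (nat_lit 231) (nat_lit 5) (nat_lit 338) (nat_lit 330) (nat_lit 277)) (XT.lf (nat_lit 84) (nat_lit 6285176348) (nat_lit 0) (nat_lit 860205322) (nat_lit 1008) (nat_lit 997731169) (nat_lit 220) (nat_lit 5) (nat_lit 219) (nat_lit 5) (nat_lit 231) (nat_lit 5) (nat_lit 339) (nat_lit 330) (nat_lit 276))))) (XT.nd (nat_lit 282) (nat_lit 924) (nat_lit 0) (XT.nd (nat_lit 94) (nat_lit 0) (nat_lit 0) (XT.lf (nat_lit 0) (nat_lit 359389521) (nat_lit 1008) (nat_lit 6208570061) (nat_lit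 1092) (nat_lit 1670736052) (nat_lit 208) (nat_lit 5) (nat_lit 220) (nat_lit 5) (nat_lit 221) (nat_lit 5) (nat_lit 340) (nat_lit 330) (nat_lit 275)) (XT.nd (nat_lit 94) (nat_lit 0) (nat_lit 0) (XT.lf (nat_lit 0) (nat_lit 1721908789) (nat_lit 1008) (nat_lit 2312268984) (nat_lit 1092) (nat_lit 4303218547) (nat_lit 208) (nat_lit 5) (nat_lit 220) (nat_lit 5) (nat_lit 221) (nat_lit 5) (nat_lit 341) (nat_lit 330) (nat_lit 274)) (XT.lf (nat_lit 84) (nat_lit 1705046980) (nat_lit 0) (nat_lit 1395165259) (nat_lit 1092) (nat_lit 5339684855) (nat_lit 209) (nat_lit 5) (nat_lit 208) (nat_lit 5) (nat_lit 221) (nat_lit 5) (nat_lit 342) (nat_lit 330) (nat_lit 273)))) (XT.nd (nat_lit 188) (nat_lit 1008) (nat_lit 0) (XT.nd (nat_lit 94) (nat_lit 0) (nat_lit 0) (XT.lf (nat_lit 0) (nat_lit 4515724812) (nat_lit 1008) (nat_lit 2697712292) (nat_lit 1092) (nat_lit 1332243797) (nat_lit 209) (nat_lit 5) (nat_lit 221) (nat_lit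 5) (nat_lit 222) (nat_lit 5) (nat_lit 343) (nat_lit 330) (nat_lit 272)) (XT.lf (nat_lit 84) (nat_lit 1445542910) (nat_lit 0) (nat_lit 4516608423) (nat_lit 1092) (nat_lit 2692914800) (nat_lit 210) (nat_lit 5) (nat_lit 209) (nat_lit 5) (nat_lit 222) (nat_lit 5) (nat_lit 344) (nat_lit 330) (nat_lit 271))) (XT.nd (nat_lit 94) (nat_lit 1008) (nat_lit 0) (XT.lf (nat_lit 84) (nat_lit 5739293387) (nat_lit 0) (nat_lit 1701522233) (nat_lit 1092) (nat_lit 1327330954) (nat_lit 210) (nat_lit 5) (nat_lit 209) (nat_lit 5) (nat_lit 222) (nat_lit 5) (nat_lit 345) (nat_lit 330) (nat_lit 270)) (XT.lf (nat_lit 0) (nat_lit 63909077) (nat_lit 1092) (nat_lit 7624942969) (nat_lit 84) (nat_lit 1196231965) (nat_lit 197) (nat_lit 5) (nat_lit 210) (nat_lit 5) (nat_lit 198) (nat_lit 5) (nat_lit 346) (nat_lit 330) (nat_lit 269)))))) (XT.nd (nat_lit 564) (nat_lit 1932) (nat_lit 0) (XT.nd (nat_lit 282) (nat_lit 2436) (nat_lit 0)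 (XT.nd (nat_lit 94) (nat_lit 1092) (nat_lit 0) (XT.lf (nat_lit 0) (nat_lit 1481120581) (nat_lit 1092) (nat_lit 3325062387) (nat_lit 84) (nat_lit 4198697272) (nat_lit 197) (nat_lit 5) (nat_lit 210) (nat_lit 5) (nat_lit 198) (nat_lit 5) (nat_lit 347) (nat_lit 330) (nat_lit 268)) (XT.nd (nat_lit 94) (nat_lit 0) (nat_lit 0) (XT.lf (nat_lit 0) (nat_lit 1096024791) (nat_lit 1092) (nat_lit 1819609058) (nat_lit 1176) (nat_lit 6213463135) (nat_lit 184) (nat_lit 5) (nat_lit 197) (nat_lit 5) (nat_lit 198) (nat_lit 5) (nat_lit 348) (nat_lit 330) (nat_lit 267)) (XT.lf (nat_lit 0) (nat_lit 4404242312) (nat_lit 1176) (nat_lit 3580606616) (nat_lit 84) (nat_lit 1271927654) (nat_lit 184) (nat_lit 5) (nat_lit 198) (nat_lit 5) (nat_lit 185) (nat_lit 5) (nat_lit 349) (nat_lit 330) (nat_lit 266)))) (XT.nd (nat_lit 94) (nat_lit 1260) (nat_lit 0) (XT.lf (nat_lit 0) (nat_lit 977295809) (nat_lit 1176) (nat_lit 4953712740)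 (nat_lit 1260) (nat_lit 3457539194) (nat_lit 170) (nat_lit 5) (nat_lit 184) (nat_lit 5) (nat_lit 185) (nat_lit 5) (nat_lit 350) (nat_lit 330) (nat_lit 265)) (XT.nd (nat_lit 94) (nat_lit 1260) (nat_lit 0) (XT.lf (nat_lit 0) (nat_lit 5716428677) (nat_lit 1176) (nat_lit 1790105262) (nat_lit 1260) (nat_lit 2017713649) (nat_lit 170) (nat_lit 5) (nat_lit 184) (nat_lit 5) (nat_lit 185) (nat_lit 5) (nat_lit 351) (nat_lit 330) (nat_lit 264)) (XT.lf (nat_lit 0) (nat_lit 908190802) (nat_lit 1260) (nat_lit 8211785797) (nat_lit 1344) (nat_lit 544384646) (nat_lit 155) (nat_lit 5) (nat_lit 170) (nat_lit 5) (nat_lit 171) (nat_lit 5) (nat_lit 352) (nat_lit 330) (nat_lit 263))))) (XT.nd (nat_lit 282) (nat_lit 1260) (nat_lit 0) (XT.nd (nat_lit 94) (nat_lit 588) (nat_lit 0) (XT.lf (nat_lit 0) (nat_lit 978805675) (nat_lit 1344) (nat_lit 4020787638) (nat_lit 84) (nat_lit 4808123619) (nat_lit 154) (nat_lit 5) (nat_lit 170)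 (nat_lit 5) (nat_lit 155) (nat_lit 5) (nat_lit 353) (nat_lit 330) (nat_lit 262)) (XT.nd (nat_lit 94) (nat_lit 0) (nat_lit 0) (XT.lf (nat_lit 0) (nat_lit 838956950) (nat_lit 588) (nat_lit 1674881976) (nat_lit 672) (nat_lit 7442117072) (nat_lit 147) (nat_lit 5) (nat_lit 154) (nat_lit 5) (nat_lit 155) (nat_lit 5) (nat_lit 354) (nat_lit 330) (nat_lit 261)) (XT.lf (nat_lit 0) (nat_lit 4122417361) (nat_lit 672) (nat_lit 4227112199) (nat_lit 84) (nat_lit 1758343257) (nat_lit 147) (nat_lit 5) (nat_lit 155) (nat_lit 5) (nat_lit 148) (nat_lit 5) (nat_lit 355) (nat_lit 330) (nat_lit 260)))) (XT.nd (nat_lit 188) (nat_lit 672) (nat_lit 0) (XT.nd (nat_lit 94) (nat_lit 0) (nat_lit 0) (XT.lf (nat_lit 0) (nat_lit 779572213) (nat_lit 588) (nat_lit 4994313156) (nat_lit 672) (nat_lit 4490676603) (nat_lit 140) (nat_lit 5) (nat_lit 147) (nat_lit 5) (nat_lit 148) (nat_lit 5) (nat_lit 356) (nat_lit 330) (nat_lit 259)) (XT.lf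 (nat_lit 0) (nat_lit 5994860193) (nat_lit 588) (nat_lit 1493864339) (nat_lit 672) (nat_lit 2936864683) (nat_lit 140) (nat_lit 5) (nat_lit 147) (nat_lit 5) (nat_lit 148) (nat_lit 5) (nat_lit 357) (nat_lit 330) (nat_lit 258))) (XT.nd (nat_lit 94) (nat_lit 84) (nat_lit 0) (XT.lf (nat_lit 0) (nat_lit 740998328) (nat_lit 588) (nat_lit 8513419239) (nat_lit 672) (nat_lit 1337098154) (nat_lit 133) (nat_lit 5) (nat_lit 140) (nat_lit 5) (nat_lit 141) (nat_lit 5) (nat_lit 358) (nat_lit 330) (nat_lit 257)) (XT.lf (nat_lit 0) (nat_lit 336788537) (nat_lit 672) (nat_lit 4649240563) (nat_lit 84) (nat_lit 5775383451) (nat_lit 132) (nat_lit 5) (nat_lit 140) (nat_lit 5) (nat_lit 133) (nat_lit 5) (nat_lit 359) (nat_lit 330) (nat_lit 256))))))))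
noncomputable def xc22 : XT := (XT.nd (nat_lit 58562) (nat_lit 0) (nat_lit 504) (XT.nd (nat_lit 57340) (nat_lit 0) (nat_lit 4788) (XT.nd (nat_lit 56682) (nat_lit 0) (nat_lit 8736) (XT.nd (nat_lit 282) (nat_lit 504) (nat_lit 0) (XT.nd (nat_lit 94) (nat_lit 504) (nat_lit 0) (XT.lf (nat_lit 0) (nat_lit 680299514) (nat_lit 588) (nat_lit 1333280615) (nat_lit 672) (nat_lit 8923088523) (nat_lit 125) (nat_lit 5) (nat_lit 132) (nat_lit 5) (nat_lit 133) (nat_lit 5) (nat_lit 360) (nat_lit 330) (nat_lit 255)) (XT.nd (nat_lit 94) (nat_lit 504) (nat_lit 0) (XT.lf (nat_lit 0) (nat_lit 3784971831) (nat_lit 672) (nat_lit 4902924883) (nat_lit 84) (nat_lit 2428001885) (nat_lit 125) (nat_lit 5) (nat_lit 133) (nat_lit 5) (nat_lit 126) (nat_lit 5) (nat_lit 361) (nat_lit 330) (nat_lit 254)) (XT.lf (nat_lit 0) (nat_lit 581732622) (nat_lit 504) (nat_lit 5020870084) (nat_lit 588) (nat_lit 5698153555) (nat_lit 119) (nat_lit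 5) (nat_lit 125) (nat_lit 5) (nat_lit 126) (nat_lit 5) (nat_lit 362) (nat_lit 330) (nat_lit 253)))) (XT.nd (nat_lit 94) (nat_lit 504) (nat_lit 0) (XT.lf (nat_lit 0) (nat_lit 6304164037) (nat_lit 504) (nat_lit 1194899317) (nat_lit 588) (nat_lit 3991409740) (nat_lit 119) (nat_lit 5) (nat_lit 125) (nat_lit 5) (nat_lit 126) (nat_lit 5) (nat_lit 363) (nat_lit 330) (nat_lit 252)) (XT.nd (nat_lit 56212) (nat_lit 0) (nat_lit 9660) (XT.lf (nat_lit 0) (nat_lit 467889475) (nat_lit 504) (nat_lit 8990926702) (nat_lit 588) (nat_lit 2226914533) (nat_lit 113) (nat_lit 5) (nat_lit 119) (nat_lit 5) (nat_lit 120) (nat_lit 5) (nat_lit 364) (nat_lit 330) (nat_lit 251)) (XT.lf (nat_lit 0) (nat_lit 2485206127) (nat_lit 924) (nat_lit 648217110) (nat_lit 924) (nat_lit 648217110) (nat_lit 228) (nat_lit 3) (nat_lit 239) (nat_lit 3) (nat_lit 239) (nat_lit 5) (nat_lit 331) (nat_lit 331) (nat_lit 283))))) (XT.nd (nat_lit 282)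 (nat_lit 0) (nat_lit 84) (XT.nd (nat_lit 94) (nat_lit 924) (nat_lit 0) (XT.lf (nat_lit 84) (nat_lit 2071865521) (nat_lit 0) (nat_lit 4285091229) (nat_lit 924) (nat_lit 1277440875) (nat_lit 229) (nat_lit 5) (nat_lit 228) (nat_lit 3) (nat_lit 239) (nat_lit 5) (nat_lit 332) (nat_lit 331) (nat_lit 282)) (XT.nd (nat_lit 94) (nat_lit 0) (nat_lit 0) (XT.lf (nat_lit 0) (nat_lit 37862578) (nat_lit 924) (nat_lit 2168018460) (nat_lit 1008) (nat_lit 5502999594) (nat_lit 217) (nat_lit 5) (nat_lit 228) (nat_lit 3) (nat_lit 229) (nat_lit 5) (nat_lit 333) (nat_lit 331) (nat_lit 281)) (XT.lf (nat_lit 84) (nat_lit 1314459775) (nat_lit 0) (nat_lit 15322852) (nat_lit 1008) (nat_lit 6456660434) (nat_lit 218) (nat_lit 5) (nat_lit 217) (nat_lit 5) (nat_lit 229) (nat_lit 5) (nat_lit 334) (nat_lit 331) (nat_lit 280)))) (XT.nd (nat_lit 188) (nat_lit 0) (nat_lit 0) (XT.nd (nat_lit 94) (nat_lit 0) (nat_lit 0) (XT.lf (nat_lit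 0) (nat_lit 2655714812) (nat_lit 924) (nat_lit 2969964274) (nat_lit 1008) (nat_lit 2240901809) (nat_lit 218) (nat_lit 5) (nat_lit 229) (nat_lit 5) (nat_lit 230) (nat_lit 5) (nat_lit 335) (nat_lit 331) (nat_lit 279)) (XT.lf (nat_lit 84) (nat_lit 621533564) (nat_lit 0) (nat_lit 3359030911) (nat_lit 1008) (nat_lit 3969887282) (nat_lit 219) (nat_lit 5) (nat_lit 218) (nat_lit 5) (nat_lit 230) (nat_lit 5) (nat_lit 336) (nat_lit 331) (nat_lit 278))) (XT.nd (nat_lit 94) (nat_lit 0) (nat_lit 84) (XT.lf (nat_lit 84) (nat_lit 4354369484) (nat_lit 0) (nat_lit 974900434) (nat_lit 1008) (nat_lit 2708145591) (nat_lit 219) (nat_lit 5) (nat_lit 218) (nat_lit 5) (nat_lit 230) (nat_lit 5) (nat_lit 337) (nat_lit 331) (nat_lit 277)) (XT.lf (nat_lit 84) (nat_lit 30462417) (nat_lit 0) (nat_lit 6658130160) (nat_lit 1008) (nat_lit 1439388074) (nat_lit 220) (nat_lit 5) (nat_lit 219) (nat_lit 5) (nat_lit 231) (nat_lit 5) (nat_lit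 338) (nat_lit 331) (nat_lit 276)))))) (XT.nd (nat_lit 564) (nat_lit 3108) (nat_lit 0) (XT.nd (nat_lit 282) (nat_lit 0) (nat_lit 84) (XT.nd (nat_lit 94) (nat_lit 1008) (nat_lit 0) (XT.lf (nat_lit 84) (nat_lit 3893205450) (nat_lit 0) (nat_lit 4198893054) (nat_lit 1008) (nat_lit 129156466) (nat_lit 220) (nat_lit 5) (nat_lit 219) (nat_lit 5) (nat_lit 231) (nat_lit 5) (nat_lit 339) (nat_lit 331) (nat_lit 275)) (XT.nd (nat_lit 94) (nat_lit 0) (nat_lit 84) (XT.lf (nat_lit 0) (nat_lit 1153978272) (nat_lit 1008) (nat_lit 485178820) (nat_lit 1092) (nat_lit 6679185103) (nat_lit 207) (nat_lit 5) (nat_lit 219) (nat_lit 5) (nat_lit 220) (nat_lit 5) (nat_lit 340) (nat_lit 331) (nat_lit 274)) (XT.lf (nat_lit 0) (nat_lit 2475503046) (nat_lit 1008) (nat_lit 4915572486) (nat_lit 1092) (nat_lit 1027239709) (nat_lit 208) (nat_lit 5) (nat_lit 220) (nat_lit 5) (nat_lit 221) (nat_lit 5) (nat_lit 341) (nat_lit 331) (nat_lit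 273)))) (XT.nd (nat_lit 94) (nat_lit 0) (nat_lit 0) (XT.lf (nat_lit 0) (nat_lit 3817577548) (nat_lit 1008) (nat_lit 945467463) (nat_lit 1092) (nat_lit 3758899157) (nat_lit 208) (nat_lit 5) (nat_lit 220) (nat_lit 5) (nat_lit 221) (nat_lit 5) (nat_lit 342) (nat_lit 331) (nat_lit 272)) (XT.nd (nat_lit 94) (nat_lit 0) (nat_lit 84) (XT.lf (nat_lit 84) (nat_lit 3178287885) (nat_lit 0) (nat_lit 2013077894) (nat_lit 1092) (nat_lit 3437654009) (nat_lit 209) (nat_lit 5) (nat_lit 208) (nat_lit 5) (nat_lit 221) (nat_lit 5) (nat_lit 343) (nat_lit 331) (nat_lit 271)) (XT.lf (nat_lit 0) (nat_lit 6585769134) (nat_lit 1008) (nat_lit 1330390133) (nat_lit 1092) (nat_lit 823845365) (nat_lit 209) (nat_lit 5) (nat_lit 221) (nat_lit 5) (nat_lit 222) (nat_lit 5) (nat_lit 344) (nat_lit 331) (nat_lit 270))))) (XT.nd (nat_lit 282) (nat_lit 2184) (nat_lit 0) (XT.nd (nat_lit 94) (nat_lit 1092) (nat_lit 0) (XT.lf (nat_lit 84)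 (nat_lit 2922964161) (nat_lit 0) (nat_lit 5110062530) (nat_lit 1092) (nat_lit 821038367) (nat_lit 210) (nat_lit 5) (nat_lit 209) (nat_lit 5) (nat_lit 222) (nat_lit 5) (nat_lit 345) (nat_lit 331) (nat_lit 269)) (XT.nd (nat_lit 94) (nat_lit 0) (nat_lit 84) (XT.lf (nat_lit 0) (nat_lit 518323632) (nat_lit 1092) (nat_lit 1673627549) (nat_lit 1176) (nat_lit 6780200876) (nat_lit 196) (nat_lit 5) (nat_lit 209) (nat_lit 5) (nat_lit 210) (nat_lit 5) (nat_lit 346) (nat_lit 331) (nat_lit 268)) (XT.lf (nat_lit 0) (nat_lit 1880283234) (nat_lit 1092) (nat_lit 6372839918) (nat_lit 84) (nat_lit 840517268) (nat_lit 197) (nat_lit 5) (nat_lit 210) (nat_lit 5) (nat_lit 198) (nat_lit 5) (nat_lit 347) (nat_lit 331) (nat_lit 267)))) (XT.nd (nat_lit 188) (nat_lit 1176) (nat_lit 0) (XT.nd (nat_lit 94) (nat_lit 1092) (nat_lit 0) (XT.lf (nat_lit 0) (nat_lit 3287162825) (nat_lit 1092) (nat_lit 1987094511) (nat_lit 84) (nat_lit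 3944462408) (nat_lit 197) (nat_lit 5) (nat_lit 210) (nat_lit 5) (nat_lit 198) (nat_lit 5) (nat_lit 348) (nat_lit 331) (nat_lit 266)) (XT.lf (nat_lit 0) (nat_lit 2552529990) (nat_lit 1092) (nat_lit 2174557260) (nat_lit 1176) (nat_lit 4620805204) (nat_lit 184) (nat_lit 5) (nat_lit 197) (nat_lit 5) (nat_lit 198) (nat_lit 5) (nat_lit 349) (nat_lit 331) (nat_lit 265))) (XT.nd (nat_lit 94) (nat_lit 1176) (nat_lit 0) (XT.lf (nat_lit 0) (nat_lit 6207337681) (nat_lit 1176) (nat_lit 2249588758) (nat_lit 84) (nat_lit 1024164293) (nat_lit 184) (nat_lit 5) (nat_lit 198) (nat_lit 5) (nat_lit 185) (nat_lit 5) (nat_lit 350) (nat_lit 331) (nat_lit 264)) (XT.lf (nat_lit 0) (nat_lit 2430948426) (nat_lit 1176) (nat_lit 5313981073) (nat_lit 1260) (nat_lit 1873029806) (nat_lit 170) (nat_lit 5) (nat_lit 184) (nat_lit 5) (nat_lit 185) (nat_lit 5) (nat_lit 351) (nat_lit 331) (nat_lit 263))))))) (XT.nd (nat_lit 57434) (nat_lit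 0) (nat_lit 7392) (XT.nd (nat_lit 564) (nat_lit 1764) (nat_lit 0) (XT.nd (nat_lit 282) (nat_lit 1176) (nat_lit 0) (XT.nd (nat_lit 94) (nat_lit 1344) (nat_lit 0) (XT.lf (nat_lit 0) (nat_lit 7270769831) (nat_lit 1176) (nat_lit 2049300605) (nat_lit 1260) (nat_lit 439181404) (nat_lit 170) (nat_lit 5) (nat_lit 184) (nat_lit 5) (nat_lit 185) (nat_lit 5) (nat_lit 352) (nat_lit 331) (nat_lit 262)) (XT.nd (nat_lit 94) (nat_lit 0) (nat_lit 0) (XT.lf (nat_lit 0) (nat_lit 1022359463) (nat_lit 1344) (nat_lit 7557807701) (nat_lit 84) (nat_lit 1324226034) (nat_lit 154) (nat_lit 5) (nat_lit 170) (nat_lit 5) (nat_lit 155) (nat_lit 5) (nat_lit 353) (nat_lit 331) (nat_lit 261)) (XT.lf (nat_lit 0) (nat_lit 2534513591) (nat_lit 1344) (nat_lit 2728151162) (nat_lit 84) (nat_lit 4790681181) (nat_lit 154) (nat_lit 5) (nat_lit 170) (nat_lit 5) (nat_lit 155) (nat_lit 5) (nat_lit 354) (nat_lit 331) (nat_lit 260)))) (XT.nd (nat_lit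 94) (nat_lit 588) (nat_lit 0) (XT.lf (nat_lit 0) (nat_lit 2263530272) (nat_lit 588) (nat_lit 1821062886) (nat_lit 672) (nat_lit 6122451061) (nat_lit 147) (nat_lit 5) (nat_lit 154) (nat_lit 5) (nat_lit 155) (nat_lit 5) (nat_lit 355) (nat_lit 331) (nat_lit 259)) (XT.nd (nat_lit 94) (nat_lit 588) (nat_lit 0) (XT.lf (nat_lit 0) (nat_lit 5696980061) (nat_lit 672) (nat_lit 2948180660) (nat_lit 84) (nat_lit 1719770814) (nat_lit 147) (nat_lit 5) (nat_lit 155) (nat_lit 5) (nat_lit 148) (nat_lit 5) (nat_lit 356) (nat_lit 331) (nat_lit 258)) (XT.lf (nat_lit 0) (nat_lit 2194922473) (nat_lit 588) (nat_lit 5174191099) (nat_lit 672) (nat_lit 3158151353) (nat_lit 140) (nat_lit 5) (nat_lit 147) (nat_lit 5) (nat_lit 148) (nat_lit 5) (nat_lit 357) (nat_lit 331) (nat_lit 257))))) (XT.nd (nat_lit 282) (nat_lit 1092) (nat_lit 0) (XT.nd (nat_lit 94) (nat_lit 672) (nat_lit 0) (XT.lf (nat_lit 0) (nat_lit 7526126477) (nat_lit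 588) (nat_lit 1567853618) (nat_lit 672) (nat_lit 1600460383) (nat_lit 140) (nat_lit 5) (nat_lit 147) (nat_lit 5) (nat_lit 148) (nat_lit 5) (nat_lit 358) (nat_lit 331) (nat_lit 256)) (XT.nd (nat_lit 94) (nat_lit 0) (nat_lit 0) (XT.lf (nat_lit 0) (nat_lit 18835773) (nat_lit 672) (nat_lit 8721255131) (nat_lit 84) (nat_lit 2126137101) (nat_lit 132) (nat_lit 5) (nat_lit 140) (nat_lit 5) (nat_lit 133) (nat_lit 5) (nat_lit 359) (nat_lit 331) (nat_lit 255)) (XT.lf (nat_lit 0) (nat_lit 1676185905) (nat_lit 672) (nat_lit 3418291383) (nat_lit 84) (nat_lit 5947612256) (nat_lit 132) (nat_lit 5) (nat_lit 140) (nat_lit 5) (nat_lit 133) (nat_lit 5) (nat_lit 360) (nat_lit 331) (nat_lit 254)))) (XT.nd (nat_lit 188) (nat_lit 504) (nat_lit 0) (XT.nd (nat_lit 94) (nat_lit 0) (nat_lit 0) (XT.lf (nat_lit 0) (nat_lit 2057699343) (nat_lit 588) (nat_lit 1319908836) (nat_lit 672) (nat_lit 7845831941) (nat_lit 125) (nat_lit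 5) (nat_lit 132) (nat_lit 5) (nat_lit 133) (nat_lit 5) (nat_lit 361) (nat_lit 331) (nat_lit 253)) (XT.lf (nat_lit 0) (nat_lit 5164670183) (nat_lit 672) (nat_lit 3692919029) (nat_lit 84) (nat_lit 2551646556) (nat_lit 125) (nat_lit 5) (nat_lit 133) (nat_lit 5) (nat_lit 126) (nat_lit 5) (nat_lit 362) (nat_lit 331) (nat_lit 252))) (XT.nd (nat_lit 94) (nat_lit 0) (nat_lit 0) (XT.lf (nat_lit 0) (nat_lit 1942973362) (nat_lit 504) (nat_lit 5069895811) (nat_lit 588) (nat_lit 4587551588) (nat_lit 119) (nat_lit 5) (nat_lit 125) (nat_lit 5) (nat_lit 126) (nat_lit 5) (nat_lit 363) (nat_lit 331) (nat_lit 251)) (XT.lf (nat_lit 0) (nat_lit 7797938241) (nat_lit 504) (nat_lit 1132105154) (nat_lit 588) (nat_lit 2866932058) (nat_lit 119) (nat_lit 5) (nat_lit 125) (nat_lit 5) (nat_lit 126) (nat_lit 5) (nat_lit 364) (nat_lit 331) (nat_lit 250)))))) (XT.nd (nat_lit 564) (nat_lit 840) (nat_lit 0) (XT.nd (nat_lit 282) (nat_lit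 0) (nat_lit 0) (XT.nd (nat_lit 94) (nat_lit 924) (nat_lit 0) (XT.lf (nat_lit 0) (nat_lit 3839414395) (nat_lit 924) (nat_lit 7170772) (nat_lit 924) (nat_lit 7170772) (nat_lit 228) (nat_lit 3) (nat_lit 239) (nat_lit 3) (nat_lit 239) (nat_lit 5) (nat_lit 332) (nat_lit 332) (nat_lit 281)) (XT.nd (nat_lit 94) (nat_lit 0) (nat_lit 0) (XT.lf (nat_lit 0) (nat_lit 1237577305) (nat_lit 924) (nat_lit 4352869654) (nat_lit 1008) (nat_lit 2191981940) (nat_lit 217) (nat_lit 5) (nat_lit 228) (nat_lit 3) (nat_lit 229) (nat_lit 5) (nat_lit 333) (nat_lit 332) (nat_lit 280)) (XT.lf (nat_lit 0) (nat_lit 2493043223) (nat_lit 924) (nat_lit 908893495) (nat_lit 1008) (nat_lit 4459200534) (nat_lit 217) (nat_lit 5) (nat_lit 228) (nat_lit 3) (nat_lit 229) (nat_lit 5) (nat_lit 334) (nat_lit 332) (nat_lit 279)))) (XT.nd (nat_lit 94) (nat_lit 0) (nat_lit 84) (XT.lf (nat_lit 84) (nat_lit 2665077072) (nat_lit 0) (nat_lit 1099770667)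 (nat_lit 1008) (nat_lit 4178101954) (nat_lit 218) (nat_lit 5) (nat_lit 217) (nat_lit 5) (nat_lit 229) (nat_lit 5) (nat_lit 335) (nat_lit 332) (nat_lit 278)) (XT.nd (nat_lit 94) (nat_lit 0) (nat_lit 0) (XT.lf (nat_lit 0) (nat_lit 5050679146) (nat_lit 924) (nat_lit 1701111629) (nat_lit 1008) (nat_lit 1276249624) (nat_lit 218) (nat_lit 5) (nat_lit 229) (nat_lit 5) (nat_lit 230) (nat_lit 5) (nat_lit 336) (nat_lit 332) (nat_lit 277)) (XT.lf (nat_lit 84) (nat_lit 1984817893) (nat_lit 0) (nat_lit 4375946176) (nat_lit 1008) (nat_lit 1755446560) (nat_lit 219) (nat_lit 5) (nat_lit 218) (nat_lit 5) (nat_lit 230) (nat_lit 5) (nat_lit 337) (nat_lit 332) (nat_lit 276))))) (XT.nd (nat_lit 282) (nat_lit 0) (nat_lit 0) (XT.nd (nat_lit 94) (nat_lit 924) (nat_lit 0) (XT.lf (nat_lit 84) (nat_lit 5790474668) (nat_lit 0) (nat_lit 1893607969) (nat_lit 1008) (nat_lit 523819725) (nat_lit 219) (nat_lit 5) (nat_lit 218) (nat_lit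 5) (nat_lit 230) (nat_lit 5) (nat_lit 338) (nat_lit 332) (nat_lit 275)) (XT.nd (nat_lit 94) (nat_lit 0) (nat_lit 0) (XT.lf (nat_lit 0) (nat_lit 707948527) (nat_lit 1008) (nat_lit 6907575174) (nat_lit 1092) (nat_lit 687363525) (nat_lit 207) (nat_lit 5) (nat_lit 219) (nat_lit 5) (nat_lit 220) (nat_lit 5) (nat_lit 339) (nat_lit 332) (nat_lit 274)) (XT.lf (nat_lit 0) (nat_lit 1968193852) (nat_lit 1008) (nat_lit 3079313938) (nat_lit 1092) (nat_lit 3353083012) (nat_lit 207) (nat_lit 5) (nat_lit 219) (nat_lit 5) (nat_lit 220) (nat_lit 5) (nat_lit 340) (nat_lit 332) (nat_lit 273)))) (XT.nd (nat_lit 188) (nat_lit 0) (nat_lit 84) (XT.nd (nat_lit 94) (nat_lit 0) (nat_lit 84) (XT.lf (nat_lit 84) (nat_lit 854115492) (nat_lit 0) (nat_lit 2380196385) (nat_lit 1092) (nat_lit 5267955459) (nat_lit 208) (nat_lit 5) (nat_lit 207) (nat_lit 5) (nat_lit 220) (nat_lit 5) (nat_lit 341) (nat_lit 332) (nat_lit 272)) (XT.lf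 (nat_lit 0) (nat_lit 4534245317) (nat_lit 1008) (nat_lit 3668700252) (nat_lit 1092) (nat_lit 404255010) (nat_lit 208) (nat_lit 5) (nat_lit 220) (nat_lit 5) (nat_lit 221) (nat_lit 5) (nat_lit 342) (nat_lit 332) (nat_lit 271))) (XT.nd (nat_lit 94) (nat_lit 0) (nat_lit 0) (XT.lf (nat_lit 84) (nat_lit 387456769) (nat_lit 0) (nat_lit 5475049449) (nat_lit 1092) (nat_lit 2853174717) (nat_lit 209) (nat_lit 5) (nat_lit 208) (nat_lit 5) (nat_lit 221) (nat_lit 5) (nat_lit 343) (nat_lit 332) (nat_lit 270)) (XT.lf (nat_lit 84) (nat_lit 4614092263) (nat_lit 0) (nat_lit 2616459842) (nat_lit 1092) (nat_lit 1596942181) (nat_lit 209) (nat_lit 5) (nat_lit 208) (nat_lit 5) (nat_lit 221) (nat_lit 5) (nat_lit 344) (nat_lit 332) (nat_lit 269))))))))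
noncomputable def xc23 : XT := (XT.nd (nat_lit 58750) (nat_lit 0) (nat_lit 504) (XT.nd (nat_lit 1222) (nat_lit 2352) (nat_lit 0) (XT.nd (nat_lit 564) (nat_lit 3108) (nat_lit 0) (XT.nd (nat_lit 282) (nat_lit 1008) (nat_lit 0) (XT.nd (nat_lit 94) (nat_lit 1092) (nat_lit 0) (XT.lf (nat_lit 0) (nat_lit 8606862406) (nat_lit 1008) (nat_lit 5183987) (nat_lit 1092) (nat_lit 331673418) (nat_lit 209) (nat_lit 5) (nat_lit 221) (nat_lit 5) (nat_lit 222) (nat_lit 5) (nat_lit 345) (nat_lit 332) (nat_lit 268)) (XT.nd (nat_lit 94) (nat_lit 0) (nat_lit 0) (XT.lf (nat_lit 0) (nat_lit 975489314) (nat_lit 1092) (nat_lit 4709691877) (nat_lit 1176) (nat_lit 3377047584) (nat_lit 196) (nat_lit 5) (nat_lit 209) (nat_lit 5) (nat_lit 210) (nat_lit 5) (nat_lit 346) (nat_lit 332) (nat_lit 267)) (XT.lf (nat_lit 0) (nat_lit 2285967296) (nat_lit 1092) (nat_lit 373144187) (nat_lit 1176) (nat_lit 6526183672) (nat_lit 196) (nat_lit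 5) (nat_lit 209) (nat_lit 5) (nat_lit 210) (nat_lit 5) (nat_lit 347) (nat_lit 332) (nat_lit 266)))) (XT.nd (nat_lit 94) (nat_lit 1092) (nat_lit 0) (XT.lf (nat_lit 0) (nat_lit 3646991368) (nat_lit 1092) (nat_lit 5168180701) (nat_lit 84) (nat_lit 496610667) (nat_lit 197) (nat_lit 5) (nat_lit 210) (nat_lit 5) (nat_lit 198) (nat_lit 5) (nat_lit 348) (nat_lit 332) (nat_lit 265)) (XT.nd (nat_lit 94) (nat_lit 1092) (nat_lit 0) (XT.lf (nat_lit 0) (nat_lit 5046262794) (nat_lit 1092) (nat_lit 691518594) (nat_lit 84) (nat_lit 3704425291) (nat_lit 197) (nat_lit 5) (nat_lit 210) (nat_lit 5) (nat_lit 198) (nat_lit 5) (nat_lit 349) (nat_lit 332) (nat_lit 264)) (XT.lf (nat_lit 0) (nat_lit 3971008478) (nat_lit 1092) (nat_lit 2522912020) (nat_lit 1176) (nat_lit 3082492961) (nat_lit 184) (nat_lit 5) (nat_lit 197) (nat_lit 5) (nat_lit 198) (nat_lit 5) (nat_lit 350) (nat_lit 332) (nat_lit 263))))) (XT.nd (nat_lit 282)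 (nat_lit 1848) (nat_lit 0) (XT.nd (nat_lit 94) (nat_lit 1260) (nat_lit 0) (XT.lf (nat_lit 0) (nat_lit 7968605506) (nat_lit 1176) (nat_lit 961212478) (nat_lit 84) (nat_lit 785381077) (nat_lit 184) (nat_lit 5) (nat_lit 198) (nat_lit 5) (nat_lit 185) (nat_lit 5) (nat_lit 351) (nat_lit 332) (nat_lit 262)) (XT.nd (nat_lit 94) (nat_lit 84) (nat_lit 0) (XT.lf (nat_lit 0) (nat_lit 3846448037) (nat_lit 1176) (nat_lit 5672907481) (nat_lit 1260) (nat_lit 337896763) (nat_lit 170) (nat_lit 5) (nat_lit 184) (nat_lit 5) (nat_lit 185) (nat_lit 5) (nat_lit 352) (nat_lit 332) (nat_lit 261)) (XT.lf (nat_lit 0) (nat_lit 1071296939) (nat_lit 1260) (nat_lit 1222360778) (nat_lit 84) (nat_lit 7710245132) (nat_lit 169) (nat_lit 5) (nat_lit 184) (nat_lit 5) (nat_lit 170) (nat_lit 5) (nat_lit 353) (nat_lit 332) (nat_lit 260)))) (XT.nd (nat_lit 188) (nat_lit 588) (nat_lit 0) (XT.nd (nat_lit 94) (nat_lit 0) (nat_lit 0) (XT.lf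 (nat_lit 0) (nat_lit 2534917379) (nat_lit 1344) (nat_lit 6412444743) (nat_lit 84) (nat_lit 1206975973) (nat_lit 154) (nat_lit 5) (nat_lit 170) (nat_lit 5) (nat_lit 155) (nat_lit 5) (nat_lit 354) (nat_lit 332) (nat_lit 259)) (XT.lf (nat_lit 0) (nat_lit 4049274368) (nat_lit 1344) (nat_lit 1477862502) (nat_lit 84) (nat_lit 4781996915) (nat_lit 154) (nat_lit 5) (nat_lit 170) (nat_lit 5) (nat_lit 155) (nat_lit 5) (nat_lit 355) (nat_lit 332) (nat_lit 258))) (XT.nd (nat_lit 94) (nat_lit 0) (nat_lit 0) (XT.lf (nat_lit 0) (nat_lit 3650509245) (nat_lit 588) (nat_lit 1966122193) (nat_lit 672) (nat_lit 4851765537) (nat_lit 147) (nat_lit 5) (nat_lit 154) (nat_lit 5) (nat_lit 155) (nat_lit 5) (nat_lit 356) (nat_lit 332) (nat_lit 257)) (XT.lf (nat_lit 0) (nat_lit 7235492609) (nat_lit 672) (nat_lit 1711576682) (nat_lit 84) (nat_lit 1685283496) (nat_lit 147) (nat_lit 5) (nat_lit 155) (nat_lit 5) (nat_lit 148) (nat_lit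 5) (nat_lit 357) (nat_lit 332) (nat_lit 256)))))) (XT.nd (nat_lit 564) (nat_lit 504) (nat_lit 0) (XT.nd (nat_lit 282) (nat_lit 588) (nat_lit 0) (XT.nd (nat_lit 94) (nat_lit 672) (nat_lit 0) (XT.lf (nat_lit 0) (nat_lit 3572828864) (nat_lit 588) (nat_lit 5357740472) (nat_lit 672) (nat_lit 1869876242) (nat_lit 140) (nat_lit 5) (nat_lit 147) (nat_lit 5) (nat_lit 148) (nat_lit 5) (nat_lit 358) (nat_lit 332) (nat_lit 255)) (XT.nd (nat_lit 94) (nat_lit 672) (nat_lit 0) (XT.lf (nat_lit 0) (nat_lit 9025753686) (nat_lit 588) (nat_lit 1642387905) (nat_lit 672) (nat_lit 305736669) (nat_lit 140) (nat_lit 5) (nat_lit 147) (nat_lit 5) (nat_lit 148) (nat_lit 5) (nat_lit 359) (nat_lit 332) (nat_lit 254)) (XT.lf (nat_lit 0) (nat_lit 1309977267) (nat_lit 672) (nat_lit 7652381720) (nat_lit 84) (nat_lit 2188918593) (nat_lit 132) (nat_lit 5) (nat_lit 140) (nat_lit 5) (nat_lit 133) (nat_lit 5) (nat_lit 360) (nat_lit 332)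 (nat_lit 253)))) (XT.nd (nat_lit 94) (nat_lit 588) (nat_lit 0) (XT.lf (nat_lit 0) (nat_lit 2979458298) (nat_lit 672) (nat_lit 2229081810) (nat_lit 84) (nat_lit 6125067205) (nat_lit 132) (nat_lit 5) (nat_lit 140) (nat_lit 5) (nat_lit 133) (nat_lit 5) (nat_lit 361) (nat_lit 332) (nat_lit 252)) (XT.nd (nat_lit 94) (nat_lit 0) (nat_lit 0) (XT.lf (nat_lit 0) (nat_lit 3398524341) (nat_lit 588) (nat_lit 1309199572) (nat_lit 672) (nat_lit 6813463249) (nat_lit 125) (nat_lit 5) (nat_lit 132) (nat_lit 5) (nat_lit 133) (nat_lit 5) (nat_lit 362) (nat_lit 332) (nat_lit 251)) (XT.lf (nat_lit 0) (nat_lit 6513077343) (nat_lit 672) (nat_lit 2524515724) (nat_lit 84) (nat_lit 2676084174) (nat_lit 125) (nat_lit 5) (nat_lit 133) (nat_lit 5) (nat_lit 126) (nat_lit 5) (nat_lit 363) (nat_lit 332) (nat_lit 250))))) (XT.nd (nat_lit 56588) (nat_lit 0) (nat_lit 7308) (XT.nd (nat_lit 56400) (nat_lit 0) (nat_lit 8232) (XT.lf (nat_lit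 0) (nat_lit 3267912352) (nat_lit 504) (nat_lit 5126224586) (nat_lit 588) (nat_lit 3517197578) (nat_lit 119) (nat_lit 5) (nat_lit 125) (nat_lit 5) (nat_lit 126) (nat_lit 5) (nat_lit 364) (nat_lit 332) (nat_lit 249)) (XT.nd (nat_lit 94) (nat_lit 0) (nat_lit 0) (XT.lf (nat_lit 0) (nat_lit 609160670) (nat_lit 0) (nat_lit 609160670) (nat_lit 924) (nat_lit 2711373162) (nat_lit 217) (nat_lit 5) (nat_lit 217) (nat_lit 3) (nat_lit 228) (nat_lit 3) (nat_lit 333) (nat_lit 333) (nat_lit 279)) (XT.lf (nat_lit 0) (nat_lit 3657272359) (nat_lit 924) (nat_lit 3197858153) (nat_lit 1008) (nat_lit 1084062711) (nat_lit 217) (nat_lit 5) (nat_lit 228) (nat_lit 3) (nat_lit 229) (nat_lit 5) (nat_lit 334) (nat_lit 333) (nat_lit 278)))) (XT.nd (nat_lit 188) (nat_lit 924) (nat_lit 0) (XT.nd (nat_lit 94) (nat_lit 0) (nat_lit 0) (XT.lf (nat_lit 84) (nat_lit 318201966) (nat_lit 0) (nat_lit 4565863863) (nat_lit 1008) (nat_lit 3138339464)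 (nat_lit 218) (nat_lit 5) (nat_lit 217) (nat_lit 5) (nat_lit 229) (nat_lit 5) (nat_lit 335) (nat_lit 333) (nat_lit 277)) (XT.lf (nat_lit 84) (nat_lit 3980945591) (nat_lit 0) (nat_lit 2154526563) (nat_lit 1008) (nat_lit 1973104460) (nat_lit 218) (nat_lit 5) (nat_lit 217) (nat_lit 5) (nat_lit 229) (nat_lit 5) (nat_lit 336) (nat_lit 333) (nat_lit 276))) (XT.nd (nat_lit 94) (nat_lit 1008) (nat_lit 0) (XT.lf (nat_lit 0) (nat_lit 7384585126) (nat_lit 924) (nat_lit 472145381) (nat_lit 1008) (nat_lit 341891963) (nat_lit 218) (nat_lit 5) (nat_lit 229) (nat_lit 5) (nat_lit 230) (nat_lit 5) (nat_lit 337) (nat_lit 333) (nat_lit 275)) (XT.lf (nat_lit 0) (nat_lit 383833749) (nat_lit 1008) (nat_lit 4983068748) (nat_lit 1092) (nat_lit 2924103294) (nat_lit 206) (nat_lit 5) (nat_lit 218) (nat_lit 5) (nat_lit 219) (nat_lit 5) (nat_lit 338) (nat_lit 333) (nat_lit 274))))))) (XT.nd (nat_lit 1222) (nat_lit 4956) (nat_lit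 0) (XT.nd (nat_lit 564) (nat_lit 1848) (nat_lit 0) (XT.nd (nat_lit 282) (nat_lit 0) (nat_lit 84) (XT.nd (nat_lit 94) (nat_lit 0) (nat_lit 0) (XT.lf (nat_lit 0) (nat_lit 1564839541) (nat_lit 1008) (nat_lit 1208176705) (nat_lit 1092) (nat_lit 5614082101) (nat_lit 206) (nat_lit 5) (nat_lit 218) (nat_lit 5) (nat_lit 219) (nat_lit 5) (nat_lit 339) (nat_lit 333) (nat_lit 273)) (XT.nd (nat_lit 94) (nat_lit 0) (nat_lit 84) (XT.lf (nat_lit 84) (nat_lit 2708392592) (nat_lit 0) (nat_lit 58864206) (nat_lit 1092) (nat_lit 5719321253) (nat_lit 207) (nat_lit 5) (nat_lit 206) (nat_lit 5) (nat_lit 219) (nat_lit 5) (nat_lit 340) (nat_lit 333) (nat_lit 272)) (XT.lf (nat_lit 0) (nat_lit 4005398868) (nat_lit 1008) (nat_lit 1873457620) (nat_lit 1092) (nat_lit 2710277459) (nat_lit 207) (nat_lit 5) (nat_lit 219) (nat_lit 5) (nat_lit 220) (nat_lit 5) (nat_lit 341) (nat_lit 333) (nat_lit 271)))) (XT.nd (nat_lit 94) (nat_lit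 0) (nat_lit 0) (XT.lf (nat_lit 84) (nat_lit 2165246891) (nat_lit 0) (nat_lit 3098994345) (nat_lit 1092) (nat_lit 3431097603) (nat_lit 208) (nat_lit 5) (nat_lit 207) (nat_lit 5) (nat_lit 220) (nat_lit 5) (nat_lit 342) (nat_lit 333) (nat_lit 270)) (XT.nd (nat_lit 94) (nat_lit 0) (nat_lit 84) (XT.lf (nat_lit 84) (nat_lit 6338925941) (nat_lit 0) (nat_lit 203866496) (nat_lit 1092) (nat_lit 2262555831) (nat_lit 208) (nat_lit 5) (nat_lit 207) (nat_lit 5) (nat_lit 220) (nat_lit 5) (nat_lit 343) (nat_lit 333) (nat_lit 269)) (XT.lf (nat_lit 84) (nat_lit 1700493814) (nat_lit 0) (nat_lit 6166475312) (nat_lit 1092) (nat_lit 1051545252) (nat_lit 209) (nat_lit 5) (nat_lit 208) (nat_lit 5) (nat_lit 221) (nat_lit 5) (nat_lit 344) (nat_lit 333) (nat_lit 268))))) (XT.nd (nat_lit 282) (nat_lit 924) (nat_lit 0) (XT.nd (nat_lit 94) (nat_lit 0) (nat_lit 0) (XT.lf (nat_lit 0) (nat_lit 183749572) (nat_lit 1092) (nat_lit 3021168340)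 (nat_lit 1176) (nat_lit 5830418046) (nat_lit 195) (nat_lit 5) (nat_lit 208) (nat_lit 5) (nat_lit 209) (nat_lit 5) (nat_lit 345) (nat_lit 333) (nat_lit 267)) (XT.nd (nat_lit 94) (nat_lit 0) (nat_lit 84) (XT.lf (nat_lit 84) (nat_lit 1291457201) (nat_lit 0) (nat_lit 121559766) (nat_lit 1176) (nat_lit 7743059562) (nat_lit 196) (nat_lit 5) (nat_lit 195) (nat_lit 5) (nat_lit 209) (nat_lit 5) (nat_lit 346) (nat_lit 333) (nat_lit 266)) (XT.lf (nat_lit 0) (nat_lit 2705816086) (nat_lit 1092) (nat_lit 3539630994) (nat_lit 1176) (nat_lit 3034258788) (nat_lit 196) (nat_lit 5) (nat_lit 209) (nat_lit 5) (nat_lit 210) (nat_lit 5) (nat_lit 347) (nat_lit 333) (nat_lit 265)))) (XT.nd (nat_lit 188) (nat_lit 1008) (nat_lit 0) (XT.nd (nat_lit 94) (nat_lit 0) (nat_lit 84) (XT.lf (nat_lit 84) (nat_lit 906507647) (nat_lit 0) (nat_lit 3108269168) (nat_lit 1176) (nat_lit 5393010175) (nat_lit 197) (nat_lit 5) (nat_lit 196) (nat_lit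 5) (nat_lit 210) (nat_lit 5) (nat_lit 348) (nat_lit 333) (nat_lit 264)) (XT.lf (nat_lit 0) (nat_lit 5368522550) (nat_lit 1092) (nat_lit 4007508887) (nat_lit 84) (nat_lit 163575988) (nat_lit 197) (nat_lit 5) (nat_lit 210) (nat_lit 5) (nat_lit 198) (nat_lit 5) (nat_lit 349) (nat_lit 333) (nat_lit 263))) (XT.nd (nat_lit 94) (nat_lit 0) (nat_lit 0) (XT.lf (nat_lit 0) (nat_lit 576378440) (nat_lit 1092) (nat_lit 6191979187) (nat_lit 1176) (nat_lit 2906921082) (nat_lit 184) (nat_lit 5) (nat_lit 197) (nat_lit 5) (nat_lit 198) (nat_lit 5) (nat_lit 350) (nat_lit 333) (nat_lit 262)) (XT.lf (nat_lit 0) (nat_lit 5355010622) (nat_lit 1092) (nat_lit 2865465288) (nat_lit 1176) (nat_lit 1594294361) (nat_lit 184) (nat_lit 5) (nat_lit 197) (nat_lit 5) (nat_lit 198) (nat_lit 5) (nat_lit 351) (nat_lit 333) (nat_lit 261)))))) (XT.nd (nat_lit 564) (nat_lit 1848) (nat_lit 0) (XT.nd (nat_lit 282) (nat_lit 588) (nat_lit 0)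 (XT.nd (nat_lit 94) (nat_lit 1344) (nat_lit 0) (XT.lf (nat_lit 0) (nat_lit 293714378) (nat_lit 1176) (nat_lit 9401406170) (nat_lit 1260) (nat_lit 264014219) (nat_lit 170) (nat_lit 5) (nat_lit 184) (nat_lit 5) (nat_lit 185) (nat_lit 5) (nat_lit 352) (nat_lit 333) (nat_lit 260)) (XT.nd (nat_lit 94) (nat_lit 1260) (nat_lit 0) (XT.lf (nat_lit 0) (nat_lit 1129463232) (nat_lit 1260) (nat_lit 4890280568) (nat_lit 84) (nat_lit 4086474964) (nat_lit 169) (nat_lit 5) (nat_lit 184) (nat_lit 5) (nat_lit 170) (nat_lit 5) (nat_lit 353) (nat_lit 333) (nat_lit 259)) (XT.lf (nat_lit 0) (nat_lit 692881) (nat_lit 1260) (nat_lit 2530619053) (nat_lit 1344) (nat_lit 7727220956) (nat_lit 154) (nat_lit 5) (nat_lit 169) (nat_lit 5) (nat_lit 170) (nat_lit 5) (nat_lit 354) (nat_lit 333) (nat_lit 258)))) (XT.nd (nat_lit 94) (nat_lit 588) (nat_lit 0) (XT.lf (nat_lit 0) (nat_lit 4007785648) (nat_lit 1344) (nat_lit 5311484887) (nat_lit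 84) (nat_lit 1095219524) (nat_lit 154) (nat_lit 5) (nat_lit 170) (nat_lit 5) (nat_lit 155) (nat_lit 5) (nat_lit 355) (nat_lit 333) (nat_lit 257)) (XT.nd (nat_lit 94) (nat_lit 588) (nat_lit 0) (XT.lf (nat_lit 0) (nat_lit 5526889248) (nat_lit 1344) (nat_lit 266535078) (nat_lit 84) (nat_lit 4781800776) (nat_lit 154) (nat_lit 5) (nat_lit 170) (nat_lit 5) (nat_lit 155) (nat_lit 5) (nat_lit 356) (nat_lit 333) (nat_lit 256)) (XT.lf (nat_lit 0) (nat_lit 5003377397) (nat_lit 588) (nat_lit 2110342375) (nat_lit 672) (nat_lit 3626445607) (nat_lit 147) (nat_lit 5) (nat_lit 154) (nat_lit 5) (nat_lit 155) (nat_lit 5) (nat_lit 357) (nat_lit 333) (nat_lit 255))))) (XT.nd (nat_lit 282) (nat_lit 1176) (nat_lit 0) (XT.nd (nat_lit 94) (nat_lit 672) (nat_lit 0) (XT.lf (nat_lit 0) (nat_lit 8741654519) (nat_lit 672) (nat_lit 513937841) (nat_lit 84) (nat_lit 1654702928) (nat_lit 147) (nat_lit 5) (nat_lit 155) (nat_lit 5)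 (nat_lit 148) (nat_lit 5) (nat_lit 358) (nat_lit 333) (nat_lit 254)) (XT.nd (nat_lit 94) (nat_lit 84) (nat_lit 0) (XT.lf (nat_lit 0) (nat_lit 4916754910) (nat_lit 588) (nat_lit 5545170432) (nat_lit 672) (nat_lit 622343864) (nat_lit 140) (nat_lit 5) (nat_lit 147) (nat_lit 5) (nat_lit 148) (nat_lit 5) (nat_lit 359) (nat_lit 333) (nat_lit 253)) (XT.lf (nat_lit 0) (nat_lit 932197569) (nat_lit 672) (nat_lit 775968747) (nat_lit 84) (nat_lit 9555634951) (nat_lit 139) (nat_lit 5) (nat_lit 147) (nat_lit 5) (nat_lit 140) (nat_lit 5) (nat_lit 360) (nat_lit 333) (nat_lit 252)))) (XT.nd (nat_lit 188) (nat_lit 588) (nat_lit 0) (XT.nd (nat_lit 94) (nat_lit 0) (nat_lit 0) (XT.lf (nat_lit 0) (nat_lit 2565768639) (nat_lit 672) (nat_lit 6627818886) (nat_lit 84) (nat_lit 2253641085) (nat_lit 132) (nat_lit 5) (nat_lit 140) (nat_lit 5) (nat_lit 133) (nat_lit 5) (nat_lit 361) (nat_lit 333) (nat_lit 251)) (XT.lf (nat_lit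 0) (nat_lit 4249902294) (nat_lit 672) (nat_lit 1078348161) (nat_lit 84) (nat_lit 6307901681) (nat_lit 132) (nat_lit 5) (nat_lit 140) (nat_lit 5) (nat_lit 133) (nat_lit 5) (nat_lit 362) (nat_lit 333) (nat_lit 250))) (XT.nd (nat_lit 94) (nat_lit 0) (nat_lit 0) (XT.lf (nat_lit 0) (nat_lit 4706148860) (nat_lit 588) (nat_lit 1301056830) (nat_lit 672) (nat_lit 5822897169) (nat_lit 125) (nat_lit 5) (nat_lit 132) (nat_lit 5) (nat_lit 133) (nat_lit 5) (nat_lit 363) (nat_lit 333) (nat_lit 249)) (XT.lf (nat_lit 0) (nat_lit 7833426825) (nat_lit 672) (nat_lit 1394491109) (nat_lit 84) (nat_lit 2801505941) (nat_lit 125) (nat_lit 5) (nat_lit 133) (nat_lit 5) (nat_lit 126) (nat_lit 5) (nat_lit 364) (nat_lit 333) (nat_lit 248))))))))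
noncomputable def xc24 : XT := (XT.nd (nat_lit 2444) (nat_lit 1260) (nat_lit 0) (XT.nd (nat_lit 1222) (nat_lit 4620) (nat_lit 0) (XT.nd (nat_lit 564) (nat_lit 840) (nat_lit 0) (XT.nd (nat_lit 282) (nat_lit 1008) (nat_lit 0) (XT.nd (nat_lit 94) (nat_lit 0) (nat_lit 0) (XT.lf (nat_lit 0) (nat_lit 1208521507) (nat_lit 0) (nat_lit 1208521507) (nat_lit 924) (nat_lit 1593137594) (nat_lit 217) (nat_lit 5) (nat_lit 217) (nat_lit 3) (nat_lit 228) (nat_lit 3) (nat_lit 334) (nat_lit 334) (nat_lit 277)) (XT.nd (nat_lit 94) (nat_lit 0) (nat_lit 0) (XT.lf (nat_lit 0) (nat_lit 6012789130) (nat_lit 924) (nat_lit 2081994868) (nat_lit 1008) (nat_lit 10279863) (nat_lit 217) (nat_lit 5) (nat_lit 228) (nat_lit 3) (nat_lit 229) (nat_lit 5) (nat_lit 335) (nat_lit 334) (nat_lit 276)) (XT.lf (nat_lit 84) (nat_lit 1527666672) (nat_lit 0) (nat_lit 5694842474) (nat_lit 1008) (nat_lit 970023092) (nat_lit 218) (nat_lit 5) (nat_lit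 217) (nat_lit 5) (nat_lit 229) (nat_lit 5) (nat_lit 336) (nat_lit 334) (nat_lit 275)))) (XT.nd (nat_lit 94) (nat_lit 0) (nat_lit 0) (XT.lf (nat_lit 0) (nat_lit 161066341) (nat_lit 1008) (nat_lit 3019578977) (nat_lit 1092) (nat_lit 5102650723) (nat_lit 205) (nat_lit 5) (nat_lit 217) (nat_lit 5) (nat_lit 218) (nat_lit 5) (nat_lit 337) (nat_lit 334) (nat_lit 274)) (XT.nd (nat_lit 94) (nat_lit 0) (nat_lit 84) (XT.lf (nat_lit 84) (nat_lit 716247484) (nat_lit 0) (nat_lit 556030958) (nat_lit 1092) (nat_lit 7105331920) (nat_lit 206) (nat_lit 5) (nat_lit 205) (nat_lit 5) (nat_lit 218) (nat_lit 5) (nat_lit 338) (nat_lit 334) (nat_lit 273)) (XT.lf (nat_lit 0) (nat_lit 2428208568) (nat_lit 1008) (nat_lit 3893155484) (nat_lit 1092) (nat_lit 2153132422) (nat_lit 206) (nat_lit 5) (nat_lit 218) (nat_lit 5) (nat_lit 219) (nat_lit 5) (nat_lit 339) (nat_lit 334) (nat_lit 272))))) (XT.nd (nat_lit 282) (nat_lit 924) (nat_lit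 0) (XT.nd (nat_lit 94) (nat_lit 0) (nat_lit 0) (XT.lf (nat_lit 0) (nat_lit 3585435025) (nat_lit 1008) (nat_lit 41115863) (nat_lit 1092) (nat_lit 4948821097) (nat_lit 206) (nat_lit 5) (nat_lit 218) (nat_lit 5) (nat_lit 219) (nat_lit 5) (nat_lit 340) (nat_lit 334) (nat_lit 271)) (XT.nd (nat_lit 94) (nat_lit 0) (nat_lit 84) (XT.lf (nat_lit 84) (nat_lit 3981153393) (nat_lit 0) (nat_lit 796739961) (nat_lit 1092) (nat_lit 3901443956) (nat_lit 207) (nat_lit 5) (nat_lit 206) (nat_lit 5) (nat_lit 219) (nat_lit 5) (nat_lit 341) (nat_lit 334) (nat_lit 270)) (XT.lf (nat_lit 0) (nat_lit 5990165605) (nat_lit 1008) (nat_lit 705949656) (nat_lit 1092) (nat_lit 2090861827) (nat_lit 207) (nat_lit 5) (nat_lit 219) (nat_lit 5) (nat_lit 220) (nat_lit 5) (nat_lit 342) (nat_lit 334) (nat_lit 269)))) (XT.nd (nat_lit 188) (nat_lit 1008) (nat_lit 0) (XT.nd (nat_lit 94) (nat_lit 0) (nat_lit 0) (XT.lf (nat_lit 84) (nat_lit 3441918818)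 (nat_lit 0) (nat_lit 3802193290) (nat_lit 1092) (nat_lit 1653649232) (nat_lit 208) (nat_lit 5) (nat_lit 207) (nat_lit 5) (nat_lit 220) (nat_lit 5) (nat_lit 343) (nat_lit 334) (nat_lit 268)) (XT.lf (nat_lit 84) (nat_lit 7705515584) (nat_lit 0) (nat_lit 802437942) (nat_lit 1092) (nat_lit 504819595) (nat_lit 208) (nat_lit 5) (nat_lit 207) (nat_lit 5) (nat_lit 220) (nat_lit 5) (nat_lit 344) (nat_lit 334) (nat_lit 267))) (XT.nd (nat_lit 94) (nat_lit 0) (nat_lit 0) (XT.lf (nat_lit 0) (nat_lit 682221140) (nat_lit 1092) (nat_lit 6159271749) (nat_lit 1176) (nat_lit 2289105283) (nat_lit 195) (nat_lit 5) (nat_lit 208) (nat_lit 5) (nat_lit 209) (nat_lit 5) (nat_lit 345) (nat_lit 334) (nat_lit 266)) (XT.lf (nat_lit 0) (nat_lit 1882638497) (nat_lit 1092) (nat_lit 1883766406) (nat_lit 1176) (nat_lit 5485831932) (nat_lit 195) (nat_lit 5) (nat_lit 208) (nat_lit 5) (nat_lit 209) (nat_lit 5) (nat_lit 346) (nat_lit 334)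 (nat_lit 265)))))) (XT.nd (nat_lit 564) (nat_lit 3696) (nat_lit 0) (XT.nd (nat_lit 282) (nat_lit 924) (nat_lit 0) (XT.nd (nat_lit 94) (nat_lit 0) (nat_lit 84) (XT.lf (nat_lit 84) (nat_lit 2546198322) (nat_lit 0) (nat_lit 564952859) (nat_lit 1176) (nat_lit 6266675228) (nat_lit 196) (nat_lit 5) (nat_lit 195) (nat_lit 5) (nat_lit 209) (nat_lit 5) (nat_lit 347) (nat_lit 334) (nat_lit 264)) (XT.nd (nat_lit 94) (nat_lit 0) (nat_lit 0) (XT.lf (nat_lit 0) (nat_lit 4390404738) (nat_lit 1092) (nat_lit 2409745233) (nat_lit 1176) (nat_lit 2706679497) (nat_lit 196) (nat_lit 5) (nat_lit 209) (nat_lit 5) (nat_lit 210) (nat_lit 5) (nat_lit 348) (nat_lit 334) (nat_lit 263)) (XT.lf (nat_lit 84) (nat_lit 2157659188) (nat_lit 0) (nat_lit 3546039135) (nat_lit 1176) (nat_lit 3936194970) (nat_lit 197) (nat_lit 5) (nat_lit 196) (nat_lit 5) (nat_lit 210) (nat_lit 5) (nat_lit 349) (nat_lit 334) (nat_lit 262)))) (XT.nd (nat_lit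 94) (nat_lit 1008) (nat_lit 0) (XT.lf (nat_lit 84) (nat_lit 6888069944) (nat_lit 0) (nat_lit 162650857) (nat_lit 1176) (nat_lit 2726457112) (nat_lit 197) (nat_lit 5) (nat_lit 196) (nat_lit 5) (nat_lit 210) (nat_lit 5) (nat_lit 350) (nat_lit 334) (nat_lit 261)) (XT.nd (nat_lit 94) (nat_lit 0) (nat_lit 0) (XT.lf (nat_lit 0) (nat_lit 1821700755) (nat_lit 1092) (nat_lit 6636831677) (nat_lit 1176) (nat_lit 1459494356) (nat_lit 184) (nat_lit 5) (nat_lit 197) (nat_lit 5) (nat_lit 198) (nat_lit 5) (nat_lit 351) (nat_lit 334) (nat_lit 260)) (XT.lf (nat_lit 0) (nat_lit 6707924010) (nat_lit 1092) (nat_lit 3202975960) (nat_lit 1176) (nat_lit 152186921) (nat_lit 184) (nat_lit 5) (nat_lit 197) (nat_lit 5) (nat_lit 198) (nat_lit 5) (nat_lit 352) (nat_lit 334) (nat_lit 259))))) (XT.nd (nat_lit 282) (nat_lit 1176) (nat_lit 0) (XT.nd (nat_lit 94) (nat_lit 1260) (nat_lit 0) (XT.lf (nat_lit 0) (nat_lit 1161241204) (nat_lit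 1260) (nat_lit 8693058036) (nat_lit 84) (nat_lit 358201143) (nat_lit 169) (nat_lit 5) (nat_lit 184) (nat_lit 5) (nat_lit 170) (nat_lit 5) (nat_lit 353) (nat_lit 334) (nat_lit 258)) (XT.nd (nat_lit 94) (nat_lit 1260) (nat_lit 0) (XT.lf (nat_lit 0) (nat_lit 2549628126) (nat_lit 1260) (nat_lit 3813968633) (nat_lit 84) (nat_lit 4001646582) (nat_lit 169) (nat_lit 5) (nat_lit 184) (nat_lit 5) (nat_lit 170) (nat_lit 5) (nat_lit 354) (nat_lit 334) (nat_lit 257)) (XT.lf (nat_lit 0) (nat_lit 1211743624) (nat_lit 1260) (nat_lit 2753052709) (nat_lit 1344) (nat_lit 6558267594) (nat_lit 154) (nat_lit 5) (nat_lit 169) (nat_lit 5) (nat_lit 170) (nat_lit 5) (nat_lit 355) (nat_lit 334) (nat_lit 256)))) (XT.nd (nat_lit 188) (nat_lit 588) (nat_lit 0) (XT.nd (nat_lit 94) (nat_lit 588) (nat_lit 0) (XT.lf (nat_lit 0) (nat_lit 5444656739) (nat_lit 1344) (nat_lit 4251738852) (nat_lit 84) (nat_lit 988604219) (nat_lit 154)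 (nat_lit 5) (nat_lit 170) (nat_lit 5) (nat_lit 155) (nat_lit 5) (nat_lit 356) (nat_lit 334) (nat_lit 255)) (XT.lf (nat_lit 0) (nat_lit 927143874) (nat_lit 588) (nat_lit 6052753182) (nat_lit 672) (nat_lit 3871613596) (nat_lit 147) (nat_lit 5) (nat_lit 154) (nat_lit 5) (nat_lit 155) (nat_lit 5) (nat_lit 357) (nat_lit 334) (nat_lit 254))) (XT.nd (nat_lit 94) (nat_lit 588) (nat_lit 0) (XT.lf (nat_lit 0) (nat_lit 6325458052) (nat_lit 588) (nat_lit 2253996238) (nat_lit 672) (nat_lit 2443059790) (nat_lit 147) (nat_lit 5) (nat_lit 154) (nat_lit 5) (nat_lit 155) (nat_lit 5) (nat_lit 358) (nat_lit 334) (nat_lit 253)) (XT.lf (nat_lit 0) (nat_lit 660828393) (nat_lit 588) (nat_lit 9564525731) (nat_lit 672) (nat_lit 973386551) (nat_lit 140) (nat_lit 5) (nat_lit 147) (nat_lit 5) (nat_lit 148) (nat_lit 5) (nat_lit 359) (nat_lit 334) (nat_lit 252))))))) (XT.nd (nat_lit 57716) (nat_lit 0) (nat_lit 3696) (XT.nd (nat_lit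 57058) (nat_lit 0) (nat_lit 6636) (XT.nd (nat_lit 282) (nat_lit 588) (nat_lit 0) (XT.nd (nat_lit 94) (nat_lit 588) (nat_lit 0) (XT.lf (nat_lit 0) (nat_lit 576311144) (nat_lit 672) (nat_lit 5154559975) (nat_lit 84) (nat_lit 5647873976) (nat_lit 139) (nat_lit 5) (nat_lit 147) (nat_lit 5) (nat_lit 140) (nat_lit 5) (nat_lit 360) (nat_lit 334) (nat_lit 251)) (XT.nd (nat_lit 94) (nat_lit 0) (nat_lit 0) (XT.lf (nat_lit 0) (nat_lit 364979032) (nat_lit 588) (nat_lit 1768417943) (nat_lit 672) (nat_lit 9431089737) (nat_lit 132) (nat_lit 5) (nat_lit 139) (nat_lit 5) (nat_lit 140) (nat_lit 5) (nat_lit 361) (nat_lit 334) (nat_lit 250)) (XT.lf (nat_lit 0) (nat_lit 3789402131) (nat_lit 672) (nat_lit 5644511604) (nat_lit 84) (nat_lit 2320359502) (nat_lit 132) (nat_lit 5) (nat_lit 140) (nat_lit 5) (nat_lit 133) (nat_lit 5) (nat_lit 362) (nat_lit 334) (nat_lit 249)))) (XT.nd (nat_lit 94) (nat_lit 0) (nat_lit 0) (XT.lf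 (nat_lit 0) (nat_lit 37748535) (nat_lit 588) (nat_lit 5453276246) (nat_lit 672) (nat_lit 6458888189) (nat_lit 125) (nat_lit 5) (nat_lit 132) (nat_lit 5) (nat_lit 133) (nat_lit 5) (nat_lit 363) (nat_lit 334) (nat_lit 248)) (XT.nd (nat_lit 56588) (nat_lit 0) (nat_lit 7728) (XT.lf (nat_lit 0) (nat_lit 5983791794) (nat_lit 588) (nat_lit 1295391835) (nat_lit 672) (nat_lit 4871210271) (nat_lit 125) (nat_lit 5) (nat_lit 132) (nat_lit 5) (nat_lit 133) (nat_lit 5) (nat_lit 364) (nat_lit 334) (nat_lit 247)) (XT.lf (nat_lit 0) (nat_lit 1792506454) (nat_lit 0) (nat_lit 1792506454) (nat_lit 924) (nat_lit 510215573) (nat_lit 217) (nat_lit 5) (nat_lit 217) (nat_lit 3) (nat_lit 228) (nat_lit 3) (nat_lit 335) (nat_lit 335) (nat_lit 275))))) (XT.nd (nat_lit 282) (nat_lit 0) (nat_lit 84) (XT.nd (nat_lit 94) (nat_lit 0) (nat_lit 84) (XT.lf (nat_lit 0) (nat_lit 39626793) (nat_lit 1092) (nat_lit 1012726110) (nat_lit 1092)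 (nat_lit 7227393081) (nat_lit 204) (nat_lit 3) (nat_lit 217) (nat_lit 3) (nat_lit 217) (nat_lit 5) (nat_lit 336) (nat_lit 335) (nat_lit 274)) (XT.nd (nat_lit 94) (nat_lit 0) (nat_lit 0) (XT.lf (nat_lit 0) (nat_lit 1111349893) (nat_lit 1008) (nat_lit 5678173083) (nat_lit 1092) (nat_lit 1581962732) (nat_lit 205) (nat_lit 5) (nat_lit 217) (nat_lit 5) (nat_lit 218) (nat_lit 5) (nat_lit 337) (nat_lit 335) (nat_lit 273)) (XT.lf (nat_lit 0) (nat_lit 2195973259) (nat_lit 1008) (nat_lit 1967414636) (nat_lit 1092) (nat_lit 4303251083) (nat_lit 205) (nat_lit 5) (nat_lit 217) (nat_lit 5) (nat_lit 218) (nat_lit 5) (nat_lit 338) (nat_lit 335) (nat_lit 272)))) (XT.nd (nat_lit 188) (nat_lit 0) (nat_lit 84) (XT.nd (nat_lit 94) (nat_lit 0) (nat_lit 84) (XT.lf (nat_lit 84) (nat_lit 1869283170) (nat_lit 0) (nat_lit 1422987290) (nat_lit 1092) (nat_lit 5273083700) (nat_lit 206) (nat_lit 5) (nat_lit 205) (nat_lit 5) (nat_lit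 218) (nat_lit 5) (nat_lit 339) (nat_lit 335) (nat_lit 271)) (XT.lf (nat_lit 0) (nat_lit 4417220163) (nat_lit 1008) (nat_lit 2841691758) (nat_lit 1092) (nat_lit 1408324970) (nat_lit 206) (nat_lit 5) (nat_lit 218) (nat_lit 5) (nat_lit 219) (nat_lit 5) (nat_lit 340) (nat_lit 335) (nat_lit 270))) (XT.nd (nat_lit 94) (nat_lit 0) (nat_lit 0) (XT.lf (nat_lit 84) (nat_lit 1113612702) (nat_lit 0) (nat_lit 4450444797) (nat_lit 1092) (nat_lit 3208551128) (nat_lit 207) (nat_lit 5) (nat_lit 206) (nat_lit 5) (nat_lit 219) (nat_lit 5) (nat_lit 341) (nat_lit 335) (nat_lit 269)) (XT.lf (nat_lit 84) (nat_lit 5223699526) (nat_lit 0) (nat_lit 1514496272) (nat_lit 1092) (nat_lit 2143233308) (nat_lit 207) (nat_lit 5) (nat_lit 206) (nat_lit 5) (nat_lit 219) (nat_lit 5) (nat_lit 342) (nat_lit 335) (nat_lit 268)))))) (XT.nd (nat_lit 564) (nat_lit 2100) (nat_lit 0) (XT.nd (nat_lit 282) (nat_lit 0) (nat_lit 84) (XT.nd (nat_lit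 94) (nat_lit 1092) (nat_lit 0) (XT.lf (nat_lit 84) (nat_lit 434822442) (nat_lit 0) (nat_lit 7496796738) (nat_lit 1092) (nat_lit 1062445485) (nat_lit 208) (nat_lit 5) (nat_lit 207) (nat_lit 5) (nat_lit 220) (nat_lit 5) (nat_lit 343) (nat_lit 335) (nat_lit 267)) (XT.nd (nat_lit 94) (nat_lit 0) (nat_lit 0) (XT.lf (nat_lit 0) (nat_lit 67831038) (nat_lit 1092) (nat_lit 4422942556) (nat_lit 1176) (nat_lit 4618817533) (nat_lit 194) (nat_lit 5) (nat_lit 207) (nat_lit 5) (nat_lit 208) (nat_lit 5) (nat_lit 344) (nat_lit 335) (nat_lit 266)) (XT.lf (nat_lit 0) (nat_lit 1177418148) (nat_lit 1092) (nat_lit 195649402) (nat_lit 1176) (nat_lit 7856263725) (nat_lit 194) (nat_lit 5) (nat_lit 207) (nat_lit 5) (nat_lit 208) (nat_lit 5) (nat_lit 345) (nat_lit 335) (nat_lit 265)))) (XT.nd (nat_lit 94) (nat_lit 0) (nat_lit 0) (XT.lf (nat_lit 0) (nat_lit 2346742568) (nat_lit 1092) (nat_lit 5151780985) (nat_lit 1176) (nat_lit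 1853410815) (nat_lit 195) (nat_lit 5) (nat_lit 208) (nat_lit 5) (nat_lit 209) (nat_lit 5) (nat_lit 346) (nat_lit 335) (nat_lit 264)) (XT.nd (nat_lit 94) (nat_lit 0) (nat_lit 0) (XT.lf (nat_lit 0) (nat_lit 3535287355) (nat_lit 1092) (nat_lit 782736762) (nat_lit 1176) (nat_lit 5160729583) (nat_lit 195) (nat_lit 5) (nat_lit 208) (nat_lit 5) (nat_lit 209) (nat_lit 5) (nat_lit 347) (nat_lit 335) (nat_lit 263)) (XT.lf (nat_lit 84) (nat_lit 3768778452) (nat_lit 0) (nat_lit 996404508) (nat_lit 1176) (nat_lit 4844084363) (nat_lit 196) (nat_lit 5) (nat_lit 195) (nat_lit 5) (nat_lit 209) (nat_lit 5) (nat_lit 348) (nat_lit 335) (nat_lit 262))))) (XT.nd (nat_lit 282) (nat_lit 2268) (nat_lit 0) (XT.nd (nat_lit 94) (nat_lit 0) (nat_lit 0) (XT.lf (nat_lit 0) (nat_lit 6033488517) (nat_lit 1092) (nat_lit 1316918643) (nat_lit 1176) (nat_lit 2393302586) (nat_lit 196) (nat_lit 5) (nat_lit 209) (nat_lit 5) (nat_lit 210)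 (nat_lit 5) (nat_lit 349) (nat_lit 335) (nat_lit 261)) (XT.nd (nat_lit 94) (nat_lit 0) (nat_lit 0) (XT.lf (nat_lit 84) (nat_lit 3376085176) (nat_lit 0) (nat_lit 3977165234) (nat_lit 1176) (nat_lit 2528589887) (nat_lit 197) (nat_lit 5) (nat_lit 196) (nat_lit 5) (nat_lit 210) (nat_lit 5) (nat_lit 350) (nat_lit 335) (nat_lit 260)) (XT.lf (nat_lit 84) (nat_lit 8214805452) (nat_lit 0) (nat_lit 482816718) (nat_lit 1176) (nat_lit 1326997493) (nat_lit 197) (nat_lit 5) (nat_lit 196) (nat_lit 5) (nat_lit 210) (nat_lit 5) (nat_lit 351) (nat_lit 335) (nat_lit 259)))) (XT.nd (nat_lit 188) (nat_lit 1176) (nat_lit 0) (XT.nd (nat_lit 94) (nat_lit 84) (nat_lit 0) (XT.lf (nat_lit 0) (nat_lit 3033888738) (nat_lit 1092) (nat_lit 7080156737) (nat_lit 1176) (nat_lit 56739119) (nat_lit 184) (nat_lit 5) (nat_lit 197) (nat_lit 5) (nat_lit 198) (nat_lit 5) (nat_lit 352) (nat_lit 335) (nat_lit 258)) (XT.lf (nat_lit 0) (nat_lit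 1223309055) (nat_lit 1176) (nat_lit 2300510064) (nat_lit 84) (nat_lit 6797321943) (nat_lit 183) (nat_lit 5) (nat_lit 197) (nat_lit 5) (nat_lit 184) (nat_lit 5) (nat_lit 353) (nat_lit 335) (nat_lit 257))) (XT.nd (nat_lit 94) (nat_lit 0) (nat_lit 0) (XT.lf (nat_lit 0) (nat_lit 2541982321) (nat_lit 1260) (nat_lit 7766451377) (nat_lit 84) (nat_lit 167565982) (nat_lit 169) (nat_lit 5) (nat_lit 184) (nat_lit 5) (nat_lit 170) (nat_lit 5) (nat_lit 354) (nat_lit 335) (nat_lit 256)) (XT.lf (nat_lit 0) (nat_lit 3932819766) (nat_lit 1260) (nat_lit 2775573711) (nat_lit 84) (nat_lit 3926180256) (nat_lit 169) (nat_lit 5) (nat_lit 184) (nat_lit 5) (nat_lit 170) (nat_lit 5) (nat_lit 355) (nat_lit 335) (nat_lit 255))))))))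
noncomputable def xc25 : XT := (XT.nd (nat_lit 59032) (nat_lit 0) (nat_lit 588) (XT.nd (nat_lit 57810) (nat_lit 0) (nat_lit 4788) (XT.nd (nat_lit 564) (nat_lit 1176) (nat_lit 0) (XT.nd (nat_lit 282) (nat_lit 672) (nat_lit 0) (XT.nd (nat_lit 94) (nat_lit 588) (nat_lit 0) (XT.lf (nat_lit 0) (nat_lit 2389607815) (nat_lit 1260) (nat_lit 2973748809) (nat_lit 1344) (nat_lit 5434655559) (nat_lit 154) (nat_lit 5) (nat_lit 169) (nat_lit 5) (nat_lit 170) (nat_lit 5) (nat_lit 356) (nat_lit 335) (nat_lit 254)) (XT.nd (nat_lit 94) (nat_lit 588) (nat_lit 0) (XT.lf (nat_lit 0) (nat_lit 6849053584) (nat_lit 1344) (nat_lit 3230181223) (nat_lit 84) (nat_lit 886796712) (nat_lit 154) (nat_lit 5) (nat_lit 170) (nat_lit 5) (nat_lit 155) (nat_lit 5) (nat_lit 357) (nat_lit 335) (nat_lit 253)) (XT.lf (nat_lit 0) (nat_lit 2092802202) (nat_lit 588) (nat_lit 6312339265) (nat_lit 672) (nat_lit 2733219107) (nat_lit 147) (nat_lit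 5) (nat_lit 154) (nat_lit 5) (nat_lit 155) (nat_lit 5) (nat_lit 358) (nat_lit 335) (nat_lit 252)))) (XT.nd (nat_lit 94) (nat_lit 672) (nat_lit 0) (XT.lf (nat_lit 0) (nat_lit 7619924719) (nat_lit 588) (nat_lit 2397347666) (nat_lit 672) (nat_lit 1298348771) (nat_lit 147) (nat_lit 5) (nat_lit 154) (nat_lit 5) (nat_lit 155) (nat_lit 5) (nat_lit 359) (nat_lit 335) (nat_lit 251)) (XT.nd (nat_lit 94) (nat_lit 0) (nat_lit 0) (XT.lf (nat_lit 0) (nat_lit 186701034) (nat_lit 672) (nat_lit 9687307374) (nat_lit 84) (nat_lit 1623860270) (nat_lit 139) (nat_lit 5) (nat_lit 147) (nat_lit 5) (nat_lit 140) (nat_lit 5) (nat_lit 360) (nat_lit 335) (nat_lit 250)) (XT.lf (nat_lit 0) (nat_lit 1729255894) (nat_lit 672) (nat_lit 4185794068) (nat_lit 84) (nat_lit 5769015407) (nat_lit 139) (nat_lit 5) (nat_lit 147) (nat_lit 5) (nat_lit 140) (nat_lit 5) (nat_lit 361) (nat_lit 335) (nat_lit 249))))) (XT.nd (nat_lit 56870) (nat_lit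 0) (nat_lit 6636) (XT.nd (nat_lit 94) (nat_lit 588) (nat_lit 0) (XT.lf (nat_lit 0) (nat_lit 1488317357) (nat_lit 588) (nat_lit 1822352564) (nat_lit 672) (nat_lit 8565438294) (nat_lit 132) (nat_lit 5) (nat_lit 139) (nat_lit 5) (nat_lit 140) (nat_lit 5) (nat_lit 362) (nat_lit 335) (nat_lit 248)) (XT.nd (nat_lit 94) (nat_lit 588) (nat_lit 0) (XT.lf (nat_lit 0) (nat_lit 4983921629) (nat_lit 672) (nat_lit 4699564883) (nat_lit 84) (nat_lit 2389130608) (nat_lit 132) (nat_lit 5) (nat_lit 140) (nat_lit 5) (nat_lit 133) (nat_lit 5) (nat_lit 363) (nat_lit 335) (nat_lit 247)) (XT.lf (nat_lit 0) (nat_lit 1142238727) (nat_lit 588) (nat_lit 5573479679) (nat_lit 672) (nat_lit 5559088026) (nat_lit 125) (nat_lit 5) (nat_lit 132) (nat_lit 5) (nat_lit 133) (nat_lit 5) (nat_lit 364) (nat_lit 335) (nat_lit 246)))) (XT.nd (nat_lit 188) (nat_lit 0) (nat_lit 84) (XT.nd (nat_lit 94) (nat_lit 0) (nat_lit 0) (XT.lf (nat_lit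 0) (nat_lit 529743442) (nat_lit 1092) (nat_lit 1827476235) (nat_lit 1092) (nat_lit 1827476235) (nat_lit 204) (nat_lit 3) (nat_lit 217) (nat_lit 3) (nat_lit 217) (nat_lit 5) (nat_lit 336) (nat_lit 336) (nat_lit 273)) (XT.lf (nat_lit 84) (nat_lit 4109807) (nat_lit 0) (nat_lit 2065892199) (nat_lit 1092) (nat_lit 6393007068) (nat_lit 205) (nat_lit 5) (nat_lit 204) (nat_lit 3) (nat_lit 217) (nat_lit 5) (nat_lit 337) (nat_lit 336) (nat_lit 272))) (XT.nd (nat_lit 94) (nat_lit 0) (nat_lit 0) (XT.lf (nat_lit 0) (nat_lit 3115636921) (nat_lit 1008) (nat_lit 4739050595) (nat_lit 1092) (nat_lit 704684564) (nat_lit 205) (nat_lit 5) (nat_lit 217) (nat_lit 5) (nat_lit 218) (nat_lit 5) (nat_lit 338) (nat_lit 336) (nat_lit 271)) (XT.lf (nat_lit 0) (nat_lit 4175392778) (nat_lit 1008) (nat_lit 949283988) (nat_lit 1092) (nat_lit 3534545654) (nat_lit 205) (nat_lit 5) (nat_lit 217) (nat_lit 5) (nat_lit 218) (nat_lit 5)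 (nat_lit 339) (nat_lit 336) (nat_lit 270)))))) (XT.nd (nat_lit 564) (nat_lit 1008) (nat_lit 0) (XT.nd (nat_lit 282) (nat_lit 924) (nat_lit 0) (XT.nd (nat_lit 94) (nat_lit 0) (nat_lit 84) (XT.lf (nat_lit 84) (nat_lit 2991954428) (nat_lit 0) (nat_lit 2267143025) (nat_lit 1092) (nat_lit 3503282830) (nat_lit 206) (nat_lit 5) (nat_lit 205) (nat_lit 5) (nat_lit 218) (nat_lit 5) (nat_lit 340) (nat_lit 336) (nat_lit 269)) (XT.nd (nat_lit 94) (nat_lit 0) (nat_lit 0) (XT.lf (nat_lit 0) (nat_lit 6355906377) (nat_lit 1008) (nat_lit 1825746930) (nat_lit 1092) (nat_lit 687636247) (nat_lit 206) (nat_lit 5) (nat_lit 218) (nat_lit 5) (nat_lit 219) (nat_lit 5) (nat_lit 341) (nat_lit 336) (nat_lit 268)) (XT.lf (nat_lit 84) (nat_lit 2237420628) (nat_lit 0) (nat_lit 5257602910) (nat_lit 1092) (nat_lit 1484172742) (nat_lit 207) (nat_lit 5) (nat_lit 206) (nat_lit 5) (nat_lit 219) (nat_lit 5) (nat_lit 342) (nat_lit 336)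 (nat_lit 267)))) (XT.nd (nat_lit 94) (nat_lit 1008) (nat_lit 0) (XT.lf (nat_lit 84) (nat_lit 6439050846) (nat_lit 0) (nat_lit 2213955208) (nat_lit 1092) (nat_lit 439923588) (nat_lit 207) (nat_lit 5) (nat_lit 206) (nat_lit 5) (nat_lit 219) (nat_lit 5) (nat_lit 343) (nat_lit 336) (nat_lit 266)) (XT.nd (nat_lit 94) (nat_lit 0) (nat_lit 0) (XT.lf (nat_lit 0) (nat_lit 614271209) (nat_lit 1092) (nat_lit 7659672580) (nat_lit 1176) (nat_lit 936283407) (nat_lit 194) (nat_lit 5) (nat_lit 207) (nat_lit 5) (nat_lit 208) (nat_lit 5) (nat_lit 344) (nat_lit 336) (nat_lit 265)) (XT.lf (nat_lit 0) (nat_lit 1707959132) (nat_lit 1092) (nat_lit 3443176806) (nat_lit 1176) (nat_lit 4179340024) (nat_lit 194) (nat_lit 5) (nat_lit 207) (nat_lit 5) (nat_lit 208) (nat_lit 5) (nat_lit 345) (nat_lit 336) (nat_lit 264))))) (XT.nd (nat_lit 282) (nat_lit 1008) (nat_lit 0) (XT.nd (nat_lit 94) (nat_lit 0) (nat_lit 84) (XT.lf (nat_lit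 84) (nat_lit 896018109) (nat_lit 0) (nat_lit 1915717368) (nat_lit 1176) (nat_lit 6643340742) (nat_lit 195) (nat_lit 5) (nat_lit 194) (nat_lit 5) (nat_lit 208) (nat_lit 5) (nat_lit 346) (nat_lit 336) (nat_lit 263)) (XT.nd (nat_lit 94) (nat_lit 0) (nat_lit 0) (XT.lf (nat_lit 0) (nat_lit 3966824169) (nat_lit 1092) (nat_lit 4182506612) (nat_lit 1176) (nat_lit 1433598279) (nat_lit 195) (nat_lit 5) (nat_lit 208) (nat_lit 5) (nat_lit 209) (nat_lit 5) (nat_lit 347) (nat_lit 336) (nat_lit 262)) (XT.lf (nat_lit 84) (nat_lit 290545682) (nat_lit 0) (nat_lit 4858136229) (nat_lit 1176) (nat_lit 4566230864) (nat_lit 196) (nat_lit 5) (nat_lit 195) (nat_lit 5) (nat_lit 209) (nat_lit 5) (nat_lit 348) (nat_lit 336) (nat_lit 261)))) (XT.nd (nat_lit 188) (nat_lit 1092) (nat_lit 0) (XT.nd (nat_lit 94) (nat_lit 0) (nat_lit 84) (XT.lf (nat_lit 84) (nat_lit 4962239750) (nat_lit 0) (nat_lit 1417005535) (nat_lit 1176) (nat_lit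 3471270292) (nat_lit 196) (nat_lit 5) (nat_lit 195) (nat_lit 5) (nat_lit 209) (nat_lit 5) (nat_lit 349) (nat_lit 336) (nat_lit 260)) (XT.lf (nat_lit 0) (nat_lit 7639105895) (nat_lit 1092) (nat_lit 258189849) (nat_lit 1176) (nat_lit 2093174717) (nat_lit 196) (nat_lit 5) (nat_lit 209) (nat_lit 5) (nat_lit 210) (nat_lit 5) (nat_lit 350) (nat_lit 336) (nat_lit 259))) (XT.nd (nat_lit 94) (nat_lit 1176) (nat_lit 0) (XT.lf (nat_lit 84) (nat_lit 4564837061) (nat_lit 0) (nat_lit 4402583429) (nat_lit 1176) (nat_lit 1166337552) (nat_lit 197) (nat_lit 5) (nat_lit 196) (nat_lit 5) (nat_lit 210) (nat_lit 5) (nat_lit 351) (nat_lit 336) (nat_lit 258)) (XT.lf (nat_lit 0) (nat_lit 28841903) (nat_lit 1176) (nat_lit 765355680) (nat_lit 1260) (nat_lit 9487911932) (nat_lit 182) (nat_lit 5) (nat_lit 196) (nat_lit 5) (nat_lit 197) (nat_lit 5) (nat_lit 352) (nat_lit 336) (nat_lit 257))))))) (XT.nd (nat_lit 57904) (nat_lit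 0) (nat_lit 5124) (XT.nd (nat_lit 564) (nat_lit 1848) (nat_lit 0) (XT.nd (nat_lit 282) (nat_lit 1260) (nat_lit 0) (XT.nd (nat_lit 94) (nat_lit 1176) (nat_lit 0) (XT.lf (nat_lit 0) (nat_lit 1279595008) (nat_lit 1176) (nat_lit 6230245906) (nat_lit 84) (nat_lit 2923478594) (nat_lit 183) (nat_lit 5) (nat_lit 197) (nat_lit 5) (nat_lit 184) (nat_lit 5) (nat_lit 353) (nat_lit 336) (nat_lit 256)) (XT.nd (nat_lit 94) (nat_lit 1176) (nat_lit 0) (XT.lf (nat_lit 0) (nat_lit 2557965512) (nat_lit 1176) (nat_lit 1281957354) (nat_lit 84) (nat_lit 6749487888) (nat_lit 183) (nat_lit 5) (nat_lit 197) (nat_lit 5) (nat_lit 184) (nat_lit 5) (nat_lit 354) (nat_lit 336) (nat_lit 255)) (XT.lf (nat_lit 0) (nat_lit 3869483183) (nat_lit 1176) (nat_lit 17571001) (nat_lit 1260) (nat_lit 6862805945) (nat_lit 169) (nat_lit 5) (nat_lit 183) (nat_lit 5) (nat_lit 184) (nat_lit 5) (nat_lit 355) (nat_lit 336) (nat_lit 254)))) (XT.nd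 (nat_lit 94) (nat_lit 1260) (nat_lit 0) (XT.lf (nat_lit 0) (nat_lit 5282497069) (nat_lit 1260) (nat_lit 1772203181) (nat_lit 84) (nat_lit 3859673342) (nat_lit 169) (nat_lit 5) (nat_lit 184) (nat_lit 5) (nat_lit 170) (nat_lit 5) (nat_lit 356) (nat_lit 336) (nat_lit 253)) (XT.nd (nat_lit 94) (nat_lit 0) (nat_lit 0) (XT.lf (nat_lit 0) (nat_lit 3537280481) (nat_lit 1260) (nat_lit 3193138028) (nat_lit 1344) (nat_lit 4353129232) (nat_lit 154) (nat_lit 5) (nat_lit 169) (nat_lit 5) (nat_lit 170) (nat_lit 5) (nat_lit 357) (nat_lit 336) (nat_lit 252)) (XT.lf (nat_lit 0) (nat_lit 8224340577) (nat_lit 1344) (nat_lit 2243940467) (nat_lit 84) (nat_lit 789481645) (nat_lit 154) (nat_lit 5) (nat_lit 170) (nat_lit 5) (nat_lit 155) (nat_lit 5) (nat_lit 358) (nat_lit 336) (nat_lit 251))))) (XT.nd (nat_lit 282) (nat_lit 588) (nat_lit 0) (XT.nd (nat_lit 94) (nat_lit 672) (nat_lit 0) (XT.lf (nat_lit 0) (nat_lit 3228113380)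 (nat_lit 588) (nat_lit 6575235210) (nat_lit 672) (nat_lit 1632688677) (nat_lit 147) (nat_lit 5) (nat_lit 154) (nat_lit 5) (nat_lit 155) (nat_lit 5) (nat_lit 359) (nat_lit 336) (nat_lit 250)) (XT.nd (nat_lit 94) (nat_lit 672) (nat_lit 0) (XT.lf (nat_lit 0) (nat_lit 8889810918) (nat_lit 588) (nat_lit 2540652336) (nat_lit 672) (nat_lit 189214765) (nat_lit 147) (nat_lit 5) (nat_lit 154) (nat_lit 5) (nat_lit 155) (nat_lit 5) (nat_lit 360) (nat_lit 336) (nat_lit 249)) (XT.lf (nat_lit 0) (nat_lit 1294880138) (nat_lit 672) (nat_lit 8887244356) (nat_lit 84) (nat_lit 1625687934) (nat_lit 139) (nat_lit 5) (nat_lit 147) (nat_lit 5) (nat_lit 140) (nat_lit 5) (nat_lit 361) (nat_lit 336) (nat_lit 248)))) (XT.nd (nat_lit 188) (nat_lit 0) (nat_lit 0) (XT.nd (nat_lit 94) (nat_lit 588) (nat_lit 0) (XT.lf (nat_lit 0) (nat_lit 2851597719) (nat_lit 672) (nat_lit 3252453095) (nat_lit 84) (nat_lit 5896563399) (nat_lit 139)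 (nat_lit 5) (nat_lit 147) (nat_lit 5) (nat_lit 140) (nat_lit 5) (nat_lit 362) (nat_lit 336) (nat_lit 247)) (XT.lf (nat_lit 0) (nat_lit 2581500155) (nat_lit 588) (nat_lit 1877854587) (nat_lit 672) (nat_lit 7739750736) (nat_lit 132) (nat_lit 5) (nat_lit 139) (nat_lit 5) (nat_lit 140) (nat_lit 5) (nat_lit 363) (nat_lit 336) (nat_lit 246))) (XT.nd (nat_lit 56776) (nat_lit 0) (nat_lit 6048) (XT.lf (nat_lit 0) (nat_lit 6152232221) (nat_lit 672) (nat_lit 3790234109) (nat_lit 84) (nat_lit 2460013048) (nat_lit 132) (nat_lit 5) (nat_lit 140) (nat_lit 5) (nat_lit 133) (nat_lit 5) (nat_lit 364) (nat_lit 336) (nat_lit 245)) (XT.lf (nat_lit 0) (nat_lit 1530658514) (nat_lit 1092) (nat_lit 1373981345) (nat_lit 1092) (nat_lit 1373981345) (nat_lit 204) (nat_lit 3) (nat_lit 217) (nat_lit 3) (nat_lit 217) (nat_lit 5) (nat_lit 337) (nat_lit 337) (nat_lit 271)))))) (XT.nd (nat_lit 564) (nat_lit 0) (nat_lit 0) (XT.nd (nat_lit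 282) (nat_lit 924) (nat_lit 0) (XT.nd (nat_lit 94) (nat_lit 0) (nat_lit 0) (XT.lf (nat_lit 84) (nat_lit 1010904412) (nat_lit 0) (nat_lit 3043539965) (nat_lit 1092) (nat_lit 4600775182) (nat_lit 205) (nat_lit 5) (nat_lit 204) (nat_lit 3) (nat_lit 217) (nat_lit 5) (nat_lit 338) (nat_lit 337) (nat_lit 270)) (XT.nd (nat_lit 94) (nat_lit 0) (nat_lit 84) (XT.lf (nat_lit 84) (nat_lit 4919611328) (nat_lit 0) (nat_lit 148730527) (nat_lit 1092) (nat_lit 3688141578) (nat_lit 205) (nat_lit 5) (nat_lit 204) (nat_lit 3) (nat_lit 217) (nat_lit 5) (nat_lit 339) (nat_lit 337) (nat_lit 269)) (XT.lf (nat_lit 84) (nat_lit 38305055) (nat_lit 0) (nat_lit 6066412996) (nat_lit 1092) (nat_lit 2756379782) (nat_lit 206) (nat_lit 5) (nat_lit 205) (nat_lit 5) (nat_lit 218) (nat_lit 5) (nat_lit 340) (nat_lit 337) (nat_lit 268)))) (XT.nd (nat_lit 94) (nat_lit 1008) (nat_lit 0) (XT.lf (nat_lit 84) (nat_lit 4087079036) (nat_lit 0)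 (nat_lit 3090615999) (nat_lit 1092) (nat_lit 1791062641) (nat_lit 206) (nat_lit 5) (nat_lit 205) (nat_lit 5) (nat_lit 218) (nat_lit 5) (nat_lit 341) (nat_lit 337) (nat_lit 267)) (XT.nd (nat_lit 94) (nat_lit 1008) (nat_lit 0) (XT.lf (nat_lit 84) (nat_lit 8238084465) (nat_lit 0) (nat_lit 11093827) (nat_lit 1092) (nat_lit 831549703) (nat_lit 206) (nat_lit 5) (nat_lit 205) (nat_lit 5) (nat_lit 218) (nat_lit 5) (nat_lit 342) (nat_lit 337) (nat_lit 266)) (XT.lf (nat_lit 0) (nat_lit 183767764) (nat_lit 1092) (nat_lit 5864682344) (nat_lit 1176) (nat_lit 3146725939) (nat_lit 193) (nat_lit 5) (nat_lit 206) (nat_lit 5) (nat_lit 207) (nat_lit 5) (nat_lit 343) (nat_lit 337) (nat_lit 265))))) (XT.nd (nat_lit 282) (nat_lit 0) (nat_lit 84) (XT.nd (nat_lit 94) (nat_lit 0) (nat_lit 84) (XT.lf (nat_lit 0) (nat_lit 1189347223) (nat_lit 1092) (nat_lit 1695496958) (nat_lit 1176) (nat_lit 6428735122) (nat_lit 193) (nat_lit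 5) (nat_lit 206) (nat_lit 5) (nat_lit 207) (nat_lit 5) (nat_lit 344) (nat_lit 337) (nat_lit 264)) (XT.nd (nat_lit 94) (nat_lit 0) (nat_lit 0) (XT.lf (nat_lit 0) (nat_lit 2223081057) (nat_lit 1092) (nat_lit 6809410304) (nat_lit 1176) (nat_lit 403166050) (nat_lit 194) (nat_lit 5) (nat_lit 207) (nat_lit 5) (nat_lit 208) (nat_lit 5) (nat_lit 345) (nat_lit 337) (nat_lit 263)) (XT.lf (nat_lit 0) (nat_lit 3303257821) (nat_lit 1092) (nat_lit 2497877495) (nat_lit 1176) (nat_lit 3759860167) (nat_lit 194) (nat_lit 5) (nat_lit 207) (nat_lit 5) (nat_lit 208) (nat_lit 5) (nat_lit 346) (nat_lit 337) (nat_lit 262)))) (XT.nd (nat_lit 188) (nat_lit 0) (nat_lit 84) (XT.nd (nat_lit 94) (nat_lit 0) (nat_lit 84) (XT.lf (nat_lit 84) (nat_lit 1961212928) (nat_lit 0) (nat_lit 2443942821) (nat_lit 1176) (nat_lit 5285317253) (nat_lit 195) (nat_lit 5) (nat_lit 194) (nat_lit 5) (nat_lit 208) (nat_lit 5) (nat_lit 347) (nat_lit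 337) (nat_lit 261)) (XT.lf (nat_lit 0) (nat_lit 5546550284) (nat_lit 1092) (nat_lit 3248666320) (nat_lit 1176) (nat_lit 1028482123) (nat_lit 195) (nat_lit 5) (nat_lit 208) (nat_lit 5) (nat_lit 209) (nat_lit 5) (nat_lit 348) (nat_lit 337) (nat_lit 260))) (XT.nd (nat_lit 94) (nat_lit 0) (nat_lit 0) (XT.lf (nat_lit 84) (nat_lit 1348192096) (nat_lit 0) (nat_lit 5383209337) (nat_lit 1176) (nat_lit 3229298759) (nat_lit 196) (nat_lit 5) (nat_lit 195) (nat_lit 5) (nat_lit 209) (nat_lit 5) (nat_lit 349) (nat_lit 337) (nat_lit 259)) (XT.lf (nat_lit 84) (nat_lit 6129485626) (nat_lit 0) (nat_lit 1827796304) (nat_lit 1176) (nat_lit 2144419050) (nat_lit 196) (nat_lit 5) (nat_lit 195) (nat_lit 5) (nat_lit 209) (nat_lit 5) (nat_lit 350) (nat_lit 337) (nat_lit 258))))))))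
noncomputable def xc26 : XT := (XT.nd (nat_lit 59220) (nat_lit 0) (nat_lit 588) (XT.nd (nat_lit 1222) (nat_lit 588) (nat_lit 0) (XT.nd (nat_lit 564) (nat_lit 2520) (nat_lit 0) (XT.nd (nat_lit 282) (nat_lit 1092) (nat_lit 0) (XT.nd (nat_lit 94) (nat_lit 1176) (nat_lit 0) (XT.lf (nat_lit 84) (nat_lit 784567281) (nat_lit 0) (nat_lit 8434087655) (nat_lit 1176) (nat_lit 1028367600) (nat_lit 197) (nat_lit 5) (nat_lit 196) (nat_lit 5) (nat_lit 210) (nat_lit 5) (nat_lit 351) (nat_lit 337) (nat_lit 257)) (XT.nd (nat_lit 94) (nat_lit 0) (nat_lit 0) (XT.lf (nat_lit 0) (nat_lit 151219391) (nat_lit 1176) (nat_lit 4670446182) (nat_lit 1260) (nat_lit 5574079904) (nat_lit 182) (nat_lit 5) (nat_lit 196) (nat_lit 5) (nat_lit 197) (nat_lit 5) (nat_lit 352) (nat_lit 337) (nat_lit 256)) (XT.lf (nat_lit 84) (nat_lit 239655861) (nat_lit 0) (nat_lit 1082748066) (nat_lit 1260) (nat_lit 9226962146) (nat_lit 183) (nat_lit 5)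 (nat_lit 182) (nat_lit 5) (nat_lit 197) (nat_lit 5) (nat_lit 353) (nat_lit 337) (nat_lit 255)))) (XT.nd (nat_lit 94) (nat_lit 1176) (nat_lit 0) (XT.lf (nat_lit 0) (nat_lit 2578135466) (nat_lit 1176) (nat_lit 5361262010) (nat_lit 84) (nat_lit 2766761871) (nat_lit 183) (nat_lit 5) (nat_lit 197) (nat_lit 5) (nat_lit 184) (nat_lit 5) (nat_lit 354) (nat_lit 337) (nat_lit 254)) (XT.nd (nat_lit 94) (nat_lit 1176) (nat_lit 0) (XT.lf (nat_lit 0) (nat_lit 3858153611) (nat_lit 1176) (nat_lit 295278916) (nat_lit 84) (nat_lit 6714670504) (nat_lit 183) (nat_lit 5) (nat_lit 197) (nat_lit 5) (nat_lit 184) (nat_lit 5) (nat_lit 355) (nat_lit 337) (nat_lit 253)) (XT.lf (nat_lit 0) (nat_lit 5000654473) (nat_lit 1176) (nat_lit 200583665) (nat_lit 1260) (nat_lit 5832970653) (nat_lit 169) (nat_lit 5) (nat_lit 183) (nat_lit 5) (nat_lit 184) (nat_lit 5) (nat_lit 356) (nat_lit 337) (nat_lit 252))))) (XT.nd (nat_lit 282) (nat_lit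 1260) (nat_lit 0) (XT.nd (nat_lit 94) (nat_lit 1260) (nat_lit 0) (XT.lf (nat_lit 0) (nat_lit 6601960491) (nat_lit 1260) (nat_lit 801108986) (nat_lit 84) (nat_lit 3801750355) (nat_lit 169) (nat_lit 5) (nat_lit 184) (nat_lit 5) (nat_lit 170) (nat_lit 5) (nat_lit 357) (nat_lit 337) (nat_lit 251)) (XT.nd (nat_lit 94) (nat_lit 0) (nat_lit 0) (XT.lf (nat_lit 0) (nat_lit 4657617418) (nat_lit 1260) (nat_lit 3411636245) (nat_lit 1344) (nat_lit 3310600294) (nat_lit 154) (nat_lit 5) (nat_lit 169) (nat_lit 5) (nat_lit 170) (nat_lit 5) (nat_lit 358) (nat_lit 337) (nat_lit 250)) (XT.lf (nat_lit 0) (nat_lit 9573733992) (nat_lit 1344) (nat_lit 1290289512) (nat_lit 84) (nat_lit 696360582) (nat_lit 154) (nat_lit 5) (nat_lit 170) (nat_lit 5) (nat_lit 155) (nat_lit 5) (nat_lit 359) (nat_lit 337) (nat_lit 249)))) (XT.nd (nat_lit 188) (nat_lit 588) (nat_lit 0) (XT.nd (nat_lit 94) (nat_lit 84) (nat_lit 0) (XT.lf (nat_lit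 0) (nat_lit 4335916450) (nat_lit 588) (nat_lit 6841797355) (nat_lit 672) (nat_lit 567024222) (nat_lit 147) (nat_lit 5) (nat_lit 154) (nat_lit 5) (nat_lit 155) (nat_lit 5) (nat_lit 360) (nat_lit 337) (nat_lit 248)) (XT.lf (nat_lit 0) (nat_lit 869974320) (nat_lit 672) (nat_lit 1805399045) (nat_lit 84) (nat_lit 9259260132) (nat_lit 146) (nat_lit 5) (nat_lit 154) (nat_lit 5) (nat_lit 147) (nat_lit 5) (nat_lit 361) (nat_lit 337) (nat_lit 247))) (XT.nd (nat_lit 94) (nat_lit 0) (nat_lit 0) (XT.lf (nat_lit 0) (nat_lit 2373012123) (nat_lit 672) (nat_lit 8125789070) (nat_lit 84) (nat_lit 1630262000) (nat_lit 139) (nat_lit 5) (nat_lit 147) (nat_lit 5) (nat_lit 140) (nat_lit 5) (nat_lit 362) (nat_lit 337) (nat_lit 246)) (XT.lf (nat_lit 0) (nat_lit 3946160777) (nat_lit 672) (nat_lit 2351897934) (nat_lit 84) (nat_lit 6030551007) (nat_lit 139) (nat_lit 5) (nat_lit 147) (nat_lit 5) (nat_lit 140) (nat_lit 5) (nat_lit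 363) (nat_lit 337) (nat_lit 245)))))) (XT.nd (nat_lit 57340) (nat_lit 0) (nat_lit 5040) (XT.nd (nat_lit 57058) (nat_lit 0) (nat_lit 6048) (XT.nd (nat_lit 56870) (nat_lit 0) (nat_lit 6048) (XT.lf (nat_lit 0) (nat_lit 3647288337) (nat_lit 588) (nat_lit 1934973944) (nat_lit 672) (nat_lit 6951441131) (nat_lit 132) (nat_lit 5) (nat_lit 139) (nat_lit 5) (nat_lit 140) (nat_lit 5) (nat_lit 364) (nat_lit 337) (nat_lit 244)) (XT.nd (nat_lit 94) (nat_lit 0) (nat_lit 0) (XT.lf (nat_lit 0) (nat_lit 2505056702) (nat_lit 1092) (nat_lit 936061209) (nat_lit 1092) (nat_lit 936061209) (nat_lit 204) (nat_lit 3) (nat_lit 217) (nat_lit 3) (nat_lit 217) (nat_lit 5) (nat_lit 338) (nat_lit 338) (nat_lit 269)) (XT.lf (nat_lit 84) (nat_lit 1990115804) (nat_lit 0) (nat_lit 3997953904) (nat_lit 1092) (nat_lit 2868667324) (nat_lit 205) (nat_lit 5) (nat_lit 204) (nat_lit 3) (nat_lit 217) (nat_lit 5) (nat_lit 339) (nat_lit 338)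 (nat_lit 268)))) (XT.nd (nat_lit 94) (nat_lit 0) (nat_lit 84) (XT.lf (nat_lit 84) (nat_lit 5988446521) (nat_lit 0) (nat_lit 991161121) (nat_lit 1092) (nat_lit 1983124551) (nat_lit 205) (nat_lit 5) (nat_lit 204) (nat_lit 3) (nat_lit 217) (nat_lit 5) (nat_lit 340) (nat_lit 338) (nat_lit 267)) (XT.nd (nat_lit 94) (nat_lit 0) (nat_lit 0) (XT.lf (nat_lit 84) (nat_lit 1015537678) (nat_lit 0) (nat_lit 6981860418) (nat_lit 1092) (nat_lit 1074684113) (nat_lit 206) (nat_lit 5) (nat_lit 205) (nat_lit 5) (nat_lit 218) (nat_lit 5) (nat_lit 341) (nat_lit 338) (nat_lit 266)) (XT.lf (nat_lit 84) (nat_lit 5157345263) (nat_lit 0) (nat_lit 3895426742) (nat_lit 1092) (nat_lit 131797372) (nat_lit 206) (nat_lit 5) (nat_lit 205) (nat_lit 5) (nat_lit 218) (nat_lit 5) (nat_lit 342) (nat_lit 338) (nat_lit 265))))) (XT.nd (nat_lit 282) (nat_lit 0) (nat_lit 84) (XT.nd (nat_lit 94) (nat_lit 0) (nat_lit 84) (XT.lf (nat_lit 84)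 (nat_lit 97987967) (nat_lit 0) (nat_lit 693821960) (nat_lit 1176) (nat_lit 8509379014) (nat_lit 193) (nat_lit 5) (nat_lit 192) (nat_lit 5) (nat_lit 206) (nat_lit 5) (nat_lit 343) (nat_lit 338) (nat_lit 264)) (XT.nd (nat_lit 94) (nat_lit 0) (nat_lit 0) (XT.lf (nat_lit 0) (nat_lit 1775325934) (nat_lit 1092) (nat_lit 5037086383) (nat_lit 1176) (nat_lit 2607872506) (nat_lit 193) (nat_lit 5) (nat_lit 206) (nat_lit 5) (nat_lit 207) (nat_lit 5) (nat_lit 344) (nat_lit 338) (nat_lit 263)) (XT.lf (nat_lit 0) (nat_lit 2764877288) (nat_lit 1092) (nat_lit 772054653) (nat_lit 1176) (nat_lit 6006786291) (nat_lit 193) (nat_lit 5) (nat_lit 206) (nat_lit 5) (nat_lit 207) (nat_lit 5) (nat_lit 345) (nat_lit 338) (nat_lit 262)))) (XT.nd (nat_lit 188) (nat_lit 0) (nat_lit 84) (XT.nd (nat_lit 94) (nat_lit 0) (nat_lit 84) (XT.lf (nat_lit 84) (nat_lit 3673983026) (nat_lit 0) (nat_lit 115992751) (nat_lit 1176) (nat_lit 5880761830)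 (nat_lit 194) (nat_lit 5) (nat_lit 193) (nat_lit 5) (nat_lit 207) (nat_lit 5) (nat_lit 346) (nat_lit 338) (nat_lit 261)) (XT.lf (nat_lit 0) (nat_lit 4857780114) (nat_lit 1092) (nat_lit 1584412825) (nat_lit 1176) (nat_lit 3359073110) (nat_lit 194) (nat_lit 5) (nat_lit 207) (nat_lit 5) (nat_lit 208) (nat_lit 5) (nat_lit 347) (nat_lit 338) (nat_lit 260))) (XT.nd (nat_lit 94) (nat_lit 0) (nat_lit 84) (XT.lf (nat_lit 84) (nat_lit 2998760105) (nat_lit 0) (nat_lit 2960991835) (nat_lit 1176) (nat_lit 3975949811) (nat_lit 195) (nat_lit 5) (nat_lit 194) (nat_lit 5) (nat_lit 208) (nat_lit 5) (nat_lit 348) (nat_lit 338) (nat_lit 259)) (XT.lf (nat_lit 0) (nat_lit 7089816800) (nat_lit 1092) (nat_lit 2347619863) (nat_lit 1176) (nat_lit 636936640) (nat_lit 195) (nat_lit 5) (nat_lit 208) (nat_lit 5) (nat_lit 209) (nat_lit 5) (nat_lit 349) (nat_lit 338) (nat_lit 258))))))) (XT.nd (nat_lit 1222) (nat_lit 588) (nat_lit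 0) (XT.nd (nat_lit 564) (nat_lit 3024) (nat_lit 0) (XT.nd (nat_lit 282) (nat_lit 0) (nat_lit 0) (XT.nd (nat_lit 94) (nat_lit 1092) (nat_lit 0) (XT.lf (nat_lit 84) (nat_lit 2377355027) (nat_lit 0) (nat_lit 5902259601) (nat_lit 1176) (nat_lit 1936867672) (nat_lit 196) (nat_lit 5) (nat_lit 195) (nat_lit 5) (nat_lit 209) (nat_lit 5) (nat_lit 350) (nat_lit 338) (nat_lit 257)) (XT.nd (nat_lit 94) (nat_lit 1092) (nat_lit 0) (XT.lf (nat_lit 84) (nat_lit 7273289775) (nat_lit 0) (nat_lit 2229769983) (nat_lit 1176) (nat_lit 859906913) (nat_lit 196) (nat_lit 5) (nat_lit 195) (nat_lit 5) (nat_lit 209) (nat_lit 5) (nat_lit 351) (nat_lit 338) (nat_lit 256)) (XT.lf (nat_lit 0) (nat_lit 251843590) (nat_lit 1176) (nat_lit 8712851393) (nat_lit 1260) (nat_lit 1548906070) (nat_lit 182) (nat_lit 5) (nat_lit 196) (nat_lit 5) (nat_lit 197) (nat_lit 5) (nat_lit 352) (nat_lit 338) (nat_lit 255)))) (XT.nd (nat_lit 94) (nat_lit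 0) (nat_lit 0) (XT.lf (nat_lit 0) (nat_lit 1408564757) (nat_lit 1176) (nat_lit 3817068633) (nat_lit 1260) (nat_lit 5442045019) (nat_lit 182) (nat_lit 5) (nat_lit 196) (nat_lit 5) (nat_lit 197) (nat_lit 5) (nat_lit 353) (nat_lit 338) (nat_lit 254)) (XT.nd (nat_lit 94) (nat_lit 0) (nat_lit 84) (XT.lf (nat_lit 84) (nat_lit 1230596364) (nat_lit 0) (nat_lit 1357255304) (nat_lit 1260) (nat_lit 8238935546) (nat_lit 183) (nat_lit 5) (nat_lit 182) (nat_lit 5) (nat_lit 197) (nat_lit 5) (nat_lit 354) (nat_lit 338) (nat_lit 253)) (XT.lf (nat_lit 0) (nat_lit 3843294222) (nat_lit 1176) (nat_lit 4526821076) (nat_lit 84) (nat_lit 2619374416) (nat_lit 183) (nat_lit 5) (nat_lit 197) (nat_lit 5) (nat_lit 184) (nat_lit 5) (nat_lit 355) (nat_lit 338) (nat_lit 252))))) (XT.nd (nat_lit 282) (nat_lit 672) (nat_lit 0) (XT.nd (nat_lit 94) (nat_lit 1260) (nat_lit 0) (XT.lf (nat_lit 0) (nat_lit 675330946) (nat_lit 1176) (nat_lit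 4458277114) (nat_lit 1260) (nat_lit 6023591453) (nat_lit 169) (nat_lit 5) (nat_lit 183) (nat_lit 5) (nat_lit 184) (nat_lit 5) (nat_lit 356) (nat_lit 338) (nat_lit 251)) (XT.nd (nat_lit 94) (nat_lit 1260) (nat_lit 0) (XT.lf (nat_lit 0) (nat_lit 6107490767) (nat_lit 1176) (nat_lit 378611292) (nat_lit 1260) (nat_lit 4843175656) (nat_lit 169) (nat_lit 5) (nat_lit 183) (nat_lit 5) (nat_lit 184) (nat_lit 5) (nat_lit 357) (nat_lit 338) (nat_lit 250)) (XT.lf (nat_lit 0) (nat_lit 143113973) (nat_lit 1260) (nat_lit 7752624051) (nat_lit 1344) (nat_lit 3610323251) (nat_lit 154) (nat_lit 5) (nat_lit 169) (nat_lit 5) (nat_lit 170) (nat_lit 5) (nat_lit 358) (nat_lit 338) (nat_lit 249)))) (XT.nd (nat_lit 188) (nat_lit 672) (nat_lit 0) (XT.nd (nat_lit 94) (nat_lit 0) (nat_lit 0) (XT.lf (nat_lit 0) (nat_lit 5753344171) (nat_lit 1260) (nat_lit 3629645693) (nat_lit 1344) (nat_lit 2304137537) (nat_lit 154) (nat_lit 5)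 (nat_lit 169) (nat_lit 5) (nat_lit 170) (nat_lit 5) (nat_lit 359) (nat_lit 338) (nat_lit 248)) (XT.lf (nat_lit 0) (nat_lit 10900311830) (nat_lit 1344) (nat_lit 366636834) (nat_lit 84) (nat_lit 607151001) (nat_lit 154) (nat_lit 5) (nat_lit 170) (nat_lit 5) (nat_lit 155) (nat_lit 5) (nat_lit 360) (nat_lit 338) (nat_lit 247))) (XT.nd (nat_lit 94) (nat_lit 0) (nat_lit 0) (XT.lf (nat_lit 0) (nat_lit 457519442) (nat_lit 672) (nat_lit 6650238476) (nat_lit 84) (nat_lit 4956780898) (nat_lit 146) (nat_lit 5) (nat_lit 154) (nat_lit 5) (nat_lit 147) (nat_lit 5) (nat_lit 361) (nat_lit 338) (nat_lit 246)) (XT.lf (nat_lit 0) (nat_lit 1896226720) (nat_lit 672) (nat_lit 912732232) (nat_lit 84) (nat_lit 9451956486) (nat_lit 146) (nat_lit 5) (nat_lit 154) (nat_lit 5) (nat_lit 147) (nat_lit 5) (nat_lit 362) (nat_lit 338) (nat_lit 245)))))) (XT.nd (nat_lit 57434) (nat_lit 0) (nat_lit 4452) (XT.nd (nat_lit 57152) (nat_lit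 0) (nat_lit 4452) (XT.nd (nat_lit 94) (nat_lit 0) (nat_lit 0) (XT.lf (nat_lit 0) (nat_lit 3423828824) (nat_lit 672) (nat_lit 7400505700) (nat_lit 84) (nat_lit 1637510351) (nat_lit 139) (nat_lit 5) (nat_lit 147) (nat_lit 5) (nat_lit 140) (nat_lit 5) (nat_lit 363) (nat_lit 338) (nat_lit 244)) (XT.nd (nat_lit 56964) (nat_lit 0) (nat_lit 5460) (XT.lf (nat_lit 0) (nat_lit 5015639132) (nat_lit 672) (nat_lit 1481622792) (nat_lit 84) (nat_lit 6171021412) (nat_lit 139) (nat_lit 5) (nat_lit 147) (nat_lit 5) (nat_lit 140) (nat_lit 5) (nat_lit 364) (nat_lit 338) (nat_lit 243)) (XT.lf (nat_lit 0) (nat_lit 3455388376) (nat_lit 1092) (nat_lit 512508040) (nat_lit 1092) (nat_lit 512508040) (nat_lit 204) (nat_lit 3) (nat_lit 217) (nat_lit 3) (nat_lit 217) (nat_lit 5) (nat_lit 339) (nat_lit 339) (nat_lit 267)))) (XT.nd (nat_lit 94) (nat_lit 1008) (nat_lit 0) (XT.lf (nat_lit 84) (nat_lit 2944233699) (nat_lit 0) (nat_lit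 4931454345) (nat_lit 1092) (nat_lit 1191949407) (nat_lit 205) (nat_lit 5) (nat_lit 204) (nat_lit 3) (nat_lit 217) (nat_lit 5) (nat_lit 340) (nat_lit 339) (nat_lit 266)) (XT.nd (nat_lit 94) (nat_lit 1008) (nat_lit 0) (XT.lf (nat_lit 84) (nat_lit 7036463433) (nat_lit 0) (nat_lit 1810761803) (nat_lit 1092) (nat_lit 331183397) (nat_lit 205) (nat_lit 5) (nat_lit 204) (nat_lit 3) (nat_lit 217) (nat_lit 5) (nat_lit 341) (nat_lit 339) (nat_lit 265)) (XT.lf (nat_lit 0) (nat_lit 545326326) (nat_lit 1092) (nat_lit 7331834889) (nat_lit 1176) (nat_lit 1415223041) (nat_lit 192) (nat_lit 5) (nat_lit 205) (nat_lit 5) (nat_lit 206) (nat_lit 5) (nat_lit 342) (nat_lit 339) (nat_lit 264))))) (XT.nd (nat_lit 282) (nat_lit 0) (nat_lit 84) (XT.nd (nat_lit 94) (nat_lit 0) (nat_lit 0) (XT.lf (nat_lit 0) (nat_lit 1450053893) (nat_lit 1092) (nat_lit 3218808205) (nat_lit 1176) (nat_lit 4740623673) (nat_lit 192) (nat_lit 5) (nat_lit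 205) (nat_lit 5) (nat_lit 206) (nat_lit 5) (nat_lit 343) (nat_lit 339) (nat_lit 263)) (XT.nd (nat_lit 94) (nat_lit 0) (nat_lit 84) (XT.lf (nat_lit 84) (nat_lit 1019757986) (nat_lit 0) (nat_lit 1341683445) (nat_lit 1176) (nat_lit 7169333901) (nat_lit 193) (nat_lit 5) (nat_lit 192) (nat_lit 5) (nat_lit 206) (nat_lit 5) (nat_lit 344) (nat_lit 339) (nat_lit 262)) (XT.lf (nat_lit 0) (nat_lit 3323585370) (nat_lit 1092) (nat_lit 4242269640) (nat_lit 1176) (nat_lit 2089204910) (nat_lit 193) (nat_lit 5) (nat_lit 206) (nat_lit 5) (nat_lit 207) (nat_lit 5) (nat_lit 345) (nat_lit 339) (nat_lit 261)))) (XT.nd (nat_lit 188) (nat_lit 0) (nat_lit 84) (XT.nd (nat_lit 94) (nat_lit 0) (nat_lit 0) (XT.lf (nat_lit 84) (nat_lit 125612861) (nat_lit 0) (nat_lit 4174874192) (nat_lit 1176) (nat_lit 5483066262) (nat_lit 194) (nat_lit 5) (nat_lit 193) (nat_lit 5) (nat_lit 207) (nat_lit 5) (nat_lit 346) (nat_lit 339) (nat_lit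 260)) (XT.lf (nat_lit 84) (nat_lit 4693576806) (nat_lit 0) (nat_lit 628020269) (nat_lit 1176) (nat_lit 4593912806) (nat_lit 194) (nat_lit 5) (nat_lit 193) (nat_lit 5) (nat_lit 207) (nat_lit 5) (nat_lit 347) (nat_lit 339) (nat_lit 259))) (XT.nd (nat_lit 94) (nat_lit 0) (nat_lit 0) (XT.lf (nat_lit 0) (nat_lit 6375390752) (nat_lit 1092) (nat_lit 700282475) (nat_lit 1176) (nat_lit 2975744200) (nat_lit 194) (nat_lit 5) (nat_lit 207) (nat_lit 5) (nat_lit 208) (nat_lit 5) (nat_lit 348) (nat_lit 339) (nat_lit 258)) (XT.lf (nat_lit 84) (nat_lit 4011251694) (nat_lit 0) (nat_lit 3468080361) (nat_lit 1176) (nat_lit 2711566359) (nat_lit 195) (nat_lit 5) (nat_lit 194) (nat_lit 5) (nat_lit 208) (nat_lit 5) (nat_lit 349) (nat_lit 339) (nat_lit 257))))))))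
noncomputable def xc27 : XT := (XT.nd (nat_lit 59408) (nat_lit 0) (nat_lit 0) (XT.nd (nat_lit 1222) (nat_lit 588) (nat_lit 0) (XT.nd (nat_lit 564) (nat_lit 2940) (nat_lit 0) (XT.nd (nat_lit 282) (nat_lit 0) (nat_lit 84) (XT.nd (nat_lit 94) (nat_lit 1176) (nat_lit 0) (XT.lf (nat_lit 0) (nat_lit 8600343341) (nat_lit 1092) (nat_lit 1476860367) (nat_lit 1176) (nat_lit 257892278) (nat_lit 195) (nat_lit 5) (nat_lit 208) (nat_lit 5) (nat_lit 209) (nat_lit 5) (nat_lit 350) (nat_lit 339) (nat_lit 256)) (XT.nd (nat_lit 94) (nat_lit 1176) (nat_lit 0) (XT.lf (nat_lit 84) (nat_lit 3380636436) (nat_lit 0) (nat_lit 6416356311) (nat_lit 1176) (nat_lit 685415733) (nat_lit 196) (nat_lit 5) (nat_lit 195) (nat_lit 5) (nat_lit 209) (nat_lit 5) (nat_lit 351) (nat_lit 339) (nat_lit 255)) (XT.lf (nat_lit 0) (nat_lit 378184765) (nat_lit 1176) (nat_lit 2241871939) (nat_lit 1260) (nat_lit 8014301049) (nat_lit 181) (nat_lit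 5) (nat_lit 195) (nat_lit 5) (nat_lit 196) (nat_lit 5) (nat_lit 352) (nat_lit 339) (nat_lit 254)))) (XT.nd (nat_lit 94) (nat_lit 0) (nat_lit 0) (XT.lf (nat_lit 0) (nat_lit 1475718107) (nat_lit 1176) (nat_lit 8009682629) (nat_lit 1260) (nat_lit 1304832201) (nat_lit 182) (nat_lit 5) (nat_lit 196) (nat_lit 5) (nat_lit 197) (nat_lit 5) (nat_lit 353) (nat_lit 339) (nat_lit 253)) (XT.nd (nat_lit 94) (nat_lit 0) (nat_lit 0) (XT.lf (nat_lit 0) (nat_lit 2631714136) (nat_lit 1176) (nat_lit 2995120201) (nat_lit 1260) (nat_lit 5323227679) (nat_lit 182) (nat_lit 5) (nat_lit 196) (nat_lit 5) (nat_lit 197) (nat_lit 5) (nat_lit 354) (nat_lit 339) (nat_lit 252)) (XT.lf (nat_lit 84) (nat_lit 2194793761) (nat_lit 0) (nat_lit 1626104546) (nat_lit 1260) (nat_lit 7293874878) (nat_lit 183) (nat_lit 5) (nat_lit 182) (nat_lit 5) (nat_lit 197) (nat_lit 5) (nat_lit 355) (nat_lit 339) (nat_lit 251))))) (XT.nd (nat_lit 282) (nat_lit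 1932) (nat_lit 0) (XT.nd (nat_lit 94) (nat_lit 1176) (nat_lit 0) (XT.lf (nat_lit 0) (nat_lit 5078222319) (nat_lit 1176) (nat_lit 3724479988) (nat_lit 84) (nat_lit 2480790683) (nat_lit 183) (nat_lit 5) (nat_lit 197) (nat_lit 5) (nat_lit 184) (nat_lit 5) (nat_lit 356) (nat_lit 339) (nat_lit 250)) (XT.nd (nat_lit 94) (nat_lit 0) (nat_lit 0) (XT.lf (nat_lit 0) (nat_lit 1624539088) (nat_lit 1176) (nat_lit 4759025542) (nat_lit 1260) (nat_lit 5073440830) (nat_lit 169) (nat_lit 5) (nat_lit 183) (nat_lit 5) (nat_lit 184) (nat_lit 5) (nat_lit 357) (nat_lit 339) (nat_lit 249)) (XT.lf (nat_lit 0) (nat_lit 7192606959) (nat_lit 1176) (nat_lit 552105664) (nat_lit 1260) (nat_lit 3890550181) (nat_lit 169) (nat_lit 5) (nat_lit 183) (nat_lit 5) (nat_lit 184) (nat_lit 5) (nat_lit 358) (nat_lit 339) (nat_lit 248)))) (XT.nd (nat_lit 188) (nat_lit 672) (nat_lit 0) (XT.nd (nat_lit 94) (nat_lit 0) (nat_lit 0) (XT.lf (nat_lit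 0) (nat_lit 1075561014) (nat_lit 1260) (nat_lit 8097494385) (nat_lit 1344) (nat_lit 2645059390) (nat_lit 154) (nat_lit 5) (nat_lit 169) (nat_lit 5) (nat_lit 170) (nat_lit 5) (nat_lit 359) (nat_lit 339) (nat_lit 247)) (XT.lf (nat_lit 0) (nat_lit 6827064518) (nat_lit 1260) (nat_lit 3847556047) (nat_lit 1344) (nat_lit 1330957237) (nat_lit 154) (nat_lit 5) (nat_lit 169) (nat_lit 5) (nat_lit 170) (nat_lit 5) (nat_lit 360) (nat_lit 339) (nat_lit 246))) (XT.nd (nat_lit 94) (nat_lit 0) (nat_lit 0) (XT.lf (nat_lit 0) (nat_lit 12984901) (nat_lit 672) (nat_lit 11659078457) (nat_lit 84) (nat_lit 526903648) (nat_lit 146) (nat_lit 5) (nat_lit 154) (nat_lit 5) (nat_lit 147) (nat_lit 5) (nat_lit 361) (nat_lit 339) (nat_lit 245)) (XT.lf (nat_lit 0) (nat_lit 1442267522) (nat_lit 672) (nat_lit 5930494384) (nat_lit 84) (nat_lit 5022880977) (nat_lit 146) (nat_lit 5) (nat_lit 154) (nat_lit 5) (nat_lit 147) (nat_lit 5)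 (nat_lit 362) (nat_lit 339) (nat_lit 244)))))) (XT.nd (nat_lit 57528) (nat_lit 0) (nat_lit 4452) (XT.nd (nat_lit 57246) (nat_lit 0) (nat_lit 4368) (XT.nd (nat_lit 94) (nat_lit 588) (nat_lit 0) (XT.lf (nat_lit 0) (nat_lit 2895853810) (nat_lit 672) (nat_lit 47637261) (nat_lit 84) (nat_lit 9655317755) (nat_lit 146) (nat_lit 5) (nat_lit 154) (nat_lit 5) (nat_lit 147) (nat_lit 5) (nat_lit 363) (nat_lit 339) (nat_lit 243)) (XT.nd (nat_lit 57058) (nat_lit 0) (nat_lit 5460) (XT.lf (nat_lit 0) (nat_lit 4449935466) (nat_lit 672) (nat_lit 6709091667) (nat_lit 84) (nat_lit 1647367579) (nat_lit 139) (nat_lit 5) (nat_lit 147) (nat_lit 5) (nat_lit 140) (nat_lit 5) (nat_lit 364) (nat_lit 339) (nat_lit 242)) (XT.lf (nat_lit 0) (nat_lit 4383991088) (nat_lit 1092) (nat_lit 102173974) (nat_lit 1092) (nat_lit 102173974) (nat_lit 204) (nat_lit 3) (nat_lit 217) (nat_lit 3) (nat_lit 217) (nat_lit 5) (nat_lit 340) (nat_lit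 340) (nat_lit 265)))) (XT.nd (nat_lit 94) (nat_lit 0) (nat_lit 0) (XT.lf (nat_lit 0) (nat_lit 425412832) (nat_lit 1092) (nat_lit 5416549354) (nat_lit 1176) (nat_lit 3445923416) (nat_lit 191) (nat_lit 5) (nat_lit 204) (nat_lit 3) (nat_lit 205) (nat_lit 5) (nat_lit 341) (nat_lit 340) (nat_lit 264)) (XT.nd (nat_lit 94) (nat_lit 0) (nat_lit 84) (XT.lf (nat_lit 0) (nat_lit 1247249907) (nat_lit 1092) (nat_lit 1349764289) (nat_lit 1176) (nat_lit 6806228547) (nat_lit 191) (nat_lit 5) (nat_lit 204) (nat_lit 3) (nat_lit 205) (nat_lit 5) (nat_lit 342) (nat_lit 340) (nat_lit 263)) (XT.lf (nat_lit 0) (nat_lit 2098730962) (nat_lit 1092) (nat_lit 6650889247) (nat_lit 1176) (nat_lit 772351269) (nat_lit 192) (nat_lit 5) (nat_lit 205) (nat_lit 5) (nat_lit 206) (nat_lit 5) (nat_lit 343) (nat_lit 340) (nat_lit 262))))) (XT.nd (nat_lit 282) (nat_lit 0) (nat_lit 84) (XT.nd (nat_lit 94) (nat_lit 0) (nat_lit 0) (XT.lf (nat_lit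 0) (nat_lit 2985832060) (nat_lit 1092) (nat_lit 2440711587) (nat_lit 1176) (nat_lit 4217474943) (nat_lit 192) (nat_lit 5) (nat_lit 205) (nat_lit 5) (nat_lit 206) (nat_lit 5) (nat_lit 344) (nat_lit 340) (nat_lit 261)) (XT.nd (nat_lit 94) (nat_lit 0) (nat_lit 84) (XT.lf (nat_lit 84) (nat_lit 1916436482) (nat_lit 0) (nat_lit 1972985722) (nat_lit 1176) (nat_lit 5880665702) (nat_lit 193) (nat_lit 5) (nat_lit 192) (nat_lit 5) (nat_lit 206) (nat_lit 5) (nat_lit 345) (nat_lit 340) (nat_lit 260)) (XT.lf (nat_lit 0) (nat_lit 4832473493) (nat_lit 1092) (nat_lit 3477908609) (nat_lit 1176) (nat_lit 1589242005) (nat_lit 193) (nat_lit 5) (nat_lit 206) (nat_lit 5) (nat_lit 207) (nat_lit 5) (nat_lit 346) (nat_lit 340) (nat_lit 259)))) (XT.nd (nat_lit 188) (nat_lit 0) (nat_lit 84) (XT.nd (nat_lit 94) (nat_lit 0) (nat_lit 0) (XT.lf (nat_lit 84) (nat_lit 1012268905) (nat_lit 0) (nat_lit 4793856083) (nat_lit 1176) (nat_lit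 4226905940) (nat_lit 194) (nat_lit 5) (nat_lit 193) (nat_lit 5) (nat_lit 207) (nat_lit 5) (nat_lit 347) (nat_lit 340) (nat_lit 258)) (XT.lf (nat_lit 84) (nat_lit 5691556594) (nat_lit 0) (nat_lit 1126215892) (nat_lit 1176) (nat_lit 3352456103) (nat_lit 194) (nat_lit 5) (nat_lit 193) (nat_lit 5) (nat_lit 207) (nat_lit 5) (nat_lit 348) (nat_lit 340) (nat_lit 257))) (XT.nd (nat_lit 94) (nat_lit 0) (nat_lit 0) (XT.lf (nat_lit 84) (nat_lit 160012960) (nat_lit 0) (nat_lit 7701303526) (nat_lit 1176) (nat_lit 2450229987) (nat_lit 195) (nat_lit 5) (nat_lit 194) (nat_lit 5) (nat_lit 208) (nat_lit 5) (nat_lit 349) (nat_lit 340) (nat_lit 256)) (XT.lf (nat_lit 84) (nat_lit 5001161104) (nat_lit 0) (nat_lit 3966371778) (nat_lit 1176) (nat_lit 1488679259) (nat_lit 195) (nat_lit 5) (nat_lit 194) (nat_lit 5) (nat_lit 208) (nat_lit 5) (nat_lit 350) (nat_lit 340) (nat_lit 255))))))) (XT.nd (nat_lit 1222) (nat_lit 588)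 (nat_lit 0) (XT.nd (nat_lit 564) (nat_lit 2940) (nat_lit 0) (XT.nd (nat_lit 282) (nat_lit 0) (nat_lit 84) (XT.nd (nat_lit 94) (nat_lit 1092) (nat_lit 0) (XT.lf (nat_lit 84) (nat_lit 9970909544) (nat_lit 0) (nat_lit 111850440) (nat_lit 1176) (nat_lit 523230867) (nat_lit 195) (nat_lit 5) (nat_lit 194) (nat_lit 5) (nat_lit 208) (nat_lit 5) (nat_lit 351) (nat_lit 340) (nat_lit 254)) (XT.nd (nat_lit 94) (nat_lit 0) (nat_lit 0) (XT.lf (nat_lit 0) (nat_lit 518094679) (nat_lit 1176) (nat_lit 6403202664) (nat_lit 1260) (nat_lit 3837191507) (nat_lit 181) (nat_lit 5) (nat_lit 195) (nat_lit 5) (nat_lit 196) (nat_lit 5) (nat_lit 352) (nat_lit 340) (nat_lit 253)) (XT.lf (nat_lit 0) (nat_lit 1564575654) (nat_lit 1176) (nat_lit 1430646303) (nat_lit 1260) (nat_lit 7920695194) (nat_lit 181) (nat_lit 5) (nat_lit 195) (nat_lit 5) (nat_lit 196) (nat_lit 5) (nat_lit 353) (nat_lit 340) (nat_lit 252)))) (XT.nd (nat_lit 94)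 (nat_lit 0) (nat_lit 0) (XT.lf (nat_lit 0) (nat_lit 2666487160) (nat_lit 1176) (nat_lit 7340788165) (nat_lit 1260) (nat_lit 1070114361) (nat_lit 182) (nat_lit 5) (nat_lit 196) (nat_lit 5) (nat_lit 197) (nat_lit 5) (nat_lit 354) (nat_lit 340) (nat_lit 251)) (XT.nd (nat_lit 94) (nat_lit 0) (nat_lit 0) (XT.lf (nat_lit 0) (nat_lit 3823769939) (nat_lit 1176) (nat_lit 2202269979) (nat_lit 1260) (nat_lit 5217038289) (nat_lit 182) (nat_lit 5) (nat_lit 196) (nat_lit 5) (nat_lit 197) (nat_lit 5) (nat_lit 355) (nat_lit 340) (nat_lit 250)) (XT.lf (nat_lit 84) (nat_lit 3134687443) (nat_lit 0) (nat_lit 1889923579) (nat_lit 1260) (nat_lit 6388901197) (nat_lit 183) (nat_lit 5) (nat_lit 182) (nat_lit 5) (nat_lit 197) (nat_lit 5) (nat_lit 356) (nat_lit 340) (nat_lit 249))))) (XT.nd (nat_lit 282) (nat_lit 1932) (nat_lit 0) (XT.nd (nat_lit 94) (nat_lit 1176) (nat_lit 0) (XT.lf (nat_lit 0) (nat_lit 6285926958) (nat_lit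 1176) (nat_lit 2951922069) (nat_lit 84) (nat_lit 2350515597) (nat_lit 183) (nat_lit 5) (nat_lit 197) (nat_lit 5) (nat_lit 184) (nat_lit 5) (nat_lit 357) (nat_lit 340) (nat_lit 248)) (XT.nd (nat_lit 94) (nat_lit 0) (nat_lit 0) (XT.lf (nat_lit 0) (nat_lit 2548898046) (nat_lit 1176) (nat_lit 5059209932) (nat_lit 1260) (nat_lit 4159701585) (nat_lit 169) (nat_lit 5) (nat_lit 183) (nat_lit 5) (nat_lit 184) (nat_lit 5) (nat_lit 358) (nat_lit 340) (nat_lit 247)) (XT.lf (nat_lit 0) (nat_lit 8258504377) (nat_lit 1176) (nat_lit 721497595) (nat_lit 1260) (nat_lit 2972371085) (nat_lit 169) (nat_lit 5) (nat_lit 183) (nat_lit 5) (nat_lit 184) (nat_lit 5) (nat_lit 359) (nat_lit 340) (nat_lit 246)))) (XT.nd (nat_lit 188) (nat_lit 672) (nat_lit 0) (XT.nd (nat_lit 94) (nat_lit 0) (nat_lit 0) (XT.lf (nat_lit 0) (nat_lit 1982701652) (nat_lit 1260) (nat_lit 8446264831) (nat_lit 1344) (nat_lit 1712465127) (nat_lit 154)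 (nat_lit 5) (nat_lit 169) (nat_lit 5) (nat_lit 170) (nat_lit 5) (nat_lit 360) (nat_lit 340) (nat_lit 245)) (XT.lf (nat_lit 0) (nat_lit 7881268499) (nat_lit 1260) (nat_lit 4065745460) (nat_lit 1344) (nat_lit 388414066) (nat_lit 154) (nat_lit 5) (nat_lit 169) (nat_lit 5) (nat_lit 170) (nat_lit 5) (nat_lit 361) (nat_lit 340) (nat_lit 244))) (XT.nd (nat_lit 94) (nat_lit 0) (nat_lit 0) (XT.lf (nat_lit 0) (nat_lit 956114736) (nat_lit 672) (nat_lit 11116373872) (nat_lit 84) (nat_lit 462513331) (nat_lit 146) (nat_lit 5) (nat_lit 154) (nat_lit 5) (nat_lit 147) (nat_lit 5) (nat_lit 362) (nat_lit 340) (nat_lit 243)) (XT.lf (nat_lit 0) (nat_lit 2400817380) (nat_lit 672) (nat_lit 5241926751) (nat_lit 84) (nat_lit 5095705827) (nat_lit 146) (nat_lit 5) (nat_lit 154) (nat_lit 5) (nat_lit 147) (nat_lit 5) (nat_lit 363) (nat_lit 340) (nat_lit 242)))))) (XT.nd (nat_lit 57622) (nat_lit 0) (nat_lit 3444) (XT.nd (nat_lit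 57340) (nat_lit 0) (nat_lit 4368) (XT.nd (nat_lit 57152) (nat_lit 0) (nat_lit 4368) (XT.lf (nat_lit 0) (nat_lit 807944642) (nat_lit 588) (nat_lit 3071174379) (nat_lit 672) (nat_lit 9069205338) (nat_lit 139) (nat_lit 5) (nat_lit 146) (nat_lit 5) (nat_lit 147) (nat_lit 5) (nat_lit 364) (nat_lit 340) (nat_lit 241)) (XT.nd (nat_lit 94) (nat_lit 0) (nat_lit 0) (XT.lf (nat_lit 0) (nat_lit 293130377) (nat_lit 0) (nat_lit 293130377) (nat_lit 1092) (nat_lit 4114427616) (nat_lit 191) (nat_lit 5) (nat_lit 191) (nat_lit 3) (nat_lit 204) (nat_lit 3) (nat_lit 341) (nat_lit 341) (nat_lit 263)) (XT.lf (nat_lit 0) (nat_lit 1973818274) (nat_lit 1092) (nat_lit 4750734937) (nat_lit 1176) (nat_lit 2792826706) (nat_lit 191) (nat_lit 5) (nat_lit 204) (nat_lit 3) (nat_lit 205) (nat_lit 5) (nat_lit 342) (nat_lit 341) (nat_lit 262)))) (XT.nd (nat_lit 94) (nat_lit 0) (nat_lit 84) (XT.lf (nat_lit 0) (nat_lit 2775582994) (nat_lit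 1092) (nat_lit 586071880) (nat_lit 1176) (nat_lit 6275974226) (nat_lit 191) (nat_lit 5) (nat_lit 204) (nat_lit 3) (nat_lit 205) (nat_lit 5) (nat_lit 343) (nat_lit 341) (nat_lit 261)) (XT.nd (nat_lit 94) (nat_lit 0) (nat_lit 0) (XT.lf (nat_lit 0) (nat_lit 3610505075) (nat_lit 1092) (nat_lit 6001230620) (nat_lit 1176) (nat_lit 149534001) (nat_lit 192) (nat_lit 5) (nat_lit 205) (nat_lit 5) (nat_lit 206) (nat_lit 5) (nat_lit 344) (nat_lit 341) (nat_lit 260)) (XT.lf (nat_lit 0) (nat_lit 4482020792) (nat_lit 1092) (nat_lit 1689481184) (nat_lit 1176) (nat_lit 3716826564) (nat_lit 192) (nat_lit 5) (nat_lit 205) (nat_lit 5) (nat_lit 206) (nat_lit 5) (nat_lit 345) (nat_lit 341) (nat_lit 259))))) (XT.nd (nat_lit 282) (nat_lit 1008) (nat_lit 0) (XT.nd (nat_lit 94) (nat_lit 0) (nat_lit 84) (XT.lf (nat_lit 84) (nat_lit 2790298468) (nat_lit 0) (nat_lit 2589298277) (nat_lit 1176) (nat_lit 4639658755) (nat_lit 193)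 (nat_lit 5) (nat_lit 192) (nat_lit 5) (nat_lit 206) (nat_lit 5) (nat_lit 346) (nat_lit 341) (nat_lit 258)) (XT.nd (nat_lit 94) (nat_lit 0) (nat_lit 0) (XT.lf (nat_lit 0) (nat_lit 6305735531) (nat_lit 1092) (nat_lit 2741799905) (nat_lit 1176) (nat_lit 1106577995) (nat_lit 193) (nat_lit 5) (nat_lit 206) (nat_lit 5) (nat_lit 207) (nat_lit 5) (nat_lit 347) (nat_lit 341) (nat_lit 257)) (XT.lf (nat_lit 84) (nat_lit 1874843268) (nat_lit 0) (nat_lit 5403064983) (nat_lit 1176) (nat_lit 3014612062) (nat_lit 194) (nat_lit 5) (nat_lit 193) (nat_lit 5) (nat_lit 207) (nat_lit 5) (nat_lit 348) (nat_lit 341) (nat_lit 256)))) (XT.nd (nat_lit 188) (nat_lit 1092) (nat_lit 0) (XT.nd (nat_lit 94) (nat_lit 0) (nat_lit 84) (XT.lf (nat_lit 84) (nat_lit 6670270569) (nat_lit 0) (nat_lit 1611840444) (nat_lit 1176) (nat_lit 2152931673) (nat_lit 194) (nat_lit 5) (nat_lit 193) (nat_lit 5) (nat_lit 207) (nat_lit 5) (nat_lit 349)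 (nat_lit 341) (nat_lit 255)) (XT.lf (nat_lit 84) (nat_lit 1009057873) (nat_lit 0) (nat_lit 8315108657) (nat_lit 1176) (nat_lit 1257490197) (nat_lit 195) (nat_lit 5) (nat_lit 194) (nat_lit 5) (nat_lit 208) (nat_lit 5) (nat_lit 350) (nat_lit 341) (nat_lit 254))) (XT.nd (nat_lit 94) (nat_lit 1176) (nat_lit 0) (XT.lf (nat_lit 84) (nat_lit 5970850815) (nat_lit 0) (nat_lit 4456980432) (nat_lit 1176) (nat_lit 303973919) (nat_lit 195) (nat_lit 5) (nat_lit 194) (nat_lit 5) (nat_lit 208) (nat_lit 5) (nat_lit 351) (nat_lit 341) (nat_lit 253)) (XT.lf (nat_lit 84) (nat_lit 175768677) (nat_lit 0) (nat_lit 467777862) (nat_lit 1260) (nat_lit 10243400742) (nat_lit 181) (nat_lit 5) (nat_lit 180) (nat_lit 5) (nat_lit 195) (nat_lit 5) (nat_lit 352) (nat_lit 341) (nat_lit 252))))))))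
noncomputable def xc28 : XT := (XT.nd (nat_lit 59596) (nat_lit 0) (nat_lit 0) (XT.nd (nat_lit 58374) (nat_lit 0) (nat_lit 2856) (XT.nd (nat_lit 564) (nat_lit 2940) (nat_lit 0) (XT.nd (nat_lit 282) (nat_lit 0) (nat_lit 84) (XT.nd (nat_lit 94) (nat_lit 0) (nat_lit 0) (XT.lf (nat_lit 0) (nat_lit 1674458244) (nat_lit 1176) (nat_lit 5742403799) (nat_lit 1260) (nat_lit 3628001537) (nat_lit 181) (nat_lit 5) (nat_lit 195) (nat_lit 5) (nat_lit 196) (nat_lit 5) (nat_lit 353) (nat_lit 341) (nat_lit 251)) (XT.nd (nat_lit 94) (nat_lit 0) (nat_lit 84) (XT.lf (nat_lit 0) (nat_lit 2719105861) (nat_lit 1176) (nat_lit 645512348) (nat_lit 1260) (nat_lit 7843456133) (nat_lit 181) (nat_lit 5) (nat_lit 195) (nat_lit 5) (nat_lit 196) (nat_lit 5) (nat_lit 354) (nat_lit 341) (nat_lit 250)) (XT.lf (nat_lit 0) (nat_lit 3827165638) (nat_lit 1176) (nat_lit 6704017802) (nat_lit 1260) (nat_lit 844075831) (nat_lit 182) (nat_lit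 5) (nat_lit 196) (nat_lit 5) (nat_lit 197) (nat_lit 5) (nat_lit 355) (nat_lit 341) (nat_lit 249)))) (XT.nd (nat_lit 94) (nat_lit 0) (nat_lit 0) (XT.lf (nat_lit 0) (nat_lit 4987690672) (nat_lit 1176) (nat_lit 1436305061) (nat_lit 1260) (nat_lit 5122926175) (nat_lit 182) (nat_lit 5) (nat_lit 196) (nat_lit 5) (nat_lit 197) (nat_lit 5) (nat_lit 356) (nat_lit 341) (nat_lit 248)) (XT.nd (nat_lit 94) (nat_lit 0) (nat_lit 84) (XT.lf (nat_lit 84) (nat_lit 4052603897) (nat_lit 0) (nat_lit 2149313242) (nat_lit 1260) (nat_lit 5521288445) (nat_lit 183) (nat_lit 5) (nat_lit 182) (nat_lit 5) (nat_lit 197) (nat_lit 5) (nat_lit 357) (nat_lit 341) (nat_lit 247)) (XT.lf (nat_lit 0) (nat_lit 7469280871) (nat_lit 1176) (nat_lit 2206949410) (nat_lit 84) (nat_lit 2228082806) (nat_lit 183) (nat_lit 5) (nat_lit 197) (nat_lit 5) (nat_lit 184) (nat_lit 5) (nat_lit 358) (nat_lit 341) (nat_lit 246))))) (XT.nd (nat_lit 282) (nat_lit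 672) (nat_lit 0) (XT.nd (nat_lit 94) (nat_lit 1260) (nat_lit 0) (XT.lf (nat_lit 0) (nat_lit 3450723444) (nat_lit 1176) (nat_lit 5359363668) (nat_lit 1260) (nat_lit 3279739621) (nat_lit 169) (nat_lit 5) (nat_lit 183) (nat_lit 5) (nat_lit 184) (nat_lit 5) (nat_lit 359) (nat_lit 341) (nat_lit 245)) (XT.nd (nat_lit 94) (nat_lit 1260) (nat_lit 0) (XT.lf (nat_lit 0) (nat_lit 9307578397) (nat_lit 1176) (nat_lit 887198288) (nat_lit 1260) (nat_lit 2086053856) (nat_lit 169) (nat_lit 5) (nat_lit 183) (nat_lit 5) (nat_lit 184) (nat_lit 5) (nat_lit 360) (nat_lit 341) (nat_lit 244)) (XT.lf (nat_lit 0) (nat_lit 2866835173) (nat_lit 1260) (nat_lit 8799422419) (nat_lit 1344) (nat_lit 809982878) (nat_lit 154) (nat_lit 5) (nat_lit 169) (nat_lit 5) (nat_lit 170) (nat_lit 5) (nat_lit 361) (nat_lit 341) (nat_lit 243)))) (XT.nd (nat_lit 188) (nat_lit 0) (nat_lit 0) (XT.nd (nat_lit 94) (nat_lit 588) (nat_lit 0) (XT.lf (nat_lit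 0) (nat_lit 515743193) (nat_lit 1344) (nat_lit 3763630367) (nat_lit 84) (nat_lit 8397388833) (nat_lit 153) (nat_lit 5) (nat_lit 169) (nat_lit 5) (nat_lit 154) (nat_lit 5) (nat_lit 362) (nat_lit 341) (nat_lit 242)) (XT.lf (nat_lit 0) (nat_lit 1873421317) (nat_lit 672) (nat_lit 10608619977) (nat_lit 84) (nat_lit 400794966) (nat_lit 146) (nat_lit 5) (nat_lit 154) (nat_lit 5) (nat_lit 147) (nat_lit 5) (nat_lit 363) (nat_lit 341) (nat_lit 241))) (XT.nd (nat_lit 57246) (nat_lit 0) (nat_lit 3780) (XT.lf (nat_lit 0) (nat_lit 3335582813) (nat_lit 672) (nat_lit 4582441727) (nat_lit 84) (nat_lit 5175184997) (nat_lit 146) (nat_lit 5) (nat_lit 154) (nat_lit 5) (nat_lit 147) (nat_lit 5) (nat_lit 364) (nat_lit 341) (nat_lit 240)) (XT.lf (nat_lit 0) (nat_lit 676453287) (nat_lit 0) (nat_lit 676453287) (nat_lit 1092) (nat_lit 3464838979) (nat_lit 191) (nat_lit 5) (nat_lit 191) (nat_lit 3) (nat_lit 204) (nat_lit 3)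 (nat_lit 342) (nat_lit 342) (nat_lit 261)))))) (XT.nd (nat_lit 564) (nat_lit 924) (nat_lit 0) (XT.nd (nat_lit 282) (nat_lit 0) (nat_lit 84) (XT.nd (nat_lit 94) (nat_lit 0) (nat_lit 0) (XT.lf (nat_lit 0) (nat_lit 3480523686) (nat_lit 1092) (nat_lit 4112494521) (nat_lit 1176) (nat_lit 2163561821) (nat_lit 191) (nat_lit 5) (nat_lit 204) (nat_lit 3) (nat_lit 205) (nat_lit 5) (nat_lit 343) (nat_lit 342) (nat_lit 260)) (XT.nd (nat_lit 94) (nat_lit 0) (nat_lit 0) (XT.lf (nat_lit 84) (nat_lit 157439993) (nat_lit 0) (nat_lit 4108254835) (nat_lit 1176) (nat_lit 5616045619) (nat_lit 192) (nat_lit 5) (nat_lit 191) (nat_lit 5) (nat_lit 205) (nat_lit 5) (nat_lit 344) (nat_lit 342) (nat_lit 259)) (XT.lf (nat_lit 84) (nat_lit 4624985772) (nat_lit 0) (nat_lit 463938553) (nat_lit 1176) (nat_lit 4921350053) (nat_lit 192) (nat_lit 5) (nat_lit 191) (nat_lit 5) (nat_lit 205) (nat_lit 5) (nat_lit 345) (nat_lit 342) (nat_lit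 258)))) (XT.nd (nat_lit 94) (nat_lit 0) (nat_lit 0) (XT.lf (nat_lit 0) (nat_lit 5942349802) (nat_lit 1092) (nat_lit 963040771) (nat_lit 1176) (nat_lit 3237161008) (nat_lit 192) (nat_lit 5) (nat_lit 205) (nat_lit 5) (nat_lit 206) (nat_lit 5) (nat_lit 346) (nat_lit 342) (nat_lit 257)) (XT.nd (nat_lit 94) (nat_lit 0) (nat_lit 84) (XT.lf (nat_lit 84) (nat_lit 3643513399) (nat_lit 0) (nat_lit 3192119071) (nat_lit 1176) (nat_lit 3442787704) (nat_lit 193) (nat_lit 5) (nat_lit 192) (nat_lit 5) (nat_lit 206) (nat_lit 5) (nat_lit 347) (nat_lit 342) (nat_lit 256)) (XT.lf (nat_lit 0) (nat_lit 7746946274) (nat_lit 1092) (nat_lit 2031852977) (nat_lit 1176) (nat_lit 639877824) (nat_lit 193) (nat_lit 5) (nat_lit 206) (nat_lit 5) (nat_lit 207) (nat_lit 5) (nat_lit 348) (nat_lit 342) (nat_lit 255))))) (XT.nd (nat_lit 282) (nat_lit 1092) (nat_lit 0) (XT.nd (nat_lit 94) (nat_lit 0) (nat_lit 0) (XT.lf (nat_lit 84) (nat_lit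 2715522816) (nat_lit 0) (nat_lit 6003834677) (nat_lit 1176) (nat_lit 1842819247) (nat_lit 194) (nat_lit 5) (nat_lit 193) (nat_lit 5) (nat_lit 207) (nat_lit 5) (nat_lit 349) (nat_lit 342) (nat_lit 254)) (XT.nd (nat_lit 94) (nat_lit 0) (nat_lit 84) (XT.lf (nat_lit 84) (nat_lit 7631965336) (nat_lit 0) (nat_lit 2086096380) (nat_lit 1176) (nat_lit 992052461) (nat_lit 194) (nat_lit 5) (nat_lit 193) (nat_lit 5) (nat_lit 207) (nat_lit 5) (nat_lit 350) (nat_lit 342) (nat_lit 253)) (XT.lf (nat_lit 84) (nat_lit 1835111044) (nat_lit 0) (nat_lit 8925355607) (nat_lit 1176) (nat_lit 101655953) (nat_lit 195) (nat_lit 5) (nat_lit 194) (nat_lit 5) (nat_lit 208) (nat_lit 5) (nat_lit 351) (nat_lit 342) (nat_lit 252)))) (XT.nd (nat_lit 188) (nat_lit 0) (nat_lit 84) (XT.nd (nat_lit 94) (nat_lit 0) (nat_lit 0) (XT.lf (nat_lit 0) (nat_lit 829199268) (nat_lit 1176) (nat_lit 4103402426) (nat_lit 1260) (nat_lit 6085007118)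 (nat_lit 180) (nat_lit 5) (nat_lit 194) (nat_lit 5) (nat_lit 195) (nat_lit 5) (nat_lit 352) (nat_lit 342) (nat_lit 251)) (XT.lf (nat_lit 84) (nat_lit 970595289) (nat_lit 0) (nat_lit 802937445) (nat_lit 1260) (nat_lit 9404610034) (nat_lit 181) (nat_lit 5) (nat_lit 180) (nat_lit 5) (nat_lit 195) (nat_lit 5) (nat_lit 353) (nat_lit 342) (nat_lit 250))) (XT.nd (nat_lit 94) (nat_lit 0) (nat_lit 0) (XT.lf (nat_lit 0) (nat_lit 2800024940) (nat_lit 1176) (nat_lit 5110740627) (nat_lit 1260) (nat_lit 3431152344) (nat_lit 181) (nat_lit 5) (nat_lit 195) (nat_lit 5) (nat_lit 196) (nat_lit 5) (nat_lit 354) (nat_lit 342) (nat_lit 249)) (XT.lf (nat_lit 84) (nat_lit 117943478) (nat_lit 0) (nat_lit 3727881874) (nat_lit 1260) (nat_lit 7665164413) (nat_lit 182) (nat_lit 5) (nat_lit 181) (nat_lit 5) (nat_lit 196) (nat_lit 5) (nat_lit 355) (nat_lit 342) (nat_lit 248))))))) (XT.nd (nat_lit 58468) (nat_lit 0) (nat_lit 2772)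 (XT.nd (nat_lit 564) (nat_lit 1932) (nat_lit 0) (XT.nd (nat_lit 282) (nat_lit 1092) (nat_lit 0) (XT.nd (nat_lit 94) (nat_lit 0) (nat_lit 0) (XT.lf (nat_lit 0) (nat_lit 4960628796) (nat_lit 1176) (nat_lit 6097339291) (nat_lit 1260) (nat_lit 626074549) (nat_lit 182) (nat_lit 5) (nat_lit 196) (nat_lit 5) (nat_lit 197) (nat_lit 5) (nat_lit 356) (nat_lit 342) (nat_lit 247)) (XT.nd (nat_lit 94) (nat_lit 0) (nat_lit 0) (XT.lf (nat_lit 0) (nat_lit 6126300216) (nat_lit 1176) (nat_lit 695123295) (nat_lit 1260) (nat_lit 5040377498) (nat_lit 182) (nat_lit 5) (nat_lit 196) (nat_lit 5) (nat_lit 197) (nat_lit 5) (nat_lit 357) (nat_lit 342) (nat_lit 246)) (XT.lf (nat_lit 84) (nat_lit 4950764001) (nat_lit 0) (nat_lit 2404849249) (nat_lit 1260) (nat_lit 4688454303) (nat_lit 183) (nat_lit 5) (nat_lit 182) (nat_lit 5) (nat_lit 197) (nat_lit 5) (nat_lit 358) (nat_lit 342) (nat_lit 245)))) (XT.nd (nat_lit 94) (nat_lit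 1176) (nat_lit 0) (XT.lf (nat_lit 0) (nat_lit 8631031184) (nat_lit 1176) (nat_lit 1487475621) (nat_lit 84) (nat_lit 2113053051) (nat_lit 183) (nat_lit 5) (nat_lit 197) (nat_lit 5) (nat_lit 184) (nat_lit 5) (nat_lit 359) (nat_lit 342) (nat_lit 244)) (XT.nd (nat_lit 94) (nat_lit 0) (nat_lit 0) (XT.lf (nat_lit 0) (nat_lit 4332224651) (nat_lit 1176) (nat_lit 5660004545) (nat_lit 1260) (nat_lit 2431055731) (nat_lit 169) (nat_lit 5) (nat_lit 183) (nat_lit 5) (nat_lit 184) (nat_lit 5) (nat_lit 360) (nat_lit 342) (nat_lit 243)) (XT.lf (nat_lit 0) (nat_lit 10342125656) (nat_lit 1176) (nat_lit 1049600612) (nat_lit 1260) (nat_lit 1229144134) (nat_lit 169) (nat_lit 5) (nat_lit 183) (nat_lit 5) (nat_lit 184) (nat_lit 5) (nat_lit 361) (nat_lit 342) (nat_lit 242))))) (XT.nd (nat_lit 57528) (nat_lit 0) (nat_lit 3780) (XT.nd (nat_lit 94) (nat_lit 588) (nat_lit 0) (XT.lf (nat_lit 0) (nat_lit 63553744) (nat_lit 1344)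 (nat_lit 9093252035) (nat_lit 84) (nat_lit 3665958761) (nat_lit 153) (nat_lit 5) (nat_lit 169) (nat_lit 5) (nat_lit 154) (nat_lit 5) (nat_lit 362) (nat_lit 342) (nat_lit 241)) (XT.nd (nat_lit 94) (nat_lit 588) (nat_lit 0) (XT.lf (nat_lit 0) (nat_lit 1387095349) (nat_lit 1344) (nat_lit 3103320066) (nat_lit 84) (nat_lit 8539461761) (nat_lit 153) (nat_lit 5) (nat_lit 169) (nat_lit 5) (nat_lit 154) (nat_lit 5) (nat_lit 363) (nat_lit 342) (nat_lit 240)) (XT.lf (nat_lit 0) (nat_lit 2767236492) (nat_lit 672) (nat_lit 10133924376) (nat_lit 84) (nat_lit 341564440) (nat_lit 146) (nat_lit 5) (nat_lit 154) (nat_lit 5) (nat_lit 147) (nat_lit 5) (nat_lit 364) (nat_lit 342) (nat_lit 239)))) (XT.nd (nat_lit 188) (nat_lit 0) (nat_lit 0) (XT.nd (nat_lit 94) (nat_lit 0) (nat_lit 0) (XT.lf (nat_lit 0) (nat_lit 1049776387) (nat_lit 0) (nat_lit 1049776387) (nat_lit 1092) (nat_lit 2840137277) (nat_lit 191) (nat_lit 5) (nat_lit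 191) (nat_lit 3) (nat_lit 204) (nat_lit 3) (nat_lit 343) (nat_lit 343) (nat_lit 259)) (XT.lf (nat_lit 0) (nat_lit 4949338363) (nat_lit 1092) (nat_lit 3499925853) (nat_lit 1176) (nat_lit 1556350958) (nat_lit 191) (nat_lit 5) (nat_lit 204) (nat_lit 3) (nat_lit 205) (nat_lit 5) (nat_lit 344) (nat_lit 343) (nat_lit 258))) (XT.nd (nat_lit 94) (nat_lit 0) (nat_lit 0) (XT.lf (nat_lit 84) (nat_lit 890891565) (nat_lit 0) (nat_lit 4834438282) (nat_lit 1176) (nat_lit 4410262126) (nat_lit 192) (nat_lit 5) (nat_lit 191) (nat_lit 5) (nat_lit 205) (nat_lit 5) (nat_lit 345) (nat_lit 343) (nat_lit 257)) (XT.lf (nat_lit 84) (nat_lit 5471238619) (nat_lit 0) (nat_lit 1063231275) (nat_lit 1176) (nat_lit 3734752824) (nat_lit 192) (nat_lit 5) (nat_lit 191) (nat_lit 5) (nat_lit 205) (nat_lit 5) (nat_lit 346) (nat_lit 343) (nat_lit 256)))))) (XT.nd (nat_lit 564) (nat_lit 0) (nat_lit 84) (XT.nd (nat_lit 282) (nat_lit 1092)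 (nat_lit 0) (XT.nd (nat_lit 94) (nat_lit 0) (nat_lit 0) (XT.lf (nat_lit 0) (nat_lit 7370378413) (nat_lit 1092) (nat_lit 259417291) (nat_lit 1176) (nat_lit 2777041083) (nat_lit 192) (nat_lit 5) (nat_lit 205) (nat_lit 5) (nat_lit 206) (nat_lit 5) (nat_lit 347) (nat_lit 343) (nat_lit 255)) (XT.nd (nat_lit 94) (nat_lit 0) (nat_lit 84) (XT.lf (nat_lit 84) (nat_lit 4478151987) (nat_lit 0) (nat_lit 3782879198) (nat_lit 1176) (nat_lit 2286705878) (nat_lit 193) (nat_lit 5) (nat_lit 192) (nat_lit 5) (nat_lit 206) (nat_lit 5) (nat_lit 348) (nat_lit 343) (nat_lit 254)) (XT.lf (nat_lit 0) (nat_lit 9159521198) (nat_lit 1092) (nat_lit 1346083215) (nat_lit 1176) (nat_lit 187872810) (nat_lit 193) (nat_lit 5) (nat_lit 206) (nat_lit 5) (nat_lit 207) (nat_lit 5) (nat_lit 349) (nat_lit 343) (nat_lit 253)))) (XT.nd (nat_lit 94) (nat_lit 1176) (nat_lit 0) (XT.lf (nat_lit 84) (nat_lit 3536393015) (nat_lit 0) (nat_lit 6597445564)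 (nat_lit 1176) (nat_lit 708329880) (nat_lit 194) (nat_lit 5) (nat_lit 193) (nat_lit 5) (nat_lit 207) (nat_lit 5) (nat_lit 350) (nat_lit 343) (nat_lit 252)) (XT.nd (nat_lit 94) (nat_lit 0) (nat_lit 84) (XT.lf (nat_lit 0) (nat_lit 130705012) (nat_lit 1176) (nat_lit 2418106673) (nat_lit 1260) (nat_lit 8446767881) (nat_lit 179) (nat_lit 5) (nat_lit 193) (nat_lit 5) (nat_lit 194) (nat_lit 5) (nat_lit 351) (nat_lit 343) (nat_lit 251)) (XT.lf (nat_lit 0) (nat_lit 1000427678) (nat_lit 1176) (nat_lit 8522668894) (nat_lit 1260) (nat_lit 1629734663) (nat_lit 180) (nat_lit 5) (nat_lit 194) (nat_lit 5) (nat_lit 195) (nat_lit 5) (nat_lit 352) (nat_lit 343) (nat_lit 250))))) (XT.nd (nat_lit 282) (nat_lit 0) (nat_lit 84) (XT.nd (nat_lit 94) (nat_lit 0) (nat_lit 0) (XT.lf (nat_lit 0) (nat_lit 1925036535) (nat_lit 1176) (nat_lit 3474905937) (nat_lit 1260) (nat_lit 5914034177) (nat_lit 180) (nat_lit 5) (nat_lit 194)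 (nat_lit 5) (nat_lit 195) (nat_lit 5) (nat_lit 353) (nat_lit 343) (nat_lit 249)) (XT.nd (nat_lit 94) (nat_lit 0) (nat_lit 84) (XT.lf (nat_lit 84) (nat_lit 1743943096) (nat_lit 0) (nat_lit 1129717855) (nat_lit 1260) (nat_lit 8606446017) (nat_lit 181) (nat_lit 5) (nat_lit 180) (nat_lit 5) (nat_lit 195) (nat_lit 5) (nat_lit 354) (nat_lit 343) (nat_lit 248)) (XT.lf (nat_lit 0) (nat_lit 3897630126) (nat_lit 1176) (nat_lit 4506276734) (nat_lit 1260) (nat_lit 3245945487) (nat_lit 181) (nat_lit 5) (nat_lit 195) (nat_lit 5) (nat_lit 196) (nat_lit 5) (nat_lit 355) (nat_lit 343) (nat_lit 247)))) (XT.nd (nat_lit 188) (nat_lit 0) (nat_lit 84) (XT.nd (nat_lit 94) (nat_lit 0) (nat_lit 84) (XT.lf (nat_lit 84) (nat_lit 871838619) (nat_lit 0) (nat_lit 4080656361) (nat_lit 1260) (nat_lit 6872226440) (nat_lit 182) (nat_lit 5) (nat_lit 181) (nat_lit 5) (nat_lit 196) (nat_lit 5) (nat_lit 356) (nat_lit 343) (nat_lit 246))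 (XT.lf (nat_lit 0) (nat_lit 6069621275) (nat_lit 1176) (nat_lit 5518831393) (nat_lit 1260) (nat_lit 415500997) (nat_lit 182) (nat_lit 5) (nat_lit 196) (nat_lit 5) (nat_lit 197) (nat_lit 5) (nat_lit 357) (nat_lit 343) (nat_lit 245))) (XT.nd (nat_lit 94) (nat_lit 0) (nat_lit 0) (XT.lf (nat_lit 84) (nat_lit 23736754) (nat_lit 0) (nat_lit 7218788033) (nat_lit 1260) (nat_lit 4945404717) (nat_lit 183) (nat_lit 5) (nat_lit 182) (nat_lit 5) (nat_lit 197) (nat_lit 5) (nat_lit 358) (nat_lit 343) (nat_lit 244)) (XT.lf (nat_lit 84) (nat_lit 5831289926) (nat_lit 0) (nat_lit 2657083904) (nat_lit 1260) (nat_lit 3887951560) (nat_lit 183) (nat_lit 5) (nat_lit 182) (nat_lit 5) (nat_lit 197) (nat_lit 5) (nat_lit 359) (nat_lit 343) (nat_lit 243))))))))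
noncomputable def xc29 : XT := (XT.nd (nat_lit 117312) (nat_lit 0) (nat_lit 1344) (XT.nd (nat_lit 58562) (nat_lit 0) (nat_lit 1260) (XT.nd (nat_lit 57904) (nat_lit 0) (nat_lit 2184) (XT.nd (nat_lit 282) (nat_lit 1344) (nat_lit 0) (XT.nd (nat_lit 94) (nat_lit 1176) (nat_lit 0) (XT.lf (nat_lit 0) (nat_lit 9773807805) (nat_lit 1176) (nat_lit 791518995) (nat_lit 84) (nat_lit 2005012614) (nat_lit 183) (nat_lit 5) (nat_lit 197) (nat_lit 5) (nat_lit 184) (nat_lit 5) (nat_lit 360) (nat_lit 343) (nat_lit 242)) (XT.nd (nat_lit 94) (nat_lit 0) (nat_lit 0) (XT.lf (nat_lit 0) (nat_lit 5195511688) (nat_lit 1176) (nat_lit 5961636113) (nat_lit 1260) (nat_lit 1611277366) (nat_lit 169) (nat_lit 5) (nat_lit 183) (nat_lit 5) (nat_lit 184) (nat_lit 5) (nat_lit 361) (nat_lit 343) (nat_lit 241)) (XT.lf (nat_lit 0) (nat_lit 11364350880) (nat_lit 1176) (nat_lit 1209080312) (nat_lit 1260) (nat_lit 399309684) (nat_lit 169)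 (nat_lit 5) (nat_lit 183) (nat_lit 5) (nat_lit 184) (nat_lit 5) (nat_lit 362) (nat_lit 343) (nat_lit 240)))) (XT.nd (nat_lit 94) (nat_lit 0) (nat_lit 0) (XT.lf (nat_lit 0) (nat_lit 896411677) (nat_lit 1344) (nat_lit 8615351332) (nat_lit 84) (nat_lit 3669288264) (nat_lit 153) (nat_lit 5) (nat_lit 169) (nat_lit 5) (nat_lit 154) (nat_lit 5) (nat_lit 363) (nat_lit 343) (nat_lit 239)) (XT.nd (nat_lit 57434) (nat_lit 0) (nat_lit 3192) (XT.lf (nat_lit 0) (nat_lit 2235457065) (nat_lit 1344) (nat_lit 2467586401) (nat_lit 84) (nat_lit 8692102643) (nat_lit 153) (nat_lit 5) (nat_lit 169) (nat_lit 5) (nat_lit 154) (nat_lit 5) (nat_lit 364) (nat_lit 343) (nat_lit 238)) (XT.lf (nat_lit 0) (nat_lit 1414033843) (nat_lit 0) (nat_lit 1414033843) (nat_lit 1092) (nat_lit 2238521836) (nat_lit 191) (nat_lit 5) (nat_lit 191) (nat_lit 3) (nat_lit 204) (nat_lit 3) (nat_lit 344) (nat_lit 344) (nat_lit 257))))) (XT.nd (nat_lit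 282) (nat_lit 1008) (nat_lit 0) (XT.nd (nat_lit 94) (nat_lit 0) (nat_lit 0) (XT.lf (nat_lit 0) (nat_lit 6383895399) (nat_lit 1092) (nat_lit 2911226292) (nat_lit 1176) (nat_lit 969506076) (nat_lit 191) (nat_lit 5) (nat_lit 204) (nat_lit 3) (nat_lit 205) (nat_lit 5) (nat_lit 345) (nat_lit 344) (nat_lit 256)) (XT.nd (nat_lit 94) (nat_lit 0) (nat_lit 0) (XT.lf (nat_lit 84) (nat_lit 1604514694) (nat_lit 0) (nat_lit 5547796251) (nat_lit 1176) (nat_lit 3247193552) (nat_lit 192) (nat_lit 5) (nat_lit 191) (nat_lit 5) (nat_lit 205) (nat_lit 5) (nat_lit 346) (nat_lit 344) (nat_lit 255)) (XT.lf (nat_lit 84) (nat_lit 6302265469) (nat_lit 0) (nat_lit 1646899883) (nat_lit 1176) (nat_lit 2589148382) (nat_lit 192) (nat_lit 5) (nat_lit 191) (nat_lit 5) (nat_lit 205) (nat_lit 5) (nat_lit 347) (nat_lit 344) (nat_lit 254)))) (XT.nd (nat_lit 188) (nat_lit 1092) (nat_lit 0) (XT.nd (nat_lit 94) (nat_lit 0) (nat_lit 0) (XT.lf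 (nat_lit 84) (nat_lit 431689366) (nat_lit 0) (nat_lit 8341966949) (nat_lit 1176) (nat_lit 1907565409) (nat_lit 193) (nat_lit 5) (nat_lit 192) (nat_lit 5) (nat_lit 206) (nat_lit 5) (nat_lit 348) (nat_lit 344) (nat_lit 253)) (XT.lf (nat_lit 84) (nat_lit 5296192641) (nat_lit 0) (nat_lit 4362947302) (nat_lit 1176) (nat_lit 1168234326) (nat_lit 193) (nat_lit 5) (nat_lit 192) (nat_lit 5) (nat_lit 206) (nat_lit 5) (nat_lit 349) (nat_lit 344) (nat_lit 252))) (XT.nd (nat_lit 94) (nat_lit 1092) (nat_lit 0) (XT.lf (nat_lit 84) (nat_lit 10293552506) (nat_lit 0) (nat_lit 255631765) (nat_lit 1176) (nat_lit 429430973) (nat_lit 193) (nat_lit 5) (nat_lit 192) (nat_lit 5) (nat_lit 206) (nat_lit 5) (nat_lit 350) (nat_lit 344) (nat_lit 251)) (XT.lf (nat_lit 0) (nat_lit 384248967) (nat_lit 1176) (nat_lit 6796999296) (nat_lit 1260) (nat_lit 3951315348) (nat_lit 179) (nat_lit 5) (nat_lit 193) (nat_lit 5) (nat_lit 194) (nat_lit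 5) (nat_lit 351) (nat_lit 344) (nat_lit 250)))))) (XT.nd (nat_lit 564) (nat_lit 924) (nat_lit 0) (XT.nd (nat_lit 282) (nat_lit 0) (nat_lit 84) (XT.nd (nat_lit 94) (nat_lit 0) (nat_lit 84) (XT.lf (nat_lit 0) (nat_lit 1202191226) (nat_lit 1176) (nat_lit 1790711771) (nat_lit 1260) (nat_lit 8298485414) (nat_lit 179) (nat_lit 5) (nat_lit 193) (nat_lit 5) (nat_lit 194) (nat_lit 5) (nat_lit 352) (nat_lit 344) (nat_lit 249)) (XT.nd (nat_lit 94) (nat_lit 0) (nat_lit 0) (XT.lf (nat_lit 0) (nat_lit 2070208750) (nat_lit 1176) (nat_lit 8048641620) (nat_lit 1260) (nat_lit 1335400339) (nat_lit 180) (nat_lit 5) (nat_lit 194) (nat_lit 5) (nat_lit 195) (nat_lit 5) (nat_lit 353) (nat_lit 344) (nat_lit 248)) (XT.lf (nat_lit 0) (nat_lit 2992271360) (nat_lit 1176) (nat_lit 2870699386) (nat_lit 1260) (nat_lit 5758225723) (nat_lit 180) (nat_lit 5) (nat_lit 194) (nat_lit 5) (nat_lit 195) (nat_lit 5) (nat_lit 354) (nat_lit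 344) (nat_lit 247)))) (XT.nd (nat_lit 94) (nat_lit 0) (nat_lit 84) (XT.lf (nat_lit 84) (nat_lit 2497769493) (nat_lit 0) (nat_lit 1448925902) (nat_lit 1260) (nat_lit 7846350851) (nat_lit 181) (nat_lit 5) (nat_lit 180) (nat_lit 5) (nat_lit 195) (nat_lit 5) (nat_lit 355) (nat_lit 344) (nat_lit 246)) (XT.nd (nat_lit 94) (nat_lit 0) (nat_lit 0) (XT.lf (nat_lit 0) (nat_lit 4969978426) (nat_lit 1176) (nat_lit 3927178947) (nat_lit 1260) (nat_lit 3071722921) (nat_lit 181) (nat_lit 5) (nat_lit 195) (nat_lit 5) (nat_lit 196) (nat_lit 5) (nat_lit 356) (nat_lit 344) (nat_lit 245)) (XT.lf (nat_lit 84) (nat_lit 1605277062) (nat_lit 0) (nat_lit 4430183255) (nat_lit 1260) (nat_lit 6114218565) (nat_lit 182) (nat_lit 5) (nat_lit 181) (nat_lit 5) (nat_lit 196) (nat_lit 5) (nat_lit 357) (nat_lit 344) (nat_lit 244))))) (XT.nd (nat_lit 282) (nat_lit 1176) (nat_lit 0) (XT.nd (nat_lit 94) (nat_lit 0) (nat_lit 0) (XT.lf (nat_lit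 0) (nat_lit 7156765636) (nat_lit 1176) (nat_lit 4966677346) (nat_lit 1260) (nat_lit 211776199) (nat_lit 182) (nat_lit 5) (nat_lit 196) (nat_lit 5) (nat_lit 197) (nat_lit 5) (nat_lit 358) (nat_lit 344) (nat_lit 243)) (XT.nd (nat_lit 94) (nat_lit 0) (nat_lit 0) (XT.lf (nat_lit 84) (nat_lit 735131386) (nat_lit 0) (nat_lit 7610195536) (nat_lit 1260) (nat_lit 4180022808) (nat_lit 183) (nat_lit 5) (nat_lit 182) (nat_lit 5) (nat_lit 197) (nat_lit 5) (nat_lit 359) (nat_lit 344) (nat_lit 242)) (XT.lf (nat_lit 84) (nat_lit 6696211661) (nat_lit 0) (nat_lit 2906547744) (nat_lit 1260) (nat_lit 3117459960) (nat_lit 183) (nat_lit 5) (nat_lit 182) (nat_lit 5) (nat_lit 197) (nat_lit 5) (nat_lit 360) (nat_lit 344) (nat_lit 241)))) (XT.nd (nat_lit 188) (nat_lit 84) (nat_lit 0) (XT.nd (nat_lit 94) (nat_lit 1176) (nat_lit 0) (XT.lf (nat_lit 0) (nat_lit 10900131366) (nat_lit 1176) (nat_lit 117196043) (nat_lit 84) (nat_lit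 1903571864) (nat_lit 183) (nat_lit 5) (nat_lit 197) (nat_lit 5) (nat_lit 184) (nat_lit 5) (nat_lit 361) (nat_lit 344) (nat_lit 240)) (XT.lf (nat_lit 0) (nat_lit 6042601751) (nat_lit 1176) (nat_lit 6264748965) (nat_lit 1260) (nat_lit 818150858) (nat_lit 169) (nat_lit 5) (nat_lit 183) (nat_lit 5) (nat_lit 184) (nat_lit 5) (nat_lit 362) (nat_lit 344) (nat_lit 239))) (XT.nd (nat_lit 57622) (nat_lit 0) (nat_lit 1932) (XT.lf (nat_lit 0) (nat_lit 397751142) (nat_lit 1260) (nat_lit 964229508) (nat_lit 84) (nat_lit 11974605712) (nat_lit 168) (nat_lit 5) (nat_lit 183) (nat_lit 5) (nat_lit 169) (nat_lit 5) (nat_lit 363) (nat_lit 344) (nat_lit 238)) (XT.lf (nat_lit 0) (nat_lit 1770116998) (nat_lit 0) (nat_lit 1770116998) (nat_lit 1092) (nat_lit 1658284184) (nat_lit 191) (nat_lit 5) (nat_lit 191) (nat_lit 3) (nat_lit 204) (nat_lit 3) (nat_lit 345) (nat_lit 345) (nat_lit 255))))))) (XT.nd (nat_lit 1222) (nat_lit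 756) (nat_lit 0) (XT.nd (nat_lit 564) (nat_lit 0) (nat_lit 84) (XT.nd (nat_lit 282) (nat_lit 1092) (nat_lit 0) (XT.nd (nat_lit 94) (nat_lit 0) (nat_lit 0) (XT.lf (nat_lit 0) (nat_lit 7787663071) (nat_lit 1092) (nat_lit 2344686809) (nat_lit 1176) (nat_lit 401423372) (nat_lit 191) (nat_lit 5) (nat_lit 204) (nat_lit 3) (nat_lit 205) (nat_lit 5) (nat_lit 346) (nat_lit 345) (nat_lit 254)) (XT.nd (nat_lit 94) (nat_lit 0) (nat_lit 0) (XT.lf (nat_lit 84) (nat_lit 2300115855) (nat_lit 0) (nat_lit 6249930789) (nat_lit 1176) (nat_lit 2123592828) (nat_lit 192) (nat_lit 5) (nat_lit 191) (nat_lit 5) (nat_lit 205) (nat_lit 5) (nat_lit 347) (nat_lit 345) (nat_lit 253)) (XT.lf (nat_lit 84) (nat_lit 7119940928) (nat_lit 0) (nat_lit 2216404599) (nat_lit 1176) (nat_lit 1481369891) (nat_lit 192) (nat_lit 5) (nat_lit 191) (nat_lit 5) (nat_lit 205) (nat_lit 5) (nat_lit 348) (nat_lit 345) (nat_lit 252)))) (XT.nd (nat_lit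 94) (nat_lit 1176) (nat_lit 0) (XT.lf (nat_lit 84) (nat_lit 1108422662) (nat_lit 0) (nat_lit 9045217927) (nat_lit 1176) (nat_lit 812294577) (nat_lit 193) (nat_lit 5) (nat_lit 192) (nat_lit 5) (nat_lit 206) (nat_lit 5) (nat_lit 349) (nat_lit 345) (nat_lit 251)) (XT.nd (nat_lit 94) (nat_lit 1176) (nat_lit 0) (XT.lf (nat_lit 84) (nat_lit 6099527561) (nat_lit 0) (nat_lit 4933633749) (nat_lit 1176) (nat_lit 84351458) (nat_lit 193) (nat_lit 5) (nat_lit 192) (nat_lit 5) (nat_lit 206) (nat_lit 5) (nat_lit 350) (nat_lit 345) (nat_lit 250)) (XT.lf (nat_lit 0) (nat_lit 631458540) (nat_lit 1176) (nat_lit 52454061) (nat_lit 1260) (nat_lit 10590202825) (nat_lit 178) (nat_lit 5) (nat_lit 192) (nat_lit 5) (nat_lit 193) (nat_lit 5) (nat_lit 351) (nat_lit 345) (nat_lit 249))))) (XT.nd (nat_lit 282) (nat_lit 0) (nat_lit 84) (XT.nd (nat_lit 94) (nat_lit 0) (nat_lit 0) (XT.lf (nat_lit 0) (nat_lit 1432247371) (nat_lit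 1176) (nat_lit 6321357719) (nat_lit 1260) (nat_lit 3679868884) (nat_lit 179) (nat_lit 5) (nat_lit 193) (nat_lit 5) (nat_lit 194) (nat_lit 5) (nat_lit 352) (nat_lit 345) (nat_lit 248)) (XT.nd (nat_lit 94) (nat_lit 0) (nat_lit 84) (XT.lf (nat_lit 0) (nat_lit 2244539424) (nat_lit 1176) (nat_lit 1184674333) (nat_lit 1260) (nat_lit 8168812865) (nat_lit 179) (nat_lit 5) (nat_lit 193) (nat_lit 5) (nat_lit 194) (nat_lit 5) (nat_lit 353) (nat_lit 345) (nat_lit 247)) (XT.lf (nat_lit 0) (nat_lit 3112396303) (nat_lit 1176) (nat_lit 7602281714) (nat_lit 1260) (nat_lit 1051938582) (nat_lit 180) (nat_lit 5) (nat_lit 194) (nat_lit 5) (nat_lit 195) (nat_lit 5) (nat_lit 354) (nat_lit 345) (nat_lit 246)))) (XT.nd (nat_lit 188) (nat_lit 0) (nat_lit 84) (XT.nd (nat_lit 94) (nat_lit 0) (nat_lit 0) (XT.lf (nat_lit 0) (nat_lit 4033574734) (nat_lit 1176) (nat_lit 2289034781) (nat_lit 1260) (nat_lit 5616871750) (nat_lit 180)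 (nat_lit 5) (nat_lit 194) (nat_lit 5) (nat_lit 195) (nat_lit 5) (nat_lit 355) (nat_lit 345) (nat_lit 245)) (XT.lf (nat_lit 84) (nat_lit 3233941248) (nat_lit 0) (nat_lit 1761331855) (nat_lit 1260) (nat_lit 7121906759) (nat_lit 181) (nat_lit 5) (nat_lit 180) (nat_lit 5) (nat_lit 195) (nat_lit 5) (nat_lit 356) (nat_lit 345) (nat_lit 244))) (XT.nd (nat_lit 94) (nat_lit 0) (nat_lit 0) (XT.lf (nat_lit 0) (nat_lit 6019652194) (nat_lit 1176) (nat_lit 3371711169) (nat_lit 1260) (nat_lit 2907864683) (nat_lit 181) (nat_lit 5) (nat_lit 195) (nat_lit 5) (nat_lit 196) (nat_lit 5) (nat_lit 357) (nat_lit 345) (nat_lit 243)) (XT.lf (nat_lit 84) (nat_lit 2320117704) (nat_lit 0) (nat_lit 4777159072) (nat_lit 1260) (nat_lit 5388818024) (nat_lit 182) (nat_lit 5) (nat_lit 181) (nat_lit 5) (nat_lit 196) (nat_lit 5) (nat_lit 358) (nat_lit 345) (nat_lit 242)))))) (XT.nd (nat_lit 58186) (nat_lit 0) (nat_lit 756) (XT.nd (nat_lit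 282) (nat_lit 1092) (nat_lit 0) (XT.nd (nat_lit 94) (nat_lit 0) (nat_lit 0) (XT.lf (nat_lit 0) (nat_lit 8224570426) (nat_lit 1176) (nat_lit 4439158683) (nat_lit 1260) (nat_lit 14349837) (nat_lit 182) (nat_lit 5) (nat_lit 196) (nat_lit 5) (nat_lit 197) (nat_lit 5) (nat_lit 359) (nat_lit 345) (nat_lit 241)) (XT.nd (nat_lit 94) (nat_lit 0) (nat_lit 0) (XT.lf (nat_lit 84) (nat_lit 1427071772) (nat_lit 0) (nat_lit 8003308512) (nat_lit 1260) (nat_lit 3444132088) (nat_lit 183) (nat_lit 5) (nat_lit 182) (nat_lit 5) (nat_lit 197) (nat_lit 5) (nat_lit 360) (nat_lit 345) (nat_lit 240)) (XT.lf (nat_lit 84) (nat_lit 7547473200) (nat_lit 0) (nat_lit 3153751078) (nat_lit 1260) (nat_lit 2374778512) (nat_lit 183) (nat_lit 5) (nat_lit 182) (nat_lit 5) (nat_lit 197) (nat_lit 5) (nat_lit 361) (nat_lit 345) (nat_lit 239)))) (XT.nd (nat_lit 94) (nat_lit 0) (nat_lit 0) (XT.lf (nat_lit 0) (nat_lit 547977625) (nat_lit 1176)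 (nat_lit 11469710620) (nat_lit 1260) (nat_lit 1265653753) (nat_lit 169) (nat_lit 5) (nat_lit 183) (nat_lit 5) (nat_lit 184) (nat_lit 5) (nat_lit 362) (nat_lit 345) (nat_lit 238)) (XT.nd (nat_lit 57716) (nat_lit 0) (nat_lit 1848) (XT.lf (nat_lit 0) (nat_lit 6875425390) (nat_lit 1176) (nat_lit 6569821954) (nat_lit 1260) (nat_lit 49534078) (nat_lit 169) (nat_lit 5) (nat_lit 183) (nat_lit 5) (nat_lit 184) (nat_lit 5) (nat_lit 363) (nat_lit 345) (nat_lit 237)) (XT.lf (nat_lit 0) (nat_lit 2118877158) (nat_lit 0) (nat_lit 2118877158) (nat_lit 1092) (nat_lit 1097802426) (nat_lit 191) (nat_lit 5) (nat_lit 191) (nat_lit 3) (nat_lit 204) (nat_lit 3) (nat_lit 346) (nat_lit 346) (nat_lit 253))))) (XT.nd (nat_lit 282) (nat_lit 1092) (nat_lit 0) (XT.nd (nat_lit 94) (nat_lit 0) (nat_lit 0) (XT.lf (nat_lit 0) (nat_lit 9013024815) (nat_lit 0) (nat_lit 152395723) (nat_lit 1092) (nat_lit 1647755512) (nat_lit 191) (nat_lit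 5) (nat_lit 191) (nat_lit 3) (nat_lit 204) (nat_lit 3) (nat_lit 347) (nat_lit 346) (nat_lit 252)) (XT.nd (nat_lit 94) (nat_lit 0) (nat_lit 0) (XT.lf (nat_lit 84) (nat_lit 2979417870) (nat_lit 0) (nat_lit 6942377955) (nat_lit 1176) (nat_lit 1036375426) (nat_lit 192) (nat_lit 5) (nat_lit 191) (nat_lit 5) (nat_lit 205) (nat_lit 5) (nat_lit 348) (nat_lit 346) (nat_lit 251)) (XT.lf (nat_lit 84) (nat_lit 7926062009) (nat_lit 0) (nat_lit 2773138719) (nat_lit 1176) (nat_lit 408407894) (nat_lit 192) (nat_lit 5) (nat_lit 191) (nat_lit 5) (nat_lit 205) (nat_lit 5) (nat_lit 349) (nat_lit 346) (nat_lit 250)))) (XT.nd (nat_lit 188) (nat_lit 0) (nat_lit 0) (XT.nd (nat_lit 94) (nat_lit 0) (nat_lit 0) (XT.lf (nat_lit 0) (nat_lit 244804207) (nat_lit 1176) (nat_lit 9496286591) (nat_lit 1260) (nat_lit 1520077870) (nat_lit 178) (nat_lit 5) (nat_lit 192) (nat_lit 5) (nat_lit 193) (nat_lit 5) (nat_lit 350) (nat_lit 346)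 (nat_lit 249)) (XT.lf (nat_lit 0) (nat_lit 948931150) (nat_lit 1176) (nat_lit 4537681089) (nat_lit 1260) (nat_lit 5931455018) (nat_lit 178) (nat_lit 5) (nat_lit 192) (nat_lit 5) (nat_lit 193) (nat_lit 5) (nat_lit 351) (nat_lit 346) (nat_lit 248))) (XT.nd (nat_lit 94) (nat_lit 0) (nat_lit 84) (XT.lf (nat_lit 84) (nat_lit 568729018) (nat_lit 0) (nat_lit 1091138086) (nat_lit 1260) (nat_lit 9920272873) (nat_lit 179) (nat_lit 5) (nat_lit 178) (nat_lit 5) (nat_lit 193) (nat_lit 5) (nat_lit 352) (nat_lit 346) (nat_lit 247)) (XT.lf (nat_lit 0) (nat_lit 2452188055) (nat_lit 1176) (nat_lit 5870455935) (nat_lit 1260) (nat_lit 3422665813) (nat_lit 179) (nat_lit 5) (nat_lit 193) (nat_lit 5) (nat_lit 194) (nat_lit 5) (nat_lit 353) (nat_lit 346) (nat_lit 246))))))))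
noncomputable def xc30 : XT := (XT.nd (nat_lit 118064) (nat_lit 0) (nat_lit 588) (XT.nd (nat_lit 58938) (nat_lit 0) (nat_lit 672) (XT.nd (nat_lit 564) (nat_lit 840) (nat_lit 0) (XT.nd (nat_lit 282) (nat_lit 0) (nat_lit 84) (XT.nd (nat_lit 94) (nat_lit 0) (nat_lit 84) (XT.lf (nat_lit 0) (nat_lit 3260393338) (nat_lit 1176) (nat_lit 598328625) (nat_lit 1260) (nat_lit 8056984885) (nat_lit 179) (nat_lit 5) (nat_lit 193) (nat_lit 5) (nat_lit 194) (nat_lit 5) (nat_lit 354) (nat_lit 346) (nat_lit 245)) (XT.nd (nat_lit 94) (nat_lit 0) (nat_lit 0) (XT.lf (nat_lit 0) (nat_lit 4129588807) (nat_lit 1176) (nat_lit 7182014644) (nat_lit 1260) (nat_lit 778544561) (nat_lit 180) (nat_lit 5) (nat_lit 194) (nat_lit 5) (nat_lit 195) (nat_lit 5) (nat_lit 355) (nat_lit 346) (nat_lit 244)) (XT.lf (nat_lit 0) (nat_lit 5051495195) (nat_lit 1176) (nat_lit 1728253862) (nat_lit 1260) (nat_lit 5489307826) (nat_lit 180) (nat_lit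 5) (nat_lit 194) (nat_lit 5) (nat_lit 195) (nat_lit 5) (nat_lit 356) (nat_lit 346) (nat_lit 243)))) (XT.nd (nat_lit 94) (nat_lit 0) (nat_lit 84) (XT.lf (nat_lit 84) (nat_lit 3954240350) (nat_lit 0) (nat_lit 2067671835) (nat_lit 1260) (nat_lit 6430827777) (nat_lit 181) (nat_lit 5) (nat_lit 180) (nat_lit 5) (nat_lit 195) (nat_lit 5) (nat_lit 357) (nat_lit 346) (nat_lit 242)) (XT.nd (nat_lit 94) (nat_lit 0) (nat_lit 0) (XT.lf (nat_lit 0) (nat_lit 7049119519) (nat_lit 1176) (nat_lit 2838228566) (nat_lit 1260) (nat_lit 2753786715) (nat_lit 181) (nat_lit 5) (nat_lit 195) (nat_lit 5) (nat_lit 196) (nat_lit 5) (nat_lit 358) (nat_lit 346) (nat_lit 241)) (XT.lf (nat_lit 84) (nat_lit 3018133273) (nat_lit 0) (nat_lit 5122255653) (nat_lit 1260) (nat_lit 4693825860) (nat_lit 182) (nat_lit 5) (nat_lit 181) (nat_lit 5) (nat_lit 196) (nat_lit 5) (nat_lit 359) (nat_lit 346) (nat_lit 240))))) (XT.nd (nat_lit 282) (nat_lit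 1008) (nat_lit 0) (XT.nd (nat_lit 94) (nat_lit 0) (nat_lit 84) (XT.lf (nat_lit 84) (nat_lit 9096345897) (nat_lit 0) (nat_lit 180830177) (nat_lit 1260) (nat_lit 3755557490) (nat_lit 182) (nat_lit 5) (nat_lit 181) (nat_lit 5) (nat_lit 196) (nat_lit 5) (nat_lit 360) (nat_lit 346) (nat_lit 239)) (XT.nd (nat_lit 94) (nat_lit 0) (nat_lit 0) (XT.lf (nat_lit 84) (nat_lit 2101316147) (nat_lit 0) (nat_lit 8398754274) (nat_lit 1260) (nat_lit 2735606297) (nat_lit 183) (nat_lit 5) (nat_lit 182) (nat_lit 5) (nat_lit 197) (nat_lit 5) (nat_lit 361) (nat_lit 346) (nat_lit 238)) (XT.lf (nat_lit 84) (nat_lit 8386938388) (nat_lit 0) (nat_lit 3399185462) (nat_lit 1260) (nat_lit 1657818223) (nat_lit 183) (nat_lit 5) (nat_lit 182) (nat_lit 5) (nat_lit 197) (nat_lit 5) (nat_lit 362) (nat_lit 346) (nat_lit 237)))) (XT.nd (nat_lit 57904) (nat_lit 0) (nat_lit 672) (XT.nd (nat_lit 57810) (nat_lit 0) (nat_lit 1848) (XT.lf (nat_lit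 0) (nat_lit 1196985484) (nat_lit 1176) (nat_lit 11927520890) (nat_lit 1260) (nat_lit 533563846) (nat_lit 169) (nat_lit 5) (nat_lit 183) (nat_lit 5) (nat_lit 184) (nat_lit 5) (nat_lit 363) (nat_lit 346) (nat_lit 236)) (XT.lf (nat_lit 0) (nat_lit 2461128221) (nat_lit 0) (nat_lit 2461128221) (nat_lit 1092) (nat_lit 555535931) (nat_lit 191) (nat_lit 5) (nat_lit 191) (nat_lit 3) (nat_lit 204) (nat_lit 3) (nat_lit 347) (nat_lit 347) (nat_lit 251))) (XT.nd (nat_lit 94) (nat_lit 1176) (nat_lit 0) (XT.lf (nat_lit 0) (nat_lit 9824550994) (nat_lit 0) (nat_lit 698103029) (nat_lit 1092) (nat_lit 580293870) (nat_lit 191) (nat_lit 5) (nat_lit 191) (nat_lit 3) (nat_lit 204) (nat_lit 3) (nat_lit 348) (nat_lit 347) (nat_lit 250)) (XT.lf (nat_lit 0) (nat_lit 17051328) (nat_lit 1176) (nat_lit 7609388870) (nat_lit 1260) (nat_lit 3626841798) (nat_lit 177) (nat_lit 5) (nat_lit 191) (nat_lit 5) (nat_lit 192) (nat_lit 5)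 (nat_lit 349) (nat_lit 347) (nat_lit 249)))))) (XT.nd (nat_lit 564) (nat_lit 0) (nat_lit 252) (XT.nd (nat_lit 282) (nat_lit 0) (nat_lit 84) (XT.nd (nat_lit 94) (nat_lit 0) (nat_lit 84) (XT.lf (nat_lit 0) (nat_lit 620255159) (nat_lit 1176) (nat_lit 2691914447) (nat_lit 1260) (nat_lit 8095834966) (nat_lit 177) (nat_lit 5) (nat_lit 191) (nat_lit 5) (nat_lit 192) (nat_lit 5) (nat_lit 350) (nat_lit 347) (nat_lit 248)) (XT.nd (nat_lit 94) (nat_lit 0) (nat_lit 0) (XT.lf (nat_lit 0) (nat_lit 1256146171) (nat_lit 1176) (nat_lit 9169516439) (nat_lit 1260) (nat_lit 1141306216) (nat_lit 178) (nat_lit 5) (nat_lit 192) (nat_lit 5) (nat_lit 193) (nat_lit 5) (nat_lit 351) (nat_lit 347) (nat_lit 247)) (XT.lf (nat_lit 0) (nat_lit 1952154267) (nat_lit 1176) (nat_lit 4079968075) (nat_lit 1260) (nat_lit 5697385085) (nat_lit 178) (nat_lit 5) (nat_lit 192) (nat_lit 5) (nat_lit 193) (nat_lit 5) (nat_lit 352) (nat_lit 347)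 (nat_lit 246)))) (XT.nd (nat_lit 94) (nat_lit 0) (nat_lit 84) (XT.lf (nat_lit 84) (nat_lit 1173812340) (nat_lit 0) (nat_lit 1487867453) (nat_lit 1260) (nat_lit 9235498841) (nat_lit 179) (nat_lit 5) (nat_lit 178) (nat_lit 5) (nat_lit 193) (nat_lit 5) (nat_lit 353) (nat_lit 347) (nat_lit 245)) (XT.nd (nat_lit 94) (nat_lit 0) (nat_lit 0) (XT.lf (nat_lit 0) (nat_lit 3446644699) (nat_lit 1176) (nat_lit 5442796858) (nat_lit 1260) (nat_lit 3178848344) (nat_lit 179) (nat_lit 5) (nat_lit 193) (nat_lit 5) (nat_lit 194) (nat_lit 5) (nat_lit 354) (nat_lit 347) (nat_lit 244)) (XT.lf (nat_lit 0) (nat_lit 4252274072) (nat_lit 1176) (nat_lit 30091342) (nat_lit 1260) (nat_lit 7962289147) (nat_lit 179) (nat_lit 5) (nat_lit 193) (nat_lit 5) (nat_lit 194) (nat_lit 5) (nat_lit 355) (nat_lit 347) (nat_lit 243))))) (XT.nd (nat_lit 282) (nat_lit 0) (nat_lit 84) (XT.nd (nat_lit 94) (nat_lit 0) (nat_lit 0) (XT.lf (nat_lit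 0) (nat_lit 5124266004) (nat_lit 1176) (nat_lit 6786356673) (nat_lit 1260) (nat_lit 514454221) (nat_lit 180) (nat_lit 5) (nat_lit 194) (nat_lit 5) (nat_lit 195) (nat_lit 5) (nat_lit 356) (nat_lit 347) (nat_lit 242)) (XT.nd (nat_lit 94) (nat_lit 0) (nat_lit 0) (XT.lf (nat_lit 0) (nat_lit 6048466781) (nat_lit 1176) (nat_lit 1186782633) (nat_lit 1260) (nat_lit 5374912617) (nat_lit 180) (nat_lit 5) (nat_lit 194) (nat_lit 5) (nat_lit 195) (nat_lit 5) (nat_lit 357) (nat_lit 347) (nat_lit 241)) (XT.lf (nat_lit 84) (nat_lit 4660369554) (nat_lit 0) (nat_lit 2368650077) (nat_lit 1260) (nat_lit 5770951985) (nat_lit 181) (nat_lit 5) (nat_lit 180) (nat_lit 5) (nat_lit 195) (nat_lit 5) (nat_lit 358) (nat_lit 347) (nat_lit 240)))) (XT.nd (nat_lit 188) (nat_lit 0) (nat_lit 0) (XT.nd (nat_lit 94) (nat_lit 0) (nat_lit 0) (XT.lf (nat_lit 0) (nat_lit 8060741808) (nat_lit 1176) (nat_lit 2325172068) (nat_lit 1260) (nat_lit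 2608938813) (nat_lit 181) (nat_lit 5) (nat_lit 195) (nat_lit 5) (nat_lit 196) (nat_lit 5) (nat_lit 359) (nat_lit 347) (nat_lit 239)) (XT.lf (nat_lit 84) (nat_lit 3701015886) (nat_lit 0) (nat_lit 5466122029) (nat_lit 1260) (nat_lit 4027159530) (nat_lit 182) (nat_lit 5) (nat_lit 181) (nat_lit 5) (nat_lit 196) (nat_lit 5) (nat_lit 360) (nat_lit 347) (nat_lit 238))) (XT.nd (nat_lit 94) (nat_lit 0) (nat_lit 84) (XT.lf (nat_lit 84) (nat_lit 9944322309) (nat_lit 0) (nat_lit 370914021) (nat_lit 1260) (nat_lit 3084261976) (nat_lit 182) (nat_lit 5) (nat_lit 181) (nat_lit 5) (nat_lit 196) (nat_lit 5) (nat_lit 361) (nat_lit 347) (nat_lit 237)) (XT.lf (nat_lit 84) (nat_lit 2759541061) (nat_lit 0) (nat_lit 8797145884) (nat_lit 1260) (nat_lit 2052428229) (nat_lit 183) (nat_lit 5) (nat_lit 182) (nat_lit 5) (nat_lit 197) (nat_lit 5) (nat_lit 362) (nat_lit 347) (nat_lit 236))))))) (XT.nd (nat_lit 1222) (nat_lit 0)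 (nat_lit 0) (XT.nd (nat_lit 564) (nat_lit 0) (nat_lit 168) (XT.nd (nat_lit 282) (nat_lit 0) (nat_lit 84) (XT.nd (nat_lit 94) (nat_lit 1260) (nat_lit 0) (XT.lf (nat_lit 0) (nat_lit 2797649172) (nat_lit 0) (nat_lit 2797649172) (nat_lit 1092) (nat_lit 30020306) (nat_lit 191) (nat_lit 5) (nat_lit 191) (nat_lit 3) (nat_lit 204) (nat_lit 3) (nat_lit 348) (nat_lit 348) (nat_lit 249)) (XT.nd (nat_lit 94) (nat_lit 0) (nat_lit 84) (XT.lf (nat_lit 0) (nat_lit 446197121) (nat_lit 1260) (nat_lit 778415329) (nat_lit 1260) (nat_lit 10178656733) (nat_lit 176) (nat_lit 3) (nat_lit 191) (nat_lit 3) (nat_lit 191) (nat_lit 5) (nat_lit 349) (nat_lit 348) (nat_lit 248)) (XT.lf (nat_lit 0) (nat_lit 1020190729) (nat_lit 1176) (nat_lit 7273558961) (nat_lit 1260) (nat_lit 3265136963) (nat_lit 177) (nat_lit 5) (nat_lit 191) (nat_lit 5) (nat_lit 192) (nat_lit 5) (nat_lit 350) (nat_lit 348) (nat_lit 247)))) (XT.nd (nat_lit 94)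 (nat_lit 0) (nat_lit 84) (XT.lf (nat_lit 0) (nat_lit 1612287922) (nat_lit 1176) (nat_lit 2224990739) (nat_lit 1260) (nat_lit 7881904103) (nat_lit 177) (nat_lit 5) (nat_lit 191) (nat_lit 5) (nat_lit 192) (nat_lit 5) (nat_lit 351) (nat_lit 348) (nat_lit 246)) (XT.nd (nat_lit 94) (nat_lit 0) (nat_lit 0) (XT.lf (nat_lit 0) (nat_lit 2240194810) (nat_lit 1176) (nat_lit 8868054897) (nat_lit 1260) (nat_lit 775532215) (nat_lit 178) (nat_lit 5) (nat_lit 192) (nat_lit 5) (nat_lit 193) (nat_lit 5) (nat_lit 352) (nat_lit 348) (nat_lit 245)) (XT.lf (nat_lit 0) (nat_lit 2929519142) (nat_lit 1176) (nat_lit 3642612713) (nat_lit 1260) (nat_lit 5479944320) (nat_lit 178) (nat_lit 5) (nat_lit 192) (nat_lit 5) (nat_lit 193) (nat_lit 5) (nat_lit 353) (nat_lit 348) (nat_lit 244))))) (XT.nd (nat_lit 282) (nat_lit 0) (nat_lit 168) (XT.nd (nat_lit 94) (nat_lit 0) (nat_lit 84) (XT.lf (nat_lit 84) (nat_lit 1763293326) (nat_lit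 0) (nat_lit 1875603886) (nat_lit 1260) (nat_lit 8586574347) (nat_lit 179) (nat_lit 5) (nat_lit 178) (nat_lit 5) (nat_lit 193) (nat_lit 5) (nat_lit 354) (nat_lit 348) (nat_lit 243)) (XT.nd (nat_lit 94) (nat_lit 0) (nat_lit 0) (XT.lf (nat_lit 0) (nat_lit 4418072130) (nat_lit 1176) (nat_lit 5036967034) (nat_lit 1260) (nat_lit 2947606722) (nat_lit 179) (nat_lit 5) (nat_lit 193) (nat_lit 5) (nat_lit 194) (nat_lit 5) (nat_lit 355) (nat_lit 348) (nat_lit 242)) (XT.lf (nat_lit 84) (nat_lit 531923256) (nat_lit 0) (nat_lit 4695777928) (nat_lit 1260) (nat_lit 7357253491) (nat_lit 180) (nat_lit 5) (nat_lit 179) (nat_lit 5) (nat_lit 194) (nat_lit 5) (nat_lit 356) (nat_lit 348) (nat_lit 241)))) (XT.nd (nat_lit 188) (nat_lit 0) (nat_lit 0) (XT.nd (nat_lit 94) (nat_lit 0) (nat_lit 0) (XT.lf (nat_lit 0) (nat_lit 6098796635) (nat_lit 1176) (nat_lit 6413909660) (nat_lit 1260) (nat_lit 258941786) (nat_lit 180) (nat_lit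 5) (nat_lit 194) (nat_lit 5) (nat_lit 195) (nat_lit 5) (nat_lit 357) (nat_lit 348) (nat_lit 240)) (XT.lf (nat_lit 0) (nat_lit 7026816562) (nat_lit 1176) (nat_lit 663126196) (nat_lit 1260) (nat_lit 5273105568) (nat_lit 180) (nat_lit 5) (nat_lit 194) (nat_lit 5) (nat_lit 195) (nat_lit 5) (nat_lit 358) (nat_lit 348) (nat_lit 239))) (XT.nd (nat_lit 94) (nat_lit 0) (nat_lit 84) (XT.lf (nat_lit 84) (nat_lit 5353957616) (nat_lit 0) (nat_lit 2664941068) (nat_lit 1260) (nat_lit 5140234163) (nat_lit 181) (nat_lit 5) (nat_lit 180) (nat_lit 5) (nat_lit 195) (nat_lit 5) (nat_lit 359) (nat_lit 348) (nat_lit 238)) (XT.lf (nat_lit 0) (nat_lit 9056780957) (nat_lit 1176) (nat_lit 1831063196) (nat_lit 1260) (nat_lit 2472802695) (nat_lit 181) (nat_lit 5) (nat_lit 195) (nat_lit 5) (nat_lit 196) (nat_lit 5) (nat_lit 360) (nat_lit 348) (nat_lit 237)))))) (XT.nd (nat_lit 58562) (nat_lit 0) (nat_lit 168) (XT.nd (nat_lit 58280)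 (nat_lit 0) (nat_lit 0) (XT.nd (nat_lit 94) (nat_lit 420) (nat_lit 0) (XT.lf (nat_lit 84) (nat_lit 4370382319) (nat_lit 0) (nat_lit 5809386213) (nat_lit 1260) (nat_lit 3386845929) (nat_lit 182) (nat_lit 5) (nat_lit 181) (nat_lit 5) (nat_lit 196) (nat_lit 5) (nat_lit 361) (nat_lit 348) (nat_lit 236)) (XT.nd (nat_lit 58092) (nat_lit 420) (nat_lit 0) (XT.lf (nat_lit 84) (nat_lit 10784725722) (nat_lit 0) (nat_lit 556100202) (nat_lit 1260) (nat_lit 2437830237) (nat_lit 182) (nat_lit 5) (nat_lit 181) (nat_lit 5) (nat_lit 196) (nat_lit 5) (nat_lit 362) (nat_lit 348) (nat_lit 235)) (XT.lf (nat_lit 0) (nat_lit 470768130) (nat_lit 1260) (nat_lit 2653664471) (nat_lit 1260) (nat_lit 2653664471) (nat_lit 176) (nat_lit 3) (nat_lit 191) (nat_lit 3) (nat_lit 191) (nat_lit 5) (nat_lit 349) (nat_lit 349) (nat_lit 247)))) (XT.nd (nat_lit 94) (nat_lit 0) (nat_lit 84) (XT.lf (nat_lit 0) (nat_lit 1432564913) (nat_lit 1260)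 (nat_lit 299752525) (nat_lit 1260) (nat_lit 9982001171) (nat_lit 176) (nat_lit 3) (nat_lit 191) (nat_lit 3) (nat_lit 191) (nat_lit 5) (nat_lit 350) (nat_lit 349) (nat_lit 246)) (XT.nd (nat_lit 94) (nat_lit 0) (nat_lit 0) (XT.lf (nat_lit 0) (nat_lit 1995869371) (nat_lit 1176) (nat_lit 6960036466) (nat_lit 1260) (nat_lit 2919590186) (nat_lit 177) (nat_lit 5) (nat_lit 191) (nat_lit 5) (nat_lit 192) (nat_lit 5) (nat_lit 351) (nat_lit 349) (nat_lit 245)) (XT.lf (nat_lit 0) (nat_lit 2578203084) (nat_lit 1176) (nat_lit 1775498458) (nat_lit 1260) (nat_lit 7687777842) (nat_lit 177) (nat_lit 5) (nat_lit 191) (nat_lit 5) (nat_lit 192) (nat_lit 5) (nat_lit 352) (nat_lit 349) (nat_lit 244))))) (XT.nd (nat_lit 282) (nat_lit 0) (nat_lit 84) (XT.nd (nat_lit 94) (nat_lit 0) (nat_lit 0) (XT.lf (nat_lit 0) (nat_lit 3199439729) (nat_lit 1176) (nat_lit 8590645666) (nat_lit 1260) (nat_lit 421747388) (nat_lit 178) (nat_lit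 5) (nat_lit 192) (nat_lit 5) (nat_lit 193) (nat_lit 5) (nat_lit 353) (nat_lit 349) (nat_lit 243)) (XT.nd (nat_lit 94) (nat_lit 0) (nat_lit 0) (XT.lf (nat_lit 0) (nat_lit 3883462070) (nat_lit 1176) (nat_lit 3224268884) (nat_lit 1260) (nat_lit 5278273918) (nat_lit 178) (nat_lit 5) (nat_lit 192) (nat_lit 5) (nat_lit 193) (nat_lit 5) (nat_lit 354) (nat_lit 349) (nat_lit 242)) (XT.lf (nat_lit 84) (nat_lit 2338641570) (nat_lit 0) (nat_lit 2255277045) (nat_lit 1260) (nat_lit 7971337701) (nat_lit 179) (nat_lit 5) (nat_lit 178) (nat_lit 5) (nat_lit 193) (nat_lit 5) (nat_lit 355) (nat_lit 349) (nat_lit 241)))) (XT.nd (nat_lit 188) (nat_lit 0) (nat_lit 84) (XT.nd (nat_lit 94) (nat_lit 0) (nat_lit 0) (XT.lf (nat_lit 0) (nat_lit 5368814022) (nat_lit 1176) (nat_lit 4651631772) (nat_lit 1260) (nat_lit 2728176433) (nat_lit 179) (nat_lit 5) (nat_lit 193) (nat_lit 5) (nat_lit 194) (nat_lit 5) (nat_lit 356) (nat_lit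 349) (nat_lit 240)) (XT.lf (nat_lit 84) (nat_lit 1079065969) (nat_lit 0) (nat_lit 5104940993) (nat_lit 1260) (nat_lit 6753000418) (nat_lit 180) (nat_lit 5) (nat_lit 179) (nat_lit 5) (nat_lit 194) (nat_lit 5) (nat_lit 357) (nat_lit 349) (nat_lit 239))) (XT.nd (nat_lit 94) (nat_lit 0) (nat_lit 0) (XT.lf (nat_lit 0) (nat_lit 7055445755) (nat_lit 1176) (nat_lit 6063356158) (nat_lit 1260) (nat_lit 11317391) (nat_lit 180) (nat_lit 5) (nat_lit 194) (nat_lit 5) (nat_lit 195) (nat_lit 5) (nat_lit 358) (nat_lit 349) (nat_lit 238)) (XT.lf (nat_lit 0) (nat_lit 7988771759) (nat_lit 1176) (nat_lit 155863873) (nat_lit 1260) (nat_lit 5183344707) (nat_lit 180) (nat_lit 5) (nat_lit 194) (nat_lit 5) (nat_lit 195) (nat_lit 5) (nat_lit 359) (nat_lit 349) (nat_lit 237))))))))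
noncomputable def xc31 : XT := (XT.nd (nat_lit 177190) (nat_lit 0) (nat_lit 0) (XT.nd (nat_lit 59314) (nat_lit 0) (nat_lit 0) (XT.nd (nat_lit 58656) (nat_lit 0) (nat_lit 84) (XT.nd (nat_lit 58374) (nat_lit 336) (nat_lit 0) (XT.nd (nat_lit 94) (nat_lit 0) (nat_lit 84) (XT.lf (nat_lit 84) (nat_lit 6036564256) (nat_lit 0) (nat_lit 2957191579) (nat_lit 1260) (nat_lit 4536738877) (nat_lit 181) (nat_lit 5) (nat_lit 180) (nat_lit 5) (nat_lit 195) (nat_lit 5) (nat_lit 360) (nat_lit 349) (nat_lit 236)) (XT.nd (nat_lit 94) (nat_lit 0) (nat_lit 0) (XT.lf (nat_lit 0) (nat_lit 10039406145) (nat_lit 1176) (nat_lit 1354499159) (nat_lit 1260) (nat_lit 2344890176) (nat_lit 181) (nat_lit 5) (nat_lit 195) (nat_lit 5) (nat_lit 196) (nat_lit 5) (nat_lit 361) (nat_lit 349) (nat_lit 235)) (XT.lf (nat_lit 84) (nat_lit 5027778976) (nat_lit 0) (nat_lit 6152656887) (nat_lit 1260) (nat_lit 2771014803) (nat_lit 182) (nat_lit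 5) (nat_lit 181) (nat_lit 5) (nat_lit 196) (nat_lit 5) (nat_lit 362) (nat_lit 349) (nat_lit 234)))) (XT.nd (nat_lit 94) (nat_lit 0) (nat_lit 0) (XT.lf (nat_lit 0) (nat_lit 957212474) (nat_lit 1260) (nat_lit 2489577675) (nat_lit 1260) (nat_lit 2489577675) (nat_lit 176) (nat_lit 3) (nat_lit 191) (nat_lit 3) (nat_lit 191) (nat_lit 5) (nat_lit 350) (nat_lit 350) (nat_lit 245)) (XT.nd (nat_lit 94) (nat_lit 0) (nat_lit 84) (XT.lf (nat_lit 84) (nat_lit 167725358) (nat_lit 0) (nat_lit 2226557520) (nat_lit 1260) (nat_lit 9642150593) (nat_lit 177) (nat_lit 5) (nat_lit 176) (nat_lit 3) (nat_lit 191) (nat_lit 5) (nat_lit 351) (nat_lit 350) (nat_lit 244)) (XT.lf (nat_lit 0) (nat_lit 2946567321) (nat_lit 1176) (nat_lit 6667631732) (nat_lit 1260) (nat_lit 2589135772) (nat_lit 177) (nat_lit 5) (nat_lit 191) (nat_lit 5) (nat_lit 192) (nat_lit 5) (nat_lit 352) (nat_lit 350) (nat_lit 243))))) (XT.nd (nat_lit 282) (nat_lit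 0) (nat_lit 84) (XT.nd (nat_lit 94) (nat_lit 0) (nat_lit 84) (XT.lf (nat_lit 0) (nat_lit 3520424778) (nat_lit 1176) (nat_lit 1342155812) (nat_lit 1260) (nat_lit 7512545041) (nat_lit 177) (nat_lit 5) (nat_lit 191) (nat_lit 5) (nat_lit 192) (nat_lit 5) (nat_lit 353) (nat_lit 350) (nat_lit 242)) (XT.nd (nat_lit 94) (nat_lit 0) (nat_lit 0) (XT.lf (nat_lit 0) (nat_lit 4136255304) (nat_lit 1176) (nat_lit 8336110463) (nat_lit 1260) (nat_lit 78993273) (nat_lit 178) (nat_lit 5) (nat_lit 192) (nat_lit 5) (nat_lit 193) (nat_lit 5) (nat_lit 354) (nat_lit 350) (nat_lit 241)) (XT.lf (nat_lit 0) (nat_lit 4816308052) (nat_lit 1176) (nat_lit 2823662413) (nat_lit 1260) (nat_lit 5091567246) (nat_lit 178) (nat_lit 5) (nat_lit 192) (nat_lit 5) (nat_lit 193) (nat_lit 5) (nat_lit 355) (nat_lit 350) (nat_lit 240)))) (XT.nd (nat_lit 188) (nat_lit 0) (nat_lit 84) (XT.nd (nat_lit 94) (nat_lit 0) (nat_lit 84) (XT.lf (nat_lit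 84) (nat_lit 2901259525) (nat_lit 0) (nat_lit 2627775626) (nat_lit 1260) (nat_lit 7387748191) (nat_lit 179) (nat_lit 5) (nat_lit 178) (nat_lit 5) (nat_lit 193) (nat_lit 5) (nat_lit 356) (nat_lit 350) (nat_lit 239)) (XT.lf (nat_lit 0) (nat_lit 6301110158) (nat_lit 1176) (nat_lit 4285530548) (nat_lit 1260) (nat_lit 2519835573) (nat_lit 179) (nat_lit 5) (nat_lit 193) (nat_lit 5) (nat_lit 194) (nat_lit 5) (nat_lit 357) (nat_lit 350) (nat_lit 238))) (XT.nd (nat_lit 94) (nat_lit 0) (nat_lit 0) (XT.lf (nat_lit 84) (nat_lit 1612130771) (nat_lit 0) (nat_lit 5510978023) (nat_lit 1260) (nat_lit 6177976444) (nat_lit 180) (nat_lit 5) (nat_lit 179) (nat_lit 5) (nat_lit 194) (nat_lit 5) (nat_lit 358) (nat_lit 350) (nat_lit 237)) (XT.lf (nat_lit 84) (nat_lit 7764993289) (nat_lit 0) (nat_lit 233634197) (nat_lit 1260) (nat_lit 5502066432) (nat_lit 180) (nat_lit 5) (nat_lit 179) (nat_lit 5) (nat_lit 194) (nat_lit 5)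 (nat_lit 359) (nat_lit 350) (nat_lit 236)))))) (XT.nd (nat_lit 58844) (nat_lit 0) (nat_lit 84) (XT.nd (nat_lit 58562) (nat_lit 0) (nat_lit 0) (XT.nd (nat_lit 94) (nat_lit 336) (nat_lit 0) (XT.lf (nat_lit 84) (nat_lit 343049534) (nat_lit 0) (nat_lit 8596714556) (nat_lit 1260) (nat_lit 4765372663) (nat_lit 181) (nat_lit 5) (nat_lit 180) (nat_lit 5) (nat_lit 195) (nat_lit 5) (nat_lit 360) (nat_lit 350) (nat_lit 235)) (XT.nd (nat_lit 58374) (nat_lit 336) (nat_lit 0) (XT.lf (nat_lit 84) (nat_lit 6709684854) (nat_lit 0) (nat_lit 3246022587) (nat_lit 1260) (nat_lit 3958633945) (nat_lit 181) (nat_lit 5) (nat_lit 180) (nat_lit 5) (nat_lit 195) (nat_lit 5) (nat_lit 361) (nat_lit 350) (nat_lit 234)) (XT.lf (nat_lit 0) (nat_lit 1431136974) (nat_lit 1260) (nat_lit 2334557465) (nat_lit 1260) (nat_lit 2334557465) (nat_lit 176) (nat_lit 3) (nat_lit 191) (nat_lit 3) (nat_lit 191) (nat_lit 5) (nat_lit 351) (nat_lit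 351) (nat_lit 243)))) (XT.nd (nat_lit 94) (nat_lit 0) (nat_lit 84) (XT.lf (nat_lit 84) (nat_lit 627668131) (nat_lit 0) (nat_lit 2707297914) (nat_lit 1260) (nat_lit 9034842922) (nat_lit 177) (nat_lit 5) (nat_lit 176) (nat_lit 3) (nat_lit 191) (nat_lit 5) (nat_lit 352) (nat_lit 351) (nat_lit 242)) (XT.nd (nat_lit 94) (nat_lit 0) (nat_lit 0) (XT.lf (nat_lit 0) (nat_lit 3874649390) (nat_lit 1176) (nat_lit 6395226120) (nat_lit 1260) (nat_lit 2272765052) (nat_lit 177) (nat_lit 5) (nat_lit 191) (nat_lit 5) (nat_lit 192) (nat_lit 5) (nat_lit 353) (nat_lit 351) (nat_lit 241)) (XT.lf (nat_lit 0) (nat_lit 4441265724) (nat_lit 1176) (nat_lit 923746153) (nat_lit 1260) (nat_lit 7355353633) (nat_lit 177) (nat_lit 5) (nat_lit 191) (nat_lit 5) (nat_lit 192) (nat_lit 5) (nat_lit 354) (nat_lit 351) (nat_lit 240))))) (XT.nd (nat_lit 282) (nat_lit 0) (nat_lit 168) (XT.nd (nat_lit 94) (nat_lit 0) (nat_lit 84) (XT.lf (nat_lit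 84) (nat_lit 4796705169) (nat_lit 0) (nat_lit 258689641) (nat_lit 1260) (nat_lit 7847141753) (nat_lit 178) (nat_lit 5) (nat_lit 177) (nat_lit 5) (nat_lit 192) (nat_lit 5) (nat_lit 355) (nat_lit 351) (nat_lit 239)) (XT.nd (nat_lit 94) (nat_lit 0) (nat_lit 0) (XT.lf (nat_lit 0) (nat_lit 5730278035) (nat_lit 1176) (nat_lit 2439586785) (nat_lit 1260) (nat_lit 4919066936) (nat_lit 178) (nat_lit 5) (nat_lit 192) (nat_lit 5) (nat_lit 193) (nat_lit 5) (nat_lit 356) (nat_lit 351) (nat_lit 238)) (XT.lf (nat_lit 84) (nat_lit 3452486875) (nat_lit 0) (nat_lit 2993950087) (nat_lit 1260) (nat_lit 6833879043) (nat_lit 179) (nat_lit 5) (nat_lit 178) (nat_lit 5) (nat_lit 193) (nat_lit 5) (nat_lit 357) (nat_lit 351) (nat_lit 237)))) (XT.nd (nat_lit 188) (nat_lit 0) (nat_lit 0) (XT.nd (nat_lit 94) (nat_lit 0) (nat_lit 0) (XT.lf (nat_lit 0) (nat_lit 7217103323) (nat_lit 1176) (nat_lit 3937472676) (nat_lit 1260) (nat_lit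 2321902359) (nat_lit 179) (nat_lit 5) (nat_lit 193) (nat_lit 5) (nat_lit 194) (nat_lit 5) (nat_lit 358) (nat_lit 351) (nat_lit 236)) (XT.lf (nat_lit 84) (nat_lit 2132445700) (nat_lit 0) (nat_lit 5914679311) (nat_lit 1260) (nat_lit 5630339975) (nat_lit 180) (nat_lit 5) (nat_lit 179) (nat_lit 5) (nat_lit 194) (nat_lit 5) (nat_lit 359) (nat_lit 351) (nat_lit 235))) (XT.nd (nat_lit 94) (nat_lit 0) (nat_lit 84) (XT.lf (nat_lit 84) (nat_lit 8456147948) (nat_lit 0) (nat_lit 472072298) (nat_lit 1260) (nat_lit 4955501471) (nat_lit 180) (nat_lit 5) (nat_lit 179) (nat_lit 5) (nat_lit 194) (nat_lit 5) (nat_lit 360) (nat_lit 351) (nat_lit 234)) (XT.lf (nat_lit 84) (nat_lit 831033904) (nat_lit 0) (nat_lit 9048902654) (nat_lit 1260) (nat_lit 4214928893) (nat_lit 181) (nat_lit 5) (nat_lit 180) (nat_lit 5) (nat_lit 195) (nat_lit 5) (nat_lit 361) (nat_lit 351) (nat_lit 233))))))) (XT.nd (nat_lit 59784) (nat_lit 0)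 (nat_lit 0) (XT.nd (nat_lit 564) (nat_lit 0) (nat_lit 0) (XT.nd (nat_lit 282) (nat_lit 0) (nat_lit 84) (XT.nd (nat_lit 94) (nat_lit 0) (nat_lit 0) (XT.lf (nat_lit 0) (nat_lit 1893722441) (nat_lit 1260) (nat_lit 2188072801) (nat_lit 1260) (nat_lit 2188072801) (nat_lit 176) (nat_lit 3) (nat_lit 191) (nat_lit 3) (nat_lit 191) (nat_lit 5) (nat_lit 352) (nat_lit 352) (nat_lit 241)) (XT.nd (nat_lit 94) (nat_lit 0) (nat_lit 84) (XT.lf (nat_lit 84) (nat_lit 1075295433) (nat_lit 0) (nat_lit 3178698460) (nat_lit 1260) (nat_lit 8460782932) (nat_lit 177) (nat_lit 5) (nat_lit 176) (nat_lit 3) (nat_lit 191) (nat_lit 5) (nat_lit 353) (nat_lit 352) (nat_lit 240)) (XT.lf (nat_lit 0) (nat_lit 4782372563) (nat_lit 1176) (nat_lit 6141768017) (nat_lit 1260) (nat_lit 1969522994) (nat_lit 177) (nat_lit 5) (nat_lit 191) (nat_lit 5) (nat_lit 192) (nat_lit 5) (nat_lit 354) (nat_lit 352) (nat_lit 239)))) (XT.nd (nat_lit 94)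 (nat_lit 0) (nat_lit 0) (XT.lf (nat_lit 0) (nat_lit 5342934465) (nat_lit 1176) (nat_lit 519113987) (nat_lit 1260) (nat_lit 7215407436) (nat_lit 177) (nat_lit 5) (nat_lit 191) (nat_lit 5) (nat_lit 192) (nat_lit 5) (nat_lit 355) (nat_lit 352) (nat_lit 238)) (XT.nd (nat_lit 94) (nat_lit 0) (nat_lit 84) (XT.lf (nat_lit 84) (nat_lit 5368712202) (nat_lit 0) (nat_lit 588508958) (nat_lit 1260) (nat_lit 7308461648) (nat_lit 178) (nat_lit 5) (nat_lit 177) (nat_lit 5) (nat_lit 192) (nat_lit 5) (nat_lit 356) (nat_lit 352) (nat_lit 237)) (XT.lf (nat_lit 0) (nat_lit 6627495775) (nat_lit 1176) (nat_lit 2070899094) (nat_lit 1260) (nat_lit 4760062144) (nat_lit 178) (nat_lit 5) (nat_lit 192) (nat_lit 5) (nat_lit 193) (nat_lit 5) (nat_lit 357) (nat_lit 352) (nat_lit 236))))) (XT.nd (nat_lit 58844) (nat_lit 168) (nat_lit 0) (XT.nd (nat_lit 94) (nat_lit 0) (nat_lit 84) (XT.lf (nat_lit 84) (nat_lit 3993604666) (nat_lit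 0) (nat_lit 3354615221) (nat_lit 1260) (nat_lit 6307910784) (nat_lit 179) (nat_lit 5) (nat_lit 178) (nat_lit 5) (nat_lit 193) (nat_lit 5) (nat_lit 358) (nat_lit 352) (nat_lit 235)) (XT.nd (nat_lit 94) (nat_lit 0) (nat_lit 0) (XT.lf (nat_lit 0) (nat_lit 8118845814) (nat_lit 1176) (nat_lit 3606333223) (nat_lit 1260) (nat_lit 2133732791) (nat_lit 179) (nat_lit 5) (nat_lit 193) (nat_lit 5) (nat_lit 194) (nat_lit 5) (nat_lit 359) (nat_lit 352) (nat_lit 234)) (XT.lf (nat_lit 84) (nat_lit 2641278159) (nat_lit 0) (nat_lit 6316808113) (nat_lit 1260) (nat_lit 5108350219) (nat_lit 180) (nat_lit 5) (nat_lit 179) (nat_lit 5) (nat_lit 194) (nat_lit 5) (nat_lit 360) (nat_lit 352) (nat_lit 233)))) (XT.nd (nat_lit 188) (nat_lit 0) (nat_lit 84) (XT.nd (nat_lit 94) (nat_lit 0) (nat_lit 0) (XT.lf (nat_lit 0) (nat_lit 2346095768) (nat_lit 1260) (nat_lit 2049622810) (nat_lit 1260) (nat_lit 2049622810) (nat_lit 176) (nat_lit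 3) (nat_lit 191) (nat_lit 3) (nat_lit 191) (nat_lit 5) (nat_lit 353) (nat_lit 353) (nat_lit 239)) (XT.lf (nat_lit 84) (nat_lit 1511736839) (nat_lit 0) (nat_lit 3641843001) (nat_lit 1260) (nat_lit 7918013643) (nat_lit 177) (nat_lit 5) (nat_lit 176) (nat_lit 3) (nat_lit 191) (nat_lit 5) (nat_lit 354) (nat_lit 353) (nat_lit 238))) (XT.nd (nat_lit 94) (nat_lit 0) (nat_lit 0) (XT.lf (nat_lit 0) (nat_lit 5671893031) (nat_lit 1176) (nat_lit 5906269067) (nat_lit 1260) (nat_lit 1678504990) (nat_lit 177) (nat_lit 5) (nat_lit 191) (nat_lit 5) (nat_lit 192) (nat_lit 5) (nat_lit 355) (nat_lit 353) (nat_lit 237)) (XT.lf (nat_lit 0) (nat_lit 6227542198) (nat_lit 1176) (nat_lit 127161202) (nat_lit 1260) (nat_lit 7091963160) (nat_lit 177) (nat_lit 5) (nat_lit 191) (nat_lit 5) (nat_lit 192) (nat_lit 5) (nat_lit 356) (nat_lit 353) (nat_lit 236)))))) (XT.nd (nat_lit 59408) (nat_lit 0) (nat_lit 0) (XT.nd (nat_lit 59032)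 (nat_lit 84) (nat_lit 0) (XT.nd (nat_lit 94) (nat_lit 0) (nat_lit 84) (XT.lf (nat_lit 84) (nat_lit 5933304417) (nat_lit 0) (nat_lit 909735372) (nat_lit 1260) (nat_lit 6798057323) (nat_lit 178) (nat_lit 5) (nat_lit 177) (nat_lit 5) (nat_lit 192) (nat_lit 5) (nat_lit 357) (nat_lit 353) (nat_lit 235)) (XT.nd (nat_lit 94) (nat_lit 0) (nat_lit 0) (XT.lf (nat_lit 0) (nat_lit 7509994322) (nat_lit 1176) (nat_lit 1716516221) (nat_lit 1260) (nat_lit 4613885971) (nat_lit 178) (nat_lit 5) (nat_lit 192) (nat_lit 5) (nat_lit 193) (nat_lit 5) (nat_lit 358) (nat_lit 353) (nat_lit 234)) (XT.lf (nat_lit 84) (nat_lit 4525839221) (nat_lit 0) (nat_lit 3710552604) (nat_lit 1260) (nat_lit 5808124986) (nat_lit 179) (nat_lit 5) (nat_lit 178) (nat_lit 5) (nat_lit 193) (nat_lit 5) (nat_lit 359) (nat_lit 353) (nat_lit 233)))) (XT.nd (nat_lit 188) (nat_lit 0) (nat_lit 84) (XT.nd (nat_lit 94) (nat_lit 0) (nat_lit 0) (XT.lf (nat_lit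 0) (nat_lit 2789333437) (nat_lit 1260) (nat_lit 1918735045) (nat_lit 1260) (nat_lit 1918735045) (nat_lit 176) (nat_lit 3) (nat_lit 191) (nat_lit 3) (nat_lit 191) (nat_lit 5) (nat_lit 354) (nat_lit 354) (nat_lit 237)) (XT.lf (nat_lit 84) (nat_lit 1938069755) (nat_lit 0) (nat_lit 4097769597) (nat_lit 1260) (nat_lit 7404688959) (nat_lit 177) (nat_lit 5) (nat_lit 176) (nat_lit 3) (nat_lit 191) (nat_lit 5) (nat_lit 355) (nat_lit 354) (nat_lit 236))) (XT.nd (nat_lit 94) (nat_lit 0) (nat_lit 0) (XT.lf (nat_lit 0) (nat_lit 6545272831) (nat_lit 1176) (nat_lit 5687800630) (nat_lit 1260) (nat_lit 1398853829) (nat_lit 177) (nat_lit 5) (nat_lit 191) (nat_lit 5) (nat_lit 192) (nat_lit 5) (nat_lit 356) (nat_lit 354) (nat_lit 235)) (XT.lf (nat_lit 84) (nat_lit 258194804) (nat_lit 0) (nat_lit 6841396371) (nat_lit 1260) (nat_lit 6728614701) (nat_lit 178) (nat_lit 5) (nat_lit 177) (nat_lit 5) (nat_lit 192) (nat_lit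 5) (nat_lit 357) (nat_lit 354) (nat_lit 234))))) (XT.nd (nat_lit 59126) (nat_lit 0) (nat_lit 0) (XT.nd (nat_lit 94) (nat_lit 84) (nat_lit 0) (XT.lf (nat_lit 84) (nat_lit 6491670078) (nat_lit 0) (nat_lit 1223172352) (nat_lit 1260) (nat_lit 6314226233) (nat_lit 178) (nat_lit 5) (nat_lit 177) (nat_lit 5) (nat_lit 192) (nat_lit 5) (nat_lit 358) (nat_lit 354) (nat_lit 233)) (XT.nd (nat_lit 58938) (nat_lit 168) (nat_lit 0) (XT.lf (nat_lit 0) (nat_lit 8379722158) (nat_lit 1176) (nat_lit 1375411231) (nat_lit 1260) (nat_lit 4479913034) (nat_lit 178) (nat_lit 5) (nat_lit 192) (nat_lit 5) (nat_lit 193) (nat_lit 5) (nat_lit 359) (nat_lit 354) (nat_lit 232)) (XT.lf (nat_lit 0) (nat_lit 3224464846) (nat_lit 1260) (nat_lit 1794963843) (nat_lit 1260) (nat_lit 1794963843) (nat_lit 176) (nat_lit 3) (nat_lit 191) (nat_lit 3) (nat_lit 191) (nat_lit 5) (nat_lit 355) (nat_lit 355) (nat_lit 235)))) (XT.nd (nat_lit 188)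 (nat_lit 0) (nat_lit 0) (XT.nd (nat_lit 94) (nat_lit 0) (nat_lit 84) (XT.lf (nat_lit 84) (nat_lit 2355322801) (nat_lit 0) (nat_lit 4547473639) (nat_lit 1260) (nat_lit 6919067263) (nat_lit 177) (nat_lit 5) (nat_lit 176) (nat_lit 3) (nat_lit 191) (nat_lit 5) (nat_lit 356) (nat_lit 355) (nat_lit 234)) (XT.lf (nat_lit 0) (nat_lit 7404486147) (nat_lit 1176) (nat_lit 5485490442) (nat_lit 1260) (nat_lit 1129756846) (nat_lit 177) (nat_lit 5) (nat_lit 191) (nat_lit 5) (nat_lit 192) (nat_lit 5) (nat_lit 357) (nat_lit 355) (nat_lit 233))) (XT.nd (nat_lit 59220) (nat_lit 84) (nat_lit 0) (XT.lf (nat_lit 84) (nat_lit 635228540) (nat_lit 0) (nat_lit 7324448864) (nat_lit 1260) (nat_lit 6262732549) (nat_lit 178) (nat_lit 5) (nat_lit 177) (nat_lit 5) (nat_lit 192) (nat_lit 5) (nat_lit 358) (nat_lit 355) (nat_lit 232)) (XT.lf (nat_lit 84) (nat_lit 2764479001) (nat_lit 0) (nat_lit 4991910812) (nat_lit 1260) (nat_lit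 6459505371) (nat_lit 177) (nat_lit 5) (nat_lit 176) (nat_lit 3) (nat_lit 191) (nat_lit 5) (nat_lit 357) (nat_lit 356) (nat_lit 232))))))))

set_option maxRecDepth 10000000 in
noncomputable def Tp : PT := (PT.nd (nat_lit 3861520) (PT.nd (nat_lit 3269320) (PT.nd (nat_lit 2853840) (PT.nd (nat_lit 2557740) pc0 (PT.nd (nat_lit 177284) pc1 pc2)) (PT.nd (nat_lit 237068) (PT.nd (nat_lit 118628) pc3 pc4) (PT.nd (nat_lit 117970) pc5 pc6))) (PT.nd (nat_lit 354286) (PT.nd (nat_lit 177566) (PT.nd (nat_lit 117406) pc7 pc8) (PT.nd (nat_lit 116842) pc9 pc10)) (PT.nd (nat_lit 119286) (PT.nd (nat_lit 59690) pc11 pc12) (PT.nd (nat_lit 59314) pc13 pc14)))) (PT.nd (nat_lit 415292) (PT.nd (nat_lit 236128) (PT.nd (nat_lit 118252) (PT.nd (nat_lit 59126) pc15 pc16) (PT.nd (nat_lit 58938) pc17 pc18)) (PT.nd (nat_lit 117500) (PT.nd (nat_lit 58750) pc19 pc20) (PT.nd (nat_lit 3008) pc21 pc22))) (PT.nd (nat_lit 178318) (PT.nd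 (nat_lit 116936) (PT.nd (nat_lit 58468) pc23 pc24) (PT.nd (nat_lit 58280) pc25 pc26)) (PT.nd (nat_lit 116466) (PT.nd (nat_lit 58186) pc27 pc28) (PT.nd (nat_lit 58280) pc29 pc30)))))

set_option maxRecDepth 10000000 in
noncomputable def Tx : XT := (XT.nd (nat_lit 17412748) (nat_lit 0) (nat_lit 6972) XT.nil (XT.nd (nat_lit 3736688) (nat_lit 0) (nat_lit 0) (XT.nd (nat_lit 1718602) (nat_lit 0) (nat_lit 2100) (XT.nd (nat_lit 1126308) (nat_lit 0) (nat_lit 1176) (XT.nd (nat_lit 770612) (nat_lit 0) (nat_lit 756) (XT.nd (nat_lit 532980) (nat_lit 0) (nat_lit 420) (XT.nd (nat_lit 355226) (nat_lit 0) (nat_lit 420) xc0 xc1) (XT.nd (nat_lit 119192) (nat_lit 0) (nat_lit 0) xc2 xc3)) (XT.nd (nat_lit 234624) (nat_lit 0) (nat_lit 0) (XT.nd (nat_lit 117688) (nat_lit 0) (nat_lit 0) xc4 xc5) (XT.nd (nat_lit 60630) (nat_lit 0) (nat_lit 420) xc6 xc7))) (XT.nd (nat_lit 295348) (nat_lit 0) (nat_lit 420) (XT.nd (nat_lit 175310)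 (nat_lit 0) (nat_lit 420) (XT.nd (nat_lit 115432) (nat_lit 0) (nat_lit 0) xc8 xc9) (XT.nd (nat_lit 59972) (nat_lit 0) (nat_lit 0) xc10 xc11)) (XT.nd (nat_lit 120414) (nat_lit 0) (nat_lit 504) (XT.nd (nat_lit 60160) (nat_lit 0) (nat_lit 0) xc12 xc13) (XT.nd (nat_lit 115902) (nat_lit 0) (nat_lit 0) xc14 xc15)))) (XT.nd (nat_lit 710922) (nat_lit 0) (nat_lit 1428) (XT.nd (nat_lit 298450) (nat_lit 0) (nat_lit 420) (XT.nd (nat_lit 177002) (nat_lit 0) (nat_lit 0) (XT.nd (nat_lit 60630) (nat_lit 420) (nat_lit 0) xc16 xc17) (XT.nd (nat_lit 60724) (nat_lit 420) (nat_lit 0) xc18 xc19)) (XT.nd (nat_lit 177660) (nat_lit 0) (nat_lit 0) (XT.nd (nat_lit 116748) (nat_lit 0) (nat_lit 0) xc20 xc21) (XT.nd (nat_lit 117218) (nat_lit 0) (nat_lit 504) xc22 xc23))) (XT.nd (nat_lit 416984) (nat_lit 0) (nat_lit 1764) (XT.nd (nat_lit 179540) (nat_lit 0) (nat_lit 588) (XT.nd (nat_lit 61382) (nat_lit 0) (nat_lit 0) xc24 xc25)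 (XT.nd (nat_lit 118534) (nat_lit 0) (nat_lit 588) xc26 xc27)) (XT.nd (nat_lit 296664) (nat_lit 0) (nat_lit 1932) (XT.nd (nat_lit 119286) (nat_lit 0) (nat_lit 588) xc28 xc29) (XT.nd (nat_lit 178506) (nat_lit 0) (nat_lit 588) xc30 xc31))))) XT.nil))

set_option maxRecDepth 10000000 in
noncomputable def Te : XT := XT.nil

set_option maxRecDepth 10000000 in
noncomputable def Tz : ZL := (ZL.cons (nat_lit 84) (nat_lit 3) (nat_lit 92681202083883696299) (ZL.cons (nat_lit 168) (nat_lit 6) (nat_lit 182942007893172546468) (ZL.cons (nat_lit 6972) (nat_lit 6) (nat_lit 127783469582341632930) (ZL.cons (nat_lit 7056) (nat_lit 3) (nat_lit 63867354092152726673) (ZL.cons (nat_lit 7392) (nat_lit 6) (nat_lit 126689189391322400816) (ZL.cons (nat_lit 7476) (nat_lit 6) (nat_lit 126593086830144299304) (ZL.cons (nat_lit 7728) (nat_lit 6) (nat_lit 125655384252027059226) (ZL.cons (nat_lit 7812) (nat_lit 6) (nat_lit 125513319396536412152)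 (ZL.cons (nat_lit 7896) (nat_lit 3) (nat_lit 62732989116697245112) (ZL.cons (nat_lit 8148) (nat_lit 6) (nat_lit 124681150839576612228) (ZL.cons (nat_lit 8232) (nat_lit 6) (nat_lit 124494462397374755876) (ZL.cons (nat_lit 8316) (nat_lit 6) (nat_lit 124401158939920288386) (ZL.cons (nat_lit 8568) (nat_lit 6) (nat_lit 123765637882057268172) (ZL.cons (nat_lit 8652) (nat_lit 6) (nat_lit 123535625569262004748) (ZL.cons (nat_lit 8736) (nat_lit 6) (nat_lit 123397698525096327980) (ZL.cons (nat_lit 8820) (nat_lit 3) (nat_lit 61675868115391891209) (ZL.cons (nat_lit 9072) (nat_lit 6) (nat_lit 122908045416690612096) (ZL.cons (nat_lit 9156) (nat_lit 6) (nat_lit 122635971093610487440) (ZL.cons (nat_lit 9240) (nat_lit 6) (nat_lit 122454720178851403600) (ZL.cons (nat_lit 9324) (nat_lit 6) (nat_lit 122364134297827648760) (ZL.cons (nat_lit 9492) (nat_lit 6) (nat_lit 122107624090837003234) (ZL.cons (nat_lit 9576) (nat_lit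 6) (nat_lit 121794712864567692916) (ZL.cons (nat_lit 9660) (nat_lit 6) (nat_lit 121571399939523747844) (ZL.cons (nat_lit 9744) (nat_lit 6) (nat_lit 121437490187906585932) (ZL.cons (nat_lit 9828) (nat_lit 3) (nat_lit 60696433300597688327) (ZL.cons (nat_lit 9996) (nat_lit 6) (nat_lit 121363674507221423868) (ZL.cons (nat_lit 10080) (nat_lit 6) (nat_lit 121011115802127661448) (ZL.cons (nat_lit 10164) (nat_lit 6) (nat_lit 120746965973894530714) (ZL.cons (nat_lit 10248) (nat_lit 6) (nat_lit 120570994211992507570) (ZL.cons (nat_lit 10332) (nat_lit 6) (nat_lit 120483046754687891220) (ZL.cons (nat_lit 10500) (nat_lit 6) (nat_lit 120675546612809646794) (ZL.cons (nat_lit 10584) (nat_lit 6) (nat_lit 120284495209828066804) (ZL.cons (nat_lit 10668) (nat_lit 6) (nat_lit 119980697902770483968) (ZL.cons (nat_lit 10752) (nat_lit 6) (nat_lit 119763889237679275162) (ZL.cons (nat_lit 10836) (nat_lit 6) (nat_lit 119633879770089797580)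 (ZL.cons (nat_lit 10920) (nat_lit 3) (nat_lit 59795277949748195254) (ZL.cons (nat_lit 11088) (nat_lit 6) (nat_lit 120042639130800729680) (ZL.cons (nat_lit 11172) (nat_lit 6) (nat_lit 119614216176471753988) (ZL.cons (nat_lit 11256) (nat_lit 6) (nat_lit 119271926171526353582) (ZL.cons (nat_lit 11340) (nat_lit 6) (nat_lit 119015470027610692674) (ZL.cons (nat_lit 11424) (nat_lit 6) (nat_lit 118844623656832029430) (ZL.cons (nat_lit 11508) (nat_lit 6) (nat_lit 118759237775953761126) (ZL.cons (nat_lit 11676) (nat_lit 6) (nat_lit 119464399035239519108) (ZL.cons (nat_lit 11760) (nat_lit 6) (nat_lit 118999693021349965064) (ZL.cons (nat_lit 11844) (nat_lit 6) (nat_lit 118620031465057168956) (ZL.cons (nat_lit 11928) (nat_lit 6) (nat_lit 118325082623253690478) (ZL.cons (nat_lit 12012) (nat_lit 6) (nat_lit 118114588773650575132) (ZL.cons (nat_lit 12096) (nat_lit 6) (nat_lit 117988365989583121166) (ZL.cons (nat_lit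 12180) (nat_lit 3) (nat_lit 58973151989649129967) (ZL.cons (nat_lit 12264) (nat_lit 6) (nat_lit 118940321067790087802) (ZL.cons (nat_lit 12348) (nat_lit 6) (nat_lit 118440388782482496524) (ZL.cons (nat_lit 12432) (nat_lit 6) (nat_lit 118024444166629122064) (ZL.cons (nat_lit 12516) (nat_lit 6) (nat_lit 117692123773478247884) (ZL.cons (nat_lit 12600) (nat_lit 6) (nat_lit 117443137225987314968) (ZL.cons (nat_lit 12684) (nat_lit 6) (nat_lit 117277266963095408900) (ZL.cons (nat_lit 12768) (nat_lit 6) (nat_lit 117194368049621362006) (ZL.cons (nat_lit 12852) (nat_lit 6) (nat_lit 118469947296247868300) (ZL.cons (nat_lit 12936) (nat_lit 6) (nat_lit 117935814747427619514) (ZL.cons (nat_lit 13020) (nat_lit 6) (nat_lit 117484643860156207820) (ZL.cons (nat_lit 13104) (nat_lit 6) (nat_lit 117116040407444755288) (ZL.cons (nat_lit 13188) (nat_lit 6) (nat_lit 116829682308606426670) (ZL.cons (nat_lit 13272) (nat_lit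 6) (nat_lit 116625319347826703032) (ZL.cons (nat_lit 13356) (nat_lit 6) (nat_lit 116502772955528204036) (ZL.cons (nat_lit 13440) (nat_lit 3) (nat_lit 58230968026169509187) (ZL.cons (nat_lit 14112) (nat_lit 6) (nat_lit 118052866714404716914) (ZL.cons (nat_lit 14196) (nat_lit 6) (nat_lit 117485530026251790934) (ZL.cons (nat_lit 14280) (nat_lit 6) (nat_lit 117000158875467721732) (ZL.cons (nat_lit 14364) (nat_lit 6) (nat_lit 116596329151338231966) (ZL.cons (nat_lit 14448) (nat_lit 6) (nat_lit 116273687992939324996) (ZL.cons (nat_lit 14532) (nat_lit 6) (nat_lit 116031953480812205656) (ZL.cons (nat_lit 14616) (nat_lit 6) (nat_lit 115870914390625889090) (ZL.cons (nat_lit 14700) (nat_lit 6) (nat_lit 115790430008612251326) (ZL.cons (nat_lit 14784) (nat_lit 3) (nat_lit 57900137579438091228) (ZL.cons (nat_lit 14868) (nat_lit 6) (nat_lit 115826486813082844396) (ZL.cons (nat_lit 14952) (nat_lit 6) (nat_lit 115905144679090001078)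 (ZL.cons (nat_lit 15036) (nat_lit 6) (nat_lit 116036317487071833516) (ZL.cons (nat_lit 15120) (nat_lit 6) (nat_lit 116220119854045024868) (ZL.cons (nat_lit 15204) (nat_lit 6) (nat_lit 116456712384019551702) (ZL.cons (nat_lit 15288) (nat_lit 6) (nat_lit 116746301808332284968) (ZL.cons (nat_lit 15372) (nat_lit 6) (nat_lit 117089141166286022202) (ZL.cons (nat_lit 15456) (nat_lit 6) (nat_lit 116570565876169275806) (ZL.cons (nat_lit 15540) (nat_lit 6) (nat_lit 116132535888527128532) (ZL.cons (nat_lit 15624) (nat_lit 6) (nat_lit 115774668458710184328) (ZL.cons (nat_lit 15708) (nat_lit 6) (nat_lit 115496650887022486636) (ZL.cons (nat_lit 15792) (nat_lit 6) (nat_lit 115298240245488774368) (ZL.cons (nat_lit 15876) (nat_lit 6) (nat_lit 115179263165587319034) (ZL.cons (nat_lit 15960) (nat_lit 3) (nat_lit 57569807843381433466) (ZL.cons (nat_lit 16044) (nat_lit 6) (nat_lit 115074828685432256164) (ZL.cons (nat_lit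 16128) (nat_lit 6) (nat_lit 115128038343471779898) (ZL.cons (nat_lit 16212) (nat_lit 6) (nat_lit 115234504153426784230) (ZL.cons (nat_lit 16296) (nat_lit 6) (nat_lit 115394319143674899750) (ZL.cons (nat_lit 16380) (nat_lit 6) (nat_lit 115607622958382362672) (ZL.cons (nat_lit 16464) (nat_lit 6) (nat_lit 115874601979523189224) (ZL.cons (nat_lit 16548) (nat_lit 6) (nat_lit 116195489489737211202) (ZL.cons (nat_lit 16632) (nat_lit 6) (nat_lit 115724255362762386734) (ZL.cons (nat_lit 16716) (nat_lit 6) (nat_lit 115332187669432785022) (ZL.cons (nat_lit 16800) (nat_lit 6) (nat_lit 115018943826327050096) (ZL.cons (nat_lit 16884) (nat_lit 6) (nat_lit 114784250125232759476) (ZL.cons (nat_lit 16968) (nat_lit 6) (nat_lit 114627901493983908440) (ZL.cons (nat_lit 17052) (nat_lit 6) (nat_lit 114549761317271638768) (ZL.cons (nat_lit 17136) (nat_lit 3) (nat_lit 57198361687565125900) (ZL.cons (nat_lit 17220) (nat_lit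 6) (nat_lit 114423721378963113594) (ZL.cons (nat_lit 17304) (nat_lit 6) (nat_lit 114504738980950484978) (ZL.cons (nat_lit 17388) (nat_lit 6) (nat_lit 114639846973171772392) (ZL.cons (nat_lit 17472) (nat_lit 6) (nat_lit 114829163411154159482) (ZL.cons (nat_lit 17556) (nat_lit 6) (nat_lit 115072853717027922122) (ZL.cons (nat_lit 17640) (nat_lit 6) (nat_lit 115371130824070037386) (ZL.cons (nat_lit 17724) (nat_lit 6) (nat_lit 114945858991407758480) (ZL.cons (nat_lit 17808) (nat_lit 6) (nat_lit 114598414884789366046) (ZL.cons (nat_lit 17892) (nat_lit 6) (nat_lit 114328494912277038192) (ZL.cons (nat_lit 17976) (nat_lit 6) (nat_lit 114135863221467608804) (ZL.cons (nat_lit 18060) (nat_lit 6) (nat_lit 114020351493407943430) (ZL.cons (nat_lit 18144) (nat_lit 3) (nat_lit 56990929397760062930) (ZL.cons (nat_lit 18228) (nat_lit 6) (nat_lit 113791578362973654792) (ZL.cons (nat_lit 18312) (nat_lit 6) (nat_lit 113846384310754364236)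 (ZL.cons (nat_lit 18396) (nat_lit 6) (nat_lit 113956044095008018702) (ZL.cons (nat_lit 18480) (nat_lit 6) (nat_lit 114120653534963577686) (ZL.cons (nat_lit 18564) (nat_lit 6) (nat_lit 114340356464112264494) (ZL.cons (nat_lit 18648) (nat_lit 6) (nat_lit 114615344855887315846) (ZL.cons (nat_lit 18732) (nat_lit 6) (nat_lit 114234696609936246218) (ZL.cons (nat_lit 18816) (nat_lit 6) (nat_lit 113930576373911260856) (ZL.cons (nat_lit 18900) (nat_lit 6) (nat_lit 113702718411683794234) (ZL.cons (nat_lit 18984) (nat_lit 6) (nat_lit 113550923624063550508) (ZL.cons (nat_lit 19068) (nat_lit 6) (nat_lit 113475059374828337236) (ZL.cons (nat_lit 19152) (nat_lit 3) (nat_lit 56615528468764133531) (ZL.cons (nat_lit 19236) (nat_lit 6) (nat_lit 113258864881476114712) (ZL.cons (nat_lit 19320) (nat_lit 6) (nat_lit 113342313011523107238) (ZL.cons (nat_lit 19404) (nat_lit 6) (nat_lit 113481474243511033274) (ZL.cons (nat_lit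 19488) (nat_lit 6) (nat_lit 113676470174632891976) (ZL.cons (nat_lit 19572) (nat_lit 6) (nat_lit 113927471189682867496) (ZL.cons (nat_lit 19656) (nat_lit 6) (nat_lit 113590146814325204940) (ZL.cons (nat_lit 19740) (nat_lit 6) (nat_lit 113328088588585080810) (ZL.cons (nat_lit 19824) (nat_lit 6) (nat_lit 113141067529546799850) (ZL.cons (nat_lit 19908) (nat_lit 6) (nat_lit 113028920220751008226) (ZL.cons (nat_lit 19992) (nat_lit 3) (nat_lit 56495774334701806262) (ZL.cons (nat_lit 20076) (nat_lit 6) (nat_lit 112741667326624134054) (ZL.cons (nat_lit 20160) (nat_lit 6) (nat_lit 112798117452838264786) (ZL.cons (nat_lit 20244) (nat_lit 6) (nat_lit 112911067030619528882) (ZL.cons (nat_lit 20328) (nat_lit 6) (nat_lit 113080614753773754636) (ZL.cons (nat_lit 20412) (nat_lit 6) (nat_lit 113306908770796902050) (ZL.cons (nat_lit 20496) (nat_lit 6) (nat_lit 113011646405724100726) (ZL.cons (nat_lit 20580) (nat_lit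 6) (nat_lit 112790425083173162258) (ZL.cons (nat_lit 20664) (nat_lit 6) (nat_lit 112643051502959333400) (ZL.cons (nat_lit 20748) (nat_lit 6) (nat_lit 112569396892051359346) (ZL.cons (nat_lit 20832) (nat_lit 3) (nat_lit 56147169863002431139) (ZL.cons (nat_lit 20916) (nat_lit 6) (nat_lit 112322981908271145360) (ZL.cons (nat_lit 21000) (nat_lit 6) (nat_lit 112408933482219547662) (ZL.cons (nat_lit 21084) (nat_lit 6) (nat_lit 112552269551167111476) (ZL.cons (nat_lit 21168) (nat_lit 6) (nat_lit 112753115360222625942) (ZL.cons (nat_lit 21252) (nat_lit 6) (nat_lit 112498689898339010280) (ZL.cons (nat_lit 21336) (nat_lit 6) (nat_lit 112317116054612523914) (ZL.cons (nat_lit 21420) (nat_lit 6) (nat_lit 112208235172286512626) (ZL.cons (nat_lit 21504) (nat_lit 3) (nat_lit 56085976056362967137) (ZL.cons (nat_lit 21588) (nat_lit 6) (nat_lit 111916491210841059246) (ZL.cons (nat_lit 21672) (nat_lit 6) (nat_lit 111974634840841613898)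 (ZL.cons (nat_lit 21756) (nat_lit 6) (nat_lit 112090972905956315918) (ZL.cons (nat_lit 21840) (nat_lit 6) (nat_lit 112265607060805168444) (ZL.cons (nat_lit 21924) (nat_lit 6) (nat_lit 112050829077746004884) (ZL.cons (nat_lit 22008) (nat_lit 6) (nat_lit 111907747931907336088) (ZL.cons (nat_lit 22092) (nat_lit 6) (nat_lit 111836238600928720502) (ZL.cons (nat_lit 22176) (nat_lit 3) (nat_lit 55789145087250854158) (ZL.cons (nat_lit 22260) (nat_lit 6) (nat_lit 111607791622235979886) (ZL.cons (nat_lit 22344) (nat_lit 6) (nat_lit 111696321743402834256) (ZL.cons (nat_lit 22428) (nat_lit 6) (nat_lit 111843957894418824988) (ZL.cons (nat_lit 22512) (nat_lit 6) (nat_lit 111667672609247478998) (ZL.cons (nat_lit 22596) (nat_lit 6) (nat_lit 111561963014756205904) (ZL.cons (nat_lit 22680) (nat_lit 3) (nat_lit 55763368371669084335) (ZL.cons (nat_lit 22764) (nat_lit 6) (nat_lit 111308083283784446526) (ZL.cons (nat_lit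 22848) (nat_lit 6) (nat_lit 111367971222685017814) (ZL.cons (nat_lit 22932) (nat_lit 6) (nat_lit 111487799429753160896) (ZL.cons (nat_lit 23016) (nat_lit 6) (nat_lit 111348885695929210608) (ZL.cons (nat_lit 23100) (nat_lit 6) (nat_lit 111279459160998515866) (ZL.cons (nat_lit 23184) (nat_lit 3) (nat_lit 55537623972207290219) (ZL.cons (nat_lit 23268) (nat_lit 6) (nat_lit 111105634435580880156) (ZL.cons (nat_lit 23352) (nat_lit 6) (nat_lit 111196820460382740156) (ZL.cons (nat_lit 23436) (nat_lit 6) (nat_lit 111094189786119368220) (ZL.cons (nat_lit 23520) (nat_lit 3) (nat_lit 55529994761303355356) (ZL.cons (nat_lit 23604) (nat_lit 6) (nat_lit 110909082155771592420) (ZL.cons (nat_lit 23688) (nat_lit 6) (nat_lit 110970766732839180850) (ZL.cons (nat_lit 23772) (nat_lit 6) (nat_lit 110903362329993846148) (ZL.cons (nat_lit 23856) (nat_lit 3) (nat_lit 55389071319273320818) (ZL.cons (nat_lit 23940) (nat_lit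 6) (nat_lit 110809440724447930348) (ZL.cons (nat_lit 24024) (nat_lit 3) (nat_lit 55388118292557626577) (ZL.cons (nat_lit 24108) (nat_lit 6) (nat_lit 110712701470735637072) (ZL.cons (nat_lit 24192) (nat_lit 1) (nat_lit 18446744073709551617) ZL.nil)))))))))))))))))))))))))))))))))))))))))))))))))))))))))))))))))))))))))))))))))))))))))))))))))))))))))))))))))))))))))))))))))))))))))))))))))))))))))))))))))))))))))))))))))))))))))

noncomputable def vl : XL := ⟨(nat_lit 0), (nat_lit 84), (nat_lit 53607395), (nat_lit 168), (nat_lit 297650193), (nat_lit 168), (nat_lit 297650193), (nat_lit 1), (nat_lit 4), (nat_lit 2), (nat_lit 5), (nat_lit 2), (nat_lit 4), (nat_lit 0), (nat_lit 0), (nat_lit 0)⟩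

noncomputable def cp0 : Nat := (nat_lit 2369266373590206601395425484515960864444927468377692289667282637920818309207041876372919263613122241852073451211840615828159760273345004688255216022711625096681598857862340945729378854438360439830932253259698000154635089774480923074672198632036702188424703705148178503732204223925257643106501329585177505816839255749687487888050872937750497799812181379621900955426372597775272417592094742219848530911721450064131249921753505935744990911887109430819410159913447656032061280525163449651899022592473181828774861275332871670491427926981638593636559670033059151927332169518407598635467764414554296952688001587732408970435280589677085729692291718363260095668966680572767161410272842671509468001950258357193555220064490919557107887343236507645176988678738141124907985426165780181379824582929677895571420633358497831863259881091056394094268489163755740289901460990977200270574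9477208702335524269643156895207806799153210361153088962151307667462183638480408090377608088024325881039653081613974201583678025757529103327889315841396175435753356506774479420960311269048824445198001930224612093537092142738153983335029635501261158073303584477475417833339358077204898388981230718337797004893452994303095117696283101736639177079886636441386224600243699070287621189140377281648319721625480593226236771227402342179885631796800893416313423531285914243155995651266626407146483839949887052028090503350429924201812150559408169400793484006466964613368726595764070678858334156033581259248112053716042122275682812185057320750983165503310160586415320100084122411033402267538415521655688316227074270057586581142110912315039459513503072330727595362987076521536781412278884034124847384075314591246117997097327082653246353586325199052780662535049333523280741597648295191848223412554000237930659243585878764727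3228481934588459695244162285292884273463703978970076108020755999465594236805657446648956458323623089127902051888220175647843999899021178695618237477887615900474463764494133469793450644355585634185149372067616306043112642911511040498684607718698092606164546966279990220263814057153054822436311858027981957032539091113838865733612384206437880278746843603009466339437087960999187889560229398812603425266241938825502830085327331461091512759709865675610099152668736036437806009036465632807834838903094837219269929330845756302232952054252924817537262329706140364343467308850536321870585694600552559450822009864321834566561740963618988317230323202668065099683703674881431145510797429278534098224551754790247183757376784270727963913996160419267450577635378746693544079288808970486596560743315881203273809279307102486542449571276699404587981744712906022830972271882167437509964862329836880867165395645302370532962264331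5609823629032320225532708418026105653433537234748815970767185311794090661490351981677947813675015623426597786931109648682056652178463340632693144829431102515552089159082890894580496417089528580274813553706887878261488251636669570495582514544449654727318185336905193438413344367031112402997376602591557337559598388142116960132360354038838353935528513218176022060471905375908706501822093273647932241828036772251833564616072202713857331297963373868604664392488382323749588938072492466241602923031755942142269053947132551785826110686433737008498294622462436676084388783947579568230788427443247656485601816275527998167681078596520516606654678809903035259301980781784859068651661969984401118530051101708045392941136928287993779333458729778460470911828769661999537932901647582186184757393762255171660907758804693264044273006106129386573922007621727066302100915870608426868760633398064613215336069737863856665358025165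2052893744625788337107208072451073793386522830864763581813102703461633490106538574657055091736420336201235357773129059826818462263686682216321073427554896773123742398913592541009414207202995199400796204785008587060050981006527922303821481685125797892376649208300204348933714549894387533976136234426911407552495282671153412663958055708790590465983599087656844006521424917947170510718228384942339176801213461252640121790474185841449509975622132829514953108301664186760385386942187838658094492008664381016911724167041492234586869899289135015688743063938187614199579784869760059005918205332078299295116429962100662057208612942473289665197417178089156775634554703466033458399661869894871238310406444637930538405068109570275272004760389602554545289959635119158896743888165927041527472459880792849853093124258232477099582398510759783615387674531893610542748935003744470387791488428153673042235875604817643013127177840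2121884779513293870816589722711154981460641737381955255918595241892048071588609235187002490997626430791303025356401453201494624618011480244143060369350906077082249007375560577481120525864770617435714718714450158952295216360018339363812431408293527407468565458604933005755145569711688473686612206991011211268185730405688295103702500599664076622174165381224717495978701220628943428829697790148831447033313555040296889590216222891665700242863674365384669850379278697249769400588296291565535934673265915684114239315979182310079888437586300916263965401767557965434985048309034737061542307934359273222777055058779536076732781617141362324268881170363132501749798614568085709376717205599395550205847146011772121194898124582661092432268072652862782415232857508021460683428893865288669864030530503615130347867218342046633059189153174144729835220863874240165560165816900619502225628812038554363070218636774204358934681414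1603945440755931519911499166893236492555654641001249605693687304218358649472806684219653993927280913757203336899938880415170831938565673009319625585589456440789260648819118353880173198065210885034994478987983037194368068785663545739415978906035743634540431894589584735570941373107357726614836274510434618973071870471292323624117992914345810568370225969360368469763134884722186655312856448757711474330276940760138509777596634762200995813733394239354066961618505060719133075925918758465116762000440037115666916652026861388040890136540753883921121650561503628074627381931412901746017675911374735849139285634079173050056497672976064512651808303243160827791348104791717040338766806970140561619063988104251344066141258820222853548331938418435287963274429195203384523500874126481058816307335067924955554746289263909103647457894555159068153596090639287574073234626887742654776954015740007847967477431033725757061330941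3265437926371348860608061849268786865724067420779527988110596356690866407061943031583815174928581697968139617386889256822404353123510472120775567652143058888070027492987368276859988875881339711069627316327417314332614122169890149788033994537306350894091660841478138983131843065486090797972968946257540589756328816502005844406220740614947146315002094636180565136813778061202645602096917052836784534625023107152683651913894308593062519350844471963602394958171717681146878548942004811576004362023146919404804665641454494239325222150512202137147243820988051835381979372285163399039945443852725304313679126911574283966612891664732750150669196757296068520852055573472774328843153389684141254368343583412725416583692609295788036761767243687274623979356001430919272843757678849408922705129845041469258420327221773284518904602922145453706443662289955443745855504352587034556644948414270486234611896467039660303211774450387717321142584960037210860666510730825721342304023113114014711808)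

noncomputable def cp1 : Nat := (nat_lit 2552903750247706751157849861952031938001530600788999434506894522712776378709081186320768634645354305715028475479542571116172775859059200946318906584619205724970177457222762792363709496645914474181691167606351289021204242297194170883223686421352017048755166016742346339975535683409851439249868644385644171191411655132413384700092609475705348089668204701566880807500480810960169342554923386411139677619375958172967706770697916203175684222287926955677127363098040763456515216232652788582269922132455788754088148988954738126580393905731989612169656494355391005595577332594661022921357040990325185030217125177904773781391032136184406993075531109601721782264212217219727250928865503514527620614598517684202182245904878532127916019905794145410416384813211864498356716160615612216340217501528692754028479372740361659968960404272410426933128757890271705345592204254928713293390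5175058176422050338062907299242958046563921551288754752047191187167984349972476436997768489298318639245889968544784807152351401736356493964289354565699029747844454868370684432615999542336765891871488573986918769241971202275199890028450995644255862793990078458215513987187253359544531909285682854200707108654649548628856378829430554435731605320766777897839251530492493322151312508963517559719153949057813562724389312150252747982250696240635058992660125507498459399542938054266387741885644864520414957132817834339825166696340681513177409630037881196049411345700119147419262095798947076336672613404725781041940746014653372736761307023408737883233502880713207786638124307285946330086943835344142770343271825817863235706801577074528223808458063229520516829719983865553477737454224056241215247442507646911076593962785202736641316361088119871884536354264161142997830252953699517915103385171909024569837391168750526568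3344437613665263153369952626079350565777792208996741067743236385751444720268602758368103891260744871802544836240667269208382754014975061351226019051824941669831109261847517627961746499459339889245147249761985937792025052155811047538367017709160384222909346760596432169897032256132813482978367690561411925984082410128684933812875962936846306808934180918974739708804204355596505173136875759952887156315523343240307912059806377662468310482575170351580082157178118035504152137551095372571601333738675352255081190437000490107896246775003190699067463957734991184275314495146735675994766727956690383247948986339117582529606252818177892822105725365147907306674232695953994823985186470679430326368723354865150310195292529643979844287791810027015474259446700216188337376642541181475250360475789446428885161365393982147786690094170738531819076339394577460226715750012807929858013406405207223016480482942489069296348575438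1331448969805256651672259314683836374101857714348064648027716353996934717039133321389060656288653097266939368230466902530829276836584757321777238658633448377307969578443930797857993669825911408712532080170806018099721102610267169070921007007892052429273084306414486986199123982332732665289020357649866914036926940429548834832626287636891651292471998099328488844024170943910244870523695714378348661925967378361619952610188843262743475997453586048888197832744973348933878928732926608888019534622498979321426346038304882724921380932680364689807349119527005554034544636700545694912612868981137026417414572201391067505764760034013122896578093158212540141692610571167193521191138753509415946779310484678334208000106541586816280359469252851993841714515900512521990388060892312392813165675935601171028021749317515722934289801962444514453977712023154332030821302847668389458210277686847558400852993571071700051485138577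2735993389022341443618938979270517210342171317315834487093670002919147489271089859815569780471834793824528145523747390901561322576412601688849490327373896610840918284588576691203618805091507209979085691489394308769733940357265390047106159431715017185584456023657146224900199607064403605569785146129753588824532743939237639349257510440714116423875976572860894831058649678492802556437028835252052049109535018931451003373686029256738595298417742890172637141674220953274001225948917548868281560655805915004082217922383174708473683267103338403808161412149242266641840603118056471124542166251285208647871929963549660171702149079261951563572492534615223454494683926408446602160813859972848208091808417621564059611445443936362965017978758378340341670584358701835740146761335109716151387024485553195120572575738742565309869418682449129164356729033478757662917700713589421954890876107994997823684393931439802777888379661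8422787781149778463872582228387379610653004058564525442626111910330457137546284226483460494403102294368618190561929206293458081715848039646222523506266878303626276690849572676016530302724641926806922969180211139675359967661740341891253246654828625816439861572322816546162467517996282917708780112818720540863830611782260371039369036924836763130941144140568711259849257343127680883977787414264371736261825961499758434063790110457239646379975768840830545892543227903768603555600311224919265129737573777458415501271260378893666852140927016940669301911557965996874865029502957170945634784779644684087825060436363709713637874803526761391610138266869775862216733056408896546809271331505982441548213368937729866897214185868158261443384143483299911373834882421332714976751215602576550825886707567639646799356207224200390633342111604600366380800876716989978252630168854046070027263206465116346572880536834361658935545981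2071594733088229554570948841587790335519904266279530824235341220240575137693876842302797378304365810615835694006565706996429285910595214521864675980654061679421879939312820926015363037250906594051456718047814220930367457016965827189688312508069336876009327766327978365545508341913674337953433031781151535224137990894536959582153578912243812246310107824854592370198529460712905763306571491065944823112558448199241201054751148545655418029681251779022522135806416051087203603029964367293413939450437650050798574364993400813303237839014606508781556603272861979290786657400338630122563647048529559108460507252445536502833699403961793359009260482711687636816948385389706054703892111522327754042551354835176445832028103683685277475463455389189928747724233319620113915084792373962008919486790369400655604567204781851614623361060237067648397254299954724989988221444000891903898626077439872125164223217860913445912468191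0314844588423302906583845682153411767597793420191644825459679810807120330513428626304131637719214277067045292468886371033584156140061258333974497861805708457692661925805050613670119852834456736300912430534280826586844725339110261388375789032241232629400499137674841641023964099097936062622429501787566952306978366246273407633103531089606595065681044558715070327515465949717075767266362226315190383973906602868989653321096208930142928936245856609992836312311134092095560618946350865607857486387855972761618276889223301617564809224787901290099775556490875006905067491804742692947452507807728241027821284082936992434897428913395070831373455906203410198999683002681474051693491478441603313721588509862667232520234446248035635795964069556102852558318792138739915738038631841328886980016910277856639730709621305971457283244721203851748155713044047684690088823626826396139897830968720292574363270077766588550703376009896586923932898891327795238225537995155094712435029001565038968832)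

noncomputable def rc0 : Nat := (nat_lit 2552903750247706751157849861952031938001530600788999434506894522712776378709081186320768634645354305715028475479542571116172775859059200946318906584619205724970177457222762792363709496645914474181691167606351289021204242297194170883223686421352017048755166016742346339975535683409851439249868644385644171191411655132413384700092609475705348089668204701566880807500480810960169342554923386411139677619375958172967706770697916203175684222287926955677127363098040763456515216232652788582269922132455788754088148988954738126580393905731989612169656494355391005595577332594661022921357040990325185030217125177904773781391032136184406993075531109601721782264212217219727250928865503514527620614598517684202182245904878532127916019905794145410416384813211864498356716160615612216340217501528692754028479372740361659968960404272410426933128757890271705345592204254928713293390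5175058176422050338062907299242958046563921551288754752047191187167984349972476436997768489298318639245889968544784807152351401736356493964289354565699029747844454868370684432615999542336765891871488573986918769241971202275199890028450995644255862793990078458215513987187253359544531909285682854200707108654649548628856378829430554435731605320766777897839251530492493322151312508963517559719153949057813562724389312150252747982250696240635058992660125507498459399542938054266387741885644864520414957132817834339825166696340681513177409630037881196049411345700119147419262095798947076336672613404725781041940746014653372736761307023408737883233502880713207786638124307285946330086943835344142770343271825817863235706801577074528223808458063229520516829719983865553477737454224056241215247442507646911076593962785202736641316361088119871884536354264161142997830252953699517915103385171909024569837391168750526568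3344437613665263153369952626079350565777792208996741067743236385751444720268602758368103891260744871802544836240667269208382754014975061351226019051824941669831109261847517627961746499459339889245147249761985937792025052155811047538367017709160384222909346760596432169897032256132813482978367690561411925984082410128684933812875962936846306808934180918974739708804204355596505173136875759952887156315523343240307912059806377662468310482575170351580082157178118035504152137551095372571601333738675352255081190437000490107896246775003190699067463957734991184275314495146735675994766727956690383247948986339117582529606252818177892822105725365147907306674232695953994823985186470679430326368723354865150310195292529643979844287791810027015474259446700216188337376642541181475250360475789446428885161365393982147786690094170738531819076339394577460226715750012807929858013406405207223016480482942489069296348575438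1331448969805256651672259314683836374101857714348064648027716353996934717039133321389060656288653097266939368230466902530829276836584757321777238658633448377307969578443930797857993669825911408712532080170806018099721102610267169070921007007892052429273084306414486986199123982332732665289020357649866914036926940429548834832626287636891651292471998099328488844024170943910244870523695714378348661925967378361619952610188843262743475997453586048888197832744973348933878928732926608888019534622498979321426346038304882724921380932680364689807349119527005554034544636700545694912612868981137026417414572201391067505764760034013122896578093158212540141692610571167193521191138753509415946779310484678334208000106541586816280359469252851993841714515900512521990388060892312392813165675935601171028021749317515722934289801962444514453977712023154332030821302847668389458210277686847558400852993571071700051485138577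2735993389022341443618938979270517210342171317315834487093670002919147489271089859815569780471834793824528145523747390901561322576412601688849490327373896610840918284588576691203618805091507209979085691489394308769733940357265390047106159431715017185584456023657146224900199607064403605569785146129753588824532743939237639349257510440714116423875976572860894831058649678492802556437028835252052049109535018931451003373686029256738595298417742890172637141674220953274001225948917548868281560655805915004082217922383174708473683267103338403808161412149242266641840603118056471124542166251285208647871929963549660171702149079261951563572492534615223454494683926408446602160813859972848208091808417621564059611445443936362965017978758378340341670584358701835740146761335109716151387024485553195120572575738742565309869418682449129164356729033478757662917700713589421954890876107994997823684393931439802777888379661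8422787781149778463872582228387379610653004058564525442626111910330457137546284226483460494403102294368618190561929206293458081715848039646222523506266878303626276690849572676016530302724641926806922969180211139675359967661740341891253246654828625816439861572322816546162467517996282917708780112818720540863830611782260371039369036924836763130941144140568711259849257343127680883977787414264371736261825961499758434063790110457239646379975768840830545892543227903768603555600311224919265129737573777458415501271260378893666852140927016940669301911557965996874865029502957170945634784779644684087825060436363709713637874803526761391610138266869775862216733056408896546809271331505982441548213368937729866897214185868158261443384143483299911373834882421332714976751215602576550825886707567639646799356207224200390633342111604600366380800876716989978252630168854046070027263206465116346572880536834361658935545981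2071594733088229554570948841587790335519904266279530824235341220240575137693876842302797378304365810615835694006565706996429285910595214521864675980654061679421879939312820926015363037250906594051456718047814220930367457016965827189688312508069336876009327766327978365545508341913674337953433031781151535224137990894536959582153578912243812246310107824854592370198529460712905763306571491065944823112558448199241201054751148545655418029681251779022522135806416051087203603029964367293413939450437650050798574364993400813303237839014606508781556603272861979290786657400338630122563647048529559108460507252445536502833699403961793359009260482711687636816948385389706054703892111522327754042551354835176445832028103683685277475463455389189928747724233319620113915084792373962008919486790369400655604567204781851614623361060237067648397254299954724989988221444000891903898626077439872125164223217860913445912468191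0314844588423302906583845682153411767597793420191644825459679810807120330513428626304131637719214277067045292468886371033584156140061258333974497861805708457692661925805050613670119852834456736300912430534280826586844725339110261388375789032241232629400499137674841641023964099097936062622429501787566952306978366246273407633103531089606595065681044558715070327515465949717075767266362226315190383973906602868989653321096208930142928936245856609992836312311134092095560618946350865607857486387855972761618276889223301617564809224787901290099775556490875006905067491804742692947452507807728241027821284082936992434897428913395070831373455906203410198999683002681474051693491478441603313721588509862667232520234446248035635795964069556102852558318792138739915738038631841328886980016910277856639730709621305971457283244721203851748155713044047684690088823626826396139897830968720292574363270077766588550703376009896586923932898891327795238225537995155094712435029001565038968832)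

end Vale.Agent.Lib.P154.Chain.D5.S4
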